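import Vale.Agent.helper4.Q4TreeM

/-!
Checks for pairs of intervals of second moments.
-/

set_option maxRecDepth 100000
set_option linter.unusedVariables false

namespace Vale.Agent.helper4.Q4

noncomputable def LA14_1 : LitT := ⟨⟨2,1,1,1,1,1⟩, [[[[[8716443189249,106707041640512],[122045790683264,128704847954049]],[[579912733818880],[]]],[[[488451887616065],[296832802488321]],[[488451887616064],[]]]],[[[[677903332270080],[599783592951808,1234870838476801]],[[],[]]],[[[],[]],[[],[]]]]], [[[[[43035852226560,412316860481,62861634232449],[1187331209953281]],[[285598145314880,62861634232448],[]]],[[[51917016023040,144978183454721,846728905605184],[8246337208320,948328778956864,1000071453696065]],[[716174474084352],[]]]],[[[[888730041327617],[]],[[531732359684096],[]]],[[[],[]],[[],[]]]]]⟩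

def RtA14_1 : Roots := ⟨⟨5,6,8⟩,⟨1,4,16384⟩,⟨0,17,16⟩,⟨0,11,16⟩,⟨0,17,16⟩,⟨0,5,256⟩,⟨0,5,256⟩,⟨0,11,32768⟩⟩

noncomputable def DA14_1 : R1D := ⟨⟨[Int.ofNat 1024, Int.negSucc 1023, Int.ofNat 1039],1024,1039,1024,1024,[Int.ofNat 0, Int.negSucc 0]⟩,⟨[Int.ofNat 0, Int.ofNat 0, Int.ofNat 1988368290, Int.negSucc 701124309, Int.ofNat 392188965, Int.negSucc 146958002],4026531840,67108864,[Int.negSucc 910, Int.negSucc 2103, Int.ofNat 6999]⟩,⟨[Int.ofNat 0, Int.ofNat 0, Int.ofNat 1966080, Int.negSucc 655359, Int.ofNat 327635, Int.negSucc 201242],3932160,4194304,[Int.ofNat 0, Int.ofNat 24, Int.ofNat 2072]⟩,39333468542247099170952751531930366771200⟩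

theorem chkA14_1 : chkR1 DA14_1 LA14_1 muQ RtA14_1 = true := by decide +kernel

theorem cA14_1_3_0 : chunkOkM (LA14_1.ctx true true 120 93 128 5 32768 8192 2048 512 65536) muQ true true 64 RtA14_1.Cx RtA14_1.CX RtA14_1.Ctp RtA14_1.Ce RtA14_1.CTp RtA14_1.CEr 0x01010101001101744017333300110703694074403217303110171111071147696907307369401037311010111073114374069690730740307696907694301107403740069074403073340311696969073694690307696907347369431140694030769690307696907347400694403073031169690369473114069074036969076947400690744033343403111111696907769431143114311406907403696907369440069440330369069403694006944030333403690694030369069403340369069403036906940334343434 = true := by decide +kernel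

theorem cA14_1_2_0 : chunkOkM (LA14_1.ctx false true 100 11 16 5 32768 32 32 512 65536) muQ false true 64 RtA14_1.Cx RtA14_1.CX RtA14_1.Ctn RtA14_1.Ce RtA14_1.CTp RtA14_1.CEr 0x0 = true := by decide +kernel

theorem cA14_1_1_0 : chunkOkM (LA14_1.ctx true false 120 93 128 5 32768 8192 2048 512 65536) muQ true false 64 RtA14_1.Cx RtA14_1.CX RtA14_1.Ctp RtA14_1.Ce RtA14_1.CTn RtA14_1.CEr 0x010101010011017440173333001107036940744032173031101711110103776969073073694010373110101110731143740696907307403076969076943011074037400690744030733403116969690736940696907347369431140694030769690307696907347400694403073031169690369473114069403076969076947400690744033343403111111696907769431143114311406907403696907369440069440330369069403694006944030333403690694030369069403340369069403036906940334343434 = true := by decide +kernel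

theorem cA14_1_0_0 : chunkOkM (LA14_1.ctx false false 100 11 16 5 32768 32 32 512 65536) muQ false false 64 RtA14_1.Cx RtA14_1.CX RtA14_1.Ctn RtA14_1.Ce RtA14_1.CTn RtA14_1.CEr 0x0 = true := by decide +kernel

theorem covA14_1 : LA14_1.Full muQ.val RtA14_1 := ⟨(LitT.cov_of_chunkM cA14_1_3_0), (LitT.cov_of_chunkM cA14_1_1_0), (LitT.cov_of_chunkM cA14_1_2_0), (LitT.cov_of_chunkM cA14_1_0_0)⟩


end Vale.Agent.helper4.Q4
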