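import Vale.Agent.helper4.Q4TreeM

/-!
Checks for pairs of intervals of second moments.
-/

set_option maxRecDepth 100000
set_option linter.unusedVariables false

namespace Vale.Agent.helper4.Q4

noncomputable def LA17_3 : LitT := ⟨⟨2,2,1,2,2,1⟩, [[[[[2230346997301249,9639598085480512,162123914007281729,17335992735498368],[54061095878393921,17574593858371712,20029462444523649],[7307313543118977]],[[83295166865080320,43843881258713153,34814815319236736],[],[]]],[[[124219378516217921],[86739897456525313],[]],[[124219378516217920],[],[]]],[[[23114656980664384,7307313543118914],[],[]],[[],[],[]]]],[[[[90704417953259520,43843881258713090,52007978206494784,43843881258713153],[87556283367948288,246235667981254657],[]],[[24867429998321664],[],[]]],[[[],[],[]],[[],[],[]]],[[[],[],[]],[[],[],[]]]]], [[[[[2533658075136000,87687762517426242,96716828456902785],[184776302190919681],[]],[[121624053751480384,21921940629356673],[],[]]],[[[1997928942796800,20823791716270081,164398709616721984,18178845401088128],[26575110144,96013522260983872,194498996602167361],[38972338896633921]],[[101888611584049152,58458508344950849],[],[]]],[[[],[38972338896633921],[10656498917048385]],[[4567070964449345],[],[]]]],[[[[208254281008619521,21921940629356610],[58458508344950849],[4567070964449345]],[[54804851573391361,54804851573391424,8220727736008769],[],[]]],[[[6059615133696064],[],[]],[[],[],[]]],[[[],[],[]],[[],[],[]]]]]⟩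

def RtA17_3 : Roots := ⟨⟨5,6,4⟩,⟨1,4,1024⟩,⟨0,3,2⟩,⟨0,11,16⟩,⟨0,17,8⟩,⟨0,5,64⟩,⟨0,5,64⟩,⟨0,11,2048⟩⟩

noncomputable def DA17_3 : R1D := ⟨⟨[Int.ofNat 33554432, Int.negSucc 33554431, Int.ofNat 33554443, Int.negSucc 33565545, Int.ofNat 36295819],33554432,139,128,33554432,[Int.ofNat 0, Int.negSucc 0, Int.ofNat 511]⟩,⟨[Int.ofNat 0, Int.ofNat 0, Int.ofNat 224345714040, Int.negSucc 76060934879, Int.ofNat 40814226705, Int.negSucc 22192324328, Int.ofNat 7800668960, Int.negSucc 1168560999],450971566080,1073741824,[Int.negSucc 2329, Int.negSucc 3920, Int.ofNat 20367, Int.negSucc 10809]⟩,⟨[Int.ofNat 0, Int.ofNat 0, Int.ofNat 31457280, Int.negSucc 10485759, Int.ofNat 5228835, Int.negSucc 3479786],62914560,4194304,[Int.ofNat 0, Int.ofNat 106, Int.ofNat 2154]⟩,16039384320615947767887037040689884104019148800⟩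

theorem chkA17_3 : chkR1 DA17_3 LA17_3 muQ RtA17_3 = true := by decide +kernel

theorem cA17_3_3_0 : chunkOkM (LA17_3.ctx true true 136 89 64 5 2048 177 1683 128 4096) muQ true true 64 RtA17_3.Cx RtA17_3.CX RtA17_3.Ctp RtA17_3.Ce RtA17_3.CTp RtA17_3.CEr 0x061a00b03403110171111a00b7031111110773421a00b73111101110731147340690307696907076907474034340311696903076969037436943114069069034703403116907694311406903694034343403111111690369431143114311449069132904b3034493694934694413734 = true := by decide +kernel

theorem cA17_3_2_0 : chunkOkM (LA17_3.ctx false true 51 1 1 1 1 1 1 1 1) muQ false true 64 RtA17_3.Cx RtA17_3.CX RtA17_3.Ctn RtA17_3.Ce RtA17_3.CTp RtA17_3.CEr 0x49 = true := by decide +kernel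

theorem cA17_3_1_0 : chunkOkM (LA17_3.ctx true false 136 89 64 5 2048 177 1683 128 4096) muQ true false 64 RtA17_3.Cx RtA17_3.CX RtA17_3.Ctp RtA17_3.Ce RtA17_3.CTn RtA17_3.CEr 0x061a00b03403110171111a00b7031111110773421a00b7311110111073114734069030769690707690747403434031169690307696903743694311406906903470303411690369431140690369403434340311111169036943114311431144906931a04b3034493694934694413734 = true := by decide +kernel

theorem cA17_3_0_0 : chunkOkM (LA17_3.ctx false false 51 1 1 1 1 1 1 1 1) muQ false false 64 RtA17_3.Cx RtA17_3.CX RtA17_3.Ctn RtA17_3.Ce RtA17_3.CTn RtA17_3.CEr 0x49 = true := by decide +kernel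

theorem covA17_3 : LA17_3.Full muQ.val RtA17_3 := ⟨(LitT.cov_of_chunkM cA17_3_3_0), (LitT.cov_of_chunkM cA17_3_1_0), (LitT.cov_of_chunkM cA17_3_2_0), (LitT.cov_of_chunkM cA17_3_0_0)⟩

noncomputable def LA11_8 : LitT := ⟨⟨2,2,1,2,2,1⟩, [[[[[78511673916260353,85154310685458496,2716855573961244737,253837172736128],[802870316236800,905935184002547777,281106471846150272,299836768126648449],[103207084870336641]],[[1382367056678092800,619242509222019137,469396080226640000],[],[]]],[[[2070282436331507777],[1370966817194901505],[]],[[2070282436331507776],[],[]]],[[[103207084870336578],[],[]],[[],[],[]]]],[[[[1391445158212730880,619242509222019074,619242509222019137],[1393247252518797312,3782747418731200513],[]],[[423894655191638016],[],[]]],[[[],[],[]],[[],[],[]]],[[[],[],[]],[[],[],[]]]]], [[[[[17998154154639360,1238485018444038210,1388331447439417473],[2766061716771962881],[]],[[2010830467384737856,309621254611009665],[],[]]],[[[47479584026787840,345591764169523201,1792916241205985344],[7019407658188800,1504821872964796480,2724477407576809537],[550437785975128129]],[[1649447146931355648,825656678962692161],[],[]]],[[[],[550437785975128129],[150510332102574145]],[[64504428043960385],[],[]]]],[[[[3448546205043105793,309621254611009602],[825656678962692161],[64504428043960385]],[[774053136527523841,774053136527523904,116107970479128641],[],[]]],[[[],[],[]],[[],[],[]]],[[[],[],[]],[[],[],[]]]]]⟩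

def RtA11_8 : Roots := ⟨⟨2,3,8⟩,⟨3,4,32⟩,⟨0,3,4⟩,⟨0,11,16⟩,⟨0,17,32⟩,⟨0,7,16⟩,⟨0,7,16⟩,⟨0,11,64⟩⟩

noncomputable def DA11_8 : R1D := ⟨⟨[Int.ofNat 2097152, Int.negSucc 2097151, Int.ofNat 2108177, Int.negSucc 2197181, Int.ofNat 2002481],2097152,82,64,16777216,[Int.ofNat 0, Int.negSucc 69, Int.ofNat 442]⟩,⟨[Int.ofNat 0, Int.ofNat 0, Int.ofNat 502333650, Int.negSucc 170789429, Int.ofNat 87194765, Int.negSucc 33727826],1006632960,67108864,[Int.negSucc 361, Int.negSucc 1847, Int.ofNat 6706]⟩,⟨[Int.ofNat 0, Int.ofNat 0, Int.ofNat 503169480, Int.negSucc 167721759, Int.ofNat 86777775, Int.negSucc 52091666],1006632960,16777216,[Int.negSucc 69, Int.ofNat 1, Int.ofNat 4167]⟩,2237637321514501641725312087149816420761600⟩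

theorem chkA11_8 : chkR1 DA11_8 LA11_8 muQ RtA11_8 = true := by decide +kernel

theorem cA11_8_3_0 : chunkOkM (LA11_8.ctx true true 135 21 64 7 64 512 16384 256 1024) muQ true true 64 RtA11_8.Cx RtA11_8.CX RtA11_8.Ctp RtA11_8.Ce RtA11_8.CTp RtA11_8.CEr 0x011017031111011473406907403073034111131a00c1169077431143114069030369690703340341111069431143114006903036906903434036411110330311011b00c1141a00c3460534111169011b00c6944336941143006903440312056311121205126512600110303776a11030356534643434 = true := by decide +kernel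

theorem cA11_8_2_0 : chunkOkM (LA11_8.ctx false true 118 5 16 7 64 128 1024 64 512) muQ false true 64 RtA11_8.Cx RtA11_8.CX RtA11_8.Ctn RtA11_8.Ce RtA11_8.CTp RtA11_8.CEr 0x0000000172a00c120566444433 = true := by decide +kernel

theorem cA11_8_1_0 : chunkOkM (LA11_8.ctx true false 118 21 64 7 64 128 1024 32 128) muQ true false 64 RtA11_8.Cx RtA11_8.CX RtA11_8.Ctp RtA11_8.Ce RtA11_8.CTn RtA11_8.CEr 0x7d6b48657158142d75020d1101731a00c3111111077340340311116907073114311406940303031111033114001103443434 = true := by decide +kernel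

theorem cA11_8_0_0 : chunkOkM (LA11_8.ctx false false 106 5 16 7 64 32 64 32 128) muQ false false 64 RtA11_8.Cx RtA11_8.CX RtA11_8.Ctn RtA11_8.Ce RtA11_8.CTn RtA11_8.CEr 0x0 = true := by decide +kernel

theorem covA11_8 : LA11_8.Full muQ.val RtA11_8 := ⟨(LitT.cov_of_chunkM cA11_8_3_0), (LitT.cov_of_chunkM cA11_8_1_0), (LitT.cov_of_chunkM cA11_8_2_0), (LitT.cov_of_chunkM cA11_8_0_0)⟩

noncomputable def LA7_6 : LitT := ⟨⟨2,2,1,2,2,1⟩, [[[[[2225349291147265,2966756486283328,108625733722570817,1044704010368],[36221772047056961,11716617509462144,12094679347200129],[4461104549855361]],[[56277916975104000,26766627299131457,20666189033275520],[],[]]],[[[15093643345920,83623826139856961],[55060364286492673],[]],[[83623826139856960],[],[]]],[[[4461104549855298],[],[]],[[],[],[]]]],[[[[57029347681689600,26766627299131394,26766627299131457],[58363627339259904,152265317135056897],[]],[[16141161538486272],[],[]]],[[[],[],[]],[[],[],[]]],[[[],[],[]],[[],[],[]]]]], [[[[[57447442022400,53533254598262850,59633692864118913],[2044345712640,111576141004800001],[]],[[81358941912563776,13383313649565825],[],[]]],[[[14069479243776001,113771974049280064],[8861069082624,63874955666608192,114220068307091521],[23792557599227969]],[[68122046927732736,35688836398841921],[],[]]],[[[],[23792557599227969],[6505777468538945]],[[2788190343659585],[],[]]]],[[[[139890173922803713,13383313649565762],[35688836398841921],[2788190343659585]],[[33458284123914241,33458284123914304,5018742618587201],[],[]]],[[[],[],[]],[[],[],[]]],[[[],[],[]],[[],[],[]]]]]⟩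

def RtA7_6 : Roots := ⟨⟨2,3,32⟩,⟨1,2,32⟩,⟨0,3,8⟩,⟨0,3,8⟩,⟨0,17,128⟩,⟨0,5,16⟩,⟨0,5,16⟩,⟨0,11,128⟩⟩

noncomputable def DA7_6 : R1D := ⟨⟨[Int.ofNat 33554432, Int.negSucc 33554431, Int.ofNat 33560251, Int.negSucc 33734153, Int.ofNat 33237819],33554432,139,128,33554432,[Int.ofNat 0, Int.negSucc 22, Int.ofNat 489]⟩,⟨[Int.ofNat 0, Int.ofNat 0, Int.ofNat 50324445, Int.negSucc 16775304, Int.ofNat 8590500, Int.negSucc 5141879],100663296,16777216,[Int.negSucc 48, Int.negSucc 4, Int.ofNat 4140]⟩,⟨[Int.ofNat 0, Int.ofNat 0, Int.ofNat 12582549, Int.negSucc 4194380, Int.ofNat 2119700, Int.negSucc 1260749],25165824,16777216,[Int.negSucc 21, Int.negSucc 17, Int.ofNat 4100]⟩,2148131828653921576056299603663823763931136⟩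

theorem chkA7_6 : chkR1 DA7_6 LA7_6 muQ RtA7_6 = true := by decide +kernel

theorem cA7_6_3_0 : chunkOkM (LA7_6.ctx true true 135 11 128 3 64 1024 8192 256 4096) muQ true true 64 RtA7_6.Cx RtA7_6.CX RtA7_6.Ctp RtA7_6.Ce RtA7_6.CTp RtA7_6.CEr 0x0001107114036440311110111103743311400690303031206903403566431111030311011034341111033114006903440331211110331140069034403356111201103456a611030351211030312110303561101101103037341201211030356563456346344 = true := by decide +kernel

theorem cA7_6_2_0 : chunkOkM (LA7_6.ctx false true 121 5 64 3 64 64 4096 128 2048) muQ false true 64 RtA7_6.Cx RtA7_6.CX RtA7_6.Ctn RtA7_6.Ce RtA7_6.CTp RtA7_6.CEr 0x0001100120505433111101205054331211001205643564644 = true := by decide +kernel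

theorem cA7_6_1_0 : chunkOkM (LA7_6.ctx true false 120 9 128 3 64 128 4096 32 1024) muQ true false 64 RtA7_6.Cx RtA7_6.CX RtA7_6.Ctp RtA7_6.Ce RtA7_6.CTn RtA7_6.CEr 0x01101143031100116907303611011034346344 = true := by decide +kernel

theorem cA7_6_0_0 : chunkOkM (LA7_6.ctx false false 106 5 64 3 64 16 256 32 256) muQ false false 64 RtA7_6.Cx RtA7_6.CX RtA7_6.Ctn RtA7_6.Ce RtA7_6.CTn RtA7_6.CEr 0x0 = true := by decide +kernel

theorem covA7_6 : LA7_6.Full muQ.val RtA7_6 := ⟨(LitT.cov_of_chunkM cA7_6_3_0), (LitT.cov_of_chunkM cA7_6_1_0), (LitT.cov_of_chunkM cA7_6_2_0), (LitT.cov_of_chunkM cA7_6_0_0)⟩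

noncomputable def LA13_4 : LitT := ⟨⟨2,2,1,2,2,1⟩, [[[[[4446509076578305,324976063341920321,94933511115595904],[19992108072960,108364936865906753,35147020603465856,40806276782653569],[14742400618463361]],[[166578704854548480,88454403710779457,70397532383772800],[],[]]],[[[2911091876167680,248671707312242753],[175385476130144257],[]],[[248671707312242752],[],[]]],[[[126577980285124672,14742400618463298],[],[]],[[],[],[]]]],[[[[159396399630950400,88454403710779394,284800455641530432,88454403710779457],[175089218120146944,499884619510284289],[]],[[50202421066432512],[],[]]],[[[],[],[]],[[],[],[]]],[[[],[],[]],[[],[],[]]]]], [[[[[349837000704000,2736044663832640,176908807421558850,194965678748565633],[376447093922856961],[]],[[243613503187845184,44227201855389825],[],[]]],[[[41644676213637121,382447231230873664,265538167538319488],[7607219650560,191828146634256448,396245792632782913],[78626136631803969]],[[203776871991607296,117939204947705921],[],[]]],[[[],[78626136631803969],[21499334235258945]],[[9214000386539585],[],[]]]],[[[[416861863217233921,44227201855389762],[117939204947705921],[9214000386539585]],[[110568004638474241,110568004638474304,16585200695771201],[],[]]],[[[88512722512773184],[],[]],[[],[],[]]],[[[],[],[]],[[],[],[]]]]]⟩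

def RtA13_4 : Roots := ⟨⟨4,5,8⟩,⟨1,4,256⟩,⟨0,1,1⟩,⟨0,11,16⟩,⟨0,7,8⟩,⟨0,5,32⟩,⟨0,5,32⟩,⟨0,11,512⟩⟩

noncomputable def DA13_4 : R1D := ⟨⟨[Int.ofNat 8388608, Int.negSucc 8388607, Int.ofNat 8388743, Int.negSucc 8410225, Int.ofNat 9153287],8388608,143,128,33554432,[Int.ofNat 0, Int.negSucc 5, Int.ofNat 506]⟩,⟨[Int.ofNat 0, Int.ofNat 0, Int.ofNat 56351782200, Int.negSucc 18626747439, Int.ofNat 8965426925, Int.negSucc 6453357014, Int.ofNat 5339647278, Int.negSucc 2133644489],112742891520,268435456,[Int.negSucc 305, Int.ofNat 3669, Int.ofNat 5752, Int.negSucc 14606]⟩,⟨[Int.ofNat 0, Int.ofNat 0, Int.ofNat 62914545, Int.negSucc 20970264, Int.ofNat 10456940, Int.negSucc 7089413],125829120,4194304,[Int.negSucc 0, Int.ofNat 125, Int.ofNat 2174]⟩,1002461520038496735492939815043117756501196800⟩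

theorem chkA13_4 : chkR1 DA13_4 LA13_4 muQ RtA13_4 = true := by decide +kernel

theorem cA13_4_3_0 : chunkOkM (LA13_4.ctx true true 120 37 64 5 512 32 256 64 1024) muQ true true 64 RtA13_4.Cx RtA13_4.CX RtA13_4.Ctp RtA13_4.Ce RtA13_4.CTp RtA13_4.CEr 0x61a00b011131a00b70173114069030743403116911037114311406907034031169690773114069690770343434036906903403690690343403690694030369069034343434 = true := by decide +kernel

theorem cA13_4_2_0 : chunkOkM (LA13_4.ctx false true 112 9 16 5 512 32 16 64 1024) muQ false true 64 RtA13_4.Cx RtA13_4.CX RtA13_4.Ctn RtA13_4.Ce RtA13_4.CTp RtA13_4.CEr 0x0 = true := by decide +kernel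

theorem cA13_4_1_0 : chunkOkM (LA13_4.ctx true false 127 157 256 5 512 64 512 64 1024) muQ true false 64 RtA13_4.Cx RtA13_4.CX RtA13_4.Ctp RtA13_4.Ce RtA13_4.CTn RtA13_4.CEr 0x71a00b011171a00b70173114069403070769690307351a00b743403116911690707371143114690303070769690776903070734031169690773114690703070707696903721a00c343434036906903403690690343403690690340369069034343434 = true := by decide +kernel

theorem cA13_4_0_0 : chunkOkM (LA13_4.ctx false false 112 9 16 5 512 32 16 64 1024) muQ false false 64 RtA13_4.Cx RtA13_4.CX RtA13_4.Ctn RtA13_4.Ce RtA13_4.CTn RtA13_4.CEr 0x0 = true := by decide +kernel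

theorem covA13_4 : LA13_4.Full muQ.val RtA13_4 := ⟨(LitT.cov_of_chunkM cA13_4_3_0), (LitT.cov_of_chunkM cA13_4_1_0), (LitT.cov_of_chunkM cA13_4_2_0), (LitT.cov_of_chunkM cA13_4_0_0)⟩


end Vale.Agent.helper4.Q4
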