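import Vale.Agent.helper4.Q4TreeM

/-!
Checks for pairs of intervals of second moments.
-/

set_option maxRecDepth 100000
set_option linter.unusedVariables false

namespace Vale.Agent.helper4.Q4

noncomputable def LA12_5 : LitT := ⟨⟨2,2,1,2,2,1⟩, [[[[[964799584272385,86929305206848,54801858551611457,14776872071086208],[1115097661440,18273883253637185,5858077077946496,6094630517391489],[2288358575308929]],[[28002890022912000,13730151451852865,10694681927884928],[],[]]],[[[181000926658560,41860301852037185],[27761497237094401],[]],[[41860301852037184],[],[]]],[[[19702288880762944,2288358575308866],[],[]],[[],[],[]]]],[[[[27126510844723200,13730151451852802,44330149981716544,13730151451852865],[29167784228143104,76749392271851521],[]],[[8519192918679552],[],[]]],[[[],[],[]],[[],[],[]]],[[[],[],[]],[[],[],[]]]]], [[[[[16967903477760,27460302903705666,30495772427673729],[56224339187466241],[]],[[40929870099775552,6865075725926529],[],[]]],[[[7000722505728001,59303225648701504,50413386891264128],[16771448832000,31813429719490624,58071667130245185],[12204579068313665]],[[34038812944367616,18306868602470465],[],[]]],[[[],[12204579068313665],[3337189588992065]],[[1430224109568065],[],[]]]],[[[[70053969586495489,6865075725926466],[18306868602470465],[1430224109568065]],[[17162689314816001,17162689314816064,2574403397222465],[],[]]],[[[16804462297088064],[],[]],[[],[],[]]],[[[],[],[]],[[],[],[]]]]]⟩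

def RtA12_5 : Roots := ⟨⟨3,4,8⟩,⟨1,2,64⟩,⟨0,7,8⟩,⟨0,11,16⟩,⟨0,11,16⟩,⟨0,7,32⟩,⟨0,7,32⟩,⟨0,11,256⟩⟩

noncomputable def DA12_5 : R1D := ⟨⟨[Int.ofNat 8192, Int.negSucc 8191, Int.ofNat 8197, Int.negSucc 8309, Int.ofNat 8325],8192,74,64,16777216,[Int.ofNat 0, Int.negSucc 31, Int.ofNat 480]⟩,⟨[Int.ofNat 0, Int.ofNat 0, Int.ofNat 56366203320, Int.negSucc 18729519199, Int.ofNat 9154074825, Int.negSucc 6003923120, Int.ofNat 4986804480, Int.negSucc 2430480999],112742891520,268435456,[Int.negSucc 157, Int.ofNat 2677, Int.ofNat 3629, Int.negSucc 15589]⟩,⟨[Int.ofNat 0, Int.ofNat 0, Int.ofNat 31457010, Int.negSucc 10485549, Int.ofNat 5273625, Int.negSucc 3176522],62914560,4194304,[Int.negSucc 5, Int.ofNat 4, Int.ofNat 2058]⟩,2936898984487783404764472114384134052249600⟩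

theorem chkA12_5 : chkR1 DA12_5 LA12_5 muQ RtA12_5 = true := by decide +kernel

theorem cA12_5_3_0 : chunkOkM (LA12_5.ctx true true 121 29 64 3 128 512 512 64 512) muQ true true 64 RtA12_5.Cx RtA12_5.CX RtA12_5.Ctp RtA12_5.Ce RtA12_5.CTp RtA12_5.CEr 0x81900b0111070171101743011074030730341169011110734731140694030307696903769406907403343403111111690731143114311406907403031169073114069034033403690694030369069034343434 = true := by decide +kernel

theorem cA12_5_2_0 : chunkOkM (LA12_5.ctx false true 105 7 16 3 128 32 32 64 512) muQ false true 64 RtA12_5.Cx RtA12_5.CX RtA12_5.Ctn RtA12_5.Ce RtA12_5.CTp RtA12_5.CEr 0x0 = true := by decide +kernel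

theorem cA12_5_1_0 : chunkOkM (LA12_5.ctx true false 124 57 128 3 128 512 512 64 512) muQ true false 64 RtA12_5.Cx RtA12_5.CX RtA12_5.Ctp RtA12_5.Ce RtA12_5.CTn RtA12_5.CEr 0x01c43e8549f79d6464713e48f874030d303011111a00b71140173c1900c11690770307434031169110703111131900c7347311406903074036969036947069070343434031111116951900c73114311431140696907703403116969073311406921900c30343403690694030369069403343434 = true := by decide +kernel

theorem cA12_5_0_0 : chunkOkM (LA12_5.ctx false false 105 7 16 3 128 32 32 64 512) muQ false false 64 RtA12_5.Cx RtA12_5.CX RtA12_5.Ctn RtA12_5.Ce RtA12_5.CTn RtA12_5.CEr 0x0 = true := by decide +kernel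

theorem covA12_5 : LA12_5.Full muQ.val RtA12_5 := ⟨(LitT.cov_of_chunkM cA12_5_3_0), (LitT.cov_of_chunkM cA12_5_1_0), (LitT.cov_of_chunkM cA12_5_2_0), (LitT.cov_of_chunkM cA12_5_0_0)⟩

noncomputable def LA4_8 : LitT := ⟨⟨2,2,1,2,2,1⟩, [[[[[85317087915933697,40558421832892480,2595917987919691841,253837172736128],[669058596864000,865622655322030145,281120976827449472,298973928953364609],[110080065483571329]],[[1382365145082101760,660480392901427265,510634171120066688],[],[]]],[[[588612265574400,2029968297542062145],[1338742449257840641],[]],[[2029968297542062144],[],[]]],[[[110080065483571266],[],[]],[[],[],[]]]],[[[[1340041943764500480,660480392901427202,660480392901427265],[1400193747529629696,3734156297982689281],[]],[[347459736350711808],[],[]]],[[[],[],[]],[[],[],[]]],[[[],[],[]],[[],[],[]]]]], [[[[[2343616685015040,1320960785802854466,1470807007584215169],[2758101831065272321],[]],[[1946958011566129216,330240196450713729],[],[]]],[[[345591286270525441,2682412919271751744],[178629132681216,1535168977100144704,2853084561580974145],[587093682579046465]],[[1642639343436693504,880640523868569665],[],[]]],[[[],[587093682579046465],[160533428830208065]],[[68800040927232065],[],[]]]],[[[[3384671761089994753,330240196450713666],[880640523868569665],[68800040927232065]],[[825600491126784001,825600491126784064,123840073669017665],[],[]]],[[[],[],[]],[[],[],[]]],[[[],[],[]],[[],[],[]]]]]⟩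

def RtA4_8 : Roots := ⟨⟨1,4,256⟩,⟨3,4,32⟩,⟨0,5,32⟩,⟨0,5,32⟩,⟨0,11,512⟩,⟨0,7,16⟩,⟨0,7,16⟩,⟨0,11,64⟩⟩

noncomputable def DA4_8 : R1D := ⟨⟨[Int.ofNat 16777216, Int.negSucc 16777215, Int.ofNat 16777363, Int.negSucc 16795289, Int.ofNat 17086675],16777216,268,256,67108864,[Int.ofNat 0, Int.negSucc 6, Int.ofNat 505]⟩,⟨[Int.ofNat 0, Int.ofNat 0, Int.ofNat 125829090, Int.negSucc 41942989, Int.ofNat 20991985, Int.negSucc 12619802],251658240,4194304,[Int.negSucc 0, Int.ofNat 2, Int.ofNat 2051]⟩,⟨[Int.ofNat 0, Int.ofNat 0, Int.ofNat 503169480, Int.negSucc 167730159, Int.ofNat 86777655, Int.negSucc 51941762],1006632960,16777216,[Int.negSucc 69, Int.negSucc 4, Int.ofNat 4161]⟩,4475274643029003283450624174299632841523200⟩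

theorem chkA4_8 : chkR1 DA4_8 LA4_8 muQ RtA4_8 = true := by decide +kernel

theorem cA4_8_3_0 : chunkOkM (LA4_8.ctx true true 142 5 512 13 128 128 4096 1024 4096) muQ true true 64 RtA4_8.Cx RtA4_8.CX RtA4_8.Ctp RtA4_8.Ce RtA4_8.CTp RtA4_8.CEr 0x02b2a00b126a08505412006a05645605612126a081265126506a08051221b00b505120114035640565126a006a011403505646a001103446a00114036a01103456456565566 = true := by decide +kernel

theorem cA4_8_2_0 : chunkOkM (LA4_8.ctx false true 154 17 2048 13 128 512 65536 1024 4096) muQ false true 64 RtA4_8.Cx RtA4_8.CX RtA4_8.Ctn RtA4_8.Ce RtA4_8.CTp RtA4_8.CEr 0x001205660512120512650006a0860505445126a06a006a000000000006a6054444433377564565566 = true := by decide +kernel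

theorem cA4_8_1_0 : chunkOkM (LA4_8.ctx true false 126 5 512 7 64 256 2048 32 128) muQ true false 64 RtA4_8.Cx RtA4_8.CX RtA4_8.Ctp RtA4_8.Ce RtA4_8.CTn RtA4_8.CEr 0x01101740303 = true := by decide +kernel

theorem cA4_8_0_0 : chunkOkM (LA4_8.ctx false false 121 5 512 7 64 64 1024 32 128) muQ false false 64 RtA4_8.Cx RtA4_8.CX RtA4_8.Ctn RtA4_8.Ce RtA4_8.CTn RtA4_8.CEr 0x0 = true := by decide +kernel

theorem covA4_8 : LA4_8.Full muQ.val RtA4_8 := ⟨(LitT.cov_of_chunkM cA4_8_3_0), (LitT.cov_of_chunkM cA4_8_1_0), (LitT.cov_of_chunkM cA4_8_2_0), (LitT.cov_of_chunkM cA4_8_0_0)⟩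

noncomputable def LA14_5 : LitT := ⟨⟨2,2,1,2,2,1⟩, [[[[[53556488962049,2722338638921792,72429228968116289,12635083769168000],[12336874127360,24151872415727681,7809593305841792,11023803055227009],[3454802973425793]],[[36084002775367680,20728817840554049,16817368320958592],[],[]]],[[[328618617077760,54544892331503681],[43538170817544193],[]],[[54544892331503680],[],[]]],[[[16846770684297280,3454802973425730],[],[]],[[],[],[]]]],[[[[38752840151285760,20728817840553986,37905234039668800,20728817840554049],[38899435431804928,129920793621282817],[]],[[12259794147549184],[],[]]],[[[],[],[]],[[],[],[]]],[[[],[],[]],[[],[],[]]]]], [[[[[451936470958080,41457635681108034,45369085200703617],[101697066022993921],[]],[[54243031766794304,10364408920277121],[],[]]],[[[9021000693841921,83180185062809664,20559304489697408],[4733485973504,42568746375487552,105557440340648001],[18425615858270273]],[[45051446980247552,27638423787405377],[],[]]],[[[],[18425615858270273],[5038254336245825]],[[2159251858391105],[],[]]]],[[[[91771804184535041,10364408920277058],[27638423787405377],[2159251858391105]],[[25911022300692481,25911022300692544,3886653345103937],[],[]]],[[[6853101496565824],[],[]],[[],[],[]]],[[[],[],[]],[[],[],[]]]]]⟩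

def RtA14_5 : Roots := ⟨⟨5,6,8⟩,⟨1,2,64⟩,⟨0,17,16⟩,⟨0,11,16⟩,⟨0,17,16⟩,⟨0,7,32⟩,⟨0,7,32⟩,⟨0,11,256⟩⟩

noncomputable def DA14_5 : R1D := ⟨⟨[Int.ofNat 65536, Int.negSucc 65535, Int.ofNat 65539, Int.negSucc 65897, Int.ofNat 75411],65536,76,64,16777216,[Int.ofNat 0, Int.negSucc 7, Int.ofNat 504]⟩,⟨[Int.ofNat 0, Int.ofNat 0, Int.ofNat 14064267630, Int.negSucc 4676827329, Int.ofNat 2452158765, Int.negSucc 1579016144, Int.ofNat 799509438, Int.negSucc 185847209],28185722880,268435456,[Int.negSucc 737, Int.ofNat 436, Int.ofNat 8936, Int.negSucc 8621]⟩,⟨[Int.ofNat 0, Int.ofNat 0, Int.ofNat 41943030, Int.negSucc 13978689, Int.ofNat 6795495, Int.negSucc 5745608],83886080,4194304,[Int.negSucc 0, Int.ofNat 348, Int.ofNat 2397]⟩,5873797968975566809528944228768268104499200⟩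

theorem chkA14_5 : chkR1 DA14_5 LA14_5 muQ RtA14_5 = true := by decide +kernel

theorem cA14_5_3_0 : chunkOkM (LA14_5.ctx true true 126 95 128 3 128 1024 512 64 512) muQ true true 64 RtA14_5.Cx RtA14_5.CX RtA14_5.Ctp RtA14_5.Ce RtA14_5.CTp RtA14_5.CEr 0x021a00b11110734034030311690369431140694030307070711690731140694030734303411111169073114311431140694030303690694033403690694030369069403343434 = true := by decide +kernel

theorem cA14_5_2_0 : chunkOkM (LA14_5.ctx false true 106 11 16 3 128 32 32 64 512) muQ false true 64 RtA14_5.Cx RtA14_5.CX RtA14_5.Ctn RtA14_5.Ce RtA14_5.CTp RtA14_5.CEr 0x0 = true := by decide +kernel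

theorem cA14_5_1_0 : chunkOkM (LA14_5.ctx true false 125 47 64 3 128 1024 1024 64 512) muQ true false 64 RtA14_5.Cx RtA14_5.CX RtA14_5.Ctp RtA14_5.Ce RtA14_5.CTn RtA14_5.CEr 0x01101706940731111122900b7340694030707303403116969070736943114069074030311690731140690740334303411111169033114311431140690340303690694033403690694030369069403343434 = true := by decide +kernel

theorem cA14_5_0_0 : chunkOkM (LA14_5.ctx false false 106 11 16 3 128 32 32 64 512) muQ false false 64 RtA14_5.Cx RtA14_5.CX RtA14_5.Ctn RtA14_5.Ce RtA14_5.CTn RtA14_5.CEr 0x0 = true := by decide +kernel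

theorem covA14_5 : LA14_5.Full muQ.val RtA14_5 := ⟨(LitT.cov_of_chunkM cA14_5_3_0), (LitT.cov_of_chunkM cA14_5_1_0), (LitT.cov_of_chunkM cA14_5_2_0), (LitT.cov_of_chunkM cA14_5_0_0)⟩

noncomputable def LA14_7 : LitT := ⟨⟨2,2,1,2,2,1⟩, [[[[[72398274255913024,2707477014654222401,340230673798004864],[2167749853839360,902808997566873665,280958521036898432,580689675746427009],[128454019327721601]],[[1108996404585431040,770724115966328897,650510638516150400],[],[]]],[[[1836900207483801665],[2016355009356103681],[]],[[1836900207483801664],[],[]]],[[[453639793255907392,128454019327721538],[],[]],[[],[],[]]]],[[[[1371847551406571520,770724115966328834,1020689534825791552,770724115966328897],[1396241782633267200,6474291021620428801],[]],[[701797455073566720],[],[]]],[[[],[],[]],[[],[],[]]],[[[],[],[]],[[],[],[]]]]], [[[[[5711639740416000,190444920027217921,1541448231932657730,1661661709382836353],[5356993044723793921],[]],[[2003934158656634944,385362057983164545],[],[]]],[[[7834009101926400,277249101146357761,2610761496713625664,488134041120276608],[2946569393405952,1506016895016960064,5246792900710850625],[685088103081181249]],[[1576690425759006720,1027632154621771841],[],[]]],[[[],[685088103081181249],[187328778186260545]],[[80283762079825985],[],[]]]],[[[[3157333739597537281,385362057983164482],[1027632154621771841],[80283762079825985]],[[963405144957911041,963405144957911104,144510771743686721],[],[]]],[[[162711347040092224],[],[]],[[],[],[]]],[[[],[],[]],[[],[],[]]]]]⟩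

def RtA14_7 : Roots := ⟨⟨5,6,8⟩,⟨2,3,32⟩,⟨0,17,16⟩,⟨0,11,16⟩,⟨0,17,16⟩,⟨0,3,8⟩,⟨0,3,8⟩,⟨0,17,128⟩⟩

noncomputable def DA14_7 : R1D := ⟨⟨[Int.ofNat 131072, Int.negSucc 131071, Int.ofNat 131315, Int.negSucc 136849, Int.ofNat 155771],131072,88,64,16777216,[Int.ofNat 0, Int.negSucc 35, Int.ofNat 476]⟩,⟨[Int.ofNat 0, Int.ofNat 0, Int.ofNat 9388557045, Int.negSucc 3140929084, Int.ofNat 1607515770, Int.negSucc 917781479, Int.ofNat 398679876, Int.negSucc 81713339],18790481920,268435456,[Int.negSucc 436, Int.negSucc 1118, Int.ofNat 8700, Int.negSucc 7001]⟩,⟨[Int.ofNat 0, Int.ofNat 0, Int.ofNat 503316000, Int.negSucc 167636079, Int.ofNat 69616995, Int.negSucc 100885202],1006632960,16777216,[Int.negSucc 3, Int.ofNat 1699, Int.ofNat 5799]⟩,2610576875100251915346197435008119157555200⟩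

theorem chkA14_7 : chkR1 DA14_7 LA14_7 muQ RtA14_7 = true := by decide +kernel

theorem cA14_7_3_0 : chunkOkM (LA14_7.ctx true true 124 45 64 5 64 1024 1024 16 256) muQ true true 64 RtA14_7.Cx RtA14_7.CX RtA14_7.Ctp RtA14_7.Ce RtA14_7.CTp RtA14_7.CEr 0x01b0ddb575940c074575020d111121b00b73431a02c3034031169690707369431140694030307116907311406907403343034111111069431143114311406907694034030369069034303469069034036906906940334343434 = true := by decide +kernel

theorem cA14_7_2_0 : chunkOkM (LA14_7.ctx false true 104 11 16 5 64 32 32 16 256) muQ false true 64 RtA14_7.Cx RtA14_7.CX RtA14_7.Ctn RtA14_7.Ce RtA14_7.CTp RtA14_7.CEr 0x0 = true := by decide +kernel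

theorem cA14_7_1_0 : chunkOkM (LA14_7.ctx true false 122 23 32 5 64 1024 1024 16 256) muQ true false 64 RtA14_7.Cx RtA14_7.CX RtA14_7.Ctp RtA14_7.Ce RtA14_7.CTn RtA14_7.CEr 0x112a00b110170694073111118c0246759962bd96572927af775030d73400690744033403116906907436943114069074030311690731140694030734340311111169073114311431140694030303690694033403690694030369069403343434 = true := by decide +kernel

theorem cA14_7_0_0 : chunkOkM (LA14_7.ctx false false 104 11 16 5 64 32 32 16 256) muQ false false 64 RtA14_7.Cx RtA14_7.CX RtA14_7.Ctn RtA14_7.Ce RtA14_7.CTn RtA14_7.CEr 0x0 = true := by decide +kernel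

theorem covA14_7 : LA14_7.Full muQ.val RtA14_7 := ⟨(LitT.cov_of_chunkM cA14_7_3_0), (LitT.cov_of_chunkM cA14_7_1_0), (LitT.cov_of_chunkM cA14_7_2_0), (LitT.cov_of_chunkM cA14_7_0_0)⟩


end Vale.Agent.helper4.Q4
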