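import Vale.Agent.helper4.Q4TreeM

/-!
Checks for pairs of intervals of second moments.
-/

set_option maxRecDepth 100000
set_option linter.unusedVariables false

namespace Vale.Agent.helper4.Q4

noncomputable def LA23_2 : LitT := ⟨⟨2,2,1,2,2,1⟩, [[[[[148930918612993,36783353864650816,10159511197188161],[3387740682977345,1098412116148352,1070623030395009],[409366796697729]],[[5216028611051520,2456200780185665,1890791428792448],[],[]]],[[[7781124156641345],[5009990158909441],[]],[[7781124156641344],[],[]]],[[[409366796697666],[],[]],[[],[],[]]]],[[[[41850451557089280,2456200780185602,2456200780185665],[5471721259794432,13659934623252481],[]],[[1560527485526016],[],[]]],[[[],[],[]],[[],[],[]]],[[[],[],[]],[[],[],[]]]]], [[[[[58193163583488000,4912401560371266,5477810911764609],[9876738586705921],[]],[[7615159870685248,1228100390092929],[],[]]],[[[27101194176430080,1304007152762881,27110612769177664],[548111646720,5994153498378304,10107201853153345],[2183289582387265]],[[6371104845201408,3274934373580865],[],[]]],[[[],[2183289582387265],[596993245184065]],[[255854247936065],[],[]]]],[[[[13040033377296385,1228100390092866],[3274934373580865],[255854247936065]],[[3070250975232001,3070250975232064,460537646284865],[],[]]],[[[],[],[]],[[],[],[]]],[[[],[],[]],[[],[],[]]]]]⟩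

def RtA23_2 : Roots := ⟨⟨2816,3073,1024⟩,⟨1,4,4096⟩,⟨0,17,8⟩,⟨0,11,16⟩,⟨0,17,4⟩,⟨0,5,128⟩,⟨0,5,128⟩,⟨0,11,8192⟩⟩

noncomputable def DA23_2 : R1D := ⟨⟨[Int.ofNat 16777216, Int.negSucc 16777215, Int.ofNat 16779031, Int.negSucc 16827089, Int.ofNat 16266775],16777216,271,256,67108864,[Int.ofNat 0, Int.negSucc 21, Int.ofNat 490]⟩,⟨Qtop,dtop,1,[]⟩,⟨[Int.ofNat 0, Int.ofNat 0, Int.ofNat 1966080, Int.negSucc 655359, Int.ofNat 327435, Int.negSucc 186002],3932160,4194304,[Int.ofNat 0, Int.negSucc 55, Int.ofNat 1992]⟩,18646977679287513681044267392915136839680⟩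

theorem chkA23_2 : chkR1T DA23_2 LA23_2 muQ RtA23_2 = true := by decide +kernel

theorem cA23_2_3_0 : chunkOkM (LA23_2.ctx true true 176 188705 65536 5 8192 8177 7667 256 16384) muQ true true 64 RtA23_2.Cx RtA23_2.CX RtA23_2.Ctp RtA23_2.Ce RtA23_2.CTp RtA23_2.CEr 0x21a00b010101010110170174110174114017333311a04b1131a04b311a00b703691101791804b37401703403111111362904b371143017494949490114413413777707369016921a00b7017031101721a04b69431800b73437421a04b3434111111111111011430177114371143494906901103470344931131a04b1143493477369411434114493413694413 = true := by decide +kernel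

theorem cA23_2_2_0 : chunkOkM (LA23_2.ctx false true 48 1 1 1 1 1 1 1 1) muQ false true 64 RtA23_2.Cx RtA23_2.CX RtA23_2.Ctn RtA23_2.Ce RtA23_2.CTp RtA23_2.CEr 0x49 = true := by decide +kernel

theorem cA23_2_1_0 : chunkOkM (LA23_2.ctx true false 172 46341 16384 5 8192 8177 7667 256 16384) muQ true false 64 RtA23_2.Cx RtA23_2.CX RtA23_2.Ctp RtA23_2.Ce RtA23_2.CTn RtA23_2.CEr 0x21a00b010101010110170171101744110174114017333301131a04b361900b703691101703740170340311111131a04b371143017362904b369016921a00b7017031101711a04b6907434374132904b3434111111111111011430177114371143494906901103470344931131a04b1143493477369411434114493413694413 = true := by decide +kernel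

theorem cA23_2_0_0 : chunkOkM (LA23_2.ctx false false 48 1 1 1 1 1 1 1 1) muQ false false 64 RtA23_2.Cx RtA23_2.CX RtA23_2.Ctn RtA23_2.Ce RtA23_2.CTn RtA23_2.CEr 0x49 = true := by decide +kernel

theorem covA23_2 : LA23_2.Full muQ.val RtA23_2 := ⟨(LitT.cov_of_chunkM cA23_2_3_0), (LitT.cov_of_chunkM cA23_2_1_0), (LitT.cov_of_chunkM cA23_2_2_0), (LitT.cov_of_chunkM cA23_2_0_0)⟩

noncomputable def LA12_8 : LitT := ⟨⟨2,2,1,2,2,1⟩, [[[[[9222400335937537,345808398484242497,31729646592128],[203505323212800,115309048580014145,35127128057684096,38148135352565889],[12805498680115329]],[[172781515246141440,76832992080691265,58103745799127168],[],[]]],[[[260840354146222145],[174463071572459521],[]],[[260840354146222144],[],[]]],[[[12805498680115266],[],[]],[[],[],[]]]],[[[[157678686267678720,76832992080691202,76832992080691265],[173471438075682816,481324941827604481],[]],[[56949830317375488],[],[]]],[[[],[],[]],[[],[],[]]],[[[],[],[]],[[],[],[]]]]], [[[[[1341477421056000,6184861738205248,153665984161382466,172395230442946689]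,[351925140549795841],[]],[[254743130325123136,38416496040345729],[],[]]],[[[7175827685376000,43195378811535361,155080491643146304],[1480404655669248,186465492391587904,342243168436142145],[68295992960614465]],[[206754493721739264,102443989440921665],[],[]]],[[[],[68295992960614465],[18674685575168065]],[[8003436675072065],[],[]]]],[[[[434442655459049473,38416496040345666],[102443989440921665],[8003436675072065]],[[96041240100864001,96041240100864064,14406186015129665],[],[]]],[[[],[],[]],[[],[],[]]],[[[],[],[]],[[],[],[]]]]]⟩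

def RtA12_8 : Roots := ⟨⟨3,4,8⟩,⟨3,4,32⟩,⟨0,7,8⟩,⟨0,11,16⟩,⟨0,11,16⟩,⟨0,7,16⟩,⟨0,7,16⟩,⟨0,11,64⟩⟩

noncomputable def DA12_8 : R1D := ⟨⟨[Int.ofNat 2097152, Int.negSucc 2097151, Int.ofNat 2115643, Int.negSucc 2237289, Int.ofNat 1987675],2097152,86,64,16777216,[Int.ofNat 0, Int.negSucc 81, Int.ofNat 430]⟩,⟨[Int.ofNat 0, Int.ofNat 0, Int.ofNat 670386390, Int.negSucc 228550129, Int.ofNat 105377415, Int.negSucc 31102928],1342177280,67108864,[Int.negSucc 264, Int.negSucc 2879, Int.ofNat 5577]⟩,⟨[Int.ofNat 0, Int.ofNat 0, Int.ofNat 62896185, Int.negSucc 20958744, Int.ofNat 10846320, Int.negSucc 6627605],125829120,16777216,[Int.negSucc 69, Int.ofNat 38, Int.ofNat 4204]⟩,2983516428686002188967082782866421894348800⟩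

theorem chkA12_8 : chkR1 DA12_8 LA12_8 muQ RtA12_8 = true := by decide +kernel

theorem cA12_8_3_0 : chunkOkM (LA12_8.ctx true true 126 13 32 7 64 1024 2048 128 512) muQ true true 64 RtA12_8.Cx RtA12_8.CX RtA12_8.Ctp RtA12_8.Ce RtA12_8.CTp RtA12_8.CEr 0x01169073114069074033034111169071143114311401103031169070334034690690694033034690069034030369120505321a00c34669069034120512605691205126069034534634343434 = true := by decide +kernel

theorem cA12_8_2_0 : chunkOkM (LA12_8.ctx false true 117 7 16 7 64 256 1024 64 512) muQ false true 64 RtA12_8.Cx RtA12_8.CX RtA12_8.Ctn RtA12_8.Ce RtA12_8.CTp RtA12_8.CEr 0x000000031900c11242900c12056346444433 = true := by decide +kernel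

theorem cA12_8_1_0 : chunkOkM (LA12_8.ctx true false 116 31 64 7 64 256 512 32 128) muQ true false 64 RtA12_8.Cx RtA12_8.CX RtA12_8.Ctp RtA12_8.Ce RtA12_8.CTn RtA12_8.CEr 0x192900b1103114011403070734031111690731143114001103440369069069403343434 = true := by decide +kernel

theorem cA12_8_0_0 : chunkOkM (LA12_8.ctx false false 102 7 16 7 64 32 32 32 128) muQ false false 64 RtA12_8.Cx RtA12_8.CX RtA12_8.Ctn RtA12_8.Ce RtA12_8.CTn RtA12_8.CEr 0x0 = true := by decide +kernel

theorem covA12_8 : LA12_8.Full muQ.val RtA12_8 := ⟨(LitT.cov_of_chunkM cA12_8_3_0), (LitT.cov_of_chunkM cA12_8_1_0), (LitT.cov_of_chunkM cA12_8_2_0), (LitT.cov_of_chunkM cA12_8_0_0)⟩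

noncomputable def LA8_6 : LitT := ⟨⟨2,2,1,2,2,1⟩, [[[[[53279329798324225,88283997687251008,2612231046804013121,25072896245888],[168220447211520,871060341616803905,281175266900312192,294678382348615809],[106837499392819329]],[[1350682353126604800,641024996356915265,494613139719168128],[],[]]],[[[1001676299304960,2008720038464163905],[1332913867755356161],[]],[[2008720038464163904],[],[]]],[[[106837499392819266],[],[]],[[],[],[]]]],[[[[1385927585290321920,641024996356915202,641024996356915265],[1400359672607145984,3698379956042711041],[]],[[390651110166454272],[],[]]],[[[],[],[]],[[],[],[]]],[[[],[],[]],[[],[],[]]]]], [[[[[2919484977315840,1282049992713830466,1428461849351577729],[2718474446171013121],[]],[[1955292024089346112,320512498178457729],[],[]]],[[[337670588281651201,2774227895234887744],[408385757380608,1531512560918200384,2770581962140835905],[569799996761702465]],[[1635073611609931776,854699995142553665],[],[]]],[[[],[569799996761702465],[155804686614528065]],[[66773437120512065],[],[]]]],[[[[3360054432370434049,320512498178457666],[854699995142553665],[66773437120512065]],[[801281245446144001,801281245446144064,120192186816921665],[],[]]],[[[],[],[]],[[],[],[]]],[[[],[],[]],[[],[],[]]]]]⟩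

def RtA8_6 : Roots := ⟨⟨3,4,32⟩,⟨1,2,32⟩,⟨0,7,16⟩,⟨0,7,16⟩,⟨0,11,64⟩,⟨0,5,16⟩,⟨0,5,16⟩,⟨0,11,128⟩⟩

noncomputable def DA8_6 : R1D := ⟨⟨[Int.ofNat 33554432, Int.negSucc 33554431, Int.ofNat 33563909, Int.negSucc 33801589, Int.ofNat 33166725],33554432,141,128,33554432,[Int.ofNat 0, Int.negSucc 26, Int.ofNat 485]⟩,⟨[Int.ofNat 0, Int.ofNat 0, Int.ofNat 503147730, Int.negSucc 167712909, Int.ofNat 86986185, Int.negSucc 52241786],1006632960,16777216,[Int.negSucc 74, Int.ofNat 2, Int.ofNat 4173]⟩,⟨[Int.ofNat 0, Int.ofNat 0, Int.ofNat 503301960, Int.negSucc 167761599, Int.ofNat 84788775, Int.negSucc 51195482],1006632960,16777216,[Int.negSucc 21, Int.ofNat 13, Int.ofNat 4131]⟩,35802197144232026267604993394397062732185600⟩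

theorem chkA8_6 : chkR1 DA8_6 LA8_6 muQ RtA8_6 = true := by decide +kernel

theorem cA8_6_3_0 : chunkOkM (LA8_6.ctx true true 135 15 128 3 64 1024 4096 128 2048) muQ true true 64 RtA8_6.Cx RtA8_6.CX RtA8_6.Ctp RtA8_6.Ce RtA8_6.CTp RtA8_6.CEr 0x021b00b11690307340341111011431143000120561101205634036431169069034069403031206940303566911b00c691205053412069034036901205634563463344 = true := by decide +kernel

theorem cA8_6_2_0 : chunkOkM (LA8_6.ctx false true 133 7 64 3 64 512 8192 256 1024) muQ false true 64 RtA8_6.Cx RtA8_6.CX RtA8_6.Ctn RtA8_6.Ce RtA8_6.CTp RtA8_6.CEr 0x0000011b00c12116900001205054443335664443 = true := by decide +kernel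

theorem cA8_6_1_0 : chunkOkM (LA8_6.ctx true false 125 15 128 3 64 512 2048 32 256) muQ true false 64 RtA8_6.Cx RtA8_6.CX RtA8_6.Ctp RtA8_6.Ce RtA8_6.CTn RtA8_6.CEr 0x071900b110344031111031143114069403030769069069403343434 = true := by decide +kernel

theorem cA8_6_0_0 : chunkOkM (LA8_6.ctx false false 111 7 64 3 64 32 128 32 256) muQ false false 64 RtA8_6.Cx RtA8_6.CX RtA8_6.Ctn RtA8_6.Ce RtA8_6.CTn RtA8_6.CEr 0x0 = true := by decide +kernel

theorem covA8_6 : LA8_6.Full muQ.val RtA8_6 := ⟨(LitT.cov_of_chunkM cA8_6_3_0), (LitT.cov_of_chunkM cA8_6_1_0), (LitT.cov_of_chunkM cA8_6_2_0), (LitT.cov_of_chunkM cA8_6_0_0)⟩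

noncomputable def LA13_8 : LitT := ⟨⟨2,2,1,2,2,1⟩, [[[[[19878465522106432,688867365064015937,94773182208934016],[11116567886561280,229701619858538561,69093356844220544,141540453641502849],[30068522725933185]],[[301237500200878080,180411136355598401,147757462017417344],[],[]]],[[[483429494783594561],[498711855724756993],[]],[[483429494783594560],[],[]]],[[[126230520831934528,30068522725933122],[],[]],[[],[],[]]]],[[[[346508859813396480,180411136355598338,284018671871852608,180411136355598401],[337254610907824128,1587724891283767297],[]],[[158100287085010944],[],[]]],[[[],[],[]],[[],[],[]]],[[[],[],[]],[[],[],[]]]]], [[[[[3030663698841600,24430636991250433,360822272711196738,393475947049377921],[1305742563323412481],[]],[[507386498383872064,90205568177799297],[],[]]],[[[697844544307200,75309375050219521,685314877620879424,144222310964920448],[4188105993093120,364597841665916992,1251877793803493441],[160365454538309697]],[[400977512242348032,240548181807464513],[],[]]],[[[],[160365454538309697],[43849928975319105]],[[18792826703708225],[],[]]]],[[[[820685265682636801,90205568177799234],[240548181807464513],[18792826703708225]],[[225513920444497921,225513920444497984,33827088066674753],[],[]]],[[[48074103654973504],[],[]],[[],[],[]]],[[[],[],[]],[[],[],[]]]]]⟩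

def RtA13_8 : Roots := ⟨⟨4,5,8⟩,⟨3,4,32⟩,⟨0,1,1⟩,⟨0,11,16⟩,⟨0,7,8⟩,⟨0,7,16⟩,⟨0,7,16⟩,⟨0,11,64⟩⟩

noncomputable def DA13_8 : R1D := ⟨⟨[Int.ofNat 4194304, Int.negSucc 4194303, Int.ofNat 4212529, Int.negSucc 4456797, Int.ofNat 4667249],4194304,89,64,16777216,[Int.ofNat 0, Int.negSucc 53, Int.ofNat 458]⟩,⟨[Int.ofNat 0, Int.ofNat 0, Int.ofNat 28156116975, Int.negSucc 9408306214, Int.ofNat 4858920360, Int.negSucc 2887689125, Int.ofNat 1331247456, Int.negSucc 289712719],56371445760,268435456,[Int.negSucc 530, Int.negSucc 616, Int.ofNat 8686, Int.negSucc 7611]⟩,⟨[Int.ofNat 0, Int.ofNat 0, Int.ofNat 125771040, Int.negSucc 41245199, Int.ofNat 18910115, Int.negSucc 24590306],251658240,16777216,[Int.negSucc 87, Int.ofNat 1542, Int.ofNat 5726]⟩,250615380009624183873234953760779439125299200⟩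

theorem chkA13_8 : chkR1 DA13_8 LA13_8 muQ RtA13_8 = true := by decide +kernel

theorem cA13_8_3_0 : chunkOkM (LA13_8.ctx true true 118 33 64 7 64 128 1024 64 128) muQ true true 64 RtA13_8.Cx RtA13_8.CX RtA13_8.Ctp RtA13_8.Ce RtA13_8.CTp RtA13_8.CEr 0x31a00b112a00b1140694030730341111690731143114011a00c69034403116971900c731140696907703434340369069034036906903434036961a00c6906903430346906981a00c303469069034036921a00c6971a00c34053434343434 = true := by decide +kernel

theorem cA13_8_2_0 : chunkOkM (LA13_8.ctx false true 102 9 16 7 64 32 16 32 128) muQ false true 64 RtA13_8.Cx RtA13_8.CX RtA13_8.Ctn RtA13_8.Ce RtA13_8.CTp RtA13_8.CEr 0x0 = true := by decide +kernel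

theorem cA13_8_1_0 : chunkOkM (LA13_8.ctx true false 112 39 64 7 64 64 256 32 128) muQ true false 64 RtA13_8.Cx RtA13_8.CX RtA13_8.Ctp RtA13_8.Ce RtA13_8.CTn RtA13_8.CEr 0x81a00b011111073017311406907034340311116907311431140694030307116907311469030307073434036971902c6903403690690343434 = true := by decide +kernel

theorem cA13_8_0_0 : chunkOkM (LA13_8.ctx false false 102 9 16 7 64 32 16 32 128) muQ false false 64 RtA13_8.Cx RtA13_8.CX RtA13_8.Ctn RtA13_8.Ce RtA13_8.CTn RtA13_8.CEr 0x0 = true := by decide +kernel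

theorem covA13_8 : LA13_8.Full muQ.val RtA13_8 := ⟨(LitT.cov_of_chunkM cA13_8_3_0), (LitT.cov_of_chunkM cA13_8_1_0), (LitT.cov_of_chunkM cA13_8_2_0), (LitT.cov_of_chunkM cA13_8_0_0)⟩


end Vale.Agent.helper4.Q4
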