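import Vale.Agent.helper4.Q4TreeM

/-!
Checks for pairs of intervals of second moments.
-/

set_option maxRecDepth 100000
set_option linter.unusedVariables false

namespace Vale.Agent.helper4.Q4

noncomputable def LA11_7 : LitT := ⟨⟨2,2,1,2,2,1⟩, [[[[[32508793791184897,9724640473645120,1340636881389355073,327012526291968128],[211470306508800,447037290137518145,140573827816169600,148554354616565889],[52683062063923329]],[[682910977213071360,316098372383539265,242071889502044288],[],[]]],[[[2253034912481280,1022243069284270145],[677889812484587521],[]],[[1022243069284270144],[],[]]],[[[435946766991360064,52683062063923266],[],[]],[[],[],[]]]],[[[[660630070441451520,316098372383539202,980880225730560064,316098372383539265],[698346705084604416,1872356097945108481],[]],[[209241099423940608],[],[]]],[[[],[],[]],[[],[],[]]],[[[],[],[]],[[],[],[]]]]], [[[[[671209142353920,632196744767078466,706223227648573569],[1370447379525795841],[]],[[995757026917220416,158049186191769729],[],[]]],[[[170727744303267841,1391445375966351424,1188903765367849088],[1936704657162240,757018667454935104,1372457915066286145],[280976331007590465]],[[821129927725154304,421464496511385665],[],[]]],[[[],[280976331007590465],[76829465509888065]],[[32926913789952065],[],[]]]],[[[[1706011119428861953,158049186191769666],[421464496511385665],[32926913789952065]],[[395122965479424001,395122965479424064,59268444821913665],[],[]]],[[[396301255122616384],[],[]],[[],[],[]]],[[[],[],[]],[[],[],[]]]]]⟩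

def RtA11_7 : Roots := ⟨⟨2,3,8⟩,⟨2,3,32⟩,⟨0,3,4⟩,⟨0,11,16⟩,⟨0,17,32⟩,⟨0,3,8⟩,⟨0,3,8⟩,⟨0,17,128⟩⟩

noncomputable def DA11_7 : R1D := ⟨⟨[Int.ofNat 16777216, Int.negSucc 16777215, Int.ofNat 16825951, Int.negSucc 17347329, Int.ofNat 16354975],16777216,79,64,16777216,[Int.ofNat 0, Int.negSucc 56, Int.ofNat 455]⟩,⟨[Int.ofNat 0, Int.ofNat 0, Int.ofNat 7046101440, Int.negSucc 2345062719, Int.ofNat 1160300680, Int.negSucc 733505471, Int.ofNat 574695625, Int.negSucc 298532644],14092861440,268435456,[Int.negSucc 111, Int.ofNat 1856, Int.ofNat 2898, Int.negSucc 15453]⟩,⟨[Int.ofNat 0, Int.ofNat 0, Int.ofNat 251627865, Int.negSucc 83872804, Int.ofNat 42869580, Int.negSucc 25808855],503316480,16777216,[Int.negSucc 44, Int.ofNat 7, Int.ofNat 4148]⟩,250615380009624183873234953760779439125299200⟩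

theorem chkA11_7 : chkR1 DA11_7 LA11_7 muQ RtA11_7 = true := by decide +kernel

theorem cA11_7_3_0 : chunkOkM (LA11_7.ctx true true 123 21 64 5 64 256 2048 32 1024) muQ true true 64 RtA11_7.Cx RtA11_7.CX RtA11_7.Ctp RtA11_7.Ce RtA11_7.CTp RtA11_7.CEr 0x112a00b116903391a00b71101132a00b1143740011070344303411116907071169077431143114069076940340311116a2900c3114311406940303031141a00c1143114011030391a00c12056110120563464343434 = true := by decide +kernel

theorem cA11_7_2_0 : chunkOkM (LA11_7.ctx false true 104 5 16 5 64 32 64 16 256) muQ false true 64 RtA11_7.Cx RtA11_7.CX RtA11_7.Ctn RtA11_7.Ce RtA11_7.CTp RtA11_7.CEr 0x0 = true := by decide +kernel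

theorem cA11_7_1_0 : chunkOkM (LA11_7.ctx true false 116 21 64 5 64 128 1024 16 256) muQ true false 64 RtA11_7.Cx RtA11_7.CX RtA11_7.Ctp RtA11_7.Ce RtA11_7.CTn RtA11_7.CEr 0x21a00b7b4c4865712c56f775020d1111b00b740307403116906943311b00b711011107114374069070711122900c7403434031111690707116907743114311406907694034031111031143114011031140343434 = true := by decide +kernel

theorem cA11_7_0_0 : chunkOkM (LA11_7.ctx false false 104 5 16 5 64 32 64 16 256) muQ false false 64 RtA11_7.Cx RtA11_7.CX RtA11_7.Ctn RtA11_7.Ce RtA11_7.CTn RtA11_7.CEr 0x0 = true := by decide +kernel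

theorem covA11_7 : LA11_7.Full muQ.val RtA11_7 := ⟨(LitT.cov_of_chunkM cA11_7_3_0), (LitT.cov_of_chunkM cA11_7_1_0), (LitT.cov_of_chunkM cA11_7_2_0), (LitT.cov_of_chunkM cA11_7_0_0)⟩

noncomputable def LA13_5 : LitT := ⟨⟨2,2,1,2,2,1⟩, [[[[[3754233723617281,219603258392444993,60838121348333696],[40780714475520,73227474409881665,23428371245432960,25747636893696129],[9277129359360129]],[[111913192547942400,55662776156160065,43531560948326528],[],[]]],[[[3265815725998080,167490295281561665],[114302543147827201],[]],[[167490295281561664],[],[]]],[[[81116666275037248,9277129359360066],[],[]],[[],[],[]]]],[[[[107771958990274560,55662776156160002,182512499118833728,55662776156160065],[116626765287260160,320265612173721601],[]],[[34427292512624640],[],[]]],[[[],[],[]],[[],[],[]]],[[[],[],[]],[[],[],[]]]]], [[[[[694397199974400,392964237557824,111325552312320066,123456767520153729],[237527749361664001],[]],[[163920691026985024,27831388078080129],[],[]]],[[[27978298136985601,267608830364713024,148689452763709568],[82762946052096,127124170761830464,244431391665561665],[49478023249920065]],[[136137256961310720,74217034874880065],[],[]]],[[[],[49478023249920065],[13529146982400065]],[[5798205849600065],[],[]]]],[[[[280314782885928961,27831388078080066],[74217034874880065],[5798205849600065]],[[69578470195200001,69578470195200064,10436770529280065],[],[]]],[[[49563150921236544],[],[]],[[],[],[]]],[[[],[],[]],[[],[],[]]]]]⟩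

def RtA13_5 : Roots := ⟨⟨4,5,8⟩,⟨1,2,64⟩,⟨0,1,1⟩,⟨0,11,16⟩,⟨0,7,8⟩,⟨0,7,32⟩,⟨0,7,32⟩,⟨0,11,256⟩⟩

noncomputable def DA13_5 : R1D := ⟨⟨[Int.ofNat 16384, Int.negSucc 16383, Int.ofNat 16395, Int.negSucc 16649, Int.ofNat 16875],16384,75,64,16777216,[Int.ofNat 0, Int.negSucc 31, Int.ofNat 480]⟩,⟨[Int.ofNat 0, Int.ofNat 0, Int.ofNat 56313343800, Int.negSucc 18515068319, Int.ofNat 9092140645, Int.negSucc 6773267990, Int.ofNat 5132816766, Int.negSucc 1792117689],112742891520,268435456,[Int.negSucc 525, Int.ofNat 3477, Int.ofNat 7000, Int.negSucc 13386]⟩,⟨[Int.ofNat 0, Int.ofNat 0, Int.ofNat 25165608, Int.negSucc 8387071, Int.ofNat 4215195, Int.negSucc 2683934],50331648,4194304,[Int.negSucc 5, Int.ofNat 61, Int.ofNat 2115]⟩,1174759593795113361905788845753653620899840⟩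

theorem chkA13_5 : chkR1 DA13_5 LA13_5 muQ RtA13_5 = true := by decide +kernel

theorem cA13_5_3_0 : chunkOkM (LA13_5.ctx true true 115 37 64 3 128 32 256 64 512) muQ true true 64 RtA13_5.Cx RtA13_5.CX RtA13_5.Ctp RtA13_5.Ce RtA13_5.CTp RtA13_5.CEr 0x21a00b0111070173114069030743034116911037114311406907034031169073114069690770343434036906903403690690343403690694030369069034343434 = true := by decide +kernel

theorem cA13_5_2_0 : chunkOkM (LA13_5.ctx false true 107 9 16 3 128 32 16 64 512) muQ false true 64 RtA13_5.Cx RtA13_5.CX RtA13_5.Ctn RtA13_5.Ce RtA13_5.CTp RtA13_5.CEr 0x0 = true := by decide +kernel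

theorem cA13_5_1_0 : chunkOkM (LA13_5.ctx true false 120 69 128 3 128 64 512 64 512) muQ true false 64 RtA13_5.Cx RtA13_5.CX RtA13_5.Ctp RtA13_5.Ce RtA13_5.CTn RtA13_5.CEr 0x41a00b011107114017311406903074340311691169070737114311406969077030341169690773114069690370343434036906903403690690343403690694030369069403343434 = true := by decide +kernel

theorem cA13_5_0_0 : chunkOkM (LA13_5.ctx false false 107 9 16 3 128 32 16 64 512) muQ false false 64 RtA13_5.Cx RtA13_5.CX RtA13_5.Ctn RtA13_5.Ce RtA13_5.CTn RtA13_5.CEr 0x0 = true := by decide +kernel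

theorem covA13_5 : LA13_5.Full muQ.val RtA13_5 := ⟨(LitT.cov_of_chunkM cA13_5_3_0), (LitT.cov_of_chunkM cA13_5_1_0), (LitT.cov_of_chunkM cA13_5_2_0), (LitT.cov_of_chunkM cA13_5_0_0)⟩

noncomputable def LA13_6 : LitT := ⟨⟨2,2,1,2,2,1⟩, [[[[[19965483306713152,667676236943720513,110567641317949568],[1715498102292480,222637910485106753,70112418119663744,111668480725893249],[28705499822162049]],[[319015502217216000,172232998932971585,137652216954347648],[],[]]],[[[1187327614648320,491339932616306753],[424520154177601537],[]],[[491339932616306752],[],[]]],[[[147415164125184064,28705499822161986],[],[]],[[],[],[]]]],[[[[344779577778585600,172232998932971522,331684119281664064,172232998932971585],[347946274501705728,1294051712044351489],[]],[[126251742486011904],[],[]]],[[[],[],[]],[[],[],[]]],[[[],[],[]],[[],[],[]]]]], [[[[[2243325100032000,5738451185958913,344465997865943106,379046779844567169],[1030166885255086081],[]],[[496333842429247552,86116499466485889],[],[]]],[[[79753875554304001,719856318182400064,189481041100800128],[923654758072320,377814005228150848,1009243203847282753],[153095999051530305]],[[404507828957478912,229643998577295425],[],[]]],[[[],[153095999051530305],[41862187240652865]],[[17940937388851265],[],[]]]],[[[[828122426278207489,86116499466485826],[229643998577295425],[17940937388851265]],[[215291248666214401,215291248666214464,32293687299932225],[],[]]],[[[63160347033600064],[],[]],[[],[],[]]],[[[],[],[]],[[],[],[]]]]]⟩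

def RtA13_6 : Roots := ⟨⟨4,5,8⟩,⟨1,2,32⟩,⟨0,1,1⟩,⟨0,11,16⟩,⟨0,7,8⟩,⟨0,5,16⟩,⟨0,5,16⟩,⟨0,11,128⟩⟩

noncomputable def DA13_6 : R1D := ⟨⟨[Int.ofNat 16384, Int.negSucc 16383, Int.ofNat 16409, Int.negSucc 16873, Int.ofNat 17405],16384,80,64,16777216,[Int.ofNat 0, Int.negSucc 39, Int.ofNat 472]⟩,⟨[Int.ofNat 0, Int.ofNat 0, Int.ofNat 5630998275, Int.negSucc 1875749714, Int.ofNat 969457825, Int.negSucc 607296584, Int.ofNat 310932825, Int.negSucc 76125624],11274289152,268435456,[Int.negSucc 540, Int.ofNat 165, Int.ofNat 8365, Int.negSucc 8724]⟩,⟨[Int.ofNat 0, Int.ofNat 0, Int.ofNat 125825490, Int.negSucc 41835349, Int.ofNat 20026125, Int.negSucc 19400546],251658240,16777216,[Int.negSucc 21, Int.ofNat 968, Int.ofNat 5086]⟩,195793265632518893650964807625608936816640⟩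

theorem chkA13_6 : chkR1 DA13_6 LA13_6 muQ RtA13_6 = true := by decide +kernel

theorem cA13_6_3_0 : chunkOkM (LA13_6.ctx true true 115 79 128 3 64 64 256 32 256) muQ true true 64 RtA13_6.Cx RtA13_6.CX RtA13_6.Ctp RtA13_6.Ce RtA13_6.CTp RtA13_6.CEr 0x011b00b11403403031111690731143114690303030707071169073114690303073430346906940303690694033403690694030369069034343434 = true := by decide +kernel

theorem cA13_6_2_0 : chunkOkM (LA13_6.ctx false true 103 9 16 3 64 32 16 32 256) muQ false true 64 RtA13_6.Cx RtA13_6.CX RtA13_6.Ctn RtA13_6.Ce RtA13_6.CTp RtA13_6.CEr 0x0 = true := by decide +kernel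

theorem cA13_6_1_0 : chunkOkM (LA13_6.ctx true false 110 17 32 3 64 32 512 32 256) muQ true false 64 RtA13_6.Cx RtA13_6.CX RtA13_6.Ctp RtA13_6.Ce RtA13_6.CTn RtA13_6.CEr 0x41a00b0136a9066594a8283657b89352b74030d311400110703443034111169073114311406907034031169073114069074033434036906940303690694033403690694030369069403343434 = true := by decide +kernel

theorem cA13_6_0_0 : chunkOkM (LA13_6.ctx false false 103 9 16 3 64 32 16 32 256) muQ false false 64 RtA13_6.Cx RtA13_6.CX RtA13_6.Ctn RtA13_6.Ce RtA13_6.CTn RtA13_6.CEr 0x0 = true := by decide +kernel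

theorem covA13_6 : LA13_6.Full muQ.val RtA13_6 := ⟨(LitT.cov_of_chunkM cA13_6_3_0), (LitT.cov_of_chunkM cA13_6_1_0), (LitT.cov_of_chunkM cA13_6_2_0), (LitT.cov_of_chunkM cA13_6_0_0)⟩

noncomputable def LA7_5 : LitT := ⟨⟨2,2,1,2,2,1⟩, [[[[[11757510394380289,18003092746272832,649948261213274177,1864926167168],[216728585241624641,70298375433486464,72638891474043009],[26845023068749953]],[[336035237823774720,161070138412499009,124644443687460992],[],[]]],[[[127758332067840,499766078037528641],[330073972420902913],[]],[[499766078037528640],[],[]]],[[[26845023068749890],[],[]],[[],[],[]]]],[[[[342298713386188800,161070138412498946,161070138412499009],[350206685513515008,913669300735819777],[]],[[97411039543517184],[],[]]],[[[],[],[]],[[],[],[]]],[[[],[],[]],[[],[],[]]]]], [[[[[315891237519360,322140276824997954,358565971550036097],[670110133958737921],[]],[[487231741577134144,80535069206249601],[],[]]],[[[84008809455943681,686560367970385984],[18554258718720,383690937747898432,687568159124381761],[143173456366665793]],[[408286536885338112,214760184549998657],[],[]]],[[[],[143173456366665793],[39148991975260225]],[[16778139417968705],[],[]]]],[[[[836721515290337281,80535069206249538],[214760184549998657],[16778139417968705]],[[201337673015623681,201337673015623744,30200650952343617],[],[]]],[[[],[],[]],[[],[],[]]],[[[],[],[]],[[],[],[]]]]]⟩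

def RtA7_5 : Roots := ⟨⟨2,3,32⟩,⟨1,2,64⟩,⟨0,3,8⟩,⟨0,3,8⟩,⟨0,17,128⟩,⟨0,7,32⟩,⟨0,7,32⟩,⟨0,11,256⟩⟩

noncomputable def DA7_5 : R1D := ⟨⟨[Int.ofNat 262144, Int.negSucc 262143, Int.ofNat 262159, Int.negSucc 262817, Int.ofNat 260431],262144,271,256,67108864,[Int.ofNat 0, Int.negSucc 15, Int.ofNat 496]⟩,⟨[Int.ofNat 0, Int.ofNat 0, Int.ofNat 20968395, Int.negSucc 6989214, Int.ofNat 3581100, Int.negSucc 2154887],41943040,16777216,[Int.negSucc 49, Int.ofNat 6, Int.ofNat 4152]⟩,⟨[Int.ofNat 0, Int.ofNat 0, Int.ofNat 125828040, Int.negSucc 41943039, Int.ofNat 21094535, Int.negSucc 12619802],251658240,4194304,[Int.negSucc 5, Int.negSucc 2, Int.ofNat 2051]⟩,11654361049554696050652667120571960524800⟩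

theorem chkA7_5 : chkR1 DA7_5 LA7_5 muQ RtA7_5 = true := by decide +kernel

theorem cA7_5_3_0 : chunkOkM (LA7_5.ctx true true 137 9 128 3 128 512 8192 256 4096) muQ true true 64 RtA7_5.Cx RtA7_5.CX RtA7_5.Ctp RtA7_5.Ce RtA7_5.CTp RtA7_5.CEr 0x61a00b111103311406907403033111103031169073114006903440336110110341103031211031140356110110341211030312011034565634634344 = true := by decide +kernel

theorem cA7_5_2_0 : chunkOkM (LA7_5.ctx false true 125 5 64 3 128 64 4096 128 2048) muQ false true 64 RtA7_5.Cx RtA7_5.CX RtA7_5.Ctn RtA7_5.Ce RtA7_5.CTp RtA7_5.CEr 0x00000000120566444433 = true := by decide +kernel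

theorem cA7_5_1_0 : chunkOkM (LA7_5.ctx true false 129 5 64 3 128 512 4096 64 2048) muQ true false 64 RtA7_5.Cx RtA7_5.CX RtA7_5.Ctp RtA7_5.Ce RtA7_5.CTn RtA7_5.CEr 0x41a00b110114303110111103303611011030311030311110303346634344 = true := by decide +kernel

theorem cA7_5_0_0 : chunkOkM (LA7_5.ctx false false 113 5 64 3 128 16 256 64 512) muQ false false 64 RtA7_5.Cx RtA7_5.CX RtA7_5.Ctn RtA7_5.Ce RtA7_5.CTn RtA7_5.CEr 0x0 = true := by decide +kernel

theorem covA7_5 : LA7_5.Full muQ.val RtA7_5 := ⟨(LitT.cov_of_chunkM cA7_5_3_0), (LitT.cov_of_chunkM cA7_5_1_0), (LitT.cov_of_chunkM cA7_5_2_0), (LitT.cov_of_chunkM cA7_5_0_0)⟩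


end Vale.Agent.helper4.Q4
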