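import Vale.Agent.helper4.Q4TreeM

/-!
Checks for pairs of intervals of second moments.
-/

set_option maxRecDepth 100000
set_option linter.unusedVariables false

namespace Vale.Agent.helper4.Q4

noncomputable def LA8_4 : LitT := ⟨⟨2,2,1,2,2,1⟩, [[[[[145350283231233,310068073726016,9014689677705281,2877972608],[3005996070862913,976367284789376,1005924290396289],[380710196084865]],[[4649001450209280,2284261176508481,1780316683370624],[],[]]],[[[3453705256960,6921780983758913],[4574466587754497],[]],[[6921780983758912],[],[]]],[[[380710196084802],[],[]],[[],[],[]]]],[[[[4813746853683200,2284261176508418,2284261176508481],[4864197105999872,12657431830069249],[]],[[1364055918903296],[],[]]],[[[],[],[]],[[],[],[]]],[[[],[],[]],[[],[],[]]]]], [[[[[9611079843840,4568522353016898,5072466846154881],[8849981440,9279878138429441],[]],[[6760819689783360,1142130588254337],[],[]]],[[[1162250362552321,9641316596224064],[49327112192,5332140632715328,9635943812169793],[2030454379118657]],[[5665901529530368,3045681568677953],[],[]]],[[[],[2030454379118657],[555202369290305]],[[237943872553025],[],[]]]],[[[[11595962799620097,1142130588254274],[3045681568677953],[237943872553025]],[[2855326470635521,2855326470635584,428298970595393],[],[]]],[[[],[],[]],[[],[],[]]],[[[],[],[]],[[],[],[]]]]]⟩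

def RtA8_4 : Roots := ⟨⟨3,4,32⟩,⟨1,4,256⟩,⟨0,7,16⟩,⟨0,7,16⟩,⟨0,11,64⟩,⟨0,5,32⟩,⟨0,5,32⟩,⟨0,11,512⟩⟩

noncomputable def DA8_4 : R1D := ⟨⟨[Int.ofNat 262144, Int.negSucc 262143, Int.ofNat 262147, Int.negSucc 262457, Int.ofNat 265923],262144,268,256,67108864,[Int.ofNat 0, Int.negSucc 7, Int.ofNat 504]⟩,⟨[Int.ofNat 0, Int.ofNat 0, Int.ofNat 100628640, Int.negSucc 33541967, Int.ofNat 17405575, Int.negSucc 10458374],201326592,16777216,[Int.negSucc 75, Int.ofNat 3, Int.ofNat 4175]⟩,⟨[Int.ofNat 0, Int.ofNat 0, Int.ofNat 15728625, Int.negSucc 5242884, Int.ofNat 2626560, Int.negSucc 1572863],31457280,4194304,[Int.negSucc 1, Int.negSucc 1, Int.ofNat 2048]⟩,503468397340762869388195219608708694671360⟩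

theorem chkA8_4 : chkR1 DA8_4 LA8_4 muQ RtA8_4 = true := by decide +kernel

theorem cA8_4_3_0 : chunkOkM (LA8_4.ctx true true 130 13 128 5 512 1024 4096 64 1024) muQ true true 64 RtA8_4.Cx RtA8_4.CX RtA8_4.Ctp RtA8_4.Ce RtA8_4.CTp RtA8_4.CEr 0x0011034403111103114306907403033116906906906903434343344 = true := by decide +kernel

theorem cA8_4_2_0 : chunkOkM (LA8_4.ctx false true 113 7 64 5 512 32 128 64 1024) muQ false true 64 RtA8_4.Cx RtA8_4.CX RtA8_4.Ctn RtA8_4.Ce RtA8_4.CTp RtA8_4.CEr 0x0 = true := by decide +kernel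

theorem cA8_4_1_0 : chunkOkM (LA8_4.ctx true false 128 7 64 5 512 1024 4096 64 1024) muQ true false 64 RtA8_4.Cx RtA8_4.CX RtA8_4.Ctp RtA8_4.Ce RtA8_4.CTn RtA8_4.CEr 0x011900b11034403111171800c3114300110344033116906906906940334343344 = true := by decide +kernel

theorem cA8_4_0_0 : chunkOkM (LA8_4.ctx false false 113 7 64 5 512 32 128 64 1024) muQ false false 64 RtA8_4.Cx RtA8_4.CX RtA8_4.Ctn RtA8_4.Ce RtA8_4.CTn RtA8_4.CEr 0x0 = true := by decide +kernel

theorem covA8_4 : LA8_4.Full muQ.val RtA8_4 := ⟨(LitT.cov_of_chunkM cA8_4_3_0), (LitT.cov_of_chunkM cA8_4_1_0), (LitT.cov_of_chunkM cA8_4_2_0), (LitT.cov_of_chunkM cA8_4_0_0)⟩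

noncomputable def LA8_5 : LitT := ⟨⟨2,2,1,2,2,1⟩, [[[[[11418262352953345,9099849861955648,650646481161683009,146008996883251328],[3982491648000,216961325224427585,70297943737614464,72780625862738049],[26814860318736513]],[[335708832808304640,160889161912418369,124498848981049472],[],[]]],[[[2986868736000,499723891920875585],[330575410322472961],[]],[[499723891920875584],[],[]]],[[[194676935727513664,26814860318736450],[],[]],[[],[],[]]]],[[[[333402846157946880,160889161912418306,438023105386905664,160889161912418369],[350189700540678144,915261924718264321],[]],[[98188506355802112],[],[]]],[[[],[],[]],[[],[],[]]],[[[],[],[]],[[],[],[]]]]], [[[[[11947474944000,321778323824836674,358168636756205697],[671417665616609281],[]],[[487587273064316992,80444580956209281],[],[]]],[[[83927208202076161,666694866029322304,732258509122437248],[32392907587584,383513028367196224,688015168649584705],[143012588366594113]],[[408217778657427456,214518882549891137],[],[]]],[[[],[143012588366594113],[39105004631490625]],[[16759287699210305],[],[]]]],[[[[836737572811235329,80444580956209218],[214518882549891137],[16759287699210305]],[[201111452390522881,201111452390522944,30166717858578497],[],[]]],[[[244086169707479104],[],[]],[[],[],[]]],[[[],[],[]],[[],[],[]]]]]⟩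

def RtA8_5 : Roots := ⟨⟨3,4,32⟩,⟨1,2,64⟩,⟨0,7,16⟩,⟨0,7,16⟩,⟨0,11,64⟩,⟨0,7,32⟩,⟨0,7,32⟩,⟨0,11,256⟩⟩

noncomputable def DA8_5 : R1D := ⟨⟨[Int.ofNat 33554432, Int.negSucc 33554431, Int.ofNat 33557681, Int.negSucc 33676829, Int.ofNat 33297713],33554432,137,128,33554432,[Int.ofNat 0, Int.negSucc 18, Int.ofNat 493]⟩,⟨[Int.ofNat 0, Int.ofNat 0, Int.ofNat 14092861440, Int.negSucc 4697620479, Int.ofNat 2343992805, Int.negSucc 1406193116, Int.ofNat 1026547200, Int.negSucc 735477759],28185722880,67108864,[Int.ofNat 0, Int.ofNat 371, Int.negSucc 12, Int.negSucc 8575]⟩,⟨[Int.ofNat 0, Int.ofNat 0, Int.ofNat 125828370, Int.negSucc 41942789, Int.ofNat 21074045, Int.negSucc 12644426],251658240,4194304,[Int.negSucc 4, Int.ofNat 0, Int.ofNat 2053]⟩,1002461520038496735492939815043117756501196800⟩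

theorem chkA8_5 : chkR1 DA8_5 LA8_5 muQ RtA8_5 = true := by decide +kernel

theorem cA8_5_3_0 : chunkOkM (LA8_5.ctx true true 142 15 128 3 128 4096 16384 256 1024) muQ true true 64 RtA8_5.Cx RtA8_5.CX RtA8_5.Ctp RtA8_5.Ce RtA8_5.CTp RtA8_5.CEr 0x61a00b1169073114011403030331169069069069069069001260505734343434343344 = true := by decide +kernel

theorem cA8_5_2_0 : chunkOkM (LA8_5.ctx false true 114 7 64 3 128 32 128 64 512) muQ false true 64 RtA8_5.Cx RtA8_5.CX RtA8_5.Ctn RtA8_5.Ce RtA8_5.CTp RtA8_5.CEr 0x11a00c = true := by decide +kernel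

theorem cA8_5_1_0 : chunkOkM (LA8_5.ctx true false 128 13 128 3 128 512 2048 64 512) muQ true false 64 RtA8_5.Cx RtA8_5.CX RtA8_5.Ctp RtA8_5.Ce RtA8_5.CTn RtA8_5.CEr 0x552900b1169071143031169069069403343344 = true := by decide +kernel

theorem cA8_5_0_0 : chunkOkM (LA8_5.ctx false false 114 7 64 3 128 32 128 64 512) muQ false false 64 RtA8_5.Cx RtA8_5.CX RtA8_5.Ctn RtA8_5.Ce RtA8_5.CTn RtA8_5.CEr 0x0 = true := by decide +kernel

theorem covA8_5 : LA8_5.Full muQ.val RtA8_5 := ⟨(LitT.cov_of_chunkM cA8_5_3_0), (LitT.cov_of_chunkM cA8_5_1_0), (LitT.cov_of_chunkM cA8_5_2_0), (LitT.cov_of_chunkM cA8_5_0_0)⟩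

noncomputable def LA6_3 : LitT := ⟨⟨2,2,1,2,2,1⟩, [[[[[3272091063287809,4799476172587072,216119889591533633],[72066351476244545,23432791811162240,24118612374896769],[9094063089254529]],[[111358511111208960,54564378535526465,42493289928745088],[],[]]],[[[5203789086720,165861972407316545],[109674671426764801],[]],[[165861972407316544],[],[]]],[[[9094063089254466],[],[]],[[],[],[]]]],[[[[112885896220508160,54564378535526402,54564378535526465],[116741717599715328,303474659397550081],[]],[[32818010026450944],[],[]]],[[[],[],[]],[[],[],[]]],[[[],[],[]],[[],[],[]]]]], [[[[[31222734520320,109128757071052866,121199845677834369],[222499631278325761],[]],[[162142737238327360,27282189267763329],[],[]]],[[[27839627777802241,225006649595658304],[28991029248,128029361952522304,230590430454292545],[48501669809356865]],[[135926047825723392,72752504714035265],[],[]]],[[[],[48501669809356865],[13262175338496065]],[[5683789430784065],[],[]]]],[[[[277959938735824897,27282189267763266],[72752504714035265],[5683789430784065]],[[68205473169408001,68205473169408064,10230820975411265],[],[]]],[[[],[],[]],[[],[],[]]],[[[],[],[]],[[],[],[]]]]]⟩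

def RtA6_3 : Roots := ⟨⟨1,2,32⟩,⟨1,4,1024⟩,⟨0,5,16⟩,⟨0,5,16⟩,⟨0,11,128⟩,⟨0,5,64⟩,⟨0,5,64⟩,⟨0,11,2048⟩⟩

noncomputable def DA6_3 : R1D := ⟨⟨[Int.ofNat 33554432, Int.negSucc 33554431, Int.ofNat 33554441, Int.negSucc 33558509, Int.ofNat 33878025],33554432,521,512,134217728,[Int.ofNat 0, Int.negSucc 1, Int.ofNat 510]⟩,⟨[Int.ofNat 0, Int.ofNat 0, Int.ofNat 503292960, Int.negSucc 167768239, Int.ofNat 85036635, Int.negSucc 50849066],1006632960,16777216,[Int.negSucc 27, Int.negSucc 6, Int.ofNat 4117]⟩,⟨[Int.ofNat 0, Int.ofNat 0, Int.ofNat 125829120, Int.negSucc 41943039, Int.ofNat 20971515, Int.negSucc 12570626],251658240,4194304,[Int.ofNat 0, Int.negSucc 0, Int.ofNat 2047]⟩,107406591432696078802814980183191188196556800⟩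

theorem chkA6_3 : chkR1 DA6_3 LA6_3 muQ RtA6_3 = true := by decide +kernel

theorem cA6_3_3_0 : chunkOkM (LA6_3.ctx true true 144 5 128 5 2048 1024 16384 128 4096) muQ true true 64 RtA6_3.Cx RtA6_3.CX RtA6_3.Ctp RtA6_3.Ce RtA6_3.CTp RtA6_3.CEr 0x0110369403116907694031111030311011011034343434344 = true := by decide +kernel

theorem cA6_3_2_0 : chunkOkM (LA6_3.ctx false true 126 3 64 5 2048 32 256 128 4096) muQ false true 64 RtA6_3.Cx RtA6_3.CX RtA6_3.Ctn RtA6_3.Ce RtA6_3.CTp RtA6_3.CEr 0x0 = true := by decide +kernel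

theorem cA6_3_1_0 : chunkOkM (LA6_3.ctx true false 145 5 128 5 2048 2048 8192 128 4096) muQ true false 64 RtA6_3.Cx RtA6_3.CX RtA6_3.Ctp RtA6_3.Ce RtA6_3.CTn RtA6_3.CEr 0x0110369403116907694031111030311011110303343434344 = true := by decide +kernel

theorem cA6_3_0_0 : chunkOkM (LA6_3.ctx false false 126 3 64 5 2048 32 256 128 4096) muQ false false 64 RtA6_3.Cx RtA6_3.CX RtA6_3.Ctn RtA6_3.Ce RtA6_3.CTn RtA6_3.CEr 0x0 = true := by decide +kernel

theorem covA6_3 : LA6_3.Full muQ.val RtA6_3 := ⟨(LitT.cov_of_chunkM cA6_3_3_0), (LitT.cov_of_chunkM cA6_3_1_0), (LitT.cov_of_chunkM cA6_3_2_0), (LitT.cov_of_chunkM cA6_3_0_0)⟩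

noncomputable def LA11_1 : LitT := ⟨⟨2,1,1,1,1,1⟩, [[[[[183647105712129,970577084284992],[1952732650930304,2055304046592129]],[[9278807290675200],[]]],[[[5375534039040,7815401648640065],[4740160684032001]],[[7815401648640064],[]]]],[[[[10065737269248000],[9640517952339968,19719809095680001]],[[],[]]],[[[],[]],[[],[]]]]], [[[[[96476689858560,6597069766721,1005808212172929],[18960642736128001]],[[4547580092481600,1005808212172928],[]]],[[[2319701822668801,19472415314411584],[87960930222080,15173260463308864,15970267929600065]],[[11414862007631872],[]]]],[[[[14197902128193537],[]],[[8513427012591616],[]]],[[[],[]],[[],[]]]]]⟩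

def RtA11_1 : Roots := ⟨⟨2,3,8⟩,⟨1,4,16384⟩,⟨0,3,4⟩,⟨0,11,16⟩,⟨0,17,32⟩,⟨0,5,256⟩,⟨0,5,256⟩,⟨0,11,32768⟩⟩

noncomputable def DA11_1 : R1D := ⟨⟨[Int.ofNat 512, Int.negSucc 511, Int.ofNat 517],512,1034,1024,1024,[Int.ofNat 0, Int.negSucc 0]⟩,⟨[Int.ofNat 0, Int.ofNat 0, Int.ofNat 2009777490, Int.negSucc 670894269, Int.ofNat 363959625, Int.negSucc 211226642],4026531840,67108864,[Int.negSucc 340, Int.negSucc 141, Int.ofNat 8391]⟩,⟨[Int.ofNat 0, Int.ofNat 0, Int.ofNat 6291456, Int.negSucc 2097151, Int.ofNat 1048455, Int.negSucc 642734],12582912,4194304,[Int.ofNat 0, Int.ofNat 22, Int.ofNat 2070]⟩,3933346854224709917095275153193036677120⟩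

theorem chkA11_1 : chkR1 DA11_1 LA11_1 muQ RtA11_1 = true := by decide +kernel

theorem cA11_1_3_0 : chunkOkM (LA11_1.ctx true true 128 383 1024 5 32768 2048 4096 512 65536) muQ true true 64 RtA11_1.Cx RtA11_1.CX RtA11_1.Ctp RtA11_1.Ce RtA11_1.CTp RtA11_1.CEr 0x010101001101740171101744333001140303070721711690711476907071169077430740690740303030707073432171101711110103776969069473073111111110373740103731101110103114737440170069407070707696969077307406940307070707307696907694301107403740690307076907440307307430311017696969690776943069074736940114030307110103706940734731101111111073711437406969077074036969030769690734740069074403307116969036947311469071140703696907347400690740369690769474006907440330743340311111169690769473114696907769030707311696903734731143114069074030769690369476903077400690744030730369696907033769406940307690694740069440307334031111696903694731143114069074036969073694400690744033031111696907331143114069403030311110331140011440334343434 = true := by decide +kernel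

theorem cA11_1_2_0 : chunkOkM (LA11_1.ctx false true 104 5 16 5 32768 32 64 512 65536) muQ false true 64 RtA11_1.Cx RtA11_1.CX RtA11_1.Ctn RtA11_1.Ce RtA11_1.CTp RtA11_1.CEr 0x0 = true := by decide +kernel

theorem cA11_1_1_0 : chunkOkM (LA11_1.ctx true false 129 735 2048 5 32768 1024 4096 512 65536) muQ true false 64 RtA11_1.Cx RtA11_1.CX RtA11_1.Ctp RtA11_1.Ce RtA11_1.CTn RtA11_1.CEr 0x0101010011017401711017443330011074030307217116907114769070711690774301030307070707740069440303070734321711017111101037769690694730694070773111111071143740103731101110103114737440170069403070769696907730694077406940303070730769696903077694301107690707347406903070769690374069403070707307430743031101769696969077369469030707696903747369401140303071101037690707694073473110111111107371143746903070769690770740694070707073696903076969073474006907440330711696903694731146907114070369690734740069074036969076947400690744033074334031111116969076947311469690776903070731169011473473114311406907403076969036947690307740069074403073036969690703376940694030769690307694740069440307334031111696903694731143114069074036969073694400690744033031111696907331143114069403030311110331140011440334343434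 = true := by decide +kernel

theorem cA11_1_0_0 : chunkOkM (LA11_1.ctx false false 104 5 16 5 32768 32 64 512 65536) muQ false false 64 RtA11_1.Cx RtA11_1.CX RtA11_1.Ctn RtA11_1.Ce RtA11_1.CTn RtA11_1.CEr 0x0 = true := by decide +kernel

theorem covA11_1 : LA11_1.Full muQ.val RtA11_1 := ⟨(LitT.cov_of_chunkM cA11_1_3_0), (LitT.cov_of_chunkM cA11_1_1_0), (LitT.cov_of_chunkM cA11_1_2_0), (LitT.cov_of_chunkM cA11_1_0_0)⟩


end Vale.Agent.helper4.Q4
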