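import Vale.Agent.helper4.Q4TreeM

/-!
Checks for pairs of intervals of second moments.
-/

set_option maxRecDepth 100000
set_option linter.unusedVariables false

namespace Vale.Agent.helper4.Q4

noncomputable def LA4_5 : LitT := ⟨⟨2,1,1,1,1,1⟩, [[[[[463885098287105,318816202522688,207214018688],[1699196436480,7810746413482112,8134073098322049]],[[37337107047383040],[]]],[[[619498700800,31448491043328065],[18759664082616321]],[[31448491043328064],[]]]],[[[[37194026286120960],[38067723369447424,78043133781196801]],[[],[]]],[[[],[]],[[],[]]]]], [[[[[2123995545600,26388279066689,4047284064706689],[75038656330465281]],[[18436610974548032,4047284064706688],[]]],[[[9334276761845761,74458291659898944],[844849729241088,60691610645299264,63203946372096065]],[[46207498710941696],[]]]],[[[[57268660784570369],[]],[[34222897066385408],[]]],[[[],[]],[[],[]]]]]⟩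

def RtA4_5 : Roots := ⟨⟨1,4,256⟩,⟨1,2,64⟩,⟨0,5,32⟩,⟨0,5,32⟩,⟨0,11,512⟩,⟨0,7,32⟩,⟨0,7,32⟩,⟨0,11,256⟩⟩

noncomputable def DA4_5 : R1D := ⟨⟨[Int.ofNat 128, Int.negSucc 127, Int.ofNat 131],128,524,512,512,[Int.ofNat 0, Int.negSucc 0]⟩,⟨[Int.ofNat 0, Int.ofNat 0, Int.ofNat 125829000, Int.negSucc 41942959, Int.ofNat 21012495, Int.negSucc 12619802],251658240,4194304,[Int.negSucc 1, Int.ofNat 1, Int.ofNat 2051]⟩,⟨[Int.ofNat 0, Int.ofNat 0, Int.ofNat 125828040, Int.negSucc 41942079, Int.ofNat 21094455, Int.negSucc 12718442],251658240,4194304,[Int.negSucc 5, Int.ofNat 5, Int.ofNat 2059]⟩,307292722986305462273068371343205990400⟩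

theorem chkA4_5 : chkR1 DA4_5 LA4_5 muQ RtA4_5 = true := by decide +kernel

theorem cA4_5_3_0 : chunkOkM (LA4_5.ctx true true 134 29 2048 7 256 4096 131072 4096 65536) muQ true true 64 RtA4_5.Cx RtA4_5.CX RtA4_5.Ctp RtA4_5.Ce RtA4_5.CTp RtA4_5.CEr 0x00114403012006a0508440303561201140356a601169030707345126a086a60503121101703110101101037437400690744030335611126a0856a6011403512011690774031269070711116907374069403030307356116a086a601140351211070303120111103740356116a086a60512012690703075611011403126903070712011011403345656345634563456345646 = true := by decide +kernel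

theorem cA4_5_2_0 : chunkOkM (LA4_5.ctx false true 139 17 2048 15 512 8192 1048576 8192 32768) muQ false true 64 RtA4_5.Cx RtA4_5.CX RtA4_5.Ctn RtA4_5.Ce RtA4_5.CTp RtA4_5.CEr 0x0000690006a0508084444369733001205050844120006a050844311006a050844312110006a050844331111006a05084433120011110000000000006a050844444443333333771211110001211110000120505444333564433565645645646 = true := by decide +kernel

theorem cA4_5_1_0 : chunkOkM (LA4_5.ctx true false 122 29 2048 3 128 2048 65536 128 4096) muQ true false 64 RtA4_5.Cx RtA4_5.CX RtA4_5.Ctp RtA4_5.Ce RtA4_5.CTn RtA4_5.CEr 0x000690703071112069030707110110110114033434346534664 = true := by decide +kernel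

theorem cA4_5_0_0 : chunkOkM (LA4_5.ctx false false 103 5 512 3 128 64 1024 64 512) muQ false false 64 RtA4_5.Cx RtA4_5.CX RtA4_5.Ctn RtA4_5.Ce RtA4_5.CTn RtA4_5.CEr 0x0 = true := by decide +kernel

theorem covA4_5 : LA4_5.Full muQ.val RtA4_5 := ⟨(LitT.cov_of_chunkM cA4_5_3_0), (LitT.cov_of_chunkM cA4_5_1_0), (LitT.cov_of_chunkM cA4_5_2_0), (LitT.cov_of_chunkM cA4_5_0_0)⟩

noncomputable def LA3_9 : LitT := ⟨⟨2,1,1,1,1,1⟩, [[[[[1832341253128193,13820023849088],[52905189048320,7805195763892352,8485431327867009]],[[38916669434757120],[]]],[[[31873208156160,32778932995584065],[19570003783188481]],[[32778932995584064],[]]]],[[[[37212382513152000],[37803360904364032,81414273551155201]],[[],[]]],[[[],[]],[[],[]]]]], [[[[[127492832624640,4543194595392,26388279066689,4218506159431809],[78280015132753921]],[[18542164090814528,4218506159431808],[]]],[[[9729167358689281,69568429348167744],[1068757459927040,60648480597811264,65934094777344065]],[[46813495540318208],[]]]],[[[[59017020485361665],[]],[[35839315371843584],[]]],[[[],[]],[[],[]]]]]⟩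

def RtA3_9 : Roots := ⟨⟨1,4,1024⟩,⟨2,3,16⟩,⟨0,5,64⟩,⟨0,5,64⟩,⟨0,11,2048⟩,⟨0,17,32⟩,⟨0,1,2⟩,⟨0,17,64⟩⟩

noncomputable def DA3_9 : R1D := ⟨⟨[Int.ofNat 512, Int.negSucc 511, Int.ofNat 527],512,527,512,512,[Int.ofNat 0, Int.negSucc 0]⟩,⟨[Int.ofNat 0, Int.ofNat 0, Int.ofNat 125829120, Int.negSucc 41943039, Int.ofNat 20949075, Int.negSucc 11773082],251658240,4194304,[Int.ofNat 0, Int.negSucc 66, Int.ofNat 1981]⟩,⟨[Int.ofNat 0, Int.ofNat 0, Int.ofNat 41919030, Int.negSucc 13971049, Int.ofNat 7328955, Int.negSucc 4422608],83886080,16777216,[Int.negSucc 97, Int.ofNat 12, Int.ofNat 4206]⟩,409723630648407283030757828457607987200⟩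

theorem chkA3_9 : chkR1 DA3_9 LA3_9 muQ RtA3_9 = true := by decide +kernel

theorem cA3_9_3_0 : chunkOkM (LA3_9.ctx true true 134 13 4096 23 128 4096 16384 32768 32768) muQ true true 64 RtA3_9.Cx RtA3_9.CX RtA3_9.Ctp RtA3_9.Ce RtA3_9.CTp RtA3_9.CEr 0x01205126605050808126a056a65020581202120812658606a0812601101740303801011017430303035656051212126a0851260126a085685126512606a6050508086a6a056a6806a06a68011403030756560512126a06a68512651266a0505050808036a6a0586a606a6a058605560512126a06a685126512601011017430303036a6a0586a606a6050803560512126a086a65126512606a056a60103030303560512126a05512651260110174030312126a055126512601011403017303030301140312051261101703511400126054364565656565656 = true := by decide +kernel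

theorem cA3_9_2_0 : chunkOkM (LA3_9.ctx false true 128 5 2048 23 128 2048 32768 4096 16384) muQ false true 64 RtA3_9.Cx RtA3_9.CX RtA3_9.Ctn RtA3_9.Ce RtA3_9.CTp RtA3_9.CEr 0x0126a055081202120858606a6050808560512126a0812600000006a0508444333385126512606a086a6006a60508083560512126a085126512606a086a66050512126a085126512606a6050505126a0812651260120512600012660545656565656 = true := by decide +kernel

theorem cA3_9_1_0 : chunkOkM (LA3_9.ctx true false 107 5 2048 5 32 2048 8192 4 128) muQ true false 64 RtA3_9.Cx RtA3_9.CX RtA3_9.Ctp RtA3_9.Ce RtA3_9.CTn RtA3_9.CEr 0x0101101743030303 = true := by decide +kernel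

theorem cA3_9_0_0 : chunkOkM (LA3_9.ctx false false 102 5 2048 5 32 128 4096 4 128) muQ false false 64 RtA3_9.Cx RtA3_9.CX RtA3_9.Ctn RtA3_9.Ce RtA3_9.CTn RtA3_9.CEr 0x0 = true := by decide +kernel

theorem covA3_9 : LA3_9.Full muQ.val RtA3_9 := ⟨(LitT.cov_of_chunkM cA3_9_3_0), (LitT.cov_of_chunkM cA3_9_1_0), (LitT.cov_of_chunkM cA3_9_2_0), (LitT.cov_of_chunkM cA3_9_0_0)⟩

noncomputable def LA2_10 : LitT := ⟨⟨2,1,1,1,1,1⟩, [[[[[5814143399493633,855250999181376,50908455198848],[168317797007360,15603615821242496,17197570141225089]],[[79138374832619520],[]]],[[[117410491269120,66657078411264065],[39662864469852161]],[[66657078411264064],[]]]],[[[[74667928421376000],[76386136581496832,165003713517158401]],[[],[]]],[[[],[]],[[],[]]]]], [[[[[469641965076480,52776558133313,8578476178145409],[158651457879408641]],[[36662115716563008,8578476178145408],[]]],[[[19784593708154881,140582818458112064],[1308716844449792,121244312124518464,133629767989248065]],[[93108825141280768],[]]]],[[[[118969116885254145],[]],[[73141472239550464],[]]],[[[],[]],[[],[]]]]]⟩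

def RtA2_10 : Roots := ⟨⟨1,4,4096⟩,⟨3,4,16⟩,⟨0,5,128⟩,⟨0,5,128⟩,⟨0,11,8192⟩,⟨0,5,8⟩,⟨0,1,2⟩,⟨0,11,32⟩⟩

noncomputable def DA2_10 : R1D := ⟨⟨[Int.ofNat 512, Int.negSucc 511, Int.ofNat 521],512,521,512,512,[Int.ofNat 0, Int.negSucc 0]⟩,⟨[Int.ofNat 0, Int.ofNat 0, Int.ofNat 6291456, Int.negSucc 2097151, Int.ofNat 1047735, Int.negSucc 594014],12582912,4194304,[Int.ofNat 0, Int.negSucc 57, Int.ofNat 1990]⟩,⟨[Int.ofNat 0, Int.ofNat 0, Int.ofNat 251392905, Int.negSucc 83790984, Int.ofNat 44711040, Int.negSucc 26890133],503316480,16777216,[Int.negSucc 132, Int.ofNat 5, Int.ofNat 4234]⟩,61458544597261092454613674268641198080⟩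

theorem chkA2_10 : chkR1 DA2_10 LA2_10 muQ RtA2_10 = true := by decide +kernel

theorem cA2_10_3_0 : chunkOkM (LA2_10.ctx true true 131 5 8192 127 512 4096 16384 1024 4096) muQ true true 64 RtA2_10.Cx RtA2_10.CX RtA2_10.Ctp RtA2_10.Ce RtA2_10.CTp RtA2_10.CEr 0x02050508228021208126028501260508085605126a120508036a68512606a60505086a1205126806a0103030303560856560512126a126a0851268512651266a05050808080803036a6a0886a050808035605126a6a05851266a050508086a6a0508085656056a06a60505086a06a60556056a06a605056a06a06a6055656565656 = true := by decide +kernel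

theorem cA2_10_2_0 : chunkOkM (LA2_10.ctx false true 128 5 8192 127 512 1024 16384 1024 2048) muQ false true 64 RtA2_10.Cx RtA2_10.CX RtA2_10.Ctn RtA2_10.Ce RtA2_10.CTp RtA2_10.CEr 0x002120812602850006a608080808335605126a06a6851266a0505050808086a12051268012605080856560512126a6a0812685126512606a6050508126a6a088512606a60556056a006a0505080808336a6a05050856056a06a605056a06a60556565656 = true := by decide +kernel

theorem cA2_10_1_0 : chunkOkM (LA2_10.ctx true false 109 5 8192 7 32 256 16384 4 64) muQ true false 64 RtA2_10.Cx RtA2_10.CX RtA2_10.Ctp RtA2_10.Ce RtA2_10.CTn RtA2_10.CEr 0x0 = true := by decide +kernel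

theorem cA2_10_0_0 : chunkOkM (LA2_10.ctx false false 109 5 8192 7 32 256 16384 4 64) muQ false false 64 RtA2_10.Cx RtA2_10.CX RtA2_10.Ctn RtA2_10.Ce RtA2_10.CTn RtA2_10.CEr 0x0 = true := by decide +kernel

theorem covA2_10 : LA2_10.Full muQ.val RtA2_10 := ⟨(LitT.cov_of_chunkM cA2_10_3_0), (LitT.cov_of_chunkM cA2_10_1_0), (LitT.cov_of_chunkM cA2_10_2_0), (LitT.cov_of_chunkM cA2_10_0_0)⟩

noncomputable def LA10_3 : LitT := ⟨⟨2,1,1,1,1,1⟩, [[[[[2742383856844864,23023779968],[141599703040,7810915254534272,8070987941560449]],[[37192038151618560],[]]],[[[86747518074880,31326301665792065],[18614170387742721]],[[31326301665792064],[]]]],[[[[40038039174840320],[37647130865827840,77437857277132801]],[[],[]]],[[[],[]],[[],[]]]]], [[[[[331608804556800,103396262543361,26388279066689,4031558823075969],[74456681550970881]],[[18647717207081024,4031558823075968],[]]],[[[9298009537904641,79438360129863744],[1266672795123712,60692922585907264,62713757654016065]],[[46593443952066560],[]]]],[[[[57328889698754561],[]],[[34019243189903360],[]]],[[[],[]],[[],[]]]]]⟩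

def RtA10_3 : Roots := ⟨⟨3,4,16⟩,⟨1,4,1024⟩,⟨0,5,8⟩,⟨0,5,8⟩,⟨0,11,32⟩,⟨0,5,64⟩,⟨0,5,64⟩,⟨0,11,2048⟩⟩

noncomputable def DA10_3 : R1D := ⟨⟨[Int.ofNat 256, Int.negSucc 255, Int.ofNat 265],256,265,256,256,[Int.ofNat 0, Int.negSucc 0]⟩,⟨[Int.ofNat 0, Int.ofNat 0, Int.ofNat 502567560, Int.negSucc 167576239, Int.ofNat 90481135, Int.negSucc 53856506],1006632960,16777216,[Int.negSucc 157, Int.negSucc 16, Int.ofNat 4237]⟩,⟨[Int.ofNat 0, Int.ofNat 0, Int.ofNat 125829000, Int.negSucc 41942959, Int.ofNat 21012495, Int.negSucc 12619802],251658240,4194304,[Int.negSucc 1, Int.ofNat 1, Int.ofNat 2051]⟩,2458341783890443698184546970745647923200⟩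

theorem chkA10_3 : chkR1 DA10_3 LA10_3 muQ RtA10_3 = true := by decide +kernel

theorem cA10_3_3_0 : chunkOkM (LA10_3.ctx true true 121 511 2048 5 2048 1024 4096 128 4096) muQ true true 64 RtA10_3.Cx RtA10_3.CX RtA10_3.Ctp RtA10_3.Ce RtA10_3.CTp RtA10_3.CEr 0x0103030707070721701110701711017430114030707340311690694731140694030307691103114706907403343403111169110371143114311406969077403031169690773114690303070707070707696903070734340369069403036906940334036906940303690690694033434343434 = true := by decide +kernel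

theorem cA10_3_2_0 : chunkOkM (LA10_3.ctx false true 97 7 32 5 2048 16 64 128 4096) muQ false true 64 RtA10_3.Cx RtA10_3.CX RtA10_3.Ctn RtA10_3.Ce RtA10_3.CTp RtA10_3.CEr 0x0 = true := by decide +kernel

theorem cA10_3_1_0 : chunkOkM (LA10_3.ctx true false 116 63 256 5 2048 2048 4096 128 4096) muQ true false 64 RtA10_3.Cx RtA10_3.CX RtA10_3.Ctp RtA10_3.Ce RtA10_3.CTn RtA10_3.CEr 0x01030307072170111070171101743011403070734031169069473114069403030769110311470690740334340311116911037114311431140696907740303116969077311469030307070769690703073434036906940303690694033403690694030369690303030707690694033434343434 = true := by decide +kernel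

theorem cA10_3_0_0 : chunkOkM (LA10_3.ctx false false 97 7 32 5 2048 16 64 128 4096) muQ false false 64 RtA10_3.Cx RtA10_3.CX RtA10_3.Ctn RtA10_3.Ce RtA10_3.CTn RtA10_3.CEr 0x0 = true := by decide +kernel

theorem covA10_3 : LA10_3.Full muQ.val RtA10_3 := ⟨(LitT.cov_of_chunkM cA10_3_3_0), (LitT.cov_of_chunkM cA10_3_1_0), (LitT.cov_of_chunkM cA10_3_2_0), (LitT.cov_of_chunkM cA10_3_0_0)⟩


end Vale.Agent.helper4.Q4
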