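import Vale.Agent.helper4.Q4TreeM

/-!
Checks for pairs of intervals of second moments.
-/

set_option maxRecDepth 100000
set_option linter.unusedVariables false

namespace Vale.Agent.helper4.Q4

noncomputable def LA2_9 : LitT := ⟨⟨2,1,1,1,1,1⟩, [[[[[9664163718627329,2195159932469312,58716394537088],[202009676349440,31221824881606784,33893323570299009]],[[155890414119813120],[]]],[[[135417991004160,131304181814784065],[78168385891860481]],[[131304181814784064],[]]]],[[[[148984770335293440],[153334501841256448,325192699120435201]],[[],[]]],[[[],[]],[[],[]]]]], [[[[[541671964016640,105553116266561,16898277311815809],[312673543567441921]],[[73113125200592960,16898277311815808],[]]],[[[38972603529953281,285925774773985344],[2161564744417280,242602017661132864,263360284498944065]],[[185198853931139072],[]]]],[[[[235245245354500097],[]],[[143853838853758976],[]]],[[[],[]],[[],[]]]]]⟩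

def RtA2_9 : Roots := ⟨⟨1,4,4096⟩,⟨2,3,16⟩,⟨0,5,128⟩,⟨0,5,128⟩,⟨0,11,8192⟩,⟨0,17,32⟩,⟨0,1,2⟩,⟨0,17,64⟩⟩

noncomputable def DA2_9 : R1D := ⟨⟨[Int.ofNat 1024, Int.negSucc 1023, Int.ofNat 1039],1024,1039,1024,1024,[Int.ofNat 0, Int.negSucc 0]⟩,⟨[Int.ofNat 0, Int.ofNat 0, Int.ofNat 1966080, Int.negSucc 655359, Int.ofNat 327555, Int.negSucc 189002],3932160,4194304,[Int.ofNat 0, Int.negSucc 39, Int.ofNat 2008]⟩,⟨[Int.ofNat 0, Int.ofNat 0, Int.ofNat 167670150, Int.negSucc 55886009, Int.ofNat 29357955, Int.negSucc 17665208],335544320,16777216,[Int.negSucc 100, Int.ofNat 6, Int.ofNat 4203]⟩,12803863457762727594711182139300249600⟩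

theorem chkA2_9 : chkR1 DA2_9 LA2_9 muQ RtA2_9 = true := by decide +kernel

theorem cA2_9_3_0 : chunkOkM (LA2_9.ctx true true 135 5 8192 191 1024 1024 16384 4096 16384) muQ true true 64 RtA2_9.Cx RtA2_9.CX RtA2_9.Ctp RtA2_9.Ce RtA2_9.CTp RtA2_9.CEr 0x06a6050508080808080303126a05502058120212085860012660508560512126a081266a050885126512606a086a606a6050808560512126a085126512606a086a66050512126a085126512606a6050505126a08126512601205126001266055656565656 = true := by decide +kernel

theorem cA2_9_2_0 : chunkOkM (LA2_9.ctx false true 142 5 8192 767 4096 8192 131072 4096 8192) muQ false true 64 RtA2_9.Cx RtA2_9.CX RtA2_9.Ctn RtA2_9.Ce RtA2_9.CTp RtA2_9.CEr 0x0126a055081202120858606a6050808560512126a08126085126512606a086a6000000006a05050808080808080844433333560512126a085126512606a086a660505126a08126512600000006a605050808080808443333121205512606a0812660556565656 = true := by decide +kernel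

theorem cA2_9_1_0 : chunkOkM (LA2_9.ctx true false 111 5 8192 5 32 256 16384 4 128) muQ true false 64 RtA2_9.Cx RtA2_9.CX RtA2_9.Ctp RtA2_9.Ce RtA2_9.CTn RtA2_9.CEr 0x0 = true := by decide +kernel

theorem cA2_9_0_0 : chunkOkM (LA2_9.ctx false false 111 5 8192 5 32 256 16384 4 128) muQ false false 64 RtA2_9.Cx RtA2_9.CX RtA2_9.Ctn RtA2_9.Ce RtA2_9.CTn RtA2_9.CEr 0x0 = true := by decide +kernel

theorem covA2_9 : LA2_9.Full muQ.val RtA2_9 := ⟨(LitT.cov_of_chunkM cA2_9_3_0), (LitT.cov_of_chunkM cA2_9_1_0), (LitT.cov_of_chunkM cA2_9_2_0), (LitT.cov_of_chunkM cA2_9_0_0)⟩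

noncomputable def LA1_10 : LitT := ⟨⟨2,1,1,1,1,1⟩, [[[[[6447532896944129,1534235601010752,50908455198848],[163609606881280,15604126181695616,17181326864547969]],[[79138445632471040],[]]],[[[117410491269120,66657138044928065],[39625402498416641]],[[66657138044928064],[]]]],[[[[74713594325606400],[77024351980740608,164847865862553601]],[[],[]]],[[[],[]],[[],[]]]]], [[[[[469641965076480,52776558133313,8578483852738689],[158501609993666561]],[[36345456367763520,8578483852738688],[]]],[[[19784611408117761,144841429527040064],[674221099319296,121248277763174464,133503553339392065]],[[92475524143644672],[]]]],[[[[118652531171065857],[]],[[73220710711361536],[]]],[[[],[]],[[],[]]]]]⟩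

def RtA1_10 : Roots := ⟨⟨1,4,16384⟩,⟨3,4,16⟩,⟨0,5,256⟩,⟨0,5,256⟩,⟨0,11,32768⟩,⟨0,5,8⟩,⟨0,1,2⟩,⟨0,11,32⟩⟩

noncomputable def DA1_10 : R1D := ⟨⟨[Int.ofNat 1024, Int.negSucc 1023, Int.ofNat 1033],1024,1033,1024,1024,[Int.ofNat 0, Int.negSucc 0]⟩,⟨[Int.ofNat 0, Int.ofNat 0, Int.ofNat 1572864, Int.negSucc 524287, Int.ofNat 262095, Int.negSucc 153014],3145728,4194304,[Int.ofNat 0, Int.negSucc 27, Int.ofNat 2020]⟩,⟨[Int.ofNat 0, Int.ofNat 0, Int.ofNat 251392905, Int.negSucc 83793644, Int.ofNat 44711080, Int.negSucc 26864735],503316480,16777216,[Int.negSucc 132, Int.ofNat 3, Int.ofNat 4232]⟩,30729272298630546227306837134320599040⟩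

theorem chkA1_10 : chkR1 DA1_10 LA1_10 muQ RtA1_10 = true := by decide +kernel

theorem cA1_10_3_0 : chunkOkM (LA1_10.ctx true true 134 5 32768 127 512 1024 65536 1024 2048) muQ true true 64 RtA1_10.Cx RtA1_10.CX RtA1_10.Ctp RtA1_10.Ce RtA1_10.CTp RtA1_10.CEr 0x0205050808082280302120812602856a05050808085605126a06a6851266a05050508086a1205126806a6050856560512126a120512685126512606a6050508126a6a088512606a60556056a6a05050808086a6a05050856056a06a605056a06a60556565656 = true := by decide +kernel

theorem cA1_10_2_0 : chunkOkM (LA1_10.ctx false true 136 5 32768 127 512 4096 65536 1024 2048) muQ false true 64 RtA1_10.Cx RtA1_10.CX RtA1_10.Ctn RtA1_10.Ce RtA1_10.CTp RtA1_10.CEr 0x0020126028500006a6080808083335605126a06a6851266a0505050808086a012686a0505080856560512126a6a0812685126512606a6050508126a08512606a60556056a06a6a050508080856056a06a605056a06a60556565656 = true := by decide +kernel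

theorem cA1_10_1_0 : chunkOkM (LA1_10.ctx true false 116 5 32768 7 32 512 65536 4 64) muQ true false 64 RtA1_10.Cx RtA1_10.CX RtA1_10.Ctp RtA1_10.Ce RtA1_10.CTn RtA1_10.CEr 0x0 = true := by decide +kernel

theorem cA1_10_0_0 : chunkOkM (LA1_10.ctx false false 116 5 32768 7 32 512 65536 4 64) muQ false false 64 RtA1_10.Cx RtA1_10.CX RtA1_10.Ctn RtA1_10.Ce RtA1_10.CTn RtA1_10.CEr 0x0 = true := by decide +kernel

theorem covA1_10 : LA1_10.Full muQ.val RtA1_10 := ⟨(LitT.cov_of_chunkM cA1_10_3_0), (LitT.cov_of_chunkM cA1_10_1_0), (LitT.cov_of_chunkM cA1_10_2_0), (LitT.cov_of_chunkM cA1_10_0_0)⟩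

noncomputable def LA0_10 : LitT := ⟨⟨2,1,1,1,1,1⟩, [[[[[13377518857879553,3720481060421696,98777771458688],[359397746278400,31204764260745344,34476423818526849]],[[158126025631334400],[]]],[[[227811797237760,133187204206080065],[79513193671557121]],[[133187204206080064],[]]]],[[[[149416720505978880],[154648555728289792,330787309610188801]],[[],[]]],[[[],[]],[[],[]]]]], [[[[[911247188951040,105553116266561,17140614106521729],[318052774686228481]],[[72374253386727488,17140614106521728],[]]],[[[39531506407833601,293101816103444544],[723168134168576,242469452026060864,267891131022336065]],[[184280013181288448],[]]]],[[[[236831496841191425],[]],[[146363680107782144],[]]],[[[],[]],[[],[]]]]]⟩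

def RtA0_10 : Roots := ⟨⟨0,1,16384⟩,⟨3,4,16⟩,⟨0,5,512⟩,⟨0,5,512⟩,⟨0,11,131072⟩,⟨0,5,8⟩,⟨0,1,2⟩,⟨0,11,32⟩⟩

noncomputable def DA0_10 : R1D := ⟨⟨[Int.ofNat 2048, Int.negSucc 2047, Int.ofNat 2057],2048,2057,2048,2048,[Int.ofNat 0, Int.negSucc 0]⟩,⟨[Int.ofNat 0, Int.ofNat 0, Int.ofNat 491520, Int.negSucc 163839, Int.ofNat 81915, Int.negSucc 48386],983040,4194304,[Int.ofNat 0, Int.negSucc 15, Int.ofNat 2032]⟩,⟨[Int.ofNat 0, Int.ofNat 0, Int.ofNat 167600550, Int.negSucc 55856369, Int.ofNat 29778975, Int.negSucc 17969120],335544320,16777216,[Int.negSucc 130, Int.ofNat 12, Int.ofNat 4239]⟩,6401931728881363797355591069650124800⟩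

theorem chkA0_10 : chkR1 DA0_10 LA0_10 muQ RtA0_10 = true := by decide +kernel

theorem cA0_10_3_0 : chunkOkM (LA0_10.ctx true true 137 1 32768 127 512 1024 262144 1024 2048) muQ true true 64 RtA0_10.Cx RtA0_10.CX RtA0_10.Ctp RtA0_10.Ce RtA0_10.CTp RtA0_10.CEr 0x0021208126028506a6080808085605126a06a6851266a05050508086a12051268012605080856560512126a6a0812685126512606a6050508126a6a088512606a60556056a06a6a0505080856056a06a605056a06a60556565656 = true := by decide +kernel

theorem cA0_10_2_0 : chunkOkM (LA0_10.ctx false true 139 1 32768 127 512 4096 262144 1024 2048) muQ false true 64 RtA0_10.Cx RtA0_10.CX RtA0_10.Ctn RtA0_10.Ce RtA0_10.CTp RtA0_10.CEr 0x002012602850006a608080808335605126a06a6851266a0505050808086a012686a0505080856560512126a6a0812685126512606a6050508126a08512606a60556056a06a06a050508080808356056a06a60505086a06a60556565656 = true := by decide +kernel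

theorem cA0_10_1_0 : chunkOkM (LA0_10.ctx true false 120 1 32768 7 32 1024 262144 4 64) muQ true false 64 RtA0_10.Cx RtA0_10.CX RtA0_10.Ctp RtA0_10.Ce RtA0_10.CTn RtA0_10.CEr 0x0 = true := by decide +kernel

theorem cA0_10_0_0 : chunkOkM (LA0_10.ctx false false 120 1 32768 7 32 1024 262144 4 64) muQ false false 64 RtA0_10.Cx RtA0_10.CX RtA0_10.Ctn RtA0_10.Ce RtA0_10.CTn RtA0_10.CEr 0x0 = true := by decide +kernel

theorem covA0_10 : LA0_10.Full muQ.val RtA0_10 := ⟨(LitT.cov_of_chunkM cA0_10_3_0), (LitT.cov_of_chunkM cA0_10_1_0), (LitT.cov_of_chunkM cA0_10_2_0), (LitT.cov_of_chunkM cA0_10_0_0)⟩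

noncomputable def LA10_2 : LitT := ⟨⟨2,1,1,1,1,1⟩, [[[[[457387987173377,3451664157638720],[7810930603720832,8055255025336449]],[[37119503703736320],[]]],[[[118996850442240,31265206977024065],[18577885463838721]],[[31265206977024064],[]]]],[[[[40113779874201600],[38280596832649216,77286906324172801]],[[],[]]],[[[],[]],[[],[]]]]], [[[[[348388369367040,26388279066689,4023696202260609],[74311541855354881]],[[18331057858281536,4023696202260608],[]]],[[[9279875925934081,80302961590272064],[633318697598976,60693041853235264,62591508642816065]],[[45941991642497024],[]]]],[[[[56936791690780673],[]],[[34022969367928832],[]]],[[[],[]],[[],[]]]]]⟩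

def RtA10_2 : Roots := ⟨⟨3,4,16⟩,⟨1,4,4096⟩,⟨0,5,8⟩,⟨0,5,8⟩,⟨0,11,32⟩,⟨0,5,128⟩,⟨0,5,128⟩,⟨0,11,8192⟩⟩

noncomputable def DA10_2 : R1D := ⟨⟨[Int.ofNat 512, Int.negSucc 511, Int.ofNat 521],512,521,512,512,[Int.ofNat 0, Int.negSucc 0]⟩,⟨[Int.ofNat 0, Int.ofNat 0, Int.ofNat 12563229, Int.negSucc 4187580, Int.ofNat 2266320, Int.negSucc 1361069],25165824,16777216,[Int.negSucc 161, Int.ofNat 2, Int.ofNat 4260]⟩,⟨[Int.ofNat 0, Int.ofNat 0, Int.ofNat 125829120, Int.negSucc 41943039, Int.ofNat 20971515, Int.negSucc 12595202],251658240,4194304,[Int.ofNat 0, Int.ofNat 1, Int.ofNat 2049]⟩,122917089194522184909227348537282396160⟩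

theorem chkA10_2 : chkR1 DA10_2 LA10_2 muQ RtA10_2 = true := by decide +kernel

theorem cA10_2_3_0 : chunkOkM (LA10_2.ctx true true 120 127 512 5 8192 512 2048 256 16384) muQ true true 64 RtA10_2.Cx RtA10_2.CX RtA10_2.Ctp RtA10_2.Ce RtA10_2.CTp RtA10_2.CEr 0x001011017430694070707073403116906947311469030303070769110311470694030734340311116969077114311431140690740303116969077311406940334036969030307070769069403340369069403036906940334343434 = true := by decide +kernel

theorem cA10_2_2_0 : chunkOkM (LA10_2.ctx false true 102 7 32 5 8192 16 64 256 16384) muQ false true 64 RtA10_2.Cx RtA10_2.CX RtA10_2.Ctn RtA10_2.Ce RtA10_2.CTp RtA10_2.CEr 0x0 = true := by decide +kernel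

theorem cA10_2_1_0 : chunkOkM (LA10_2.ctx true false 118 63 256 5 8192 512 2048 256 16384) muQ true false 64 RtA10_2.Cx RtA10_2.CX RtA10_2.Ctp RtA10_2.Ce RtA10_2.CTn RtA10_2.CEr 0x00111070171101743690303070707340311690694731140694030307691103114706907403343403111169690771143114311406907403031169690773114069403340369690303070769069403340369069403036906940334343434 = true := by decide +kernel

theorem cA10_2_0_0 : chunkOkM (LA10_2.ctx false false 102 7 32 5 8192 16 64 256 16384) muQ false false 64 RtA10_2.Cx RtA10_2.CX RtA10_2.Ctn RtA10_2.Ce RtA10_2.CTn RtA10_2.CEr 0x0 = true := by decide +kernel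

theorem covA10_2 : LA10_2.Full muQ.val RtA10_2 := ⟨(LitT.cov_of_chunkM cA10_2_3_0), (LitT.cov_of_chunkM cA10_2_1_0), (LitT.cov_of_chunkM cA10_2_2_0), (LitT.cov_of_chunkM cA10_2_0_0)⟩


end Vale.Agent.helper4.Q4
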