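import Vale.Agent.helper4.Q4TreeM

/-!
Checks for pairs of intervals of second moments.
-/

set_option maxRecDepth 100000
set_option linter.unusedVariables false

namespace Vale.Agent.helper4.Q4

noncomputable def LA3_6 : LitT := ⟨⟨2,1,1,1,1,1⟩, [[[[[3574582439051265,1827852752257088,3315424297088],[7646383964160,31242893558808704,32520492324372609]],[[150223045305303040],[]]],[[[7646383964160,126530641187328065],[75002216531886081]],[[126530641187328064],[]]]],[[[[148508125770547200],[153114434792587264,312020939868979201]],[[],[]]],[[[],[]],[[],[]]]]], [[[[[30585535856640,105553116266561,16283943387586689],[300008866127544321]],[[73324231433125952,16283943387586688],[]]],[[[37555761326325761,299015304708096064],[2535186386386944,242765726977228864,252693014682624065]],[[184204224192577536],[]]]],[[[[229562066638348289],[]],[[137906777346940928],[]]],[[[],[]],[[],[]]]]]⟩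

def RtA3_6 : Roots := ⟨⟨1,4,1024⟩,⟨1,2,32⟩,⟨0,5,64⟩,⟨0,5,64⟩,⟨0,11,2048⟩,⟨0,5,16⟩,⟨0,5,16⟩,⟨0,11,128⟩⟩

noncomputable def DA3_6 : R1D := ⟨⟨[Int.ofNat 512, Int.negSucc 511, Int.ofNat 521],512,521,512,512,[Int.ofNat 0, Int.negSucc 0]⟩,⟨[Int.ofNat 0, Int.ofNat 0, Int.ofNat 25165824, Int.negSucc 8388607, Int.ofNat 4194255, Int.negSucc 2533814],50331648,4194304,[Int.ofNat 0, Int.ofNat 7, Int.ofNat 2055]⟩,⟨[Int.ofNat 0, Int.ofNat 0, Int.ofNat 503299200, Int.negSucc 167767839, Int.ofNat 84871955, Int.negSucc 50849066],1006632960,16777216,[Int.negSucc 23, Int.negSucc 2, Int.ofNat 4117]⟩,245834178389044369818454697074564792320⟩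

theorem chkA3_6 : chkR1 DA3_6 LA3_6 muQ RtA3_6 = true := by decide +kernel

theorem cA3_6_3_0 : chunkOkM (LA3_6.ctx true true 135 23 8192 7 128 4096 32768 2048 32768) muQ true true 64 RtA3_6.Cx RtA3_6.CX RtA3_6.Ctp RtA3_6.Ce RtA3_6.CTp RtA3_6.CEr 0x01011017403303030312010110174303030356a601101740303512126a0856a601101740303512126a0856a601101740303512006a050844030312006a050844030356126a0856a6011403512110170303120111107340356116a086a605120114031201169070307345656345645656566 = true := by decide +kernel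

theorem cA3_6_2_0 : chunkOkM (LA3_6.ctx false true 132 5 2048 7 128 1024 262144 4096 16384) muQ false true 64 RtA3_6.Cx RtA3_6.CX RtA3_6.Ctn RtA3_6.Ce RtA3_6.CTp RtA3_6.CEr 0x012056a605126a086a605126a086a6051200120505441200012110000000120505844443335644565656566 = true := by decide +kernel

theorem cA3_6_1_0 : chunkOkM (LA3_6.ctx true false 117 29 8192 3 64 512 16384 32 256) muQ true false 64 RtA3_6.Cx RtA3_6.CX RtA3_6.Ctp RtA3_6.Ce RtA3_6.CTn RtA3_6.CEr 0x001169030707344 = true := by decide +kernel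

theorem cA3_6_0_0 : chunkOkM (LA3_6.ctx false false 109 5 2048 3 64 128 4096 32 256) muQ false false 64 RtA3_6.Cx RtA3_6.CX RtA3_6.Ctn RtA3_6.Ce RtA3_6.CTn RtA3_6.CEr 0x0 = true := by decide +kernel

theorem covA3_6 : LA3_6.Full muQ.val RtA3_6 := ⟨(LitT.cov_of_chunkM cA3_6_3_0), (LitT.cov_of_chunkM cA3_6_1_0), (LitT.cov_of_chunkM cA3_6_2_0), (LitT.cov_of_chunkM cA3_6_0_0)⟩

noncomputable def LA5_4 : LitT := ⟨⟨2,1,1,1,1,1⟩, [[[[[318108204007425,463964748120128,23023779968],[7810992000467072,7992476852306049]],[[37191330153103360],[]]],[[[31325705329152065],[18433099767480321]],[[31325705329152064],[]]]],[[[[37337407601049600],[38070079677005824,76684575204556801]],[[],[]]],[[[],[]],[[],[]]]]], [[[[[2123995545600,26388279066689,4031482077143169],[566398812160,73732399069921281]],[[18436610974548032,4031482077143168],[]]],[[[159299665920,9297832538275841,74384272904192064],[844283330428928,60693518922547264,62103705271296065]],[[46171054487371776],[]]]],[[[[57117047120109569],[]],[[34071283401924608],[]]],[[[],[]],[[],[]]]]]⟩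

def RtA5_4 : Roots := ⟨⟨1,2,64⟩,⟨1,4,256⟩,⟨0,7,32⟩,⟨0,7,32⟩,⟨0,11,256⟩,⟨0,5,32⟩,⟨0,5,32⟩,⟨0,11,512⟩⟩

noncomputable def DA5_4 : R1D := ⟨⟨[Int.ofNat 128, Int.negSucc 127, Int.ofNat 131],128,524,512,512,[Int.ofNat 0, Int.negSucc 0]⟩,⟨[Int.ofNat 0, Int.ofNat 0, Int.ofNat 6291402, Int.negSucc 2097157, Int.ofNat 1054725, Int.negSucc 630374],12582912,4194304,[Int.negSucc 5, Int.negSucc 3, Int.ofNat 2050]⟩,⟨[Int.ofNat 0, Int.ofNat 0, Int.ofNat 125829000, Int.negSucc 41943359, Int.ofNat 21012095, Int.negSucc 12497042],251658240,4194304,[Int.negSucc 1, Int.negSucc 8, Int.ofNat 2041]⟩,15364636149315273113653418567160299520⟩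

theorem chkA5_4 : chkR1 DA5_4 LA5_4 muQ RtA5_4 = true := by decide +kernel

theorem cA5_4_3_0 : chunkOkM (LA5_4.ctx true true 131 15 512 5 512 8192 131072 2048 65536) muQ true true 64 RtA5_4.Cx RtA5_4.CX RtA5_4.Ctp RtA5_4.Ce RtA5_4.CTp RtA5_4.CEr 0x011036940694030307073110114031103031269076940694030307073561169070311011110303343412690703126907694035611011011403341201206940356110114031269076940311012011011012605343456345634563456346344 = true := by decide +kernel

theorem cA5_4_2_0 : chunkOkM (LA5_4.ctx false true 132 7 256 29 2048 8192 524288 2048 32768) muQ false true 64 RtA5_4.Cx RtA5_4.CX RtA5_4.Ctn RtA5_4.Ce RtA5_4.CTp RtA5_4.CEr 0x00000121100121111001211000120111100006a050808444333756443564335643566444 = true := by decide +kernel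

theorem cA5_4_1_0 : chunkOkM (LA5_4.ctx true false 119 7 256 5 512 8192 32768 64 8192) muQ true false 64 RtA5_4.Cx RtA5_4.CX RtA5_4.Ctp RtA5_4.Ce RtA5_4.CTn RtA5_4.CEr 0x01103031106907031106907031106903071101111030334346346346344 = true := by decide +kernel

theorem cA5_4_0_0 : chunkOkM (LA5_4.ctx false false 101 3 128 5 512 64 512 64 1024) muQ false false 64 RtA5_4.Cx RtA5_4.CX RtA5_4.Ctn RtA5_4.Ce RtA5_4.CTn RtA5_4.CEr 0x0 = true := by decide +kernel

theorem covA5_4 : LA5_4.Full muQ.val RtA5_4 := ⟨(LitT.cov_of_chunkM cA5_4_3_0), (LitT.cov_of_chunkM cA5_4_1_0), (LitT.cov_of_chunkM cA5_4_2_0), (LitT.cov_of_chunkM cA5_4_0_0)⟩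

noncomputable def LA9_2 : LitT := ⟨⟨2,1,1,1,1,1⟩, [[[[[140728638373889,557647392145472],[1952732650930304,2015779891200129]],[[9279869288448000],[]]],[[[8355488727040,7816296153600065],[4649005875200001]],[[7816296153600064],[]]]],[[[[9696788042219520],[9596537487228928,19340590848000001]],[[],[]]],[[[],[]],[[],[]]]]], [[[[[27482511114240,6597069766721,1005923331072129],[18596023500800001]],[[4569570325037120,1005923331072128],[]]],[[[2319967322112001,19356556612075584],[131941395333120,15173260463308864,15663154560000065]],[[11459107972186112],[]]]],[[[[14220996879917057],[]],[[8509033973620736],[]]],[[[],[]],[[],[]]]]]⟩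

def RtA9_2 : Roots := ⟨⟨2,3,16⟩,⟨1,4,4096⟩,⟨0,17,32⟩,⟨0,17,32⟩,⟨0,17,64⟩,⟨0,5,128⟩,⟨0,5,128⟩,⟨0,11,8192⟩⟩

noncomputable def DA9_2 : R1D := ⟨⟨[Int.ofNat 1024, Int.negSucc 1023, Int.ofNat 1039],1024,1039,1024,1024,[Int.ofNat 0, Int.negSucc 0]⟩,⟨[Int.ofNat 0, Int.ofNat 0, Int.ofNat 503068050, Int.negSucc 167696629, Int.ofNat 87654765, Int.negSucc 52492466],1006632960,16777216,[Int.negSucc 90, Int.negSucc 3, Int.ofNat 4183]⟩,⟨[Int.ofNat 0, Int.ofNat 0, Int.ofNat 6291456, Int.negSucc 2097151, Int.ofNat 1048575, Int.negSucc 630374],12582912,4194304,[Int.ofNat 0, Int.ofNat 2, Int.ofNat 2050]⟩,1966673427112354958547637576596518338560⟩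

theorem chkA9_2 : chkR1 DA9_2 LA9_2 muQ RtA9_2 = true := by decide +kernel

theorem cA9_2_3_0 : chunkOkM (LA9_2.ctx true true 127 383 2048 5 8192 4096 8192 256 16384) muQ true true 64 RtA9_2.Cx RtA9_2.CX RtA9_2.Ctp RtA9_2.Ce RtA9_2.CTp RtA9_2.CEr 0x011017031101110737401140303073403111169070711074311431140690769469030307070707070734031111690731143114069076944030311690711431140694030307070711110331140110311440334343434 = true := by decide +kernel

theorem cA9_2_2_0 : chunkOkM (LA9_2.ctx false true 103 5 32 5 8192 64 128 256 16384) muQ false true 64 RtA9_2.Cx RtA9_2.CX RtA9_2.Ctn RtA9_2.Ce RtA9_2.CTp RtA9_2.CEr 0x0 = true := by decide +kernel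

theorem cA9_2_1_0 : chunkOkM (LA9_2.ctx true false 123 95 512 5 8192 4096 8192 256 16384) muQ true false 64 RtA9_2.Cx RtA9_2.CX RtA9_2.Ctp RtA9_2.Ce RtA9_2.CTn RtA9_2.CEr 0x01101769030731101110737401140303073403111169070711074311431140690769469030307070707340311116907311431140690769440303111103114311406940303070711110331140110311440334343434 = true := by decide +kernel

theorem cA9_2_0_0 : chunkOkM (LA9_2.ctx false false 103 5 32 5 8192 64 128 256 16384) muQ false false 64 RtA9_2.Cx RtA9_2.CX RtA9_2.Ctn RtA9_2.Ce RtA9_2.CTn RtA9_2.CEr 0x0 = true := by decide +kernel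

theorem covA9_2 : LA9_2.Full muQ.val RtA9_2 := ⟨(LitT.cov_of_chunkM cA9_2_3_0), (LitT.cov_of_chunkM cA9_2_1_0), (LitT.cov_of_chunkM cA9_2_2_0), (LitT.cov_of_chunkM cA9_2_0_0)⟩

noncomputable def LA23_1 : LitT := ⟨⟨2,1,1,1,1,1⟩, [[[[[6804847198209,65129720722751552],[1952732650930304,1953339400274049]],[[9277886892605440],[]]],[[[7814626411008065],[4504998977208321]],[[7814626411008064],[]]]],[[[[74400802768158720],[9464596091895808,18741499651276801]],[[],[]]],[[[],[]],[[],[]]]]], [[[[[103454513037312000,6597069766721,1005708442460289],[18019995908833281]],[[4635541022703680,1005708442460288],[]]],[[[48179900758097920,2319471723151361,48196644922982464],[263882790666240,15173260463308864,15177975069696065]],[[11590553768558592],[]]]],[[[[14284905808470017],[]],[[8490479530090496],[]]],[[[],[]],[[],[]]]]]⟩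

def RtA23_1 : Roots := ⟨⟨2816,3073,1024⟩,⟨1,4,16384⟩,⟨0,17,8⟩,⟨0,11,16⟩,⟨0,17,4⟩,⟨0,5,256⟩,⟨0,5,256⟩,⟨0,11,32768⟩⟩

noncomputable def DA23_1 : R1D := ⟨⟨[Int.ofNat 512, Int.negSucc 511, Int.ofNat 527],512,527,512,512,[Int.ofNat 0, Int.negSucc 0]⟩,⟨Qtop,dtop,1,[]⟩,⟨[Int.ofNat 0, Int.ofNat 0, Int.ofNat 31457280, Int.negSucc 10485759, Int.ofNat 5241755, Int.negSucc 3054242],62914560,4194304,[Int.ofNat 0, Int.negSucc 29, Int.ofNat 2018]⟩,5121545383105091037884472855720099840⟩

theorem chkA23_1 : chkR1T DA23_1 LA23_1 muQ RtA23_1 = true := by decide +kernel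

theorem cA23_1_3_0 : chunkOkM (LA23_1.ctx true true 152 188705 65536 5 32768 126905 15011 512 65536) muQ true true 64 RtA23_1.Cx RtA23_1.CX RtA23_1.Ctp RtA23_1.Ce RtA23_1.CTp RtA23_1.CEr 0x010101010011403017110174114017114017433330021a04b11110770174403030171101751a04b1140103731111017744900110103744037301740311111161a04b11437114311401749494949011441377770011110730170174403731a04b369690101101743711401731a04b111171904b37114010101011401733030173761a04b343743441a04b34311111111111111110170371143017711437114349495c2904b69110171107073114041904b114403374031151a04b6941143449377369411434114493413694413 = true := by decide +kernel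

theorem cA23_1_2_0 : chunkOkM (LA23_1.ctx false true 48 1 1 1 1 1 1 1 1) muQ false true 64 RtA23_1.Cx RtA23_1.CX RtA23_1.Ctn RtA23_1.Ce RtA23_1.CTp RtA23_1.CEr 0x49 = true := by decide +kernel

theorem cA23_1_1_0 : chunkOkM (LA23_1.ctx true false 148 188705 65536 5 32768 16167 8007 512 65536) muQ true false 64 RtA23_1.Cx RtA23_1.CX RtA23_1.Ctp RtA23_1.Ce RtA23_1.CTn RtA23_1.CEr 0x010101010011017017411017411401743333061a04b1101721a04b11074311110177449001101744030373017403111111122904b1143711431140174949494901144137777001144030307017721a04b369690101140337114017061a04b1140103731a04b343743431a04b3431111111111111107114301771143711434949069110170311431904b374031131a04b6941143449377369411434114493413694413 = true := by decide +kernel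

theorem cA23_1_0_0 : chunkOkM (LA23_1.ctx false false 48 1 1 1 1 1 1 1 1) muQ false false 64 RtA23_1.Cx RtA23_1.CX RtA23_1.Ctn RtA23_1.Ce RtA23_1.CTn RtA23_1.CEr 0x49 = true := by decide +kernel

theorem covA23_1 : LA23_1.Full muQ.val RtA23_1 := ⟨(LitT.cov_of_chunkM cA23_1_3_0), (LitT.cov_of_chunkM cA23_1_1_0), (LitT.cov_of_chunkM cA23_1_2_0), (LitT.cov_of_chunkM cA23_1_0_0)⟩


end Vale.Agent.helper4.Q4
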