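import Vale.Agent.helper4.Q4TreeM

/-!
Checks for pairs of intervals of second moments.
-/

set_option maxRecDepth 100000
set_option linter.unusedVariables false

namespace Vale.Agent.helper4.Q4

noncomputable def LA3_7 : LitT := ⟨⟨2,1,1,1,1,1⟩, [[[[[4973842837536769,1548076971982912,12714882416768],[19133659873280,31241648356049024,32742042483179649]],[[151903780680499200],[]]],[[[29324413501440,127946299645440065],[75513179060305921]],[[127946299645440064],[]]]],[[[[148600008957050880],[152821012600209408,314146623825100801]],[[],[]]],[[[],[]],[[],[]]]]], [[[[[117297654005760,105553116266561,16466132476108929],[302052716241223681]],[[73464968921481280,16466132476108928],[]]],[[[37975945170124801,296764973110599744],[2819533182074880,242756051415244864,254414519294976065]],[[184905883013087232],[]]]],[[[[231450834570633217],[]],[[139619623418781696],[]]],[[[],[]],[[],[]]]]]⟩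

def RtA3_7 : Roots := ⟨⟨1,4,1024⟩,⟨2,3,32⟩,⟨0,5,64⟩,⟨0,5,64⟩,⟨0,11,2048⟩,⟨0,3,8⟩,⟨0,3,8⟩,⟨0,17,128⟩⟩

noncomputable def DA3_7 : R1D := ⟨⟨[Int.ofNat 256, Int.negSucc 255, Int.ofNat 261],256,522,512,512,[Int.ofNat 0, Int.negSucc 0]⟩,⟨[Int.ofNat 0, Int.ofNat 0, Int.ofNat 125829120, Int.negSucc 41943039, Int.ofNat 20971515, Int.negSucc 12570626],251658240,4194304,[Int.ofNat 0, Int.negSucc 0, Int.ofNat 2047]⟩,⟨[Int.ofNat 0, Int.ofNat 0, Int.ofNat 167750070, Int.negSucc 55920449, Int.ofNat 28607175, Int.negSucc 17065160],335544320,16777216,[Int.negSucc 46, Int.negSucc 11, Int.ofNat 4131]⟩,204861815324203641515378914228803993600⟩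

theorem chkA3_7 : chkR1 DA3_7 LA3_7 muQ RtA3_7 = true := by decide +kernel

theorem cA3_7_3_0 : chunkOkM (LA3_7.ctx true true 132 23 8192 11 128 512 32768 2048 32768) muQ true true 64 RtA3_7.Cx RtA3_7.CX RtA3_7.Ctp RtA3_7.Ce RtA3_7.CTp RtA3_7.CEr 0x001266050508121205126506a6050508512126a081265006a60505084512126a08126506907071144035121212051265011017403035126a081260512120512650114035126a081266907075031169070307120114035634564565656566 = true := by decide +kernel

theorem cA3_7_2_0 : chunkOkM (LA3_7.ctx false true 131 5 2048 95 1024 512 65536 2048 16384) muQ false true 64 RtA3_7.Cx RtA3_7.CX RtA3_7.Ctn RtA3_7.Ce RtA3_7.CTp RtA3_7.CEr 0x000006a605050808080844331212051265051212012650512120126505120126a0850541200120000012050544433564565656566 = true := by decide +kernel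

theorem cA3_7_1_0 : chunkOkM (LA3_7.ctx true false 111 5 2048 5 64 256 16384 16 256) muQ true false 64 RtA3_7.Cx RtA3_7.CX RtA3_7.Ctp RtA3_7.Ce RtA3_7.CTn RtA3_7.CEr 0x00114403 = true := by decide +kernel

theorem cA3_7_0_0 : chunkOkM (LA3_7.ctx false false 108 5 2048 5 64 128 4096 16 256) muQ false false 64 RtA3_7.Cx RtA3_7.CX RtA3_7.Ctn RtA3_7.Ce RtA3_7.CTn RtA3_7.CEr 0x0 = true := by decide +kernel

theorem covA3_7 : LA3_7.Full muQ.val RtA3_7 := ⟨(LitT.cov_of_chunkM cA3_7_3_0), (LitT.cov_of_chunkM cA3_7_1_0), (LitT.cov_of_chunkM cA3_7_2_0), (LitT.cov_of_chunkM cA3_7_0_0)⟩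

noncomputable def LA9_3 : LitT := ⟨⟨2,1,1,1,1,1⟩, [[[[[71442746048513,1721121323876416,5755945088],[17699962880,7810928685072512,8055255025336449]],[[37155770927677440],[]]],[[[46422577643520,31295754321408065],[18577885463838721]],[[31295754321408064],[]]]],[[[[38805504731463680],[37858365958930432,77286906324172801]],[[],[]]],[[[],[]],[[],[]]]]], [[[[[112412464250880,26388279066689,4027627512668289],[74311541855354881]],[[18542164090814528,4027627512668288],[]]],[[[9288942731919361,78019715528990784],[1055535587655680,60693026944819264,62591508642816065]],[[46373270913548288],[]]]],[[[[57185617252900865],[]],[[34007912139382784],[]]],[[[],[]],[[],[]]]]]⟩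

def RtA9_3 : Roots := ⟨⟨2,3,16⟩,⟨1,4,1024⟩,⟨0,17,32⟩,⟨0,17,32⟩,⟨0,17,64⟩,⟨0,5,64⟩,⟨0,5,64⟩,⟨0,11,2048⟩⟩

noncomputable def DA9_3 : R1D := ⟨⟨[Int.ofNat 512, Int.negSucc 511, Int.ofNat 527],512,527,512,512,[Int.ofNat 0, Int.negSucc 0]⟩,⟨[Int.ofNat 0, Int.ofNat 0, Int.ofNat 503062560, Int.negSucc 167667279, Int.ofNat 87696115, Int.negSucc 52894802],1006632960,16777216,[Int.negSucc 91, Int.ofNat 11, Int.ofNat 4199]⟩,⟨[Int.ofNat 0, Int.ofNat 0, Int.ofNat 41943030, Int.negSucc 13981009, Int.ofNat 6997335, Int.negSucc 4198400],83886080,4194304,[Int.negSucc 0, Int.ofNat 0, Int.ofNat 2049]⟩,1638894522593629132123031313830431948800⟩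

theorem chkA9_3 : chkR1 DA9_3 LA9_3 muQ RtA9_3 = true := by decide +kernel

theorem cA9_3_3_0 : chunkOkM (LA9_3.ctx true true 118 21 128 5 2048 8192 16384 128 4096) muQ true true 64 RtA9_3.Cx RtA9_3.CX RtA9_3.Ctp RtA9_3.Ce RtA9_3.CTp RtA9_3.CEr 0x0110176903073110111073740110740303340311116907071169077431143114069076940694030734031111690731143114069076944030311116907311431140069440303116907114311401111033114001144033434343434 = true := by decide +kernel

theorem cA9_3_2_0 : chunkOkM (LA9_3.ctx false true 100 5 32 5 2048 64 128 128 4096) muQ false true 64 RtA9_3.Cx RtA9_3.CX RtA9_3.Ctn RtA9_3.Ce RtA9_3.CTp RtA9_3.CEr 0x0 = true := by decide +kernel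

theorem cA9_3_1_0 : chunkOkM (LA9_3.ctx true false 117 21 128 5 2048 4096 16384 128 4096) muQ true false 64 RtA9_3.Cx RtA9_3.CX RtA9_3.Ctp RtA9_3.Ce RtA9_3.CTn RtA9_3.CEr 0x0110176903073110111073740011074403340311116907071169077431143114069076940694030734031111690731143114069076944030311116907311431140069440303116907114311401103114001144033434343434 = true := by decide +kernel

theorem cA9_3_0_0 : chunkOkM (LA9_3.ctx false false 100 5 32 5 2048 64 128 128 4096) muQ false false 64 RtA9_3.Cx RtA9_3.CX RtA9_3.Ctn RtA9_3.Ce RtA9_3.CTn RtA9_3.CEr 0x0 = true := by decide +kernel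

theorem covA9_3 : LA9_3.Full muQ.val RtA9_3 := ⟨(LitT.cov_of_chunkM cA9_3_3_0), (LitT.cov_of_chunkM cA9_3_1_0), (LitT.cov_of_chunkM cA9_3_2_0), (LitT.cov_of_chunkM cA9_3_0_0)⟩

noncomputable def LA10_0 : LitT := ⟨⟨2,1,1,1,1,1⟩, [[[[[931669011857409,3851330988802112],[7810930603720832,8118278785351809]],[[37118795705221120],[]]],[[[110465468334080,31264610640384065],[18723237559009281]],[[31264610640384064],[]]]],[[[[40038457682165760],[38755585855848448,77891593751347201]],[[],[]]],[[[],[]],[[],[]]]]], [[[[[331396405002240,26388279066689,4023619456327809],[74892950236037121]],[[18093563346681920,4023619456327808],[]]],[[[9279698926305281,80076915364331584],[158329674399744,60693041853235264,63081220291584065]],[[45466825619668992],[]]]],[[[[56698560833069057],[]],[[34081606649716736],[]]],[[[],[]],[[],[]]]]]⟩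

def RtA10_0 : Roots := ⟨⟨3,4,16⟩,⟨0,1,16384⟩,⟨0,5,8⟩,⟨0,5,8⟩,⟨0,11,32⟩,⟨0,5,512⟩,⟨0,5,512⟩,⟨0,11,131072⟩⟩

noncomputable def DA10_0 : R1D := ⟨⟨[Int.ofNat 2048, Int.negSucc 2047, Int.ofNat 2057],2048,2057,2048,2048,[Int.ofNat 0, Int.negSucc 0]⟩,⟨[Int.ofNat 0, Int.ofNat 0, Int.ofNat 41880630, Int.negSucc 13960209, Int.ofNat 7540215, Int.negSucc 4524128],83886080,16777216,[Int.negSucc 157, Int.ofNat 0, Int.ofNat 4254]⟩,⟨[Int.ofNat 0, Int.ofNat 0, Int.ofNat 125829120, Int.negSucc 41943039, Int.ofNat 20971115, Int.negSucc 12693746],251658240,4194304,[Int.ofNat 0, Int.ofNat 9, Int.ofNat 2057]⟩,1638894522593629132123031313830431948800⟩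

theorem chkA10_0 : chkR1 DA10_0 LA10_0 muQ RtA10_0 = true := by decide +kernel

theorem cA10_0_3_0 : chunkOkM (LA10_0.ctx true true 128 125 512 1 32768 512 2048 1024 262144) muQ true true 64 RtA10_0.Cx RtA10_0.CX RtA10_0.Ctp RtA10_0.Ce RtA10_0.CTp RtA10_0.CEr 0x01001101744303031169069473114690703030707076901147069403073434031111696907711431143114069074030311690731140694033403690694030369069403036906940334343434 = true := by decide +kernel

theorem cA10_0_2_0 : chunkOkM (LA10_0.ctx false true 110 7 32 1 32768 16 64 1024 262144) muQ false true 64 RtA10_0.Cx RtA10_0.CX RtA10_0.Ctn RtA10_0.Ce RtA10_0.CTp RtA10_0.CEr 0x0 = true := by decide +kernel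

theorem cA10_0_1_0 : chunkOkM (LA10_0.ctx true false 128 125 512 1 32768 512 2048 1024 262144) muQ true false 64 RtA10_0.Cx RtA10_0.CX RtA10_0.Ctp RtA10_0.Ce RtA10_0.CTn RtA10_0.CEr 0x01001101744303031169069473114690703030707076901147069403073434031111696907711431143114069074030311690731140694033403690694030369069403036906940334343434 = true := by decide +kernel

theorem cA10_0_0_0 : chunkOkM (LA10_0.ctx false false 110 7 32 1 32768 16 64 1024 262144) muQ false false 64 RtA10_0.Cx RtA10_0.CX RtA10_0.Ctn RtA10_0.Ce RtA10_0.CTn RtA10_0.CEr 0x0 = true := by decide +kernel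

theorem covA10_0 : LA10_0.Full muQ.val RtA10_0 := ⟨(LitT.cov_of_chunkM cA10_0_3_0), (LitT.cov_of_chunkM cA10_0_1_0), (LitT.cov_of_chunkM cA10_0_2_0), (LitT.cov_of_chunkM cA10_0_0_0)⟩

noncomputable def LA2_14 : LitT := ⟨⟨2,1,1,1,1,1⟩, [[[[[36246473368666113,53191022477376,2909751052124288],[131780678688620672,70296989334651009]],[[629595724274728960],[]]],[[[6710777201295360,530299132995072065],[162126389816852481]],[[530299132995072064],[]]]],[[[[621320323644866560],[671032936511782912,674471113886515201]],[[],[]]],[[[],[]],[[],[]]]]], [[[[[26843108805181440,422212465066049,68247192768061569],[62784936628715520,648505559267409921]],[[296674625453031488,68247192768061568],[]]],[[[157398931068682241,1141854385636843584],[1192264445460480,1023971489810227264,546226606316544065]],[[750748181974745088],[]]]],[[[[951478772281729025],[]],[[580635490465439744],[]]],[[[],[]],[[],[]]]]]⟩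

def RtA2_14 : Roots := ⟨⟨1,4,4096⟩,⟨5,6,8⟩,⟨0,5,128⟩,⟨0,5,128⟩,⟨0,11,8192⟩,⟨0,17,16⟩,⟨0,1,2⟩,⟨0,17,16⟩⟩

noncomputable def DA2_14 : R1D := ⟨⟨[Int.ofNat 512, Int.negSucc 511, Int.ofNat 527],512,527,512,512,[Int.ofNat 0, Int.negSucc 0]⟩,⟨[Int.ofNat 0, Int.ofNat 0, Int.ofNat 7864320, Int.negSucc 2621439, Int.ofNat 1309595, Int.negSucc 741026],15728640,4194304,[Int.ofNat 0, Int.negSucc 59, Int.ofNat 1988]⟩,⟨[Int.ofNat 0, Int.ofNat 0, Int.ofNat 1998100290, Int.negSucc 706560429, Int.ofNat 355704545, Int.negSucc 109916426],4026531840,67108864,[Int.negSucc 710, Int.negSucc 2849, Int.ofNat 6053]⟩,76823180746576365568267092835801497600⟩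

theorem chkA2_14 : chkR1 DA2_14 LA2_14 muQ RtA2_14 = true := by decide +kernel

theorem cA2_14_3_0 : chunkOkM (LA2_14.ctx true true 130 5 8192 95 128 1024 16384 2057 1024) muQ true true 64 RtA2_14.Cx RtA2_14.CX RtA2_14.Ctp RtA2_14.Ce RtA2_14.CTp RtA2_14.CEr 0x02020550505228126a0808036a65020581202120812658606a086a6605085605126a6a086a66a05080303856a6512606a6a05080386a0508080803035605126a6a0585126e1304c6a6a086a6891304c565656051212126a6a086a685126512651264a06a056a6122204c566a64a56a6425856 = true := by decide +kernel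

theorem cA2_14_2_0 : chunkOkM (LA2_14.ctx false true 128 5 8192 95 128 512 16384 1024 1024) muQ false true 64 RtA2_14.Cx RtA2_14.CX RtA2_14.Ctn RtA2_14.Ce RtA2_14.CTp RtA2_14.CEr 0x01206a650812021208586006a60508080835605126a6a080856a6512606a6050508126a08512606a6a0886055656051212126a6a0585126512651264a0112204c6a66054a56a4a566a6425856 = true := by decide +kernel

theorem cA2_14_1_0 : chunkOkM (LA2_14.ctx true false 53 1 1 1 1 1 1 1 1) muQ true false 64 RtA2_14.Cx RtA2_14.CX RtA2_14.Ctp RtA2_14.Ce RtA2_14.CTn RtA2_14.CEr 0x4a = true := by decide +kernel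

theorem cA2_14_0_0 : chunkOkM (LA2_14.ctx false false 53 1 1 1 1 1 1 1 1) muQ false false 64 RtA2_14.Cx RtA2_14.CX RtA2_14.Ctn RtA2_14.Ce RtA2_14.CTn RtA2_14.CEr 0x4a = true := by decide +kernel

theorem covA2_14 : LA2_14.Full muQ.val RtA2_14 := ⟨(LitT.cov_of_chunkM cA2_14_3_0), (LitT.cov_of_chunkM cA2_14_1_0), (LitT.cov_of_chunkM cA2_14_2_0), (LitT.cov_of_chunkM cA2_14_0_0)⟩



end Vale.Agent.helper4.Q4
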