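import Vale.Agent.helper4.Q4TreeM

/-!
Checks for pairs of intervals of second moments.
-/

set_option maxRecDepth 100000
set_option linter.unusedVariables false

namespace Vale.Agent.helper4.Q4

noncomputable def LA3_8 : LitT := ⟨⟨2,1,1,1,1,1⟩, [[[[[3088245365669889,492563509280832,14507859271808],[55923032719360,15615799238074496,16729631002460289]],[[76834689263861760],[]]],[[[33459567329280,64716718252032065],[38583653483151361]],[[64716718252032064],[]]]],[[[[74378204435619840],[76080819061710848,160514027185766401]],[[],[]]],[[[],[]],[[],[]]]]], [[[[[133838269317120,52776558133313,8328760262000769],[154334613932605441]],[[36873221949096000,8328760262000768],[]]],[[[19208672315965441,148445817506467904],[1702830618443776,121338980566118464,129993754411008065]],[[92955116214157312],[]]]],[[[[116784300138561537],[]],[[70692772702191616],[]]],[[[],[]],[[],[]]]]]⟩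

def RtA3_8 : Roots := ⟨⟨1,4,1024⟩,⟨3,4,32⟩,⟨0,5,64⟩,⟨0,5,64⟩,⟨0,11,2048⟩,⟨0,7,16⟩,⟨0,7,16⟩,⟨0,11,64⟩⟩

noncomputable def DA3_8 : R1D := ⟨⟨[Int.ofNat 128, Int.negSucc 127, Int.ofNat 131],128,524,512,512,[Int.ofNat 0, Int.negSucc 0]⟩,⟨[Int.ofNat 0, Int.ofNat 0, Int.ofNat 125829120, Int.negSucc 41943039, Int.ofNat 20971515, Int.negSucc 12570626],251658240,4194304,[Int.ofNat 0, Int.negSucc 0, Int.ofNat 2047]⟩,⟨[Int.ofNat 0, Int.ofNat 0, Int.ofNat 83860875, Int.negSucc 27951494, Int.ofNat 14469840, Int.negSucc 8719487],167772160,16777216,[Int.negSucc 70, Int.ofNat 9, Int.ofNat 4176]⟩,102430907662101820757689457114401996800⟩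

theorem chkA3_8 : chkR1 DA3_8 LA3_8 muQ RtA3_8 = true := by decide +kernel

theorem cA3_8_3_0 : chunkOkM (LA3_8.ctx true true 129 5 2048 31 256 2048 16384 4096 16384) muQ true true 64 RtA3_8.Cx RtA3_8.CX RtA3_8.Ctp RtA3_8.Ce RtA3_8.CTp RtA3_8.CEr 0x06a081260126050808035605121201265126512606a081260110174030356056a06a010110174303030356056a06a010303030356056a011017031144036a011017403036a00114036a011403564565656565656 = true := by decide +kernel

theorem cA3_8_2_0 : chunkOkM (LA3_8.ctx false true 124 5 2048 15 128 256 32768 2048 8192) muQ false true 64 RtA3_8.Cx RtA3_8.CX RtA3_8.Ctn RtA3_8.Ce RtA3_8.CTp RtA3_8.CEr 0x001266050512126a085126512600126605056a06a60505086a06a06a000006a60544435656565656 = true := by decide +kernel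

theorem cA3_8_1_0 : chunkOkM (LA3_8.ctx true false 110 5 2048 7 64 512 8192 32 128) muQ true false 64 RtA3_8.Cx RtA3_8.CX RtA3_8.Ctp RtA3_8.Ce RtA3_8.CTn RtA3_8.CEr 0x01101740303 = true := by decide +kernel

theorem cA3_8_0_0 : chunkOkM (LA3_8.ctx false false 107 5 2048 7 64 128 4096 32 128) muQ false false 64 RtA3_8.Cx RtA3_8.CX RtA3_8.Ctn RtA3_8.Ce RtA3_8.CTn RtA3_8.CEr 0x0 = true := by decide +kernel

theorem covA3_8 : LA3_8.Full muQ.val RtA3_8 := ⟨(LitT.cov_of_chunkM cA3_8_3_0), (LitT.cov_of_chunkM cA3_8_1_0), (LitT.cov_of_chunkM cA3_8_2_0), (LitT.cov_of_chunkM cA3_8_0_0)⟩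

noncomputable def LA23_0 : LitT := ⟨⟨2,1,1,1,1,1⟩, [[[[[140303839264769,65261662118084672],[1952732650930304,1984436852244609]],[[9279444489338880],[]]],[[[7815938351616065],[4576719226798081]],[[7815938351616064],[]]]],[[[[74400802768158720],[9596537487228928,19039867095859201]],[[],[]]],[[[],[]],[[],[]]]]], [[[[[103454513037312000,6597069766721,1005877283512449],[18306876907192321]],[[4569570325037120,1005877283512448],[]]],[[[48179900758097920,2319861122334721,48196644922982464],[131941395333120,15173260463308864,15419610676224065]],[[11459001772408832],[]]]],[[[[14220555072249857],[]],[[8508592165953536],[]]],[[[],[]],[[],[]]]]]⟩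

def RtA23_0 : Roots := ⟨⟨2816,3073,1024⟩,⟨0,1,16384⟩,⟨0,17,8⟩,⟨0,11,16⟩,⟨0,17,4⟩,⟨0,5,512⟩,⟨0,5,512⟩,⟨0,11,131072⟩⟩

noncomputable def DA23_0 : R1D := ⟨⟨[Int.ofNat 1024, Int.negSucc 1023, Int.ofNat 1039],1024,1039,1024,1024,[Int.ofNat 0, Int.negSucc 0]⟩,⟨Qtop,dtop,1,[]⟩,⟨[Int.ofNat 0, Int.ofNat 0, Int.ofNat 31457280, Int.negSucc 10485759, Int.ofNat 5242635, Int.negSucc 3102866],62914560,4194304,[Int.ofNat 0, Int.negSucc 13, Int.ofNat 2034]⟩,10243090766210182075768945711440199680⟩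

theorem chkA23_0 : chkR1T DA23_0 LA23_0 muQ RtA23_0 = true := by decide +kernel

theorem cA23_0_3_0 : chunkOkM (LA23_0.ctx true true 152 188705 65536 1 32768 32079 7871 1024 262144) muQ true true 64 RtA23_0.Cx RtA23_0.CX RtA23_0.Ctp RtA23_0.Ce RtA23_0.CTp RtA23_0.CEr 0x010101010011017017411017411401743333061a04b110176a2904b31111017744901107403493077301740311111111a04b1143711431140174949494901144137777011017403030307017721a04b369690101140337114017061a04b1140103731a04b343743431a04b34311111111111111071143017711437114349490691107071140374031121a04b6941143449377369411434114493413694413 = true := by decide +kernel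

theorem cA23_0_2_0 : chunkOkM (LA23_0.ctx false true 48 1 1 1 1 1 1 1 1) muQ false true 64 RtA23_0.Cx RtA23_0.CX RtA23_0.Ctn RtA23_0.Ce RtA23_0.CTp RtA23_0.CEr 0x49 = true := by decide +kernel

theorem cA23_0_1_0 : chunkOkM (LA23_0.ctx true false 153 376639 131072 1 32768 15861 7871 1024 262144) muQ true false 64 RtA23_0.Cx RtA23_0.CX RtA23_0.Ctp RtA23_0.Ce RtA23_0.CTn RtA23_0.CEr 0x010101010011017017411017411401743333031a04b1101761a04b311110177471a04b301740311111101143711431140174949494901144137777069441307070707017711a04b3696901011401737114017051a04b1140103721a04b343743431a04b343111111111111011430177114371143494906901140374031161a04b1143449377369411434114493413694413 = true := by decide +kernel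

theorem cA23_0_0_0 : chunkOkM (LA23_0.ctx false false 48 1 1 1 1 1 1 1 1) muQ false false 64 RtA23_0.Cx RtA23_0.CX RtA23_0.Ctn RtA23_0.Ce RtA23_0.CTn RtA23_0.CEr 0x49 = true := by decide +kernel

theorem covA23_0 : LA23_0.Full muQ.val RtA23_0 := ⟨(LitT.cov_of_chunkM cA23_0_3_0), (LitT.cov_of_chunkM cA23_0_1_0), (LitT.cov_of_chunkM cA23_0_2_0), (LitT.cov_of_chunkM cA23_0_0_0)⟩

noncomputable def LA1_9 : LitT := ⟨⟨2,1,1,1,1,1⟩, [[[[[5393912290082817,1674973089366080,29358197268608],[59887824404480,15615369460850816,16761695453184129]],[[77944087537254400],[]]],[[[67708995502080,65651147950080065],[38657603928064001]],[[65651147950080064],[]]]],[[[[74506828337356800],[77272964174503936,160821672591360001]],[[],[]]],[[[],[]],[[],[]]]]], [[[[[270835982008320,52776558133313,8449017301401729],[154630415712256001]],[[36275087623585856,8449017301401728],[]]],[[[19486021884313601,144673978198528064],[507553165344768,121335641080934464,130242903859200065]],[[92036197131485184],[]]]],[[[[117339983353249793],[]],[[71996123823767552],[]]],[[[],[]],[[],[]]]]]⟩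

def RtA1_9 : Roots := ⟨⟨1,4,16384⟩,⟨2,3,16⟩,⟨0,5,256⟩,⟨0,5,256⟩,⟨0,11,32768⟩,⟨0,17,32⟩,⟨0,1,2⟩,⟨0,17,64⟩⟩

noncomputable def DA1_9 : R1D := ⟨⟨[Int.ofNat 1024, Int.negSucc 1023, Int.ofNat 1031],1024,2062,2048,2048,[Int.ofNat 0, Int.negSucc 0]⟩,⟨[Int.ofNat 0, Int.ofNat 0, Int.ofNat 1572864, Int.negSucc 524287, Int.ofNat 262095, Int.negSucc 153014],3145728,4194304,[Int.ofNat 0, Int.negSucc 27, Int.ofNat 2020]⟩,⟨[Int.ofNat 0, Int.ofNat 0, Int.ofNat 50301045, Int.negSucc 16770448, Int.ofNat 8807260, Int.negSucc 5241719],100663296,16777216,[Int.negSucc 100, Int.negSucc 16, Int.ofNat 4180]⟩,6145854459726109245461367426864119808⟩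

theorem chkA1_9 : chkR1 DA1_9 LA1_9 muQ RtA1_9 = true := by decide +kernel

theorem cA1_9_3_0 : chunkOkM (LA1_9.ctx true true 143 5 32768 23 128 131072 65536 4096 8192) muQ true true 64 RtA1_9.Cx RtA1_9.CX RtA1_9.Ctp RtA1_9.Ce RtA1_9.CTp RtA1_9.CEr 0x0126a055081202120858606a6050808560512126a08126085126512606a086a601010103303033030303560512126a0851265126006a660505126a081265126012120551260012660556565656 = true := by decide +kernel

theorem cA1_9_2_0 : chunkOkM (LA1_9.ctx false true 135 5 32768 47 256 512 65536 2048 8192) muQ false true 64 RtA1_9.Cx RtA1_9.CX RtA1_9.Ctn RtA1_9.Ce RtA1_9.CTp RtA1_9.CEr 0x01205081202120858606a605080808560512120126085126512606a086a66050512126a0851265126006a660505126a0812651260126a0851260012660556565656 = true := by decide +kernel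

theorem cA1_9_1_0 : chunkOkM (LA1_9.ctx true false 117 5 32768 5 32 512 65536 4 128) muQ true false 64 RtA1_9.Cx RtA1_9.CX RtA1_9.Ctp RtA1_9.Ce RtA1_9.CTn RtA1_9.CEr 0x0 = true := by decide +kernel

theorem cA1_9_0_0 : chunkOkM (LA1_9.ctx false false 117 5 32768 5 32 512 65536 4 128) muQ false false 64 RtA1_9.Cx RtA1_9.CX RtA1_9.Ctn RtA1_9.Ce RtA1_9.CTn RtA1_9.CEr 0x0 = true := by decide +kernel

theorem covA1_9 : LA1_9.Full muQ.val RtA1_9 := ⟨(LitT.cov_of_chunkM cA1_9_3_0), (LitT.cov_of_chunkM cA1_9_1_0), (LitT.cov_of_chunkM cA1_9_2_0), (LitT.cov_of_chunkM cA1_9_0_0)⟩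

noncomputable def LA4_4 : LitT := ⟨⟨2,1,1,1,1,1⟩, [[[[[246787780640769,264682443112512,2877972608],[61949870080,3905458586591360,4039430077808769]],[[18577845638922240],[]]],[[[15647843616768065],[9316163062333441]],[[15647843616768064],[]]]],[[[[18595767914373120],[19140233986039808,38756693989785601]],[[],[]]],[[[],[]],[[],[]]]]], [[[[[132749721600,13194139533377,2013809439375489],[37264652249333761]],[[9165528929140800,2013809439375488],[]]],[[[241161994240,4644461409730561,36902356371804224],[316674836267008,30346468747161664,31387463442432065]],[[22975519268012032],[]]]],[[[[28487214090715137],[]],[[17030302929289216],[]]],[[[],[]],[[],[]]]]]⟩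

def RtA4_4 : Roots := ⟨⟨1,4,256⟩,⟨1,4,256⟩,⟨0,5,32⟩,⟨0,5,32⟩,⟨0,11,512⟩,⟨0,5,32⟩,⟨0,5,32⟩,⟨0,11,512⟩⟩

noncomputable def DA4_4 : R1D := ⟨⟨[Int.ofNat 512, Int.negSucc 511, Int.ofNat 521],512,521,512,512,[Int.ofNat 0, Int.negSucc 0]⟩,⟨[Int.ofNat 0, Int.ofNat 0, Int.ofNat 31457250, Int.negSucc 10485829, Int.ofNat 5253045, Int.negSucc 3127322],62914560,4194304,[Int.negSucc 1, Int.negSucc 7, Int.ofNat 2042]⟩,⟨[Int.ofNat 0, Int.ofNat 0, Int.ofNat 20971515, Int.negSucc 6990494, Int.ofNat 3498660, Int.negSucc 2105351],41943040,4194304,[Int.negSucc 0, Int.ofNat 3, Int.ofNat 2052]⟩,102430907662101820757689457114401996800⟩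

theorem chkA4_4 : chkR1 DA4_4 LA4_4 muQ RtA4_4 = true := by decide +kernel

theorem cA4_4_3_0 : chunkOkM (LA4_4.ctx true true 135 29 2048 5 512 8192 262144 2048 65536) muQ true true 64 RtA4_4.Cx RtA4_4.CX RtA4_4.Ctp RtA4_4.Ce RtA4_4.CTp RtA4_4.CEr 0x00114036903070712011010374035611011011690703073434120120116907740356110110114033412012110703035611011403120111107340311012011011011012605343434563456345634563464 = true := by decide +kernel

theorem cA4_4_2_0 : chunkOkM (LA4_4.ctx false true 129 5 512 5 512 2048 262144 2048 65536) muQ false true 64 RtA4_4.Cx RtA4_4.CX RtA4_4.Ctn RtA4_4.Ce RtA4_4.CTp RtA4_4.CEr 0x0000120012001211110012111100000126054443335643356456456644 = true := by decide +kernel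

theorem cA4_4_1_0 : chunkOkM (LA4_4.ctx true false 116 5 512 5 512 2048 65536 64 1024) muQ true false 64 RtA4_4.Cx RtA4_4.CX RtA4_4.Ctp RtA4_4.Ce RtA4_4.CTn RtA4_4.CEr 0x0011011011011011403343434344 = true := by decide +kernel

theorem cA4_4_0_0 : chunkOkM (LA4_4.ctx false false 105 5 512 5 512 64 1024 64 1024) muQ false false 64 RtA4_4.Cx RtA4_4.CX RtA4_4.Ctn RtA4_4.Ce RtA4_4.CTn RtA4_4.CEr 0x0 = true := by decide +kernel

theorem covA4_4 : LA4_4.Full muQ.val RtA4_4 := ⟨(LitT.cov_of_chunkM cA4_4_3_0), (LitT.cov_of_chunkM cA4_4_1_0), (LitT.cov_of_chunkM cA4_4_2_0), (LitT.cov_of_chunkM cA4_4_0_0)⟩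

noncomputable def LA3_5 : LitT := ⟨⟨2,1,1,1,1,1⟩, [[[[[110785426620417,83561777463360,25901752448],[132749721600,976351935602816,1013798423101569]],[[4667161612124160],[]]],[[[59737374720,3931080947712065],[2338129696522241]],[[3931080947712064],[]]]],[[[[4640186479779840],[4811324818251776,9726984870297601]],[[],[]]],[[[],[]],[[],[]]]]], [[[[[238949498880,3298534883393,505913026314369],[9352518786088961]],[[2278188092751936,505913026314368],[]]],[[[1166790403031041,9271019233546304],[52809745563648,7586518418534464,7877487747072065]],[[5723166588534784],[]]]],[[[[7132218480361473],[]],[[4284483364421632],[]]],[[[],[]],[[],[]]]]]⟩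

def RtA3_5 : Roots := ⟨⟨1,4,1024⟩,⟨1,2,64⟩,⟨0,5,64⟩,⟨0,5,64⟩,⟨0,11,2048⟩,⟨0,7,32⟩,⟨0,7,32⟩,⟨0,11,256⟩⟩

noncomputable def DA3_5 : R1D := ⟨⟨[Int.ofNat 256, Int.negSucc 255, Int.ofNat 259],256,1036,1024,1024,[Int.ofNat 0, Int.negSucc 0]⟩,⟨[Int.ofNat 0, Int.ofNat 0, Int.ofNat 125829120, Int.negSucc 41943039, Int.ofNat 20971515, Int.negSucc 12570626],251658240,4194304,[Int.ofNat 0, Int.negSucc 0, Int.ofNat 2047]⟩,⟨[Int.ofNat 0, Int.ofNat 0, Int.ofNat 15728505, Int.negSucc 5242804, Int.ofNat 2636820, Int.negSucc 1585175],31457280,4194304,[Int.negSucc 5, Int.ofNat 2, Int.ofNat 2056]⟩,614585445972610924546136742686411980800⟩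

theorem chkA3_5 : chkR1 DA3_5 LA3_5 muQ RtA3_5 = true := by decide +kernel

theorem cA3_5_3_0 : chunkOkM (LA3_5.ctx true true 130 29 8192 5 256 1024 65536 2048 32768) muQ true true 64 RtA3_5.Cx RtA3_5.CX RtA3_5.Ctp RtA3_5.Ce RtA3_5.CTp RtA3_5.CEr 0x006a6051206a086a605412001260546a086a605120126903070756110114031211070303110120114035634563456456566 = true := by decide +kernel

theorem cA3_5_2_0 : chunkOkM (LA3_5.ctx false true 131 5 2048 7 256 4096 524288 4096 16384) muQ false true 64 RtA3_5.Cx RtA3_5.CX RtA3_5.Ctn RtA3_5.Ce RtA3_5.CTp RtA3_5.CEr 0x0012050508412006a0508441211802b000000000006a0508444444333331200121100001205054443356456456566 = true := by decide +kernel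

theorem cA3_5_1_0 : chunkOkM (LA3_5.ctx true false 112 5 2048 3 128 512 32768 64 512) muQ true false 64 RtA3_5.Cx RtA3_5.CX RtA3_5.Ctp RtA3_5.Ce RtA3_5.CTn RtA3_5.CEr 0x0011011403344 = true := by decide +kernel

theorem cA3_5_0_0 : chunkOkM (LA3_5.ctx false false 107 5 2048 3 128 128 4096 64 512) muQ false false 64 RtA3_5.Cx RtA3_5.CX RtA3_5.Ctn RtA3_5.Ce RtA3_5.CTn RtA3_5.CEr 0x0 = true := by decide +kernel

theorem covA3_5 : LA3_5.Full muQ.val RtA3_5 := ⟨(LitT.cov_of_chunkM cA3_5_3_0), (LitT.cov_of_chunkM cA3_5_1_0), (LitT.cov_of_chunkM cA3_5_2_0), (LitT.cov_of_chunkM cA3_5_0_0)⟩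

noncomputable def LA1_14 : LitT := ⟨⟨2,1,1,1,1,1⟩, [[[[[48759218437619713,8888113904484416,2772270306754688],[131275746091597952,73111876657889409]],[[633664220042362880],[]]],[[[6393704491253760,533725966588416065],[6087455623086080,168618382201978881]],[[533725966588416064],[]]]],[[[[620391925209169920],[674632562247073792,701478816582451201]],[[],[]]],[[[],[]],[[],[]]]]], [[[[[25574817965015040,422212465066049,68688211352248449],[58126819697623040,674473528807915521]],[[292452500802371648,68688211352248448],[]]],[[[158416055010590721,1175964303713402944],[1020048027063091264,568099041598464065]],[[743321056615333888],[]]]],[[[[951488042155024385],[]],[[585922416152059904],[]]],[[[],[]],[[],[]]]]]⟩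

def RtA1_14 : Roots := ⟨⟨1,4,16384⟩,⟨5,6,8⟩,⟨0,5,256⟩,⟨0,5,256⟩,⟨0,11,32768⟩,⟨0,17,16⟩,⟨0,1,2⟩,⟨0,17,16⟩⟩

noncomputable def DA1_14 : R1D := ⟨⟨[Int.ofNat 1024, Int.negSucc 1023, Int.ofNat 1039],1024,1039,1024,1024,[Int.ofNat 0, Int.negSucc 0]⟩,⟨[Int.ofNat 0, Int.ofNat 0, Int.ofNat 125829120, Int.negSucc 41943039, Int.ofNat 20967315, Int.negSucc 12229082],251658240,4194304,[Int.ofNat 0, Int.negSucc 28, Int.ofNat 2019]⟩,⟨[Int.ofNat 0, Int.ofNat 0, Int.ofNat 1998816840, Int.negSucc 703928719, Int.ofNat 358003135, Int.negSucc 114317786],4026531840,67108864,[Int.negSucc 693, Int.negSucc 2712, Int.ofNat 6173]⟩,2458341783890443698184546970745647923200⟩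

theorem chkA1_14 : chkR1 DA1_14 LA1_14 muQ RtA1_14 = true := by decide +kernel

theorem cA1_14_3_0 : chunkOkM (LA1_14.ctx true true 138 5 32768 47 64 16384 65536 1037 1024) muQ true true 64 RtA1_14.Cx RtA1_14.CX RtA1_14.Ctp RtA1_14.Ce RtA1_14.CTp RtA1_14.CEr 0x02050505082281206a65126020201012608033030303558006a6605085605126a6a086a60856a6512606a6050508126a6a058512606a6a0886055656051212126a6a0585126512651264a061304c6a66054a56a4a566a6425856 = true := by decide +kernel

theorem cA1_14_2_0 : chunkOkM (LA1_14.ctx false true 134 5 32768 95 128 512 65536 1024 1024) muQ false true 64 RtA1_14.Cx RtA1_14.CX RtA1_14.Ctn RtA1_14.Ce RtA1_14.CTp RtA1_14.CEr 0x01206a65081202120858606a6050808085605126a6a080856a6512606a6050508126a08512606a6a0886055656051212126a6a0885126512651264a06a605054a56a4a566a6425856 = true := by decide +kernel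

theorem cA1_14_1_0 : chunkOkM (LA1_14.ctx true false 53 1 1 1 1 1 1 1 1) muQ true false 64 RtA1_14.Cx RtA1_14.CX RtA1_14.Ctp RtA1_14.Ce RtA1_14.CTn RtA1_14.CEr 0x4a = true := by decide +kernel

theorem cA1_14_0_0 : chunkOkM (LA1_14.ctx false false 53 1 1 1 1 1 1 1 1) muQ false false 64 RtA1_14.Cx RtA1_14.CX RtA1_14.Ctn RtA1_14.Ce RtA1_14.CTn RtA1_14.CEr 0x4a = true := by decide +kernel

theorem covA1_14 : LA1_14.Full muQ.val RtA1_14 := ⟨(LitT.cov_of_chunkM cA1_14_3_0), (LitT.cov_of_chunkM cA1_14_1_0), (LitT.cov_of_chunkM cA1_14_2_0), (LitT.cov_of_chunkM cA1_14_0_0)⟩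

noncomputable def LA7_3 : LitT := ⟨⟨2,1,1,1,1,1⟩, [[[[[387019242995713,1316169944399936],[7810930603720832,8039537458299009]],[[37119503703736320],[]]],[[[20987730984960,31265206977024065],[18541635939860481]],[[31265206977024064],[]]]],[[[[38048654405140480],[38210228088471552,77136102640435201]],[[],[]]],[[[],[]],[[],[]]]]], [[[[[34528202588160,26388279066689,4023696202260609],[74166543759441921]],[[18366242230370368,4023696202260608],[]]],[[[9279875925934081,76871929985761344],[703687441776640,60693041853235264,62469378898944065]],[[46012360386674688],[]]]],[[[[56971976062869505],[]],[[34014173274906624],[]]],[[[],[]],[[],[]]]]]⟩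

def RtA7_3 : Roots := ⟨⟨2,3,32⟩,⟨1,4,1024⟩,⟨0,3,8⟩,⟨0,3,8⟩,⟨0,17,128⟩,⟨0,5,64⟩,⟨0,5,64⟩,⟨0,11,2048⟩⟩

noncomputable def DA7_3 : R1D := ⟨⟨[Int.ofNat 256, Int.negSucc 255, Int.ofNat 261],256,522,512,512,[Int.ofNat 0, Int.negSucc 0]⟩,⟨[Int.ofNat 0, Int.ofNat 0, Int.ofNat 251619225, Int.negSucc 83862364, Int.ofNat 42992920, Int.negSucc 26058335],503316480,16777216,[Int.negSucc 50, Int.ofNat 21, Int.ofNat 4168]⟩,⟨[Int.ofNat 0, Int.ofNat 0, Int.ofNat 125829120, Int.negSucc 41943039, Int.ofNat 20971515, Int.negSucc 12570626],251658240,4194304,[Int.ofNat 0, Int.negSucc 0, Int.ofNat 2047]⟩,1229170891945221849092273485372823961600⟩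

theorem chkA7_3 : chkR1 DA7_3 LA7_3 muQ RtA7_3 = true := by decide +kernel

theorem cA7_3_3_0 : chunkOkM (LA7_3.ctx true true 123 47 512 5 2048 4096 32768 128 8192) muQ true true 64 RtA7_3.Cx RtA7_3.CX RtA7_3.Ctp RtA7_3.Ce RtA7_3.CTp RtA7_3.CEr 0x011403030307071111031143069403030707073111101143031111031140311111103303111103031103031101100011030377734346343434344 = true := by decide +kernel

theorem cA7_3_2_0 : chunkOkM (LA7_3.ctx false true 101 5 64 5 2048 16 256 128 4096) muQ false true 64 RtA7_3.Cx RtA7_3.CX RtA7_3.Ctn RtA7_3.Ce RtA7_3.CTp RtA7_3.CEr 0x0 = true := by decide +kernel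

theorem cA7_3_1_0 : chunkOkM (LA7_3.ctx true false 125 191 2048 5 2048 2048 16384 128 8192) muQ true false 64 RtA7_3.Cx RtA7_3.CX RtA7_3.Ctp RtA7_3.Ce RtA7_3.CTn RtA7_3.CEr 0x011403030307071111031143069403030707070707311110114303111103114031111690730311069030711110303346343434344 = true := by decide +kernel

theorem cA7_3_0_0 : chunkOkM (LA7_3.ctx false false 101 5 64 5 2048 16 256 128 4096) muQ false false 64 RtA7_3.Cx RtA7_3.CX RtA7_3.Ctn RtA7_3.Ce RtA7_3.CTn RtA7_3.CEr 0x0 = true := by decide +kernel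

theorem covA7_3 : LA7_3.Full muQ.val RtA7_3 := ⟨(LitT.cov_of_chunkM cA7_3_3_0), (LitT.cov_of_chunkM cA7_3_1_0), (LitT.cov_of_chunkM cA7_3_2_0), (LitT.cov_of_chunkM cA7_3_0_0)⟩

noncomputable def LA0_14 : LitT := ⟨⟨2,1,1,1,1,1⟩, [[[[[14621857789509633,3368637339533376,750120503132288],[32861018236502144,18545426341970049]],[[159722208283852800],[]]],[[[1730007646863360,134531645160960065],[2744817134075904,42771433725624321]],[[134531645160960064],[]]]],[[[[155666089958522880],[170187797450473472,177935847335116801]],[[],[]]],[[[],[]],[[],[]]]]], [[[[[6920030587453440,105553116266561,17313637812019329],[14919918210252800,171085734902497281]],[[72550175247171648,17313637812019328],[]]],[[[39930552070963201,298162925167124544],[255338993053900864,144102974954496065]],[[185030902565306368],[]]]],[[[[238667511011139585],[]],[[147979791952175104],[]]],[[[],[]],[[],[]]]]]⟩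

def RtA0_14 : Roots := ⟨⟨0,1,16384⟩,⟨5,6,8⟩,⟨0,5,512⟩,⟨0,5,512⟩,⟨0,11,131072⟩,⟨0,17,16⟩,⟨0,1,2⟩,⟨0,17,16⟩⟩

noncomputable def DA0_14 : R1D := ⟨⟨[Int.ofNat 1024, Int.negSucc 1023, Int.ofNat 1031],1024,2062,2048,2048,[Int.ofNat 0, Int.negSucc 0]⟩,⟨[Int.ofNat 0, Int.ofNat 0, Int.ofNat 491520, Int.negSucc 163839, Int.ofNat 81915, Int.negSucc 48386],983040,4194304,[Int.ofNat 0, Int.negSucc 15, Int.ofNat 2032]⟩,⟨[Int.ofNat 0, Int.ofNat 0, Int.ofNat 499406850, Int.negSucc 176201509, Int.ofNat 90238725, Int.negSucc 28997642],1006632960,67108864,[Int.negSucc 721, Int.negSucc 2695, Int.ofNat 6218]⟩,9602897593322045696033386604475187200⟩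

theorem chkA0_14 : chkR1 DA0_14 LA0_14 muQ RtA0_14 = true := by decide +kernel

theorem cA0_14_3_0 : chunkOkM (LA0_14.ctx true true 136 1 32768 191 256 1024 262144 1037 1024) muQ true true 64 RtA0_14.Cx RtA0_14.CX RtA0_14.Ctp RtA0_14.Ce RtA0_14.CTp RtA0_14.CEr 0x020505050808082281206a65020581202120858606a60508085605126a6a050856a6512606a6050508126a08512606a6a0886055656051212126a6a0885126512651264a006a66054a56a4a566a6425856 = true := by decide +kernel

theorem cA0_14_2_0 : chunkOkM (LA0_14.ctx false true 135 1 32768 95 128 1024 262144 1024 1024) muQ false true 64 RtA0_14.Cx RtA0_14.CX RtA0_14.Ctn RtA0_14.Ce RtA0_14.CTp RtA0_14.CEr 0x01206a65081202120858606a6050808085605126a6a080856a6512606a6050508126a08512606a6a0886055656051212126a6a0885126512651264a06a605054a56a4a566a6425856 = true := by decide +kernel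

theorem cA0_14_1_0 : chunkOkM (LA0_14.ctx true false 51 1 1 1 1 1 1 1 1) muQ true false 64 RtA0_14.Cx RtA0_14.CX RtA0_14.Ctp RtA0_14.Ce RtA0_14.CTn RtA0_14.CEr 0x4a = true := by decide +kernel

theorem cA0_14_0_0 : chunkOkM (LA0_14.ctx false false 51 1 1 1 1 1 1 1 1) muQ false false 64 RtA0_14.Cx RtA0_14.CX RtA0_14.Ctn RtA0_14.Ce RtA0_14.CTn RtA0_14.CEr 0x4a = true := by decide +kernel

theorem covA0_14 : LA0_14.Full muQ.val RtA0_14 := ⟨(LitT.cov_of_chunkM cA0_14_3_0), (LitT.cov_of_chunkM cA0_14_1_0), (LitT.cov_of_chunkM cA0_14_2_0), (LitT.cov_of_chunkM cA0_14_0_0)⟩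

noncomputable def LA0_9 : LitT := ⟨⟨2,1,1,1,1,1⟩, [[[[[2838748358246401,965304637194304,14971212841088],[60480773160960,7804374582411392,8517741365575809]],[[38990690679521280],[]]],[[[34528202588160,32841279991296065],[19644520626913281]],[[32841279991296064],[]]]],[[[[37260889676267520],[38727867861319680,81724275264307201]],[[],[]]],[[[],[]],[[],[]]]]], [[[[[138112810352640,26388279066689,4226529946706049],[78578082507653121]],[[18075971160637504,4226529946706048],[]]],[[[9747672669880321,73199901900677184],[138265495601152,60642099795763264,66185152502784065]],[[45899614991155200],[]]]],[[[[58627812541194241],[]],[[36032848590397440],[]]],[[[],[]],[[],[]]]]]⟩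

def RtA0_9 : Roots := ⟨⟨0,1,16384⟩,⟨2,3,16⟩,⟨0,5,512⟩,⟨0,5,512⟩,⟨0,11,131072⟩,⟨0,17,32⟩,⟨0,1,2⟩,⟨0,17,64⟩⟩

noncomputable def DA0_9 : R1D := ⟨⟨[Int.ofNat 2048, Int.negSucc 2047, Int.ofNat 2055],2048,4110,4096,4096,[Int.ofNat 0, Int.negSucc 0]⟩,⟨[Int.ofNat 0, Int.ofNat 0, Int.ofNat 491520, Int.negSucc 163839, Int.ofNat 81915, Int.negSucc 48386],983040,4194304,[Int.ofNat 0, Int.negSucc 15, Int.ofNat 2032]⟩,⟨[Int.ofNat 0, Int.ofNat 0, Int.ofNat 125751090, Int.negSucc 41908869, Int.ofNat 22028685, Int.negSucc 13318346],251658240,16777216,[Int.negSucc 101, Int.ofNat 16, Int.ofNat 4214]⟩,19205795186644091392066773208950374400⟩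

theorem chkA0_9 : chkR1 DA0_9 LA0_9 muQ RtA0_9 = true := by decide +kernel

theorem cA0_9_3_0 : chunkOkM (LA0_9.ctx true true 136 1 32768 23 128 1024 262144 2048 8192) muQ true true 64 RtA0_9.Cx RtA0_9.CX RtA0_9.Ctp RtA0_9.Ce RtA0_9.CTp RtA0_9.CEr 0x0126a055081202120858606a6050808560512126a08126085126512606a086a66050512126a0851265126006a660505126a0812651260126a0851260012660556565656 = true := by decide +kernel

theorem cA0_9_2_0 : chunkOkM (LA0_9.ctx false true 136 1 32768 23 128 1024 262144 2048 8192) muQ false true 64 RtA0_9.Cx RtA0_9.CX RtA0_9.Ctn RtA0_9.Ce RtA0_9.CTp RtA0_9.CEr 0x01205081202120858606a6050808560512120126085126512606a086a66050512126a0851265126006a660505126a0812651260126a0851260012660556565656 = true := by decide +kernel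

theorem cA0_9_1_0 : chunkOkM (LA0_9.ctx true false 119 1 32768 5 32 1024 262144 4 128) muQ true false 64 RtA0_9.Cx RtA0_9.CX RtA0_9.Ctp RtA0_9.Ce RtA0_9.CTn RtA0_9.CEr 0x0 = true := by decide +kernel

theorem cA0_9_0_0 : chunkOkM (LA0_9.ctx false false 119 1 32768 5 32 1024 262144 4 128) muQ false false 64 RtA0_9.Cx RtA0_9.CX RtA0_9.Ctn RtA0_9.Ce RtA0_9.CTn RtA0_9.CEr 0x0 = true := by decide +kernel

theorem covA0_9 : LA0_9.Full muQ.val RtA0_9 := ⟨(LitT.cov_of_chunkM cA0_9_3_0), (LitT.cov_of_chunkM cA0_9_1_0), (LitT.cov_of_chunkM cA0_9_2_0), (LitT.cov_of_chunkM cA0_9_0_0)⟩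

noncomputable def LA9_1 : LitT := ⟨⟨2,1,1,1,1,1⟩, [[[[[844416080150529,2419438427045952],[7810930603720832,8055255025336449]],[[37119503703736320],[]]],[[[28160640942080,31265206977024065],[18577885463838721]],[[31265206977024064],[]]]],[[[[38694526050631680],[38667624925626368,77286906324172801]],[[],[]]],[[[],[]],[[],[]]]]], [[[[[98181694095360,26388279066689,4023696202260609],[74311541855354881]],[[18137543811792960,4023696202260608],[]]],[[[9279875925934081,77167306966302784],[246290604621824,60693041853235264,62591508642816065]],[[45554963549519872],[]]]],[[[[56743277644292097],[]],[[34071347879550976],[]]],[[[],[]],[[],[]]]]]⟩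

def RtA9_1 : Roots := ⟨⟨2,3,16⟩,⟨1,4,16384⟩,⟨0,17,32⟩,⟨0,17,32⟩,⟨0,17,64⟩,⟨0,5,256⟩,⟨0,5,256⟩,⟨0,11,32768⟩⟩

noncomputable def DA9_1 : R1D := ⟨⟨[Int.ofNat 1024, Int.negSucc 1023, Int.ofNat 1031],1024,2062,2048,2048,[Int.ofNat 0, Int.negSucc 0]⟩,⟨[Int.ofNat 0, Int.ofNat 0, Int.ofNat 20962275, Int.negSucc 6987854, Int.ofNat 3643560, Int.negSucc 2179871],41943040,16777216,[Int.negSucc 85, Int.negSucc 5, Int.ofNat 4176]⟩,⟨[Int.ofNat 0, Int.ofNat 0, Int.ofNat 125829120, Int.negSucc 41943039, Int.ofNat 20971515, Int.negSucc 12595202],251658240,4194304,[Int.ofNat 0, Int.ofNat 1, Int.ofNat 2049]⟩,409723630648407283030757828457607987200⟩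

theorem chkA9_1 : chkR1 DA9_1 LA9_1 muQ RtA9_1 = true := by decide +kernel

theorem cA9_1_3_0 : chunkOkM (LA9_1.ctx true true 125 17 128 5 32768 2048 8192 512 65536) muQ true true 64 RtA9_1.Cx RtA9_1.CX RtA9_1.Ctp RtA9_1.Ce RtA9_1.CTp RtA9_1.CEr 0x0110170311011107374011403030734031111011074311431140690769440303111169073114311400694403031169071143114011690731140011440334343434 = true := by decide +kernel

theorem cA9_1_2_0 : chunkOkM (LA9_1.ctx false true 110 5 32 5 32768 64 128 512 65536) muQ false true 64 RtA9_1.Cx RtA9_1.CX RtA9_1.Ctn RtA9_1.Ce RtA9_1.CTp RtA9_1.CEr 0x0 = true := by decide +kernel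

theorem cA9_1_1_0 : chunkOkM (LA9_1.ctx true false 125 17 128 5 32768 2048 8192 512 65536) muQ true false 64 RtA9_1.Cx RtA9_1.CX RtA9_1.Ctp RtA9_1.Ce RtA9_1.CTn RtA9_1.CEr 0x0110170311011107374011403030734031111011074311431140690769440303111169073114311400694403031169071143114011690731140011440334343434 = true := by decide +kernel

theorem cA9_1_0_0 : chunkOkM (LA9_1.ctx false false 110 5 32 5 32768 64 128 512 65536) muQ false false 64 RtA9_1.Cx RtA9_1.CX RtA9_1.Ctn RtA9_1.Ce RtA9_1.CTn RtA9_1.CEr 0x0 = true := by decide +kernel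

theorem covA9_1 : LA9_1.Full muQ.val RtA9_1 := ⟨(LitT.cov_of_chunkM cA9_1_3_0), (LitT.cov_of_chunkM cA9_1_1_0), (LitT.cov_of_chunkM cA9_1_2_0), (LitT.cov_of_chunkM cA9_1_0_0)⟩

noncomputable def LA2_7 : LitT := ⟨⟨2,1,1,1,1,1⟩, [[[[[788606427856897,365183490850880,1522447442048],[5902937620480,3904825432645760,4126509850460289]],[[18978926797783040],[]]],[[[3511230136320,15985668323328065],[9516995691151361]],[[15985668323328064],[]]]],[[[[18570111126773760],[19274896618971136,39592189105766401]],[[],[]]],[[[],[]],[[],[]]]]], [[[[[14044920545280,13194139533377,2057286010306689],[38067982764605441]],[[9095160184963136,2057286010306688],[]]],[[[4744731699445761,36016111970652224],[177397594849280,30341548969881664,32064096811008065]],[[22935052069371904],[]]]],[[[[28833985418985473],[]],[[17465035187781632],[]]],[[[],[]],[[],[]]]]]⟩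

def RtA2_7 : Roots := ⟨⟨1,4,4096⟩,⟨2,3,32⟩,⟨0,5,128⟩,⟨0,5,128⟩,⟨0,11,8192⟩,⟨0,3,8⟩,⟨0,3,8⟩,⟨0,17,128⟩⟩

noncomputable def DA2_7 : R1D := ⟨⟨[Int.ofNat 512, Int.negSucc 511, Int.ofNat 517],512,1034,1024,1024,[Int.ofNat 0, Int.negSucc 0]⟩,⟨[Int.ofNat 0, Int.ofNat 0, Int.ofNat 125829120, Int.negSucc 41943039, Int.ofNat 20966715, Int.negSucc 12204866],251658240,4194304,[Int.ofNat 0, Int.negSucc 30, Int.ofNat 2017]⟩,⟨[Int.ofNat 0, Int.ofNat 0, Int.ofNat 62906625, Int.negSucc 20968184, Int.ofNat 10722580, Int.negSucc 6452213],125829120,16777216,[Int.negSucc 45, Int.ofNat 6, Int.ofNat 4148]⟩,1229170891945221849092273485372823961600⟩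

theorem chkA2_7 : chkR1 DA2_7 LA2_7 muQ RtA2_7 = true := by decide +kernel

theorem cA2_7_3_0 : chunkOkM (LA2_7.ctx true true 130 5 8192 47 512 1024 65536 512 16384) muQ true true 64 RtA2_7.Cx RtA2_7.CX RtA2_7.Ctp RtA2_7.Ce RtA2_7.CTp RtA2_7.CEr 0x01260505050808121205126506a6050508080803512126a081265051212012650512126a085051201101740303120011440356565656566 = true := by decide +kernel

theorem cA2_7_2_0 : chunkOkM (LA2_7.ctx false true 129 5 8192 95 1024 1024 16384 512 16384) muQ false true 64 RtA2_7.Cx RtA2_7.CX RtA2_7.Ctn RtA2_7.Ce RtA2_7.CTp RtA2_7.CEr 0x0006a60505080808083312012650512120126505121212055051212050512012605565656566 = true := by decide +kernel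

theorem cA2_7_1_0 : chunkOkM (LA2_7.ctx true false 112 5 8192 5 64 256 16384 16 256) muQ true false 64 RtA2_7.Cx RtA2_7.CX RtA2_7.Ctp RtA2_7.Ce RtA2_7.CTn RtA2_7.CEr 0x0 = true := by decide +kernel

theorem cA2_7_0_0 : chunkOkM (LA2_7.ctx false false 112 5 8192 5 64 256 16384 16 256) muQ false false 64 RtA2_7.Cx RtA2_7.CX RtA2_7.Ctn RtA2_7.Ce RtA2_7.CTn RtA2_7.CEr 0x0 = true := by decide +kernel

theorem covA2_7 : LA2_7.Full muQ.val RtA2_7 := ⟨(LitT.cov_of_chunkM cA2_7_3_0), (LitT.cov_of_chunkM cA2_7_1_0), (LitT.cov_of_chunkM cA2_7_2_0), (LitT.cov_of_chunkM cA2_7_0_0)⟩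

noncomputable def LA5_3 : LitT := ⟨⟨2,1,1,1,1,1⟩, [[[[[167116917440513,221577490726976],[1952732650930304,2015779891200129]],[[9279869288448000],[]]],[[[212399554560,7816296153600065],[4649005875200001]],[[7816296153600064],[]]]],[[[[9334329861734400],[9622925766295552,19340590848000001]],[[],[]]],[[[],[]],[[],[]]]]], [[[[[477898997760,6597069766721,1005923331072129],[18596023500800001]],[[4556376185503808,1005923331072128],[]]],[[[2319967322112001,18686846435328064],[105553116266496,15173260463308864,15663154560000065]],[[11432719693119488],[]]]],[[[[14207802740383745],[]],[[8512332508504064],[]]],[[[],[]],[[],[]]]]]⟩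

def RtA5_3 : Roots := ⟨⟨1,2,64⟩,⟨1,4,1024⟩,⟨0,7,32⟩,⟨0,7,32⟩,⟨0,11,256⟩,⟨0,5,64⟩,⟨0,5,64⟩,⟨0,11,2048⟩⟩

noncomputable def DA5_3 : R1D := ⟨⟨[Int.ofNat 256, Int.negSucc 255, Int.ofNat 259],256,1036,1024,1024,[Int.ofNat 0, Int.negSucc 0]⟩,⟨[Int.ofNat 0, Int.ofNat 0, Int.ofNat 25165608, Int.negSucc 8388511, Int.ofNat 4218915, Int.negSucc 2533814],50331648,4194304,[Int.negSucc 5, Int.ofNat 1, Int.ofNat 2055]⟩,⟨[Int.ofNat 0, Int.ofNat 0, Int.ofNat 6291456, Int.negSucc 2097151, Int.ofNat 1048575, Int.negSucc 630374],12582912,4194304,[Int.ofNat 0, Int.ofNat 2, Int.ofNat 2050]⟩,24583417838904436981845469707456479232⟩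

theorem chkA5_3 : chkR1 DA5_3 LA5_3 muQ RtA5_3 = true := by decide +kernel

theorem cA5_3_3_0 : chunkOkM (LA5_3.ctx true true 126 11 512 5 2048 16384 65536 256 16384) muQ true true 64 RtA5_3.Cx RtA5_3.CX RtA5_3.Ctp RtA5_3.Ce RtA5_3.CTp RtA5_3.CEr 0x011030311690703116907031106907031101201101100110303773434563463434344 = true := by decide +kernel

theorem cA5_3_2_0 : chunkOkM (LA5_3.ctx false true 119 3 128 5 2048 2048 65536 256 16384) muQ false true 64 RtA5_3.Cx RtA5_3.CX RtA5_3.Ctn RtA5_3.Ce RtA5_3.CTp RtA5_3.CEr 0x00000000000000126605444444433333 = true := by decide +kernel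

theorem cA5_3_1_0 : chunkOkM (LA5_3.ctx true false 117 7 256 5 2048 4096 16384 128 4096) muQ true false 64 RtA5_3.Cx RtA5_3.CX RtA5_3.Ctp RtA5_3.Ce RtA5_3.CTn RtA5_3.CEr 0x0110303116907031169030711011110303343434344 = true := by decide +kernel

theorem cA5_3_0_0 : chunkOkM (LA5_3.ctx false false 104 3 128 5 2048 64 512 128 4096) muQ false false 64 RtA5_3.Cx RtA5_3.CX RtA5_3.Ctn RtA5_3.Ce RtA5_3.CTn RtA5_3.CEr 0x0 = true := by decide +kernel

theorem covA5_3 : LA5_3.Full muQ.val RtA5_3 := ⟨(LitT.cov_of_chunkM cA5_3_3_0), (LitT.cov_of_chunkM cA5_3_1_0), (LitT.cov_of_chunkM cA5_3_2_0), (LitT.cov_of_chunkM cA5_3_0_0)⟩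

noncomputable def LA8_3 : LitT := ⟨⟨2,1,1,1,1,1⟩, [[[[[240518168577,1543764361280],[7627861917824,7858783518849]],[[36249523978240],[]]],[[[14826311680,30532435968065],[18124761989121]],[[30532435968064],[]]]],[[[[37552770170880],[37177236914176,75401841868801]],[[],[]]],[[[],[]],[[],[]]]]], [[[[[69084303360,25769803841,3929391759489],[72499047956481]],[[18004502904896,3929391759488],[]]],[[[9062380994561,74638600110144],[824633720832,59270548684864,61064871936065]],[[45071386804224],[]]]],[[[[55705423839233],[]],[[33199795208192],[]]],[[[],[]],[[],[]]]]]⟩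

def RtA8_3 : Roots := ⟨⟨3,4,32⟩,⟨1,4,1024⟩,⟨0,7,16⟩,⟨0,7,16⟩,⟨0,11,64⟩,⟨0,5,64⟩,⟨0,5,64⟩,⟨0,11,2048⟩⟩

noncomputable def DA8_3 : R1D := ⟨⟨[Int.ofNat 128, Int.negSucc 127, Int.ofNat 131],128,524,512,512,[Int.ofNat 0, Int.negSucc 0]⟩,⟨[Int.ofNat 0, Int.ofNat 0, Int.ofNat 251578305, Int.negSucc 83868924, Int.ofNat 43450980, Int.negSucc 25908503],503316480,16777216,[Int.negSucc 72, Int.negSucc 12, Int.ofNat 4156]⟩,⟨[Int.ofNat 0, Int.ofNat 0, Int.ofNat 30, Int.negSucc 9, Int.ofNat 5, Int.negSucc 2],60,4194304,[Int.ofNat 0, Int.ofNat 0, Int.ofNat 2048]⟩,150045274895656964000521665694924800⟩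

theorem chkA8_3 : chkR1 DA8_3 LA8_3 muQ RtA8_3 = true := by decide +kernel

theorem cA8_3_3_0 : chunkOkM (LA8_3.ctx true true 113 255 2048 5 2048 2048 8192 128 4096) muQ true true 64 RtA8_3.Cx RtA8_3.CX RtA8_3.Ctp RtA8_3.Ce RtA8_3.CTp RtA8_3.CEr 0x001144030311116907311431140011440303690694030369690303030707070707690690694033434343434 = true := by decide +kernel

theorem cA8_3_2_0 : chunkOkM (LA8_3.ctx false true 91 7 64 5 2048 32 128 128 4096) muQ false true 64 RtA8_3.Cx RtA8_3.CX RtA8_3.Ctn RtA8_3.Ce RtA8_3.CTp RtA8_3.CEr 0x0 = true := by decide +kernel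

theorem cA8_3_1_0 : chunkOkM (LA8_3.ctx true false 105 13 128 5 2048 2048 8192 128 4096) muQ true false 64 RtA8_3.Cx RtA8_3.CX RtA8_3.Ctp RtA8_3.Ce RtA8_3.CTn RtA8_3.CEr 0x0011440303111169073114311400114403036906940303690690690694033434343434 = true := by decide +kernel

theorem cA8_3_0_0 : chunkOkM (LA8_3.ctx false false 91 7 64 5 2048 32 128 128 4096) muQ false false 64 RtA8_3.Cx RtA8_3.CX RtA8_3.Ctn RtA8_3.Ce RtA8_3.CTn RtA8_3.CEr 0x0 = true := by decide +kernel

theorem covA8_3 : LA8_3.Full muQ.val RtA8_3 := ⟨(LitT.cov_of_chunkM cA8_3_3_0), (LitT.cov_of_chunkM cA8_3_1_0), (LitT.cov_of_chunkM cA8_3_2_0), (LitT.cov_of_chunkM cA8_3_0_0)⟩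

noncomputable def LA8_0 : LitT := ⟨⟨2,1,1,1,1,1⟩, [[[[[1924145348609,4603429695552],[15255723835520,15717567037569]],[[72499047956480],[]]],[[[51207168000,61064871936065],[36249523978241]],[[61064871936064],[]]]],[[[[75178332303360],[75797582839808,150803683737601]],[[],[]]],[[[],[]],[[],[]]]]], [[[[[145843200000,51539607617,7858783518849],[144998095912961]],[[35287451304000,7858783518848],[]]],[[[18124761989121,150500926218304],[206158430208,118541097369664,122129743872065]],[[88699664596992],[]]]],[[[[110689293172737],[]],[[66579979042816],[]]],[[[],[]],[[],[]]]]]⟩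

def RtA8_0 : Roots := ⟨⟨3,4,32⟩,⟨0,1,16384⟩,⟨0,7,16⟩,⟨0,7,16⟩,⟨0,11,64⟩,⟨0,5,512⟩,⟨0,5,512⟩,⟨0,11,131072⟩⟩

noncomputable def DA8_0 : R1D := ⟨⟨[Int.ofNat 1024, Int.negSucc 1023, Int.ofNat 1027],1024,4108,4096,4096,[Int.ofNat 0, Int.negSucc 0]⟩,⟨[Int.ofNat 0, Int.ofNat 0, Int.ofNat 503147730, Int.negSucc 167712909, Int.ofNat 86986185, Int.negSucc 52241786],1006632960,16777216,[Int.negSucc 74, Int.ofNat 2, Int.ofNat 4173]⟩,⟨[Int.ofNat 0, Int.ofNat 0, Int.ofNat 30, Int.negSucc 9, Int.ofNat 5, Int.negSucc 2],60,4194304,[Int.ofNat 0, Int.ofNat 0, Int.ofNat 2048]⟩,1200362199165255712004173325559398400⟩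

theorem chkA8_0 : chkR1 DA8_0 LA8_0 muQ RtA8_0 = true := by decide +kernel

theorem cA8_0_3_0 : chunkOkM (LA8_0.ctx true true 123 127 1024 1 32768 1024 4096 1024 262144) muQ true true 64 RtA8_0.Cx RtA8_0.CX RtA8_0.Ctp RtA8_0.Ce RtA8_0.CTp RtA8_0.CEr 0x0011440303111103114311401140303036969030303070707076906906940334343434 = true := by decide +kernel

theorem cA8_0_2_0 : chunkOkM (LA8_0.ctx false true 105 7 64 1 32768 32 128 1024 262144) muQ false true 64 RtA8_0.Cx RtA8_0.CX RtA8_0.Ctn RtA8_0.Ce RtA8_0.CTp RtA8_0.CEr 0x0 = true := by decide +kernel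

theorem cA8_0_1_0 : chunkOkM (LA8_0.ctx true false 123 127 1024 1 32768 1024 4096 1024 262144) muQ true false 64 RtA8_0.Cx RtA8_0.CX RtA8_0.Ctp RtA8_0.Ce RtA8_0.CTn RtA8_0.CEr 0x0011440303111103114311401140303036969030303070707076906906940334343434 = true := by decide +kernel

theorem cA8_0_0_0 : chunkOkM (LA8_0.ctx false false 105 7 64 1 32768 32 128 1024 262144) muQ false false 64 RtA8_0.Cx RtA8_0.CX RtA8_0.Ctn RtA8_0.Ce RtA8_0.CTn RtA8_0.CEr 0x0 = true := by decide +kernel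

theorem covA8_0 : LA8_0.Full muQ.val RtA8_0 := ⟨(LitT.cov_of_chunkM cA8_0_3_0), (LitT.cov_of_chunkM cA8_0_1_0), (LitT.cov_of_chunkM cA8_0_2_0), (LitT.cov_of_chunkM cA8_0_0_0)⟩

noncomputable def LA2_5 : LitT := ⟨⟨2,1,1,1,1,1⟩, [[[[[137173705687041,109933462814784,25901752448],[26549944320,976363447492736,1009857519452289]],[[4667161612124160],[]]],[[[59737374720,3931080947712065],[2329040765583361]],[[3931080947712064],[]]]],[[[[4640169886064640],[4837823549235200,9689173497446401]],[[],[]]],[[[],[]],[[],[]]]]], [[[[[238949498880,3298534883393,505913026314369],[9316163062333441]],[[2264993953218624,505913026314368],[]]],[[[1166790403031041,9243865277993024],[26394916552704,7586607869030464,7846865860608065]],[[5696778309468160],[]]]],[[[[7119024340828161],[]],[[4287781899304960],[]]],[[[],[]],[[],[]]]]]⟩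

def RtA2_5 : Roots := ⟨⟨1,4,4096⟩,⟨1,2,64⟩,⟨0,5,128⟩,⟨0,5,128⟩,⟨0,11,8192⟩,⟨0,7,32⟩,⟨0,7,32⟩,⟨0,11,256⟩⟩

noncomputable def DA2_5 : R1D := ⟨⟨[Int.ofNat 512, Int.negSucc 511, Int.ofNat 515],512,2060,2048,2048,[Int.ofNat 0, Int.negSucc 0]⟩,⟨[Int.ofNat 0, Int.ofNat 0, Int.ofNat 7864320, Int.negSucc 2621439, Int.ofNat 1310715, Int.negSucc 783362],15728640,4194304,[Int.ofNat 0, Int.negSucc 3, Int.ofNat 2044]⟩,⟨[Int.ofNat 0, Int.ofNat 0, Int.ofNat 15728505, Int.negSucc 5242864, Int.ofNat 2636820, Int.negSucc 1579013],31457280,4194304,[Int.negSucc 5, Int.negSucc 1, Int.ofNat 2052]⟩,76823180746576365568267092835801497600⟩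

theorem chkA2_5 : chkR1 DA2_5 LA2_5 muQ RtA2_5 = true := by decide +kernel

theorem cA2_5_3_0 : chunkOkM (LA2_5.ctx true true 133 13 16384 7 256 1024 131072 2048 32768) muQ true true 64 RtA2_5.Cx RtA2_5.CX RtA2_5.Ctp RtA2_5.Ce RtA2_5.CTp RtA2_5.CEr 0x012050508126a050812001101140334412012001211030307564565656566 = true := by decide +kernel

theorem cA2_5_2_0 : chunkOkM (LA2_5.ctx false true 135 5 8192 7 256 2048 1048576 4096 16384) muQ false true 64 RtA2_5.Cx RtA2_5.CX RtA2_5.Ctn RtA2_5.Ce RtA2_5.CTp RtA2_5.CEr 0x0120505081206a050841201201200000000001205058444444333565656566 = true := by decide +kernel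

theorem cA2_5_1_0 : chunkOkM (LA2_5.ctx true false 114 5 8192 3 128 256 16384 64 512) muQ true false 64 RtA2_5.Cx RtA2_5.CX RtA2_5.Ctp RtA2_5.Ce RtA2_5.CTn RtA2_5.CEr 0x0 = true := by decide +kernel

theorem cA2_5_0_0 : chunkOkM (LA2_5.ctx false false 114 5 8192 3 128 256 16384 64 512) muQ false false 64 RtA2_5.Cx RtA2_5.CX RtA2_5.Ctn RtA2_5.Ce RtA2_5.CTn RtA2_5.CEr 0x0 = true := by decide +kernel

theorem covA2_5 : LA2_5.Full muQ.val RtA2_5 := ⟨(LitT.cov_of_chunkM cA2_5_3_0), (LitT.cov_of_chunkM cA2_5_1_0), (LitT.cov_of_chunkM cA2_5_2_0), (LitT.cov_of_chunkM cA2_5_0_0)⟩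

noncomputable def LA7_0 : LitT := ⟨⟨2,1,1,1,1,1⟩, [[[[[250679801151489,474025123381312],[1952732650930304,2007921107681409]],[[9279869288448000],[]]],[[[3306574315520,7816296153600065],[4630881113210881]],[[7816296153600064],[]]]],[[[[9503214610677760],[9706488650006528,19265189006131201]],[[],[]]],[[[],[]],[[],[]]]]], [[[[[7968302039040,6597069766721,1005923331072129],[18523524452843521]],[[4514594743648320,1005923331072128],[]]],[[[2319967322112001,19061533630791744],[21990232555520,15173260463308864,15602089688064065]],[[11349156809408512],[]]]],[[[[14166021298528257],[]],[[8522777868967936],[]]],[[[],[]],[[],[]]]]]⟩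

def RtA7_0 : Roots := ⟨⟨2,3,32⟩,⟨0,1,16384⟩,⟨0,3,8⟩,⟨0,3,8⟩,⟨0,17,128⟩,⟨0,5,512⟩,⟨0,5,512⟩,⟨0,11,131072⟩⟩

noncomputable def DA7_0 : R1D := ⟨⟨[Int.ofNat 2048, Int.negSucc 2047, Int.ofNat 2053],2048,4106,4096,4096,[Int.ofNat 0, Int.negSucc 0]⟩,⟨[Int.ofNat 0, Int.ofNat 0, Int.ofNat 503244450, Int.negSucc 167742269, Int.ofNat 85904945, Int.negSucc 51692402],1006632960,16777216,[Int.negSucc 48, Int.ofNat 6, Int.ofNat 4151]⟩,⟨[Int.ofNat 0, Int.ofNat 0, Int.ofNat 31457280, Int.negSucc 10485759, Int.ofNat 5242875, Int.negSucc 3139586],62914560,4194304,[Int.ofNat 0, Int.negSucc 1, Int.ofNat 2046]⟩,19666734271123549585476375765965183385600⟩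

theorem chkA7_0 : chkR1 DA7_0 LA7_0 muQ RtA7_0 = true := by decide +kernel

theorem cA7_0_3_0 : chunkOkM (LA7_0.ctx true true 135 383 4096 1 32768 1024 8192 1024 262144) muQ true true 64 RtA7_0.Cx RtA7_0.CX RtA7_0.Ctp RtA7_0.Ce RtA7_0.CTp RtA7_0.CEr 0x0694030307070707070711031140311110311403111169073031111030311110303343434344 = true := by decide +kernel

theorem cA7_0_2_0 : chunkOkM (LA7_0.ctx false true 112 5 64 1 32768 16 256 1024 262144) muQ false true 64 RtA7_0.Cx RtA7_0.CX RtA7_0.Ctn RtA7_0.Ce RtA7_0.CTp RtA7_0.CEr 0x0 = true := by decide +kernel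

theorem cA7_0_1_0 : chunkOkM (LA7_0.ctx true false 133 191 2048 1 32768 1024 8192 1024 262144) muQ true false 64 RtA7_0.Cx RtA7_0.CX RtA7_0.Ctp RtA7_0.Ce RtA7_0.CTn RtA7_0.CEr 0x06940303070707070711031140311110311403111169073031111030311110303343434344 = true := by decide +kernel

theorem cA7_0_0_0 : chunkOkM (LA7_0.ctx false false 112 5 64 1 32768 16 256 1024 262144) muQ false false 64 RtA7_0.Cx RtA7_0.CX RtA7_0.Ctn RtA7_0.Ce RtA7_0.CTn RtA7_0.CEr 0x0 = true := by decide +kernel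

theorem covA7_0 : LA7_0.Full muQ.val RtA7_0 := ⟨(LitT.cov_of_chunkM cA7_0_3_0), (LitT.cov_of_chunkM cA7_0_1_0), (LitT.cov_of_chunkM cA7_0_2_0), (LitT.cov_of_chunkM cA7_0_0_0)⟩

noncomputable def LA0_8 : LitT := ⟨⟨2,1,1,1,1,1⟩, [[[[[8983484148219905,3931587292954688,27404053954688],[118465851555840,31230880901677184,33507352925061249]],[[153520884689141760],[]]],[[[63202142453760,129308362348032065],[77278219358699521]],[[129308362348032064],[]]]],[[[[148731918621818880],[155110240542736384,321489467253964801]],[[],[]]],[[[],[]],[[],[]]]]], [[[[[252808569815040,105553116266561,16641424023920769],[309112877434798081]],[[72268700270460992,16641424023920768],[]]],[[[38380221172285441,292547223028244544],[451828927954944,242672385384652864,260361188269056065]],[[182917621713207296],[]]]],[[[[231936417256726529],[]],[[141600541918650368],[]]],[[[],[]],[[],[]]]]]⟩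

def RtA0_8 : Roots := ⟨⟨0,1,16384⟩,⟨3,4,32⟩,⟨0,5,512⟩,⟨0,5,512⟩,⟨0,11,131072⟩,⟨0,7,16⟩,⟨0,7,16⟩,⟨0,11,64⟩⟩

noncomputable def DA0_8 : R1D := ⟨⟨[Int.ofNat 1024, Int.negSucc 1023, Int.ofNat 1027],1024,4108,4096,4096,[Int.ofNat 0, Int.negSucc 0]⟩,⟨[Int.ofNat 0, Int.ofNat 0, Int.ofNat 491520, Int.negSucc 163839, Int.ofNat 81915, Int.negSucc 48386],983040,4194304,[Int.ofNat 0, Int.negSucc 15, Int.ofNat 2032]⟩,⟨[Int.ofNat 0, Int.ofNat 0, Int.ofNat 503173650, Int.negSucc 167705229, Int.ofNat 86735145, Int.negSucc 52392122],1006632960,16777216,[Int.negSucc 68, Int.ofNat 14, Int.ofNat 4179]⟩,9602897593322045696033386604475187200⟩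

theorem chkA0_8 : chkR1 DA0_8 LA0_8 muQ RtA0_8 = true := by decide +kernel

theorem cA0_8_3_0 : chunkOkM (LA0_8.ctx true true 137 1 32768 31 256 1024 262144 1024 4096) muQ true true 64 RtA0_8.Cx RtA0_8.CX RtA0_8.Ctp RtA0_8.Ce RtA0_8.CTp RtA0_8.CEr 0x0012660505121205126512600126605056a0126050508086a06a06a60556565656 = true := by decide +kernel

theorem cA0_8_2_0 : chunkOkM (LA0_8.ctx false true 139 1 32768 127 1024 1024 262144 1024 4096) muQ false true 64 RtA0_8.Cx RtA0_8.CX RtA0_8.Ctn RtA0_8.Ce RtA0_8.CTp RtA0_8.CEr 0x0012660505121205126512601260505056a6a050505080808086a06a06a60556565656 = true := by decide +kernel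

theorem cA0_8_1_0 : chunkOkM (LA0_8.ctx true false 125 1 32768 7 64 1024 262144 32 128) muQ true false 64 RtA0_8.Cx RtA0_8.CX RtA0_8.Ctp RtA0_8.Ce RtA0_8.CTn RtA0_8.CEr 0x0 = true := by decide +kernel

theorem cA0_8_0_0 : chunkOkM (LA0_8.ctx false false 125 1 32768 7 64 1024 262144 32 128) muQ false false 64 RtA0_8.Cx RtA0_8.CX RtA0_8.Ctn RtA0_8.Ce RtA0_8.CTn RtA0_8.CEr 0x0 = true := by decide +kernel

theorem covA0_8 : LA0_8.Full muQ.val RtA0_8 := ⟨(LitT.cov_of_chunkM cA0_8_3_0), (LitT.cov_of_chunkM cA0_8_1_0), (LitT.cov_of_chunkM cA0_8_2_0), (LitT.cov_of_chunkM cA0_8_0_0)⟩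

noncomputable def LA4_3 : LitT := ⟨⟨2,1,1,1,1,1⟩, [[[[[774047335972865,809880910823488],[7810930603720832,8055255025336449]],[[37119503703736320],[]]],[[[265499443200,31265206977024065],[18577885463838721]],[[31265206977024064],[]]]],[[[[37155337278586880],[38597256181448704,77286906324172801]],[[],[]]],[[[],[]],[[],[]]]]], [[[[[53099888640,26388279066689,4023696202260609],[74311541855354881]],[[18172728183881792,4023696202260608],[]]],[[[9279875925934081,74820150288711744],[316659348799488,60693041853235264,62591508642816065]],[[45625332293697536],[]]]],[[[[56778462016380929],[]],[[34062551786528768],[]]],[[[],[]],[[],[]]]]]⟩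

def RtA4_3 : Roots := ⟨⟨1,4,256⟩,⟨1,4,1024⟩,⟨0,5,32⟩,⟨0,5,32⟩,⟨0,11,512⟩,⟨0,5,64⟩,⟨0,5,64⟩,⟨0,11,2048⟩⟩

noncomputable def DA4_3 : R1D := ⟨⟨[Int.ofNat 1024, Int.negSucc 1023, Int.ofNat 1033],1024,1033,1024,1024,[Int.ofNat 0, Int.negSucc 0]⟩,⟨[Int.ofNat 0, Int.ofNat 0, Int.ofNat 62914545, Int.negSucc 20971444, Int.ofNat 10495880, Int.negSucc 6340703],125829120,4194304,[Int.negSucc 0, Int.ofNat 7, Int.ofNat 2056]⟩,⟨[Int.ofNat 0, Int.ofNat 0, Int.ofNat 125829120, Int.negSucc 41943039, Int.ofNat 20971515, Int.negSucc 12595202],251658240,4194304,[Int.ofNat 0, Int.ofNat 1, Int.ofNat 2049]⟩,1229170891945221849092273485372823961600⟩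

theorem chkA4_3 : chkR1 DA4_3 LA4_3 muQ RtA4_3 = true := by decide +kernel

theorem cA4_3_3_0 : chunkOkM (LA4_3.ctx true true 137 29 4096 5 2048 8192 262144 512 32768) muQ true true 64 RtA4_3.Cx RtA4_3.CX RtA4_3.Ctp RtA4_3.Ce RtA4_3.CTp RtA4_3.CEr 0x0011690307071106907030711012011011012001100011403773475634345634634344 = true := by decide +kernel

theorem cA4_3_2_0 : chunkOkM (LA4_3.ctx false true 126 5 512 5 2048 512 131072 512 32768) muQ false true 64 RtA4_3.Cx RtA4_3.CX RtA4_3.Ctn RtA4_3.Ce RtA4_3.CTp RtA4_3.CEr 0x00000000121111000126054433566444443 = true := by decide +kernel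

theorem cA4_3_1_0 : chunkOkM (LA4_3.ctx true false 120 5 512 5 2048 1024 32768 128 4096) muQ true false 64 RtA4_3.Cx RtA4_3.CX RtA4_3.Ctp RtA4_3.Ce RtA4_3.CTn RtA4_3.CEr 0x00110110110114033434344 = true := by decide +kernel

theorem cA4_3_0_0 : chunkOkM (LA4_3.ctx false false 111 5 512 5 2048 64 1024 128 4096) muQ false false 64 RtA4_3.Cx RtA4_3.CX RtA4_3.Ctn RtA4_3.Ce RtA4_3.CTn RtA4_3.CEr 0x0 = true := by decide +kernel

theorem covA4_3 : LA4_3.Full muQ.val RtA4_3 := ⟨(LitT.cov_of_chunkM cA4_3_3_0), (LitT.cov_of_chunkM cA4_3_1_0), (LitT.cov_of_chunkM cA4_3_2_0), (LitT.cov_of_chunkM cA4_3_0_0)⟩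

noncomputable def LA1_1 : LitT := ⟨⟨2,1,1,1,1,1⟩, [[[[[67542395650049,67551245631552],[488183162732672,500999367966849]],[[2319960684625920],[]]],[[[1954068447744065],[1155458001797121]],[[1954068447744064],[]]]],[[[[2319969534607360],[2431501245349888,4806885827788801]],[[],[]]],[[[],[]],[[],[]]]]], [[[[[1649267441729,251480113275009],[4621832007188481]],[[1126209144488000,251480113275008],[]]],[[[579990171156481,4639939069214784],[618475290624,3793315115827264,3892900494336065]],[[2832408460132352],[]]]],[[[[3539058879963137],[]],[[2131297449353216],[]]],[[[],[]],[[],[]]]]]⟩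

def RtA1_1 : Roots := ⟨⟨1,4,16384⟩,⟨1,4,16384⟩,⟨0,5,256⟩,⟨0,5,256⟩,⟨0,11,32768⟩,⟨0,5,256⟩,⟨0,5,256⟩,⟨0,11,32768⟩⟩

noncomputable def DA1_1 : R1D := ⟨⟨[Int.ofNat 32768, Int.negSucc 32767, Int.ofNat 32777],32768,32777,32768,32768,[Int.ofNat 0, Int.negSucc 0]⟩,⟨[Int.ofNat 0, Int.ofNat 0, Int.ofNat 30, Int.negSucc 9, Int.ofNat 5, Int.negSucc 2],60,4194304,[Int.ofNat 0, Int.ofNat 0, Int.ofNat 2048]⟩,⟨[Int.ofNat 0, Int.ofNat 0, Int.ofNat 7864320, Int.negSucc 2621439, Int.ofNat 1310715, Int.negSucc 783362],15728640,4194304,[Int.ofNat 0, Int.negSucc 3, Int.ofNat 2044]⟩,18755659361957120500065208211865600⟩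

theorem chkA1_1 : chkR1 DA1_1 LA1_1 muQ RtA1_1 = true := by decide +kernel

theorem cA1_1_3_0 : chunkOkM (LA1_1.ctx true true 160 17 131072 13 65536 4096 33554432 8192 131072) muQ true true 64 RtA1_1.Cx RtA1_1.CX RtA1_1.Ctp RtA1_1.Ce RtA1_1.CTp RtA1_1.CEr 0x00110011011000002000126028475050505444734344344 = true := by decide +kernel

theorem cA1_1_2_0 : chunkOkM (LA1_1.ctx false true 157 17 131072 13 65536 2048 33554432 2048 131072) muQ false true 64 RtA1_1.Cx RtA1_1.CX RtA1_1.Ctn RtA1_1.Ce RtA1_1.CTp RtA1_1.CEr 0x0000210000000001260505084444444443377 = true := by decide +kernel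

theorem cA1_1_1_0 : chunkOkM (LA1_1.ctx true false 145 13 65536 5 32768 8192 131072 512 65536) muQ true false 64 RtA1_1.Cx RtA1_1.CX RtA1_1.Ctp RtA1_1.Ce RtA1_1.CTn RtA1_1.CEr 0x0101140173030303 = true := by decide +kernel

theorem cA1_1_0_0 : chunkOkM (LA1_1.ctx false false 138 5 32768 5 32768 512 65536 512 65536) muQ false false 64 RtA1_1.Cx RtA1_1.CX RtA1_1.Ctn RtA1_1.Ce RtA1_1.CTn RtA1_1.CEr 0x0 = true := by decide +kernel

theorem covA1_1 : LA1_1.Full muQ.val RtA1_1 := ⟨(LitT.cov_of_chunkM cA1_1_3_0), (LitT.cov_of_chunkM cA1_1_1_0), (LitT.cov_of_chunkM cA1_1_2_0), (LitT.cov_of_chunkM cA1_1_0_0)⟩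

noncomputable def LA1_7 : LitT := ⟨⟨2,1,1,1,1,1⟩, [[[[[6938668069552129,3648944118693952,11655788544128],[51772391424000,31238110368546944,33059847390904449]],[[151757543587184640],[]]],[[[26881818624000,127823126312448065],[76246134523166721]],[[127823126312448064],[]]]],[[[[148579652202086400],[154898129369776128,317195833074892801]],[[],[]]],[[[],[]],[[],[]]]]], [[[[[107527274496000,105553116266561,16450280603689089],[304984538092666881]],[[72409437758816320,16450280603689088],[]]],[[[37939385896796161,292137194952990784],[716630539632640,242728560296140864,256883949321216065]],[[182758261414428672],[]]]],[[[[230243211118534657],[]],[[139731413920014336],[]]],[[[],[]],[[],[]]]]]⟩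

def RtA1_7 : Roots := ⟨⟨1,4,16384⟩,⟨2,3,32⟩,⟨0,5,256⟩,⟨0,5,256⟩,⟨0,11,32768⟩,⟨0,3,8⟩,⟨0,3,8⟩,⟨0,17,128⟩⟩

noncomputable def DA1_7 : R1D := ⟨⟨[Int.ofNat 1024, Int.negSucc 1023, Int.ofNat 1029],1024,2058,2048,2048,[Int.ofNat 0, Int.negSucc 0]⟩,⟨[Int.ofNat 0, Int.ofNat 0, Int.ofNat 125829120, Int.negSucc 41943039, Int.ofNat 20970075, Int.negSucc 12374882],251658240,4194304,[Int.ofNat 0, Int.negSucc 16, Int.ofNat 2031]⟩,⟨[Int.ofNat 0, Int.ofNat 0, Int.ofNat 503255730, Int.negSucc 167742909, Int.ofNat 85738905, Int.negSucc 51692402],1006632960,16777216,[Int.negSucc 44, Int.ofNat 10, Int.ofNat 4151]⟩,2458341783890443698184546970745647923200⟩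

theorem chkA1_7 : chkR1 DA1_7 LA1_7 muQ RtA1_7 = true := by decide +kernel

theorem cA1_7_3_0 : chunkOkM (LA1_7.ctx true true 136 5 32768 47 512 512 65536 512 16384) muQ true true 64 RtA1_7.Cx RtA1_7.CX RtA1_7.Ctp RtA1_7.Ce RtA1_7.CTp RtA1_7.CEr 0x06a6050508080812120512650512120126505121212055051212050512012605565656566 = true := by decide +kernel

theorem cA1_7_2_0 : chunkOkM (LA1_7.ctx false true 139 5 32768 191 2048 1024 65536 512 16384) muQ false true 64 RtA1_7.Cx RtA1_7.CX RtA1_7.Ctn RtA1_7.Ce RtA1_7.CTp RtA1_7.CEr 0x006a60505080808080831201265051212012650512126a085051212050512012605565656566 = true := by decide +kernel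

theorem cA1_7_1_0 : chunkOkM (LA1_7.ctx true false 122 5 32768 5 64 512 65536 16 256) muQ true false 64 RtA1_7.Cx RtA1_7.CX RtA1_7.Ctp RtA1_7.Ce RtA1_7.CTn RtA1_7.CEr 0x0 = true := by decide +kernel

theorem cA1_7_0_0 : chunkOkM (LA1_7.ctx false false 122 5 32768 5 64 512 65536 16 256) muQ false false 64 RtA1_7.Cx RtA1_7.CX RtA1_7.Ctn RtA1_7.Ce RtA1_7.CTn RtA1_7.CEr 0x0 = true := by decide +kernel

theorem covA1_7 : LA1_7.Full muQ.val RtA1_7 := ⟨(LitT.cov_of_chunkM cA1_7_3_0), (LitT.cov_of_chunkM cA1_7_1_0), (LitT.cov_of_chunkM cA1_7_2_0), (LitT.cov_of_chunkM cA1_7_0_0)⟩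


end Vale.Agent.helper4.Q4
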