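import Vale.Agent.helper4.Q4TreeM

/-!
Checks for pairs of intervals of second moments.
-/

set_option maxRecDepth 100000
set_option linter.unusedVariables false

namespace Vale.Agent.helper4.Q4

noncomputable def LA1_8 : LitT := ⟨⟨2,1,1,1,1,1⟩, [[[[[8635664627138561,3492630663004224,28204130304128],[59471875276800,31237275756527744,33123592562688129]],[[153595277633126400],[]]],[[[65047363584000,129371022420480065],[76393150414848001]],[[129371022420480064],[]]]],[[[[148722850865152000],[154749384117452800,317807442155520001]],[[],[]]],[[[],[]],[[],[]]]]], [[[[[260189454336000,105553116266561,16649488102809729],[305572601659392001]],[[72479806502993984,16649488102809728],[]]],[[[38398819408281601,289396970057400384],[859292898951168,242722075135180864,257379266534400065]],[[183358432414269440],[]]]],[[[[232224895056977921],[]],[[141625136928235520],[]]],[[[],[]],[[],[]]]]]⟩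

def RtA1_8 : Roots := ⟨⟨1,4,16384⟩,⟨3,4,32⟩,⟨0,5,256⟩,⟨0,5,256⟩,⟨0,11,32768⟩,⟨0,7,16⟩,⟨0,7,16⟩,⟨0,11,64⟩⟩

noncomputable def DA1_8 : R1D := ⟨⟨[Int.ofNat 512, Int.negSucc 511, Int.ofNat 515],512,2060,2048,2048,[Int.ofNat 0, Int.negSucc 0]⟩,⟨[Int.ofNat 0, Int.ofNat 0, Int.ofNat 125829120, Int.negSucc 41943039, Int.ofNat 20967875, Int.negSucc 12253322],251658240,4194304,[Int.ofNat 0, Int.negSucc 26, Int.ofNat 2021]⟩,⟨[Int.ofNat 0, Int.ofNat 0, Int.ofNat 100633896, Int.negSucc 33547711, Int.ofNat 17355435, Int.negSucc 10358414],201326592,16777216,[Int.negSucc 69, Int.negSucc 10, Int.ofNat 4155]⟩,245834178389044369818454697074564792320⟩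

theorem chkA1_8 : chkR1 DA1_8 LA1_8 muQ RtA1_8 = true := by decide +kernel

theorem cA1_8_3_0 : chunkOkM (LA1_8.ctx true true 133 5 32768 15 128 512 65536 1024 4096) muQ true true 64 RtA1_8.Cx RtA1_8.CX RtA1_8.Ctp RtA1_8.Ce RtA1_8.CTp RtA1_8.CEr 0x0012660505121205126512600126605056a06a60505086a06a06a60556565656 = true := by decide +kernel

theorem cA1_8_2_0 : chunkOkM (LA1_8.ctx false true 136 5 32768 63 512 1024 65536 1024 4096) muQ false true 64 RtA1_8.Cx RtA1_8.CX RtA1_8.Ctn RtA1_8.Ce RtA1_8.CTp RtA1_8.CEr 0x0012660505121205126512601260505056a06a05050508080836a06a06a60556565656 = true := by decide +kernel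

theorem cA1_8_1_0 : chunkOkM (LA1_8.ctx true false 122 5 32768 7 64 512 65536 32 128) muQ true false 64 RtA1_8.Cx RtA1_8.CX RtA1_8.Ctp RtA1_8.Ce RtA1_8.CTn RtA1_8.CEr 0x0 = true := by decide +kernel

theorem cA1_8_0_0 : chunkOkM (LA1_8.ctx false false 122 5 32768 7 64 512 65536 32 128) muQ false false 64 RtA1_8.Cx RtA1_8.CX RtA1_8.Ctn RtA1_8.Ce RtA1_8.CTn RtA1_8.CEr 0x0 = true := by decide +kernel

theorem covA1_8 : LA1_8.Full muQ.val RtA1_8 := ⟨(LitT.cov_of_chunkM cA1_8_3_0), (LitT.cov_of_chunkM cA1_8_1_0), (LitT.cov_of_chunkM cA1_8_2_0), (LitT.cov_of_chunkM cA1_8_0_0)⟩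

noncomputable def LA7_1 : LitT := ⟨⟨2,1,1,1,1,1⟩, [[[[[914784824328193,1808219213135936],[7810930603720832,8039537458299009]],[[37119503703736320],[]]],[[[10624402718720,31265206977024065],[18541635939860481]],[[31265206977024064],[]]]],[[[[38012938092544000],[38737993669804032,77136102640435201]],[[],[]]],[[[],[]],[[],[]]]]], [[[[[31873208156160,26388279066689,4023696202260609],[74166543759441921]],[[18102359439704128,4023696202260608],[]]],[[[9279875925934081,76025876185088064],[175921860444160,60693041853235264,62469378898944065]],[[45484594805342208],[]]]],[[[[56708093272203265],[]],[[34080143972573184],[]]],[[[],[]],[[],[]]]]]⟩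

def RtA7_1 : Roots := ⟨⟨2,3,32⟩,⟨1,4,16384⟩,⟨0,3,8⟩,⟨0,3,8⟩,⟨0,17,128⟩,⟨0,5,256⟩,⟨0,5,256⟩,⟨0,11,32768⟩⟩

noncomputable def DA7_1 : R1D := ⟨⟨[Int.ofNat 1024, Int.negSucc 1023, Int.ofNat 1029],1024,2058,2048,2048,[Int.ofNat 0, Int.negSucc 0]⟩,⟨[Int.ofNat 0, Int.ofNat 0, Int.ofNat 100648890, Int.negSucc 33549629, Int.ofNat 17181025, Int.negSucc 10308614],201326592,16777216,[Int.negSucc 48, Int.ofNat 0, Int.ofNat 4145]⟩,⟨[Int.ofNat 0, Int.ofNat 0, Int.ofNat 125829120, Int.negSucc 41943039, Int.ofNat 20971515, Int.negSucc 12570626],251658240,4194304,[Int.ofNat 0, Int.negSucc 0, Int.ofNat 2047]⟩,1966673427112354958547637576596518338560⟩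

theorem chkA7_1 : chkR1 DA7_1 LA7_1 muQ RtA7_1 = true := by decide +kernel

theorem cA7_1_3_0 : chunkOkM (LA7_1.ctx true true 132 191 2048 5 32768 512 16384 512 65536) muQ true true 64 RtA7_1.Cx RtA7_1.CX RtA7_1.Ctp RtA7_1.Ce RtA7_1.CTp RtA7_1.CEr 0x06940303070707070711031140311110311403111169073031111030311011403343434344 = true := by decide +kernel

theorem cA7_1_2_0 : chunkOkM (LA7_1.ctx false true 111 5 64 5 32768 16 256 512 65536) muQ false true 64 RtA7_1.Cx RtA7_1.CX RtA7_1.Ctn RtA7_1.Ce RtA7_1.CTp RtA7_1.CEr 0x0 = true := by decide +kernel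

theorem cA7_1_1_0 : chunkOkM (LA7_1.ctx true false 130 95 1024 5 32768 512 16384 512 65536) muQ true false 64 RtA7_1.Cx RtA7_1.CX RtA7_1.Ctp RtA7_1.Ce RtA7_1.CTn RtA7_1.CEr 0x069403030707070711031140311110311403111169073031111030311011403343434344 = true := by decide +kernel

theorem cA7_1_0_0 : chunkOkM (LA7_1.ctx false false 111 5 64 5 32768 16 256 512 65536) muQ false false 64 RtA7_1.Cx RtA7_1.CX RtA7_1.Ctn RtA7_1.Ce RtA7_1.CTn RtA7_1.CEr 0x0 = true := by decide +kernel

theorem covA7_1 : LA7_1.Full muQ.val RtA7_1 := ⟨(LitT.cov_of_chunkM cA7_1_3_0), (LitT.cov_of_chunkM cA7_1_1_0), (LitT.cov_of_chunkM cA7_1_2_0), (LitT.cov_of_chunkM cA7_1_0_0)⟩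

noncomputable def LA1_15 : LitT := ⟨⟨2,1,1,1,1,1⟩, [[[[[3586675649282112,490892887941248],[65180422198075520,23983104000000129]],[[270145683456000000],[]]],[[[1132149363179520,227539699200000065],[1144281106481152,55312384000000001]],[[227539699200000064],[]]]],[[[[301593519630950400],[332082800762544128,230108160000000001]],[[],[]]],[[[],[]],[[],[]]]]], [[[[[4528597452718080,23151242276503553,211106232533057,29283369984000129],[24843322749091840,221249536000000001]],[[146648462866251840,29283369984000128],[]]],[[[67536420864000001,579311813091594304],[506469496809369664,186355200000000065]],[[360833346596503552],[]]]],[[[[427610526226251777],[]],[[244299947643437056],[]]],[[[],[]],[[],[]]]]]⟩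

def RtA1_15 : Roots := ⟨⟨1,4,16384⟩,⟨3,4,4⟩,⟨0,5,256⟩,⟨0,5,256⟩,⟨0,11,32768⟩,⟨0,5,4⟩,⟨0,1,2⟩,⟨0,11,8⟩⟩

noncomputable def DA1_15 : R1D := ⟨⟨[Int.ofNat 512, Int.negSucc 511, Int.ofNat 521],512,521,512,512,[Int.ofNat 0, Int.negSucc 0]⟩,⟨[Int.ofNat 0, Int.ofNat 0, Int.ofNat 122880, Int.negSucc 40959, Int.ofNat 20475, Int.negSucc 11906],245760,4194304,[Int.ofNat 0, Int.negSucc 31, Int.ofNat 2016]⟩,⟨[Int.ofNat 0, Int.ofNat 0, Int.ofNat 200814885, Int.negSucc 69916024, Int.ofNat 30525000, Int.negSucc 7499999],402653184,67108864,[Int.negSucc 412, Int.negSucc 3604, Int.ofNat 5000]⟩,240072439833051142400834665111879680⟩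

theorem chkA1_15 : chkR1 DA1_15 LA1_15 muQ RtA1_15 = true := by decide +kernel

theorem cA1_15_3_0 : chunkOkM (LA1_15.ctx true true 131 5 32768 127 128 1024 65536 265 561) muQ true true 64 RtA1_15.Cx RtA1_15.CX RtA1_15.Ctp RtA1_15.Ce RtA1_15.CTp RtA1_15.CEr 0x0205050822802126a08812602851205425080808031201268a1304c56085605126a1205086a6851264a4a06a64258806a64a508088056a1206a65126891304c56561212124a55126512664a5 = true := by decide +kernel

theorem cA1_15_2_0 : chunkOkM (LA1_15.ctx false true 127 5 32768 57 64 512 65536 145 297) muQ false true 64 RtA1_15.Cx RtA1_15.CX RtA1_15.Ctn RtA1_15.Ce RtA1_15.CTp RtA1_15.CEr 0x0205050822802120812602850126a088605085605126a1205086a6851264a4a06a642542588086a1261304c5126881304c56561212124a55126512664a5 = true := by decide +kernel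

theorem cA1_15_1_0 : chunkOkM (LA1_15.ctx true false 51 1 1 1 1 1 1 1 1) muQ true false 64 RtA1_15.Cx RtA1_15.CX RtA1_15.Ctp RtA1_15.Ce RtA1_15.CTn RtA1_15.CEr 0x4a = true := by decide +kernel

theorem cA1_15_0_0 : chunkOkM (LA1_15.ctx false false 51 1 1 1 1 1 1 1 1) muQ false false 64 RtA1_15.Cx RtA1_15.CX RtA1_15.Ctn RtA1_15.Ce RtA1_15.CTn RtA1_15.CEr 0x4a = true := by decide +kernel

theorem covA1_15 : LA1_15.Full muQ.val RtA1_15 := ⟨(LitT.cov_of_chunkM cA1_15_3_0), (LitT.cov_of_chunkM cA1_15_1_0), (LitT.cov_of_chunkM cA1_15_2_0), (LitT.cov_of_chunkM cA1_15_0_0)⟩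


end Vale.Agent.helper4.Q4
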