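import Vale.Agent.helper4.Q4TreeM


/-!
Checks for pairs of intervals of second moments.
-/

set_option maxRecDepth 100000
set_option linter.unusedVariables false

namespace Vale.Agent.helper4.Q4

noncomputable def LA3_4 : LitT := ⟨⟨2,1,1,1,1,1⟩, [[[[[846510984003585,810093310378048,23023779968],[283199406080,7810899905347712,8086736206971009]],[[37191967351767040],[]]],[[[31326242032128065],[18650490711572481]],[[31326242032128064],[]]]],[[[[37155770581975040],[38596961643003904,77588955499315201]],[[],[]]],[[[],[]],[[],[]]]]], [[[[[265499443200,26388279066689,4031551148482689],[74601962846289921]],[[18172728183881792,4031551148482688],[]]],[[[106199777280,9297991837941761,73949491016007744],[316730148651008,60692803318579264,62836125932544065]],[[45643448205705216],[]]]],[[[[56853827040944129],[]],[[34137916811091968],[]]],[[[],[]],[[],[]]]]]⟩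

def RtA3_4 : Roots := ⟨⟨1,4,1024⟩,⟨1,4,256⟩,⟨0,5,64⟩,⟨0,5,64⟩,⟨0,11,2048⟩,⟨0,5,32⟩,⟨0,5,32⟩,⟨0,11,512⟩⟩

noncomputable def DA3_4 : R1D := ⟨⟨[Int.ofNat 1024, Int.negSucc 1023, Int.ofNat 1033],1024,1033,1024,1024,[Int.ofNat 0, Int.negSucc 0]⟩,⟨[Int.ofNat 0, Int.ofNat 0, Int.ofNat 62914545, Int.negSucc 20971564, Int.ofNat 10495940, Int.negSucc 6266903],125829120,4194304,[Int.negSucc 0, Int.negSucc 4, Int.ofNat 2044]⟩,⟨[Int.ofNat 0, Int.ofNat 0, Int.ofNat 125829000, Int.negSucc 41942879, Int.ofNat 21012455, Int.negSucc 12644426],251658240,4194304,[Int.negSucc 1, Int.ofNat 3, Int.ofNat 2053]⟩,1229170891945221849092273485372823961600⟩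

theorem chkA3_4 : chkR1 DA3_4 LA3_4 muQ RtA3_4 = true := by decide +kernel

theorem cA3_4_3_0 : chunkOkM (LA3_4.ctx true true 133 7 4096 5 512 2048 131072 1024 32768) muQ true true 64 RtA3_4.Cx RtA3_4.CX RtA3_4.Ctp RtA3_4.Ce RtA3_4.CTp RtA3_4.CEr 0x000114403120001101744403030114031201111073403110120110120110114033456345634564566 = true := by decide +kernel

theorem cA3_4_2_0 : chunkOkM (LA3_4.ctx false true 126 5 2048 5 512 128 65536 1024 32768) muQ false true 64 RtA3_4.Cx RtA3_4.CX RtA3_4.Ctn RtA3_4.Ce RtA3_4.CTp RtA3_4.CEr 0x0012001200120001260544564564566 = true := by decide +kernel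

theorem cA3_4_1_0 : chunkOkM (LA3_4.ctx true false 123 29 8192 5 512 1024 32768 64 1024) muQ true false 64 RtA3_4.Cx RtA3_4.CX RtA3_4.Ctp RtA3_4.Ce RtA3_4.CTn RtA3_4.CEr 0x00110116903070734344 = true := by decide +kernel

theorem cA3_4_0_0 : chunkOkM (LA3_4.ctx false false 113 5 2048 5 512 128 4096 64 1024) muQ false false 64 RtA3_4.Cx RtA3_4.CX RtA3_4.Ctn RtA3_4.Ce RtA3_4.CTn RtA3_4.CEr 0x0 = true := by decide +kernel

theorem covA3_4 : LA3_4.Full muQ.val RtA3_4 := ⟨(LitT.cov_of_chunkM cA3_4_3_0), (LitT.cov_of_chunkM cA3_4_1_0), (LitT.cov_of_chunkM cA3_4_2_0), (LitT.cov_of_chunkM cA3_4_0_0)⟩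

noncomputable def LA2_8 : LitT := ⟨⟨2,1,1,1,1,1⟩, [[[[[7937830789578753,2633089964572736,29838818672768],[129988527390720,31229631861620864,33571527874068609]],[[153741868725698560],[]]],[[[68817455677440,129494493921792065],[77426226448302081]],[[129494493921792064],[]]]],[[[[148723419269038080],[153831619114565632,322105199872819201]],[[],[]]],[[[],[]],[[],[]]]]], [[[[[275269822709760,105553116266561,16665378348195969],[309704905793208321]],[[72902018968059968,16665378348195968],[]]],[[[38435467181424641,287409930221649984],[1721346992111616,242662680005836864,260859844967424065]],[[184239505117544448],[]]]],[[[[232799567984533505],[]],[[141672044274458624],[]]],[[[],[]],[[],[]]]]]⟩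

def RtA2_8 : Roots := ⟨⟨1,4,4096⟩,⟨3,4,32⟩,⟨0,5,128⟩,⟨0,5,128⟩,⟨0,11,8192⟩,⟨0,7,16⟩,⟨0,7,16⟩,⟨0,11,64⟩⟩

noncomputable def DA2_8 : R1D := ⟨⟨[Int.ofNat 256, Int.negSucc 255, Int.ofNat 259],256,1036,1024,1024,[Int.ofNat 0, Int.negSucc 0]⟩,⟨[Int.ofNat 0, Int.ofNat 0, Int.ofNat 31457280, Int.negSucc 10485759, Int.ofNat 5241435, Int.negSucc 3042146],62914560,4194304,[Int.ofNat 0, Int.negSucc 33, Int.ofNat 2014]⟩,⟨[Int.ofNat 0, Int.ofNat 0, Int.ofNat 503160960, Int.negSucc 167698719, Int.ofNat 86859995, Int.negSucc 52492466],1006632960,16777216,[Int.negSucc 71, Int.ofNat 15, Int.ofNat 4183]⟩,153646361493152731136534185671602995200⟩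

theorem chkA2_8 : chkR1 DA2_8 LA2_8 muQ RtA2_8 = true := by decide +kernel

theorem cA2_8_3_0 : chunkOkM (LA2_8.ctx true true 130 5 8192 13 128 1024 65536 1024 4096) muQ true true 64 RtA2_8.Cx RtA2_8.CX RtA2_8.Ctp RtA2_8.Ce RtA2_8.CTp RtA2_8.CEr 0x06a081266050512126a085126512600126605056a06a605056a06a06a011017031144035656565656 = true := by decide +kernel

theorem cA2_8_2_0 : chunkOkM (LA2_8.ctx false true 127 5 8192 31 256 256 16384 1024 4096) muQ false true 64 RtA2_8.Cx RtA2_8.CX RtA2_8.Ctn RtA2_8.Ce RtA2_8.CTp RtA2_8.CEr 0x0012660505121205126512600126605056a0126050508086a06a06a60556565656 = true := by decide +kernel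

theorem cA2_8_1_0 : chunkOkM (LA2_8.ctx true false 115 5 8192 7 64 256 16384 32 128) muQ true false 64 RtA2_8.Cx RtA2_8.CX RtA2_8.Ctp RtA2_8.Ce RtA2_8.CTn RtA2_8.CEr 0x0 = true := by decide +kernel

theorem cA2_8_0_0 : chunkOkM (LA2_8.ctx false false 115 5 8192 7 64 256 16384 32 128) muQ false false 64 RtA2_8.Cx RtA2_8.CX RtA2_8.Ctn RtA2_8.Ce RtA2_8.CTn RtA2_8.CEr 0x0 = true := by decide +kernel

theorem covA2_8 : LA2_8.Full muQ.val RtA2_8 := ⟨(LitT.cov_of_chunkM cA2_8_3_0), (LitT.cov_of_chunkM cA2_8_1_0), (LitT.cov_of_chunkM cA2_8_2_0), (LitT.cov_of_chunkM cA2_8_0_0)⟩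

noncomputable def LA8_1 : LitT := ⟨⟨2,1,1,1,1,1⟩, [[[[[214748364801,545153433664],[1906965479552,1964695879809]],[[9062380994560],[]]],[[[6235607040,7633108992065],[4531190497281]],[[7633108992064],[]]]],[[[[9392786063360],[9448928051200,18850460467201]],[[],[]]],[[[],[]],[[],[]]]]], [[[[[17747496960,6442451009,982347939969],[18124761989121]],[[4423816314944,982347939968],[]]],[[[2265595248641,18803600506944],[51539607552,14817637171264,15266217984065]],[[11113227878400],[]]]],[[[[13849046548481],[]],[[8319276154880],[]]],[[[],[]],[[],[]]]]]⟩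

def RtA8_1 : Roots := ⟨⟨3,4,32⟩,⟨1,4,16384⟩,⟨0,7,16⟩,⟨0,7,16⟩,⟨0,11,64⟩,⟨0,5,256⟩,⟨0,5,256⟩,⟨0,11,32768⟩⟩

noncomputable def DA8_1 : R1D := ⟨⟨[Int.ofNat 512, Int.negSucc 511, Int.ofNat 515],512,2060,2048,2048,[Int.ofNat 0, Int.negSucc 0]⟩,⟨[Int.ofNat 0, Int.ofNat 0, Int.ofNat 62894025, Int.negSucc 20964304, Int.ofNat 10868060, Int.negSucc 6527093],125829120,16777216,[Int.negSucc 73, Int.ofNat 2, Int.ofNat 4172]⟩,⟨[Int.ofNat 0, Int.ofNat 0, Int.ofNat 30, Int.negSucc 9, Int.ofNat 5, Int.negSucc 2],60,4194304,[Int.ofNat 0, Int.ofNat 0, Int.ofNat 2048]⟩,600181099582627856002086662779699200⟩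

theorem chkA8_1 : chkR1 DA8_1 LA8_1 muQ RtA8_1 = true := by decide +kernel

theorem cA8_1_3_0 : chunkOkM (LA8_1.ctx true true 113 31 256 5 32768 1024 4096 512 65536) muQ true true 64 RtA8_1.Cx RtA8_1.CX RtA8_1.Ctp RtA8_1.Ce RtA8_1.CTp RtA8_1.CEr 0x001144030311110311431140114030303690114030307076906906940334343434 = true := by decide +kernel

theorem cA8_1_2_0 : chunkOkM (LA8_1.ctx false true 99 7 64 5 32768 32 128 512 65536) muQ false true 64 RtA8_1.Cx RtA8_1.CX RtA8_1.Ctn RtA8_1.Ce RtA8_1.CTp RtA8_1.CEr 0x0 = true := by decide +kernel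

theorem cA8_1_1_0 : chunkOkM (LA8_1.ctx true false 113 31 256 5 32768 1024 4096 512 65536) muQ true false 64 RtA8_1.Cx RtA8_1.CX RtA8_1.Ctp RtA8_1.Ce RtA8_1.CTn RtA8_1.CEr 0x001144030311110311431140114030303690114030307076906906940334343434 = true := by decide +kernel

theorem cA8_1_0_0 : chunkOkM (LA8_1.ctx false false 99 7 64 5 32768 32 128 512 65536) muQ false false 64 RtA8_1.Cx RtA8_1.CX RtA8_1.Ctn RtA8_1.Ce RtA8_1.CTn RtA8_1.CEr 0x0 = true := by decide +kernel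

theorem covA8_1 : LA8_1.Full muQ.val RtA8_1 := ⟨(LitT.cov_of_chunkM cA8_1_3_0), (LitT.cov_of_chunkM cA8_1_1_0), (LitT.cov_of_chunkM cA8_1_2_0), (LitT.cov_of_chunkM cA8_1_0_0)⟩

noncomputable def LA0_15 : LitT := ⟨⟨2,1,1,1,1,1⟩, [[[[[6176519521042496,757393139589248],[65771450301161600,25069580821463169]],[[278187555390750720],[]]],[[[1746780574187520,234313248559104065],[5040647738228736,57818132344995841]],[[234313248559104064],[]]]],[[[[304207050586234880],[340286750596063232,240532464638361601]],[[],[]]],[[[],[]],[[],[]]]]], [[[[[6987122296750080,12576095551356929,211106232533057,30155096336302209],[30295690114498560,231272529379983361]],[[145381825471053888,30155096336302208],[]]],[[[69546888847687681,591129324433346624],[511061944907673664,194797418545152065]],[[360310539789795328],[]]]],[[[[434707749778817025],[]],[[252980467939999744],[]]],[[[],[]],[[],[]]]]]⟩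

def RtA0_15 : Roots := ⟨⟨0,1,16384⟩,⟨3,4,4⟩,⟨0,5,512⟩,⟨0,5,512⟩,⟨0,11,131072⟩,⟨0,5,4⟩,⟨0,1,2⟩,⟨0,11,8⟩⟩

noncomputable def DA0_15 : R1D := ⟨⟨[Int.ofNat 1024, Int.negSucc 1023, Int.ofNat 1033],1024,1033,1024,1024,[Int.ofNat 0, Int.negSucc 0]⟩,⟨[Int.ofNat 0, Int.ofNat 0, Int.ofNat 125829120, Int.negSucc 41943039, Int.ofNat 20970395, Int.negSucc 12399266],251658240,4194304,[Int.ofNat 0, Int.negSucc 14, Int.ofNat 2033]⟩,⟨[Int.ofNat 0, Int.ofNat 0, Int.ofNat 1002685425, Int.negSucc 352660564, Int.ofNat 157168440, Int.negSucc 39198815],2013265920,67108864,[Int.negSucc 512, Int.negSucc 3592, Int.ofNat 5112]⟩,2458341783890443698184546970745647923200⟩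

theorem chkA0_15 : chkR1 DA0_15 LA0_15 muQ RtA0_15 = true := by decide +kernel

theorem cA0_15_3_0 : chunkOkM (LA0_15.ctx true true 134 1 32768 57 64 16384 262144 145 297) muQ true true 64 RtA0_15.Cx RtA0_15.CX RtA0_15.Ctp RtA0_15.Ce RtA0_15.CTp RtA0_15.CEr 0x0205050822802126a08812602850126a08831304c56085605126a1205086a6851264a4a06a64258801030303038056a1281304c5126881304c56561212124a55126512664a5 = true := by decide +kernel

theorem cA0_15_2_0 : chunkOkM (LA0_15.ctx false true 130 1 32768 57 64 1024 262144 145 297) muQ false true 64 RtA0_15.Cx RtA0_15.CX RtA0_15.Ctn RtA0_15.Ce RtA0_15.CTp RtA0_15.CEr 0x0205050822802120812602850126a088605085605126a1205086a6851264a4a06a642542588086a1251304c5126881304c56561212124a55126512664a5 = true := by decide +kernel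

theorem cA0_15_1_0 : chunkOkM (LA0_15.ctx true false 52 1 1 1 1 1 1 1 1) muQ true false 64 RtA0_15.Cx RtA0_15.CX RtA0_15.Ctp RtA0_15.Ce RtA0_15.CTn RtA0_15.CEr 0x4a = true := by decide +kernel

theorem cA0_15_0_0 : chunkOkM (LA0_15.ctx false false 52 1 1 1 1 1 1 1 1) muQ false false 64 RtA0_15.Cx RtA0_15.CX RtA0_15.Ctn RtA0_15.Ce RtA0_15.CTn RtA0_15.CEr 0x4a = true := by decide +kernel

theorem covA0_15 : LA0_15.Full muQ.val RtA0_15 := ⟨(LitT.cov_of_chunkM cA0_15_3_0), (LitT.cov_of_chunkM cA0_15_1_0), (LitT.cov_of_chunkM cA0_15_2_0), (LitT.cov_of_chunkM cA0_15_0_0)⟩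

noncomputable def LA7_2 : LitT := ⟨⟨2,1,1,1,1,1⟩, [[[[[775094787899393,1595514617331776,5755945088],[7810936359665792,8039537458299009]],[[37155735527751680],[]]],[[[12699723366400,31295724504576065],[18541635939860481]],[[31295724504576064],[]]]],[[[[37976210583142400],[38562127035318272,77136102640435201]],[[],[]]],[[[],[]],[[],[]]]]], [[[[[29377513390080,26388279066689,4027623675371649],[53099888640,74166543759441921]],[[18190320369926208,4027623675371648],[]]],[[[9288933881937921,76209447400448064],[351830445916160,60693086578483264,62469378898944065]],[[45669574621790208],[]]]],[[[[56833736714706945],[]],[[34095836252299264],[]]],[[[],[]],[[],[]]]]]⟩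

def RtA7_2 : Roots := ⟨⟨2,3,32⟩,⟨1,4,4096⟩,⟨0,3,8⟩,⟨0,3,8⟩,⟨0,17,128⟩,⟨0,5,128⟩,⟨0,5,128⟩,⟨0,11,8192⟩⟩

noncomputable def DA7_2 : R1D := ⟨⟨[Int.ofNat 512, Int.negSucc 511, Int.ofNat 517],512,1034,1024,1024,[Int.ofNat 0, Int.negSucc 0]⟩,⟨[Int.ofNat 0, Int.ofNat 0, Int.ofNat 50325021, Int.negSucc 16774348, Int.ofNat 8582200, Int.negSucc 5166749],100663296,16777216,[Int.negSucc 46, Int.ofNat 7, Int.ofNat 4150]⟩,⟨[Int.ofNat 0, Int.ofNat 0, Int.ofNat 125829090, Int.negSucc 41943069, Int.ofNat 20991985, Int.negSucc 12570626],251658240,4194304,[Int.negSucc 0, Int.negSucc 1, Int.ofNat 2047]⟩,491668356778088739636909394149129584640⟩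

theorem chkA7_2 : chkR1 DA7_2 LA7_2 muQ RtA7_2 = true := by decide +kernel

theorem cA7_2_3_0 : chunkOkM (LA7_2.ctx true true 123 47 512 5 8192 512 16384 256 16384) muQ true true 64 RtA7_2.Cx RtA7_2.CX RtA7_2.Ctp RtA7_2.Ce RtA7_2.CTp RtA7_2.CEr 0x0694030307070711031140311110311403111111033031111030311011403343434344 = true := by decide +kernel

theorem cA7_2_2_0 : chunkOkM (LA7_2.ctx false true 106 5 64 5 8192 16 256 256 16384) muQ false true 64 RtA7_2.Cx RtA7_2.CX RtA7_2.Ctn RtA7_2.Ce RtA7_2.CTp RtA7_2.CEr 0x0 = true := by decide +kernel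

theorem cA7_2_1_0 : chunkOkM (LA7_2.ctx true false 123 47 512 5 8192 512 16384 256 16384) muQ true false 64 RtA7_2.Cx RtA7_2.CX RtA7_2.Ctp RtA7_2.Ce RtA7_2.CTn RtA7_2.CEr 0x0694030307070711110311430311110311403111111033031111030311011403343434344 = true := by decide +kernel

theorem cA7_2_0_0 : chunkOkM (LA7_2.ctx false false 106 5 64 5 8192 16 256 256 16384) muQ false false 64 RtA7_2.Cx RtA7_2.CX RtA7_2.Ctn RtA7_2.Ce RtA7_2.CTn RtA7_2.CEr 0x0 = true := by decide +kernel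

theorem covA7_2 : LA7_2.Full muQ.val RtA7_2 := ⟨(LitT.cov_of_chunkM cA7_2_3_0), (LitT.cov_of_chunkM cA7_2_1_0), (LitT.cov_of_chunkM cA7_2_2_0), (LitT.cov_of_chunkM cA7_2_0_0)⟩

noncomputable def LA8_2 : LitT := ⟨⟨2,1,1,1,1,1⟩, [[[[[668494219706369,2003398870171712],[7810930603720832,8055255025336449]],[[37119503703736320],[]]],[[[22934726901760,31265206977024065],[18577885463838721]],[[31265206977024064],[]]]],[[[[38454408354201600],[38491703065182208,77286906324172801]],[[],[]]],[[[],[]],[[],[]]]]], [[[[[70742326640640,26388279066689,4023696202260609],[74311541855354881]],[[18225504742015040,4023696202260608],[]]],[[[9279875925934081,76871929985761344],[422212465065984,60693041853235264,62591508642816065]],[[45730885409964032],[]]]],[[[[56831238574514177],[]],[[34049357646995456],[]]],[[[],[]],[[],[]]]]]⟩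

def RtA8_2 : Roots := ⟨⟨3,4,32⟩,⟨1,4,4096⟩,⟨0,7,16⟩,⟨0,7,16⟩,⟨0,11,64⟩,⟨0,5,128⟩,⟨0,5,128⟩,⟨0,11,8192⟩⟩

noncomputable def DA8_2 : R1D := ⟨⟨[Int.ofNat 256, Int.negSucc 255, Int.ofNat 259],256,1036,1024,1024,[Int.ofNat 0, Int.negSucc 0]⟩,⟨[Int.ofNat 0, Int.ofNat 0, Int.ofNat 251578305, Int.negSucc 83860164, Int.ofNat 43451400, Int.negSucc 26058335],503316480,16777216,[Int.negSucc 72, Int.negSucc 0, Int.ofNat 4168]⟩,⟨[Int.ofNat 0, Int.ofNat 0, Int.ofNat 125829120, Int.negSucc 41943039, Int.ofNat 20971515, Int.negSucc 12595202],251658240,4194304,[Int.ofNat 0, Int.ofNat 1, Int.ofNat 2049]⟩,1229170891945221849092273485372823961600⟩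

theorem chkA8_2 : chkR1 DA8_2 LA8_2 muQ RtA8_2 = true := by decide +kernel

theorem cA8_2_3_0 : chunkOkM (LA8_2.ctx true true 118 15 128 5 8192 1024 4096 256 16384) muQ true true 64 RtA8_2.Cx RtA8_2.CX RtA8_2.Ctp RtA8_2.Ce RtA8_2.CTp RtA8_2.CEr 0x0011440303111103114311400114403036906940303076906906940334343434 = true := by decide +kernel

theorem cA8_2_2_0 : chunkOkM (LA8_2.ctx false true 106 7 64 5 8192 32 128 256 16384) muQ false true 64 RtA8_2.Cx RtA8_2.CX RtA8_2.Ctn RtA8_2.Ce RtA8_2.CTp RtA8_2.CEr 0x0 = true := by decide +kernel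

theorem cA8_2_1_0 : chunkOkM (LA8_2.ctx true false 118 15 128 5 8192 1024 4096 256 16384) muQ true false 64 RtA8_2.Cx RtA8_2.CX RtA8_2.Ctp RtA8_2.Ce RtA8_2.CTn RtA8_2.CEr 0x0011440303111103114311400114403036906940303076906906940334343434 = true := by decide +kernel

theorem cA8_2_0_0 : chunkOkM (LA8_2.ctx false false 106 7 64 5 8192 32 128 256 16384) muQ false false 64 RtA8_2.Cx RtA8_2.CX RtA8_2.Ctn RtA8_2.Ce RtA8_2.CTn RtA8_2.CEr 0x0 = true := by decide +kernel

theorem covA8_2 : LA8_2.Full muQ.val RtA8_2 := ⟨(LitT.cov_of_chunkM cA8_2_3_0), (LitT.cov_of_chunkM cA8_2_1_0), (LitT.cov_of_chunkM cA8_2_2_0), (LitT.cov_of_chunkM cA8_2_0_0)⟩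

noncomputable def LA2_2 : LitT := ⟨⟨2,1,1,1,1,1⟩, [[[[[262774429057025,262747879112768],[1952732650930304,2015779891200129]],[[9279869288448000],[]]],[[[7816296153600065],[4649005875200001]],[[7816296153600064],[]]]],[[[[9279842738503680],[9718583277912064,19340590848000001]],[[],[]]],[[[],[]],[[],[]]]]], [[[[[6597069766721,1005923331072129],[18596023500800001]],[[4508547429695552,1005923331072128],[]]],[[[2319967322112001,18487328028753984],[9895604649984,15173260463308864,15663154560000065]],[[11337062181502976],[]]]],[[[[14159973984575489],[]],[[8524289697456128],[]]],[[[],[]],[[],[]]]]]⟩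

def RtA2_2 : Roots := ⟨⟨1,4,4096⟩,⟨1,4,4096⟩,⟨0,5,128⟩,⟨0,5,128⟩,⟨0,11,8192⟩,⟨0,5,128⟩,⟨0,5,128⟩,⟨0,11,8192⟩⟩

noncomputable def DA2_2 : R1D := ⟨⟨[Int.ofNat 8192, Int.negSucc 8191, Int.ofNat 8201],8192,8201,8192,8192,[Int.ofNat 0, Int.negSucc 0]⟩,⟨[Int.ofNat 0, Int.ofNat 0, Int.ofNat 7864320, Int.negSucc 2621439, Int.ofNat 1310715, Int.negSucc 783362],15728640,4194304,[Int.ofNat 0, Int.negSucc 3, Int.ofNat 2044]⟩,⟨[Int.ofNat 0, Int.ofNat 0, Int.ofNat 6291456, Int.negSucc 2097151, Int.ofNat 1048575, Int.negSucc 630374],12582912,4194304,[Int.ofNat 0, Int.ofNat 2, Int.ofNat 2050]⟩,245834178389044369818454697074564792320⟩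

theorem chkA2_2 : chkR1 DA2_2 LA2_2 muQ RtA2_2 = true := by decide +kernel

theorem cA2_2_3_0 : chunkOkM (LA2_2.ctx true true 148 13 16384 5 8192 8192 4194304 1024 131072) muQ true true 64 RtA2_2.Cx RtA2_2.CX RtA2_2.Ctp RtA2_2.Ce RtA2_2.CTp RtA2_2.CEr 0x0011011011001200110110001260547343445663434344 = true := by decide +kernel

theorem cA2_2_2_0 : chunkOkM (LA2_2.ctx false true 147 13 16384 13 16384 2048 4194304 2048 65536) muQ false true 64 RtA2_2.Cx RtA2_2.CX RtA2_2.Ctn RtA2_2.Ce RtA2_2.CTp RtA2_2.CEr 0x000000012011111100012050508444333756644444 = true := by decide +kernel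

theorem cA2_2_1_0 : chunkOkM (LA2_2.ctx true false 133 5 8192 5 8192 1024 131072 256 16384) muQ true false 64 RtA2_2.Cx RtA2_2.CX RtA2_2.Ctp RtA2_2.Ce RtA2_2.CTn RtA2_2.CEr 0x0011011403344 = true := by decide +kernel

theorem cA2_2_0_0 : chunkOkM (LA2_2.ctx false false 128 5 8192 5 8192 256 16384 256 16384) muQ false false 64 RtA2_2.Cx RtA2_2.CX RtA2_2.Ctn RtA2_2.Ce RtA2_2.CTn RtA2_2.CEr 0x0 = true := by decide +kernel

theorem covA2_2 : LA2_2.Full muQ.val RtA2_2 := ⟨(LitT.cov_of_chunkM cA2_2_3_0), (LitT.cov_of_chunkM cA2_2_1_0), (LitT.cov_of_chunkM cA2_2_2_0), (LitT.cov_of_chunkM cA2_2_0_0)⟩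

noncomputable def LA0_7 : LitT := ⟨⟨2,1,1,1,1,1⟩, [[[[[3718901015773185,2002517915336768,6357441208448],[15390117724160,15620192942727296,16426549801943169]],[[75952416914145280],[]]],[[[14662206750720,63973593348096065],[37884655399075841]],[[63973593348096064],[]]]],[[[[74297030884761600],[77635902876442624,157606085937561601]],[[],[]]],[[[],[]],[[],[]]]]], [[[[[58648827002880,52776558133313,8233123317842049],[151538621596303361]],[[36116757949186112,8233123317842048],[]]],[[[18988104228536321,146648456591872064],[179769389875200,121373120838758464,127638731569152065]],[[91221620126908416],[]]]],[[[[115110238431182849],[]],[[69964290994700288],[]]],[[[],[]],[[],[]]]]]⟩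

def RtA0_7 : Roots := ⟨⟨0,1,16384⟩,⟨2,3,32⟩,⟨0,5,512⟩,⟨0,5,512⟩,⟨0,11,131072⟩,⟨0,3,8⟩,⟨0,3,8⟩,⟨0,17,128⟩⟩

noncomputable def DA0_7 : R1D := ⟨⟨[Int.ofNat 2048, Int.negSucc 2047, Int.ofNat 2053],2048,4106,4096,4096,[Int.ofNat 0, Int.negSucc 0]⟩,⟨[Int.ofNat 0, Int.ofNat 0, Int.ofNat 25165824, Int.negSucc 8388607, Int.ofNat 4194135, Int.negSucc 2484734],50331648,4194304,[Int.ofNat 0, Int.negSucc 12, Int.ofNat 2035]⟩,⟨[Int.ofNat 0, Int.ofNat 0, Int.ofNat 251625105, Int.negSucc 83877384, Int.ofNat 42911060, Int.negSucc 25684565],503316480,16777216,[Int.negSucc 46, Int.negSucc 4, Int.ofNat 4138]⟩,983336713556177479273818788298259169280⟩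

theorem chkA0_7 : chkR1 DA0_7 LA0_7 muQ RtA0_7 = true := by decide +kernel

theorem cA0_7_3_0 : chunkOkM (LA0_7.ctx true true 139 1 32768 95 1024 1024 262144 512 16384) muQ true true 64 RtA0_7.Cx RtA0_7.CX RtA0_7.Ctp RtA0_7.Ce RtA0_7.CTp RtA0_7.CEr 0x06a60505080808081201265051212012650512126a085051212050512012605565656566 = true := by decide +kernel

theorem cA0_7_2_0 : chunkOkM (LA0_7.ctx false true 136 1 32768 9 128 1024 262144 1024 8192) muQ false true 64 RtA0_7.Cx RtA0_7.CX RtA0_7.Ctn RtA0_7.Ce RtA0_7.CTp RtA0_7.CEr 0x01201265051212012650512126a085051212050512120505565656566 = true := by decide +kernel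

theorem cA0_7_1_0 : chunkOkM (LA0_7.ctx true false 124 1 32768 5 64 1024 262144 16 256) muQ true false 64 RtA0_7.Cx RtA0_7.CX RtA0_7.Ctp RtA0_7.Ce RtA0_7.CTn RtA0_7.CEr 0x0 = true := by decide +kernel

theorem cA0_7_0_0 : chunkOkM (LA0_7.ctx false false 124 1 32768 5 64 1024 262144 16 256) muQ false false 64 RtA0_7.Cx RtA0_7.CX RtA0_7.Ctn RtA0_7.Ce RtA0_7.CTn RtA0_7.CEr 0x0 = true := by decide +kernel

theorem covA0_7 : LA0_7.Full muQ.val RtA0_7 := ⟨(LitT.cov_of_chunkM cA0_7_3_0), (LitT.cov_of_chunkM cA0_7_1_0), (LitT.cov_of_chunkM cA0_7_2_0), (LitT.cov_of_chunkM cA0_7_0_0)⟩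

noncomputable def LA3_3 : LitT := ⟨⟨2,1,1,1,1,1⟩, [[[[[968608834387969,968325634981952,5755945088],[7810936359665792,8039537458299009]],[[37155735527751680],[]]],[[[31295724504576065],[18541635939860481]],[[31295724504576064],[]]]],[[[[37155507554304000],[38755641081806848,77136102640435201]],[[],[]]],[[[],[]],[[],[]]]]], [[[[[106199777280,26388279066689,4027623675371649],[53099888640,74166543759441921]],[[18093563346681920,4027623675371648],[]]],[[[181424619520,9288933881937921,73877017091973184],[158316399427584,60693086578483264,62469378898944065]],[[45476060575301632],[]]]],[[[[56736979691462657],[]],[[34120025508110336],[]]],[[[],[]],[[],[]]]]]⟩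

def RtA3_3 : Roots := ⟨⟨1,4,1024⟩,⟨1,4,1024⟩,⟨0,5,64⟩,⟨0,5,64⟩,⟨0,11,2048⟩,⟨0,5,64⟩,⟨0,5,64⟩,⟨0,11,2048⟩⟩

noncomputable def DA3_3 : R1D := ⟨⟨[Int.ofNat 2048, Int.negSucc 2047, Int.ofNat 2057],2048,2057,2048,2048,[Int.ofNat 0, Int.negSucc 0]⟩,⟨[Int.ofNat 0, Int.ofNat 0, Int.ofNat 41943030, Int.negSucc 13981049, Int.ofNat 6997275, Int.negSucc 4173848],83886080,4194304,[Int.negSucc 0, Int.negSucc 5, Int.ofNat 2043]⟩,⟨[Int.ofNat 0, Int.ofNat 0, Int.ofNat 125829090, Int.negSucc 41943069, Int.ofNat 20991985, Int.negSucc 12570626],251658240,4194304,[Int.negSucc 0, Int.negSucc 1, Int.ofNat 2047]⟩,1638894522593629132123031313830431948800⟩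

theorem chkA3_3 : chkR1 DA3_3 LA3_3 muQ RtA3_3 = true := by decide +kernel

theorem cA3_3_3_0 : chunkOkM (LA3_3.ctx true true 137 5 2048 5 2048 4096 524288 1024 65536) muQ true true 64 RtA3_3.Cx RtA3_3.CX RtA3_3.Ctp RtA3_3.Ce RtA3_3.CTp RtA3_3.CEr 0x00110012011011012011011001260543434563434566344 = true := by decide +kernel

theorem cA3_3_2_0 : chunkOkM (LA3_3.ctx false true 135 5 2048 5 2048 1024 524288 1024 65536) muQ false true 64 RtA3_3.Cx RtA3_3.CX RtA3_3.Ctn RtA3_3.Ce RtA3_3.CTp RtA3_3.CEr 0x00000120012111111000012605444333564566444 = true := by decide +kernel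

theorem cA3_3_1_0 : chunkOkM (LA3_3.ctx true false 125 5 2048 5 2048 1024 65536 128 4096) muQ true false 64 RtA3_3.Cx RtA3_3.CX RtA3_3.Ctp RtA3_3.Ce RtA3_3.CTn RtA3_3.CEr 0x001101101140334344 = true := by decide +kernel

theorem cA3_3_0_0 : chunkOkM (LA3_3.ctx false false 118 5 2048 5 2048 128 4096 128 4096) muQ false false 64 RtA3_3.Cx RtA3_3.CX RtA3_3.Ctn RtA3_3.Ce RtA3_3.CTn RtA3_3.CEr 0x0 = true := by decide +kernel

theorem covA3_3 : LA3_3.Full muQ.val RtA3_3 := ⟨(LitT.cov_of_chunkM cA3_3_3_0), (LitT.cov_of_chunkM cA3_3_1_0), (LitT.cov_of_chunkM cA3_3_2_0), (LitT.cov_of_chunkM cA3_3_0_0)⟩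

noncomputable def LA2_6 : LitT := ⟨⟨2,1,1,1,1,1⟩, [[[[[4695053540786177,3096083144114240,2785877360768],[3115193466880,31243384732778624,32425772494110849]],[[150076879011840000],[]]],[[[6425086525440,126407527488000065],[74783763590021121]],[[126407527488000064],[]]]],[[[[148504637979033600],[154385784802902016,311112141497548801]],[[],[]]],[[[],[]],[[],[]]]]], [[[[[25700346101760,105553116266561,16268099189760129],[299135054360084481]],[[72690912735526976,16268099189760128],[]]],[[[37519219752960001,296398038265528384],[1267416193564672,242769543531724864,251957016001536065]],[[182901045224013824],[]]]],[[[[228776729285926913],[]],[[137913088366518272],[]]],[[[],[]],[[],[]]]]]⟩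

def RtA2_6 : Roots := ⟨⟨1,4,4096⟩,⟨1,2,32⟩,⟨0,5,128⟩,⟨0,5,128⟩,⟨0,11,8192⟩,⟨0,5,16⟩,⟨0,5,16⟩,⟨0,11,128⟩⟩

noncomputable def DA2_6 : R1D := ⟨⟨[Int.ofNat 1024, Int.negSucc 1023, Int.ofNat 1033],1024,1033,1024,1024,[Int.ofNat 0, Int.negSucc 0]⟩,⟨[Int.ofNat 0, Int.ofNat 0, Int.ofNat 31457280, Int.negSucc 10485759, Int.ofNat 5242875, Int.negSucc 3139586],62914560,4194304,[Int.ofNat 0, Int.negSucc 1, Int.ofNat 2046]⟩,⟨[Int.ofNat 0, Int.ofNat 0, Int.ofNat 503301960, Int.negSucc 167770399, Int.ofNat 84789375, Int.negSucc 50700962],1006632960,16777216,[Int.negSucc 21, Int.negSucc 6, Int.ofNat 4111]⟩,614585445972610924546136742686411980800⟩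

theorem chkA2_6 : chkR1 DA2_6 LA2_6 muQ RtA2_6 = true := by decide +kernel

theorem cA2_6_3_0 : chunkOkM (LA2_6.ctx true true 134 5 8192 5 128 4096 65536 1024 16384) muQ true true 64 RtA2_6.Cx RtA2_6.CX RtA2_6.Ctp RtA2_6.Ce RtA2_6.CTp RtA2_6.CEr 0x012056a605126a086a605126a086a60512120505120103030303120011440356565656566 = true := by decide +kernel

theorem cA2_6_2_0 : chunkOkM (LA2_6.ctx false true 129 5 8192 7 128 256 32768 1024 16384) muQ false true 64 RtA2_6.Cx RtA2_6.CX RtA2_6.Ctn RtA2_6.Ce RtA2_6.CTp RtA2_6.CEr 0x012056a605126a086a6051206a6051206a0508412012605565656566 = true := by decide +kernel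

theorem cA2_6_1_0 : chunkOkM (LA2_6.ctx true false 116 5 8192 3 64 256 16384 32 256) muQ true false 64 RtA2_6.Cx RtA2_6.CX RtA2_6.Ctp RtA2_6.Ce RtA2_6.CTn RtA2_6.CEr 0x0 = true := by decide +kernel

theorem cA2_6_0_0 : chunkOkM (LA2_6.ctx false false 116 5 8192 3 64 256 16384 32 256) muQ false false 64 RtA2_6.Cx RtA2_6.CX RtA2_6.Ctn RtA2_6.Ce RtA2_6.CTn RtA2_6.CEr 0x0 = true := by decide +kernel

theorem covA2_6 : LA2_6.Full muQ.val RtA2_6 := ⟨(LitT.cov_of_chunkM cA2_6_3_0), (LitT.cov_of_chunkM cA2_6_1_0), (LitT.cov_of_chunkM cA2_6_2_0), (LitT.cov_of_chunkM cA2_6_0_0)⟩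

noncomputable def LA3_2 : LitT := ⟨⟨2,1,1,1,1,1⟩, [[[[[1011541847572481,1011541847572544],[7810930603720832,8039537458299009]],[[37119503703736320],[]]],[[[31265206977024065],[18541635939860481]],[[31265206977024064],[]]]],[[[[37119503703736320],[38834750693048320,77136102640435201]],[[],[]]],[[[],[]],[[],[]]]]], [[[[[26388279066689,4023696202260609],[74166543759441921]],[[18053980928081984,4023696202260608],[]]],[[[9279875925934081,74166543759441984],[79164837199872,60693041853235264,62469378898944065]],[[45387837782097920],[]]]],[[[[56659714760581121],[]],[[34092238600478720],[]]],[[[],[]],[[],[]]]]]⟩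

def RtA3_2 : Roots := ⟨⟨1,4,1024⟩,⟨1,4,4096⟩,⟨0,5,64⟩,⟨0,5,64⟩,⟨0,11,2048⟩,⟨0,5,128⟩,⟨0,5,128⟩,⟨0,11,8192⟩⟩

noncomputable def DA3_2 : R1D := ⟨⟨[Int.ofNat 4096, Int.negSucc 4095, Int.ofNat 4105],4096,4105,4096,4096,[Int.ofNat 0, Int.negSucc 0]⟩,⟨[Int.ofNat 0, Int.ofNat 0, Int.ofNat 125829120, Int.negSucc 41943039, Int.ofNat 20971515, Int.negSucc 12570626],251658240,4194304,[Int.ofNat 0, Int.negSucc 0, Int.ofNat 2047]⟩,⟨[Int.ofNat 0, Int.ofNat 0, Int.ofNat 125829120, Int.negSucc 41943039, Int.ofNat 20971515, Int.negSucc 12570626],251658240,4194304,[Int.ofNat 0, Int.negSucc 0, Int.ofNat 2047]⟩,9833367135561774792738187882982591692800⟩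

theorem chkA3_2 : chkR1 DA3_2 LA3_2 muQ RtA3_2 = true := by decide +kernel

theorem cA3_2_3_0 : chunkOkM (LA3_2.ctx true true 138 5 2048 5 8192 4096 524288 512 65536) muQ true true 64 RtA3_2.Cx RtA3_2.CX RtA3_2.Ctp RtA3_2.Ce RtA3_2.CTp RtA3_2.CEr 0x0011011011011011000126605434343434344 = true := by decide +kernel

theorem cA3_2_2_0 : chunkOkM (LA3_2.ctx false true 135 5 2048 5 8192 512 524288 512 65536) muQ false true 64 RtA3_2.Cx RtA3_2.CX RtA3_2.Ctn RtA3_2.Ce RtA3_2.CTp RtA3_2.CEr 0x00000000000126605444444433 = true := by decide +kernel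

theorem cA3_2_1_0 : chunkOkM (LA3_2.ctx true false 130 5 2048 5 8192 1024 65536 256 16384) muQ true false 64 RtA3_2.Cx RtA3_2.CX RtA3_2.Ctp RtA3_2.Ce RtA3_2.CTn RtA3_2.CEr 0x001101101140334344 = true := by decide +kernel

theorem cA3_2_0_0 : chunkOkM (LA3_2.ctx false false 123 5 2048 5 8192 128 4096 256 16384) muQ false false 64 RtA3_2.Cx RtA3_2.CX RtA3_2.Ctn RtA3_2.Ce RtA3_2.CTn RtA3_2.CEr 0x0 = true := by decide +kernel

theorem covA3_2 : LA3_2.Full muQ.val RtA3_2 := ⟨(LitT.cov_of_chunkM cA3_2_3_0), (LitT.cov_of_chunkM cA3_2_1_0), (LitT.cov_of_chunkM cA3_2_2_0), (LitT.cov_of_chunkM cA3_2_0_0)⟩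

noncomputable def LA1_5 : LitT := ⟨⟨2,1,1,1,1,1⟩, [[[[[1166595887988737,985153568505920,143898624128],[796498329600,7810844264546432,8102499821568129]],[[37300946023219200],[]]],[[[331874304000,31418033149440065],[18686846435328001]],[[31418033149440064],[]]]],[[[[37120884352696320],[38807534024605696,77740200990720001]],[[],[]]],[[[],[]],[[],[]]]]], [[[[[1327497216000,26388279066689,4043364266188929],[74747385741312001]],[[18067175067615296,4043364266188928],[]]],[[[9325236505804801,74312659986554944],[105752240848896,60692370974515264,62958613478400065]],[[45459586641035264],[]]]],[[[[56861615999967233],[]],[[34277647165448192],[]]],[[[],[]],[[],[]]]]]⟩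

def RtA1_5 : Roots := ⟨⟨1,4,16384⟩,⟨1,2,64⟩,⟨0,5,256⟩,⟨0,5,256⟩,⟨0,11,32768⟩,⟨0,7,32⟩,⟨0,7,32⟩,⟨0,11,256⟩⟩

noncomputable def DA1_5 : R1D := ⟨⟨[Int.ofNat 1024, Int.negSucc 1023, Int.ofNat 1027],1024,4108,4096,4096,[Int.ofNat 0, Int.negSucc 0]⟩,⟨[Int.ofNat 0, Int.ofNat 0, Int.ofNat 125829120, Int.negSucc 41943039, Int.ofNat 20971515, Int.negSucc 12595202],251658240,4194304,[Int.ofNat 0, Int.ofNat 1, Int.ofNat 2049]⟩,⟨[Int.ofNat 0, Int.ofNat 0, Int.ofNat 25165674, Int.negSucc 8388517, Int.ofNat 4214805, Int.negSucc 2533814],50331648,4194304,[Int.negSucc 4, Int.ofNat 2, Int.ofNat 2055]⟩,491668356778088739636909394149129584640⟩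

theorem chkA1_5 : chkR1 DA1_5 LA1_5 muQ RtA1_5 = true := by decide +kernel

theorem cA1_5_3_0 : chunkOkM (LA1_5.ctx true true 141 5 32768 7 256 8192 524288 1024 16384) muQ true true 64 RtA1_5.Cx RtA1_5.CX RtA1_5.Ctp RtA1_5.Ce RtA1_5.CTp RtA1_5.CEr 0x012050508126a0508120103030303120120011011403344565656566 = true := by decide +kernel

theorem cA1_5_2_0 : chunkOkM (LA1_5.ctx false true 134 5 32768 7 256 512 65536 1024 16384) muQ false true 64 RtA1_5.Cx RtA1_5.CX RtA1_5.Ctn RtA1_5.Ce RtA1_5.CTp RtA1_5.CEr 0x012050508126a0508120120126055656566 = true := by decide +kernel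

theorem cA1_5_1_0 : chunkOkM (LA1_5.ctx true false 124 5 32768 3 128 512 65536 64 512) muQ true false 64 RtA1_5.Cx RtA1_5.CX RtA1_5.Ctp RtA1_5.Ce RtA1_5.CTn RtA1_5.CEr 0x0 = true := by decide +kernel

theorem cA1_5_0_0 : chunkOkM (LA1_5.ctx false false 124 5 32768 3 128 512 65536 64 512) muQ false false 64 RtA1_5.Cx RtA1_5.CX RtA1_5.Ctn RtA1_5.Ce RtA1_5.CTn RtA1_5.CEr 0x0 = true := by decide +kernel

theorem covA1_5 : LA1_5.Full muQ.val RtA1_5 := ⟨(LitT.cov_of_chunkM cA1_5_3_0), (LitT.cov_of_chunkM cA1_5_1_0), (LitT.cov_of_chunkM cA1_5_2_0), (LitT.cov_of_chunkM cA1_5_0_0)⟩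

noncomputable def LA1_6 : LitT := ⟨⟨2,1,1,1,1,1⟩, [[[[[5328726237642753,3729224842084416,2785877360768],[6230386933760,31243047050674304,32488903698432129]],[[150077233011097600],[]]],[[[6425086525440,126407825656320065],[74929363484672001]],[[126407825656320064],[]]]],[[[[148504460979404800],[155015863577608192,311717859809280001]],[[],[]]],[[[],[]],[[],[]]]]], [[[[[25700346101760,105553116266561,16268137562726529],[299717453938688001]],[[72374253386727488,16268137562726528],[]]],[[[37519308252774401,296108396072960064],[634876294332416,242766919650508864,252447562521600065]],[[182267815026229248],[]]]],[[[[228460438110183425],[]],[[137992621376774144],[]]],[[[],[]],[[],[]]]]]⟩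

def RtA1_6 : Roots := ⟨⟨1,4,16384⟩,⟨1,2,32⟩,⟨0,5,256⟩,⟨0,5,256⟩,⟨0,11,32768⟩,⟨0,5,16⟩,⟨0,5,16⟩,⟨0,11,128⟩⟩

noncomputable def DA1_6 : R1D := ⟨⟨[Int.ofNat 2048, Int.negSucc 2047, Int.ofNat 2057],2048,2057,2048,2048,[Int.ofNat 0, Int.negSucc 0]⟩,⟨[Int.ofNat 0, Int.ofNat 0, Int.ofNat 25165824, Int.negSucc 8388607, Int.ofNat 4194295, Int.negSucc 2509214],50331648,4194304,[Int.ofNat 0, Int.negSucc 2, Int.ofNat 2045]⟩,⟨[Int.ofNat 0, Int.ofNat 0, Int.ofNat 100660392, Int.negSucc 33553727, Int.ofNat 16957915, Int.negSucc 10159934],201326592,16777216,[Int.negSucc 21, Int.negSucc 2, Int.ofNat 4115]⟩,196667342711235495854763757659651833856⟩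

theorem chkA1_6 : chkR1 DA1_6 LA1_6 muQ RtA1_6 = true := by decide +kernel

theorem cA1_6_3_0 : chunkOkM (LA1_6.ctx true true 135 5 32768 7 128 512 65536 1024 16384) muQ true true 64 RtA1_6.Cx RtA1_6.CX RtA1_6.Ctp RtA1_6.Ce RtA1_6.CTp RtA1_6.CEr 0x012056a605126a086a605126a086a605126a050812012605565656566 = true := by decide +kernel

theorem cA1_6_2_0 : chunkOkM (LA1_6.ctx false true 137 5 32768 7 128 1024 131072 2048 8192) muQ false true 64 RtA1_6.Cx RtA1_6.CX RtA1_6.Ctn RtA1_6.Ce RtA1_6.CTp RtA1_6.CEr 0x012056a605126a086a6051212050512006a05084312120505565656566 = true := by decide +kernel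

theorem cA1_6_1_0 : chunkOkM (LA1_6.ctx true false 123 5 32768 3 64 512 65536 32 256) muQ true false 64 RtA1_6.Cx RtA1_6.CX RtA1_6.Ctp RtA1_6.Ce RtA1_6.CTn RtA1_6.CEr 0x0 = true := by decide +kernel

theorem cA1_6_0_0 : chunkOkM (LA1_6.ctx false false 123 5 32768 3 64 512 65536 32 256) muQ false false 64 RtA1_6.Cx RtA1_6.CX RtA1_6.Ctn RtA1_6.Ce RtA1_6.CTn RtA1_6.CEr 0x0 = true := by decide +kernel

theorem covA1_6 : LA1_6.Full muQ.val RtA1_6 := ⟨(LitT.cov_of_chunkM cA1_6_3_0), (LitT.cov_of_chunkM cA1_6_1_0), (LitT.cov_of_chunkM cA1_6_2_0), (LitT.cov_of_chunkM cA1_6_0_0)⟩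

noncomputable def LA0_6 : LitT := ⟨⟨2,1,1,1,1,1⟩, [[[[[5570851042754561,4045636391403584,2538371727488],[18213261803520,31241748125761664,32742042483179649]],[[150002698467409920],[]]],[[[5854262722560,126345046316544065],[75513179060305921]],[[126345046316544064],[]]]],[[[[148501838463713280],[155320060268462080,314146623825100801]],[[],[]]],[[[],[]],[[],[]]]]], [[[[[23417050890240,105553116266561,16260058134651009],[302052716241223681]],[[72215923712327744,16260058134651008],[]]],[[[37500674616852481,295816972294430784],[321212664250368,242756826652876864,254414519294976065]],[[181932522041507840],[]]]],[[[[228224589598842881],[]],[[137954684958433280],[]]],[[[],[]],[[],[]]]]]⟩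

def RtA0_6 : Roots := ⟨⟨0,1,16384⟩,⟨1,2,32⟩,⟨0,5,512⟩,⟨0,5,512⟩,⟨0,11,131072⟩,⟨0,5,16⟩,⟨0,5,16⟩,⟨0,11,128⟩⟩

noncomputable def DA0_6 : R1D := ⟨⟨[Int.ofNat 4096, Int.negSucc 4095, Int.ofNat 4105],4096,4105,4096,4096,[Int.ofNat 0, Int.negSucc 0]⟩,⟨[Int.ofNat 0, Int.ofNat 0, Int.ofNat 7864320, Int.negSucc 2621439, Int.ofNat 1310715, Int.negSucc 783362],15728640,4194304,[Int.ofNat 0, Int.negSucc 3, Int.ofNat 2044]⟩,⟨[Int.ofNat 0, Int.ofNat 0, Int.ofNat 503303250, Int.negSucc 167761869, Int.ofNat 84747465, Int.negSucc 51195482],1006632960,16777216,[Int.negSucc 20, Int.ofNat 14, Int.ofNat 4131]⟩,614585445972610924546136742686411980800⟩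

theorem chkA0_6 : chkR1 DA0_6 LA0_6 muQ RtA0_6 = true := by decide +kernel

theorem cA0_6_3_0 : chunkOkM (LA0_6.ctx true true 138 1 32768 7 128 1024 262144 2048 8192) muQ true true 64 RtA0_6.Cx RtA0_6.CX RtA0_6.Ctp RtA0_6.Ce RtA0_6.CTp RtA0_6.CEr 0x012056a605126a086a6051206a605126a050812120505565656566 = true := by decide +kernel

theorem cA0_6_2_0 : chunkOkM (LA0_6.ctx false true 139 1 32768 7 128 2048 262144 2048 8192) muQ false true 64 RtA0_6.Cx RtA0_6.CX RtA0_6.Ctn RtA0_6.Ce RtA0_6.CTp RtA0_6.CEr 0x012056a605126a086a605121205051206a0508312120505565656566 = true := by decide +kernel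

theorem cA0_6_1_0 : chunkOkM (LA0_6.ctx true false 126 1 32768 3 64 1024 262144 32 256) muQ true false 64 RtA0_6.Cx RtA0_6.CX RtA0_6.Ctp RtA0_6.Ce RtA0_6.CTn RtA0_6.CEr 0x0 = true := by decide +kernel

theorem cA0_6_0_0 : chunkOkM (LA0_6.ctx false false 126 1 32768 3 64 1024 262144 32 256) muQ false false 64 RtA0_6.Cx RtA0_6.CX RtA0_6.Ctn RtA0_6.Ce RtA0_6.CTn RtA0_6.CEr 0x0 = true := by decide +kernel

theorem covA0_6 : LA0_6.Full muQ.val RtA0_6 := ⟨(LitT.cov_of_chunkM cA0_6_3_0), (LitT.cov_of_chunkM cA0_6_1_0), (LitT.cov_of_chunkM cA0_6_2_0), (LitT.cov_of_chunkM cA0_6_0_0)⟩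

noncomputable def LA6_1 : LitT := ⟨⟨2,1,1,1,1,1⟩, [[[[[233087615107073,364961188544576],[1952732650930304,2015779891200129]],[[9279869288448000],[]]],[[[1122841395200,7816296153600065],[4649005875200001]],[[7816296153600064],[]]]],[[[[9411742861885440],[9688896463962112,19340590848000001]],[[],[]]],[[[],[]],[[],[]]]]], [[[[[2791062896640,6597069766721,1005923331072129],[18596023500800001]],[[4523390836670528,1005923331072128],[]]],[[[2319967322112001,18850885266309184],[39582418599936,15173260463308864,15663154560000065]],[[11366748995452928],[]]]],[[[[14174817391550465],[]],[[8520578845712384],[]]],[[[],[]],[[],[]]]]]⟩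

def RtA6_1 : Roots := ⟨⟨1,2,32⟩,⟨1,4,16384⟩,⟨0,5,16⟩,⟨0,5,16⟩,⟨0,11,128⟩,⟨0,5,256⟩,⟨0,5,256⟩,⟨0,11,32768⟩⟩

noncomputable def DA6_1 : R1D := ⟨⟨[Int.ofNat 2048, Int.negSucc 2047, Int.ofNat 2057],2048,2057,2048,2048,[Int.ofNat 0, Int.negSucc 0]⟩,⟨[Int.ofNat 0, Int.ofNat 0, Int.ofNat 83881875, Int.negSucc 27960334, Int.ofNat 14179680, Int.negSucc 8520191],167772160,16777216,[Int.negSucc 28, Int.ofNat 3, Int.ofNat 4128]⟩,⟨[Int.ofNat 0, Int.ofNat 0, Int.ofNat 6291456, Int.negSucc 2097151, Int.ofNat 1048575, Int.negSucc 630374],12582912,4194304,[Int.ofNat 0, Int.ofNat 2, Int.ofNat 2050]⟩,655557809037451652849212525532172779520⟩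

theorem chkA6_1 : chkR1 DA6_1 LA6_1 muQ RtA6_1 = true := by decide +kernel

theorem cA6_1_3_0 : chunkOkM (LA6_1.ctx true true 123 7 128 5 32768 1024 16384 512 65536) muQ true true 64 RtA6_1.Cx RtA6_1.CX RtA6_1.Ctp RtA6_1.Ce RtA6_1.CTp RtA6_1.CEr 0x011036940311690769403111103031169030711011403343434344 = true := by decide +kernel

theorem cA6_1_2_0 : chunkOkM (LA6_1.ctx false true 110 3 64 5 32768 32 256 512 65536) muQ false true 64 RtA6_1.Cx RtA6_1.CX RtA6_1.Ctn RtA6_1.Ce RtA6_1.CTp RtA6_1.CEr 0x0 = true := by decide +kernel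

theorem cA6_1_1_0 : chunkOkM (LA6_1.ctx true false 123 7 128 5 32768 2048 8192 512 65536) muQ true false 64 RtA6_1.Cx RtA6_1.CX RtA6_1.Ctp RtA6_1.Ce RtA6_1.CTn RtA6_1.CEr 0x011036940311690769403111103031169030711110303343434344 = true := by decide +kernel

theorem cA6_1_0_0 : chunkOkM (LA6_1.ctx false false 110 3 64 5 32768 32 256 512 65536) muQ false false 64 RtA6_1.Cx RtA6_1.CX RtA6_1.Ctn RtA6_1.Ce RtA6_1.CTn RtA6_1.CEr 0x0 = true := by decide +kernel

theorem covA6_1 : LA6_1.Full muQ.val RtA6_1 := ⟨(LitT.cov_of_chunkM cA6_1_3_0), (LitT.cov_of_chunkM cA6_1_1_0), (LitT.cov_of_chunkM cA6_1_2_0), (LitT.cov_of_chunkM cA6_1_0_0)⟩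

noncomputable def LA6_2 : LitT := ⟨⟨2,1,1,1,1,1⟩, [[[[[810314559913985,1301515079778368,5755945088],[17699962880,7810928685072512,8055255025336449]],[[37155770927677440],[]]],[[[2964743782400,31295754321408065],[18577885463838721]],[[31295754321408064],[]]]],[[[[37647026673500160],[38597237772795904,77286906324172801]],[[],[]]],[[[],[]],[[],[]]]]], [[[[[11217351475200,26388279066689,4027627512668289],[74311541855354881]],[[18172728183881792,4027627512668288],[]]],[[[9288942731919361,75184548749844544],[316663773790208,60693026944819264,62591508642816065]],[[45634399099682816],[]]]],[[[[56816181345968129],[]],[[34100271116115968],[]]],[[[],[]],[[],[]]]]]⟩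

def RtA6_2 : Roots := ⟨⟨1,2,32⟩,⟨1,4,4096⟩,⟨0,5,16⟩,⟨0,5,16⟩,⟨0,11,128⟩,⟨0,5,128⟩,⟨0,5,128⟩,⟨0,11,8192⟩⟩

noncomputable def DA6_2 : R1D := ⟨⟨[Int.ofNat 1024, Int.negSucc 1023, Int.ofNat 1033],1024,1033,1024,1024,[Int.ofNat 0, Int.negSucc 0]⟩,⟨[Int.ofNat 0, Int.ofNat 0, Int.ofNat 83881875, Int.negSucc 27960914, Int.ofNat 14179680, Int.negSucc 8495441],167772160,16777216,[Int.negSucc 28, Int.negSucc 2, Int.ofNat 4122]⟩,⟨[Int.ofNat 0, Int.ofNat 0, Int.ofNat 41943030, Int.negSucc 13981009, Int.ofNat 6997335, Int.negSucc 4198400],83886080,4194304,[Int.negSucc 0, Int.ofNat 0, Int.ofNat 2049]⟩,546298174197876377374343771276810649600⟩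

theorem chkA6_2 : chkR1 DA6_2 LA6_2 muQ RtA6_2 = true := by decide +kernel

theorem cA6_2_3_0 : chunkOkM (LA6_2.ctx true true 120 5 128 5 8192 1024 16384 256 16384) muQ true true 64 RtA6_2.Cx RtA6_2.CX RtA6_2.Ctp RtA6_2.Ce RtA6_2.CTp RtA6_2.CEr 0x011036940311690769403110694031169070311011403343434344 = true := by decide +kernel

theorem cA6_2_2_0 : chunkOkM (LA6_2.ctx false true 107 3 64 5 8192 32 256 256 16384) muQ false true 64 RtA6_2.Cx RtA6_2.CX RtA6_2.Ctn RtA6_2.Ce RtA6_2.CTp RtA6_2.CEr 0x0 = true := by decide +kernel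

theorem cA6_2_1_0 : chunkOkM (LA6_2.ctx true false 120 7 128 5 8192 1024 16384 256 16384) muQ true false 64 RtA6_2.Cx RtA6_2.CX RtA6_2.Ctp RtA6_2.Ce RtA6_2.CTn RtA6_2.CEr 0x011036940311690769403110694031169030711011403343434344 = true := by decide +kernel

theorem cA6_2_0_0 : chunkOkM (LA6_2.ctx false false 107 3 64 5 8192 32 256 256 16384) muQ false false 64 RtA6_2.Cx RtA6_2.CX RtA6_2.Ctn RtA6_2.Ce RtA6_2.CTn RtA6_2.CEr 0x0 = true := by decide +kernel

theorem covA6_2 : LA6_2.Full muQ.val RtA6_2 := ⟨(LitT.cov_of_chunkM cA6_2_3_0), (LitT.cov_of_chunkM cA6_2_1_0), (LitT.cov_of_chunkM cA6_2_2_0), (LitT.cov_of_chunkM cA6_2_0_0)⟩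

noncomputable def LA2_3 : LitT := ⟨⟨2,1,1,1,1,1⟩, [[[[[1047667471810561,1010833849057344,5755945088],[7810944034259072,8023835240448129]],[[37155629327974400],[]]],[[[13274972160,31295635054080065],[18505421815808001]],[[31295635054080064],[]]]],[[[[37118850931179520],[38834879553617920,76985446225920001]],[[],[]]],[[[],[]],[[],[]]]]], [[[[[53099888640,26388279066689,4027612163481729],[123899740160,74021687263232001]],[[18053980928081984,4027612163481728],[]]],[[[9288907331993601,73588012098068544],[79133862264832,60693146212147264,62347368422400065]],[[45396869188157440],[]]]],[[[[56697286820945921],[]],[[34129810660843520],[]]],[[[],[]],[[],[]]]]]⟩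

def RtA2_3 : Roots := ⟨⟨1,4,4096⟩,⟨1,4,1024⟩,⟨0,5,128⟩,⟨0,5,128⟩,⟨0,11,8192⟩,⟨0,5,64⟩,⟨0,5,64⟩,⟨0,11,2048⟩⟩

noncomputable def DA2_3 : R1D := ⟨⟨[Int.ofNat 4096, Int.negSucc 4095, Int.ofNat 4105],4096,4105,4096,4096,[Int.ofNat 0, Int.negSucc 0]⟩,⟨[Int.ofNat 0, Int.ofNat 0, Int.ofNat 125829120, Int.negSucc 41943039, Int.ofNat 20971115, Int.negSucc 12472562],251658240,4194304,[Int.ofNat 0, Int.negSucc 8, Int.ofNat 2039]⟩,⟨[Int.ofNat 0, Int.ofNat 0, Int.ofNat 25165818, Int.negSucc 8388621, Int.ofNat 4198385, Int.negSucc 2509214],50331648,4194304,[Int.negSucc 0, Int.negSucc 3, Int.ofNat 2045]⟩,1966673427112354958547637576596518338560⟩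

theorem chkA2_3 : chkR1 DA2_3 LA2_3 muQ RtA2_3 = true := by decide +kernel

theorem cA2_3_3_0 : chunkOkM (LA2_3.ctx true true 139 5 8192 5 2048 2048 262144 1024 65536) muQ true true 64 RtA2_3.Cx RtA2_3.CX RtA2_3.Ctp RtA2_3.Ce RtA2_3.CTp RtA2_3.CEr 0x00012011012011011012605343456345664 = true := by decide +kernel

theorem cA2_3_2_0 : chunkOkM (LA2_3.ctx false true 137 5 8192 5 2048 256 524288 1024 65536) muQ false true 64 RtA2_3.Cx RtA2_3.CX RtA2_3.Ctn RtA2_3.Ce RtA2_3.CTp RtA2_3.CEr 0x0001200120000126054445645664 = true := by decide +kernel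

theorem cA2_3_1_0 : chunkOkM (LA2_3.ctx true false 128 5 8192 5 2048 512 65536 128 4096) muQ true false 64 RtA2_3.Cx RtA2_3.CX RtA2_3.Ctp RtA2_3.Ce RtA2_3.CTn RtA2_3.CEr 0x00114403 = true := by decide +kernel

theorem cA2_3_0_0 : chunkOkM (LA2_3.ctx false false 125 5 8192 5 2048 256 16384 128 4096) muQ false false 64 RtA2_3.Cx RtA2_3.CX RtA2_3.Ctn RtA2_3.Ce RtA2_3.CTn RtA2_3.CEr 0x0 = true := by decide +kernel

theorem covA2_3 : LA2_3.Full muQ.val RtA2_3 := ⟨(LitT.cov_of_chunkM cA2_3_3_0), (LitT.cov_of_chunkM cA2_3_1_0), (LitT.cov_of_chunkM cA2_3_2_0), (LitT.cov_of_chunkM cA2_3_0_0)⟩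

noncomputable def LA1_16 : LitT := ⟨⟨2,1,1,1,1,1⟩, [[[[[21940635883798592,278587736064128],[507074459149664384,122640048580608129]],[[1783960983463526400],[]]],[[[711609307627520,1502603855700480065],[282845517447168001]],[[1502603855700480064],[]]]],[[[[2375492577757757440],[2514294859326947328,1176681547192320001]],[[],[]]],[[[],[]],[[],[]]]]], [[[[[2573433003048960,566918022023872513,1688849860264001,193378583168409729],[66190073187532800,1131382069788672001]],[[1175439502743699520,193378583168409728],[]]],[[[445990245865881601,4610712816250388544],[28488477976821760,3940105594744012864,952946323430400065]],[[2796869251353280512],[]]]],[[[[3030828611521683457],[]],[[1561529233092059136],[]]],[[[],[]],[[],[]]]]]⟩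

def RtA1_16 : Roots := ⟨⟨1,4,16384⟩,⟨4,5,4⟩,⟨0,5,256⟩,⟨0,5,256⟩,⟨0,11,32768⟩,⟨0,11,8⟩,⟨0,1,2⟩,⟨0,7,4⟩⟩

noncomputable def DA1_16 : R1D := ⟨⟨[Int.ofNat 256, Int.negSucc 255, Int.ofNat 261],256,522,512,512,[Int.ofNat 0, Int.negSucc 0]⟩,⟨[Int.ofNat 0, Int.ofNat 0, Int.ofNat 125829090, Int.negSucc 41942429, Int.ofNat 20946545, Int.negSucc 12204866],251658240,4194304,[Int.ofNat 1, Int.negSucc 29, Int.ofNat 2017]⟩,⟨[Int.ofNat 0, Int.ofNat 0, Int.ofNat 1610322336, Int.negSucc 544350031, Int.ofNat 201577935, Int.negSucc 38352014],3221225472,268435456,[Int.negSucc 219, Int.negSucc 8608, Int.ofNat 7995]⟩,122917089194522184909227348537282396160⟩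

theorem chkA1_16 : chkR1 DA1_16 LA1_16 muQ RtA1_16 = true := by decide +kernel

theorem cA1_16_3_0 : chunkOkM (LA1_16.ctx true true 134 5 32768 73 64 512 65536 2651 385) muQ true true 64 RtA1_16.Cx RtA1_16.CX RtA1_16.Ctp RtA1_16.Ce RtA1_16.CTp RtA1_16.CEr 0x0202020555054a5082286a0206a6581264a4a06a64a54258850202012602855058612124a5124a56a0508886a6512661264a5425 = true := by decide +kernel

theorem cA1_16_2_0 : chunkOkM (LA1_16.ctx false true 136 5 32768 319 256 2048 65536 671 189) muQ false true 64 RtA1_16.Cx RtA1_16.CX RtA1_16.Ctn RtA1_16.Ce RtA1_16.CTp RtA1_16.CEr 0x0002050542508080808228336a0205812671404c50202055058612124a5124a50886a6512661264a5425 = true := by decide +kernel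

theorem cA1_16_1_0 : chunkOkM (LA1_16.ctx true false 54 1 1 1 1 1 1 1 1) muQ true false 64 RtA1_16.Cx RtA1_16.CX RtA1_16.Ctp RtA1_16.Ce RtA1_16.CTn RtA1_16.CEr 0x4a = true := by decide +kernel

theorem cA1_16_0_0 : chunkOkM (LA1_16.ctx false false 54 1 1 1 1 1 1 1 1) muQ false false 64 RtA1_16.Cx RtA1_16.CX RtA1_16.Ctn RtA1_16.Ce RtA1_16.CTn RtA1_16.CEr 0x4a = true := by decide +kernel

theorem covA1_16 : LA1_16.Full muQ.val RtA1_16 := ⟨(LitT.cov_of_chunkM cA1_16_3_0), (LitT.cov_of_chunkM cA1_16_1_0), (LitT.cov_of_chunkM cA1_16_2_0), (LitT.cov_of_chunkM cA1_16_0_0)⟩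

noncomputable def LA6_0 : LitT := ⟨⟨2,1,1,1,1,1⟩, [[[[[252878824407041,384752397844544],[1952732650930304,2007921107681409]],[[9279869288448000],[]]],[[[737867202560,7816296153600065],[4630881113210881]],[[7816296153600064],[]]]],[[[[9411742861885440],[9708687673262080,19265189006131201]],[[],[]]],[[[],[]],[[],[]]]]], [[[[[2791062896640,6597069766721,1005923331072129],[18523524452843521]],[[4513495232020544,1005923331072128],[]]],[[[2319967322112001,18796126006149184],[19791209299968,15173260463308864,15602089688064065]],[[11346957786152960],[]]]],[[[[14164921786900481],[]],[[8523052746874880],[]]],[[[],[]],[[],[]]]]]⟩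

def RtA6_0 : Roots := ⟨⟨1,2,32⟩,⟨0,1,16384⟩,⟨0,5,16⟩,⟨0,5,16⟩,⟨0,11,128⟩,⟨0,5,512⟩,⟨0,5,512⟩,⟨0,11,131072⟩⟩

noncomputable def DA6_0 : R1D := ⟨⟨[Int.ofNat 4096, Int.negSucc 4095, Int.ofNat 4105],4096,4105,4096,4096,[Int.ofNat 0, Int.negSucc 0]⟩,⟨[Int.ofNat 0, Int.ofNat 0, Int.ofNat 83881875, Int.negSucc 27960914, Int.ofNat 14179680, Int.negSucc 8495441],167772160,16777216,[Int.negSucc 28, Int.negSucc 2, Int.ofNat 4122]⟩,⟨[Int.ofNat 0, Int.ofNat 0, Int.ofNat 31457280, Int.negSucc 10485759, Int.ofNat 5242875, Int.negSucc 3139586],62914560,4194304,[Int.ofNat 0, Int.negSucc 1, Int.ofNat 2046]⟩,6555578090374516528492125255321727795200⟩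

theorem chkA6_0 : chkR1 DA6_0 LA6_0 muQ RtA6_0 = true := by decide +kernel

theorem cA6_0_3_0 : chunkOkM (LA6_0.ctx true true 126 5 128 1 32768 2048 8192 1024 262144) muQ true true 64 RtA6_0.Cx RtA6_0.CX RtA6_0.Ctp RtA6_0.Ce RtA6_0.CTp RtA6_0.CEr 0x0110369403116907694031111030311011110303343434344 = true := by decide +kernel

theorem cA6_0_2_0 : chunkOkM (LA6_0.ctx false true 113 3 64 1 32768 32 256 1024 262144) muQ false true 64 RtA6_0.Cx RtA6_0.CX RtA6_0.Ctn RtA6_0.Ce RtA6_0.CTp RtA6_0.CEr 0x0 = true := by decide +kernel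

theorem cA6_0_1_0 : chunkOkM (LA6_0.ctx true false 126 5 128 1 32768 2048 8192 1024 262144) muQ true false 64 RtA6_0.Cx RtA6_0.CX RtA6_0.Ctp RtA6_0.Ce RtA6_0.CTn RtA6_0.CEr 0x0110369403116907694031111030311011110303343434344 = true := by decide +kernel

theorem cA6_0_0_0 : chunkOkM (LA6_0.ctx false false 113 3 64 1 32768 32 256 1024 262144) muQ false false 64 RtA6_0.Cx RtA6_0.CX RtA6_0.Ctn RtA6_0.Ce RtA6_0.CTn RtA6_0.CEr 0x0 = true := by decide +kernel

theorem covA6_0 : LA6_0.Full muQ.val RtA6_0 := ⟨(LitT.cov_of_chunkM cA6_0_3_0), (LitT.cov_of_chunkM cA6_0_1_0), (LitT.cov_of_chunkM cA6_0_2_0), (LitT.cov_of_chunkM cA6_0_0_0)⟩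

noncomputable def LA1_2 : LitT := ⟨⟨2,1,1,1,1,1⟩, [[[[[130728067073,130723745856],[953482739840,982347939969]],[[4531190497280],[]]],[[[3816554496065],[2265595248641]],[[3816554496064],[]]]],[[[[4531186176000],[4747817910272,9425230233601]],[[],[]]],[[[],[]],[[],[]]]]], [[[[[3221225537,491173970049],[9062380994561]],[[2200231215168,491173970048],[]]],[[[1132797624321,9080089600064],[2415919104,7408818585664,7633108992065]],[[5533260054528],[]]]],[[[[6912846331905],[]],[[4162557313024],[]]],[[[],[]],[[],[]]]]]⟩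

def RtA1_2 : Roots := ⟨⟨1,4,16384⟩,⟨1,4,4096⟩,⟨0,5,256⟩,⟨0,5,256⟩,⟨0,11,32768⟩,⟨0,5,128⟩,⟨0,5,128⟩,⟨0,11,8192⟩⟩

noncomputable def DA1_2 : R1D := ⟨⟨[Int.ofNat 16384, Int.negSucc 16383, Int.ofNat 16393],16384,16393,16384,16384,[Int.ofNat 0, Int.negSucc 0]⟩,⟨[Int.ofNat 0, Int.ofNat 0, Int.ofNat 6291456, Int.negSucc 2097151, Int.ofNat 1048575, Int.negSucc 630374],12582912,4194304,[Int.ofNat 0, Int.ofNat 2, Int.ofNat 2050]⟩,⟨[Int.ofNat 0, Int.ofNat 0, Int.ofNat 30, Int.negSucc 9, Int.ofNat 5, Int.negSucc 2],60,4194304,[Int.ofNat 0, Int.ofNat 0, Int.ofNat 2048]⟩,3841159037328818278413354641790074880⟩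

theorem chkA1_2 : chkR1 DA1_2 LA1_2 muQ RtA1_2 = true := by decide +kernel

theorem cA1_2_3_0 : chunkOkM (LA1_2.ctx true true 137 5 32768 5 8192 4096 2097152 1024 131072) muQ true true 64 RtA1_2.Cx RtA1_2.CX RtA1_2.Ctp RtA1_2.Ce RtA1_2.CTp RtA1_2.CEr 0x00110012001101101260534344566344 = true := by decide +kernel

theorem cA1_2_2_0 : chunkOkM (LA1_2.ctx false true 134 5 32768 5 8192 512 2097152 1024 131072) muQ false true 64 RtA1_2.Cx RtA1_2.CX RtA1_2.Ctn RtA1_2.Ce RtA1_2.CTp RtA1_2.CEr 0x00001200001260544456644 = true := by decide +kernel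

theorem cA1_2_1_0 : chunkOkM (LA1_2.ctx true false 124 5 32768 5 8192 512 65536 256 16384) muQ true false 64 RtA1_2.Cx RtA1_2.CX RtA1_2.Ctp RtA1_2.Ce RtA1_2.CTn RtA1_2.CEr 0x0 = true := by decide +kernel

theorem cA1_2_0_0 : chunkOkM (LA1_2.ctx false false 124 5 32768 5 8192 512 65536 256 16384) muQ false false 64 RtA1_2.Cx RtA1_2.CX RtA1_2.Ctn RtA1_2.Ce RtA1_2.CTn RtA1_2.CEr 0x0 = true := by decide +kernel

theorem covA1_2 : LA1_2.Full muQ.val RtA1_2 := ⟨(LitT.cov_of_chunkM cA1_2_3_0), (LitT.cov_of_chunkM cA1_2_1_0), (LitT.cov_of_chunkM cA1_2_2_0), (LitT.cov_of_chunkM cA1_2_0_0)⟩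

noncomputable def LA0_5 : LitT := ⟨⟨2,1,1,1,1,1⟩, [[[[[156964914987009,129688165941312,25901752448],[26549944320,976363447492736,1009857519452289]],[[4667161612124160],[]]],[[[59737374720,3931080947712065],[2329040765583361]],[[3931080947712064],[]]]],[[[[4640133379891200],[4857614758535168,9689173497446401]],[[],[]]],[[[],[]],[[],[]]]]], [[[[[238949498880,3298534883393,505913026314369],[9316163062333441]],[[2255098348568640,505913026314368],[]]],[[[1166790403031041,9216751147356224],[6603707252736,7586607869030464,7846865860608065]],[[5676987100168192],[]]]],[[[[7109128736178177],[]],[[4290255800467456],[]]],[[[],[]],[[],[]]]]]⟩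

def RtA0_5 : Roots := ⟨⟨0,1,16384⟩,⟨1,2,64⟩,⟨0,5,512⟩,⟨0,5,512⟩,⟨0,11,131072⟩,⟨0,7,32⟩,⟨0,7,32⟩,⟨0,11,256⟩⟩

noncomputable def DA0_5 : R1D := ⟨⟨[Int.ofNat 2048, Int.negSucc 2047, Int.ofNat 2051],2048,8204,8192,8192,[Int.ofNat 0, Int.negSucc 0]⟩,⟨[Int.ofNat 0, Int.ofNat 0, Int.ofNat 125829120, Int.negSucc 41943039, Int.ofNat 20971275, Int.negSucc 12497042],251658240,4194304,[Int.ofNat 0, Int.negSucc 6, Int.ofNat 2041]⟩,⟨[Int.ofNat 0, Int.ofNat 0, Int.ofNat 15728505, Int.negSucc 5242864, Int.ofNat 2636820, Int.negSucc 1579013],31457280,4194304,[Int.negSucc 5, Int.negSucc 1, Int.ofNat 2052]⟩,4916683567780887396369093941491295846400⟩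

theorem chkA0_5 : chkR1 DA0_5 LA0_5 muQ RtA0_5 = true := by decide +kernel

theorem cA0_5_3_0 : chunkOkM (LA0_5.ctx true true 134 1 32768 7 256 1024 262144 1024 16384) muQ true true 64 RtA0_5.Cx RtA0_5.CX RtA0_5.Ctp RtA0_5.Ce RtA0_5.CTp RtA0_5.CEr 0x012050508126a0508120120126055656566 = true := by decide +kernel

theorem cA0_5_2_0 : chunkOkM (LA0_5.ctx false true 134 1 32768 7 256 1024 262144 1024 16384) muQ false true 64 RtA0_5.Cx RtA0_5.CX RtA0_5.Ctn RtA0_5.Ce RtA0_5.CTp RtA0_5.CEr 0x012050508126a0508120120126055656566 = true := by decide +kernel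

theorem cA0_5_1_0 : chunkOkM (LA0_5.ctx true false 124 1 32768 3 128 1024 262144 64 512) muQ true false 64 RtA0_5.Cx RtA0_5.CX RtA0_5.Ctp RtA0_5.Ce RtA0_5.CTn RtA0_5.CEr 0x0 = true := by decide +kernel

theorem cA0_5_0_0 : chunkOkM (LA0_5.ctx false false 124 1 32768 3 128 1024 262144 64 512) muQ false false 64 RtA0_5.Cx RtA0_5.CX RtA0_5.Ctn RtA0_5.Ce RtA0_5.CTn RtA0_5.CEr 0x0 = true := by decide +kernel

theorem covA0_5 : LA0_5.Full muQ.val RtA0_5 := ⟨(LitT.cov_of_chunkM cA0_5_3_0), (LitT.cov_of_chunkM cA0_5_1_0), (LitT.cov_of_chunkM cA0_5_2_0), (LitT.cov_of_chunkM cA0_5_0_0)⟩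

noncomputable def LA5_2 : LitT := ⟨⟨2,1,1,1,1,1⟩, [[[[[879600452239361,1060759572316224],[7810930603720832,8055255025336449]],[[37119503703736320],[]]],[[[31265206977024065],[18577885463838721]],[[31265206977024064],[]]]],[[[[37300662823813120],[38702809297715200,77286906324172801]],[[],[]]],[[[],[]],[[],[]]]]], [[[[[1327497216000,26388279066689,4023696202260609],[74311541855354881]],[[18119951625748544,4023696202260608],[]]],[[[619498700800,9279875925934081,74166543759441984],[211106232532992,60693041853235264,62591508642816065]],[[45519779177431040],[]]]],[[[[56725685458247681],[]],[[34075745926062080],[]]],[[[],[]],[[],[]]]]]⟩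

def RtA5_2 : Roots := ⟨⟨1,2,64⟩,⟨1,4,4096⟩,⟨0,7,32⟩,⟨0,7,32⟩,⟨0,11,256⟩,⟨0,5,128⟩,⟨0,5,128⟩,⟨0,11,8192⟩⟩

noncomputable def DA5_2 : R1D := ⟨⟨[Int.ofNat 512, Int.negSucc 511, Int.ofNat 515],512,2060,2048,2048,[Int.ofNat 0, Int.negSucc 0]⟩,⟨[Int.ofNat 0, Int.ofNat 0, Int.ofNat 125828370, Int.negSucc 41943389, Int.ofNat 21073865, Int.negSucc 12570626],251658240,4194304,[Int.negSucc 4, Int.negSucc 5, Int.ofNat 2047]⟩,⟨[Int.ofNat 0, Int.ofNat 0, Int.ofNat 125829120, Int.negSucc 41943039, Int.ofNat 20971515, Int.negSucc 12595202],251658240,4194304,[Int.ofNat 0, Int.ofNat 1, Int.ofNat 2049]⟩,1229170891945221849092273485372823961600⟩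

theorem chkA5_2 : chkR1 DA5_2 LA5_2 muQ RtA5_2 = true := by decide +kernel

theorem cA5_2_3_0 : chunkOkM (LA5_2.ctx true true 124 7 256 5 8192 4096 16384 256 16384) muQ true true 64 RtA5_2.Cx RtA5_2.CX RtA5_2.Ctp RtA5_2.Ce RtA5_2.CTp RtA5_2.CEr 0x01103031169030711011011110303343434344 = true := by decide +kernel

theorem cA5_2_2_0 : chunkOkM (LA5_2.ctx false true 111 3 128 5 8192 64 512 256 16384) muQ false true 64 RtA5_2.Cx RtA5_2.CX RtA5_2.Ctn RtA5_2.Ce RtA5_2.CTp RtA5_2.CEr 0x0 = true := by decide +kernel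

theorem cA5_2_1_0 : chunkOkM (LA5_2.ctx true false 124 7 256 5 8192 4096 16384 256 16384) muQ true false 64 RtA5_2.Cx RtA5_2.CX RtA5_2.Ctp RtA5_2.Ce RtA5_2.CTn RtA5_2.CEr 0x01103031169030711011011110303343434344 = true := by decide +kernel

theorem cA5_2_0_0 : chunkOkM (LA5_2.ctx false false 111 3 128 5 8192 64 512 256 16384) muQ false false 64 RtA5_2.Cx RtA5_2.CX RtA5_2.Ctn RtA5_2.Ce RtA5_2.CTn RtA5_2.CEr 0x0 = true := by decide +kernel

theorem covA5_2 : LA5_2.Full muQ.val RtA5_2 := ⟨(LitT.cov_of_chunkM cA5_2_3_0), (LitT.cov_of_chunkM cA5_2_1_0), (LitT.cov_of_chunkM cA5_2_2_0), (LitT.cov_of_chunkM cA5_2_0_0)⟩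

noncomputable def LA2_4 : LitT := ⟨⟨2,1,1,1,1,1⟩, [[[[[1004911458254849,932377010372672,23023779968],[7810930603720832,8055255025336449]],[[37192038151618560],[]]],[[[53099888640,31326301665792065],[18577885463838721]],[[31326301665792064],[]]]],[[[[37119724607569920],[38755585855848448,77286906324172801]],[[],[]]],[[[],[]],[[],[]]]]], [[[[[212399554560,26388279066689,4031558823075969],[74311541855354881]],[[18093563346681920,4031558823075968],[]]],[[[9298009537904641,74166722660433984],[158329674399744,60693041853235264,62591508642816065]],[[45485136231268352],[]]]],[[[[56774735838355457],[]],[[34157781655003136],[]]],[[[],[]],[[],[]]]]]⟩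

def RtA2_4 : Roots := ⟨⟨1,4,4096⟩,⟨1,4,256⟩,⟨0,5,128⟩,⟨0,5,128⟩,⟨0,11,8192⟩,⟨0,5,32⟩,⟨0,5,32⟩,⟨0,11,512⟩⟩

noncomputable def DA2_4 : R1D := ⟨⟨[Int.ofNat 2048, Int.negSucc 2047, Int.ofNat 2057],2048,2057,2048,2048,[Int.ofNat 0, Int.negSucc 0]⟩,⟨[Int.ofNat 0, Int.ofNat 0, Int.ofNat 125829120, Int.negSucc 41943039, Int.ofNat 20971515, Int.negSucc 12570626],251658240,4194304,[Int.ofNat 0, Int.negSucc 0, Int.ofNat 2047]⟩,⟨[Int.ofNat 0, Int.ofNat 0, Int.ofNat 125829000, Int.negSucc 41943039, Int.ofNat 21012495, Int.negSucc 12595202],251658240,4194304,[Int.negSucc 1, Int.negSucc 0, Int.ofNat 2049]⟩,4916683567780887396369093941491295846400⟩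

theorem chkA2_4 : chkR1 DA2_4 LA2_4 muQ RtA2_4 = true := by decide +kernel

theorem cA2_4_3_0 : chunkOkM (LA2_4.ctx true true 134 5 8192 5 512 1024 131072 1024 32768) muQ true true 64 RtA2_4.Cx RtA2_4.CX RtA2_4.Ctp RtA2_4.Ce RtA2_4.CTp RtA2_4.CEr 0x00120120120012011011403345645656566 = true := by decide +kernel

theorem cA2_4_2_0 : chunkOkM (LA2_4.ctx false true 131 5 8192 5 512 256 65536 1024 32768) muQ false true 64 RtA2_4.Cx RtA2_4.CX RtA2_4.Ctn RtA2_4.Ce RtA2_4.CTp RtA2_4.CEr 0x001201201200012605445656566 = true := by decide +kernel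

theorem cA2_4_1_0 : chunkOkM (LA2_4.ctx true false 120 5 8192 5 512 256 16384 64 1024) muQ true false 64 RtA2_4.Cx RtA2_4.CX RtA2_4.Ctp RtA2_4.Ce RtA2_4.CTn RtA2_4.CEr 0x0 = true := by decide +kernel

theorem cA2_4_0_0 : chunkOkM (LA2_4.ctx false false 120 5 8192 5 512 256 16384 64 1024) muQ false false 64 RtA2_4.Cx RtA2_4.CX RtA2_4.Ctn RtA2_4.Ce RtA2_4.CTn RtA2_4.CEr 0x0 = true := by decide +kernel

theorem covA2_4 : LA2_4.Full muQ.val RtA2_4 := ⟨(LitT.cov_of_chunkM cA2_4_3_0), (LitT.cov_of_chunkM cA2_4_1_0), (LitT.cov_of_chunkM cA2_4_2_0), (LitT.cov_of_chunkM cA2_4_0_0)⟩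

noncomputable def LA5_1 : LitT := ⟨⟨2,1,1,1,1,1⟩, [[[[[985153568505857,1202836561985600],[7810930603720832,8039537458299009]],[[37119503703736320],[]]],[[[31265206977024065],[18541635939860481]],[[31265206977024064],[]]]],[[[[37337186697216000],[38808362413981696,77136102640435201]],[[],[]]],[[[],[]],[[],[]]]]], [[[[[1911595991040,26388279066689,4023696202260609],[74166543759441921]],[[18067175067615296,4023696202260608],[]]],[[[212399554560,9279875925934081,74384094003200064],[105553116266496,60693041853235264,62469378898944065]],[[45414226061164544],[]]]],[[[[56672908900114433],[]],[[34088940065595392],[]]],[[[],[]],[[],[]]]]]⟩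

def RtA5_1 : Roots := ⟨⟨1,2,64⟩,⟨1,4,16384⟩,⟨0,7,32⟩,⟨0,7,32⟩,⟨0,11,256⟩,⟨0,5,256⟩,⟨0,5,256⟩,⟨0,11,32768⟩⟩

noncomputable def DA5_1 : R1D := ⟨⟨[Int.ofNat 1024, Int.negSucc 1023, Int.ofNat 1027],1024,4108,4096,4096,[Int.ofNat 0, Int.negSucc 0]⟩,⟨[Int.ofNat 0, Int.ofNat 0, Int.ofNat 6291402, Int.negSucc 2097157, Int.ofNat 1054725, Int.negSucc 630374],12582912,4194304,[Int.negSucc 5, Int.negSucc 3, Int.ofNat 2050]⟩,⟨[Int.ofNat 0, Int.ofNat 0, Int.ofNat 125829120, Int.negSucc 41943039, Int.ofNat 20971515, Int.negSucc 12570626],251658240,4194304,[Int.ofNat 0, Int.negSucc 0, Int.ofNat 2047]⟩,122917089194522184909227348537282396160⟩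

theorem chkA5_1 : chkR1 DA5_1 LA5_1 muQ RtA5_1 = true := by decide +kernel

theorem cA5_1_3_0 : chunkOkM (LA5_1.ctx true true 127 7 256 5 32768 1024 16384 512 65536) muQ true true 64 RtA5_1.Cx RtA5_1.CX RtA5_1.Ctp RtA5_1.Ce RtA5_1.CTp RtA5_1.CEr 0x011030311690307110110114033434344 = true := by decide +kernel

theorem cA5_1_2_0 : chunkOkM (LA5_1.ctx false true 116 3 128 5 32768 64 512 512 65536) muQ false true 64 RtA5_1.Cx RtA5_1.CX RtA5_1.Ctn RtA5_1.Ce RtA5_1.CTp RtA5_1.CEr 0x0 = true := by decide +kernel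

theorem cA5_1_1_0 : chunkOkM (LA5_1.ctx true false 127 7 256 5 32768 1024 16384 512 65536) muQ true false 64 RtA5_1.Cx RtA5_1.CX RtA5_1.Ctp RtA5_1.Ce RtA5_1.CTn RtA5_1.CEr 0x011030311690307110110114033434344 = true := by decide +kernel

theorem cA5_1_0_0 : chunkOkM (LA5_1.ctx false false 116 3 128 5 32768 64 512 512 65536) muQ false false 64 RtA5_1.Cx RtA5_1.CX RtA5_1.Ctn RtA5_1.Ce RtA5_1.CTn RtA5_1.CEr 0x0 = true := by decide +kernel

theorem covA5_1 : LA5_1.Full muQ.val RtA5_1 := ⟨(LitT.cov_of_chunkM cA5_1_3_0), (LitT.cov_of_chunkM cA5_1_1_0), (LitT.cov_of_chunkM cA5_1_2_0), (LitT.cov_of_chunkM cA5_1_0_0)⟩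

noncomputable def LA5_0 : LitT := ⟨⟨2,1,1,1,1,1⟩, [[[[[126701535233,153290371136],[953482739840,982347939969]],[[4531190497280],[]]],[[[77783040,3816554496065],[2265595248641]],[[3816554496064],[]]]],[[[[4557779333120],[4743791378432,9425230233601]],[[],[]]],[[[],[]],[[],[]]]]], [[[[[233349120,3221225537,491173970049],[9062380994561]],[[2202244481088,491173970048],[]]],[[[1132797624321,9115558666304],[6442450944,7408818585664,7633108992065]],[[5537286586368],[]]]],[[[[6914859597825],[]],[[4162053996544],[]]],[[[],[]],[[],[]]]]]⟩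

def RtA5_0 : Roots := ⟨⟨1,2,64⟩,⟨0,1,16384⟩,⟨0,7,32⟩,⟨0,7,32⟩,⟨0,11,256⟩,⟨0,5,512⟩,⟨0,5,512⟩,⟨0,11,131072⟩⟩

noncomputable def DA5_0 : R1D := ⟨⟨[Int.ofNat 2048, Int.negSucc 2047, Int.ofNat 2051],2048,8204,8192,8192,[Int.ofNat 0, Int.negSucc 0]⟩,⟨[Int.ofNat 0, Int.ofNat 0, Int.ofNat 31457010, Int.negSucc 10485669, Int.ofNat 5273645, Int.negSucc 3164186],62914560,4194304,[Int.negSucc 5, Int.ofNat 0, Int.ofNat 2054]⟩,⟨[Int.ofNat 0, Int.ofNat 0, Int.ofNat 30, Int.negSucc 9, Int.ofNat 5, Int.negSucc 2],60,4194304,[Int.ofNat 0, Int.ofNat 0, Int.ofNat 2048]⟩,2400724398330511424008346651118796800⟩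

theorem chkA5_0 : chkR1 DA5_0 LA5_0 muQ RtA5_0 = true := by decide +kernel

theorem cA5_0_3_0 : chunkOkM (LA5_0.ctx true true 117 7 256 1 32768 1024 16384 1024 262144) muQ true true 64 RtA5_0.Cx RtA5_0.CX RtA5_0.Ctp RtA5_0.Ce RtA5_0.CTp RtA5_0.CEr 0x011030311690307110110114033434344 = true := by decide +kernel

theorem cA5_0_2_0 : chunkOkM (LA5_0.ctx false true 106 3 128 1 32768 64 512 1024 262144) muQ false true 64 RtA5_0.Cx RtA5_0.CX RtA5_0.Ctn RtA5_0.Ce RtA5_0.CTp RtA5_0.CEr 0x0 = true := by decide +kernel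

theorem cA5_0_1_0 : chunkOkM (LA5_0.ctx true false 117 7 256 1 32768 1024 16384 1024 262144) muQ true false 64 RtA5_0.Cx RtA5_0.CX RtA5_0.Ctp RtA5_0.Ce RtA5_0.CTn RtA5_0.CEr 0x011030311690307110110114033434344 = true := by decide +kernel

theorem cA5_0_0_0 : chunkOkM (LA5_0.ctx false false 106 3 128 1 32768 64 512 1024 262144) muQ false false 64 RtA5_0.Cx RtA5_0.CX RtA5_0.Ctn RtA5_0.Ce RtA5_0.CTn RtA5_0.CEr 0x0 = true := by decide +kernel

theorem covA5_0 : LA5_0.Full muQ.val RtA5_0 := ⟨(LitT.cov_of_chunkM cA5_0_3_0), (LitT.cov_of_chunkM cA5_0_1_0), (LitT.cov_of_chunkM cA5_0_2_0), (LitT.cov_of_chunkM cA5_0_0_0)⟩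

noncomputable def LA0_1 : LitT := ⟨⟨2,1,1,1,1,1⟩, [[[[[530160025601,530155704384],[3813930958976,3929391759489]],[[18124761989120],[]]],[[[15266217984065],[9062380994561]],[[15266217984064],[]]]],[[[[18124757667840],[18998519398400,37700920934401]],[[],[]]],[[[],[]],[[],[]]]]], [[[[[12884901953,1964695879809],[36249523978241]],[[8797300981824,1964695879808],[]]],[[[4531190497281,36284932546624],[2415919104,29635274342464,30532435968065]],[[22125792460800],[]]]],[[[[27647761448961],[]],[[16651135221760],[]]],[[[],[]],[[],[]]]]]⟩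

def RtA0_1 : Roots := ⟨⟨0,1,16384⟩,⟨1,4,16384⟩,⟨0,5,512⟩,⟨0,5,512⟩,⟨0,11,131072⟩,⟨0,5,256⟩,⟨0,5,256⟩,⟨0,11,32768⟩⟩

noncomputable def DA0_1 : R1D := ⟨⟨[Int.ofNat 65536, Int.negSucc 65535, Int.ofNat 65545],65536,65545,65536,65536,[Int.ofNat 0, Int.negSucc 0]⟩,⟨[Int.ofNat 0, Int.ofNat 0, Int.ofNat 125829120, Int.negSucc 41943039, Int.ofNat 20971515, Int.negSucc 12595202],251658240,4194304,[Int.ofNat 0, Int.ofNat 1, Int.ofNat 2049]⟩,⟨[Int.ofNat 0, Int.ofNat 0, Int.ofNat 30, Int.negSucc 9, Int.ofNat 5, Int.negSucc 2],60,4194304,[Int.ofNat 0, Int.ofNat 0, Int.ofNat 2048]⟩,76823180746576365568267092835801497600⟩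

theorem chkA0_1 : chkR1 DA0_1 LA0_1 muQ RtA0_1 = true := by decide +kernel

theorem cA0_1_3_0 : chunkOkM (LA0_1.ctx true true 141 1 32768 5 32768 1024 4194304 1024 262144) muQ true true 64 RtA0_1.Cx RtA0_1.CX RtA0_1.Ctp RtA0_1.Ce RtA0_1.CTp RtA0_1.CEr 0x0000001266054444 = true := by decide +kernel

theorem cA0_1_2_0 : chunkOkM (LA0_1.ctx false true 142 1 32768 5 32768 1024 8388608 1024 262144) muQ false true 64 RtA0_1.Cx RtA0_1.CX RtA0_1.Ctn RtA0_1.Ce RtA0_1.CTp RtA0_1.CEr 0x000000012660544444 = true := by decide +kernel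

theorem cA0_1_1_0 : chunkOkM (LA0_1.ctx true false 134 1 32768 5 32768 1024 262144 512 65536) muQ true false 64 RtA0_1.Cx RtA0_1.CX RtA0_1.Ctp RtA0_1.Ce RtA0_1.CTn RtA0_1.CEr 0x0 = true := by decide +kernel

theorem cA0_1_0_0 : chunkOkM (LA0_1.ctx false false 134 1 32768 5 32768 1024 262144 512 65536) muQ false false 64 RtA0_1.Cx RtA0_1.CX RtA0_1.Ctn RtA0_1.Ce RtA0_1.CTn RtA0_1.CEr 0x0 = true := by decide +kernel

theorem covA0_1 : LA0_1.Full muQ.val RtA0_1 := ⟨(LitT.cov_of_chunkM cA0_1_3_0), (LitT.cov_of_chunkM cA0_1_1_0), (LitT.cov_of_chunkM cA0_1_2_0), (LitT.cov_of_chunkM cA0_1_0_0)⟩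

noncomputable def LA1_3 : LitT := ⟨⟨2,1,1,1,1,1⟩, [[[[[262774429057025,262763366580288],[1952732650930304,2015779891200129]],[[9279869288448000],[]]],[[[7816296153600065],[4649005875200001]],[[7816296153600064],[]]]],[[[[9279858225971200],[9718583277912064,19340590848000001]],[[],[]]],[[[],[]],[[],[]]]]], [[[[[6597069766721,1005923331072129],[18596023500800001]],[[4508547429695552,1005923331072128],[]]],[[[2319967322112001,18614170387742784],[9895604649984,15173260463308864,15663154560000065]],[[11337062181502976],[]]]],[[[[14159973984575489],[]],[[8524289697456128],[]]],[[[],[]],[[],[]]]]]⟩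

def RtA1_3 : Roots := ⟨⟨1,4,16384⟩,⟨1,4,1024⟩,⟨0,5,256⟩,⟨0,5,256⟩,⟨0,11,32768⟩,⟨0,5,64⟩,⟨0,5,64⟩,⟨0,11,2048⟩⟩

noncomputable def DA1_3 : R1D := ⟨⟨[Int.ofNat 8192, Int.negSucc 8191, Int.ofNat 8201],8192,8201,8192,8192,[Int.ofNat 0, Int.negSucc 0]⟩,⟨[Int.ofNat 0, Int.ofNat 0, Int.ofNat 125829120, Int.negSucc 41943039, Int.ofNat 20971475, Int.negSucc 12619802],251658240,4194304,[Int.ofNat 0, Int.ofNat 3, Int.ofNat 2051]⟩,⟨[Int.ofNat 0, Int.ofNat 0, Int.ofNat 6291456, Int.negSucc 2097151, Int.ofNat 1048575, Int.negSucc 630374],12582912,4194304,[Int.ofNat 0, Int.ofNat 2, Int.ofNat 2050]⟩,3933346854224709917095275153193036677120⟩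

theorem chkA1_3 : chkR1 DA1_3 LA1_3 muQ RtA1_3 = true := by decide +kernel

theorem cA1_3_3_0 : chunkOkM (LA1_3.ctx true true 140 5 32768 5 2048 1024 262144 1024 65536) muQ true true 64 RtA1_3.Cx RtA1_3.CX RtA1_3.Ctp RtA1_3.Ce RtA1_3.CTp RtA1_3.CEr 0x0012012001101260534456566 = true := by decide +kernel

theorem cA1_3_2_0 : chunkOkM (LA1_3.ctx false true 140 5 32768 5 2048 512 524288 1024 65536) muQ false true 64 RtA1_3.Cx RtA1_3.CX RtA1_3.Ctn RtA1_3.Ce RtA1_3.CTp RtA1_3.CEr 0x001201200001260544456566 = true := by decide +kernel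

theorem cA1_3_1_0 : chunkOkM (LA1_3.ctx true false 130 5 32768 5 2048 512 65536 128 4096) muQ true false 64 RtA1_3.Cx RtA1_3.CX RtA1_3.Ctp RtA1_3.Ce RtA1_3.CTn RtA1_3.CEr 0x0 = true := by decide +kernel

theorem cA1_3_0_0 : chunkOkM (LA1_3.ctx false false 130 5 32768 5 2048 512 65536 128 4096) muQ false false 64 RtA1_3.Cx RtA1_3.CX RtA1_3.Ctn RtA1_3.Ce RtA1_3.CTn RtA1_3.CEr 0x0 = true := by decide +kernel

theorem covA1_3 : LA1_3.Full muQ.val RtA1_3 := ⟨(LitT.cov_of_chunkM cA1_3_3_0), (LitT.cov_of_chunkM cA1_3_1_0), (LitT.cov_of_chunkM cA1_3_2_0), (LitT.cov_of_chunkM cA1_3_0_0)⟩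

noncomputable def LA1_18 : LitT := ⟨⟨2,1,1,1,1,1⟩, [[[[[309720963350592,2077896130688],[7892333095993472,1698926633042049]],[[26590769284382720],[]]],[[[4792264949760,22397010261504065],[3918245207736321]],[[22397010261504064],[]]]],[[[[37132510739251200],[38920883256639488,16300512289996801]],[[],[]]],[[[],[]],[[],[]]]]], [[[[[19169059799040,10212083920535553,26388279066689,2882397842350209],[750956325109760,15672980830945281]],[[18401426602459200,2882397842350208],[]]],[[[6647692321095681,72239074350080064],[586317104676864,61325561218867264,13201119108096065]],[[43450545526013952],[]]]],[[[[46056865360142337],[]],[[23055082107068416],[]]],[[[],[]],[[],[]]]]]⟩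

def RtA1_18 : Roots := ⟨⟨1,4,16384⟩,⟨1408,1541,1024⟩,⟨0,5,256⟩,⟨0,5,256⟩,⟨0,11,32768⟩,⟨0,3,2⟩,⟨0,1,2⟩,⟨0,17,8⟩⟩

noncomputable def DA1_18 : R1D := ⟨⟨[Int.ofNat 512, Int.negSucc 511, Int.ofNat 523],512,523,512,512,[Int.ofNat 0, Int.negSucc 0]⟩,⟨[Int.ofNat 0, Int.ofNat 0, Int.ofNat 1572864, Int.negSucc 524287, Int.ofNat 262095, Int.negSucc 153014],3145728,4194304,[Int.ofNat 0, Int.negSucc 27, Int.ofNat 2020]⟩,⟨[Int.ofNat 0, Int.ofNat 0, Int.ofNat 125818290, Int.negSucc 42367309, Int.ofNat 15023065, Int.negSucc 2656442],251658240,268435456,[Int.negSucc 151, Int.negSucc 9007, Int.ofNat 7528]⟩,15364636149315273113653418567160299520⟩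

theorem chkA1_18 : chkR1 DA1_18 LA1_18 muQ RtA1_18 = true := by decide +kernel

theorem cA1_18_3_0 : chunkOkM (LA1_18.ctx true true 138 5 32768 12195 8192 2048 65536 723 2023) muQ true true 64 RtA1_18.Cx RtA1_18.CX RtA1_18.Ctp RtA1_18.Ce RtA1_18.CTp RtA1_18.CEr 0x020505228228030202020126028030312602855571204c124a5086a64a56085612124a51202058a1204c512124a5568512661264a54256a6425 = true := by decide +kernel

theorem cA1_18_2_0 : chunkOkM (LA1_18.ctx false true 136 5 32768 6031 4096 1024 65536 723 1003) muQ false true 64 RtA1_18.Cx RtA1_18.CX RtA1_18.Ctn RtA1_18.Ce RtA1_18.CTp RtA1_18.CEr 0x002020200126028355511304c5612124a501211304c568512661264a54256a6425 = true := by decide +kernel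

theorem cA1_18_1_0 : chunkOkM (LA1_18.ctx true false 48 1 1 1 1 1 1 1 1) muQ true false 64 RtA1_18.Cx RtA1_18.CX RtA1_18.Ctp RtA1_18.Ce RtA1_18.CTn RtA1_18.CEr 0x4a = true := by decide +kernel

theorem cA1_18_0_0 : chunkOkM (LA1_18.ctx false false 48 1 1 1 1 1 1 1 1) muQ false false 64 RtA1_18.Cx RtA1_18.CX RtA1_18.Ctn RtA1_18.Ce RtA1_18.CTn RtA1_18.CEr 0x4a = true := by decide +kernel

theorem covA1_18 : LA1_18.Full muQ.val RtA1_18 := ⟨(LitT.cov_of_chunkM cA1_18_3_0), (LitT.cov_of_chunkM cA1_18_1_0), (LitT.cov_of_chunkM cA1_18_2_0), (LitT.cov_of_chunkM cA1_18_0_0)⟩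

noncomputable def LA0_16 : LitT := ⟨⟨2,1,1,1,1,1⟩, [[[[[47124106830676032,237196735856768],[506496276397080704,123315919312404609]],[[1784896727401103360],[]]],[[[547048327741440,1503392018929152065],[284404282378158081]],[[1503392018929152064],[]]]],[[[[2377760920700928000],[2531265428351172608,1183166252862259201]],[[],[]]],[[[],[]],[[],[]]]]], [[[[[2188193310965760,543464279949443073,1688849860264001,193480016349143169],[60856207073607680,1137617129512632321]],[[1164180503675273280,193480016349143168],[]]],[[[446224181850275841,4674589103957483584],[7303946368450560,3935612958490828864,958198021684224065]],[[2774585189200822272],[]]]],[[[[3020542822700834817],[]],[[1565317193106743296],[]]],[[[],[]],[[],[]]]]]⟩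

def RtA0_16 : Roots := ⟨⟨0,1,16384⟩,⟨4,5,4⟩,⟨0,5,512⟩,⟨0,5,512⟩,⟨0,11,131072⟩,⟨0,11,8⟩,⟨0,1,2⟩,⟨0,7,4⟩⟩

noncomputable def DA0_16 : R1D := ⟨⟨[Int.ofNat 512, Int.negSucc 511, Int.ofNat 517],512,1034,1024,1024,[Int.ofNat 0, Int.negSucc 0]⟩,⟨[Int.ofNat 0, Int.ofNat 0, Int.ofNat 125829120, Int.negSucc 41943039, Int.ofNat 20970075, Int.negSucc 12374882],251658240,4194304,[Int.ofNat 0, Int.negSucc 16, Int.ofNat 2031]⟩,⟨[Int.ofNat 0, Int.ofNat 0, Int.ofNat 8051827410, Int.negSucc 2718736669, Int.ofNat 1008418345, Int.negSucc 192816866],16106127360,268435456,[Int.negSucc 202, Int.negSucc 8569, Int.ofNat 8017]⟩,1229170891945221849092273485372823961600⟩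

theorem chkA0_16 : chkR1 DA0_16 LA0_16 muQ RtA0_16 = true := by decide +kernel

theorem cA0_16_3_0 : chunkOkM (LA0_16.ctx true true 136 1 32768 159 128 1024 262144 671 189) muQ true true 64 RtA0_16.Cx RtA0_16.CX RtA0_16.Ctp RtA0_16.Ce RtA0_16.CTp RtA0_16.CEr 0x0205054250808082286a0205812671404c50202055058612124a5124a50886a6512661264a5425 = true := by decide +kernel

theorem cA0_16_2_0 : chunkOkM (LA0_16.ctx false true 133 1 32768 37 32 1024 262144 319 189) muQ false true 64 RtA0_16.Cx RtA0_16.CX RtA0_16.Ctn RtA0_16.Ce RtA0_16.CTp RtA0_16.CEr 0x06a0205812661404c5020505088612124a5124a50886a6512661264a5425 = true := by decide +kernel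

theorem cA0_16_1_0 : chunkOkM (LA0_16.ctx true false 54 1 1 1 1 1 1 1 1) muQ true false 64 RtA0_16.Cx RtA0_16.CX RtA0_16.Ctp RtA0_16.Ce RtA0_16.CTn RtA0_16.CEr 0x4a = true := by decide +kernel

theorem cA0_16_0_0 : chunkOkM (LA0_16.ctx false false 54 1 1 1 1 1 1 1 1) muQ false false 64 RtA0_16.Cx RtA0_16.CX RtA0_16.Ctn RtA0_16.Ce RtA0_16.CTn RtA0_16.CEr 0x4a = true := by decide +kernel

theorem covA0_16 : LA0_16.Full muQ.val RtA0_16 := ⟨(LitT.cov_of_chunkM cA0_16_3_0), (LitT.cov_of_chunkM cA0_16_1_0), (LitT.cov_of_chunkM cA0_16_2_0), (LitT.cov_of_chunkM cA0_16_0_0)⟩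

noncomputable def LA0_2 : LitT := ⟨⟨2,1,1,1,1,1⟩, [[[[[67542395650049,67550692507712],[488183162732672,500999367966849]],[[2319960684625920],[]]],[[[1954068447744065],[1155458001797121]],[[1954068447744064],[]]]],[[[[2319968981483520],[2431501245349888,4806885827788801]],[[],[]]],[[[],[]],[[],[]]]]], [[[[[1649267441729,251480113275009],[4621832007188481]],[[1126209144488000,251480113275008],[]]],[[[579990171156481,4644471365959744],[618475290624,3793315115827264,3892900494336065]],[[2832408460132352],[]]]],[[[[3539058879963137],[]],[[2131297449353216],[]]],[[[],[]],[[],[]]]]]⟩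

def RtA0_2 : Roots := ⟨⟨0,1,16384⟩,⟨1,4,4096⟩,⟨0,5,512⟩,⟨0,5,512⟩,⟨0,11,131072⟩,⟨0,5,128⟩,⟨0,5,128⟩,⟨0,11,8192⟩⟩

noncomputable def DA0_2 : R1D := ⟨⟨[Int.ofNat 32768, Int.negSucc 32767, Int.ofNat 32777],32768,32777,32768,32768,[Int.ofNat 0, Int.negSucc 0]⟩,⟨[Int.ofNat 0, Int.ofNat 0, Int.ofNat 125829120, Int.negSucc 41943039, Int.ofNat 20971515, Int.negSucc 12595202],251658240,4194304,[Int.ofNat 0, Int.ofNat 1, Int.ofNat 2049]⟩,⟨[Int.ofNat 0, Int.ofNat 0, Int.ofNat 7864320, Int.negSucc 2621439, Int.ofNat 1310715, Int.negSucc 783362],15728640,4194304,[Int.ofNat 0, Int.negSucc 3, Int.ofNat 2044]⟩,78666937084494198341905503063860733542400⟩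

theorem chkA0_2 : chkR1 DA0_2 LA0_2 muQ RtA0_2 = true := by decide +kernel

theorem cA0_2_3_0 : chunkOkM (LA0_2.ctx true true 143 1 32768 5 8192 1024 1048576 1024 131072) muQ true true 64 RtA0_2.Cx RtA0_2.CX RtA0_2.Ctp RtA0_2.Ce RtA0_2.CTp RtA0_2.CEr 0x00120001260544566 = true := by decide +kernel

theorem cA0_2_2_0 : chunkOkM (LA0_2.ctx false true 144 1 32768 5 8192 1024 2097152 1024 131072) muQ false true 64 RtA0_2.Cx RtA0_2.CX RtA0_2.Ctn RtA0_2.Ce RtA0_2.CTp RtA0_2.CEr 0x0012000012605444566 = true := by decide +kernel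

theorem cA0_2_1_0 : chunkOkM (LA0_2.ctx true false 136 1 32768 5 8192 1024 262144 256 16384) muQ true false 64 RtA0_2.Cx RtA0_2.CX RtA0_2.Ctp RtA0_2.Ce RtA0_2.CTn RtA0_2.CEr 0x0 = true := by decide +kernel

theorem cA0_2_0_0 : chunkOkM (LA0_2.ctx false false 136 1 32768 5 8192 1024 262144 256 16384) muQ false false 64 RtA0_2.Cx RtA0_2.CX RtA0_2.Ctn RtA0_2.Ce RtA0_2.CTn RtA0_2.CEr 0x0 = true := by decide +kernel

theorem covA0_2 : LA0_2.Full muQ.val RtA0_2 := ⟨(LitT.cov_of_chunkM cA0_2_3_0), (LitT.cov_of_chunkM cA0_2_1_0), (LitT.cov_of_chunkM cA0_2_2_0), (LitT.cov_of_chunkM cA0_2_0_0)⟩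

noncomputable def LA4_2 : LitT := ⟨⟨2,1,1,1,1,1⟩, [[[[[233087615107073,242158846083136],[1952732650930304,2007921107681409]],[[9279869288448000],[]]],[[[7816296153600065],[4630881113210881]],[[7816296153600064],[]]]],[[[[9288940519424000],[9688896463962112,19265189006131201]],[[],[]]],[[[],[]],[[],[]]]]], [[[[[13274972160,6597069766721,1005923331072129],[18523524452843521]],[[4523390836670528,1005923331072128],[]]],[[[4424990720,2319967322112001,18559756276858944],[39582418599936,15173260463308864,15602089688064065]],[[11366748995452928],[]]]],[[[[14174817391550465],[]],[[8520578845712384],[]]],[[[],[]],[[],[]]]]]⟩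

def RtA4_2 : Roots := ⟨⟨1,4,256⟩,⟨1,4,4096⟩,⟨0,5,32⟩,⟨0,5,32⟩,⟨0,11,512⟩,⟨0,5,128⟩,⟨0,5,128⟩,⟨0,11,8192⟩⟩

noncomputable def DA4_2 : R1D := ⟨⟨[Int.ofNat 2048, Int.negSucc 2047, Int.ofNat 2057],2048,2057,2048,2048,[Int.ofNat 0, Int.negSucc 0]⟩,⟨[Int.ofNat 0, Int.ofNat 0, Int.ofNat 62914545, Int.negSucc 20971524, Int.ofNat 10496000, Int.negSucc 6291455],125829120,4194304,[Int.negSucc 0, Int.negSucc 0, Int.ofNat 2048]⟩,⟨[Int.ofNat 0, Int.ofNat 0, Int.ofNat 31457280, Int.negSucc 10485759, Int.ofNat 5242875, Int.negSucc 3139586],62914560,4194304,[Int.ofNat 0, Int.negSucc 1, Int.ofNat 2046]⟩,2458341783890443698184546970745647923200⟩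

theorem chkA4_2 : chkR1 DA4_2 LA4_2 muQ RtA4_2 = true := by decide +kernel

theorem cA4_2_3_0 : chunkOkM (LA4_2.ctx true true 125 5 512 5 8192 2048 65536 256 16384) muQ true true 64 RtA4_2.Cx RtA4_2.CX RtA4_2.Ctp RtA4_2.Ce RtA4_2.CTp RtA4_2.CEr 0x0011011011011011403343434344 = true := by decide +kernel

theorem cA4_2_2_0 : chunkOkM (LA4_2.ctx false true 114 5 512 5 8192 64 1024 256 16384) muQ false true 64 RtA4_2.Cx RtA4_2.CX RtA4_2.Ctn RtA4_2.Ce RtA4_2.CTp RtA4_2.CEr 0x0 = true := by decide +kernel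

theorem cA4_2_1_0 : chunkOkM (LA4_2.ctx true false 123 5 512 5 8192 1024 32768 256 16384) muQ true false 64 RtA4_2.Cx RtA4_2.CX RtA4_2.Ctp RtA4_2.Ce RtA4_2.CTn RtA4_2.CEr 0x00110110110114033434344 = true := by decide +kernel

theorem cA4_2_0_0 : chunkOkM (LA4_2.ctx false false 114 5 512 5 8192 64 1024 256 16384) muQ false false 64 RtA4_2.Cx RtA4_2.CX RtA4_2.Ctn RtA4_2.Ce RtA4_2.CTn RtA4_2.CEr 0x0 = true := by decide +kernel

theorem covA4_2 : LA4_2.Full muQ.val RtA4_2 := ⟨(LitT.cov_of_chunkM cA4_2_3_0), (LitT.cov_of_chunkM cA4_2_1_0), (LitT.cov_of_chunkM cA4_2_2_0), (LitT.cov_of_chunkM cA4_2_0_0)⟩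

noncomputable def LA0_4 : LitT := ⟨⟨2,1,1,1,1,1⟩, [[[[[1123446314500097,1050991516450880,23023779968],[7810961302093952,8023835240448129]],[[37191825752064000],[]]],[[[53099888640,31326122764800065],[18505421815808001]],[[31326122764800064],[]]]],[[[[37119591857848320],[38874627650093056,76985446225920001]],[[],[]]],[[[],[]],[[],[]]]]], [[[[[212399554560,26388279066689,4031535799296129],[283199406080,74021687263232001]],[[18034189718782016,4031535799296128],[]]],[[[9297956438016001,73949491016007744],[39511618748416,60693280387891264,62347368422400065]],[[45366335875579904],[]]]],[[[[56715141306621953],[]],[[34172404158144512],[]]],[[[],[]],[[],[]]]]]⟩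

def RtA0_4 : Roots := ⟨⟨0,1,16384⟩,⟨1,4,256⟩,⟨0,5,512⟩,⟨0,5,512⟩,⟨0,11,131072⟩,⟨0,5,32⟩,⟨0,5,32⟩,⟨0,11,512⟩⟩

noncomputable def DA0_4 : R1D := ⟨⟨[Int.ofNat 8192, Int.negSucc 8191, Int.ofNat 8201],8192,8201,8192,8192,[Int.ofNat 0, Int.negSucc 0]⟩,⟨[Int.ofNat 0, Int.ofNat 0, Int.ofNat 7864320, Int.negSucc 2621439, Int.ofNat 1310715, Int.negSucc 783362],15728640,4194304,[Int.ofNat 0, Int.negSucc 3, Int.ofNat 2044]⟩,⟨[Int.ofNat 0, Int.ofNat 0, Int.ofNat 25165800, Int.negSucc 8388639, Int.ofNat 4202475, Int.negSucc 2509214],50331648,4194304,[Int.negSucc 1, Int.negSucc 4, Int.ofNat 2045]⟩,245834178389044369818454697074564792320⟩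

theorem chkA0_4 : chkR1 DA0_4 LA0_4 muQ RtA0_4 = true := by decide +kernel

theorem cA0_4_3_0 : chunkOkM (LA0_4.ctx true true 139 1 32768 5 512 1024 262144 1024 32768) muQ true true 64 RtA0_4.Cx RtA0_4.CX RtA0_4.Ctp RtA0_4.Ce RtA0_4.CTp RtA0_4.CEr 0x00120120120126055656566 = true := by decide +kernel

theorem cA0_4_2_0 : chunkOkM (LA0_4.ctx false true 139 1 32768 5 512 1024 262144 1024 32768) muQ false true 64 RtA0_4.Cx RtA0_4.CX RtA0_4.Ctn RtA0_4.Ce RtA0_4.CTp RtA0_4.CEr 0x00120120120126055656566 = true := by decide +kernel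

theorem cA0_4_1_0 : chunkOkM (LA0_4.ctx true false 130 1 32768 5 512 1024 262144 64 1024) muQ true false 64 RtA0_4.Cx RtA0_4.CX RtA0_4.Ctp RtA0_4.Ce RtA0_4.CTn RtA0_4.CEr 0x0 = true := by decide +kernel

theorem cA0_4_0_0 : chunkOkM (LA0_4.ctx false false 130 1 32768 5 512 1024 262144 64 1024) muQ false false 64 RtA0_4.Cx RtA0_4.CX RtA0_4.Ctn RtA0_4.Ce RtA0_4.CTn RtA0_4.CEr 0x0 = true := by decide +kernel

theorem covA0_4 : LA0_4.Full muQ.val RtA0_4 := ⟨(LitT.cov_of_chunkM cA0_4_3_0), (LitT.cov_of_chunkM cA0_4_1_0), (LitT.cov_of_chunkM cA0_4_2_0), (LitT.cov_of_chunkM cA0_4_0_0)⟩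

noncomputable def LA1_4 : LitT := ⟨⟨2,1,1,1,1,1⟩, [[[[[1047773671587841,1011515297628224,5755945088],[88499814400,7810921010479232,8070987941560449]],[[37155735527751680],[]]],[[[13274972160,31295724504576065],[18614170387742721]],[[31295724504576064],[]]]],[[[[37119532379750400],[38834658649784320,77437857277132801]],[[],[]]],[[[],[]],[[],[]]]]], [[[[[53099888640,26388279066689,4027623675371649],[74456681550970881]],[[18053980928081984,4027623675371648],[]]],[[[9288933881937921,74384138728448064],[79186962153472,60692967311155264,62713757654016065]],[[45396895738101760],[]]]],[[[[56697397272862721],[]],[[34129921112760320],[]]],[[[],[]],[[],[]]]]]⟩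

def RtA1_4 : Roots := ⟨⟨1,4,16384⟩,⟨1,4,256⟩,⟨0,5,256⟩,⟨0,5,256⟩,⟨0,11,32768⟩,⟨0,5,32⟩,⟨0,5,32⟩,⟨0,11,512⟩⟩

noncomputable def DA1_4 : R1D := ⟨⟨[Int.ofNat 4096, Int.negSucc 4095, Int.ofNat 4105],4096,4105,4096,4096,[Int.ofNat 0, Int.negSucc 0]⟩,⟨[Int.ofNat 0, Int.ofNat 0, Int.ofNat 6291456, Int.negSucc 2097151, Int.ofNat 1048575, Int.negSucc 630374],12582912,4194304,[Int.ofNat 0, Int.ofNat 2, Int.ofNat 2050]⟩,⟨[Int.ofNat 0, Int.ofNat 0, Int.ofNat 125829090, Int.negSucc 41942989, Int.ofNat 20991985, Int.negSucc 12619802],251658240,4194304,[Int.negSucc 0, Int.ofNat 2, Int.ofNat 2051]⟩,491668356778088739636909394149129584640⟩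

theorem chkA1_4 : chkR1 DA1_4 LA1_4 muQ RtA1_4 = true := by decide +kernel

theorem cA1_4_3_0 : chunkOkM (LA1_4.ctx true true 136 5 32768 5 512 512 65536 1024 32768) muQ true true 64 RtA1_4.Cx RtA1_4.CX RtA1_4.Ctp RtA1_4.Ce RtA1_4.CTp RtA1_4.CEr 0x00120120120126055656566 = true := by decide +kernel

theorem cA1_4_2_0 : chunkOkM (LA1_4.ctx false true 136 5 32768 5 512 512 65536 1024 32768) muQ false true 64 RtA1_4.Cx RtA1_4.CX RtA1_4.Ctn RtA1_4.Ce RtA1_4.CTp RtA1_4.CEr 0x00120120120126055656566 = true := by decide +kernel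

theorem cA1_4_1_0 : chunkOkM (LA1_4.ctx true false 127 5 32768 5 512 512 65536 64 1024) muQ true false 64 RtA1_4.Cx RtA1_4.CX RtA1_4.Ctp RtA1_4.Ce RtA1_4.CTn RtA1_4.CEr 0x0 = true := by decide +kernel

theorem cA1_4_0_0 : chunkOkM (LA1_4.ctx false false 127 5 32768 5 512 512 65536 64 1024) muQ false false 64 RtA1_4.Cx RtA1_4.CX RtA1_4.Ctn RtA1_4.Ce RtA1_4.CTn RtA1_4.CEr 0x0 = true := by decide +kernel

theorem covA1_4 : LA1_4.Full muQ.val RtA1_4 := ⟨(LitT.cov_of_chunkM cA1_4_3_0), (LitT.cov_of_chunkM cA1_4_1_0), (LitT.cov_of_chunkM cA1_4_2_0), (LitT.cov_of_chunkM cA1_4_0_0)⟩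

noncomputable def LA4_1 : LitT := ⟨⟨2,1,1,1,1,1⟩, [[[[[1011541847572481,1084076295454784],[7810930603720832,8039537458299009]],[[37119503703736320],[]]],[[[31265206977024065],[18541635939860481]],[[31265206977024064],[]]]],[[[[37192038151618560],[38834750693048320,77136102640435201]],[[],[]]],[[[],[]],[[],[]]]]], [[[[[212399554560,26388279066689,4023696202260609],[74166543759441921]],[[18053980928081984,4023696202260608],[]]],[[[9279875925934081,74311541855354944],[79164837199872,60693041853235264,62469378898944065]],[[45387837782097920],[]]]],[[[[56659714760581121],[]],[[34092238600478720],[]]],[[[],[]],[[],[]]]]]⟩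

def RtA4_1 : Roots := ⟨⟨1,4,256⟩,⟨1,4,16384⟩,⟨0,5,32⟩,⟨0,5,32⟩,⟨0,11,512⟩,⟨0,5,256⟩,⟨0,5,256⟩,⟨0,11,32768⟩⟩

noncomputable def DA4_1 : R1D := ⟨⟨[Int.ofNat 4096, Int.negSucc 4095, Int.ofNat 4105],4096,4105,4096,4096,[Int.ofNat 0, Int.negSucc 0]⟩,⟨[Int.ofNat 0, Int.ofNat 0, Int.ofNat 125829000, Int.negSucc 41943039, Int.ofNat 21012495, Int.negSucc 12595202],251658240,4194304,[Int.negSucc 1, Int.negSucc 0, Int.ofNat 2049]⟩,⟨[Int.ofNat 0, Int.ofNat 0, Int.ofNat 125829120, Int.negSucc 41943039, Int.ofNat 20971515, Int.negSucc 12570626],251658240,4194304,[Int.ofNat 0, Int.negSucc 0, Int.ofNat 2047]⟩,9833367135561774792738187882982591692800⟩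

theorem chkA4_1 : chkR1 DA4_1 LA4_1 muQ RtA4_1 = true := by decide +kernel

theorem cA4_1_3_0 : chunkOkM (LA4_1.ctx true true 130 5 512 5 32768 1024 32768 512 65536) muQ true true 64 RtA4_1.Cx RtA4_1.CX RtA4_1.Ctp RtA4_1.Ce RtA4_1.CTp RtA4_1.CEr 0x00110110110114033434344 = true := by decide +kernel

theorem cA4_1_2_0 : chunkOkM (LA4_1.ctx false true 121 5 512 5 32768 64 1024 512 65536) muQ false true 64 RtA4_1.Cx RtA4_1.CX RtA4_1.Ctn RtA4_1.Ce RtA4_1.CTp RtA4_1.CEr 0x0 = true := by decide +kernel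

theorem cA4_1_1_0 : chunkOkM (LA4_1.ctx true false 130 5 512 5 32768 1024 32768 512 65536) muQ true false 64 RtA4_1.Cx RtA4_1.CX RtA4_1.Ctp RtA4_1.Ce RtA4_1.CTn RtA4_1.CEr 0x00110110110114033434344 = true := by decide +kernel

theorem cA4_1_0_0 : chunkOkM (LA4_1.ctx false false 121 5 512 5 32768 64 1024 512 65536) muQ false false 64 RtA4_1.Cx RtA4_1.CX RtA4_1.Ctn RtA4_1.Ce RtA4_1.CTn RtA4_1.CEr 0x0 = true := by decide +kernel

theorem covA4_1 : LA4_1.Full muQ.val RtA4_1 := ⟨(LitT.cov_of_chunkM cA4_1_3_0), (LitT.cov_of_chunkM cA4_1_1_0), (LitT.cov_of_chunkM cA4_1_2_0), (LitT.cov_of_chunkM cA4_1_0_0)⟩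

noncomputable def LA4_0 : LitT := ⟨⟨2,1,1,1,1,1⟩, [[[[[65686969778177,70215394656320],[488183162732672,500999367966849]],[[2319960684625920],[]]],[[[1954068447744065],[1155458001797121]],[[1954068447744064],[]]]],[[[[2324489109504000],[2429645819478016,4806885827788801]],[[],[]]],[[[],[]],[[],[]]]]], [[[[[13274972160,1649267441729,251480113275009],[4621832007188481]],[[1127136857423936,251480113275008],[]]],[[[17699962880,579990171156481,4626355453952064],[2473901162496,3793315115827264,3892900494336065]],[[2834263886004224],[]]]],[[[[3539986592899073],[]],[[2131065521119232],[]]],[[[],[]],[[],[]]]]]⟩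

def RtA4_0 : Roots := ⟨⟨1,4,256⟩,⟨0,1,16384⟩,⟨0,5,32⟩,⟨0,5,32⟩,⟨0,11,512⟩,⟨0,5,512⟩,⟨0,5,512⟩,⟨0,11,131072⟩⟩

noncomputable def DA4_0 : R1D := ⟨⟨[Int.ofNat 8192, Int.negSucc 8191, Int.ofNat 8201],8192,8201,8192,8192,[Int.ofNat 0, Int.negSucc 0]⟩,⟨[Int.ofNat 0, Int.ofNat 0, Int.ofNat 25165800, Int.negSucc 8388639, Int.ofNat 4202475, Int.negSucc 2509214],50331648,4194304,[Int.negSucc 1, Int.negSucc 4, Int.ofNat 2045]⟩,⟨[Int.ofNat 0, Int.ofNat 0, Int.ofNat 7864320, Int.negSucc 2621439, Int.ofNat 1310715, Int.negSucc 783362],15728640,4194304,[Int.ofNat 0, Int.negSucc 3, Int.ofNat 2044]⟩,3933346854224709917095275153193036677120⟩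

theorem chkA4_0 : chkR1 DA4_0 LA4_0 muQ RtA4_0 = true := by decide +kernel

theorem cA4_0_3_0 : chunkOkM (LA4_0.ctx true true 129 5 512 1 32768 1024 32768 1024 262144) muQ true true 64 RtA4_0.Cx RtA4_0.CX RtA4_0.Ctp RtA4_0.Ce RtA4_0.CTp RtA4_0.CEr 0x00110110110114033434344 = true := by decide +kernel

theorem cA4_0_2_0 : chunkOkM (LA4_0.ctx false true 120 5 512 1 32768 64 1024 1024 262144) muQ false true 64 RtA4_0.Cx RtA4_0.CX RtA4_0.Ctn RtA4_0.Ce RtA4_0.CTp RtA4_0.CEr 0x0 = true := by decide +kernel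

theorem cA4_0_1_0 : chunkOkM (LA4_0.ctx true false 129 5 512 1 32768 1024 32768 1024 262144) muQ true false 64 RtA4_0.Cx RtA4_0.CX RtA4_0.Ctp RtA4_0.Ce RtA4_0.CTn RtA4_0.CEr 0x00110110110114033434344 = true := by decide +kernel

theorem cA4_0_0_0 : chunkOkM (LA4_0.ctx false false 120 5 512 1 32768 64 1024 1024 262144) muQ false false 64 RtA4_0.Cx RtA4_0.CX RtA4_0.Ctn RtA4_0.Ce RtA4_0.CTn RtA4_0.CEr 0x0 = true := by decide +kernel

theorem covA4_0 : LA4_0.Full muQ.val RtA4_0 := ⟨(LitT.cov_of_chunkM cA4_0_3_0), (LitT.cov_of_chunkM cA4_0_1_0), (LitT.cov_of_chunkM cA4_0_2_0), (LitT.cov_of_chunkM cA4_0_0_0)⟩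

noncomputable def LA0_3 : LitT := ⟨⟨2,1,1,1,1,1⟩, [[[[[1070915475472385,1070888925528128],[7810930603720832,8055255025336449]],[[37119503703736320],[]]],[[[31265206977024065],[18577885463838721]],[[31265206977024064],[]]]],[[[[37119477153792000],[38894124320948224,77286906324172801]],[[],[]]],[[[],[]],[[],[]]]]], [[[[[26388279066689,4023696202260609],[74311541855354881]],[[18024294114132032,4023696202260608],[]]],[[[9279875925934081,74384094003200064],[19791209299968,60693041853235264,62591508642816065]],[[45328464154198016],[]]]],[[[[56630027946631169],[]],[[34099660303966208],[]]],[[[],[]],[[],[]]]]]⟩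

def RtA0_3 : Roots := ⟨⟨0,1,16384⟩,⟨1,4,1024⟩,⟨0,5,512⟩,⟨0,5,512⟩,⟨0,11,131072⟩,⟨0,5,64⟩,⟨0,5,64⟩,⟨0,11,2048⟩⟩

noncomputable def DA0_3 : R1D := ⟨⟨[Int.ofNat 16384, Int.negSucc 16383, Int.ofNat 16393],16384,16393,16384,16384,[Int.ofNat 0, Int.negSucc 0]⟩,⟨[Int.ofNat 0, Int.ofNat 0, Int.ofNat 6291456, Int.negSucc 2097151, Int.ofNat 1048575, Int.negSucc 630374],12582912,4194304,[Int.ofNat 0, Int.ofNat 2, Int.ofNat 2050]⟩,⟨[Int.ofNat 0, Int.ofNat 0, Int.ofNat 125829120, Int.negSucc 41943039, Int.ofNat 20971515, Int.negSucc 12595202],251658240,4194304,[Int.ofNat 0, Int.ofNat 1, Int.ofNat 2049]⟩,1966673427112354958547637576596518338560⟩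

theorem chkA0_3 : chkR1 DA0_3 LA0_3 muQ RtA0_3 = true := by decide +kernel

theorem cA0_3_3_0 : chunkOkM (LA0_3.ctx true true 142 1 32768 5 2048 1024 262144 1024 65536) muQ true true 64 RtA0_3.Cx RtA0_3.CX RtA0_3.Ctp RtA0_3.Ce RtA0_3.CTp RtA0_3.CEr 0x001201201260556566 = true := by decide +kernel

theorem cA0_3_2_0 : chunkOkM (LA0_3.ctx false true 143 1 32768 5 2048 1024 524288 1024 65536) muQ false true 64 RtA0_3.Cx RtA0_3.CX RtA0_3.Ctn RtA0_3.Ce RtA0_3.CTp RtA0_3.CEr 0x00120120012605456566 = true := by decide +kernel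

theorem cA0_3_1_0 : chunkOkM (LA0_3.ctx true false 135 1 32768 5 2048 1024 262144 128 4096) muQ true false 64 RtA0_3.Cx RtA0_3.CX RtA0_3.Ctp RtA0_3.Ce RtA0_3.CTn RtA0_3.CEr 0x0 = true := by decide +kernel

theorem cA0_3_0_0 : chunkOkM (LA0_3.ctx false false 135 1 32768 5 2048 1024 262144 128 4096) muQ false false 64 RtA0_3.Cx RtA0_3.CX RtA0_3.Ctn RtA0_3.Ce RtA0_3.CTn RtA0_3.CEr 0x0 = true := by decide +kernel

theorem covA0_3 : LA0_3.Full muQ.val RtA0_3 := ⟨(LitT.cov_of_chunkM cA0_3_3_0), (LitT.cov_of_chunkM cA0_3_1_0), (LitT.cov_of_chunkM cA0_3_2_0), (LitT.cov_of_chunkM cA0_3_0_0)⟩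

noncomputable def LA3_0 : LitT := ⟨⟨2,1,1,1,1,1⟩, [[[[[1070844675620865,1107173849432128],[7810930603720832,8070987941560449]],[[37119432903884800],[]]],[[[53099888640,31265147343360065],[18614170387742721]],[[31265147343360064],[]]]],[[[[37155762077696000],[38894124320948224,77437857277132801]],[[],[]]],[[[],[]],[[],[]]]]], [[[[[53099888640,26388279066689,4023688527667329],[74456681550970881]],[[18024294114132032,4023688527667328],[]]],[[[9279858225971201,74384094003200064],[19791209299968,60693041853235264,62713757654016065]],[[45328446454235136],[]]]],[[[[56629954312019969],[]],[[34099586669355008],[]]],[[[],[]],[[],[]]]]]⟩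

def RtA3_0 : Roots := ⟨⟨1,4,1024⟩,⟨0,1,16384⟩,⟨0,5,64⟩,⟨0,5,64⟩,⟨0,11,2048⟩,⟨0,5,512⟩,⟨0,5,512⟩,⟨0,11,131072⟩⟩

noncomputable def DA3_0 : R1D := ⟨⟨[Int.ofNat 16384, Int.negSucc 16383, Int.ofNat 16393],16384,16393,16384,16384,[Int.ofNat 0, Int.negSucc 0]⟩,⟨[Int.ofNat 0, Int.ofNat 0, Int.ofNat 12582909, Int.negSucc 4194300, Int.ofNat 2099200, Int.negSucc 1260749],25165824,4194304,[Int.negSucc 0, Int.ofNat 1, Int.ofNat 2050]⟩,⟨[Int.ofNat 0, Int.ofNat 0, Int.ofNat 125829120, Int.negSucc 41943039, Int.ofNat 20971475, Int.negSucc 12619802],251658240,4194304,[Int.ofNat 0, Int.ofNat 3, Int.ofNat 2051]⟩,3933346854224709917095275153193036677120⟩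

theorem chkA3_0 : chkR1 DA3_0 LA3_0 muQ RtA3_0 = true := by decide +kernel

theorem cA3_0_3_0 : chunkOkM (LA3_0.ctx true true 138 5 2048 1 32768 1024 65536 1024 262144) muQ true true 64 RtA3_0.Cx RtA3_0.CX RtA3_0.Ctp RtA3_0.Ce RtA3_0.CTp RtA3_0.CEr 0x001101101140334344 = true := by decide +kernel

theorem cA3_0_2_0 : chunkOkM (LA3_0.ctx false true 131 5 2048 1 32768 128 4096 1024 262144) muQ false true 64 RtA3_0.Cx RtA3_0.CX RtA3_0.Ctn RtA3_0.Ce RtA3_0.CTp RtA3_0.CEr 0x0 = true := by decide +kernel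

theorem cA3_0_1_0 : chunkOkM (LA3_0.ctx true false 138 5 2048 1 32768 1024 65536 1024 262144) muQ true false 64 RtA3_0.Cx RtA3_0.CX RtA3_0.Ctp RtA3_0.Ce RtA3_0.CTn RtA3_0.CEr 0x001101101140334344 = true := by decide +kernel

theorem cA3_0_0_0 : chunkOkM (LA3_0.ctx false false 131 5 2048 1 32768 128 4096 1024 262144) muQ false false 64 RtA3_0.Cx RtA3_0.CX RtA3_0.Ctn RtA3_0.Ce RtA3_0.CTn RtA3_0.CEr 0x0 = true := by decide +kernel

theorem covA3_0 : LA3_0.Full muQ.val RtA3_0 := ⟨(LitT.cov_of_chunkM cA3_0_3_0), (LitT.cov_of_chunkM cA3_0_1_0), (LitT.cov_of_chunkM cA3_0_2_0), (LitT.cov_of_chunkM cA3_0_0_0)⟩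

noncomputable def LA3_1 : LitT := ⟨⟨2,1,1,1,1,1⟩, [[[[[1051124266172417,1086825091301440],[7810930603720832,8055255025336449]],[[37119503703736320],[]]],[[[300899368960,31265206977024065],[18577885463838721]],[[31265206977024064],[]]]],[[[[37155204528865280],[38874333111648256,77286906324172801]],[[],[]]],[[[],[]],[[],[]]]]], [[[[[53099888640,26388279066689,4023696202260609],[74311541855354881]],[[18034189718782016,4023696202260608],[]]],[[[9279875925934081,74892950236037184],[39582418599936,60693041853235264,62591508642816065]],[[45348255363497984],[]]]],[[[[56639923551281153],[]],[[34097186402803712],[]]],[[[],[]],[[],[]]]]]⟩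

def RtA3_1 : Roots := ⟨⟨1,4,1024⟩,⟨1,4,16384⟩,⟨0,5,64⟩,⟨0,5,64⟩,⟨0,11,2048⟩,⟨0,5,256⟩,⟨0,5,256⟩,⟨0,11,32768⟩⟩

noncomputable def DA3_1 : R1D := ⟨⟨[Int.ofNat 8192, Int.negSucc 8191, Int.ofNat 8201],8192,8201,8192,8192,[Int.ofNat 0, Int.negSucc 0]⟩,⟨[Int.ofNat 0, Int.ofNat 0, Int.ofNat 125829090, Int.negSucc 41942869, Int.ofNat 20991685, Int.negSucc 12693746],251658240,4194304,[Int.negSucc 0, Int.ofNat 8, Int.ofNat 2057]⟩,⟨[Int.ofNat 0, Int.ofNat 0, Int.ofNat 125829120, Int.negSucc 41943039, Int.ofNat 20971515, Int.negSucc 12595202],251658240,4194304,[Int.ofNat 0, Int.ofNat 1, Int.ofNat 2049]⟩,19666734271123549585476375765965183385600⟩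

theorem chkA3_1 : chkR1 DA3_1 LA3_1 muQ RtA3_1 = true := by decide +kernel

theorem cA3_1_3_0 : chunkOkM (LA3_1.ctx true true 135 5 2048 5 32768 1024 65536 512 65536) muQ true true 64 RtA3_1.Cx RtA3_1.CX RtA3_1.Ctp RtA3_1.Ce RtA3_1.CTp RtA3_1.CEr 0x001101101140334344 = true := by decide +kernel

theorem cA3_1_2_0 : chunkOkM (LA3_1.ctx false true 128 5 2048 5 32768 128 4096 512 65536) muQ false true 64 RtA3_1.Cx RtA3_1.CX RtA3_1.Ctn RtA3_1.Ce RtA3_1.CTp RtA3_1.CEr 0x0 = true := by decide +kernel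

theorem cA3_1_1_0 : chunkOkM (LA3_1.ctx true false 135 5 2048 5 32768 1024 65536 512 65536) muQ true false 64 RtA3_1.Cx RtA3_1.CX RtA3_1.Ctp RtA3_1.Ce RtA3_1.CTn RtA3_1.CEr 0x001101101140334344 = true := by decide +kernel

theorem cA3_1_0_0 : chunkOkM (LA3_1.ctx false false 128 5 2048 5 32768 128 4096 512 65536) muQ false false 64 RtA3_1.Cx RtA3_1.CX RtA3_1.Ctn RtA3_1.Ce RtA3_1.CTn RtA3_1.CEr 0x0 = true := by decide +kernel

theorem covA3_1 : LA3_1.Full muQ.val RtA3_1 := ⟨(LitT.cov_of_chunkM cA3_1_3_0), (LitT.cov_of_chunkM cA3_1_1_0), (LitT.cov_of_chunkM cA3_1_2_0), (LitT.cov_of_chunkM cA3_1_0_0)⟩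

noncomputable def LA2_1 : LitT := ⟨⟨2,1,1,1,1,1⟩, [[[[[522912268289,522873376832],[3813930958976,3929391759489]],[[18124761989120],[]]],[[[15266217984065],[9062380994561]],[[15266217984064],[]]]],[[[[18124723097600],[18991271641088,37700920934401]],[[],[]]],[[[],[]],[[],[]]]]], [[[[[12884901953,1964695879809],[36249523978241]],[[8800924860480,1964695879808],[]]],[[[4531190497281,36355801538624],[9663676416,29635274342464,30532435968065]],[[22133040218112],[]]]],[[[[27651385327617],[]],[[16650229252096],[]]],[[[],[]],[[],[]]]]]⟩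

def RtA2_1 : Roots := ⟨⟨1,4,4096⟩,⟨1,4,16384⟩,⟨0,5,128⟩,⟨0,5,128⟩,⟨0,11,8192⟩,⟨0,5,256⟩,⟨0,5,256⟩,⟨0,11,32768⟩⟩

noncomputable def DA2_1 : R1D := ⟨⟨[Int.ofNat 16384, Int.negSucc 16383, Int.ofNat 16393],16384,16393,16384,16384,[Int.ofNat 0, Int.negSucc 0]⟩,⟨[Int.ofNat 0, Int.ofNat 0, Int.ofNat 125829120, Int.negSucc 41943039, Int.ofNat 20971475, Int.negSucc 12619802],251658240,4194304,[Int.ofNat 0, Int.ofNat 3, Int.ofNat 2051]⟩,⟨[Int.ofNat 0, Int.ofNat 0, Int.ofNat 30, Int.negSucc 9, Int.ofNat 5, Int.negSucc 2],60,4194304,[Int.ofNat 0, Int.ofNat 0, Int.ofNat 2048]⟩,19205795186644091392066773208950374400⟩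

theorem chkA2_1 : chkR1 DA2_1 LA2_1 muQ RtA2_1 = true := by decide +kernel

theorem cA2_1_3_0 : chunkOkM (LA2_1.ctx true true 133 13 16384 5 32768 2048 262144 512 65536) muQ true true 64 RtA2_1.Cx RtA2_1.CX RtA2_1.Ctp RtA2_1.Ce RtA2_1.CTp RtA2_1.CEr 0x00110110011403734344 = true := by decide +kernel

theorem cA2_1_2_0 : chunkOkM (LA2_1.ctx false true 124 5 8192 5 32768 256 16384 512 65536) muQ false true 64 RtA2_1.Cx RtA2_1.CX RtA2_1.Ctn RtA2_1.Ce RtA2_1.CTp RtA2_1.CEr 0x0 = true := by decide +kernel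

theorem cA2_1_1_0 : chunkOkM (LA2_1.ctx true false 129 5 8192 5 32768 1024 131072 512 65536) muQ true false 64 RtA2_1.Cx RtA2_1.CX RtA2_1.Ctp RtA2_1.Ce RtA2_1.CTn RtA2_1.CEr 0x0011011403344 = true := by decide +kernel

theorem cA2_1_0_0 : chunkOkM (LA2_1.ctx false false 124 5 8192 5 32768 256 16384 512 65536) muQ false false 64 RtA2_1.Cx RtA2_1.CX RtA2_1.Ctn RtA2_1.Ce RtA2_1.CTn RtA2_1.CEr 0x0 = true := by decide +kernel

theorem covA2_1 : LA2_1.Full muQ.val RtA2_1 := ⟨(LitT.cov_of_chunkM cA2_1_3_0), (LitT.cov_of_chunkM cA2_1_1_0), (LitT.cov_of_chunkM cA2_1_2_0), (LitT.cov_of_chunkM cA2_1_0_0)⟩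

noncomputable def LA2_0 : LitT := ⟨⟨2,1,1,1,1,1⟩, [[[[[131936026625,131931705408],[953482739840,982347939969]],[[4531190497280],[]]],[[[3816554496065],[2265595248641]],[[3816554496064],[]]]],[[[[4531186176000],[4749025869824,9425230233601]],[[],[]]],[[[],[]],[[],[]]]]], [[[[[3221225537,491173970049],[9062380994561]],[[2199627235392,491173970048],[]]],[[[1132797624321,9080089600064],[1207959552,7408818585664,7633108992065]],[[5532052094976],[]]]],[[[[6912242352129],[]],[[4162708307968],[]]],[[[],[]],[[],[]]]]]⟩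

def RtA2_0 : Roots := ⟨⟨1,4,4096⟩,⟨0,1,16384⟩,⟨0,5,128⟩,⟨0,5,128⟩,⟨0,11,8192⟩,⟨0,5,512⟩,⟨0,5,512⟩,⟨0,11,131072⟩⟩

noncomputable def DA2_0 : R1D := ⟨⟨[Int.ofNat 32768, Int.negSucc 32767, Int.ofNat 32777],32768,32777,32768,32768,[Int.ofNat 0, Int.negSucc 0]⟩,⟨[Int.ofNat 0, Int.ofNat 0, Int.ofNat 6291456, Int.negSucc 2097151, Int.ofNat 1048575, Int.negSucc 630374],12582912,4194304,[Int.ofNat 0, Int.ofNat 2, Int.ofNat 2050]⟩,⟨[Int.ofNat 0, Int.ofNat 0, Int.ofNat 30, Int.negSucc 9, Int.ofNat 5, Int.negSucc 2],60,4194304,[Int.ofNat 0, Int.ofNat 0, Int.ofNat 2048]⟩,7682318074657636556826709283580149760⟩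

theorem chkA2_0 : chkR1 DA2_0 LA2_0 muQ RtA2_0 = true := by decide +kernel

theorem cA2_0_3_0 : chunkOkM (LA2_0.ctx true true 130 5 8192 1 32768 1024 131072 1024 262144) muQ true true 64 RtA2_0.Cx RtA2_0.CX RtA2_0.Ctp RtA2_0.Ce RtA2_0.CTp RtA2_0.CEr 0x0011011403344 = true := by decide +kernel

theorem cA2_0_2_0 : chunkOkM (LA2_0.ctx false true 125 5 8192 1 32768 256 16384 1024 262144) muQ false true 64 RtA2_0.Cx RtA2_0.CX RtA2_0.Ctn RtA2_0.Ce RtA2_0.CTp RtA2_0.CEr 0x0 = true := by decide +kernel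

theorem cA2_0_1_0 : chunkOkM (LA2_0.ctx true false 130 5 8192 1 32768 1024 131072 1024 262144) muQ true false 64 RtA2_0.Cx RtA2_0.CX RtA2_0.Ctp RtA2_0.Ce RtA2_0.CTn RtA2_0.CEr 0x0011011403344 = true := by decide +kernel

theorem cA2_0_0_0 : chunkOkM (LA2_0.ctx false false 125 5 8192 1 32768 256 16384 1024 262144) muQ false false 64 RtA2_0.Cx RtA2_0.CX RtA2_0.Ctn RtA2_0.Ce RtA2_0.CTn RtA2_0.CEr 0x0 = true := by decide +kernel

theorem covA2_0 : LA2_0.Full muQ.val RtA2_0 := ⟨(LitT.cov_of_chunkM cA2_0_3_0), (LitT.cov_of_chunkM cA2_0_1_0), (LitT.cov_of_chunkM cA2_0_2_0), (LitT.cov_of_chunkM cA2_0_0_0)⟩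

noncomputable def LA0_18 : LitT := ⟨⟨2,1,1,1,1,1⟩, [[[[[47160356354654272,111210612572288],[504667213604438144,108356095567872129]],[[1698005804226969600],[]]],[[[256485737103360,1430205084126720065],[249902346534912001]],[[1430205084126720064],[]]]],[[[[2376588384447447040],[2513716312367710208,1039632808826880001]],[[],[]]],[[[],[]],[[],[]]]]], [[[[[1025942948413440,630355203123576833,1688849860264001,184061176044134529],[43982690860400640,999609386139648001]],[[1164180503675273280,184061176044134528],[]]],[[[424501451056742401,4682817536819732544],[11522325421752320,3921400646250700864,841956147993600065]],[[2752862458407288832],[]]]],[[[[2930172868423049217],[]],[[1474947238828957696],[]]],[[[],[]],[[],[]]]]]⟩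

def RtA0_18 : Roots := ⟨⟨0,1,16384⟩,⟨1408,1541,1024⟩,⟨0,5,512⟩,⟨0,5,512⟩,⟨0,11,131072⟩,⟨0,3,2⟩,⟨0,1,2⟩,⟨0,17,8⟩⟩

noncomputable def DA0_18 : R1D := ⟨⟨[Int.ofNat 512, Int.negSucc 511, Int.ofNat 517],512,1034,1024,1024,[Int.ofNat 0, Int.negSucc 0]⟩,⟨[Int.ofNat 0, Int.ofNat 0, Int.ofNat 125829120, Int.negSucc 41943039, Int.ofNat 20970395, Int.negSucc 12399266],251658240,4194304,[Int.ofNat 0, Int.negSucc 14, Int.ofNat 2033]⟩,⟨[Int.ofNat 0, Int.ofNat 0, Int.ofNat 1610496810, Int.negSucc 541840717, Int.ofNat 191865465, Int.negSucc 33885134],3221225472,268435456,[Int.negSucc 138, Int.negSucc 9007, Int.ofNat 7515]⟩,245834178389044369818454697074564792320⟩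

theorem chkA0_18 : chkR1 DA0_18 LA0_18 muQ RtA0_18 = true := by decide +kernel

theorem cA0_18_3_0 : chunkOkM (LA0_18.ctx true true 144 1 32768 6031 4096 1024 262144 723 1003) muQ true true 64 RtA0_18.Cx RtA0_18.CX RtA0_18.Ctp RtA0_18.Ce RtA0_18.CTp RtA0_18.CEr 0x0020202012602855561404c5612124a501251404c568512661264a54256a6425 = true := by decide +kernel

theorem cA0_18_2_0 : chunkOkM (LA0_18.ctx false true 143 1 32768 11397 8192 1024 262144 723 459) muQ false true 64 RtA0_18.Cx RtA0_18.CX RtA0_18.Ctn RtA0_18.Ce RtA0_18.CTp RtA0_18.CEr 0x0202020555050812124a5124a5088512661264a54256a6425 = true := by decide +kernel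

theorem cA0_18_1_0 : chunkOkM (LA0_18.ctx true false 54 1 1 1 1 1 1 1 1) muQ true false 64 RtA0_18.Cx RtA0_18.CX RtA0_18.Ctp RtA0_18.Ce RtA0_18.CTn RtA0_18.CEr 0x4a = true := by decide +kernel

theorem cA0_18_0_0 : chunkOkM (LA0_18.ctx false false 54 1 1 1 1 1 1 1 1) muQ false false 64 RtA0_18.Cx RtA0_18.CX RtA0_18.Ctn RtA0_18.Ce RtA0_18.CTn RtA0_18.CEr 0x4a = true := by decide +kernel

theorem covA0_18 : LA0_18.Full muQ.val RtA0_18 := ⟨(LitT.cov_of_chunkM cA0_18_3_0), (LitT.cov_of_chunkM cA0_18_1_0), (LitT.cov_of_chunkM cA0_18_2_0), (LitT.cov_of_chunkM cA0_18_0_0)⟩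

noncomputable def LA1_17 : LitT := ⟨⟨2,1,1,1,1,1⟩, [[[[[12146728274755648,76464850821248],[252684218677567616,57203812784701569]],[[866955616038420480],[]]],[[[176351367659520,730223846516736065],[131929514170122241]],[[730223846516736064],[]]]],[[[[1188319880262819840],[1248963135919448064,548847392934297601]],[[],[]]],[[[],[]],[[],[]]]]], [[[[[705405470638080,308483886705278977,844424930132033,93976634160414849],[25225818946928640,527718056680488961]],[[587719751371849792,93976634160414848],[]]],[[[216738904009605121,2309440180892405824],[16211543400120320,1963424672156774464,444489085827072065]],[[1392178406753304576],[]]]],[[[[1489387457505558529],[]],[[754737768290746368],[]]],[[[],[]],[[],[]]]]]⟩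

def RtA1_17 : Roots := ⟨⟨1,4,16384⟩,⟨10,11,8⟩,⟨0,5,256⟩,⟨0,5,256⟩,⟨0,11,32768⟩,⟨0,3,2⟩,⟨0,1,2⟩,⟨0,2,1⟩⟩

noncomputable def DA1_17 : R1D := ⟨⟨[Int.ofNat 256, Int.negSucc 255, Int.ofNat 261],256,522,512,512,[Int.ofNat 0, Int.negSucc 0]⟩,⟨[Int.ofNat 0, Int.ofNat 0, Int.ofNat 125829120, Int.negSucc 41943039, Int.ofNat 20967315, Int.negSucc 12229082],251658240,4194304,[Int.ofNat 0, Int.negSucc 28, Int.ofNat 2019]⟩,⟨[Int.ofNat 0, Int.ofNat 0, Int.ofNat 4026133305, Int.negSucc 1356429184, Int.ofNat 489806460, Int.negSucc 89443925],8053063680,268435456,[Int.negSucc 162, Int.negSucc 8824, Int.ofNat 7722]⟩,614585445972610924546136742686411980800⟩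

theorem chkA1_17 : chkR1 DA1_17 LA1_17 muQ RtA1_17 = true := by decide +kernel

theorem cA1_17_3_0 : chunkOkM (LA1_17.ctx true true 128 5 32768 85 64 512 65536 171 110) muQ true true 64 RtA1_17.Cx RtA1_17.CX RtA1_17.Ctp RtA1_17.Ce RtA1_17.CTp RtA1_17.CEr 0x0202055050202120808512651264a0124a54a5685612124a5512664256a6425 = true := by decide +kernel

theorem cA1_17_2_0 : chunkOkM (LA1_17.ctx false true 128 5 32768 87 64 512 65536 171 110) muQ false true 64 RtA1_17.Cx RtA1_17.CX RtA1_17.Ctn RtA1_17.Ce RtA1_17.CTp RtA1_17.CEr 0x02054a50822802020512651264a0124a564a585612124a5512664256a6425 = true := by decide +kernel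

theorem cA1_17_1_0 : chunkOkM (LA1_17.ctx true false 53 1 1 1 1 1 1 1 1) muQ true false 64 RtA1_17.Cx RtA1_17.CX RtA1_17.Ctp RtA1_17.Ce RtA1_17.CTn RtA1_17.CEr 0x4a = true := by decide +kernel

theorem cA1_17_0_0 : chunkOkM (LA1_17.ctx false false 53 1 1 1 1 1 1 1 1) muQ false false 64 RtA1_17.Cx RtA1_17.CX RtA1_17.Ctn RtA1_17.Ce RtA1_17.CTn RtA1_17.CEr 0x4a = true := by decide +kernel

theorem covA1_17 : LA1_17.Full muQ.val RtA1_17 := ⟨(LitT.cov_of_chunkM cA1_17_3_0), (LitT.cov_of_chunkM cA1_17_1_0), (LitT.cov_of_chunkM cA1_17_2_0), (LitT.cov_of_chunkM cA1_17_0_0)⟩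

noncomputable def LA1_0 : LitT := ⟨⟨2,1,1,1,1,1⟩, [[[[[1085688082595841,1085767732428864],[7810930603720832,8070987941560449]],[[37119432903884800],[]]],[[[31265147343360065],[18614170387742721]],[[31265147343360064],[]]]],[[[[37119512553717760],[38908967727923200,77437857277132801]],[[],[]]],[[[],[]],[[],[]]]]], [[[[[26388279066689,4023688527667329],[74456681550970881]],[[18016872410644544,4023688527667328],[]]],[[[9279858225971201,74239025107435584],[4947802324992,60693041853235264,62713757654016065]],[[45313603047260160],[]]]],[[[[56622532608532481],[]],[[34101442095226880],[]]],[[[],[]],[[],[]]]]]⟩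

def RtA1_0 : Roots := ⟨⟨1,4,16384⟩,⟨0,1,16384⟩,⟨0,5,256⟩,⟨0,5,256⟩,⟨0,11,32768⟩,⟨0,5,512⟩,⟨0,5,512⟩,⟨0,11,131072⟩⟩

noncomputable def DA1_0 : R1D := ⟨⟨[Int.ofNat 65536, Int.negSucc 65535, Int.ofNat 65545],65536,65545,65536,65536,[Int.ofNat 0, Int.negSucc 0]⟩,⟨[Int.ofNat 0, Int.ofNat 0, Int.ofNat 30, Int.negSucc 9, Int.ofNat 5, Int.negSucc 2],60,4194304,[Int.ofNat 0, Int.ofNat 0, Int.ofNat 2048]⟩,⟨[Int.ofNat 0, Int.ofNat 0, Int.ofNat 125829120, Int.negSucc 41943039, Int.ofNat 20971475, Int.negSucc 12619802],251658240,4194304,[Int.ofNat 0, Int.ofNat 3, Int.ofNat 2051]⟩,37511318723914241000130416423731200⟩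

theorem chkA1_0 : chkR1 DA1_0 LA1_0 muQ RtA1_0 = true := by decide +kernel

theorem cA1_0_3_0 : chunkOkM (LA1_0.ctx true true 148 5 32768 1 32768 1024 262144 1024 262144) muQ true true 64 RtA1_0.Cx RtA1_0.CX RtA1_0.Ctp RtA1_0.Ce RtA1_0.CTp RtA1_0.CEr 0x00114403 = true := by decide +kernel

theorem cA1_0_2_0 : chunkOkM (LA1_0.ctx false true 145 5 32768 1 32768 512 65536 1024 262144) muQ false true 64 RtA1_0.Cx RtA1_0.CX RtA1_0.Ctn RtA1_0.Ce RtA1_0.CTp RtA1_0.CEr 0x0 = true := by decide +kernel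

theorem cA1_0_1_0 : chunkOkM (LA1_0.ctx true false 148 5 32768 1 32768 1024 262144 1024 262144) muQ true false 64 RtA1_0.Cx RtA1_0.CX RtA1_0.Ctp RtA1_0.Ce RtA1_0.CTn RtA1_0.CEr 0x00114403 = true := by decide +kernel

theorem cA1_0_0_0 : chunkOkM (LA1_0.ctx false false 145 5 32768 1 32768 512 65536 1024 262144) muQ false false 64 RtA1_0.Cx RtA1_0.CX RtA1_0.Ctn RtA1_0.Ce RtA1_0.CTn RtA1_0.CEr 0x0 = true := by decide +kernel

theorem covA1_0 : LA1_0.Full muQ.val RtA1_0 := ⟨(LitT.cov_of_chunkM cA1_0_3_0), (LitT.cov_of_chunkM cA1_0_1_0), (LitT.cov_of_chunkM cA1_0_2_0), (LitT.cov_of_chunkM cA1_0_0_0)⟩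

noncomputable def LA0_17 : LitT := ⟨⟨2,1,1,1,1,1⟩, [[[[[1473761136083008,3525516288128],[15768623414059136,3565984418365569]],[[54037774273085440],[]]],[[[8130920448000,45515215147008065],[8224252352266241]],[[45515215147008064],[]]]],[[[[74268868515307520],[78532267493023744,34214174824857601]],[[],[]]],[[[],[]],[[],[]]]]], [[[[[32523681792000,18723507206619137,52776558133313,5857610297180289],[1353914410598400,32897009409064961]],[[36380640739852352,5857610297180288],[]]],[[[13509443568271361,146338437973872704],[365208839127040,122526465717350464,27708662710272065]],[[86270725047975936],[]]]],[[[[92582036834418689],[]],[[47106235909603328],[]]],[[[],[]],[[],[]]]]]⟩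

def RtA0_17 : Roots := ⟨⟨0,1,16384⟩,⟨10,11,8⟩,⟨0,5,512⟩,⟨0,5,512⟩,⟨0,11,131072⟩,⟨0,3,2⟩,⟨0,1,2⟩,⟨0,2,1⟩⟩

noncomputable def DA0_17 : R1D := ⟨⟨[Int.ofNat 512, Int.negSucc 511, Int.ofNat 517],512,1034,1024,1024,[Int.ofNat 0, Int.negSucc 0]⟩,⟨[Int.ofNat 0, Int.ofNat 0, Int.ofNat 125829120, Int.negSucc 41943039, Int.ofNat 20970395, Int.negSucc 12399266],251658240,4194304,[Int.ofNat 0, Int.negSucc 14, Int.ofNat 2033]⟩,⟨[Int.ofNat 0, Int.ofNat 0, Int.ofNat 251639865, Int.negSucc 84651004, Int.ofNat 30529880, Int.negSucc 5575775],503316480,268435456,[Int.negSucc 139, Int.negSucc 8811, Int.ofNat 7712]⟩,1229170891945221849092273485372823961600⟩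

theorem chkA0_17 : chkR1 DA0_17 LA0_17 muQ RtA0_17 = true := by decide +kernel

theorem cA0_17_3_0 : chunkOkM (LA0_17.ctx true true 126 1 32768 43 32 1024 262144 171 110) muQ true true 64 RtA0_17.Cx RtA0_17.CX RtA0_17.Ctp RtA0_17.Ce RtA0_17.CTp RtA0_17.CEr 0x02054a522802020512651264a0124a564a585612124a5512664256a6425 = true := by decide +kernel

theorem cA0_17_2_0 : chunkOkM (LA0_17.ctx false true 127 1 32768 87 64 1024 262144 171 110) muQ false true 64 RtA0_17.Cx RtA0_17.CX RtA0_17.Ctn RtA0_17.Ce RtA0_17.CTp RtA0_17.CEr 0x02054a50822802020512651264a01264a54a585612124a5512664256a6425 = true := by decide +kernel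

theorem cA0_17_1_0 : chunkOkM (LA0_17.ctx true false 49 1 1 1 1 1 1 1 1) muQ true false 64 RtA0_17.Cx RtA0_17.CX RtA0_17.Ctp RtA0_17.Ce RtA0_17.CTn RtA0_17.CEr 0x4a = true := by decide +kernel

theorem cA0_17_0_0 : chunkOkM (LA0_17.ctx false false 49 1 1 1 1 1 1 1 1) muQ false false 64 RtA0_17.Cx RtA0_17.CX RtA0_17.Ctn RtA0_17.Ce RtA0_17.CTn RtA0_17.CEr 0x4a = true := by decide +kernel

theorem covA0_17 : LA0_17.Full muQ.val RtA0_17 := ⟨(LitT.cov_of_chunkM cA0_17_3_0), (LitT.cov_of_chunkM cA0_17_1_0), (LitT.cov_of_chunkM cA0_17_2_0), (LitT.cov_of_chunkM cA0_17_0_0)⟩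

end Vale.Agent.helper4.Q4
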