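import Vale.Agent.helper4.Q4TreeM
import Vale.Agent.helper4.Q4G.PA22_14_0
import Vale.Agent.helper4.Q4G.PA22_14_1

/-!
Checks for pairs of intervals of second moments.
-/

set_option maxRecDepth 100000
set_option linter.unusedVariables false

namespace Vale.Agent.helper4.Q4

theorem covA22_14 : LA22_14.Full muQ.val RtA22_14 := ⟨(LitT.Cov.split_t (LitT.cov_of_chunkM cA22_14_3_0) (LitT.Cov.split_t (LitT.cov_of_chunkM cA22_14_3_1) (LitT.Cov.split_e (LitT.cov_of_chunkM cA22_14_3_2) (LitT.Cov.split_t (LitT.cov_of_chunkM cA22_14_3_3) (LitT.Cov.split_e (LitT.cov_of_chunkM cA22_14_3_4) (LitT.Cov.split_e (LitT.Cov.split_e (LitT.cov_of_chunkM cA22_14_3_5) (LitT.Cov.split_t (LitT.Cov.split_e (LitT.Cov.split_T (LitT.cov_of_chunkM cA22_14_3_6) (LitT.Cov.split_t (LitT.cov_of_chunkM cA22_14_3_7) (LitT.Cov.split_x (LitT.Cov.split_e (LitT.cov_of_chunkM cA22_14_3_8) (LitT.Cov.split_E (LitT.cov_of_chunkM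 cA22_14_3_9) (LitT.Cov.split_t (LitT.Cov.split_x (LitT.cov_of_chunkM cA22_14_3_10) (LitT.cov_of_chunkM cA22_14_3_11)) (LitT.cov_of_chunkM cA22_14_3_12)))) (LitT.cov_of_chunkM cA22_14_3_13)))) (LitT.Cov.split_T (LitT.cov_of_chunkM cA22_14_3_14) (LitT.Cov.split_t (LitT.cov_of_chunkM cA22_14_3_15) (LitT.Cov.split_x (LitT.Cov.split_E (LitT.cov_of_chunkM cA22_14_3_16) (LitT.Cov.split_e (LitT.Cov.split_t (LitT.cov_of_chunkM cA22_14_3_17) (LitT.cov_of_chunkM cA22_14_3_18)) (LitT.Cov.split_x (LitT.cov_of_chunkM cA22_14_3_19) (LitT.Cov.split_t (LitT.cov_of_chunkM cA22_14_3_20) (LitT.Cov.split_e (LitT.cov_of_chunkM cA22_14_3_21) (LitT.cov_of_chunkM cA22_14_3_22)))))) (LitT.cov_of_chunkM cA22_14_3_23))))) (LitT.cov_of_chunkM cA22_14_3_24))) (LitT.Cov.split_e (LitT.Cov.split_t (LitT.Cov.split_e (LitT.Cov.split_T (LitT.cov_of_chunkM cA22_14_3_25) (LitT.Cov.split_t (LitT.cov_of_chunkM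 cA22_14_3_26) (LitT.Cov.split_E (LitT.cov_of_chunkM cA22_14_3_27) (LitT.Cov.split_e (LitT.Cov.split_x (LitT.cov_of_chunkM cA22_14_3_28) (LitT.Cov.split_x (LitT.Cov.split_t (LitT.cov_of_chunkM cA22_14_3_29) (LitT.Cov.split_T (LitT.cov_of_chunkM cA22_14_3_30) (LitT.cov_of_chunkM cA22_14_3_31))) (LitT.cov_of_chunkM cA22_14_3_32))) (LitT.cov_of_chunkM cA22_14_3_33))))) (LitT.cov_of_chunkM cA22_14_3_34)) (LitT.Cov.split_t (LitT.Cov.split_x (LitT.cov_of_chunkM cA22_14_3_35) (LitT.Cov.split_e (LitT.Cov.split_T (LitT.cov_of_chunkM cA22_14_3_36) (LitT.Cov.split_E (LitT.cov_of_chunkM cA22_14_3_37) (LitT.Cov.split_e (LitT.Cov.split_t (LitT.Cov.split_x (LitT.Cov.split_e (LitT.cov_of_chunkM cA22_14_3_38) (LitT.Cov.split_T (LitT.cov_of_chunkM cA22_14_3_39) (LitT.cov_of_chunkM cA22_14_3_40))) (LitT.cov_of_chunkM cA22_14_3_41)) (LitT.cov_of_chunkM cA22_14_3_42)) (LitT.Cov.split_t (LitT.Cov.split_T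 (LitT.cov_of_chunkM cA22_14_3_43) (LitT.Cov.split_x (LitT.cov_of_chunkM cA22_14_3_44) (LitT.Cov.split_e (LitT.cov_of_chunkM cA22_14_3_45) (LitT.Cov.split_E (LitT.cov_of_chunkM cA22_14_3_46) (LitT.Cov.split_t (LitT.cov_of_chunkM cA22_14_3_47) (LitT.Cov.split_x (LitT.Cov.split_e (LitT.cov_of_chunkM cA22_14_3_48) (LitT.cov_of_chunkM cA22_14_3_49)) (LitT.cov_of_chunkM cA22_14_3_50))))))) (LitT.cov_of_chunkM cA22_14_3_51))))) (LitT.Cov.split_x (LitT.cov_of_chunkM cA22_14_3_52) (LitT.Cov.split_e (LitT.Cov.split_T (LitT.cov_of_chunkM cA22_14_3_53) (LitT.Cov.split_E (LitT.cov_of_chunkM cA22_14_3_54) (LitT.Cov.split_t (LitT.Cov.split_e (LitT.Cov.split_T (LitT.cov_of_chunkM cA22_14_3_55) (LitT.Cov.split_E (LitT.cov_of_chunkM cA22_14_3_56) (LitT.Cov.split_t (LitT.cov_of_chunkM cA22_14_3_57) (LitT.Cov.split_x (LitT.cov_of_chunkM cA22_14_3_58) (LitT.Cov.split_T (LitT.cov_of_chunkM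 cA22_14_3_59) (LitT.Cov.split_e (LitT.Cov.split_E (LitT.cov_of_chunkM cA22_14_3_60) (LitT.cov_of_chunkM cA22_14_3_61)) (LitT.cov_of_chunkM cA22_14_3_62))))))) (LitT.cov_of_chunkM cA22_14_3_63)) (LitT.Cov.split_t (LitT.Cov.split_x (LitT.cov_of_chunkM cA22_14_3_64) (LitT.Cov.split_T (LitT.cov_of_chunkM cA22_14_3_65) (LitT.Cov.split_e (LitT.Cov.split_E (LitT.cov_of_chunkM cA22_14_3_66) (LitT.Cov.split_e (LitT.cov_of_chunkM cA22_14_3_67) (LitT.Cov.split_T (LitT.cov_of_chunkM cA22_14_3_68) (LitT.Cov.split_E (LitT.cov_of_chunkM cA22_14_3_69) (LitT.cov_of_chunkM cA22_14_3_70))))) (LitT.Cov.split_x (LitT.cov_of_chunkM cA22_14_3_71) (LitT.Cov.split_e (LitT.Cov.split_E (LitT.cov_of_chunkM cA22_14_3_72) (LitT.Cov.split_T (LitT.cov_of_chunkM cA22_14_3_73) (LitT.Cov.split_E (LitT.cov_of_chunkM cA22_14_3_74) (LitT.cov_of_chunkM cA22_14_3_75)))) (LitT.cov_of_chunkM cA22_14_3_76))))))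 (LitT.cov_of_chunkM cA22_14_3_77))))) (LitT.cov_of_chunkM cA22_14_3_78))))) (LitT.cov_of_chunkM cA22_14_3_79))) (LitT.cov_of_chunkM cA22_14_3_80)))))))), (LitT.cov_of_chunkM cA22_14_1_0), (LitT.cov_of_chunkM cA22_14_2_0), (LitT.cov_of_chunkM cA22_14_0_0)⟩

end Vale.Agent.helper4.Q4
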