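import Vale.Agent.helper4.Q4TreeM
import Vale.Agent.helper4.Q4G.PA22_15

/-!
Checks for pairs of intervals of second moments.
-/

set_option maxRecDepth 100000
set_option linter.unusedVariables false

namespace Vale.Agent.helper4.Q4

theorem cA22_15_3_0 : chunkOkM (LA22_15.ctx true true 82 1 1 1 1 1 1 1 1) muQ true true 64 RtA22_15.Cx RtA22_15.CX RtA22_15.Ctp.left RtA22_15.Ce RtA22_15.CTp RtA22_15.CEr 0x41 = true := by decide +kernel

theorem cA22_15_3_1 : chunkOkM (LA22_15.ctx true true 82 1 1 1 1 1 1 1 1) muQ true true 64 RtA22_15.Cx RtA22_15.CX RtA22_15.Ctp.right.left RtA22_15.Ce RtA22_15.CTp RtA22_15.CEr 0x41 = true := by decide +kernel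

theorem cA22_15_3_2 : chunkOkM (LA22_15.ctx true true 82 1 1 1 1 1 1 1 1) muQ true true 64 RtA22_15.Cx RtA22_15.CX RtA22_15.Ctp.right.right RtA22_15.Ce.left RtA22_15.CTp RtA22_15.CEr 0x11 = true := by decide +kernel

theorem cA22_15_3_3 : chunkOkM (LA22_15.ctx true true 82 1 1 1 1 1 1 1 1) muQ true true 64 RtA22_15.Cx RtA22_15.CX RtA22_15.Ctp.right.right.left RtA22_15.Ce.right RtA22_15.CTp RtA22_15.CEr 0x49 = true := by decide +kernel

theorem cA22_15_3_4 : chunkOkM (LA22_15.ctx true true 82 1 1 1 1 1 1 1 1) muQ true true 64 RtA22_15.Cx RtA22_15.CX RtA22_15.Ctp.right.right.right RtA22_15.Ce.right.left RtA22_15.CTp RtA22_15.CEr 0x11 = true := by decide +kernel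

theorem cA22_15_3_5 : chunkOkM (LA22_15.ctx true true 82 1 1 1 1 1 1 1 1) muQ true true 64 RtA22_15.Cx RtA22_15.CX RtA22_15.Ctp.right.right.right RtA22_15.Ce.right.right RtA22_15.CTp.left RtA22_15.CEr 0x4a = true := by decide +kernel

theorem cA22_15_3_6 : chunkOkM (LA22_15.ctx true true 184 21 8 7 8 30 100 16 16) muQ true true 64 RtA22_15.Cx RtA22_15.CX RtA22_15.Ctp.right.right.right RtA22_15.Ce.right.right.left.left RtA22_15.CTp.right RtA22_15.CEr 0x176b5957bdb7148c65b40813e6c823e6464779c4268f68cbf9b150d = true := by decide +kernel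

theorem cA22_15_3_7 : chunkOkM (LA22_15.ctx true true 195 21 8 7 8 58 212 16 32) muQ true true 64 RtA22_15.Cx RtA22_15.CX RtA22_15.Ctp.right.right.right.left RtA22_15.Ce.right.right.left.right.left RtA22_15.CTp.right RtA22_15.CEr.left 0x21553014295b1aa6fe9398ab87bc5eb87b117b7686c040d = true := by decide +kernel

theorem cA22_15_3_8 : chunkOkM (LA22_15.ctx true true 234 161 64 7 8 462 852 35 77) muQ true true 64 RtA22_15.Cx RtA22_15.CX RtA22_15.Ctp.right.right.right.left.left RtA22_15.Ce.right.right.left.right.left RtA22_15.CTp.right RtA22_15.CEr.right 0x49494959223367b48ad166b14a7b91707c937b81050806b7601e4a27c650d3886ea038ad1e892d271c6ec99364b447ee2e7c640d51abf26f28ad1fcbb187b87f806567c630d2becc29d8ad3a190161c3ef5acf7c630d5642279c827bdbec64d6b8bdb7c26b78b8ad907c640d362743148ad29cb0ff71c6a8fb864b8d06cd188b640d52696637e8ad10bef597b8462c0ca7c630d249eaf97bd8da35f64b7ec3806b831b32637c61c75d767b150d566944493493777 = true := by decide +kernel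

theorem cA22_15_3_9 : chunkOkM (LA22_15.ctx true true 82 1 1 1 1 1 1 1 1) muQ true true 64 RtA22_15.Cx.left RtA22_15.CX RtA22_15.Ctp.right.right.right.left.right RtA22_15.Ce.right.right.left.right.left.left RtA22_15.CTp.right RtA22_15.CEr.right 0x69 = true := by decide +kernel

theorem cA22_15_3_10 : chunkOkM (LA22_15.ctx true true 230 83 32 7 8 470 860 35 64) muQ true true 64 RtA22_15.Cx.left RtA22_15.CX RtA22_15.Ctp.right.right.right.left.right.left RtA22_15.Ce.right.right.left.right.left.right RtA22_15.CTp.right RtA22_15.CEr.right.left 0x2522fd07bd212becb7b822635e8919c4262909d4d9b140d2775a7868ad1b0484a7b8e502a66c680885277b140d328cb267bd2cb3e164bbc1b716c6694fad47b140d31417d27bdb11ce061c15117f27c65d464d57b140d3530b16457bd19b635d7b91e4726a7b890c0e46c66b7cbd6c487dd95c7b160d353e2237bd184507671c137476be8b67023ad87b140d547 = true := by decide +kernel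

theorem cA22_15_3_11 : chunkOkM (LA22_15.ctx true true 242 163 64 7 8 470 860 35 77) muQ true true 64 RtA22_15.Cx.left RtA22_15.CX RtA22_15.Ctp.right.right.right.left.right.left RtA22_15.Ce.right.right.left.right.left.right RtA22_15.CTp.right RtA22_15.CEr.right.right 0x469404b7bd4ea64561c143e2e6f79c416924d8ac9b140d24469287bde87a596b8ba35fd6b7db5fc36c682802e17b150d21a951b7bd10c68e07b8cb43b66b72565c737c659ecbcf7b150d22a5a9118adfb55056b8f4ddca6b7df479697b66a5aea27b150d731d778f77bda7faea6b86e6b026b76a292a17b6c58c3b57b150d232e65f7bd10ca1c17b8106bd2ffdc6bb61567bd2fb9c440d22d85277bdd15b346b8c45b996b717ad3f57c66e9dac17b150d7344e4d49f58ad560a70d71c96666164b39ac20e7b68159a76c46d0cf067b160d57 = true := by decide +kernel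

theorem cA22_15_3_12 : chunkOkM (LA22_15.ctx true true 209 41 16 7 8 238 428 16 33) muQ true true 64 RtA22_15.Cx.left RtA22_15.CX RtA22_15.Ctp.right.right.right.left.right.right RtA22_15.Ce.right.right.left.right.left.right RtA22_15.CTp.right RtA22_15.CEr.right 0x9af6846bd63984061cc656587b8b1290d4cc58c040d = true := by decide +kernel

theorem cA22_15_3_13 : chunkOkM (LA22_15.ctx true true 82 1 1 1 1 1 1 1 1) muQ true true 64 RtA22_15.Cx.right RtA22_15.CX RtA22_15.Ctp.right.right.right.left.right RtA22_15.Ce.right.right.left.right.left RtA22_15.CTp.right RtA22_15.CEr.right 0x11 = true := by decide +kernel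

theorem cA22_15_3_14 : chunkOkM (LA22_15.ctx true true 194 21 8 7 8 58 220 16 32) muQ true true 64 RtA22_15.Cx RtA22_15.CX RtA22_15.Ctp.right.right.right.left RtA22_15.Ce.right.right.left.right.right RtA22_15.CTp.right RtA22_15.CEr.left 0xfa3f08df85babd2291029b8141f2b17c4965fef87b140d = true := by decide +kernel

theorem cA22_15_3_15 : chunkOkM (LA22_15.ctx true true 198 21 8 7 8 114 220 16 33) muQ true true 64 RtA22_15.Cx RtA22_15.CX RtA22_15.Ctp.right.right.right.left.left RtA22_15.Ce.right.right.left.right.right RtA22_15.CTp.right RtA22_15.CEr.right 0x47224827bd49293d174b307d8c27b81758867529b58f20ab008c450d = true := by decide +kernel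

theorem cA22_15_3_16 : chunkOkM (LA22_15.ctx true true 228 83 32 7 8 470 876 35 64) muQ true true 64 RtA22_15.Cx.left RtA22_15.CX RtA22_15.Ctp.right.right.right.left.right.left RtA22_15.Ce.right.right.left.right.right.left RtA22_15.CTp.right RtA22_15.CEr.right.left 0x385ef427bd19706dd7b8ae0fd86b72efd656c69987df6c4939ba597b160d30946647bd568f0a61c1a909b87c6d13dc36c46bed5ca7b150d2ef19ea7bd668eba61c21a4045f8b6ac37826c46f42e8d7b150d45493281c677e8ad149f8567b88c8bfa27b130d28a3f06c306336e7bd40517c61c14481dfb8b6531fb257b140d457 = true := by decide +kernel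

theorem cA22_15_3_17 : chunkOkM (LA22_15.ctx true true 240 167 64 7 8 470 1756 35 77) muQ true true 64 RtA22_15.Cx.left RtA22_15.CX RtA22_15.Ctp.right.right.right.left.right.left RtA22_15.Ce.right.right.left.right.right.left RtA22_15.CTp.right RtA22_15.CEr.right.right 0x1e456cf7bd13c2de37b8a19b4c6b74aaa93e48c638662e3b8c450d232c159e8ad1f1cae77b91c54f5c7b86036f5b79091af97c650d22755c028ad124659d7b8d4973c6b72ca1f257c652a9a247b150d47692656cb27bd1b76b027b91b933957b8170fe967c641fc786c47233bf17b160d7449320db5fb7bd8e5c276b911aae647b882f9b96b73b9fc7cc8b65d691587b160d23ce38f7bd184450e7b918eddbf7b8106418568b672ca97c7b150d473d661dee8ad816b62771c2d26a4474ba39d206b69d08826c485ae5a47b160d5 = true := by decide +kernel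

theorem cA22_15_3_18 : chunkOkM (LA22_15.ctx true true 246 327 128 7 8 946 1748 35 77) muQ true true 64 RtA22_15.Cx.left.left RtA22_15.CX RtA22_15.Ctp.right.right.right.left.right.right RtA22_15.Ce.right.right.left.right.right.left RtA22_15.CTp.right RtA22_15.CEr.right 0x01012120c884e18ad197d88d7b9189d9f4f8a810aa7157c67b7fb647b150d42016a408ad273eca771c798eb647b130d541eafbb6d8adec9aea6b8c265526b72dbfbd87c6830e0287b150d7d5e849b8ad95cfe8f71c29938d874b50a63597c645e5fe87b150d511442126d0a9498adde829d6b890a3fb6b781fe6707b140d26fd4d398ad442461a7c671a11f87b130d542122aaa88ad1526a517b8402f0cf7c6980bb907b140d26c0666a8ad186a5861c35bd7e97c684f1b477b140d51144601701733 = true := by decide +kernel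

theorem cA22_15_3_19 : chunkOkM (LA22_15.ctx true true 230 165 64 7 8 238 876 35 77) muQ true true 64 RtA22_15.Cx.left.right RtA22_15.CX RtA22_15.Ctp.right.right.right.left.right.right RtA22_15.Ce.right.right.left.right.right.left RtA22_15.CTp.right RtA22_15.CEr.right 0x6923db8277bd1190e1f7b917ff07b7b841252c6b710e426a7c68450cc07b160d74284ccc8ad2a0113371c1e0e4e888b65ddd6537b140d52cf1f307bd15d46c47b87803ed6c67cbcf2f7b140d324ea287bde757a861c159511e7c67c297147b140d567114 = true := by decide +kernel

theorem cA22_15_3_20 : chunkOkM (LA22_15.ctx true true 82 1 1 1 1 1 1 1 1) muQ true true 64 RtA22_15.Cx.left.left RtA22_15.CX RtA22_15.Ctp.right.right.right.left.right RtA22_15.Ce.right.right.left.right.right.right RtA22_15.CTp.right RtA22_15.CEr.right 0x21 = true := by decide +kernel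

theorem cA22_15_3_21 : chunkOkM (LA22_15.ctx true true 229 83 32 7 8 470 884 35 77) muQ true true 64 RtA22_15.Cx.left.right RtA22_15.CX RtA22_15.Ctp.right.right.right.left.right.left RtA22_15.Ce.right.right.left.right.right.right RtA22_15.CTp.right RtA22_15.CEr.right 0x5926333d07bd2583a26b91215ae37b8a707bc6b7f23824c7b66dc2e137c460d4f429a4e8ad2bdcca171c31632364b107a08da8b643354097c450d52a00b3778ad1c3cb397b83d40816c6707b2d87c440d336d6f77bdbec9fc61c18deed038b663b03967c440d564493 = true := by decide +kernel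

theorem cA22_15_3_22 : chunkOkM (LA22_15.ctx true true 228 83 32 7 8 478 892 35 64) muQ true true 64 RtA22_15.Cx.left.right RtA22_15.CX RtA22_15.Ctp.right.right.right.left.right.right RtA22_15.Ce.right.right.left.right.right.right RtA22_15.CTp.right RtA22_15.CEr.right.left 0x30597207bd18b0ae57b8cdcc9d6b73905bc6c68e46976c48f8258f7b160d2ff997a7bd17652be48b66c9369b7b130d32c43557bd182be861cecb8d86c6809b2747b140d3315e327bd13d3c837c6680cd037b130d345 = true := by decide +kernel

theorem cA22_15_3_23 : chunkOkM (LA22_15.ctx true true 237 167 64 7 8 478 1772 35 77) muQ true true 64 RtA22_15.Cx.left.right RtA22_15.CX RtA22_15.Ctp.right.right.right.left.right.right RtA22_15.Ce.right.right.left.right.right.right RtA22_15.CTp.right RtA22_15.CEr.right.right 0x2549e367bd1b7ce317b91d30aff7b854a54b7ddfaa96c683de8a57b160d272985ca8ad1fe76bf7b91f8dbf27b817bcb14a8b6687c4127b150d321726a94b97bdf2cf886b8d347ec6b7c58aea6c6939639e7b150d26017567bd1f03a747b91ea13e97b82c2a6417c664d52997b150d253f2667bd1ea55157b91f2e1a27b82e7eda87c65ffa3fd7b150d4253a06bd8ad104dbe57b8e297ce6b7b732f297b6772ec147b150d7343a23492e8ad4619e8471c194438e74b76811987b69608556c48955d367b160d5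 = true := by decide +kernel

theorem cA22_15_3_24 : chunkOkM (LA22_15.ctx true true 82 1 1 1 1 1 1 1 1) muQ true true 64 RtA22_15.Cx.right.left RtA22_15.CX RtA22_15.Ctp.right.right.right.left.right.left RtA22_15.Ce.right.right.left.right.right RtA22_15.CTp.right RtA22_15.CEr.right 0x49 = true := by decide +kernel

theorem cA22_15_3_25 : chunkOkM (LA22_15.ctx true true 82 1 1 1 1 1 1 1 1) muQ true true 64 RtA22_15.Cx.right.left RtA22_15.CX RtA22_15.Ctp.right.right.right.left.right.right RtA22_15.Ce.right.right.left.right.right.left RtA22_15.CTp.right RtA22_15.CEr.right 0x11 = true := by decide +kernel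

theorem cA22_15_3_26 : chunkOkM (LA22_15.ctx true true 230 85 32 7 8 478 892 35 64) muQ true true 64 RtA22_15.Cx.right.left RtA22_15.CX RtA22_15.Ctp.right.right.right.left.right.right RtA22_15.Ce.right.right.left.right.right.right RtA22_15.CTp.right RtA22_15.CEr.right.left 0x3ca2e367bd233b2797b82d264f6c6b734436c4997da457b150d32129157bd189b816b81a6a6de48b6d614cd6c4804c75b7b150d2ff47397bd5a03ea6b81e201567c61b074f27c4644b33f7b150d321473fe7bd22a1cc874b1b2738c7b8142b7174a9c41652d26e89b150d45 = true := by decide +kernel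

theorem cA22_15_3_27 : chunkOkM (LA22_15.ctx true true 261 673 256 7 8 1902 1788 75 77) muQ true true 64 RtA22_15.Cx.right.left RtA22_15.CX RtA22_15.Ctp.right.right.right.left.right.right RtA22_15.Ce.right.right.left.right.right.right RtA22_15.CTp.right RtA22_15.CEr.right.right 0x69253fc957bd1ff5ce77b91f454fb7b832774ef7c690d0e667b150d21bb8d17bd1633b107b810e31a17b72868c297c63a54ca6c472a7a0f7b160d29e8ce8e8ad1a0767e7b91c09afea8a81ac83567c6123b806c4765baba7b160d5369474949492905c99d8ad13751b068a8150e8c57b7f210a977c640d25260f148ad25135807b91e126e37b821ca332e8c640d44934137773269e9a77bd15204477b8132b138b89c4152f87cd49b140d44f771cab8ad3b0c2d571c1175cda74b3b7c0f87b66a1a486c48c541077b160d5 = true := by decide +kernel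

theorem cA22_15_3_28 : chunkOkM (LA22_15.ctx true true 82 1 1 1 1 1 1 1 1) muQ true true 64 RtA22_15.Cx.right.right RtA22_15.CX RtA22_15.Ctp.right.right.right.left.right RtA22_15.Ce.right.right.left.right.right RtA22_15.CTp.right RtA22_15.CEr.right 0x49 = true := by decide +kernel

theorem cA22_15_3_29 : chunkOkM (LA22_15.ctx true true 188 21 8 7 8 62 108 16 16) muQ true true 64 RtA22_15.Cx RtA22_15.CX RtA22_15.Ctp.right.right.right.right RtA22_15.Ce.right.right.left.right RtA22_15.CTp.right RtA22_15.CEr 0x6b5ccff7bd3b544c87b84dfd9b0949b1110108f199c040d = true := by decide +kernel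

theorem cA22_15_3_30 : chunkOkM (LA22_15.ctx true true 82 1 1 1 1 1 1 1 1) muQ true true 64 RtA22_15.Cx.left RtA22_15.CX RtA22_15.Ctp.right.right.right.left RtA22_15.Ce.right.right.right.left.left RtA22_15.CTp.right RtA22_15.CEr 0x21 = true := by decide +kernel

theorem cA22_15_3_31 : chunkOkM (LA22_15.ctx true true 82 1 1 1 1 1 1 1 1) muQ true true 64 RtA22_15.Cx.right.left RtA22_15.CX RtA22_15.Ctp.right.right.right.left.left RtA22_15.Ce.right.right.right.left.left.left RtA22_15.CTp.right RtA22_15.CEr 0x41 = true := by decide +kernel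

theorem cA22_15_3_32 : chunkOkM (LA22_15.ctx true true 82 1 1 1 1 1 1 1 1) muQ true true 64 RtA22_15.Cx.right.left RtA22_15.CX RtA22_15.Ctp.right.right.right.left.right.left RtA22_15.Ce.right.right.right.left.left.left RtA22_15.CTp.right RtA22_15.CEr 0x49 = true := by decide +kernel

theorem cA22_15_3_33 : chunkOkM (LA22_15.ctx true true 215 85 32 7 8 238 452 16 32) muQ true true 64 RtA22_15.Cx.right.left RtA22_15.CX RtA22_15.Ctp.right.right.right.left.right.right RtA22_15.Ce.right.right.right.left.left.left RtA22_15.CTp.right RtA22_15.CEr.left 0xcb3f21b785ba2d2a90799b8138b886c6abe355d48bb4f537b150d = true := by decide +kernel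

theorem cA22_15_3_34 : chunkOkM (LA22_15.ctx true true 233 85 32 7 8 478 908 64 64) muQ true true 64 RtA22_15.Cx.right.left RtA22_15.CX RtA22_15.Ctp.right.right.right.left.right.right RtA22_15.Ce.right.right.right.left.left.left RtA22_15.CTp.right RtA22_15.CEr.right.left 0x366c7957bd21ee1197b8ba89bb6b720472c6c6bcb1f06c48f084aa7b160d33d968c7bd6144f26b8144221cd8b610c02727c466aff807b150d32a74d37bd12889a97b887ab0f6c688cb1e6c499683ef7b150d1ca8c937bd11afc8f74bcfdc4797b6cb21da6c482d36837b150d539ea69a7bd6d590164bcd20d9ed8b5555dddd08c440d345 = true := by decide +kernel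

end Vale.Agent.helper4.Q4
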