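import Vale.Agent.helper4.Q4TreeM
import Vale.Agent.helper4.Q4G.PA22_15

/-!
Checks for pairs of intervals of second moments.
-/

set_option maxRecDepth 100000
set_option linter.unusedVariables false

namespace Vale.Agent.helper4.Q4

theorem cA22_15_3_35 : chunkOkM (LA22_15.ctx true true 222 85 32 7 8 238 452 32 77) muQ true true 64 RtA22_15.Cx.right.left RtA22_15.CX RtA22_15.Ctp.right.right.right.left.right.right RtA22_15.Ce.right.right.right.left.left.left RtA22_15.CTp.right.left RtA22_15.CEr.right.right 0x58fe16e48ad89bf1ad71c1b022aa74b313c0ba7b612444477c495769397b160d = true := by decide +kernel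

theorem cA22_15_3_36 : chunkOkM (LA22_15.ctx true true 251 341 128 7 8 958 1812 35 165) muQ true true 64 RtA22_15.Cx.right.left RtA22_15.CX RtA22_15.Ctp.right.right.right.left.right.right RtA22_15.Ce.right.right.right.left.left.left RtA22_15.CTp.right.right RtA22_15.CEr.right.right 0x4959267cd9588ad22fca527b9240cca27b8851352c7c654055f6c450d4493723642aa7bd1331e9e7b8ff77696b724c8d9db29b640d7ab8f4f04b34923ddef17bd15d37d07b811812a17b78acbae07c63a74aa37b150d694493725edd6708ad1fe69607b920a6e7f7b82da782b7c670436a37b150d277b9bb7bd201c5217b920d940c7b81f27bfc7c67ae4ba27b150d2a27c5738ad175ba73b8a8d9cdab6b723b6c707c6584d5577b150d2c406f298ad15a84657b8108071b7b7104a2837c6166f846c47ecbcc97b160d63472c7cf267bd22945c27b81864925a8c430d34 = true := by decide +kernel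

theorem cA22_15_3_37 : chunkOkM (LA22_15.ctx true true 82 1 1 1 1 1 1 1 1) muQ true true 64 RtA22_15.Cx.right.left RtA22_15.CX RtA22_15.Ctp.right.right.right.left RtA22_15.Ce.right.right.right.left.left.right RtA22_15.CTp.right RtA22_15.CEr 0x59 = true := by decide +kernel

theorem cA22_15_3_38 : chunkOkM (LA22_15.ctx true true 82 1 1 1 1 1 1 1 1) muQ true true 64 RtA22_15.Cx.right.right RtA22_15.CX RtA22_15.Ctp.right.right.right.left RtA22_15.Ce.right.right.right.left.left RtA22_15.CTp.right RtA22_15.CEr 0x49 = true := by decide +kernel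

theorem cA22_15_3_39 : chunkOkM (LA22_15.ctx true true 82 1 1 1 1 1 1 1 1) muQ true true 64 RtA22_15.Cx RtA22_15.CX RtA22_15.Ctp.right.right.right.left RtA22_15.Ce.right.right.right.left.right RtA22_15.CTp.right RtA22_15.CEr 0x59 = true := by decide +kernel

theorem cA22_15_3_40 : chunkOkM (LA22_15.ctx true true 82 1 1 1 1 1 1 1 1) muQ true true 64 RtA22_15.Cx.left RtA22_15.CX RtA22_15.Ctp.right.right.right.right.left RtA22_15.Ce.right.right.right.left RtA22_15.CTp.right RtA22_15.CEr 0x01 = true := by decide +kernel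

theorem cA22_15_3_41 : chunkOkM (LA22_15.ctx true true 203 43 16 7 8 122 228 16 32) muQ true true 64 RtA22_15.Cx.right RtA22_15.CX RtA22_15.Ctp.right.right.right.right.left RtA22_15.Ce.right.right.right.left.left RtA22_15.CTp.right RtA22_15.CEr.left 0xcfaf9e0485b8eee9fc349b8303ff06c6108b75d48cc1dd17b150d = true := by decide +kernel

theorem cA22_15_3_42 : chunkOkM (LA22_15.ctx true true 227 87 32 7 8 242 908 35 64) muQ true true 64 RtA22_15.Cx.right RtA22_15.CX RtA22_15.Ctp.right.right.right.right.left.left RtA22_15.Ce.right.right.right.left.left.left RtA22_15.CTp.right RtA22_15.CEr.right.left 0x2cbf94e7bd295dd847b8487655e129c44d26ac2929b140d39872d27bd1d37e257b88917b16b71ba4db6c693deb66c49711dbd7b160d3720ed67bd6ee235b8f6a2c86c682261797b140d37da0db7bd3c73ac6b811020caf8b67fbd1457b140d457 = true := by decide +kernel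

theorem cA22_15_3_43 : chunkOkM (LA22_15.ctx true true 222 85 32 7 8 242 452 32 77) muQ true true 64 RtA22_15.Cx.right.left RtA22_15.CX RtA22_15.Ctp.right.right.right.right.left.left RtA22_15.Ce.right.right.right.left.left.left RtA22_15.CTp.right.left RtA22_15.CEr.right.right 0x7542e9968ad7bb99b971c8cbef564b251beab7b68c0a7f67b150d = true := by decide +kernel

theorem cA22_15_3_44 : chunkOkM (LA22_15.ctx true true 234 169 64 7 8 482 900 35 77) muQ true true 64 RtA22_15.Cx.right.left RtA22_15.CX RtA22_15.Ctp.right.right.right.right.left.left RtA22_15.Ce.right.right.right.left.left.left.left RtA22_15.CTp.right.right RtA22_15.CEr.right.right 0x11692782c997bd1d83d077b91e3187f7b819ea85b7dff5196c691e30967b160d73 = true := by decide +kernel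

theorem cA22_15_3_45 : chunkOkM (LA22_15.ctx true true 249 171 64 7 8 966 1820 75 165) muQ true true 64 RtA22_15.Cx.right.left RtA22_15.CX RtA22_15.Ctp.right.right.right.right.left.left RtA22_15.Ce.right.right.right.left.left.left.right RtA22_15.CTp.right.right RtA22_15.CEr.right.right 0x8de5946b810569407b73051ffcb8c2ddad9e8f8b140d244fbfc7bd1802fab7b812352eb7b711c2d547c68fc49af7b150d273a51e78ad1be18fd7b91bd7a9af8a81b300d07c6965dd007b150d527304d5c8ad1d4ec987b9231ce0668a82cb81657c633efb16c45d601cf7b160d2a7ffc27bd17fe6d67b81102e117b7202beda7c629f7d46c46fc79327b160d6325e44127bd215358f7b9200b5b87b8184a0db7c6b5146597b150d22c91e87bd21eec647b927f93817b816d1326b72b0efff7c6720ee5b7b160d298e80d78ad1a5e9b97b91de21ef7b8168b1197c64b70e66c487ce5037b160d534257ff1918ad11c846c7b8f8aa676b712d16f9e8b6870f3ef7b150d73 = true := by decide +kernel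

theorem cA22_15_3_46 : chunkOkM (LA22_15.ctx true true 220 87 32 7 8 242 452 16 77) muQ true true 64 RtA22_15.Cx.right.right RtA22_15.CX RtA22_15.Ctp.right.right.right.right.left.left RtA22_15.Ce.right.right.right.left.left.left RtA22_15.CTp.right RtA22_15.CEr.right.right 0x2e8e6697bd5916fe61c2bd1faac59c42ef0156789b140d = true := by decide +kernel

theorem cA22_15_3_47 : chunkOkM (LA22_15.ctx true true 82 1 1 1 1 1 1 1 1) muQ true true 64 RtA22_15.Cx.right RtA22_15.CX RtA22_15.Ctp.right.right.right.right.left.right RtA22_15.Ce.right.right.right.left.left.left RtA22_15.CTp.right RtA22_15.CEr.right 0x11 = true := by decide +kernel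

theorem cA22_15_3_48 : chunkOkM (LA22_15.ctx true true 242 171 64 7 8 486 1836 35 165) muQ true true 64 RtA22_15.Cx.right.left RtA22_15.CX RtA22_15.Ctp.right.right.right.right.left.left RtA22_15.Ce.right.right.right.left.left.right RtA22_15.CTp.right RtA22_15.CEr.right 0x2127f506b7bd20bc70b7b921560957b8dfe8a36c68ed74a57b150d27193a958ad2493bbf7b922b01f47b81de46d02c9b640d2ca146b58ad1b416877b922a86ea68a811765447c678154337b150d2af27a4e8ad1707e837b813b56677b7f87f396c677cce2b7b150d64332419dc28ad147914c7b897e76e6b78ea6aa07b140d6607c417b8ad35b107b71c157df4274b5e2a6567b67bfb6167b150d3597fbb7bdf2c5616c679d51ef7b130d652174 = true := by decide +kernel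

theorem cA22_15_3_49 : chunkOkM (LA22_15.ctx true true 237 173 64 7 8 486 924 64 64) muQ true true 64 RtA22_15.Cx.right.right RtA22_15.CX RtA22_15.Ctp.right.right.right.right.left.left RtA22_15.Ce.right.right.right.left.left.right RtA22_15.CTp.right RtA22_15.CEr.right.left 0x408e2f07bd21caebf7b87978316b7249b316c6cb56c36c499735807b160d30d05067bd23bbc457b87aa1a06c6f6499e6c49444f577b150d24b60cc7bd158e36118b69dce9e6c486d43aa7b140d532bbe467bd144ebb6b82904b157c6a5c08317c440d33b74c5f7bd4fa7706b8ea2e0807b69c2b4b17b140d49352230f7bd1dd62b6b81a8869d7c6115701a7c4896098f7b150d7345 = true := by decide +kernel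

theorem cA22_15_3_50 : chunkOkM (LA22_15.ctx true true 222 87 32 7 8 242 460 32 77) muQ true true 64 RtA22_15.Cx.right.right RtA22_15.CX RtA22_15.Ctp.right.right.right.right.left.left RtA22_15.Ce.right.right.right.left.left.right RtA22_15.CTp.right.left RtA22_15.CEr.right.right 0x57483a808ad4d7d05071c287898874b1b5e4447b612538e27c4975d8237b160d = true := by decide +kernel

theorem cA22_15_3_51 : chunkOkM (LA22_15.ctx true true 251 345 128 7 8 974 1836 75 77) muQ true true 64 RtA22_15.Cx.right.right RtA22_15.CX RtA22_15.Ctp.right.right.right.right.left.left RtA22_15.Ce.right.right.right.left.left.right.left RtA22_15.CTp.right.right RtA22_15.CEr.right.right 0x11691d7086e7bd1a672957b85ff9e1628b11293ad948c040d207f4457bd1b463627b811d929a7b715028977c6831eace7b150d2ff5de758ad2308edd7b91ed28ef48a81412dc37c682e434d7b150d53711474928356df7bd19f2d767b81420d9f7b7fb27446c687fc366c4822f5db7b160d27230c9d8ad1cb9c507b92116f8b68a81e6eaa77c6ec948c6c488ac9c87b160d56924a01bd7bd21c610c7b9244de1b7b8488c7727c636c26c6c46ff6c4a7b160d24a85a608ad124b2ab7b91b6f3ad08a825762547c6858cf46c48b045297b160d57449373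 = true := by decide +kernel

theorem cA22_15_3_52 : chunkOkM (LA22_15.ctx true true 229 87 32 7 8 482 924 35 77) muQ true true 64 RtA22_15.Cx.right.right RtA22_15.CX RtA22_15.Ctp.right.right.right.right.left.left.left RtA22_15.Ce.right.right.right.left.left.right.right RtA22_15.CTp.right.right RtA22_15.CEr.right.right 0x275f1607bd16d6ddf7b8e40c8f6b7152d0f47c689ad1737c450d = true := by decide +kernel

theorem cA22_15_3_53 : chunkOkM (LA22_15.ctx true true 255 347 128 7 8 974 1852 75 165) muQ true true 64 RtA22_15.Cx.right.right.left RtA22_15.CX RtA22_15.Ctp.right.right.right.right.left.left.right RtA22_15.Ce.right.right.right.left.left.right.right RtA22_15.CTp.right.right RtA22_15.CEr.right.right 0x261ee9a7bd1950da77b812d699e7b717634d47c6799498e7b150d2cc1c8438ad22c99bc7b9203b9d1d8a819a26197c68871cee7b150d52727d4518ad1932f8478a8ff4f136b7489bb9f7c673909497b150d2c69850e8ad19af41df8a81306c8f7b71ae35f97c67791d427b150d6321723d3bf57bd199766f7b8160392f7b72948dc97c69401bee7b150d288aa38d8ad1c0eae67b91dacb707b814ab4ac7c69e1fddc7b19d41c5c060d52718cf47bd1983e7a7b811007a57b7948d656c68d2a53c7b150d28e00f458ad1da044d7b92293bc258a81b4a34f7c63b27bc6c47efc9e37b160d534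 = true := by decide +kernel

theorem cA22_15_3_54 : chunkOkM (LA22_15.ctx true true 269 697 256 7 8 3886 3708 75 77) muQ true true 64 RtA22_15.Cx.right.right.right RtA22_15.CX RtA22_15.Ctp.right.right.right.right.left.left.right RtA22_15.Ce.right.right.right.left.left.right.right RtA22_15.CTp.right.right RtA22_15.CEr.right.right 0x6924818a67bd19d344d7b8134c8077b7439e79d7c6738323f7b150d2747cb958ad20ad1597b924eca5e68a895241017c659fb8bd7b150d569474949228c34078ad1ab92e97b813f43d67b722b076d7c6653335d4956fd377b160d2b97185e8ad23b10c57b9243e48658a82dc4bfd7c662798b6c47d6cecd7b160d54934937732c8295e7bd1c395967b82ec2b07599c431fd866b99b140d4 = true := by decide +kernel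

theorem cA22_15_3_55 : chunkOkM (LA22_15.ctx true true 210 43 16 7 8 246 460 16 33) muQ true true 64 RtA22_15.Cx.right RtA22_15.CX RtA22_15.Ctp.right.right.right.right.left.right RtA22_15.Ce.right.right.right.left.left.right RtA22_15.CTp.right RtA22_15.CEr.right 0x46209d571c14863487b7293d10e38b6b23aed1b8c231a200e819b150d = true := by decide +kernel

theorem cA22_15_3_56 : chunkOkM (LA22_15.ctx true true 82 1 1 1 1 1 1 1 1) muQ true true 64 RtA22_15.Cx.right.left RtA22_15.CX RtA22_15.Ctp.right.right.right.right.left RtA22_15.Ce.right.right.right.left.right.left RtA22_15.CTp.right RtA22_15.CEr 0x21 = true := by decide +kernel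

theorem cA22_15_3_57 : chunkOkM (LA22_15.ctx true true 212 87 32 7 8 122 468 16 32) muQ true true 64 RtA22_15.Cx.right.right RtA22_15.CX RtA22_15.Ctp.right.right.right.right.left RtA22_15.Ce.right.right.right.left.right.left RtA22_15.CTp.right RtA22_15.CEr.left 0xd514918885baad30bfc59b884076037b130d = true := by decide +kernel

theorem cA22_15_3_58 : chunkOkM (LA22_15.ctx true true 232 87 32 7 8 486 932 64 64) muQ true true 64 RtA22_15.Cx.right.right RtA22_15.CX RtA22_15.Ctp.right.right.right.right.left.left RtA22_15.Ce.right.right.right.left.right.left.left RtA22_15.CTp.right RtA22_15.CEr.right.left 0x324581d28ad242cc377b8d807256b7f066fa6b6c9bdc36c491435247b160d2f6d6ce7bd1e03fb47b85ceb4ae7b69b19086c4971b5c57b150d2836f907bd10f54cf74bed5b42f7b65c0ed56c48f8639e7b150d53a53f06c35 = true := by decide +kernel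

theorem cA22_15_3_59 : chunkOkM (LA22_15.ctx true true 251 175 64 7 8 974 1868 75 165) muQ true true 64 RtA22_15.Cx.right.right RtA22_15.CX RtA22_15.Ctp.right.right.right.right.left.left RtA22_15.Ce.right.right.right.left.right.left.left RtA22_15.CTp.right RtA22_15.CEr.right.right 0x298155d28ad1df32607b926469557b813a060e7c6d22d346c47f8278a7b160d2dcdcc268ad199adf37b81213f1d7b714cdc2d7c6c04d976c48c41dc07b160d627889107bd1d688927b8147bd527b7ccb4e06c6adffa16c48c25ec87b160d2c992b778ad1c859337b920d11c948a812a13007c6bf283b6c49170f0f7b160d53c07350b8ad1f12c75649b5d783f6b38c430d342171a8381d7bd25f11907b8d58fbc6b74fb729a78b5267f757e8c450d35250c7cb8ad3a66b6471c1151ddb74b97d58157b683368217b150d5 = true := by decide +kernel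

theorem cA22_15_3_60 : chunkOkM (LA22_15.ctx true true 82 1 1 1 1 1 1 1 1) muQ true true 64 RtA22_15.Cx.right.right RtA22_15.CX RtA22_15.Ctp.right.right.right.right.left.left RtA22_15.Ce.right.right.right.left.right.left.right RtA22_15.CTp.right RtA22_15.CEr.right 0x59 = true := by decide +kernel

theorem cA22_15_3_61 : chunkOkM (LA22_15.ctx true true 82 1 1 1 1 1 1 1 1) muQ true true 64 RtA22_15.Cx.right.right.left RtA22_15.CX RtA22_15.Ctp.right.right.right.right.left.right.left RtA22_15.Ce.right.right.right.left.right.left RtA22_15.CTp.right RtA22_15.CEr.right 0x01 = true := by decide +kernel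

theorem cA22_15_3_62 : chunkOkM (LA22_15.ctx true true 234 175 64 7 8 490 940 32 77) muQ true true 64 RtA22_15.Cx.right.right.right RtA22_15.CX RtA22_15.Ctp.right.right.right.right.left.right.left RtA22_15.Ce.right.right.right.left.right.left RtA22_15.CTp.right.left RtA22_15.CEr.right 0x6c423ab38ad467054171c11b075574b2120c3b7b6844db307b150d330d1d57bdc108376b818036ad7c6790df677b140d32880107bdb2ae8b6b81f98d007c68ebe39b7b140d46 = true := by decide +kernel

end Vale.Agent.helper4.Q4
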