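import Vale.Agent.helper4.Q4TreeM
import Vale.Agent.helper4.Q4G.PA22_15_0
import Vale.Agent.helper4.Q4G.PA22_15_1
import Vale.Agent.helper4.Q4G.PA22_15_2

/-!
Checks for pairs of intervals of second moments.
-/

set_option maxRecDepth 100000
set_option linter.unusedVariables false

namespace Vale.Agent.helper4.Q4

theorem covA22_15 : LA22_15.Full muQ.val RtA22_15 := ⟨(LitT.Cov.split_t (LitT.cov_of_chunkM cA22_15_3_0) (LitT.Cov.split_t (LitT.cov_of_chunkM cA22_15_3_1) (LitT.Cov.split_e (LitT.cov_of_chunkM cA22_15_3_2) (LitT.Cov.split_t (LitT.cov_of_chunkM cA22_15_3_3) (LitT.Cov.split_e (LitT.cov_of_chunkM cA22_15_3_4) (LitT.Cov.split_T (LitT.cov_of_chunkM cA22_15_3_5) (LitT.Cov.split_e (LitT.Cov.split_e (LitT.cov_of_chunkM cA22_15_3_6) (LitT.Cov.split_t (LitT.Cov.split_e (LitT.Cov.split_E (LitT.cov_of_chunkM cA22_15_3_7) (LitT.Cov.split_t (LitT.cov_of_chunkM cA22_15_3_8)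 (LitT.Cov.split_x (LitT.Cov.split_e (LitT.cov_of_chunkM cA22_15_3_9) (LitT.Cov.split_t (LitT.Cov.split_E (LitT.cov_of_chunkM cA22_15_3_10) (LitT.cov_of_chunkM cA22_15_3_11)) (LitT.cov_of_chunkM cA22_15_3_12))) (LitT.cov_of_chunkM cA22_15_3_13)))) (LitT.Cov.split_E (LitT.cov_of_chunkM cA22_15_3_14) (LitT.Cov.split_t (LitT.cov_of_chunkM cA22_15_3_15) (LitT.Cov.split_x (LitT.Cov.split_e (LitT.Cov.split_t (LitT.Cov.split_E (LitT.cov_of_chunkM cA22_15_3_16) (LitT.cov_of_chunkM cA22_15_3_17)) (LitT.Cov.split_x (LitT.cov_of_chunkM cA22_15_3_18) (LitT.cov_of_chunkM cA22_15_3_19))) (LitT.Cov.split_x (LitT.cov_of_chunkM cA22_15_3_20) (LitT.Cov.split_t (LitT.cov_of_chunkM cA22_15_3_21) (LitT.Cov.split_E (LitT.cov_of_chunkM cA22_15_3_22) (LitT.cov_of_chunkM cA22_15_3_23))))) (LitT.Cov.split_x (LitT.Cov.split_t (LitT.cov_of_chunkM cA22_15_3_24) (LitT.Cov.split_e (LitT.cov_of_chunkM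 cA22_15_3_25) (LitT.Cov.split_E (LitT.cov_of_chunkM cA22_15_3_26) (LitT.cov_of_chunkM cA22_15_3_27)))) (LitT.cov_of_chunkM cA22_15_3_28)))))) (LitT.cov_of_chunkM cA22_15_3_29))) (LitT.Cov.split_e (LitT.Cov.split_t (LitT.Cov.split_e (LitT.Cov.split_x (LitT.cov_of_chunkM cA22_15_3_30) (LitT.Cov.split_x (LitT.Cov.split_e (LitT.Cov.split_t (LitT.cov_of_chunkM cA22_15_3_31) (LitT.Cov.split_t (LitT.cov_of_chunkM cA22_15_3_32) (LitT.Cov.split_E (LitT.cov_of_chunkM cA22_15_3_33) (LitT.Cov.split_E (LitT.cov_of_chunkM cA22_15_3_34) (LitT.Cov.split_T (LitT.cov_of_chunkM cA22_15_3_35) (LitT.cov_of_chunkM cA22_15_3_36)))))) (LitT.cov_of_chunkM cA22_15_3_37)) (LitT.cov_of_chunkM cA22_15_3_38))) (LitT.cov_of_chunkM cA22_15_3_39)) (LitT.Cov.split_t (LitT.Cov.split_x (LitT.cov_of_chunkM cA22_15_3_40) (LitT.Cov.split_e (LitT.Cov.split_E (LitT.cov_of_chunkM cA22_15_3_41) (LitT.Cov.split_e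 (LitT.Cov.split_t (LitT.Cov.split_E (LitT.cov_of_chunkM cA22_15_3_42) (LitT.Cov.split_x (LitT.Cov.split_T (LitT.cov_of_chunkM cA22_15_3_43) (LitT.Cov.split_e (LitT.cov_of_chunkM cA22_15_3_44) (LitT.cov_of_chunkM cA22_15_3_45))) (LitT.cov_of_chunkM cA22_15_3_46))) (LitT.cov_of_chunkM cA22_15_3_47)) (LitT.Cov.split_t (LitT.Cov.split_x (LitT.cov_of_chunkM cA22_15_3_48) (LitT.Cov.split_E (LitT.cov_of_chunkM cA22_15_3_49) (LitT.Cov.split_T (LitT.cov_of_chunkM cA22_15_3_50) (LitT.Cov.split_e (LitT.cov_of_chunkM cA22_15_3_51) (LitT.Cov.split_t (LitT.cov_of_chunkM cA22_15_3_52) (LitT.Cov.split_x (LitT.cov_of_chunkM cA22_15_3_53) (LitT.cov_of_chunkM cA22_15_3_54))))))) (LitT.cov_of_chunkM cA22_15_3_55)))) (LitT.Cov.split_e (LitT.Cov.split_x (LitT.cov_of_chunkM cA22_15_3_56) (LitT.Cov.split_E (LitT.cov_of_chunkM cA22_15_3_57) (LitT.Cov.split_t (LitT.Cov.split_e (LitT.Cov.split_E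 (LitT.cov_of_chunkM cA22_15_3_58) (LitT.cov_of_chunkM cA22_15_3_59)) (LitT.cov_of_chunkM cA22_15_3_60)) (LitT.Cov.split_t (LitT.Cov.split_x (LitT.cov_of_chunkM cA22_15_3_61) (LitT.Cov.split_T (LitT.cov_of_chunkM cA22_15_3_62) (LitT.Cov.split_e (LitT.cov_of_chunkM cA22_15_3_63) (LitT.cov_of_chunkM cA22_15_3_64)))) (LitT.cov_of_chunkM cA22_15_3_65))))) (LitT.cov_of_chunkM cA22_15_3_66)))) (LitT.cov_of_chunkM cA22_15_3_67))) (LitT.cov_of_chunkM cA22_15_3_68))))))))), (LitT.cov_of_chunkM cA22_15_1_0), (LitT.cov_of_chunkM cA22_15_2_0), (LitT.cov_of_chunkM cA22_15_0_0)⟩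

end Vale.Agent.helper4.Q4
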