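import Vale.Agent.helper4.Q4TreeM
import Vale.Agent.helper4.Q4G.PA22_16

/-!
Checks for pairs of intervals of second moments.
-/

set_option maxRecDepth 100000
set_option linter.unusedVariables false

namespace Vale.Agent.helper4.Q4

theorem cA22_16_3_0 : chunkOkM (LA22_16.ctx true true 85 1 1 1 1 1 1 1 1) muQ true true 64 RtA22_16.Cx RtA22_16.CX RtA22_16.Ctp.left RtA22_16.Ce RtA22_16.CTp RtA22_16.CEr 0x41 = true := by decide +kernel

theorem cA22_16_3_1 : chunkOkM (LA22_16.ctx true true 85 1 1 1 1 1 1 1 1) muQ true true 64 RtA22_16.Cx RtA22_16.CX RtA22_16.Ctp.right.left RtA22_16.Ce RtA22_16.CTp RtA22_16.CEr 0x41 = true := by decide +kernel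

theorem cA22_16_3_2 : chunkOkM (LA22_16.ctx true true 85 1 1 1 1 1 1 1 1) muQ true true 64 RtA22_16.Cx RtA22_16.CX RtA22_16.Ctp.right.right RtA22_16.Ce.left RtA22_16.CTp RtA22_16.CEr 0x11 = true := by decide +kernel

theorem cA22_16_3_3 : chunkOkM (LA22_16.ctx true true 85 1 1 1 1 1 1 1 1) muQ true true 64 RtA22_16.Cx RtA22_16.CX RtA22_16.Ctp.right.right.left RtA22_16.Ce.right RtA22_16.CTp RtA22_16.CEr 0x49 = true := by decide +kernel

theorem cA22_16_3_4 : chunkOkM (LA22_16.ctx true true 85 1 1 1 1 1 1 1 1) muQ true true 64 RtA22_16.Cx RtA22_16.CX RtA22_16.Ctp.right.right.right RtA22_16.Ce.right.left RtA22_16.CTp RtA22_16.CEr 0x11 = true := by decide +kernel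

theorem cA22_16_3_5 : chunkOkM (LA22_16.ctx true true 85 1 1 1 1 1 1 1 1) muQ true true 64 RtA22_16.Cx RtA22_16.CX RtA22_16.Ctp.right.right.right RtA22_16.Ce.right.right RtA22_16.CTp.left RtA22_16.CEr 0x42 = true := by decide +kernel

theorem cA22_16_3_6 : chunkOkM (LA22_16.ctx true true 85 1 1 1 1 1 1 1 1) muQ true true 64 RtA22_16.Cx RtA22_16.CX RtA22_16.Ctp.right.right.right RtA22_16.Ce.right.right RtA22_16.CTp.right.left RtA22_16.CEr 0x4a = true := by decide +kernel

theorem cA22_16_3_7 : chunkOkM (LA22_16.ctx true true 85 1 1 1 1 1 1 1 1) muQ true true 64 RtA22_16.Cx RtA22_16.CX RtA22_16.Ctp.right.right.right RtA22_16.Ce.right.right RtA22_16.CTp.right.right RtA22_16.CEr.left 0x12 = true := by decide +kernel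

theorem cA22_16_3_8 : chunkOkM (LA22_16.ctx true true 198 21 8 9 8 30 100 77 21) muQ true true 64 RtA22_16.Cx RtA22_16.CX RtA22_16.Ctp.right.right.right RtA22_16.Ce.right.right.left.left RtA22_16.CTp.right.right RtA22_16.CEr.right 0xc69b3c6cd26005a66be000e7578d4f12f9e798c140d = true := by decide +kernel

theorem cA22_16_3_9 : chunkOkM (LA22_16.ctx true true 233 81 32 9 8 118 428 143 161) muQ true true 64 RtA22_16.Cx RtA22_16.CX RtA22_16.Ctp.right.right.right.left RtA22_16.Ce.right.right.left.right.left RtA22_16.CTp.right.right RtA22_16.CEr.right.left 0x12112e0cdd67cd89c3a16c825a1e5e7c62df2db6d44380a347c150d694749492ad66047cd88136f6c8d3bf8a6c678ba2d6d4400841b7c150d7736a65126 = true := by decide +kernel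

theorem cA22_16_3_10 : chunkOkM (LA22_16.ctx true true 254 161 64 19 16 462 852 165 105) muQ true true 64 RtA22_16.Cx RtA22_16.CX RtA22_16.Ctp.right.right.right.left.left RtA22_16.Ce.right.right.left.right.left RtA22_16.CTp.right.right RtA22_16.CEr.right.right 0x4949495921c253dc8bd1e716467c9eaf99587b819af01cd8c640d3f23d7f8f91c32ced18585b13a40ca38c630d52281611d0bd8bdec09b16c9119ddb708b830ccebe7d640d1c10e58e8bd38e91b37b81ac714208c630d5641777a1cf8bd1bd84a672c12a757c28b812cf47c88c61f15bcc7c150d36dd33ab391c27186ca885b219e4d388c630d5228169971c28bdcb350f6c9fc50db37b839804b928c640d1956dc07cd14fd1f47b829e1ba6c7276880e38c610ea3e07c150d566944493493777 = true := by decide +kernel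

theorem cA22_16_3_11 : chunkOkM (LA22_16.ctx true true 85 1 1 1 1 1 1 1 1) muQ true true 64 RtA22_16.Cx.left RtA22_16.CX RtA22_16.Ctp.right.right.right.left.right RtA22_16.Ce.right.right.left.right.left.left RtA22_16.CTp.right.right RtA22_16.CEr.right.right 0x69 = true := by decide +kernel

theorem cA22_16_3_12 : chunkOkM (LA22_16.ctx true true 279 321 128 19 16 1874 3420 165 105) muQ true true 64 RtA22_16.Cx.left.left RtA22_16.CX RtA22_16.Ctp.right.right.right.left.right.left RtA22_16.Ce.right.right.left.right.left.right.left RtA22_16.CTp.right.right RtA22_16.CEr.right.right 0x1a2d69a7cdf6215062cf8a5296c87dd12767c6337e83a7c150d4263686982c3b27ac7e85b3175463c8c64d3d5fdf8b140d522811110101126c3a758bd8136926c9bc5408a7b836dc36b7d648674307c150d1775280c8bd41925c6b81a7727c7b71c18c5c7d641cdda07c150d531143711471ed342ff8bdd2b3516c9ec21646c85f99c817c637f7c1f7c150d199b6af7cd18bfb46c779d6a62329ac6a256d9bb8d440d1c77374b8bdef7a636b85d7c95c7a6625007c6330b8527c150d7536 = true := by decide +kernel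

theorem cA22_16_3_13 : chunkOkM (LA22_16.ctx true true 254 163 64 19 16 470 860 165 105) muQ true true 64 RtA22_16.Cx.left.left RtA22_16.CX RtA22_16.Ctp.right.right.right.left.right.left RtA22_16.Ce.right.right.left.right.left.right.right RtA22_16.CTp.right.right RtA22_16.CEr.right.right 0x1e53f59a8bd88e92387b84165ac6c75bce40d7c636ea6a77c150d434dbad6a91c3622cf4385b4d07296c622f04ef7c43c69be27c150d522819b2492d8bdbf87c06c9ebf09a07b8db816ae7c6329aceb7c150d1dcbe987cd11b43827b88beb5e97c639bd23d7c140d51a4bf06b8bdf1c1406c91336cb8f8b819aff06d6f67e05d4403e6917c160d1a205cbb8bd39ec07b7b8178241a18c6261bd5f7c140d193bee228bd2be77db7b81adce70d8c61c3cb8c7c140d7536 = true := by decide +kernel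

theorem cA22_16_3_14 : chunkOkM (LA22_16.ctx true true 230 83 32 9 8 234 428 77 49) muQ true true 64 RtA22_16.Cx.left.right RtA22_16.CX RtA22_16.Ctp.right.right.right.left.right.left RtA22_16.Ce.right.right.left.right.left.right RtA22_16.CTp.right.right RtA22_16.CEr.right.right 0x23cc64f7cdbc75ca6c8e1de89c28d4f77918308c140d = true := by decide +kernel

theorem cA22_16_3_15 : chunkOkM (LA22_16.ctx true true 224 41 16 9 8 238 428 77 49) muQ true true 64 RtA22_16.Cx.left RtA22_16.CX RtA22_16.Ctp.right.right.right.left.right.right RtA22_16.Ce.right.right.left.right.left.right RtA22_16.CTp.right.right RtA22_16.CEr.right.right 0x1536b157cde77a4e62c50c3182c8c1f15778398c040d = true := by decide +kernel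

theorem cA22_16_3_16 : chunkOkM (LA22_16.ctx true true 85 1 1 1 1 1 1 1 1) muQ true true 64 RtA22_16.Cx.right RtA22_16.CX RtA22_16.Ctp.right.right.right.left.right RtA22_16.Ce.right.right.left.right.left RtA22_16.CTp.right.right RtA22_16.CEr.right.right 0x11 = true := by decide +kernel

theorem cA22_16_3_17 : chunkOkM (LA22_16.ctx true true 238 85 32 9 8 238 444 143 161) muQ true true 64 RtA22_16.Cx RtA22_16.CX RtA22_16.Ctp.right.right.right.left RtA22_16.Ce.right.right.left.right.right RtA22_16.CTp.right.right RtA22_16.CEr.right.left 0x12493cef3a67cdb4310b6c85299896c6a4ba066d4462572c7c150d7200124e7cdb8f7556c8202780d7c646195a6d4412de747c150d2172a57bcd7cdcb1d1c6c817fdbd17c643e39687c140d28592097cd9cca8f6c827256a47c6521ca66d43ebb3d87c150d34774f44e27cdbf1ad165b819a9cfa8c531b7f3c58d440d36a65126 = true := by decide +kernel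

theorem cA22_16_3_18 : chunkOkM (LA22_16.ctx true true 212 21 8 9 8 114 220 77 49) muQ true true 64 RtA22_16.Cx RtA22_16.CX RtA22_16.Ctp.right.right.right.left.left RtA22_16.Ce.right.right.left.right.right RtA22_16.CTp.right.right RtA22_16.CEr.right.right 0x1ba02137cd30aff6075b3bb52557c88e6691768c53821071d8d450d = true := by decide +kernel

theorem cA22_16_3_19 : chunkOkM (LA22_16.ctx true true 272 655 256 9 8 1886 3492 165 91) muQ true true 64 RtA22_16.Cx.left.left RtA22_16.CX RtA22_16.Ctp.right.right.right.left.right.left RtA22_16.Ce.right.right.left.right.right.left RtA22_16.CTp.right.right RtA22_16.CEr.right.right.left 0x21591305e83d8bd970eb36c9f6069747b895949b37d640d1a4a4f06c5217217017593593593441ad893138bd126e1c27c9f31d25c7b88486a66c63f2a5887c150d1d120c968bdedc23e6b88962d497c6356341b7c140d1dbc523c8bda78f526b834be215d8c630d354 = true := by decide +kernel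

theorem cA22_16_3_20 : chunkOkM (LA22_16.ctx true true 248 167 64 9 8 470 876 165 91) muQ true true 64 RtA22_16.Cx.left.right RtA22_16.CX RtA22_16.Ctp.right.right.right.left.right.left RtA22_16.Ce.right.right.left.right.right.left RtA22_16.CTp.right.right RtA22_16.CEr.right.right.left 0x21bd9c4e8bdc1282b6c911488827c82eacd76d62cc2dd6d43f3a36a7c160d1f310ff7cd6791a6b7b82089a86c73a82637a8c6139a78c7d450d1d44e03c8bd34e07bb7b8412da86b7daa66cc7c62fbfdd77c150d75691d6ac80c8bdd81ddd6c9f508d76c8a14c2a27c637687a57c150d1eaebdc7cd339b10a7b8d0c265c7da920b97c63259f147c150d574493 = true := by decide +kernel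

theorem cA22_16_3_21 : chunkOkM (LA22_16.ctx true true 249 83 32 19 16 470 876 165 105) muQ true true 64 RtA22_16.Cx.left RtA22_16.CX RtA22_16.Ctp.right.right.right.left.right.left RtA22_16.Ce.right.right.left.right.right.left RtA22_16.CTp.right.right RtA22_16.CEr.right.right.right 0x20ff665b8bdb841c66c9d547bf47b882537dd7c62cd7e46d433c14bd7c160d1ada0417cd144e79c72c122c5f27c8e3ce6f27c631d1746d432561c07c160d44931c3b9b27cd1b691e572c1419f417c842a016b7c6351a4467c150d786ce2f9882c6be3fe2185b128bfd47c62782696d43c3f28e7c150d5228 = true := by decide +kernel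

theorem cA22_16_3_22 : chunkOkM (LA22_16.ctx true true 266 327 128 19 16 946 1748 165 105) muQ true true 64 RtA22_16.Cx.left.left RtA22_16.CX RtA22_16.Ctp.right.right.right.left.right.right RtA22_16.Ce.right.right.left.right.right.left RtA22_16.CTp.right.right RtA22_16.CEr.right.right 0x0101211806173b8bd49e3a4a7b848a40fd7b71d94cb57d641cc8f37c150d3316eb15591c2955c938394b3703fad7c130d522816f8e9888bd6287d117b8730b706c7745ba16d63c2b7dd7c150d1a2ce4eb8bd2199bf17b819176d87d62b90e347c12fcb2cf7c050d56417b313668bd12a210972cdaf7a3d7b832616d6c71fa7c267d63fd5eac7c160d33e5df5f391c29e922f3794b4385c217c130d5228173b24f68bd8dafb627b864fb166c7b0f18f6d642f65d87c150d17537a968bd12176517b82d5bc327d6556c8f47c140d56114401701733 = true := by decide +kernel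

theorem cA22_16_3_23 : chunkOkM (LA22_16.ctx true true 254 165 64 19 16 478 876 165 105) muQ true true 64 RtA22_16.Cx.left.right RtA22_16.CX RtA22_16.Ctp.right.right.right.left.right.right RtA22_16.Ce.right.right.left.right.right.left RtA22_16.CTp.right.right RtA22_16.CEr.right.right 0x6920d2d287cdebdfe76c9cf68acd7b8e16c1c77c6344fc897c150d436eabb9191c3608eb6785b3894c5498b130d52282b8c14c88bd3cc4a667c9109ee747c7142eab938c1ad8f97f18c050d190ddc7e8bd9ce1406c911e1b2c18b84afe106d63d781077c150d1da71a97cd20072507b8a89471b7c63c995437c140d5367114 = true := by decide +kernel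

theorem cA22_16_3_24 : chunkOkM (LA22_16.ctx true true 85 1 1 1 1 1 1 1 1) muQ true true 64 RtA22_16.Cx.left.left RtA22_16.CX RtA22_16.Ctp.right.right.right.left.right RtA22_16.Ce.right.right.left.right.right.right RtA22_16.CTp.right.right RtA22_16.CEr.right.right 0x21 = true := by decide +kernel

theorem cA22_16_3_25 : chunkOkM (LA22_16.ctx true true 244 83 32 9 8 470 884 165 105) muQ true true 64 RtA22_16.Cx.left.right RtA22_16.CX RtA22_16.Ctp.right.right.right.left.right.left RtA22_16.Ce.right.right.left.right.right.right RtA22_16.CTp.right.right RtA22_16.CEr.right.right 0x59218b771a8bd1b22f4472c56c52f6c91359fdcd8b8c9523757c62834e4b7d460dac3b1fa88bd4c7f655d82c3cb89f0585b29336057c630fb3097d450d520783a478bd77645877b8205c0f6c7da2e8867c6253ec367d450d64493 = true := by decide +kernel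

theorem cA22_16_3_26 : chunkOkM (LA22_16.ctx true true 251 167 64 9 8 478 1772 165 91) muQ true true 64 RtA22_16.Cx.left.right RtA22_16.CX RtA22_16.Ctp.right.right.right.left.right.right RtA22_16.Ce.right.right.left.right.right.right RtA22_16.CTp.right.right RtA22_16.CEr.right.right.left 0x1b4eacab8bdddec16e7b8ae47f36c7345ab9d7c638a2fd17c150d1dd58f338bd30a82067b8a50f5b6d639480e37c140d1dade11f8bd4c2b19d7b81c346a47b710a947208c625827327c150d35217200038d08bdd6b0b16c911a63f87c837585f27c63a666d97c150d20ae2eb7cd25eb096c8763a84f7c63cdeb517c140d51b4c435d8bdb3b9a26c9123d97458b859c75b6d62fd5966d43efd1fe7c160d1bd6267e8bd4f42fe37b81c83f297d62ea572a7c140d1d2a2647cd41702247b816441c6c71b3aa4338c62d692537c150d41d9232a08bde016e66b7a8ea6e57c639267bf7c140d7534 = true := by decide +kernel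

theorem cA22_16_3_27 : chunkOkM (LA22_16.ctx true true 245 83 32 19 16 238 892 165 105) muQ true true 64 RtA22_16.Cx.left.right RtA22_16.CX RtA22_16.Ctp.right.right.right.left.right.right RtA22_16.Ce.right.right.left.right.right.right RtA22_16.CTp.right.right RtA22_16.CEr.right.right.right 0x1d544b5d8bd172411372c13a547708b88917f047c634de9337c150d20762237cd1f1e0a072c16554d1c8b8707cc867c637636157c150d461c929c382c4eb9355685b3a9f9d97c130d5228 = true := by decide +kernel

end Vale.Agent.helper4.Q4
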