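import Vale.Agent.helper4.Q4TreeM
import Vale.Agent.helper4.Q4G.PA22_16

/-!
Checks for pairs of intervals of second moments.
-/

set_option maxRecDepth 100000
set_option linter.unusedVariables false

namespace Vale.Agent.helper4.Q4

theorem cA22_16_3_28 : chunkOkM (LA22_16.ctx true true 268 673 256 19 16 478 1788 165 105) muQ true true 64 RtA22_16.Cx.right RtA22_16.CX RtA22_16.Ctp.right.right.right.left.right RtA22_16.Ce.right.right.left.right.right RtA22_16.CTp.right.right RtA22_16.CEr.right.right 0x491ece44e7cd9b54f16c9e683eb6c8ad6ffbc7c635059a6d438c1ad77c160d1b6e6cd7cdbd63a362c790aeb6c9127fae17c810ba8cdb8c6db9ee76d427ef20c7c170d312cd13e7cdb518d46c8803c8d138d48d8cd3098c140d471a91ffe82c5bd462a985b929fc86c62fcd9d6d43e03be978b150d522820c6e7e7cd11fff1a7c915837127c87eabf2c7c63cff7b6d43f642a37c160d204374988bd13496cb7c912b79127c8d48bbf97c6b4ca4a6d42f5b2947c160d3691ed86657cd5059f937b81707ca6c7164022558c6325c98b7c150d69474949491d892a3f8bd4bad44b7b815bf3337b712968087d62dcdc36d42cd1a2e7c160d777352e1a0a97cd680d5a65b3c9535c8e0833e998d4f773ef528c150d461144937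 = true := by decide +kernel

theorem cA22_16_3_29 : chunkOkM (LA22_16.ctx true true 202 21 8 9 8 62 108 77 21) muQ true true 64 RtA22_16.Cx RtA22_16.CX RtA22_16.Ctp.right.right.right.right RtA22_16.Ce.right.right.left.right RtA22_16.CTp.right.right RtA22_16.CEr.right 0x536d5d672c172135d71b36d03e29c15f411d838d040d = true := by decide +kernel

theorem cA22_16_3_30 : chunkOkM (LA22_16.ctx true true 234 85 32 9 8 118 452 143 161) muQ true true 64 RtA22_16.Cx RtA22_16.CX RtA22_16.Ctp.right.right.right.left RtA22_16.Ce.right.right.right.left.left RtA22_16.CTp.right.right RtA22_16.CEr.right.left 0x12495926f8c407cdc86b7d6c81d678c37c66f45486d4418bbd37c150d4721732d6b5f04b36a65126 = true := by decide +kernel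

theorem cA22_16_3_31 : chunkOkM (LA22_16.ctx true true 212 21 8 9 8 114 228 77 49) muQ true true 64 RtA22_16.Cx RtA22_16.CX RtA22_16.Ctp.right.right.right.left.left RtA22_16.Ce.right.right.right.left.left RtA22_16.CTp.right.right RtA22_16.CEr.right.right 0x45cd56a7cd3056fbb72c1b8b1c8e8d47466c347d240d = true := by decide +kernel

theorem cA22_16_3_32 : chunkOkM (LA22_16.ctx true true 85 1 1 1 1 1 1 1 1) muQ true true 64 RtA22_16.Cx.left RtA22_16.CX RtA22_16.Ctp.right.right.right.left.right RtA22_16.Ce.right.right.right.left.left RtA22_16.CTp.right.right RtA22_16.CEr.right.right 0x21 = true := by decide +kernel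

theorem cA22_16_3_33 : chunkOkM (LA22_16.ctx true true 85 1 1 1 1 1 1 1 1) muQ true true 64 RtA22_16.Cx.right.left RtA22_16.CX RtA22_16.Ctp.right.right.right.left.right.left RtA22_16.Ce.right.right.right.left.left.left RtA22_16.CTp.right.right RtA22_16.CEr.right.right 0x49 = true := by decide +kernel

theorem cA22_16_3_34 : chunkOkM (LA22_16.ctx true true 264 341 128 9 8 958 1804 297 91) muQ true true 64 RtA22_16.Cx.right.left RtA22_16.CX RtA22_16.Ctp.right.right.right.left.right.right RtA22_16.Ce.right.right.right.left.left.left.left RtA22_16.CTp.right.right RtA22_16.CEr.right.right.left 0x1d9255fe8bd140e7ff7c915eb37c7c89ac9586d6a78ea36d43fc43d07c160d1eb576978bdd01bad6c9fc24c9e7b81b4a296d63a38886d4425d5947c160d73f1f6dce8bdb8a815538c54647eb4d8d430d34919f1f55d8bd922fe957b87d02c847d630d69449371db6cb4b8bd4702d7d7b8e80fc46b718ac69638c633acfeb7c150d1a76a9168bd64e5e66c9e6830347b81011c717d6347ddff7c150d1dd06a818bd8622d5d7c63e0e02b7c130d547329c75b68bdc5acbcd7d420d35 = true := by decide +kernel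

theorem cA22_16_3_35 : chunkOkM (LA22_16.ctx true true 253 341 128 9 8 478 908 165 91) muQ true true 64 RtA22_16.Cx.right.left RtA22_16.CX RtA22_16.Ctp.right.right.right.left.right.right RtA22_16.Ce.right.right.right.left.left.left.right RtA22_16.CTp.right.right RtA22_16.CEr.right.right.left 0x20e4ff878bd11eb92b7c91444230e8b81ff96907c63576776d43e523587c160d491dff39988bd6525eae7b824214427b7324791258c6aabfa56d450d71fb24f06c74ddff5f04b35 = true := by decide +kernel

theorem cA22_16_3_36 : chunkOkM (LA22_16.ctx true true 254 171 64 19 16 478 908 165 105) muQ true true 64 RtA22_16.Cx.right.left RtA22_16.CX RtA22_16.Ctp.right.right.right.left.right.right RtA22_16.Ce.right.right.right.left.left.left RtA22_16.CTp.right.right RtA22_16.CEr.right.right.right 0x1d7c1c97cd1102dc62c6e75dc6c9ef7adb6c8a377cb17c658d5e66d4335df767c170d1df58d67cd774bad62c8c57bc6c910e8ba988b8e79ed977c68cd4116d43fe65c57c170d1d99a39d8bd83a79e6c9f49b2ab7b88a2003e7c6334ad367c150d723a9dd798bd13c7d57d8b8a60fe307d430d34801e55a682c66d4cdcd85b13db7417c6251cb56d43f4bba77c150d5228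 = true := by decide +kernel

theorem cA22_16_3_37 : chunkOkM (LA22_16.ctx true true 85 1 1 1 1 1 1 1 1) muQ true true 64 RtA22_16.Cx.right.left RtA22_16.CX RtA22_16.Ctp.right.right.right.left.right RtA22_16.Ce.right.right.right.left.left.right RtA22_16.CTp.right.right RtA22_16.CEr.right.right 0x59 = true := by decide +kernel

theorem cA22_16_3_38 : chunkOkM (LA22_16.ctx true true 85 1 1 1 1 1 1 1 1) muQ true true 64 RtA22_16.Cx.right.right RtA22_16.CX RtA22_16.Ctp.right.right.right.left.right RtA22_16.Ce.right.right.right.left.left RtA22_16.CTp.right.right RtA22_16.CEr.right.right 0x49 = true := by decide +kernel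

theorem cA22_16_3_39 : chunkOkM (LA22_16.ctx true true 85 1 1 1 1 1 1 1 1) muQ true true 64 RtA22_16.Cx RtA22_16.CX RtA22_16.Ctp.right.right.right.left RtA22_16.Ce.right.right.right.left.right RtA22_16.CTp.right.right RtA22_16.CEr.right 0x59 = true := by decide +kernel

theorem cA22_16_3_40 : chunkOkM (LA22_16.ctx true true 85 1 1 1 1 1 1 1 1) muQ true true 64 RtA22_16.Cx.left RtA22_16.CX RtA22_16.Ctp.right.right.right.right.left RtA22_16.Ce.right.right.right.left RtA22_16.CTp.right.right RtA22_16.CEr.right 0x01 = true := by decide +kernel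

theorem cA22_16_3_41 : chunkOkM (LA22_16.ctx true true 239 87 32 9 8 246 460 143 161) muQ true true 64 RtA22_16.Cx.right RtA22_16.CX RtA22_16.Ctp.right.right.right.right.left RtA22_16.Ce.right.right.right.left.left RtA22_16.CTp.right.right RtA22_16.CEr.right.left 0x1287d26c6c84568ad2d8d21356232f09c130d2e8d5427cde1fda56c81f3cf077c672375e6d4453aab47c150d1ab6cdda8bd12e9aa47c8216ee637c63e717f07c140d7336a13f47cdbf89ce6c82396dda7c63e692e6d4471e4bf7c150d46a65126 = true := by decide +kernel

theorem cA22_16_3_42 : chunkOkM (LA22_16.ctx true true 258 169 64 19 16 962 900 165 105) muQ true true 64 RtA22_16.Cx.right.left RtA22_16.CX RtA22_16.Ctp.right.right.right.right.left.left RtA22_16.Ce.right.right.right.left.left.left.left RtA22_16.CTp.right.right RtA22_16.CEr.right.right 0x1169011bf6b2188bdb6d93b37b8455ef86c79ae6df67c638f7e147c150d34953aedd91c2ad58a06994b129f37e7c63c53fbf7c140d522818ce53688bd12ae8647c9149b7eaa8b88a29e66d64c220037c150d1fe7da87cd361aa727b82b4295c7928d7a6d63ec36767c150d56373 = true := by decide +kernel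

theorem cA22_16_3_43 : chunkOkM (LA22_16.ctx true true 259 171 64 9 8 966 1820 297 91) muQ true true 64 RtA22_16.Cx.right.left RtA22_16.CX RtA22_16.Ctp.right.right.right.right.left.left RtA22_16.Ce.right.right.right.left.left.left.right RtA22_16.CTp.right.right RtA22_16.CEr.right.right.left 0x176758d08bd9bc8af6c8220e60508d29ea65d7b8c140d1f0a04b88bde62d5e6c9148ca8e7c8426abf6d62c4a8f6d43fcf92c7c160d1e29f6fd8bda28d3d6c84e6ef76c7c999d26d61e0f676d43c31a3b7c160d213e72b18bd587c27a7c63d761c47c130d51f2b8817cd3658f977b82f9d6a6c711a0d1d28c6549e0187c150d1dc847a7cd47ac166c9c55ea36c8b7fa866d642ea1877c150d2290fbe58bd5eba5c97c62138a5d43c01af57c140d5341da964e38bd347315e7b89f5da3b7c61bb2e727c23bd31f07c150d753 = true := by decide +kernel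

theorem cA22_16_3_44 : chunkOkM (LA22_16.ctx true true 254 171 64 19 16 486 908 165 105) muQ true true 64 RtA22_16.Cx.right.left RtA22_16.CX RtA22_16.Ctp.right.right.right.right.left.left RtA22_16.Ce.right.right.right.left.left.left.right RtA22_16.CTp.right.right RtA22_16.CEr.right.right.right 0x86ca766cdb1ec746c8ba28080a8c22dac855f8c140d1de747dc8bd2a0ed862c73cbcf6c9ff0fa8e7b896ea8417c61e27a06d43947e8b7c170d1afc38b78bdab85bfc7b84b865f6c78429a477c634ceee67c1b0652c6c060d7342a61dc182c35e9f6bf85b1631fa6c63bc848f48b140d5228 = true := by decide +kernel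

theorem cA22_16_3_45 : chunkOkM (LA22_16.ctx true true 231 87 32 9 8 242 452 77 49) muQ true true 64 RtA22_16.Cx.right.right RtA22_16.CX RtA22_16.Ctp.right.right.right.right.left.left RtA22_16.Ce.right.right.right.left.left.left RtA22_16.CTp.right.right RtA22_16.CEr.right.right 0x21973d77cd4399846c8212b546c71e0b769659d4200c5a3699c150d = true := by decide +kernel

theorem cA22_16_3_46 : chunkOkM (LA22_16.ctx true true 85 1 1 1 1 1 1 1 1) muQ true true 64 RtA22_16.Cx.right RtA22_16.CX RtA22_16.Ctp.right.right.right.right.left.right RtA22_16.Ce.right.right.right.left.left.left RtA22_16.CTp.right.right RtA22_16.CEr.right.right 0x11 = true := by decide +kernel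

theorem cA22_16_3_47 : chunkOkM (LA22_16.ctx true true 257 171 64 19 16 486 916 165 189) muQ true true 64 RtA22_16.Cx.right.left RtA22_16.CX RtA22_16.Ctp.right.right.right.right.left.left RtA22_16.Ce.right.right.right.left.left.right RtA22_16.CTp.right.right RtA22_16.CEr.right.right 0x211f9e75dd8bd21eb18e72c18d932b28b856343197c639192cf7c150d47f6e40082c3a3755b385b34444c37c634df1457c140d52281ffc68538bd11c1ea57c910ea6eb38b81c28bf67c63ee96d37c150d1f5ba0b7cd3b808fb7b86ba3c7abdf506d64220b427c150d1d20cde28bd271d5265b46b13947b8bd9904e7c63725ce67c150d1d6283398bd4918e5c9978b84c7b84160c887c63f7303a7c150d63562174 = true := by decide +kernel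

theorem cA22_16_3_48 : chunkOkM (LA22_16.ctx true true 264 345 128 9 8 966 1836 165 189) muQ true true 64 RtA22_16.Cx.right.right RtA22_16.CX RtA22_16.Ctp.right.right.right.right.left.left RtA22_16.Ce.right.right.right.left.left.right.left RtA22_16.CTp.right.right RtA22_16.CEr.right.right.left 0x11202b7b018bd12276557c915650377c876b8de6d644e716e7c150d74922009e9a8bd12d8bff7c916e03307c84b062b6d63ba37e6d4404ad947c160d4937311691f624b97cd594df7d7b8160b246c714c450e7d63f7578e7c150d71147492688cebf8bd7cc0c9d7b813ba8a07d62bf29a37c140d1be1eb178bde11c176c8f780c16d667a9a56d43cc4d257c150d6692003e32a8bd64836ad7b8214fd76c71e1ba407d63458ea17c150d74493735 = true := by decide +kernel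

theorem cA22_16_3_49 : chunkOkM (LA22_16.ctx true true 264 347 128 9 8 486 1852 297 189) muQ true true 64 RtA22_16.Cx.right.right RtA22_16.CX RtA22_16.Ctp.right.right.right.right.left.left RtA22_16.Ce.right.right.right.left.left.right.right RtA22_16.CTp.right.right.left RtA22_16.CEr.right.right.left 0x16a304c7cdb04ae2b7b815f309328c69960386d44697f5f7c150d2979a7e7cd25ffba6c9a03daa6c82713a16d64f321a6d4457508e7c160d6236f33d78bda0c569e7c6323c0f6d43dd64907c140d524cfa687cd69c85c65b75e0fa6c81659d80ac9d417e3235279c150d4237f6c1d8bd3dbe8fd7b89f42b5e7c63877f6c7c140d1d5394a28bdabd65717b88eab106d63eb35777c140d62171eb7d3e7cdb0a0aa6c8473ca66c7c810786d6406c6927c150d237a39258bda123c497c64c6b426d437774597c140d54721694df7cd333791f7b813715b348c64cfc1917d440d3 = true := by decide +kernel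

end Vale.Agent.helper4.Q4
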