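import Vale.Agent.helper4.Q4TreeM
import Vale.Agent.helper4.Q4G.PA22_16

/-!
Checks for pairs of intervals of second moments.
-/

set_option maxRecDepth 100000
set_option linter.unusedVariables false

namespace Vale.Agent.helper4.Q4

theorem cA22_16_3_50 : chunkOkM (LA22_16.ctx true true 257 175 64 9 8 974 1852 165 91) muQ true true 64 RtA22_16.Cx.right.right RtA22_16.CX RtA22_16.Ctp.right.right.right.right.left.left RtA22_16.Ce.right.right.right.left.left.right.right RtA22_16.CTp.right.right.right RtA22_16.CEr.right.right.left 0x1e8d59708bd12f95307c9170adca7c8e03d296d66a01746d4435372b7c160d1eeed23f8bdf1262e6c87016866c71848a817d6a3b6eb6d42f8c7d97c160d31b2fc65e8bd10952687c86441866c725b527d369d427f6f9cb09c150d420f4ca158bd122873c7c91488c1a18b8231dda6d6397de86d4408778f7c160d71b00b4598bdec38486c9128dd847c827ca74648c654877647d450d3 = true := by decide +kernel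

theorem cA22_16_3_51 : chunkOkM (LA22_16.ctx true true 262 175 64 19 16 966 1852 165 105) muQ true true 64 RtA22_16.Cx.right.right RtA22_16.CX RtA22_16.Ctp.right.right.right.right.left.left RtA22_16.Ce.right.right.right.left.left.right RtA22_16.CTp.right.right RtA22_16.CEr.right.right.right 0x1fb393c7cdc7eabd6c911398f1d8b8e7c321d7c6547ae86d43a46d497c160d306a1757cd7e3a516c86267e06c712dac22399d4142da0cde9c150d41f531e468bde01eae62c64ec106c914ca86068b8829c0c07c630b005d4387d24d7c170d71c1b5d4e8bd22ba09572c17fd798a8b8eb73e297c63dd29c47d450d3111f11d547cd203b7fd72c18ed7997c8bb730e57c640225f17c150d7491e83d1828bdb4512487b888a1706c7fb588b6d647421b6d43b3fe1a7c160d1f0edb468bd2ac401f72c1c37d6ad8b8fa9cf277c64a43956d43d961437c160d44937345ad5048c82c48fe968f85bd4eaa96c6364b5e6d4418ee5e7c150d5228 = true := by decide +kernel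

theorem cA22_16_3_52 : chunkOkM (LA22_16.ctx true true 225 43 16 9 8 246 460 77 49) muQ true true 64 RtA22_16.Cx.right RtA22_16.CX RtA22_16.Ctp.right.right.right.right.left.right RtA22_16.Ce.right.right.right.left.left.right RtA22_16.CTp.right.right RtA22_16.CEr.right.right 0x357f3f37cd20cd7d472c1a8bf177c72a34aeb08c64ad398078d2159b70a029c160d = true := by decide +kernel

theorem cA22_16_3_53 : chunkOkM (LA22_16.ctx true true 85 1 1 1 1 1 1 1 1) muQ true true 64 RtA22_16.Cx.right.left RtA22_16.CX RtA22_16.Ctp.right.right.right.right.left RtA22_16.Ce.right.right.right.left.right.left RtA22_16.CTp.right.right RtA22_16.CEr.right 0x21 = true := by decide +kernel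

theorem cA22_16_3_54 : chunkOkM (LA22_16.ctx true true 238 87 32 9 8 246 468 143 161) muQ true true 64 RtA22_16.Cx.right.right RtA22_16.CX RtA22_16.Ctp.right.right.right.right.left RtA22_16.Ce.right.right.right.left.right.left RtA22_16.CTp.right.right RtA22_16.CEr.right.left 0x1222af8377cd11645177c81de13597c6210f1f6d4461e7977c150d235e2b5d8bde6ed966c81f20a7d7c65727eb6d443aae5c7c150d36a65126 = true := by decide +kernel

theorem cA22_16_3_55 : chunkOkM (LA22_16.ctx true true 260 175 64 19 16 486 1868 165 189) muQ true true 64 RtA22_16.Cx.right.right RtA22_16.CX RtA22_16.Ctp.right.right.right.right.left.left RtA22_16.Ce.right.right.right.left.right.left.left RtA22_16.CTp.right.right RtA22_16.CEr.right.right.left 0x1e0960868bd1403e43e8b8647f666d63b9bfc6d43f7d4687c150d1a1ed7fe8bddcf66b27b89536596c73b4f0917c6607da86d441a4d527c160d82173938ffa38bd26faf06b8c5105018a48d430d321f259038bd7afca0e7b8ffb63ee7c63020e56d42f9adbd7c150d1f7ab4838bda8fa2ba7b81dd35c938c64554696d433d5d047c150d61e6731598bd23499d65b79f3d367b811b4eb57d64e3cff6d4385aace7c160d217979698bdc0ed356c8777f5e6d658cd3f6d442a7c2c7c150d6421723795027cde2079365b221717cc8c51174cd588d440d35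 = true := by decide +kernel

theorem cA22_16_3_56 : chunkOkM (LA22_16.ctx true true 257 175 64 19 16 486 1868 165 105) muQ true true 64 RtA22_16.Cx.right.right RtA22_16.CX RtA22_16.Ctp.right.right.right.right.left.left RtA22_16.Ce.right.right.right.left.right.left.left RtA22_16.CTp.right.right RtA22_16.CEr.right.right.right 0x1e1239898bde4fd6a27b854828a6c7db909347c63fc7c96d4372694f7c160d1e865dbd8bde10b9257b85a5bfe6c710c507b7d641e25a6d436e572d7c160d42175b46c5f04b37c44f08882c63e46f1385b5cd95c6d43e9c0e27c140d5228 = true := by decide +kernel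

theorem cA22_16_3_57 : chunkOkM (LA22_16.ctx true true 85 1 1 1 1 1 1 1 1) muQ true true 64 RtA22_16.Cx.right.right RtA22_16.CX RtA22_16.Ctp.right.right.right.right.left.left RtA22_16.Ce.right.right.right.left.right.left.right RtA22_16.CTp.right.right RtA22_16.CEr.right.right 0x59 = true := by decide +kernel

theorem cA22_16_3_58 : chunkOkM (LA22_16.ctx true true 85 1 1 1 1 1 1 1 1) muQ true true 64 RtA22_16.Cx.right.right.left RtA22_16.CX RtA22_16.Ctp.right.right.right.right.left.right.left RtA22_16.Ce.right.right.right.left.right.left RtA22_16.CTp.right.right RtA22_16.CEr.right.right 0x01 = true := by decide +kernel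

theorem cA22_16_3_59 : chunkOkM (LA22_16.ctx true true 270 349 128 19 16 978 1868 297 105) muQ true true 64 RtA22_16.Cx.right.right.right RtA22_16.CX RtA22_16.Ctp.right.right.right.right.left.right.left RtA22_16.Ce.right.right.right.left.right.left.left RtA22_16.CTp.right.right RtA22_16.CEr.right.right 0x1df8cd328bde276a8d7b84cbf266c7d55b376d63bdfc9f7c150d1cab66c7cdeec84b62c8439b56c915ac152e8b818f0b4c48c63b871f37c160d435bb6d9a291c2c2c7022194b51d86847c643e05b928b140d5228218766de8bd11a33aa7c9166d0627c838168a6d61718226d444e54007c160d213474f7cdbc9b9d6c9fb151f6c8a640016d63e94e527c150d415708778bdd1671062c23f9a56d63297f66d43c665e37c150d511691fc8e7c38bd7350a737b81b714e6c715c4c057d63e528ce7c150d73456 = true := by decide +kernel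

theorem cA22_16_3_60 : chunkOkM (LA22_16.ctx true true 266 351 128 19 16 490 1876 297 105) muQ true true 64 RtA22_16.Cx.right.right.right RtA22_16.CX RtA22_16.Ctp.right.right.right.right.left.right.left RtA22_16.Ce.right.right.right.left.right.left.right RtA22_16.CTp.right.right RtA22_16.CEr.right.right 0x211e41f60e8bde2636e62c7679c96c9157304e78b8dcb2b26d6396f48d7c160d35f2b868f91c2b9bb5b1f94b3ae4b527c130d52281d38bafd8bde9ad63b7b87cdb766c7822ecb6d641435987c150d1dc53eb58bd61d8506c9e0fe1967b8e8c3f56d63ed73f57c150d208581238bd73cde52cc92e1ac7c642178607c140d5564217 = true := by decide +kernel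

theorem cA22_16_3_61 : chunkOkM (LA22_16.ctx true true 85 1 1 1 1 1 1 1 1) muQ true true 64 RtA22_16.Cx.right.right RtA22_16.CX RtA22_16.Ctp.right.right.right.right.left.right.right RtA22_16.Ce.right.right.right.left.right.left RtA22_16.CTp.right.right RtA22_16.CEr.right.right 0x01 = true := by decide +kernel

theorem cA22_16_3_62 : chunkOkM (LA22_16.ctx true true 85 1 1 1 1 1 1 1 1) muQ true true 64 RtA22_16.Cx.right RtA22_16.CX RtA22_16.Ctp.right.right.right.right.left RtA22_16.Ce.right.right.right.left.right.right RtA22_16.CTp.right.right RtA22_16.CEr.right 0x21 = true := by decide +kernel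

theorem cA22_16_3_63 : chunkOkM (LA22_16.ctx true true 85 1 1 1 1 1 1 1 1) muQ true true 64 RtA22_16.Cx RtA22_16.CX RtA22_16.Ctp.right.right.right.right.right RtA22_16.Ce.right.right.right.left RtA22_16.CTp.right.right RtA22_16.CEr.right 0x01 = true := by decide +kernel

theorem cA22_16_3_64 : chunkOkM (LA22_16.ctx true true 85 1 1 1 1 1 1 1 1) muQ true true 64 RtA22_16.Cx RtA22_16.CX RtA22_16.Ctp.right.right.right RtA22_16.Ce.right.right.right.right RtA22_16.CTp.right.right RtA22_16.CEr.right 0x21 = true := by decide +kernel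

theorem cA22_16_2_0 : chunkOkM (LA22_16.ctx false true 85 1 1 1 1 1 1 1 1) muQ false true 64 RtA22_16.Cx RtA22_16.CX RtA22_16.Ctn RtA22_16.Ce RtA22_16.CTp RtA22_16.CEr 0x49 = true := by decide +kernel

theorem cA22_16_1_0 : chunkOkM (LA22_16.ctx true false 85 1 1 1 1 1 1 1 1) muQ true false 64 RtA22_16.Cx RtA22_16.CX RtA22_16.Ctp RtA22_16.Ce RtA22_16.CTn RtA22_16.CEr 0x4a = true := by decide +kernel

theorem cA22_16_0_0 : chunkOkM (LA22_16.ctx false false 85 1 1 1 1 1 1 1 1) muQ false false 64 RtA22_16.Cx RtA22_16.CX RtA22_16.Ctn RtA22_16.Ce RtA22_16.CTn RtA22_16.CEr 0x49 = true := by decide +kernel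

end Vale.Agent.helper4.Q4
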