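import Vale.Agent.helper4.Q4TreeM
import Vale.Agent.helper4.Q4G.PA22_16_0
import Vale.Agent.helper4.Q4G.PA22_16_1
import Vale.Agent.helper4.Q4G.PA22_16_2

/-!
Checks for pairs of intervals of second moments.
-/

set_option maxRecDepth 100000
set_option linter.unusedVariables false

namespace Vale.Agent.helper4.Q4

theorem covA22_16 : LA22_16.Full muQ.val RtA22_16 := ⟨(LitT.Cov.split_t (LitT.cov_of_chunkM cA22_16_3_0) (LitT.Cov.split_t (LitT.cov_of_chunkM cA22_16_3_1) (LitT.Cov.split_e (LitT.cov_of_chunkM cA22_16_3_2) (LitT.Cov.split_t (LitT.cov_of_chunkM cA22_16_3_3) (LitT.Cov.split_e (LitT.cov_of_chunkM cA22_16_3_4) (LitT.Cov.split_T (LitT.cov_of_chunkM cA22_16_3_5) (LitT.Cov.split_T (LitT.cov_of_chunkM cA22_16_3_6) (LitT.Cov.split_E (LitT.cov_of_chunkM cA22_16_3_7) (LitT.Cov.split_e (LitT.Cov.split_e (LitT.cov_of_chunkM cA22_16_3_8) (LitT.Cov.split_t (LitT.Cov.split_e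 (LitT.Cov.split_E (LitT.cov_of_chunkM cA22_16_3_9) (LitT.Cov.split_t (LitT.cov_of_chunkM cA22_16_3_10) (LitT.Cov.split_x (LitT.Cov.split_e (LitT.cov_of_chunkM cA22_16_3_11) (LitT.Cov.split_t (LitT.Cov.split_x (LitT.Cov.split_e (LitT.cov_of_chunkM cA22_16_3_12) (LitT.cov_of_chunkM cA22_16_3_13)) (LitT.cov_of_chunkM cA22_16_3_14)) (LitT.cov_of_chunkM cA22_16_3_15))) (LitT.cov_of_chunkM cA22_16_3_16)))) (LitT.Cov.split_E (LitT.cov_of_chunkM cA22_16_3_17) (LitT.Cov.split_t (LitT.cov_of_chunkM cA22_16_3_18) (LitT.Cov.split_x (LitT.Cov.split_e (LitT.Cov.split_t (LitT.Cov.split_E (LitT.Cov.split_x (LitT.cov_of_chunkM cA22_16_3_19) (LitT.cov_of_chunkM cA22_16_3_20)) (LitT.cov_of_chunkM cA22_16_3_21)) (LitT.Cov.split_x (LitT.cov_of_chunkM cA22_16_3_22) (LitT.cov_of_chunkM cA22_16_3_23))) (LitT.Cov.split_x (LitT.cov_of_chunkM cA22_16_3_24) (LitT.Cov.split_t (LitT.cov_of_chunkM cA22_16_3_25)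 (LitT.Cov.split_E (LitT.cov_of_chunkM cA22_16_3_26) (LitT.cov_of_chunkM cA22_16_3_27))))) (LitT.cov_of_chunkM cA22_16_3_28))))) (LitT.cov_of_chunkM cA22_16_3_29))) (LitT.Cov.split_e (LitT.Cov.split_t (LitT.Cov.split_e (LitT.Cov.split_E (LitT.cov_of_chunkM cA22_16_3_30) (LitT.Cov.split_t (LitT.cov_of_chunkM cA22_16_3_31) (LitT.Cov.split_x (LitT.cov_of_chunkM cA22_16_3_32) (LitT.Cov.split_x (LitT.Cov.split_e (LitT.Cov.split_t (LitT.cov_of_chunkM cA22_16_3_33) (LitT.Cov.split_E (LitT.Cov.split_e (LitT.cov_of_chunkM cA22_16_3_34) (LitT.cov_of_chunkM cA22_16_3_35)) (LitT.cov_of_chunkM cA22_16_3_36))) (LitT.cov_of_chunkM cA22_16_3_37)) (LitT.cov_of_chunkM cA22_16_3_38))))) (LitT.cov_of_chunkM cA22_16_3_39)) (LitT.Cov.split_t (LitT.Cov.split_x (LitT.cov_of_chunkM cA22_16_3_40) (LitT.Cov.split_e (LitT.Cov.split_E (LitT.cov_of_chunkM cA22_16_3_41) (LitT.Cov.split_e (LitT.Cov.split_t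 (LitT.Cov.split_x (LitT.Cov.split_e (LitT.cov_of_chunkM cA22_16_3_42) (LitT.Cov.split_E (LitT.cov_of_chunkM cA22_16_3_43) (LitT.cov_of_chunkM cA22_16_3_44))) (LitT.cov_of_chunkM cA22_16_3_45)) (LitT.cov_of_chunkM cA22_16_3_46)) (LitT.Cov.split_t (LitT.Cov.split_x (LitT.cov_of_chunkM cA22_16_3_47) (LitT.Cov.split_E (LitT.Cov.split_e (LitT.cov_of_chunkM cA22_16_3_48) (LitT.Cov.split_T (LitT.cov_of_chunkM cA22_16_3_49) (LitT.cov_of_chunkM cA22_16_3_50))) (LitT.cov_of_chunkM cA22_16_3_51))) (LitT.cov_of_chunkM cA22_16_3_52)))) (LitT.Cov.split_e (LitT.Cov.split_x (LitT.cov_of_chunkM cA22_16_3_53) (LitT.Cov.split_E (LitT.cov_of_chunkM cA22_16_3_54) (LitT.Cov.split_t (LitT.Cov.split_e (LitT.Cov.split_E (LitT.cov_of_chunkM cA22_16_3_55) (LitT.cov_of_chunkM cA22_16_3_56)) (LitT.cov_of_chunkM cA22_16_3_57)) (LitT.Cov.split_t (LitT.Cov.split_x (LitT.cov_of_chunkM cA22_16_3_58) (LitT.Cov.split_e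 (LitT.cov_of_chunkM cA22_16_3_59) (LitT.cov_of_chunkM cA22_16_3_60))) (LitT.cov_of_chunkM cA22_16_3_61))))) (LitT.cov_of_chunkM cA22_16_3_62)))) (LitT.cov_of_chunkM cA22_16_3_63))) (LitT.cov_of_chunkM cA22_16_3_64))))))))))), (LitT.cov_of_chunkM cA22_16_1_0), (LitT.cov_of_chunkM cA22_16_2_0), (LitT.cov_of_chunkM cA22_16_0_0)⟩

end Vale.Agent.helper4.Q4
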