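import Vale.Agent.helper4.Q4TreeM
import Vale.Agent.helper4.Q4G.PA23_16

/-!
Checks for pairs of intervals of second moments.
-/

set_option maxRecDepth 100000
set_option linter.unusedVariables false

namespace Vale.Agent.helper4.Q4

theorem cA23_16_3_0 : chunkOkM (LA23_16.ctx true true 86 1 1 1 1 1 1 1 1) muQ true true 64 RtA23_16.Cx RtA23_16.CX RtA23_16.Ctp.left RtA23_16.Ce RtA23_16.CTp RtA23_16.CEr 0x41 = true := by decide +kernel

theorem cA23_16_3_1 : chunkOkM (LA23_16.ctx true true 86 1 1 1 1 1 1 1 1) muQ true true 64 RtA23_16.Cx RtA23_16.CX RtA23_16.Ctp.right.left RtA23_16.Ce RtA23_16.CTp RtA23_16.CEr 0x41 = true := by decide +kernel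

theorem cA23_16_3_2 : chunkOkM (LA23_16.ctx true true 86 1 1 1 1 1 1 1 1) muQ true true 64 RtA23_16.Cx RtA23_16.CX RtA23_16.Ctp.right.right RtA23_16.Ce.left RtA23_16.CTp RtA23_16.CEr 0x11 = true := by decide +kernel

theorem cA23_16_3_3 : chunkOkM (LA23_16.ctx true true 86 1 1 1 1 1 1 1 1) muQ true true 64 RtA23_16.Cx RtA23_16.CX RtA23_16.Ctp.right.right.left RtA23_16.Ce.right RtA23_16.CTp RtA23_16.CEr 0x49 = true := by decide +kernel

theorem cA23_16_3_4 : chunkOkM (LA23_16.ctx true true 86 1 1 1 1 1 1 1 1) muQ true true 64 RtA23_16.Cx RtA23_16.CX RtA23_16.Ctp.right.right.right RtA23_16.Ce.right.left RtA23_16.CTp RtA23_16.CEr 0x11 = true := by decide +kernel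

theorem cA23_16_3_5 : chunkOkM (LA23_16.ctx true true 86 1 1 1 1 1 1 1 1) muQ true true 64 RtA23_16.Cx RtA23_16.CX RtA23_16.Ctp.right.right.right RtA23_16.Ce.right.right RtA23_16.CTp.left RtA23_16.CEr 0x42 = true := by decide +kernel

theorem cA23_16_3_6 : chunkOkM (LA23_16.ctx true true 86 1 1 1 1 1 1 1 1) muQ true true 64 RtA23_16.Cx RtA23_16.CX RtA23_16.Ctp.right.right.right RtA23_16.Ce.right.right RtA23_16.CTp.right.left RtA23_16.CEr 0x4a = true := by decide +kernel

theorem cA23_16_3_7 : chunkOkM (LA23_16.ctx true true 86 1 1 1 1 1 1 1 1) muQ true true 64 RtA23_16.Cx RtA23_16.CX RtA23_16.Ctp.right.right.right RtA23_16.Ce.right.right RtA23_16.CTp.right.right RtA23_16.CEr.left 0x12 = true := by decide +kernel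

theorem cA23_16_3_8 : chunkOkM (LA23_16.ctx true true 86 1 1 1 1 1 1 1 1) muQ true true 64 RtA23_16.Cx RtA23_16.CX RtA23_16.Ctp.right.right.right RtA23_16.Ce.right.right.left.left RtA23_16.CTp.right.right RtA23_16.CEr.right 0x11 = true := by decide +kernel

theorem cA23_16_3_9 : chunkOkM (LA23_16.ctx true true 86 1 1 1 1 1 1 1 1) muQ true true 64 RtA23_16.Cx RtA23_16.CX RtA23_16.Ctp.right.right.right.left RtA23_16.Ce.right.right.left.right.left RtA23_16.CTp.right.right RtA23_16.CEr.right 0x69 = true := by decide +kernel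

theorem cA23_16_3_10 : chunkOkM (LA23_16.ctx true true 312 22785 8192 17 16 3961 1887 297 161) muQ true true 64 RtA23_16.Cx RtA23_16.CX RtA23_16.Ctp.right.right.right.left RtA23_16.Ce.right.right.left.right.right RtA23_16.CTp.right.right RtA23_16.CEr.right.left 0x12111111115248c687cd16f94317c81e290ad7c6d878ce6d23e997da7c150d73114734949530379e7cd1643f7e7c81e04e837c6a25e396d2356bf497c150d4a35bc50c7cd11906017c8343d8707c61ac7fa57c15968ebf7c050d85184391a7cd17731e57c81fa8dcdd09d4215658b6f9c140d44937736a65126 = true := by decide +kernel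

theorem cA23_16_3_11 : chunkOkM (LA23_16.ctx true true 86 1 1 1 1 1 1 1 1) muQ true true 64 RtA23_16.Cx.left.left RtA23_16.CX RtA23_16.Ctp.right.right.right.left.left.left RtA23_16.Ce.right.right.left.right.right RtA23_16.CTp.right.right.left RtA23_16.CEr.right.right.left 0x49 = true := by decide +kernel

theorem cA23_16_3_12 : chunkOkM (LA23_16.ctx true true 305 22785 8192 33 32 1955 935 275 91) muQ true true 64 RtA23_16.Cx.left.left RtA23_16.CX RtA23_16.Ctp.right.right.right.left.left.right RtA23_16.Ce.right.right.left.right.right RtA23_16.CTp.right.right.left.left RtA23_16.CEr.right.right.left 0x4a4a58463a438bd84c44762c1598d7c7c619e65b888b155810197c050d88 = true := by decide +kernel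

theorem cA23_16_3_13 : chunkOkM (LA23_16.ctx true true 300 22785 8192 9 8 1955 1853 297 91) muQ true true 64 RtA23_16.Cx.left.left RtA23_16.CX RtA23_16.Ctp.right.right.right.left.left.right RtA23_16.Ce.right.right.left.right.right.left RtA23_16.CTp.right.right.left.right RtA23_16.CEr.right.right.left 0x1c73ec17cd37b12765b14bf60e7c81361bd58e9d4147f586cf9c150d = true := by decide +kernel

theorem cA23_16_3_14 : chunkOkM (LA23_16.ctx true true 306 22785 8192 9 8 3893 1887 297 175) muQ true true 64 RtA23_16.Cx.left.left RtA23_16.CX RtA23_16.Ctp.right.right.right.left.left.right.left RtA23_16.Ce.right.right.left.right.right.right RtA23_16.CTp.right.right.left.right RtA23_16.CEr.right.right.left.left 0x30aab9a7cd8ee4476c8177691298c632e92027d4b9d8976c150d = true := by decide +kernel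

theorem cA23_16_3_15 : chunkOkM (LA23_16.ctx true true 338 90369 32768 19 16 7871 7531 605 357) muQ true true 64 RtA23_16.Cx.left.left RtA23_16.CX RtA23_16.Ctp.right.right.right.left.left.right.right RtA23_16.Ce.right.right.left.right.right.right.left RtA23_16.CTp.right.right.left.right RtA23_16.CEr.right.right.left.left 0x6935f2c847cdffadc56c9196af107c835df7d6d6cf27826d23cab5437c160d3d400d27cdbb43a96c9f06f5a6c81cd0b86d6c535f36d23ab28dc7c160d511498c2da9385b43b4bc6d8c833628a6d6187d4357c149ff566d050d25637d87cde991fce7b8ae488517b77ebe9837c61e089167c154b92387c060d24b9f7b7cd10ccdb488b8ada5466c771aebf47c6210d4bd7c154f9a6f7c060d66928331fb7cddc89fbb7b8a4f78f57b72ed57207c698053917c23808a4d7c160d1d15a077cd11389007c9171dbd368b8590f0cf7c625f39027c142872e77c060d674837 = true := by decide +kernel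

theorem cA23_16_3_16 : chunkOkM (LA23_16.ctx true true 318 22785 8192 19 16 7871 3791 297 175) muQ true true 64 RtA23_16.Cx.left.left RtA23_16.CX RtA23_16.Ctp.right.right.right.left.left.right.right RtA23_16.Ce.right.right.left.right.right.right.right RtA23_16.CTp.right.right.left.right RtA23_16.CEr.right.right.left.left 0xa4bcb0ab85b48d7849a8c827a92637c61786c327c14d67b797c050d28818af7cd11f533548b87392f26c741630057c61f391737c15856c287c060d20759567cdecc1ca6c91c7848538b85b760897c656f561f7b150d38 = true := by decide +kernel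

theorem cA23_16_3_17 : chunkOkM (LA23_16.ctx true true 325 45313 16384 9 8 7871 3791 605 385) muQ true true 64 RtA23_16.Cx.left.left RtA23_16.CX RtA23_16.Ctp.right.right.right.left.left.right RtA23_16.Ce.right.right.left.right.right.right RtA23_16.CTp.right.right.left.right RtA23_16.CEr.right.right.left.right 0x406355d98bd475d1ef7b848be1947c61769aa738b15e015ee7c050d3129f157cd10c794828b87a7575c766be6727c61bd91fc7c1550537f7c060d6692ca861a7cdf287ad6c8616fed07c6cbefc057c23e8e9977c150d25ba543f8bdf60cc3a7b870511057c6196cc9b58b13e738d67c050d301e9dc7cd10ed3637c849c9946c7542e9457c61e5ff507c14fb8abc7c060d6351f755888bd236923675b9e0db967c61c11136e8b14d2aa267c050d574272aaeb7cdec5f72e7b816005b6c7e6942987c67fa0ed17c4130367a48b160d3 = true := by decide +kernel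

theorem cA23_16_3_18 : chunkOkM (LA23_16.ctx true true 86 1 1 1 1 1 1 1 1) muQ true true 64 RtA23_16.Cx.left.right RtA23_16.CX RtA23_16.Ctp.right.right.right.left.left RtA23_16.Ce.right.right.left.right.right RtA23_16.CTp.right.right.left RtA23_16.CEr.right.right.left 0x49 = true := by decide +kernel

theorem cA23_16_3_19 : chunkOkM (LA23_16.ctx true true 86 1 1 1 1 1 1 1 1) muQ true true 64 RtA23_16.Cx.right RtA23_16.CX RtA23_16.Ctp.right.right.right.left.left RtA23_16.Ce.right.right.left.right.right RtA23_16.CTp.right.right.left RtA23_16.CEr.right.right.left 0x49 = true := by decide +kernel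

theorem cA23_16_3_20 : chunkOkM (LA23_16.ctx true true 326 91397 32768 9 8 7905 7599 297 189) muQ true true 64 RtA23_16.Cx RtA23_16.CX RtA23_16.Ctp.right.right.right.left.right RtA23_16.Ce.right.right.left.right.right RtA23_16.CTp.right.right.left RtA23_16.CEr.right.right.left 0x11111111111124bf089a8bd167dd6028b835e5eb6c7da57a86d61a373e87c1585f7547c060d2ceeb937cd16070377c83318bd6c7a16bd96d6246ea7f7c15c48e56d060d63d7ec4d48bd4a576162c8934ef6d6c96ae76d2319bd167c150d5711430177114731143 = true := by decide +kernel

theorem cA23_16_3_21 : chunkOkM (LA23_16.ctx true true 275 5889 2048 9 8 493 935 143 105) muQ true true 64 RtA23_16.Cx RtA23_16.CX RtA23_16.Ctp.right.right.right.left RtA23_16.Ce.right.right.left.right.right RtA23_16.CTp.right.right.left RtA23_16.CEr.right.right.right 0x5ff7ecd4d92c42616ac8f95b63af6317c62c7c1ac7c140d = true := by decide +kernel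

theorem cA23_16_3_22 : chunkOkM (LA23_16.ctx true true 86 1 1 1 1 1 1 1 1) muQ true true 64 RtA23_16.Cx.left.left RtA23_16.CX RtA23_16.Ctp.right.right.right.left.left.left RtA23_16.Ce.right.right.left.right.right RtA23_16.CTp.right.right.right RtA23_16.CEr.right.right 0x49 = true := by decide +kernel

theorem cA23_16_3_23 : chunkOkM (LA23_16.ctx true true 297 22785 8192 9 8 1955 1853 165 91) muQ true true 64 RtA23_16.Cx.left.left RtA23_16.CX RtA23_16.Ctp.right.right.right.left.left.right RtA23_16.Ce.right.right.left.right.right.left RtA23_16.CTp.right.right.right RtA23_16.CEr.right.right.left 0x19285907cd124251c7c81f9c87fd49d42148275fc9c140d = true := by decide +kernel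

theorem cA23_16_3_24 : chunkOkM (LA23_16.ctx true true 300 22785 8192 9 8 3893 1887 165 91) muQ true true 64 RtA23_16.Cx.left.left RtA23_16.CX RtA23_16.Ctp.right.right.right.left.left.right.left RtA23_16.Ce.right.right.left.right.right.right RtA23_16.CTp.right.right.right RtA23_16.CEr.right.right.left 0x2abf4dd7cd212b91c7c91ed63997c81ce0cffa8c637ff8097d450d = true := by decide +kernel

theorem cA23_16_3_25 : chunkOkM (LA23_16.ctx true true 335 45313 16384 35 32 7871 7531 627 189) muQ true true 64 RtA23_16.Cx.left.left RtA23_16.CX RtA23_16.Ctp.right.right.right.left.left.right.right RtA23_16.Ce.right.right.left.right.right.right RtA23_16.CTp.right.right.right RtA23_16.CEr.right.right.left 0x39aba707cd1ac26787c81cc9ba6c749d63c6d61ab23397c1583a7d6d060d020223fe2737cd12d46957c91aa9a5b78b8474710c7c619651b0f8b163957577c060d1260285586929ce92788c9156848918c84820356d419f4e3e7d240d2d2d0ed7cd789a326c91c2f8bf7c86d36876d6182aae67c1661c886d060d267ad247cd1373cb598b8b4e7c76c74b4c8f47c61b3f7447c1694eb307c060d8511429e33e338c91543f16e8c84533fcb7c530d3360d087cd6cc5326c91a191ca7c84acb0a6d6a5f39057c230fa9457c160d23a65f27cdfebc6a77b8be31666c734be9647c61e124287c152800987c060d8536c686f188c8995b64e08c715e3e6a7d64b13a86d040d674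 = true := by decide +kernel

theorem cA23_16_3_26 : chunkOkM (LA23_16.ctx true true 361 45313 16384 79 64 7871 7531 10571 427) muQ true true 64 RtA23_16.Cx.left.left RtA23_16.CX RtA23_16.Ctp.right.right.right.left.left.right RtA23_16.Ce.right.right.left.right.right RtA23_16.CTp.right.right.right RtA23_16.CEr.right.right.right 0x0202020202372edb17cd1ecff557c91a88cf818b82f358cf7c6159bfad78b15c436c27c060d126028028555552288b1a697cda6d1a417b821ef0287c616c3dc1a8b15b1976e7c050d62282283f9322d7cd109d28d58b86ccb176c75ef532d7c612a3b3138b15c63e0e7c060d3822afd7cd134c8117c87929dd6c761206207c6166708488b154a970d7c060d669289374c7cd139404268b86cade26c7f09b0327c6190bdc27c15b1554d7c060d1142f155e388bd10ee7d0d8b85a53566c7933d0437c6a135a037c22f9f75b98b160d2b7e5087cd12e41a8f8b8666c6e6c76b221247c688c6a677c22ed38b97c160d6374652b1a1407cd1249dba88b8e92f076c7838dbb67c617ce9f77d450d313c43f07cd1050a3c7c8be1d546c7e50c6b3c8d4f2a820978c150d4228 = true := by decide +kernel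

theorem cA23_16_3_27 : chunkOkM (LA23_16.ctx true true 86 1 1 1 1 1 1 1 1) muQ true true 64 RtA23_16.Cx.left.right RtA23_16.CX RtA23_16.Ctp.right.right.right.left.left RtA23_16.Ce.right.right.left.right.right RtA23_16.CTp.right.right.right RtA23_16.CEr.right.right 0x49 = true := by decide +kernel

theorem cA23_16_3_28 : chunkOkM (LA23_16.ctx true true 86 1 1 1 1 1 1 1 1) muQ true true 64 RtA23_16.Cx.right RtA23_16.CX RtA23_16.Ctp.right.right.right.left.left RtA23_16.Ce.right.right.left.right.right RtA23_16.CTp.right.right.right RtA23_16.CEr.right.right 0x49 = true := by decide +kernel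

theorem cA23_16_3_29 : chunkOkM (LA23_16.ctx true true 332 91397 32768 19 16 7905 7599 341 189) muQ true true 64 RtA23_16.Cx RtA23_16.CX RtA23_16.Ctp.right.right.right.left.right RtA23_16.Ce.right.right.left.right.right RtA23_16.CTp.right.right.right RtA23_16.CEr.right.right 0x111111111111239beb87cd14fd87648b8af82f16c719db0a57d69fe5c86d238ef05b7c160d2e6ea0c28bd120812758b88a53c46c7158466b7d61f033e37c16fb30d37c060d522890414727c81affc11f8c76ffda66d4366c7f57d240d26caa367cd175d4077c8bf7b336c716dd9817d6232d4827c140d02e6d060d4d8946968c86cfb4e138c736fd30f7c1d130d5d040d656711430177114371143 = true := by decide +kernel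

theorem cA23_16_3_30 : chunkOkM (LA23_16.ctx true true 86 1 1 1 1 1 1 1 1) muQ true true 64 RtA23_16.Cx RtA23_16.CX RtA23_16.Ctp.right.right.right.right RtA23_16.Ce.right.right.left.right RtA23_16.CTp.right.right RtA23_16.CEr.right 0x11 = true := by decide +kernel

theorem cA23_16_3_31 : chunkOkM (LA23_16.ctx true true 86 1 1 1 1 1 1 1 1) muQ true true 64 RtA23_16.Cx RtA23_16.CX RtA23_16.Ctp.right.right.right.left RtA23_16.Ce.right.right.right.left RtA23_16.CTp.right.right RtA23_16.CEr.right.left.left 0x12 = true := by decide +kernel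

theorem cA23_16_3_32 : chunkOkM (LA23_16.ctx true true 86 1 1 1 1 1 1 1 1) muQ true true 64 RtA23_16.Cx RtA23_16.CX RtA23_16.Ctp.right.right.right.left RtA23_16.Ce.right.right.right.left RtA23_16.CTp.right.right.left RtA23_16.CEr.right.left.right.left 0x6a = true := by decide +kernel

end Vale.Agent.helper4.Q4
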