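import Vale.Agent.helper4.Q4TreeM
import Vale.Agent.helper4.Q4G.PA23_16

/-!
Checks for pairs of intervals of second moments.
-/

set_option maxRecDepth 100000
set_option linter.unusedVariables false

namespace Vale.Agent.helper4.Q4

theorem cA23_16_3_33 : chunkOkM (LA23_16.ctx true true 306 12035 4096 9 8 3995 1955 297 161) muQ true true 64 RtA23_16.Cx RtA23_16.CX RtA23_16.Ctp.right.right.right.left RtA23_16.Ce.right.right.right.left.left RtA23_16.CTp.right.right.left RtA23_16.CEr.right.left.right.right 0x74bd54b7cdfa00f06c8557e03b7c6560c7a6d239f75047c150d0175f567677cd200e5e17c86473a247c61a10546d428bb1587c150d470b27c7cd1acf7ff7c851c66d17c6133287e7c15e70ceb7c050d76968961c77cd1547b097c81a0691a7c61d002017c165af0d6d050d6144d877cd175229d7c81788c147c69f68b937c5595e5857c1178de66d060d5e0f99b7cdd54d306c83075f5a7c6cc380257c5698a7a07c150d53743b8aa6187cd155132575b53a21bffc9c6673ae2d056ac52bdec57b25ad450d3 = true := by decide +kernel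

theorem cA23_16_3_34 : chunkOkM (LA23_16.ctx true true 294 12035 4096 9 8 2023 2023 143 161) muQ true true 64 RtA23_16.Cx RtA23_16.CX RtA23_16.Ctp.right.right.right.left RtA23_16.Ce.right.right.right.left.right RtA23_16.CTp.right.right.left RtA23_16.CEr.right.left.right.right 0x6981e287cd1b9d3207c84d152677c640f6940e8c598ae1077d4196f8faa8c1c088cda7c070d8b8fbc47cd13d349f7c8327b1037c6bf7614b7c560290007c150d788385b7cd20389c77c8172987fd8c617b1589179c5adca97588d450d34493217 = true := by decide +kernel

theorem cA23_16_3_35 : chunkOkM (LA23_16.ctx true true 86 1 1 1 1 1 1 1 1) muQ true true 64 RtA23_16.Cx RtA23_16.CX RtA23_16.Ctp.right.right.right.left RtA23_16.Ce.right.right.right.left RtA23_16.CTp.right.right.right RtA23_16.CEr.right.left.right 0x12 = true := by decide +kernel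

theorem cA23_16_3_36 : chunkOkM (LA23_16.ctx true true 280 5889 2048 9 8 969 493 143 91) muQ true true 64 RtA23_16.Cx RtA23_16.CX RtA23_16.Ctp.right.right.right.left.left RtA23_16.Ce.right.right.right.left RtA23_16.CTp.right.right.left RtA23_16.CEr.right.right.left 0x6d9c7962c67b5bb6c941fc271462ab650e841a922ac52264d47898ad450d = true := by decide +kernel

theorem cA23_16_3_37 : chunkOkM (LA23_16.ctx true true 314 23299 8192 19 16 3995 3859 297 175) muQ true true 64 RtA23_16.Cx RtA23_16.CX RtA23_16.Ctp.right.right.right.left.right.left RtA23_16.Ce.right.right.right.left.left RtA23_16.CTp.right.right.left RtA23_16.CEr.right.right.left.left 0x3febcbd7cd1b1d8147c8804c6a67c6278383c7c140d49090537cd11334337c816af7c6c73795c787c6df680997c56a196af7c160d7695aa33077cd15e190a7c8297bcde7c6fddb9047c57e4904e7c150d3ec06a77cd13ef05f7c87d81fb6c7e75bdd77c61d2e5247c146f493a7c060d217f4e6896b85b6c2331358c8e7ada66c173bf7527c040d3b516417cd122a1607c86dd61e6c735b06857c6d118b467c56c433b67c160d843744a79d54957cd1c045b772c15167e875b1ebd35e7c6c8deecd7c5625ac1f48b11ddfb46c070d85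 = true := by decide +kernel

theorem cA23_16_3_38 : chunkOkM (LA23_16.ctx true true 289 5889 2048 9 8 1989 969 275 189) muQ true true 64 RtA23_16.Cx RtA23_16.CX RtA23_16.Ctp.right.right.right.left.right.left RtA23_16.Ce.right.right.right.left.left RtA23_16.CTp.right.right.left.left RtA23_16.CEr.right.right.left.right 0x85be13e182c5807f67d85b13e3d7e7c15b309487c040d = true := by decide +kernel

theorem cA23_16_3_39 : chunkOkM (LA23_16.ctx true true 322 23299 8192 19 16 3995 3859 605 385) muQ true true 64 RtA23_16.Cx RtA23_16.CX RtA23_16.Ctp.right.right.right.left.right.left RtA23_16.Ce.right.right.right.left.left.left RtA23_16.CTp.right.right.left.right RtA23_16.CEr.right.right.left.right 0x6948e4efd7cde34f0c6c83e71b5a7c6108616b88c241432a17c150d2aec2ce7cd162754078b8be9d9ad7c688650bf7c22a299287c150d217315d21c7cd1194d8c38b8368311b7c64b4d2207c5338cc13d8b141d2ab17c060d688ab947cde4151c6c833c96a47c6112dc507c15c830eb7c050d43937f07cdf3b23a77b8942e446c71d03e8a7c65530f9c7c53a1a08608b1394fcdf7c070d86423c1527cd96a12262c1e6c84d75b1f1a5197c6150ce9a28b1521f0607c060d5437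 = true := by decide +kernel

theorem cA23_16_3_40 : chunkOkM (LA23_16.ctx true true 315 12035 4096 35 32 3995 1955 297 385) muQ true true 64 RtA23_16.Cx RtA23_16.CX RtA23_16.Ctp.right.right.right.left.right.left RtA23_16.Ce.right.right.right.left.left.right RtA23_16.CTp.right.right.left.right RtA23_16.CEr.right.right.left.right 0x34bae9f7cd5e315165ba2cd5e6c817cd32c7c61d7def27c150d3a23b6df8bd18d35c475b35b54f008b618f68d058b15b730aa7c050d744b09257cd101b91175bde6cb0b7c6f930caed8c56e79cc7ac9c450d3195dd6cf8cd3198c4775ba016346c813c2bfc7c6cf8869e7c561382ac38b160dcc8e8797cd12c98737c6f38d5ae7c552c9f8e7c471654ade8b150d22886 = true := by decide +kernel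

theorem cA23_16_3_41 : chunkOkM (LA23_16.ctx true true 314 47369 16384 9 8 8041 7871 143 91) muQ true true 64 RtA23_16.Cx RtA23_16.CX RtA23_16.Ctp.right.right.right.left.right.right RtA23_16.Ce.right.right.right.left.left RtA23_16.CTp.right.right.left RtA23_16.CEr.right.right.left 0x111111113e6ce4a7cdda47426c82927ea6c715cf7867d619a928b7c15e67486d060d7114371143114017 = true := by decide +kernel

theorem cA23_16_3_42 : chunkOkM (LA23_16.ctx true true 86 1 1 1 1 1 1 1 1) muQ true true 64 RtA23_16.Cx.left RtA23_16.CX RtA23_16.Ctp.right.right.right.left.right RtA23_16.Ce.right.right.right.left.right RtA23_16.CTp.right.right.left RtA23_16.CEr.right.right.left 0x21 = true := by decide +kernel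

theorem cA23_16_3_43 : chunkOkM (LA23_16.ctx true true 302 12035 4096 9 8 4063 2023 297 175) muQ true true 64 RtA23_16.Cx.right RtA23_16.CX RtA23_16.Ctp.right.right.right.left.right RtA23_16.Ce.right.right.right.left.right RtA23_16.CTp.right.right.left RtA23_16.CEr.right.right.left.left 0x5e5b7e07cd207a7f87c85b886597c63ce348bd8c55e095187d417e48abe8c160d7c753b87cd1f3fa3f7c82c4f80a7c610c5c44d8c581a70027c150d75362367cd1e421b47c83f11b887c6c03b22b7c55da1f2c7c150d34826b58a7cd221dd1972c326cac975b22797447c61af8af57c51ac04907c155bf52d7c070d579d30b37cd75dad66c8b35085448d42e076cf1c9c240d3 = true := by decide +kernel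

theorem cA23_16_3_44 : chunkOkM (LA23_16.ctx true true 308 24327 8192 9 8 4063 2023 297 189) muQ true true 64 RtA23_16.Cx.right RtA23_16.CX RtA23_16.Ctp.right.right.right.left.right RtA23_16.Ce.right.right.right.left.right RtA23_16.CTp.right.right.left RtA23_16.CEr.right.right.left.right 0x562dc377cd1084b117c88439a237c6ebec07a7b15211cbe7c050d21750687857cd102a6a57c856ad54c7c6b3353077c23384cd27c150d494a5f4227cd101786a7c875a05697c613bf8567c1575621d7c050d734e52882b7cd13eabd57c8e3d20cd38c6558a531d49c41525821e49c250d34de26d8482c3678f27d85bcf15ca97b16d249ec7c040d5 = true := by decide +kernel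

theorem cA23_16_3_45 : chunkOkM (LA23_16.ctx true true 272 5889 2048 9 8 493 493 143 105) muQ true true 64 RtA23_16.Cx RtA23_16.CX RtA23_16.Ctp.right.right.right.left RtA23_16.Ce.right.right.right.left RtA23_16.CTp.right.right.left RtA23_16.CEr.right.right.right 0x8d7ba1688cd43831959992c3526cc5486b30b18137c6a561f86c16661fca7c060d = true := by decide +kernel

theorem cA23_16_3_46 : chunkOkM (LA23_16.ctx true true 279 5889 2048 9 8 969 493 165 49) muQ true true 64 RtA23_16.Cx RtA23_16.CX RtA23_16.Ctp.right.right.right.left.left RtA23_16.Ce.right.right.right.left RtA23_16.CTp.right.right.right RtA23_16.CEr.right.right 0x250b7747cdb14b55c83d0b2567c76451d47aa9c67ab96ca2d1ac5342a36a49aad460d = true := by decide +kernel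

theorem cA23_16_3_47 : chunkOkM (LA23_16.ctx true true 324 46341 16384 19 16 7939 3859 341 189) muQ true true 64 RtA23_16.Cx RtA23_16.CX RtA23_16.Ctp.right.right.right.left.right.left RtA23_16.Ce.right.right.right.left.left.left RtA23_16.CTp.right.right.right RtA23_16.CEr.right.right.left 0x696935a06097cd202e3477c9275d8447c869a48b6d6f06fd96d23d0e2f17c160d7114017493342cc748bd1d4cb1f7c8b364936d615ee5e97c16dd6ac6d050d1af4ff2d8bd16b59e67c92264161b8b87a453737c618983807c153d6f9e7c060d872173faa244f8c920c843ba8c82eb4d517c130d56607af7cd21345d07c83021a4e7c610b322718c57bc09877c150d2979a467cd1381b657c8b0c17c6c728035807c61e4800f18b162bdc3f7c060d8561e7067cd1c8a6657c82e792ed7c6dd3ee0e7c56bee3317c150d2ad34f17cd114d00f7c8ba6b896c72cf028e7c61b41b2578b1546f38f7c060d8359ace27d98c8dc2d41288c71d01e277c15f02816d040d6437 = true := by decide +kernel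

theorem cA23_16_3_48 : chunkOkM (LA23_16.ctx true true 319 94481 32768 19 16 3995 3927 165 91) muQ true true 64 RtA23_16.Cx RtA23_16.CX RtA23_16.Ctp.right.right.right.left.right.left RtA23_16.Ce.right.right.right.left.left.right RtA23_16.CTp.right.right.right RtA23_16.CEr.right.right.left 0x494949387fa7b7cd1d8a5b77c926a8fc57c896bc036d6257317c7c113df5c27c060d77734b0a4ad8bd1c669667c813602387c74567b977c6d743b977c55f698567c160d3900de57cd21ac3c37c88007cb6d612e50c27c169422a6d050d1da128968bd19e19af08b8140c7537c752df64a7c61d0c82f7c15aaed997c060d838b9ae6a8bd1e553b17c8138bcf9c8c61784ddce99c5a6c2584a8d450d342177 = true := by decide +kernel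

theorem cA23_16_3_49 : chunkOkM (LA23_16.ctx true true 303 23813 8192 9 8 4029 3927 165 91) muQ true true 64 RtA23_16.Cx RtA23_16.CX RtA23_16.Ctp.right.right.right.left.right.right RtA23_16.Ce.right.right.right.left.left RtA23_16.CTp.right.right.right RtA23_16.CEr.right.right.left 0x11113a0017f7cd26d4ff77c92e260f07c8127faa758c65b5fbb6d22b04d5d7c12a39af6d070d11437114017 = true := by decide +kernel

theorem cA23_16_3_50 : chunkOkM (LA23_16.ctx true true 86 1 1 1 1 1 1 1 1) muQ true true 64 RtA23_16.Cx RtA23_16.CX.left RtA23_16.Ctp.right.right.right.left.right RtA23_16.Ce.right.right.right.left.left RtA23_16.CTp.right.right.right RtA23_16.CEr.right.right.right 0x22 = true := by decide +kernel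

end Vale.Agent.helper4.Q4
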