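import Vale.Agent.helper4.Q4TreeM
import Vale.Agent.helper4.Q4G.PA23_16_0
import Vale.Agent.helper4.Q4G.PA23_16_1
import Vale.Agent.helper4.Q4G.PA23_16_2

/-!
Checks for pairs of intervals of second moments.
-/

set_option maxRecDepth 100000
set_option linter.unusedVariables false

namespace Vale.Agent.helper4.Q4

theorem covA23_16 : LA23_16.Full muQ.val RtA23_16 := ⟨(LitT.Cov.split_t (LitT.cov_of_chunkM cA23_16_3_0) (LitT.Cov.split_t (LitT.cov_of_chunkM cA23_16_3_1) (LitT.Cov.split_e (LitT.cov_of_chunkM cA23_16_3_2) (LitT.Cov.split_t (LitT.cov_of_chunkM cA23_16_3_3) (LitT.Cov.split_e (LitT.cov_of_chunkM cA23_16_3_4) (LitT.Cov.split_T (LitT.cov_of_chunkM cA23_16_3_5) (LitT.Cov.split_T (LitT.cov_of_chunkM cA23_16_3_6) (LitT.Cov.split_E (LitT.cov_of_chunkM cA23_16_3_7) (LitT.Cov.split_e (LitT.Cov.split_e (LitT.cov_of_chunkM cA23_16_3_8) (LitT.Cov.split_t (LitT.Cov.split_e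 (LitT.cov_of_chunkM cA23_16_3_9) (LitT.Cov.split_E (LitT.cov_of_chunkM cA23_16_3_10) (LitT.Cov.split_T (LitT.Cov.split_E (LitT.Cov.split_t (LitT.Cov.split_x (LitT.Cov.split_x (LitT.Cov.split_t (LitT.cov_of_chunkM cA23_16_3_11) (LitT.Cov.split_T (LitT.cov_of_chunkM cA23_16_3_12) (LitT.Cov.split_e (LitT.cov_of_chunkM cA23_16_3_13) (LitT.Cov.split_E (LitT.Cov.split_t (LitT.cov_of_chunkM cA23_16_3_14) (LitT.Cov.split_e (LitT.cov_of_chunkM cA23_16_3_15) (LitT.cov_of_chunkM cA23_16_3_16))) (LitT.cov_of_chunkM cA23_16_3_17))))) (LitT.cov_of_chunkM cA23_16_3_18)) (LitT.cov_of_chunkM cA23_16_3_19)) (LitT.cov_of_chunkM cA23_16_3_20)) (LitT.cov_of_chunkM cA23_16_3_21)) (LitT.Cov.split_t (LitT.Cov.split_x (LitT.Cov.split_x (LitT.Cov.split_t (LitT.cov_of_chunkM cA23_16_3_22) (LitT.Cov.split_E (LitT.Cov.split_e (LitT.cov_of_chunkM cA23_16_3_23) (LitT.Cov.split_t (LitT.cov_of_chunkM cA23_16_3_24)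 (LitT.cov_of_chunkM cA23_16_3_25))) (LitT.cov_of_chunkM cA23_16_3_26))) (LitT.cov_of_chunkM cA23_16_3_27)) (LitT.cov_of_chunkM cA23_16_3_28)) (LitT.cov_of_chunkM cA23_16_3_29))))) (LitT.cov_of_chunkM cA23_16_3_30))) (LitT.Cov.split_e (LitT.Cov.split_t (LitT.Cov.split_E (LitT.Cov.split_E (LitT.cov_of_chunkM cA23_16_3_31) (LitT.Cov.split_T (LitT.Cov.split_E (LitT.cov_of_chunkM cA23_16_3_32) (LitT.Cov.split_e (LitT.cov_of_chunkM cA23_16_3_33) (LitT.cov_of_chunkM cA23_16_3_34))) (LitT.cov_of_chunkM cA23_16_3_35))) (LitT.Cov.split_T (LitT.Cov.split_E (LitT.Cov.split_t (LitT.cov_of_chunkM cA23_16_3_36) (LitT.Cov.split_e (LitT.Cov.split_t (LitT.Cov.split_E (LitT.cov_of_chunkM cA23_16_3_37) (LitT.Cov.split_T (LitT.cov_of_chunkM cA23_16_3_38) (LitT.Cov.split_e (LitT.cov_of_chunkM cA23_16_3_39) (LitT.cov_of_chunkM cA23_16_3_40)))) (LitT.cov_of_chunkM cA23_16_3_41)) (LitT.Cov.split_x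 (LitT.cov_of_chunkM cA23_16_3_42) (LitT.Cov.split_E (LitT.cov_of_chunkM cA23_16_3_43) (LitT.cov_of_chunkM cA23_16_3_44))))) (LitT.cov_of_chunkM cA23_16_3_45)) (LitT.Cov.split_t (LitT.cov_of_chunkM cA23_16_3_46) (LitT.Cov.split_e (LitT.Cov.split_E (LitT.Cov.split_t (LitT.Cov.split_e (LitT.cov_of_chunkM cA23_16_3_47) (LitT.cov_of_chunkM cA23_16_3_48)) (LitT.cov_of_chunkM cA23_16_3_49)) (LitT.Cov.split_X (LitT.cov_of_chunkM cA23_16_3_50) (LitT.Cov.split_t (LitT.Cov.split_E (LitT.Cov.split_T (LitT.Cov.split_e (LitT.cov_of_chunkM cA23_16_3_51) (LitT.cov_of_chunkM cA23_16_3_52)) (LitT.cov_of_chunkM cA23_16_3_53)) (LitT.cov_of_chunkM cA23_16_3_54)) (LitT.cov_of_chunkM cA23_16_3_55)))) (LitT.Cov.split_x (LitT.cov_of_chunkM cA23_16_3_56) (LitT.Cov.split_E (LitT.Cov.split_e (LitT.cov_of_chunkM cA23_16_3_57) (LitT.cov_of_chunkM cA23_16_3_58)) (LitT.cov_of_chunkM cA23_16_3_59)))))))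 (LitT.cov_of_chunkM cA23_16_3_60)) (LitT.cov_of_chunkM cA23_16_3_61))))))))))), (LitT.cov_of_chunkM cA23_16_1_0), (LitT.cov_of_chunkM cA23_16_2_0), (LitT.cov_of_chunkM cA23_16_0_0)⟩

end Vale.Agent.helper4.Q4
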