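import Vale.Agent.helper4.Q4TreeM
import Vale.Agent.helper4.Q4G.PB14_7

/-!
Checks for pairs of intervals of second moments.
-/

set_option maxRecDepth 100000
set_option linter.unusedVariables false

namespace Vale.Agent.helper4.Q4

theorem cB14_7_3_0 : chunkOkM (LB14_7.ctx true true 217 21 16 7 16 128 70 16 32) muQ true true 64 RtB14_7.Cx RtB14_7.CX RtB14_7.Ctp.left RtB14_7.Ce RtB14_7.CTp RtB14_7.CEr 0x515959dfb0676edf5f56c6e88f6814b7e6327f56c58e5a738cd6f450d130ed6d7edaf557164c2384f487e8130509a78e58668c56f450de0674b17dd162371e7e81ebf4de68e65d046c498e5d6d4166f450d344593441a8ec327ed1cda1dc7e8795873d7e61f84eb5e8e5d219206f450d15dddc17ed21f1a5c7e84bd67d6e71a00aee68e64fbb24508e51c1e0947f460d312c20517ed25ef9ae7e818b82f6e8e64335cca68e5182e0dd7f450d46941144493413 = true := by decide +kernel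

theorem cB14_7_3_1 : chunkOkM (LB14_7.ctx true true 95 1 1 1 1 1 1 1 1) muQ true true 64 RtB14_7.Cx RtB14_7.CX RtB14_7.Ctp.right RtB14_7.Ce.left RtB14_7.CTp RtB14_7.CEr 0x69 = true := by decide +kernel

theorem cB14_7_3_2 : chunkOkM (LB14_7.ctx true true 217 21 16 7 16 128 78 16 32) muQ true true 64 RtB14_7.Cx RtB14_7.CX RtB14_7.Ctp.right.left RtB14_7.Ce.right.left.left RtB14_7.CTp RtB14_7.CEr 0x6918d2a917ed12c270374c1dc6bd77e81bf8fe57e6e3b761a7e550d14297287ed17fb4487e8a11dcc77e62e1608258e540d104fef57edc8f4f16e8263ccfc7e6151a8c918e540dcd2dfae7dd11691397e830d3b4848e677d09b708e540d34369eb27b66ed1bff6127e8325d926e7362c2157e61460b0578e550d343 = true := by decide +kernel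

theorem cB14_7_3_3 : chunkOkM (LB14_7.ctx true true 217 21 16 7 16 128 86 16 32) muQ true true 64 RtB14_7.Cx RtB14_7.CX RtB14_7.Ctp.right.left.left RtB14_7.Ce.right.left.right RtB14_7.CTp RtB14_7.CEr 0x5914901fe7edb06ae107e625533f708e530d1593236e8dd21f49464cf10167d7e530d1120ce5d8dd6025196e895a0eb67e6235688598e540d344593 = true := by decide +kernel

theorem cB14_7_3_4 : chunkOkM (LB14_7.ctx true true 217 21 16 7 16 129 86 16 32) muQ true true 64 RtB14_7.Cx RtB14_7.CX RtB14_7.Ctp.right.left.right RtB14_7.Ce.right.left.right.left RtB14_7.CTp RtB14_7.CEr 0x6913052e8f8dd10728af74c648739c7e530d16a7b36b8dd1f54d0a74c146bc6d7e8d1923017e540d3d74205f06c43 = true := by decide +kernel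

theorem cB14_7_3_5 : chunkOkM (LB14_7.ctx true true 225 21 16 7 16 129 190 32 32) muQ true true 64 RtB14_7.Cx RtB14_7.CX RtB14_7.Ctp.right.left.right.left RtB14_7.Ce.right.left.right.right RtB14_7.CTp RtB14_7.CEr 0x11b046578dd1a3f2f8c8e520d1a3096a18dd300eb3074c1b150027e81032fa858e540d459366460247ddf47d9b6e8251ad997e6d61a6c67e540d1d0fb8a7ed1e8f98c74cb7271777e530d5176bd2368dd5acfdf64c2ea0a757e6176e7a888e540d34 = true := by decide +kernel

theorem cB14_7_3_6 : chunkOkM (LB14_7.ctx true true 225 21 16 7 16 141 94 32 64) muQ true true 64 RtB14_7.Cx RtB14_7.CX RtB14_7.Ctp.right.left.right.right RtB14_7.Ce.right.left.right.right RtB14_7.CTp RtB14_7.CEr 0x8fd195f06c1aeedf27ed2959e1b74c57f9c897e530d5a4e9f197ddd2d3c66e810d7d267e6b2105307e540d1b2d3527ed238fa1174cb3ca0997e530d5317370587ed199898474cb354886e937ccb337e540d13fe956f01c64 = true := by decide +kernel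

theorem cB14_7_3_7 : chunkOkM (LB14_7.ctx true true 95 1 1 1 1 1 1 1 1) muQ true true 64 RtB14_7.Cx RtB14_7.CX RtB14_7.Ctp.right.left.left RtB14_7.Ce.right.right RtB14_7.CTp RtB14_7.CEr 0x59 = true := by decide +kernel

theorem cB14_7_3_8 : chunkOkM (LB14_7.ctx true true 95 1 1 1 1 1 1 1 1) muQ true true 64 RtB14_7.Cx RtB14_7.CX RtB14_7.Ctp.right.left.right.left RtB14_7.Ce.right.right.left RtB14_7.CTp RtB14_7.CEr 0x59 = true := by decide +kernel

theorem cB14_7_3_9 : chunkOkM (LB14_7.ctx true true 228 21 16 7 16 141 198 32 64) muQ true true 64 RtB14_7.Cx RtB14_7.CX RtB14_7.Ctp.right.left.right.right RtB14_7.Ce.right.right.left.left.left RtB14_7.CTp RtB14_7.CEr 0xb36397d7dd5e7a056e814532f57e69d478ea7e540d1b8c97a7ed39aec7274c183bf1e7e6b8088e97e540d2b01edd7ed269f20c74c272676c7e6ae667dd7e540d61e9d88b7ed34bbf1c74c40e631d7e6939f2287e540d1f3d3227ed172d69974c947ee787e530d645112a53f28dd21f6d464c1db6c75d8e530d9d1f1ab7dd187c8ef78d8fa40e087e530d2c2c5487ed3aebd1074cf0363e37e530d543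 = true := by decide +kernel

theorem cB14_7_3_10 : chunkOkM (LB14_7.ctx true true 245 87 64 7 16 285 410 32 32) muQ true true 64 RtB14_7.Cx RtB14_7.CX RtB14_7.Ctp.right.left.right.right RtB14_7.Ce.right.right.left.left.right RtB14_7.CTp RtB14_7.CEr 0x59142f91988dd1e0c243083cc099b717d8dd6b2177e540d5974597593c2478697dd7d5e0047d8d4c421f7e530d1a3e3357ed2cc0d5f74c9aef5f6e6e6415f17e540d54593 = true := by decide +kernel

theorem cB14_7_3_11 : chunkOkM (LB14_7.ctx true true 95 1 1 1 1 1 1 1 1) muQ true true 64 RtB14_7.Cx RtB14_7.CX RtB14_7.Ctp.right.left.right.right RtB14_7.Ce.right.right.left.right RtB14_7.CTp RtB14_7.CEr 0x59 = true := by decide +kernel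

theorem cB14_7_3_12 : chunkOkM (LB14_7.ctx true true 95 1 1 1 1 1 1 1 1) muQ true true 64 RtB14_7.Cx RtB14_7.CX RtB14_7.Ctp.right.left.right RtB14_7.Ce.right.right.right RtB14_7.CTp RtB14_7.CEr 0x59 = true := by decide +kernel

theorem cB14_7_3_13 : chunkOkM (LB14_7.ctx true true 197 21 16 7 16 21 10 16 32) muQ true true 64 RtB14_7.Cx RtB14_7.CX RtB14_7.Ctp.right.right RtB14_7.Ce.right.left RtB14_7.CTp RtB14_7.CEr 0x18a311e7ed1e526db74c3640877a8d630d = true := by decide +kernel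

theorem cB14_7_3_14 : chunkOkM (LB14_7.ctx true true 222 21 16 7 16 75 98 32 64) muQ true true 64 RtB14_7.Cx RtB14_7.CX RtB14_7.Ctp.right.right.left.left RtB14_7.Ce.right.right.left.left.left RtB14_7.CTp RtB14_7.CEr 0x8d3b4607dd3db07e6e862d8bfc7e63d75cc37e540d1a4f8d67ed392814074c813f30c7e6490dd547e540d2c4c2847ed279dcb674c8ea9cb37e636bc2077e540d65 = true := by decide +kernel

theorem cB14_7_3_15 : chunkOkM (LB14_7.ctx true true 239 43 32 7 16 297 202 32 64) muQ true true 64 RtB14_7.Cx RtB14_7.CX RtB14_7.Ctp.right.right.left.left.left RtB14_7.Ce.right.right.left.left.right.left RtB14_7.CTp.left RtB14_7.CEr 0x3474a3c7ed3f44edd74c53ddf4b7e66de75c97e540d138de46f05b253602f7ed22c09b074cd933a9c7e6108d03c7e540d36b582e7ed2fa94ea74c49f52c87e688d34427e540d376 = true := by decide +kernel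

theorem cB14_7_3_16 : chunkOkM (LB14_7.ctx true true 239 43 32 7 16 297 206 32 64) muQ true true 64 RtB14_7.Cx RtB14_7.CX RtB14_7.Ctp.right.right.left.left.left RtB14_7.Ce.right.right.left.left.right.right RtB14_7.CTp.left RtB14_7.CEr 0x18cff797ed2c9dee574c2d8cc8a7e6a0c77777e540d363f91f7ed2891f9e74c40cf5977e6a36011d7e540d6376449c7ed3d90eea74cbfb59c57e6791d9067e540d38eab9ce8dd2f4dbd374ccd1eaf27e66a819fb7e540d30e23f87ed26c735174c2c19d56e61137025b8e540d367 = true := by decide +kernel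

theorem cB14_7_3_17 : chunkOkM (LB14_7.ctx true true 226 21 16 7 16 153 102 32 64) muQ true true 64 RtB14_7.Cx RtB14_7.CX RtB14_7.Ctp.right.right.left.left.right RtB14_7.Ce.right.right.left.left.right RtB14_7.CTp.left RtB14_7.CEr 0x1e52c5c7ed38f407c74c11460a3d8e630d3d1875d7ed2d3cffb74cbe1fe6f7e630d6 = true := by decide +kernel

theorem cB14_7_3_18 : chunkOkM (LB14_7.ctx true true 229 21 16 7 16 153 206 32 64) muQ true true 64 RtB14_7.Cx RtB14_7.CX RtB14_7.Ctp.right.right.left.left RtB14_7.Ce.right.right.left.left.right RtB14_7.CTp.right RtB14_7.CEr 0x917e5c07dd33d3356e895aabcb7e630de193e567dd5de17964c2113c0a7e68cff7927e540d13945eb38dd5a015a07e6c0f2a5e7e530d6b94063d7dd1e52ce6e832c2a817e674f64d27e540d43 = true := by decide +kernel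

theorem cB14_7_3_19 : chunkOkM (LB14_7.ctx true true 229 21 16 7 16 159 206 32 64) muQ true true 64 RtB14_7.Cx RtB14_7.CX RtB14_7.Ctp.right.right.left.right RtB14_7.Ce.right.right.left.left RtB14_7.CTp RtB14_7.CEr 0x116bb305f06c61a05c2ace35a7ed37fdea374c12c610188e630d656941143 = true := by decide +kernel

theorem cB14_7_3_20 : chunkOkM (LB14_7.ctx true true 252 87 64 7 16 597 426 32 64) muQ true true 64 RtB14_7.Cx RtB14_7.CX RtB14_7.Ctp.right.right.left.left.left RtB14_7.Ce.right.right.left.right.left RtB14_7.CTp RtB14_7.CEr 0x59940438b7dd9ba68ad7d8dd4788a7e530d1ab2bc4b8dd204384174ce5f0a527e530d55935974597593a84c9e87dd2b7e11b7d8317acd47e6b5b4fdf7e540d29f26af7ed3c3912674c79a4d26f6e1a7e2e7e540d2f3c9267ed228987a74c819c1047e67e4c5667e540d61895a8f7ed1acd42a74c164c5d728e530d3595773daf7ed342358674cefbb7227e628ceb1a7e540d29be85d48dd25108b7683c4f448257e6a7d0d977e540d65934597593754 = true := by decide +kernel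

end Vale.Agent.helper4.Q4
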