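import Vale.Agent.helper4.Q4TreeM
import Vale.Agent.helper4.Q4G.PB14_7

/-!
Checks for pairs of intervals of second moments.
-/

set_option maxRecDepth 100000
set_option linter.unusedVariables false

namespace Vale.Agent.helper4.Q4

theorem cB14_7_3_34 : chunkOkM (LB14_7.ctx true true 246 87 64 7 16 171 234 64 64) muQ true true 64 RtB14_7.Cx RtB14_7.CX RtB14_7.Ctp.right.right.right.left.left RtB14_7.Ce.right.right.right.left.right RtB14_7.CTp RtB14_7.CEr 0x21b8653f17dd361c69573ccecd6f97e6326047f7e240d3744f647ed47a6b2474c15e319318e64f198737e240d31d35f918dd28b76ee883cf5553a67e64f9cc087e240d50e29937ed4473c8674c17f4b6328e6474af167e240d5652174217 = true := by decide +kernel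

theorem cB14_7_3_35 : chunkOkM (LB14_7.ctx true true 95 1 1 1 1 1 1 1 1) muQ true true 64 RtB14_7.Cx RtB14_7.CX RtB14_7.Ctp.right.right.right.left.right RtB14_7.Ce.right.right.right.left RtB14_7.CTp RtB14_7.CEr 0x01 = true := by decide +kernel

theorem cB14_7_3_36 : chunkOkM (LB14_7.ctx true true 95 1 1 1 1 1 1 1 1) muQ true true 64 RtB14_7.Cx RtB14_7.CX RtB14_7.Ctp.right.right.right.right RtB14_7.Ce.right.right.right.left RtB14_7.CTp RtB14_7.CEr 0x01 = true := by decide +kernel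

theorem cB14_7_3_37 : chunkOkM (LB14_7.ctx true true 95 1 1 1 1 1 1 1 1) muQ true true 64 RtB14_7.Cx RtB14_7.CX RtB14_7.Ctp.right.right RtB14_7.Ce.right.right.right.right RtB14_7.CTp RtB14_7.CEr 0x21 = true := by decide +kernel

theorem cB14_7_2_0 : chunkOkM (LB14_7.ctx false true 95 1 1 1 1 1 1 1 1) muQ false true 64 RtB14_7.Cx RtB14_7.CX RtB14_7.Ctn RtB14_7.Ce RtB14_7.CTp RtB14_7.CEr 0x49 = true := by decide +kernel

theorem cB14_7_1_0 : chunkOkM (LB14_7.ctx true false 214 21 16 7 16 32 6 32 512) muQ true false 64 RtB14_7.Cx RtB14_7.CX RtB14_7.Ctp.left RtB14_7.Ce RtB14_7.CTn.left.left.left RtB14_7.CEr.left.left.left.left 0x131f31398e64aa28847f520dd4b0e8568d62bc4a64b8e520e18f47f430d4493413 = true := by decide +kernel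

theorem cB14_7_1_1 : chunkOkM (LB14_7.ctx true false 95 1 1 1 1 1 1 1 1) muQ true false 64 RtB14_7.Cx RtB14_7.CX RtB14_7.Ctp.right RtB14_7.Ce.left RtB14_7.CTn.left.left.left RtB14_7.CEr.left.left.left.left 0x69 = true := by decide +kernel

theorem cB14_7_1_2 : chunkOkM (LB14_7.ctx true false 227 21 16 7 16 69 46 32 512) muQ true false 64 RtB14_7.Cx RtB14_7.CX RtB14_7.Ctp.right.left RtB14_7.Ce.right RtB14_7.CTn.left.left.left RtB14_7.CEr.left.left.left.left 0x592f69466fd1d8c5965c8a00e547e6103dd6a58e540d59345934e07796f05b10d22d27f05b311bf416f05b4d62eefc7e62e1f2d368e520d369017a66f17f05b304344 = true := by decide +kernel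

theorem cB14_7_1_3 : chunkOkM (LB14_7.ctx true false 213 21 16 7 16 21 10 32 512) muQ true false 64 RtB14_7.Cx RtB14_7.CX RtB14_7.Ctp.right.right RtB14_7.Ce.right.left RtB14_7.CTn.left.left.left RtB14_7.CEr.left.left.left.left 0x699edb6f01b = true := by decide +kernel

theorem cB14_7_1_4 : chunkOkM (LB14_7.ctx true false 235 21 16 7 16 153 110 32 512) muQ true false 64 RtB14_7.Cx RtB14_7.CX RtB14_7.Ctp.right.right RtB14_7.Ce.right.right.left RtB14_7.CTn.left.left.left RtB14_7.CEr.left.left.left.left 0xf3a6d5fd35646a65c2f5dbc1e8d63edfb257e21c7d13e7e050d5b0ebe6fd357965f74ce234e827e62d7cf96e240d1a4a296fd45b806c74c76e1f037e61e9d2bd7e240d4d84df2f7e68d85a3b7e520d57ee546fd87b85164cf62c0817e65142e3d7e540dd7a56b6f05b343370725f01b94a80b6fd9d929964c6719b997e64a1adb87e540d343 = true := by decide +kernel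

theorem cB14_7_1_5 : chunkOkM (LB14_7.ctx true false 232 21 16 7 16 87 114 32 512) muQ true false 64 RtB14_7.Cx RtB14_7.CX RtB14_7.Ctp.right.right RtB14_7.Ce.right.right.right RtB14_7.CTn.left.left.left RtB14_7.CEr.left.left.left.left 0x21016525e76fd2a11d7474c4e7cc827e689ed4b67e240d36920ba856fd2f41c8874c10c89f528e630d459334 = true := by decide +kernel

theorem cB14_7_1_6 : chunkOkM (LB14_7.ctx true false 95 1 1 1 1 1 1 1 1) muQ true false 64 RtB14_7.Cx RtB14_7.CX RtB14_7.Ctp RtB14_7.Ce RtB14_7.CTn.left.left.left RtB14_7.CEr.left.left.left.right 0x5a = true := by decide +kernel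

theorem cB14_7_1_7 : chunkOkM (LB14_7.ctx true false 95 1 1 1 1 1 1 1 1) muQ true false 64 RtB14_7.Cx RtB14_7.CX RtB14_7.Ctp RtB14_7.Ce RtB14_7.CTn.left.left.left RtB14_7.CEr.left.left.right 0x5a = true := by decide +kernel

theorem cB14_7_1_8 : chunkOkM (LB14_7.ctx true false 95 1 1 1 1 1 1 1 1) muQ true false 64 RtB14_7.Cx RtB14_7.CX RtB14_7.Ctp RtB14_7.Ce RtB14_7.CTn.left.left.left RtB14_7.CEr.left.right 0x5a = true := by decide +kernel

theorem cB14_7_1_9 : chunkOkM (LB14_7.ctx true false 95 1 1 1 1 1 1 1 1) muQ true false 64 RtB14_7.Cx RtB14_7.CX RtB14_7.Ctp RtB14_7.Ce RtB14_7.CTn.left.left.left RtB14_7.CEr.right 0x52 = true := by decide +kernel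

theorem cB14_7_1_10 : chunkOkM (LB14_7.ctx true false 95 1 1 1 1 1 1 1 1) muQ true false 64 RtB14_7.Cx RtB14_7.CX RtB14_7.Ctp RtB14_7.Ce RtB14_7.CTn.left.left.right RtB14_7.CEr 0x5a = true := by decide +kernel

theorem cB14_7_1_11 : chunkOkM (LB14_7.ctx true false 95 1 1 1 1 1 1 1 1) muQ true false 64 RtB14_7.Cx RtB14_7.CX RtB14_7.Ctp RtB14_7.Ce RtB14_7.CTn.left.right RtB14_7.CEr 0x5a = true := by decide +kernel

theorem cB14_7_1_12 : chunkOkM (LB14_7.ctx true false 95 1 1 1 1 1 1 1 1) muQ true false 64 RtB14_7.Cx RtB14_7.CX RtB14_7.Ctp RtB14_7.Ce RtB14_7.CTn.right RtB14_7.CEr 0x5a = true := by decide +kernel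

theorem cB14_7_0_0 : chunkOkM (LB14_7.ctx false false 95 1 1 1 1 1 1 1 1) muQ false false 64 RtB14_7.Cx RtB14_7.CX RtB14_7.Ctn RtB14_7.Ce RtB14_7.CTn RtB14_7.CEr 0x49 = true := by decide +kernel

end Vale.Agent.helper4.Q4
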