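import Vale.Agent.helper4.Q4TreeM
import Vale.Agent.helper4.Q4G.PB14_7_0
import Vale.Agent.helper4.Q4G.PB14_7_1
import Vale.Agent.helper4.Q4G.PB14_7_2

/-!
Checks for pairs of intervals of second moments.
-/

set_option maxRecDepth 100000
set_option linter.unusedVariables false

namespace Vale.Agent.helper4.Q4

theorem covB14_7 : LB14_7.Full muQ.val RtB14_7 := ⟨(LitT.Cov.split_t (LitT.cov_of_chunkM cB14_7_3_0) (LitT.Cov.split_e (LitT.cov_of_chunkM cB14_7_3_1) (LitT.Cov.split_t (LitT.Cov.split_e (LitT.Cov.split_e (LitT.cov_of_chunkM cB14_7_3_2) (LitT.Cov.split_t (LitT.cov_of_chunkM cB14_7_3_3) (LitT.Cov.split_e (LitT.cov_of_chunkM cB14_7_3_4) (LitT.Cov.split_t (LitT.cov_of_chunkM cB14_7_3_5) (LitT.cov_of_chunkM cB14_7_3_6))))) (LitT.Cov.split_t (LitT.cov_of_chunkM cB14_7_3_7) (LitT.Cov.split_e (LitT.Cov.split_t (LitT.cov_of_chunkM cB14_7_3_8) (LitT.Cov.split_e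 (LitT.Cov.split_e (LitT.cov_of_chunkM cB14_7_3_9) (LitT.cov_of_chunkM cB14_7_3_10)) (LitT.cov_of_chunkM cB14_7_3_11))) (LitT.cov_of_chunkM cB14_7_3_12)))) (LitT.Cov.split_e (LitT.cov_of_chunkM cB14_7_3_13) (LitT.Cov.split_e (LitT.Cov.split_t (LitT.Cov.split_e (LitT.Cov.split_t (LitT.Cov.split_e (LitT.cov_of_chunkM cB14_7_3_14) (LitT.Cov.split_T (LitT.Cov.split_t (LitT.Cov.split_e (LitT.cov_of_chunkM cB14_7_3_15) (LitT.cov_of_chunkM cB14_7_3_16)) (LitT.cov_of_chunkM cB14_7_3_17)) (LitT.cov_of_chunkM cB14_7_3_18))) (LitT.cov_of_chunkM cB14_7_3_19)) (LitT.Cov.split_t (LitT.Cov.split_e (LitT.Cov.split_t (LitT.cov_of_chunkM cB14_7_3_20) (LitT.Cov.split_T (LitT.cov_of_chunkM cB14_7_3_21) (LitT.cov_of_chunkM cB14_7_3_22))) (LitT.Cov.split_t (LitT.cov_of_chunkM cB14_7_3_23) (LitT.Cov.split_x (LitT.cov_of_chunkM cB14_7_3_24) (LitT.Cov.split_e (LitT.cov_of_chunkM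 cB14_7_3_25) (LitT.cov_of_chunkM cB14_7_3_26))))) (LitT.Cov.split_e (LitT.cov_of_chunkM cB14_7_3_27) (LitT.Cov.split_T (LitT.Cov.split_x (LitT.cov_of_chunkM cB14_7_3_28) (LitT.cov_of_chunkM cB14_7_3_29)) (LitT.cov_of_chunkM cB14_7_3_30))))) (LitT.cov_of_chunkM cB14_7_3_31)) (LitT.Cov.split_e (LitT.Cov.split_t (LitT.cov_of_chunkM cB14_7_3_32) (LitT.Cov.split_t (LitT.Cov.split_t (LitT.Cov.split_e (LitT.cov_of_chunkM cB14_7_3_33) (LitT.cov_of_chunkM cB14_7_3_34)) (LitT.cov_of_chunkM cB14_7_3_35)) (LitT.cov_of_chunkM cB14_7_3_36))) (LitT.cov_of_chunkM cB14_7_3_37))))))), (LitT.Cov.split_T (LitT.Cov.split_T (LitT.Cov.split_T (LitT.Cov.split_E (LitT.Cov.split_E (LitT.Cov.split_E (LitT.Cov.split_E (LitT.Cov.split_t (LitT.cov_of_chunkM cB14_7_1_0) (LitT.Cov.split_e (LitT.cov_of_chunkM cB14_7_1_1) (LitT.Cov.split_t (LitT.cov_of_chunkM cB14_7_1_2) (LitT.Cov.split_e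 (LitT.cov_of_chunkM cB14_7_1_3) (LitT.Cov.split_e (LitT.cov_of_chunkM cB14_7_1_4) (LitT.cov_of_chunkM cB14_7_1_5)))))) (LitT.cov_of_chunkM cB14_7_1_6)) (LitT.cov_of_chunkM cB14_7_1_7)) (LitT.cov_of_chunkM cB14_7_1_8)) (LitT.cov_of_chunkM cB14_7_1_9)) (LitT.cov_of_chunkM cB14_7_1_10)) (LitT.cov_of_chunkM cB14_7_1_11)) (LitT.cov_of_chunkM cB14_7_1_12)), (LitT.cov_of_chunkM cB14_7_2_0), (LitT.cov_of_chunkM cB14_7_0_0)⟩

end Vale.Agent.helper4.Q4
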