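import Vale.Agent.helper4.Q4TreeM
import Vale.Agent.helper4.Q4G.PB14_8

/-!
Checks for pairs of intervals of second moments.
-/

set_option maxRecDepth 100000
set_option linter.unusedVariables false

namespace Vale.Agent.helper4.Q4

theorem cB14_8_3_0 : chunkOkM (LB14_8.ctx true true 97 1 1 1 1 1 1 1 1) muQ true true 64 RtB14_8.Cx RtB14_8.CX RtB14_8.Ctp.left.left RtB14_8.Ce RtB14_8.CTp RtB14_8.CEr 0x41 = true := by decide +kernel

theorem cB14_8_3_1 : chunkOkM (LB14_8.ctx true true 97 1 1 1 1 1 1 1 1) muQ true true 64 RtB14_8.Cx RtB14_8.CX RtB14_8.Ctp.left.right.left RtB14_8.Ce RtB14_8.CTp RtB14_8.CEr 0x49 = true := by decide +kernel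

theorem cB14_8_3_2 : chunkOkM (LB14_8.ctx true true 220 81 64 9 16 128 64 4 16) muQ true true 64 RtB14_8.Cx RtB14_8.CX RtB14_8.Ctp.left.right.right RtB14_8.Ce.left RtB14_8.CTp RtB14_8.CEr 0x53c94057edb026e677e81d9f13298e6799e7be7f529c585e7f450d10f501de8ed19cd88475c1297ddaf8e664a88627f526a5a407f450d5414959488dbb07eda1ac3a97e8593da047f612a5d7be8f540d12edce358ed1e31168e84c159162d58f63375423c8f540d545937736941496ce219e7edbb70e727e823639dd7e7673cbe078e612868a158f56b0cdee7f460df8e3b527ed105b87675cc24557298e61c6ef6698f593a88487f450d57734694114 = true := by decide +kernel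

theorem cB14_8_3_3 : chunkOkM (LB14_8.ctx true true 208 21 16 9 16 128 70 4 16) muQ true true 64 RtB14_8.Cx RtB14_8.CX RtB14_8.Ctp.left.right.right RtB14_8.Ce.right RtB14_8.CTp RtB14_8.CEr 0x515959710ae087ed96f84347e8330d0fa7f6efd5f8f7f56f3fc36f450d10efa6ee8ed15b14d675c359b5668b51e29b17f6133537258f5cd876a6f460d1478448a8ed21d63dc984c506cde67f52116c5f7f440d14e497818ed1feccd6784c1bbcca68b80a83cd7f531bc1c87f450d345459344 = true := by decide +kernel

theorem cB14_8_3_4 : chunkOkM (LB14_8.ctx true true 97 1 1 1 1 1 1 1 1) muQ true true 64 RtB14_8.Cx RtB14_8.CX RtB14_8.Ctp.right RtB14_8.Ce.left RtB14_8.CTp RtB14_8.CEr 0x69 = true := by decide +kernel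

theorem cB14_8_3_5 : chunkOkM (LB14_8.ctx true true 201 21 16 9 16 64 34 4 16) muQ true true 64 RtB14_8.Cx RtB14_8.CX RtB14_8.Ctp.right.left.left RtB14_8.Ce.right.left.left.left RtB14_8.CTp RtB14_8.CEr 0x694a964ef7ed9f0f1a57e8e3a4fa77e653164657f540d12de23bc8ed1e49a8275cafa34c87e64e256617f540d53 = true := by decide +kernel

theorem cB14_8_3_6 : chunkOkM (LB14_8.ctx true true 207 21 16 9 16 64 78 4 32) muQ true true 64 RtB14_8.Cx RtB14_8.CX RtB14_8.Ctp.right.left.left RtB14_8.Ce.right.left.left.right RtB14_8.CTp RtB14_8.CEr 0x4fc55ac7ed63a743e7e8ebffd3e7e64447c767f540d305ecf8b8ed3034f8b184c179473ee8e65852d8a7f540d1b6dc9bf8ed1f41b1675c36046aa18e67dd13987f540d6557feef07ed5faf4cf7e829d740f7f6b635ce67f540dc666bb97ed136347f75c68f1c268b6d3c1f67f613e4c0528f550d1d5f94d98ed27fb948f84c493b69d7f6ece95887f540d36f537718ed2d6453e75c7883c76f67a1c8ce7f540d6453 = true := by decide +kernel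

theorem cB14_8_3_7 : chunkOkM (LB14_8.ctx true true 97 1 1 1 1 1 1 1 1) muQ true true 64 RtB14_8.Cx RtB14_8.CX RtB14_8.Ctp.right.left.right RtB14_8.Ce.right.left.left RtB14_8.CTp RtB14_8.CEr 0x69 = true := by decide +kernel

theorem cB14_8_3_8 : chunkOkM (LB14_8.ctx true true 212 21 16 9 16 128 86 4 32) muQ true true 64 RtB14_8.Cx RtB14_8.CX RtB14_8.Ctp.right.left.left RtB14_8.Ce.right.left.right RtB14_8.CTp RtB14_8.CEr 0x5975a5b947ed234dfe07e81889aac7e713cf61b7f677fc6c77f550d6a611ebae918ed22981ea75c2f86b068b9c70bc6f668b065b7f550d59313f7b5c28ed27ef746284c552b8bc7f530d1ab5e2cf8ed1c5a3f475c180096a77b56cab027f540d6454593 = true := by decide +kernel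

theorem cB14_8_3_9 : chunkOkM (LB14_8.ctx true true 205 21 16 9 16 64 42 4 32) muQ true true 64 RtB14_8.Cx RtB14_8.CX RtB14_8.Ctp.right.left.right RtB14_8.Ce.right.left.right.left RtB14_8.CTp RtB14_8.CEr 0x694f8c2707ed384aa787e8c79dcc17e6321f9007f540d2dae64f18ed33b1ea4184c11d7cbd48e63c9bde27f540d1b4b5bb08ed21e448775c1859fc68b157553668e63cde3ec7f550d653 = true := by decide +kernel

theorem cB14_8_3_10 : chunkOkM (LB14_8.ctx true true 212 21 16 9 16 129 94 4 32) muQ true true 64 RtB14_8.Cx RtB14_8.CX RtB14_8.Ctp.right.left.right.left RtB14_8.Ce.right.left.right.right RtB14_8.CTp RtB14_8.CEr 0x4c198637edd4d7eb6e91fd625f7e71eaece07f66a4dd4c7f550d740e35d7ed15289d17e87964036e75f22b66f648be2297f550d46a64b755fa28ed4961d0875c3d28a607f65ce23807f540d2645ece88ed24b52d9a84c613bd06f64f6c4717f540d6593168018528ed2c92c5675c40d10177f530d290e65a58ed2c37688d84c423e0847f530d645 = true := by decide +kernel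

theorem cB14_8_3_11 : chunkOkM (LB14_8.ctx true true 217 21 16 9 16 141 94 8 32) muQ true true 64 RtB14_8.Cx RtB14_8.CX RtB14_8.Ctp.right.left.right.right RtB14_8.Ce.right.left.right.right RtB14_8.CTp RtB14_8.CEr 0x5dff296f06c443f6247ede53e6764c12b16c6e95c49e26f6317a94a7f550d31542636f06c46a628d80fa38ed3591350184cf4664877e628d6baf7f540d1108deab8ed13d9f5b484c13439d7a8e625d62a948e540d34c34bf7fd36d608475c837f3367b154319a68e62550ba928e550d565 = true := by decide +kernel

theorem cB14_8_3_12 : chunkOkM (LB14_8.ctx true true 217 21 16 9 16 141 102 8 32) muQ true true 64 RtB14_8.Cx RtB14_8.CX RtB14_8.Ctp.right.left RtB14_8.Ce.right.right RtB14_8.CTp RtB14_8.CEr 0x5959718ffe57ed2dd14c17e951c8246e81ad55da7f6491e6ae7f550d5d129207ed2788aeb74c38a1ddb7e95ad4fc6f62562fe07f550d5fa096f7ede5360a64c1c9671d7e9e1874d6f64b0a58ea8e550d346a6d3a39e97ed1a3a00875c3699896f64188db57f540d5a52afd43e38ed2f5fe56184c45678427f530d5931251520e8ed157a4cca84ce85a3a6f6255d13d7f540d315e2d07fd317fa43384c2d19f0877ba14b4b6f627c8e717f550d53278e38e8ed32d5b31b84c5894de67b3f5f9e27f540d346545934593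 = true := by decide +kernel

theorem cB14_8_3_13 : chunkOkM (LB14_8.ctx true true 264 321 256 9 16 2307 1534 4 32) muQ true true 64 RtB14_8.Cx RtB14_8.CX RtB14_8.Ctp.right.right RtB14_8.Ce.right.left RtB14_8.CTp RtB14_8.CEr 0x111111696969696969696939dc386f06c41b05c2424f5af8ed33c4d51884c20d6577776946946946941141143333331143 = true := by decide +kernel

theorem cB14_8_3_14 : chunkOkM (LB14_8.ctx true true 220 21 16 9 16 153 102 8 64) muQ true true 64 RtB14_8.Cx RtB14_8.CX RtB14_8.Ctp.right.right.left.left RtB14_8.Ce.right.right.left.left RtB14_8.CTp.left RtB14_8.CEr.left 0x57608257edee1843574c2d0a00178e630d1026b6228ed182fb75d84c1a95cfa7f61fe5b1a7f540d33ee4886f05b46a63451d8c7fd4396a0e384c1a3086938e6121e7a328e540d1f6f6bb7fdfa7cc6574c95efb1d77b38f3df4a8e640d10d87b97fdef2bb4074c6b537bf77b150a4087f61e26d4b7f550d361d04c465 = true := by decide +kernel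

theorem cB14_8_3_15 : chunkOkM (LB14_8.ctx true true 224 21 16 9 16 159 206 8 64) muQ true true 64 RtB14_8.Cx RtB14_8.CX RtB14_8.Ctp.right.right.left.right RtB14_8.Ce.right.right.left.left RtB14_8.CTp.left RtB14_8.CEr.left 0x111851d15c8ed1df8c4b284c3c7487398e630d31b05ca1d04c656941143 = true := by decide +kernel

theorem cB14_8_3_16 : chunkOkM (LB14_8.ctx true true 225 21 16 9 16 81 50 32 128) muQ true true 64 RtB14_8.Cx RtB14_8.CX RtB14_8.Ctp.right.right.left RtB14_8.Ce.right.right.left.left RtB14_8.CTp.left RtB14_8.CEr.right 0x5a5a2749f76f01b7d378465c1e74eac88e611291b5d8e530d35a565a565a5 = true := by decide +kernel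

theorem cB14_8_3_17 : chunkOkM (LB14_8.ctx true true 223 21 16 9 16 147 214 8 64) muQ true true 64 RtB14_8.Cx RtB14_8.CX RtB14_8.Ctp.right.right.left.left.left RtB14_8.Ce.right.right.left.right.left RtB14_8.CTp.left RtB14_8.CEr.left 0x2470e9ee8ed24b5510f84c6144026f66d7669b7f540dd576ff97ed10a4b89e84ceee4636e63326ba628e540d28dad55a84cf4837a6f632842027f530d14fcf4b08ed111bda1c84c4af534b77b1a025d578e62777be528e550d654 = true := by decide +kernel

theorem cB14_8_3_18 : chunkOkM (LB14_8.ctx true true 224 21 16 9 16 153 214 8 64) muQ true true 64 RtB14_8.Cx RtB14_8.CX RtB14_8.Ctp.right.right.left.left.right RtB14_8.Ce.right.right.left.right.left RtB14_8.CTp.left RtB14_8.CEr.left 0xfa9ff537ed16c840d984c2d70eacb8e61706dd0e8e540dadf43c87eddfc512f74c42e719c7f630d46a62b23d4b7fd3ae294d884c31e9afd7f6d8d40b6f540d1b17c7138ed1237f5e984c675613277b3855e24d8e612bbfef7f550d16505e418edee65d3274c7659a4e77b2cb7a5d7f6b5b18427e550d465 = true := by decide +kernel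

end Vale.Agent.helper4.Q4
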