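import Vale.Agent.helper4.Q4TreeM
import Vale.Agent.helper4.Q4G.PB14_8

/-!
Checks for pairs of intervals of second moments.
-/

set_option maxRecDepth 100000
set_option linter.unusedVariables false

namespace Vale.Agent.helper4.Q4

theorem cB14_8_3_33 : chunkOkM (LB14_8.ctx true true 236 43 32 17 32 171 110 16 64) muQ true true 64 RtB14_8.Cx RtB14_8.CX RtB14_8.Ctp.right.right.right RtB14_8.Ce.right.right.left RtB14_8.CTp RtB14_8.CEr 0x010164b192d7ed93d71c6e8ecebf057e67d615ff7e24bb11f97e050d6c7e7327edaf290bf74cbde11407e6a01e92c7e259d13827e050d56a6264139c38ed3f2ca4675c12b79b97f6126fc0b7f23a0de66f050d1210f4058ed1c87ba4d84ca1f90ff7e6e7e18ad7e281be43b7e050d6a63147c217fd43cf93a884cef16cc67bb07e2787e6b6c52f6f285f3f96f060d128636b98edf0699ad74c3ad28b777b10b7d9e88e6facd88b7e288373de7e060d42123add0a84c101058777b3de88cfb8e634f339c7e040d11d1102d84c1468f3577b16ecc18e8e618315ec18e274be6707e050d785656511411433 = true := by decide +kernel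

theorem cB14_8_3_34 : chunkOkM (LB14_8.ctx true true 97 1 1 1 1 1 1 1 1) muQ true true 64 RtB14_8.Cx RtB14_8.CX RtB14_8.Ctp.right.right.left.left RtB14_8.Ce.right.right.right.left RtB14_8.CTp RtB14_8.CEr 0x59 = true := by decide +kernel

theorem cB14_8_3_35 : chunkOkM (LB14_8.ctx true true 97 1 1 1 1 1 1 1 1) muQ true true 64 RtB14_8.Cx.left RtB14_8.CX RtB14_8.Ctp.right.right.left.right RtB14_8.Ce.right.right.right.left.left RtB14_8.CTp RtB14_8.CEr 0x21 = true := by decide +kernel

theorem cB14_8_3_36 : chunkOkM (LB14_8.ctx true true 235 43 32 9 16 165 230 16 64) muQ true true 64 RtB14_8.Cx.right RtB14_8.CX RtB14_8.Ctp.right.right.left.right RtB14_8.Ce.right.right.right.left.left RtB14_8.CTp.left RtB14_8.CEr 0x1ed5eebb8ed352822975c5fd8b4c7f630d118162b48ed1ac8165084c5ef3c5a48e630d6a6106698a7fd2f9ec4b484c4922f4738e630d164375b18ed103343e184c6ef0e0477b6c8be5b18e640d63c0554c3f7d52f77b5e7935f98e630d9693f2e74c745261477b5d73f647f630d5419c51e07fd11be544284c4d51e6d77b7d68104a8e640d3656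 = true := by decide +kernel

theorem cB14_8_3_37 : chunkOkM (LB14_8.ctx true true 233 87 64 9 16 165 230 4 64) muQ true true 64 RtB14_8.Cx.right RtB14_8.CX RtB14_8.Ctp.right.right.left.right RtB14_8.Ce.right.right.right.left.left RtB14_8.CTp.right RtB14_8.CEr 0x632fd6f7edc7da70b74c3d0af1c7e8663347c7f640d6979ef4b487ed512a63674c40c69217f630d9df46237ed807af7a74c46ae3acd8e630d645c8fe947ed324491774c72b7dfdc8e630d36a6 = true := by decide +kernel

theorem cB14_8_3_38 : chunkOkM (LB14_8.ctx true true 97 1 1 1 1 1 1 1 1) muQ true true 64 RtB14_8.Cx RtB14_8.CX RtB14_8.Ctp.right.right.left.right RtB14_8.Ce.right.right.right.left.right RtB14_8.CTp RtB14_8.CEr 0x69 = true := by decide +kernel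

theorem cB14_8_3_39 : chunkOkM (LB14_8.ctx true true 249 87 64 17 32 171 234 16 128) muQ true true 64 RtB14_8.Cx RtB14_8.CX RtB14_8.Ctp.right.right.right.left.left RtB14_8.Ce.right.right.right.left RtB14_8.CTp.left.left RtB14_8.CEr.left 0x212929c6d7fd393a5c2a84c8b737767b2d955107f6114379c7f215ac9f6f060d15e09a2b8edf86538474c45f59dd77b3910fbe98e61769d1998e250d4211197b6784c11fe50f77b3b6507028e6182ade87f240d85621742172b1c76b7fd3e27d47e84c19c7df577b1ac4a127f617e127e7f21901f96f060dae6e0047eda82427574c4bb95b277b1f11bec38e6190dd8ce8e250d6a6422e17956fd183950b784c1d398cd77bb7dfd017e61cc293838e250d7a69d76fd84958a074c616033b77b1518d5ab8e617c9da448e250d68521764 = true := by decide +kernel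

theorem cB14_8_3_40 : chunkOkM (LB14_8.ctx true true 235 43 32 9 16 171 230 16 64) muQ true true 64 RtB14_8.Cx RtB14_8.CX RtB14_8.Ctp.right.right.right.left.left RtB14_8.Ce.right.right.right.left RtB14_8.CTp.left.right RtB14_8.CEr.left 0x11be725a8ed1b728d1c84c325768d38e6179f3e9d8e240d217d62dd267ed12b76c7384cf4177f47e6112db1f68e240d17f7b1ed8ed2585bf1884c307f85bf8e614c69ae78e240d15329f828ed217c182984c2ed130148e61a42802a8e240d4521746a6 = true := by decide +kernel

theorem cB14_8_3_41 : chunkOkM (LB14_8.ctx true true 216 21 16 9 16 171 58 8 32) muQ true true 64 RtB14_8.Cx RtB14_8.CX RtB14_8.Ctp.right.right.right.left.left RtB14_8.Ce.right.right.right.left RtB14_8.CTp.left RtB14_8.CEr.right 0xb4a77c27ed1c611bde84c129472ac8e61a196027f240d5a5 = true := by decide +kernel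

theorem cB14_8_3_42 : chunkOkM (LB14_8.ctx true true 234 87 64 9 16 171 234 8 32) muQ true true 64 RtB14_8.Cx RtB14_8.CX RtB14_8.Ctp.right.right.right.left.left RtB14_8.Ce.right.right.right.left RtB14_8.CTp.right RtB14_8.CEr 0x21651f64478ddc507ab6e81643f2088e613d4cf168e240d525fc427ed757faff74c2f6f5d17f61251c707f240d5217421755ea5c87eda136796e916e83aa7e813b443ca8e610df14c78e250d748c3317edb85d22674c18f024018e613201e6c8e29fd6c86e050d546a6 = true := by decide +kernel

theorem cB14_8_3_43 : chunkOkM (LB14_8.ctx true true 97 1 1 1 1 1 1 1 1) muQ true true 64 RtB14_8.Cx RtB14_8.CX RtB14_8.Ctp.right.right.right.left.right RtB14_8.Ce.right.right.right.left RtB14_8.CTp RtB14_8.CEr 0x01 = true := by decide +kernel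

theorem cB14_8_3_44 : chunkOkM (LB14_8.ctx true true 97 1 1 1 1 1 1 1 1) muQ true true 64 RtB14_8.Cx RtB14_8.CX RtB14_8.Ctp.right.right.right.right RtB14_8.Ce.right.right.right.left RtB14_8.CTp RtB14_8.CEr 0x01 = true := by decide +kernel

theorem cB14_8_3_45 : chunkOkM (LB14_8.ctx true true 97 1 1 1 1 1 1 1 1) muQ true true 64 RtB14_8.Cx RtB14_8.CX RtB14_8.Ctp.right.right RtB14_8.Ce.right.right.right.right RtB14_8.CTp RtB14_8.CEr 0x21 = true := by decide +kernel

theorem cB14_8_2_0 : chunkOkM (LB14_8.ctx false true 97 1 1 1 1 1 1 1 1) muQ false true 64 RtB14_8.Cx RtB14_8.CX RtB14_8.Ctn RtB14_8.Ce RtB14_8.CTp RtB14_8.CEr 0x49 = true := by decide +kernel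

theorem cB14_8_1_0 : chunkOkM (LB14_8.ctx true false 303 21 16 513 1024 32 6 16384 65536) muQ true false 64 RtB14_8.Cx RtB14_8.CX.left.left.left.left.left.left RtB14_8.Ctp.left RtB14_8.Ce RtB14_8.CTn.left.left.left.left.left.left.left.left.left.left.left.left RtB14_8.CEr.left.left.left.left.left.left.left.left.left.left.left.left 0x22c38c566805a7f614dc67618f530d4fff8cc78e61003803e19e56e8f9717f430d4493413 = true := by decide +kernel

theorem cB14_8_1_1 : chunkOkM (LB14_8.ctx true false 97 1 1 1 1 1 1 1 1) muQ true false 64 RtB14_8.Cx RtB14_8.CX.left.left.left.left.left.left RtB14_8.Ctp.right RtB14_8.Ce.left RtB14_8.CTn.left.left.left.left.left.left.left.left.left.left.left.left RtB14_8.CEr.left.left.left.left.left.left.left.left.left.left.left.left 0x69 = true := by decide +kernel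

theorem cB14_8_1_2 : chunkOkM (LB14_8.ctx true false 317 21 16 513 1024 69 50 16384 65536) muQ true false 64 RtB14_8.Cx RtB14_8.CX.left.left.left.left.left.left RtB14_8.Ctp.right.left RtB14_8.Ce.right RtB14_8.CTn.left.left.left.left.left.left.left.left.left.left.left.left RtB14_8.CEr.left.left.left.left.left.left.left.left.left.left.left.left 0x59595fad47c205dc767f657b064a7f530d44593899c05f05b42336987f05b30415338c33ee8ab7f6c2bf5237f530d369235c2c318e68da58077f520d344 = true := by decide +kernel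

theorem cB14_8_1_3 : chunkOkM (LB14_8.ctx true false 331 21 16 513 1024 87 114 16384 65536) muQ true false 64 RtB14_8.Cx RtB14_8.CX.left.left.left.left.left.left RtB14_8.Ctp.right.right RtB14_8.Ce.right RtB14_8.CTn.left.left.left.left.left.left.left.left.left.left.left.left RtB14_8.CEr.left.left.left.left.left.left.left.left.left.left.left.left 0x210116e083469dfbfd3cb13867c179405dc8e6250aedbc8e215aed767e050d36932e36697f06b4593341f0cbc1469fd1135857ccfa7df57e6107e3c57f29c0b12d7e050d1b38d6d899fd10b6557c2588cb868e6a78e6e27e240d943147c1eed0bc68e6247fa24d8e530d31d432327f06b434226c35e7f01b4 = true := by decide +kernel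

theorem cB14_8_1_4 : chunkOkM (LB14_8.ctx true false 97 1 1 1 1 1 1 1 1) muQ true false 64 RtB14_8.Cx RtB14_8.CX.left.left.left.left.left.right RtB14_8.Ctp RtB14_8.Ce RtB14_8.CTn.left.left.left.left.left.left.left.left.left.left.left.left RtB14_8.CEr.left.left.left.left.left.left.left.left.left.left.left.left 0x42 = true := by decide +kernel

theorem cB14_8_1_5 : chunkOkM (LB14_8.ctx true false 97 1 1 1 1 1 1 1 1) muQ true false 64 RtB14_8.Cx RtB14_8.CX.left.left.left.left.right RtB14_8.Ctp RtB14_8.Ce RtB14_8.CTn.left.left.left.left.left.left.left.left.left.left.left.left RtB14_8.CEr.left.left.left.left.left.left.left.left.left.left.left.left 0x42 = true := by decide +kernel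

theorem cB14_8_1_6 : chunkOkM (LB14_8.ctx true false 97 1 1 1 1 1 1 1 1) muQ true false 64 RtB14_8.Cx RtB14_8.CX.left.left.left.left RtB14_8.Ctp RtB14_8.Ce RtB14_8.CTn.left.left.left.left.left.left.left.left.left.left.left.left RtB14_8.CEr.left.left.left.left.left.left.left.left.left.left.left.right 0x5a = true := by decide +kernel

theorem cB14_8_1_7 : chunkOkM (LB14_8.ctx true false 97 1 1 1 1 1 1 1 1) muQ true false 64 RtB14_8.Cx RtB14_8.CX.left.left.left.left RtB14_8.Ctp RtB14_8.Ce RtB14_8.CTn.left.left.left.left.left.left.left.left.left.left.left.right RtB14_8.CEr.left.left.left.left.left.left.left.left.left.left.left 0x5a = true := by decide +kernel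

theorem cB14_8_1_8 : chunkOkM (LB14_8.ctx true false 97 1 1 1 1 1 1 1 1) muQ true false 64 RtB14_8.Cx RtB14_8.CX.left.left.left.left RtB14_8.Ctp RtB14_8.Ce RtB14_8.CTn.left.left.left.left.left.left.left.left.left.left.right RtB14_8.CEr.left.left.left.left.left.left.left.left.left.left.left 0x5a = true := by decide +kernel

theorem cB14_8_1_9 : chunkOkM (LB14_8.ctx true false 97 1 1 1 1 1 1 1 1) muQ true false 64 RtB14_8.Cx RtB14_8.CX.left.left.left.right RtB14_8.Ctp RtB14_8.Ce RtB14_8.CTn.left.left.left.left.left.left.left.left.left.left RtB14_8.CEr.left.left.left.left.left.left.left.left.left.left.left 0x42 = true := by decide +kernel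

theorem cB14_8_1_10 : chunkOkM (LB14_8.ctx true false 97 1 1 1 1 1 1 1 1) muQ true false 64 RtB14_8.Cx RtB14_8.CX.left.left.left RtB14_8.Ctp RtB14_8.Ce RtB14_8.CTn.left.left.left.left.left.left.left.left.left.left RtB14_8.CEr.left.left.left.left.left.left.left.left.left.left.right 0x5a = true := by decide +kernel

theorem cB14_8_1_11 : chunkOkM (LB14_8.ctx true false 97 1 1 1 1 1 1 1 1) muQ true false 64 RtB14_8.Cx RtB14_8.CX.left.left.left RtB14_8.Ctp RtB14_8.Ce RtB14_8.CTn.left.left.left.left.left.left.left.left.left.left RtB14_8.CEr.left.left.left.left.left.left.left.left.left.right 0x5a = true := by decide +kernel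

theorem cB14_8_1_12 : chunkOkM (LB14_8.ctx true false 97 1 1 1 1 1 1 1 1) muQ true false 64 RtB14_8.Cx RtB14_8.CX.left.left.left RtB14_8.Ctp RtB14_8.Ce RtB14_8.CTn.left.left.left.left.left.left.left.left.left.right RtB14_8.CEr.left.left.left.left.left.left.left.left.left 0x5a = true := by decide +kernel

theorem cB14_8_1_13 : chunkOkM (LB14_8.ctx true false 97 1 1 1 1 1 1 1 1) muQ true false 64 RtB14_8.Cx RtB14_8.CX.left.left.left RtB14_8.Ctp RtB14_8.Ce RtB14_8.CTn.left.left.left.left.left.left.left.left.right RtB14_8.CEr.left.left.left.left.left.left.left.left.left 0x5a = true := by decide +kernel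

theorem cB14_8_1_14 : chunkOkM (LB14_8.ctx true false 97 1 1 1 1 1 1 1 1) muQ true false 64 RtB14_8.Cx RtB14_8.CX.left.left.right RtB14_8.Ctp RtB14_8.Ce RtB14_8.CTn.left.left.left.left.left.left.left.left RtB14_8.CEr.left.left.left.left.left.left.left.left.left 0x42 = true := by decide +kernel

theorem cB14_8_1_15 : chunkOkM (LB14_8.ctx true false 97 1 1 1 1 1 1 1 1) muQ true false 64 RtB14_8.Cx RtB14_8.CX.left.left RtB14_8.Ctp RtB14_8.Ce RtB14_8.CTn.left.left.left.left.left.left.left.left RtB14_8.CEr.left.left.left.left.left.left.left.left.right 0x5a = true := by decide +kernel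

theorem cB14_8_1_16 : chunkOkM (LB14_8.ctx true false 97 1 1 1 1 1 1 1 1) muQ true false 64 RtB14_8.Cx RtB14_8.CX.left.left RtB14_8.Ctp RtB14_8.Ce RtB14_8.CTn.left.left.left.left.left.left.left.left RtB14_8.CEr.left.left.left.left.left.left.left.right 0x5a = true := by decide +kernel

theorem cB14_8_1_17 : chunkOkM (LB14_8.ctx true false 97 1 1 1 1 1 1 1 1) muQ true false 64 RtB14_8.Cx RtB14_8.CX.left.left RtB14_8.Ctp RtB14_8.Ce RtB14_8.CTn.left.left.left.left.left.left.left.right RtB14_8.CEr.left.left.left.left.left.left.left 0x5a = true := by decide +kernel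

theorem cB14_8_1_18 : chunkOkM (LB14_8.ctx true false 97 1 1 1 1 1 1 1 1) muQ true false 64 RtB14_8.Cx RtB14_8.CX.left.left RtB14_8.Ctp RtB14_8.Ce RtB14_8.CTn.left.left.left.left.left.left.right RtB14_8.CEr.left.left.left.left.left.left.left 0x5a = true := by decide +kernel

theorem cB14_8_1_19 : chunkOkM (LB14_8.ctx true false 97 1 1 1 1 1 1 1 1) muQ true false 64 RtB14_8.Cx RtB14_8.CX.left.right RtB14_8.Ctp RtB14_8.Ce RtB14_8.CTn.left.left.left.left.left.left RtB14_8.CEr.left.left.left.left.left.left.left 0x42 = true := by decide +kernel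

theorem cB14_8_1_20 : chunkOkM (LB14_8.ctx true false 97 1 1 1 1 1 1 1 1) muQ true false 64 RtB14_8.Cx RtB14_8.CX.left RtB14_8.Ctp RtB14_8.Ce RtB14_8.CTn.left.left.left.left.left.left RtB14_8.CEr.left.left.left.left.left.left.right 0x5a = true := by decide +kernel

theorem cB14_8_1_21 : chunkOkM (LB14_8.ctx true false 97 1 1 1 1 1 1 1 1) muQ true false 64 RtB14_8.Cx RtB14_8.CX.left RtB14_8.Ctp RtB14_8.Ce RtB14_8.CTn.left.left.left.left.left.left RtB14_8.CEr.left.left.left.left.left.right 0x5a = true := by decide +kernel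

theorem cB14_8_1_22 : chunkOkM (LB14_8.ctx true false 97 1 1 1 1 1 1 1 1) muQ true false 64 RtB14_8.Cx RtB14_8.CX.right RtB14_8.Ctp RtB14_8.Ce RtB14_8.CTn.left.left.left.left.left.left RtB14_8.CEr.left.left.left.left.left 0x42 = true := by decide +kernel

theorem cB14_8_1_23 : chunkOkM (LB14_8.ctx true false 97 1 1 1 1 1 1 1 1) muQ true false 64 RtB14_8.Cx RtB14_8.CX RtB14_8.Ctp RtB14_8.Ce RtB14_8.CTn.left.left.left.left.left.left RtB14_8.CEr.left.left.left.left.right 0x5a = true := by decide +kernel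

theorem cB14_8_1_24 : chunkOkM (LB14_8.ctx true false 97 1 1 1 1 1 1 1 1) muQ true false 64 RtB14_8.Cx RtB14_8.CX RtB14_8.Ctp RtB14_8.Ce RtB14_8.CTn.left.left.left.left.left.left RtB14_8.CEr.left.left.left.right 0x5a = true := by decide +kernel

theorem cB14_8_1_25 : chunkOkM (LB14_8.ctx true false 97 1 1 1 1 1 1 1 1) muQ true false 64 RtB14_8.Cx RtB14_8.CX RtB14_8.Ctp RtB14_8.Ce RtB14_8.CTn.left.left.left.left.left.left RtB14_8.CEr.left.left.right 0x5a = true := by decide +kernel

theorem cB14_8_1_26 : chunkOkM (LB14_8.ctx true false 97 1 1 1 1 1 1 1 1) muQ true false 64 RtB14_8.Cx RtB14_8.CX RtB14_8.Ctp RtB14_8.Ce RtB14_8.CTn.left.left.left.left.left.right RtB14_8.CEr.left.left 0x42 = true := by decide +kernel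

theorem cB14_8_1_27 : chunkOkM (LB14_8.ctx true false 97 1 1 1 1 1 1 1 1) muQ true false 64 RtB14_8.Cx RtB14_8.CX RtB14_8.Ctp RtB14_8.Ce RtB14_8.CTn.left.left.left.left.right RtB14_8.CEr.left.left 0x42 = true := by decide +kernel

theorem cB14_8_1_28 : chunkOkM (LB14_8.ctx true false 97 1 1 1 1 1 1 1 1) muQ true false 64 RtB14_8.Cx RtB14_8.CX RtB14_8.Ctp RtB14_8.Ce RtB14_8.CTn.left.left.left.right RtB14_8.CEr.left.left 0x42 = true := by decide +kernel

theorem cB14_8_1_29 : chunkOkM (LB14_8.ctx true false 97 1 1 1 1 1 1 1 1) muQ true false 64 RtB14_8.Cx RtB14_8.CX RtB14_8.Ctp RtB14_8.Ce RtB14_8.CTn.left.left.left RtB14_8.CEr.left.right 0x5a = true := by decide +kernel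

theorem cB14_8_1_30 : chunkOkM (LB14_8.ctx true false 97 1 1 1 1 1 1 1 1) muQ true false 64 RtB14_8.Cx RtB14_8.CX RtB14_8.Ctp RtB14_8.Ce RtB14_8.CTn.left.left.right RtB14_8.CEr.left 0x42 = true := by decide +kernel

theorem cB14_8_1_31 : chunkOkM (LB14_8.ctx true false 97 1 1 1 1 1 1 1 1) muQ true false 64 RtB14_8.Cx RtB14_8.CX RtB14_8.Ctp RtB14_8.Ce RtB14_8.CTn.left.right RtB14_8.CEr.left 0x42 = true := by decide +kernel

theorem cB14_8_1_32 : chunkOkM (LB14_8.ctx true false 97 1 1 1 1 1 1 1 1) muQ true false 64 RtB14_8.Cx RtB14_8.CX RtB14_8.Ctp RtB14_8.Ce RtB14_8.CTn.left RtB14_8.CEr.right 0x52 = true := by decide +kernel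

theorem cB14_8_1_33 : chunkOkM (LB14_8.ctx true false 97 1 1 1 1 1 1 1 1) muQ true false 64 RtB14_8.Cx RtB14_8.CX RtB14_8.Ctp RtB14_8.Ce RtB14_8.CTn.right RtB14_8.CEr 0x42 = true := by decide +kernel

theorem cB14_8_0_0 : chunkOkM (LB14_8.ctx false false 97 1 1 1 1 1 1 1 1) muQ false false 64 RtB14_8.Cx RtB14_8.CX RtB14_8.Ctn RtB14_8.Ce RtB14_8.CTn RtB14_8.CEr 0x49 = true := by decide +kernel

end Vale.Agent.helper4.Q4
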