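import Vale.Agent.helper4.Q4TreeM
import Vale.Agent.helper4.Q4G.PB14_8_0
import Vale.Agent.helper4.Q4G.PB14_8_1
import Vale.Agent.helper4.Q4G.PB14_8_2

/-!
Checks for pairs of intervals of second moments.
-/

set_option maxRecDepth 100000
set_option linter.unusedVariables false

namespace Vale.Agent.helper4.Q4

theorem covB14_8 : LB14_8.Full muQ.val RtB14_8 := ⟨(LitT.Cov.split_t (LitT.Cov.split_t (LitT.cov_of_chunkM cB14_8_3_0) (LitT.Cov.split_t (LitT.cov_of_chunkM cB14_8_3_1) (LitT.Cov.split_e (LitT.cov_of_chunkM cB14_8_3_2) (LitT.cov_of_chunkM cB14_8_3_3)))) (LitT.Cov.split_e (LitT.cov_of_chunkM cB14_8_3_4) (LitT.Cov.split_t (LitT.Cov.split_e (LitT.Cov.split_e (LitT.Cov.split_t (LitT.Cov.split_e (LitT.cov_of_chunkM cB14_8_3_5) (LitT.cov_of_chunkM cB14_8_3_6)) (LitT.cov_of_chunkM cB14_8_3_7)) (LitT.Cov.split_t (LitT.cov_of_chunkM cB14_8_3_8) (LitT.Cov.split_e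 (LitT.cov_of_chunkM cB14_8_3_9) (LitT.Cov.split_t (LitT.cov_of_chunkM cB14_8_3_10) (LitT.cov_of_chunkM cB14_8_3_11))))) (LitT.cov_of_chunkM cB14_8_3_12)) (LitT.Cov.split_e (LitT.cov_of_chunkM cB14_8_3_13) (LitT.Cov.split_e (LitT.Cov.split_t (LitT.Cov.split_T (LitT.Cov.split_e (LitT.Cov.split_E (LitT.Cov.split_t (LitT.cov_of_chunkM cB14_8_3_14) (LitT.cov_of_chunkM cB14_8_3_15)) (LitT.cov_of_chunkM cB14_8_3_16)) (LitT.Cov.split_E (LitT.Cov.split_t (LitT.Cov.split_e (LitT.Cov.split_t (LitT.cov_of_chunkM cB14_8_3_17) (LitT.cov_of_chunkM cB14_8_3_18)) (LitT.cov_of_chunkM cB14_8_3_19)) (LitT.Cov.split_T (LitT.Cov.split_E (LitT.Cov.split_e (LitT.cov_of_chunkM cB14_8_3_20) (LitT.Cov.split_x (LitT.cov_of_chunkM cB14_8_3_21) (LitT.cov_of_chunkM cB14_8_3_22))) (LitT.cov_of_chunkM cB14_8_3_23)) (LitT.cov_of_chunkM cB14_8_3_24))) (LitT.cov_of_chunkM cB14_8_3_25)))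 (LitT.Cov.split_E (LitT.cov_of_chunkM cB14_8_3_26) (LitT.Cov.split_e (LitT.cov_of_chunkM cB14_8_3_27) (LitT.Cov.split_t (LitT.Cov.split_e (LitT.Cov.split_t (LitT.cov_of_chunkM cB14_8_3_28) (LitT.cov_of_chunkM cB14_8_3_29)) (LitT.cov_of_chunkM cB14_8_3_30)) (LitT.Cov.split_e (LitT.cov_of_chunkM cB14_8_3_31) (LitT.cov_of_chunkM cB14_8_3_32)))))) (LitT.cov_of_chunkM cB14_8_3_33)) (LitT.Cov.split_e (LitT.Cov.split_t (LitT.Cov.split_t (LitT.cov_of_chunkM cB14_8_3_34) (LitT.Cov.split_e (LitT.Cov.split_x (LitT.cov_of_chunkM cB14_8_3_35) (LitT.Cov.split_T (LitT.cov_of_chunkM cB14_8_3_36) (LitT.cov_of_chunkM cB14_8_3_37))) (LitT.cov_of_chunkM cB14_8_3_38))) (LitT.Cov.split_t (LitT.Cov.split_t (LitT.Cov.split_T (LitT.Cov.split_E (LitT.Cov.split_T (LitT.cov_of_chunkM cB14_8_3_39) (LitT.cov_of_chunkM cB14_8_3_40)) (LitT.cov_of_chunkM cB14_8_3_41)) (LitT.cov_of_chunkM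 cB14_8_3_42)) (LitT.cov_of_chunkM cB14_8_3_43)) (LitT.cov_of_chunkM cB14_8_3_44))) (LitT.cov_of_chunkM cB14_8_3_45))))))), (LitT.Cov.split_T (LitT.Cov.split_E (LitT.Cov.split_T (LitT.Cov.split_T (LitT.Cov.split_E (LitT.Cov.split_T (LitT.Cov.split_T (LitT.Cov.split_T (LitT.Cov.split_E (LitT.Cov.split_E (LitT.Cov.split_E (LitT.Cov.split_X (LitT.Cov.split_E (LitT.Cov.split_E (LitT.Cov.split_X (LitT.Cov.split_T (LitT.Cov.split_T (LitT.Cov.split_E (LitT.Cov.split_E (LitT.Cov.split_X (LitT.Cov.split_T (LitT.Cov.split_T (LitT.Cov.split_E (LitT.Cov.split_E (LitT.Cov.split_X (LitT.Cov.split_T (LitT.Cov.split_T (LitT.Cov.split_E (LitT.Cov.split_X (LitT.Cov.split_X (LitT.Cov.split_t (LitT.cov_of_chunkM cB14_8_1_0) (LitT.Cov.split_e (LitT.cov_of_chunkM cB14_8_1_1) (LitT.Cov.split_t (LitT.cov_of_chunkM cB14_8_1_2) (LitT.cov_of_chunkM cB14_8_1_3)))) (LitT.cov_of_chunkM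 cB14_8_1_4)) (LitT.cov_of_chunkM cB14_8_1_5)) (LitT.cov_of_chunkM cB14_8_1_6)) (LitT.cov_of_chunkM cB14_8_1_7)) (LitT.cov_of_chunkM cB14_8_1_8)) (LitT.cov_of_chunkM cB14_8_1_9)) (LitT.cov_of_chunkM cB14_8_1_10)) (LitT.cov_of_chunkM cB14_8_1_11)) (LitT.cov_of_chunkM cB14_8_1_12)) (LitT.cov_of_chunkM cB14_8_1_13)) (LitT.cov_of_chunkM cB14_8_1_14)) (LitT.cov_of_chunkM cB14_8_1_15)) (LitT.cov_of_chunkM cB14_8_1_16)) (LitT.cov_of_chunkM cB14_8_1_17)) (LitT.cov_of_chunkM cB14_8_1_18)) (LitT.cov_of_chunkM cB14_8_1_19)) (LitT.cov_of_chunkM cB14_8_1_20)) (LitT.cov_of_chunkM cB14_8_1_21)) (LitT.cov_of_chunkM cB14_8_1_22)) (LitT.cov_of_chunkM cB14_8_1_23)) (LitT.cov_of_chunkM cB14_8_1_24)) (LitT.cov_of_chunkM cB14_8_1_25)) (LitT.cov_of_chunkM cB14_8_1_26)) (LitT.cov_of_chunkM cB14_8_1_27)) (LitT.cov_of_chunkM cB14_8_1_28)) (LitT.cov_of_chunkM cB14_8_1_29))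 (LitT.cov_of_chunkM cB14_8_1_30)) (LitT.cov_of_chunkM cB14_8_1_31)) (LitT.cov_of_chunkM cB14_8_1_32)) (LitT.cov_of_chunkM cB14_8_1_33)), (LitT.cov_of_chunkM cB14_8_2_0), (LitT.cov_of_chunkM cB14_8_0_0)⟩

end Vale.Agent.helper4.Q4
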