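import Vale.Agent.helper4.Q4TreeM
import Vale.Agent.helper4.Q4G.PB15_7

/-!
Checks for pairs of intervals of second moments.
-/

set_option maxRecDepth 100000
set_option linter.unusedVariables false

namespace Vale.Agent.helper4.Q4

theorem cB15_7_3_0 : chunkOkM (LB15_7.ctx true true 92 1 1 1 1 1 1 1 1) muQ true true 64 RtB15_7.Cx RtB15_7.CX RtB15_7.Ctp.left RtB15_7.Ce RtB15_7.CTp RtB15_7.CEr 0x49 = true := by decide +kernel

theorem cB15_7_3_1 : chunkOkM (LB15_7.ctx true true 92 1 1 1 1 1 1 1 1) muQ true true 64 RtB15_7.Cx RtB15_7.CX RtB15_7.Ctp.right RtB15_7.Ce.left RtB15_7.CTp RtB15_7.CEr 0x69 = true := by decide +kernel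

theorem cB15_7_3_2 : chunkOkM (LB15_7.ctx true true 224 23 16 7 16 128 663 16 32) muQ true true 64 RtB15_7.Cx RtB15_7.CX RtB15_7.Ctp.right.left RtB15_7.Ce.right.left.left RtB15_7.CTp RtB15_7.CEr 0x691be8f8c7dd3c3d67a7d89f139fe7d63977d557e540d212860e7dd38484ff7d83210a297e519558077e440d31695da27dd4497e007d81c1d81678d6578b58378d56df0746e450d423185fb7dd47193ee7d82b2516bd8d687c01b17e54dee0d27e450d33859f107dd37d5a687d8fa0d026d74099b9278d69906e94a8d556d6f7c7e460d43 = true := by decide +kernel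

theorem cB15_7_3_3 : chunkOkM (LB15_7.ctx true true 231 23 16 7 16 128 1411 16 32) muQ true true 64 RtB15_7.Cx RtB15_7.CX RtB15_7.Ctp.right.left.left RtB15_7.Ce.right.left.right RtB15_7.CTp RtB15_7.CEr 0x5997c85f97d886e085c08e623a95cd189e5186d9bd8e9e440d2057e7d7dd299b02d7d890e21db7d646e60bc7e5126c4357e450d1b4fbb97dd25f1e6f7d8e696b26d62d597fa7e5c5954a6e450d41505eef7dd696f6f37d82a8e1d6ca9d52a86c2f88e440d344593 = true := by decide +kernel

theorem cB15_7_3_4 : chunkOkM (LB15_7.ctx true true 224 23 16 7 16 129 731 16 32) muQ true true 64 RtB15_7.Cx RtB15_7.CX RtB15_7.Ctp.right.left.right RtB15_7.Ce.right.left.right.left RtB15_7.CTp RtB15_7.CEr 0x691b703c27dd12e5fe67d8f937c4d7d62fea80648d540d287ec2a7dd299a0747d8119670218d652eba337e540d31a3dc9a7dd1e00ac17d8c6aa1bc7d62cd6dbb68d540d43 = true := by decide +kernel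

theorem cB15_7_3_5 : chunkOkM (LB15_7.ctx true true 224 23 16 7 16 129 799 16 32) muQ true true 64 RtB15_7.Cx RtB15_7.CX RtB15_7.Ctp.right.left.right.left RtB15_7.Ce.right.left.right.right RtB15_7.CTp RtB15_7.CEr 0x1ad84437dd315c2207d82f1fc147e6773062878d540d280fb5e7dd1b342863c1a1fddd7d8b2ad0c67d64019a167e550d1a8110f7dd3dc66d57d8283d04cf8d67acdb4e18d59f9c396e450d34 = true := by decide +kernel

theorem cB15_7_3_6 : chunkOkM (LB15_7.ctx true true 228 23 16 7 16 141 1615 16 32) muQ true true 64 RtB15_7.Cx RtB15_7.CX RtB15_7.Ctp.right.left.right.right RtB15_7.Ce.right.left.right.right RtB15_7.CTp RtB15_7.CEr 0x27df50f7ddd8587863c1bfc154c8d530d28665a97dd4c79f963c168bcb148d530d425499307ddd691246d8113ca007e64132550f8d540d29eda537dd13197ac73c195daa67d82674a7e7e540d4302138fc97dd7266cb6d8caa33597d6278776f68d540d34 = true := by decide +kernel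

theorem cB15_7_3_7 : chunkOkM (LB15_7.ctx true true 204 23 16 7 16 21 85 16 32) muQ true true 64 RtB15_7.Cx RtB15_7.CX RtB15_7.Ctp.right.right RtB15_7.Ce.right.left RtB15_7.CTp RtB15_7.CEr 0x2898da67dd16a44164c57de0b37d630d = true := by decide +kernel

theorem cB15_7_3_8 : chunkOkM (LB15_7.ctx true true 232 23 16 7 16 285 1683 16 32) muQ true true 64 RtB15_7.Cx RtB15_7.CX RtB15_7.Ctp.right.left RtB15_7.Ce.right.right RtB15_7.CTp RtB15_7.CEr 0x59591c139687dd18e54ff7d820ece2a7d63a7caf038d540d282386d7dd132b7ba73cc4181a6d8577b836e62df642fe8d550d2c1e1dc7dd2fef0e273c176d1557d81f28e827e540d2eb06457ddf0fa466d82c4574348d530d341d6eae27dd208a3d77d8b0d9326e63e1c9b968d540d3445934593 = true := by decide +kernel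

theorem cB15_7_3_9 : chunkOkM (LB15_7.ctx true true 232 23 16 7 16 153 1683 32 32) muQ true true 64 RtB15_7.Cx RtB15_7.CX RtB15_7.Ctp.right.right.left.left RtB15_7.Ce.right.right.left.left.left RtB15_7.CTp RtB15_7.CEr 0x15a575f01c37241d47dd3bafad173c20d599c5986dd1763cc6d91f22c0e7d8b4a23a67d61cc372228d550d3d2e58c7dd348fff173c6e768637d6192f83968d540d5f34a8d6dd25401887d812b95c928d530d3a494387dd341f5f473c1340c2e08d530d543 = true := by decide +kernel

theorem cB15_7_3_10 : chunkOkM (LB15_7.ctx true true 243 47 32 7 16 297 1751 32 32) muQ true true 64 RtB15_7.Cx RtB15_7.CX RtB15_7.Ctp.right.right.left.left.left RtB15_7.Ce.right.right.left.left.right RtB15_7.CTp RtB15_7.CEr 0x284b131f8cd3f16f363c2319e9608d530d247568b7dde515b663c38615abc8d530d71d0a0387dd1105d527d838804ed98d530d311a63577dd1f5315e7d81b6dbce7d61e173ab48d540d2ffec7c7dd48124b473c44bb6207d61eba7b928d540d52f958b27dd37c466c73c1b3ea957d8241e787b8d540d34 = true := by decide +kernel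

theorem cB15_7_3_11 : chunkOkM (LB15_7.ctx true true 236 23 16 7 16 153 1717 32 64) muQ true true 64 RtB15_7.Cx RtB15_7.CX RtB15_7.Ctp.right.right.left.left.right RtB15_7.Ce.right.right.left.left.right.left RtB15_7.CTp RtB15_7.CEr 0xe2adc26dd1ac84317d8e3ada7a7d614cc53418d540d3e778ef7dd5a845af73c10198afe8d6172bedf58d540dee8155f05b65 = true := by decide +kernel

theorem cB15_7_3_12 : chunkOkM (LB15_7.ctx true true 246 47 32 7 16 309 1751 32 64) muQ true true 64 RtB15_7.Cx RtB15_7.CX RtB15_7.Ctp.right.right.left.left.right RtB15_7.Ce.right.right.left.left.right.right RtB15_7.CTp RtB15_7.CEr 0xd874ba6dd24255a67d8153e55e38d530d388ea027dd224562973c92540057d61a7df4b78d540d517af2eda8cd143ab3f7d850b6296e617d9d88b8d540d43474ab7dd5821eb273cb480f36e6168de65b8d540d7524fba7dd49c7b3173c1593ab27e61543b50a8d540d637cfd657dd4286e7673c1c777edf8d530d357 = true := by decide +kernel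

theorem cB15_7_3_13 : chunkOkM (LB15_7.ctx true true 226 23 16 7 16 81 425 32 64) muQ true true 64 RtB15_7.Cx RtB15_7.CX RtB15_7.Ctp.right.right.left.right RtB15_7.Ce.right.right.left.left RtB15_7.CTp RtB15_7.CEr 0x134a65f06c91905c3bd90bb7dd3004fbb73c20d65 = true := by decide +kernel

theorem cB15_7_3_14 : chunkOkM (LB15_7.ctx true true 225 23 16 7 16 147 901 16 32) muQ true true 64 RtB15_7.Cx RtB15_7.CX RtB15_7.Ctp.right.right.left.left.left RtB15_7.Ce.right.right.left.right.left RtB15_7.CTp RtB15_7.CEr 0x1e10f177dd93126c6d837d7b7438d530d = true := by decide +kernel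

theorem cB15_7_3_15 : chunkOkM (LB15_7.ctx true true 246 47 32 7 16 309 1785 32 64) muQ true true 64 RtB15_7.Cx RtB15_7.CX RtB15_7.Ctp.right.right.left.left.right RtB15_7.Ce.right.right.left.right.left.left RtB15_7.CTp RtB15_7.CEr 0x122e634f8cd1e53f3e7d818f326a18d530d35bbadf7dd2f4dae773c17e587a18d530d527336dc98cd172db8373c32a15e6d82004a2618d540d3e26c38a7cd1360d8e7d8f3c49997d613ab17e38d540d7c09dd27dd5cd013473c1a6dafda8d530d44c2e8e7dd2900b9e73cd090daf7d61a4382708d540d6525e9a1d7dd16cf28373c36755deb8d530d37 = true := by decide +kernel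

theorem cB15_7_3_16 : chunkOkM (LB15_7.ctx true true 243 47 32 7 16 309 1819 32 32) muQ true true 64 RtB15_7.Cx RtB15_7.CX RtB15_7.Ctp.right.right.left.left.right RtB15_7.Ce.right.right.left.right.left.right RtB15_7.CTp RtB15_7.CEr 0x140f7b4a8cd24863847d81f2c6a278d530d31fa3db7dd305fccc73cd2f85a6e62195fbf48d540d51f297007dd167ead6d8361c46c78d530d3597 = true := by decide +kernel

theorem cB15_7_3_17 : chunkOkM (LB15_7.ctx true true 92 1 1 1 1 1 1 1 1) muQ true true 64 RtB15_7.Cx RtB15_7.CX RtB15_7.Ctp.right.right.left.left RtB15_7.Ce.right.right.left.right.right RtB15_7.CTp RtB15_7.CEr 0x59 = true := by decide +kernel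

end Vale.Agent.helper4.Q4
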