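import Vale.Agent.helper4.Q4TreeM
import Vale.Agent.helper4.Q4G.PB15_7

/-!
Checks for pairs of intervals of second moments.
-/

set_option maxRecDepth 100000
set_option linter.unusedVariables false

namespace Vale.Agent.helper4.Q4

theorem cB15_7_3_18 : chunkOkM (LB15_7.ctx true true 246 47 32 7 16 321 1785 32 64) muQ true true 64 RtB15_7.Cx RtB15_7.CX RtB15_7.Ctp.right.right.left.right.left RtB15_7.Ce.right.right.left.right.left.left RtB15_7.CTp RtB15_7.CEr 0x205995f01c103304928cdf86f316d814d4773d8d6bb944307d540d76c56da07dd6f765b073cc26599f7d6102046bb8d540d067138927dd4356f1773c2e83134c8d630d719745b7dd48634fa73ccaeed16e611a894aa8d540d3765 = true := by decide +kernel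

theorem cB15_7_3_19 : chunkOkM (LB15_7.ctx true true 255 91 64 7 16 321 3655 32 64) muQ true true 64 RtB15_7.Cx.left RtB15_7.CX RtB15_7.Ctp.right.right.left.right.left RtB15_7.Ce.right.right.left.right.left.right RtB15_7.CTp RtB15_7.CEr 0x11d8287d8cdd09c996d816ff97f7e6af4ad267d540d157044b48cd9af94f6d817ea49a7d617f5ccbe8d540d3703c4f57dd6f2aa5873c1da15d17e6de5f2007d540d748d47d7dd4643b3c73c16f33567e6f5b903a7d540d6ad83947dd3b51fcc73c52639ca48d6321a4e97d540d762fa9dd7dd38be9aa73c2be7d827e638307c67d540d467d053dd7dd620310973c1b314727e614ab25c58d540d6d2368e7dd46350f773c8c68a107d618f1dd5c8d540d635 = true := by decide +kernel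

theorem cB15_7_3_20 : chunkOkM (LB15_7.ctx true true 242 47 32 7 16 159 1819 32 64) muQ true true 64 RtB15_7.Cx.right RtB15_7.CX RtB15_7.Ctp.right.right.left.right.left RtB15_7.Ce.right.right.left.right.left.right RtB15_7.CTp RtB15_7.CEr 0x14f9b40e8cd15b3a087d8bcbaa507d615d799638d540d34804467dd480bac873cf367a087d616bd38938d540d94fb1d27dd55108b373c15a7c4958d6199b4c448d540d65 = true := by decide +kernel

theorem cB15_7_3_21 : chunkOkM (LB15_7.ctx true true 233 23 16 7 16 165 901 32 64) muQ true true 64 RtB15_7.Cx RtB15_7.CX RtB15_7.Ctp.right.right.left.right.right RtB15_7.Ce.right.right.left.right.left RtB15_7.CTp RtB15_7.CEr 0x16d7b367dd1317ed07d8270f88aa8d630d8ec1b977dd66a11db73c23ff2a188d630d61f94a17dd42d9d4a73c207b4c308d630d65 = true := by decide +kernel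

theorem cB15_7_3_22 : chunkOkM (LB15_7.ctx true true 255 91 64 7 16 321 3723 32 64) muQ true true 64 RtB15_7.Cx.left RtB15_7.CX RtB15_7.Ctp.right.right.left.right.left RtB15_7.Ce.right.right.left.right.right.left RtB15_7.CTp RtB15_7.CEr 0x16d5b7da8cdc764896d810ded2628d6135d0a578d540d780b0747dd6657e5473c1ca243f28d6110327138d540d6de83427dd401f41573c22ff01428d6105e043e8d540d66b5b447dd41e318f73c1e1631f7e6112b92838d540d80900677dd49db16d73c705f95f28d630d7465593 = true := by decide +kernel

theorem cB15_7_3_23 : chunkOkM (LB15_7.ctx true true 246 47 32 7 16 321 1853 32 64) muQ true true 64 RtB15_7.Cx.right RtB15_7.CX RtB15_7.Ctp.right.right.left.right.left RtB15_7.Ce.right.right.left.right.right.left RtB15_7.CTp RtB15_7.CEr 0x11df40fa8cd18ab0397d81043fee7e61577496f8d540d3a9a2457dd4fd119a73c9192046e61894fcb08d540d6bf4a2d7dd3d583a773cbc7e526e6179af0108d540d651479b2f88cd1fb5bb67d81db869eb8d530d331d7067dd39ae26b73c476e316e61ddf1b908d540d53 = true := by decide +kernel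

theorem cB15_7_3_24 : chunkOkM (LB15_7.ctx true true 249 47 32 7 16 321 3791 32 64) muQ true true 64 RtB15_7.Cx RtB15_7.CX RtB15_7.Ctp.right.right.left.right.left RtB15_7.Ce.right.right.left.right.right.right RtB15_7.CTp RtB15_7.CEr 0x150138508cd1b1b8b57d81c5a4b9e8d530d3847ddb7dd33c0a8b73c383fb96e626c6cb498d540d8acaff17dd5f0562073cb851ca6e61ed5fb5e8d540d464fb817dd2fb5e0473c120c2577e61b4b30ae8d540d645593597 = true := by decide +kernel

theorem cB15_7_3_25 : chunkOkM (LB15_7.ctx true true 256 91 64 7 16 333 3723 32 64) muQ true true 64 RtB15_7.Cx RtB15_7.CX RtB15_7.Ctp.right.right.left.right.right RtB15_7.Ce.right.right.left.right.right.left RtB15_7.CTp.left RtB15_7.CEr 0x64715807dd57dc69173c22b938188d6ea8bcee7d540d65df2737dd34ddc1d73c1740d1cd8d6c3d79337d540d67ffa1557dd67607b173c3c1a0817e630d4598aab7dd45e46d773c3a449377e630d6f8cc3d7dd374c15673c46306ac7e630d6c49a387dd501838673c96e0176e8d630d75eb63bb7dd39781a673c4c860e37e630d4367 = true := by decide +kernel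

theorem cB15_7_3_26 : chunkOkM (LB15_7.ctx true true 239 47 32 7 16 165 1853 32 32) muQ true true 64 RtB15_7.Cx RtB15_7.CX RtB15_7.Ctp.right.right.left.right.right RtB15_7.Ce.right.right.left.right.right.left RtB15_7.CTp.right RtB15_7.CEr 0x120ba46d8cd1453c1e7d81651f9598d6d1ba0257d540d13f20b0e8cdf3fe746d831655d7a8d6291441e7d540d7 = true := by decide +kernel

theorem cB15_7_3_27 : chunkOkM (LB15_7.ctx true true 253 91 64 7 16 333 1887 32 64) muQ true true 64 RtB15_7.Cx.left RtB15_7.CX RtB15_7.Ctp.right.right.left.right.right RtB15_7.Ce.right.right.left.right.right.right RtB15_7.CTp RtB15_7.CEr 0x12dcdf8d8cddd90ce6d84dc8aa048d610b0f997d540d70854c17dd635e20973c5204aafa8d630d69c75977dd4dd7dfd73c4e408f678d630d5a607b47dd357c00873c58d0f6ac8d625a33207d540d697365 = true := by decide +kernel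

theorem cB15_7_3_28 : chunkOkM (LB15_7.ctx true true 264 95 64 7 16 657 3791 64 64) muQ true true 64 RtB15_7.Cx.right RtB15_7.CX RtB15_7.Ctp.right.right.left.right.right RtB15_7.Ce.right.right.left.right.right.right RtB15_7.CTp.left RtB15_7.CEr 0x1b453107dd20ffd1073c1e7794aa8d6eba69c07d540d5a5596214f7dd345d22873c3a7384508d630d6e3bbe37dd3aff88f73ca8d1b86e6172f55048d540d6260c1d7dd3c4d46273c22ab46c7e6f8c22747d540d5359b927dd31adee473c860adff7d62384c39c8d540d37efb94f06c65999957dd3e921cb73c19bd1237e6105c1a218d540d7436 = true := by decide +kernel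

theorem cB15_7_3_29 : chunkOkM (LB15_7.ctx true true 244 47 32 7 16 333 1887 32 32) muQ true true 64 RtB15_7.Cx.right RtB15_7.CX RtB15_7.Ctp.right.right.left.right.right RtB15_7.Ce.right.right.left.right.right.right RtB15_7.CTp.right RtB15_7.CEr 0x133de5b18cde5388e6d83449b8f08d630d166e39bc8cdebda746d8b669676e613ae46098d540d3 = true := by decide +kernel

theorem cB15_7_3_30 : chunkOkM (LB15_7.ctx true true 92 1 1 1 1 1 1 1 1) muQ true true 64 RtB15_7.Cx RtB15_7.CX RtB15_7.Ctp.right.right.right.left RtB15_7.Ce.right.right.left.left RtB15_7.CTp RtB15_7.CEr 0x11 = true := by decide +kernel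

theorem cB15_7_3_31 : chunkOkM (LB15_7.ctx true true 229 23 16 7 16 87 901 32 64) muQ true true 64 RtB15_7.Cx RtB15_7.CX RtB15_7.Ctp.right.right.right.left RtB15_7.Ce.right.right.left.right.left RtB15_7.CTp.left RtB15_7.CEr.left 0x993a9587dd74bcd5e73c73e83227d630d = true := by decide +kernel

end Vale.Agent.helper4.Q4
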