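import Vale.Agent.helper4.Q4TreeM
import Vale.Agent.helper4.Q4G.PB15_7

/-!
Checks for pairs of intervals of second moments.
-/

set_option maxRecDepth 100000
set_option linter.unusedVariables false

namespace Vale.Agent.helper4.Q4

theorem cB15_7_3_50 : chunkOkM (LB15_7.ctx true true 264 95 64 7 16 681 3927 64 64) muQ true true 64 RtB15_7.Cx.right RtB15_7.CX RtB15_7.Ctp.right.right.right.left.left RtB15_7.Ce.right.right.right.left.left.right RtB15_7.CTp.left RtB15_7.CEr 0x1ec94147dd1ba119973c38cf41218d630d5a5717a5f07dd4d93ac573c496bebd7e630d69296907dd54699a673c493748438d630d7344b68d7dd272d50473c57963ef7e630d4d84f8b7dd28fe89f73c64742cbe8d62c595387d540d3318e2da7dd2518dac73c48925117e630d470fe0047dd4c47e1873c5ccc1e978d630d736 = true := by decide +kernel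

theorem cB15_7_3_51 : chunkOkM (LB15_7.ctx true true 247 47 32 7 16 345 3927 32 32) muQ true true 64 RtB15_7.Cx.right RtB15_7.CX RtB15_7.Ctp.right.right.right.left.left RtB15_7.Ce.right.right.right.left.left.right RtB15_7.CTp.right RtB15_7.CEr 0x13b1304b8cd627d216d82a53dfe7e630d138dda9b8cd114280d7d83e427f4a8d62f071f37d540d14c807598cdf3f7856d840922b248d630d43 = true := by decide +kernel

theorem cB15_7_3_52 : chunkOkM (LB15_7.ctx true true 247 47 32 7 16 177 1955 64 64) muQ true true 64 RtB15_7.Cx.right RtB15_7.CX RtB15_7.Ctp.right.right.right.left.right RtB15_7.Ce.right.right.right.left.left RtB15_7.CTp RtB15_7.CEr 0x184da9118cdb6c43c6d820ea51db8d630d55efac47dd75e1e9273c23c198228d630d43f2a517dd22cbd4673c250e197e8d630db9285337dd7ff2b9573c2b8db6928d628859457d240d5c87d3c77dd77399bd73c96d5cf6d630d465 = true := by decide +kernel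

theorem cB15_7_3_53 : chunkOkM (LB15_7.ctx true true 92 1 1 1 1 1 1 1 1) muQ true true 64 RtB15_7.Cx.left RtB15_7.CX RtB15_7.Ctp.right.right.right.left RtB15_7.Ce.right.right.right.left.right RtB15_7.CTp RtB15_7.CEr 0x21 = true := by decide +kernel

theorem cB15_7_3_54 : chunkOkM (LB15_7.ctx true true 262 191 128 7 16 345 3961 32 64) muQ true true 64 RtB15_7.Cx.right RtB15_7.CX RtB15_7.Ctp.right.right.right.left.left RtB15_7.Ce.right.right.right.left.right RtB15_7.CTp RtB15_7.CEr 0x6913f18a8f8cde5ab6d37c852adcd578d630d5d5334b7dd5f9d36a73c5a3aae27e630d535d3ca7dd3e00ea773c567580358d630d656917a740c78cdebfdb3e7c8571aacac8d630d4a116347dd63087e873c516f2ee7e630d4c6ea0f7dd294e87773c6e77190d8d630d65697436974 = true := by decide +kernel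

theorem cB15_7_3_55 : chunkOkM (LB15_7.ctx true true 262 187 128 7 16 357 3995 32 64) muQ true true 64 RtB15_7.Cx.right RtB15_7.CX RtB15_7.Ctp.right.right.right.left.right RtB15_7.Ce.right.right.right.left.right.left RtB15_7.CTp.left RtB15_7.CEr 0x888384c7dd945bdda73c32508107e642025e6d240dccb5a7f7dd7981b2e73c3f87924d8d618ea086d240d6fe1a9b7dd518cdb773c66c27247e630d3aea2e097dd6b743cf73c44d8f38a8d630d4c5095f27dd79e13dd73c3b0c1387e69c756207d240dbe9f8877dd6e0fc2b73c524bf3978d630d3217c6e52637dd784350b73c19923757e6d80454c7d240dca392337dd7ba67a173c5a0f38c08d62373d1b7d240d3476 = true := by decide +kernel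

theorem cB15_7_3_56 : chunkOkM (LB15_7.ctx true true 240 47 32 7 16 177 1989 32 32) muQ true true 64 RtB15_7.Cx.right RtB15_7.CX RtB15_7.Ctp.right.right.right.left.right RtB15_7.Ce.right.right.right.left.right.left RtB15_7.CTp.right RtB15_7.CEr 0x1a582c618cd573ecd6d829be97558d626a78d17d240d = true := by decide +kernel

theorem cB15_7_3_57 : chunkOkM (LB15_7.ctx true true 267 191 128 7 16 357 4063 64 64) muQ true true 64 RtB15_7.Cx.right RtB15_7.CX RtB15_7.Ctp.right.right.right.left.right RtB15_7.Ce.right.right.right.left.right.right RtB15_7.CTp RtB15_7.CEr 0x18db7c0b8cd63361d6d82fd0919f8d61a6b4707d240dd4acd487dd990195b73c39979a07e630dc60dace7dd74ff81173c5e69b9d7e63dea59c7d240dbf048ff7dd71da94f73c4de4bc7e8d6d59634f7d240d75cfb22c7dd36f4efe73c160386a7e6ad46dd37d240ddbe80b07dd8306ad873c5186a947e68563c897d240d54aa97a347dd668fdaa73c5c5a65248d630d365217 = true := by decide +kernel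

theorem cB15_7_3_58 : chunkOkM (LB15_7.ctx true true 257 95 64 7 16 723 2023 32 64) muQ true true 64 RtB15_7.Cx RtB15_7.CX RtB15_7.Ctp.right.right.right.right RtB15_7.Ce.right.right.right.left RtB15_7.CTp RtB15_7.CEr 0x010101faa87a67cdf9c31397c81cfad707e6df466837d240da8e7a817dd8c3c24473c75b9a26e6fa51ea6e240daf0869c7dd6d4d94673c5f80d36e611c537e58d240d65114114330173017 = true := by decide +kernel

theorem cB15_7_3_59 : chunkOkM (LB15_7.ctx true true 321 3071 2048 7 16 11517 65297 32 64) muQ true true 64 RtB15_7.Cx RtB15_7.CX RtB15_7.Ctp.right.right.right RtB15_7.Ce.right.right.right.right RtB15_7.CTp RtB15_7.CEr 0x2121212101010117bee5f06c736c5277dd7ed3fe973ce60464e7e630dd57eefe78cd797130773c93ce0ac7e6ab49496e240d65333696969ebfe4f06c91905cfcc340898cd847639073c5b252677f630d6569369346976934697697469369369359332174217421742174 = true := by decide +kernel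

theorem cB15_7_2_0 : chunkOkM (LB15_7.ctx false true 92 1 1 1 1 1 1 1 1) muQ false true 64 RtB15_7.Cx RtB15_7.CX RtB15_7.Ctn RtB15_7.Ce RtB15_7.CTp RtB15_7.CEr 0x49 = true := by decide +kernel

theorem cB15_7_1_0 : chunkOkM (LB15_7.ctx true false 92 1 1 1 1 1 1 1 1) muQ true false 64 RtB15_7.Cx RtB15_7.CX RtB15_7.Ctp.left RtB15_7.Ce RtB15_7.CTn RtB15_7.CEr 0x49 = true := by decide +kernel

theorem cB15_7_1_1 : chunkOkM (LB15_7.ctx true false 92 1 1 1 1 1 1 1 1) muQ true false 64 RtB15_7.Cx RtB15_7.CX RtB15_7.Ctp.right RtB15_7.Ce.left RtB15_7.CTn RtB15_7.CEr 0x69 = true := by decide +kernel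

theorem cB15_7_1_2 : chunkOkM (LB15_7.ctx true false 234 23 16 7 16 69 391 32 512) muQ true false 64 RtB15_7.Cx RtB15_7.CX RtB15_7.Ctp.right RtB15_7.Ce.right.left RtB15_7.CTn.left.left.left RtB15_7.CEr.left.left.left.left 0x5a9965f06b1aba376f05b3d863d6f05b3267a4e7f8d64de898b18d520d42fd2b3e7e6aad9c8f7e588cfef6e430d3691e53e26f05bb39aaf798d61a15f6c18e57b0d2387e430d389668b6f04b4343 = true := by decide +kernel

theorem cB15_7_1_3 : chunkOkM (LB15_7.ctx true false 224 23 16 7 16 33 119 32 512) muQ true false 64 RtB15_7.Cx RtB15_7.CX RtB15_7.Ctp.right.left RtB15_7.Ce.right.right RtB15_7.CTn.left.left.left RtB15_7.CEr.left.left.left.left 0x192a0f0f8d64f8a22f7e520d593 = true := by decide +kernel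

end Vale.Agent.helper4.Q4
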