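import Vale.Agent.helper4.Q4TreeM
import Vale.Agent.helper4.Q4G.PB15_7

/-!
Checks for pairs of intervals of second moments.
-/

set_option maxRecDepth 100000
set_option linter.unusedVariables false

namespace Vale.Agent.helper4.Q4

theorem cB15_7_1_4 : chunkOkM (LB15_7.ctx true false 245 23 16 7 16 165 1887 32 512) muQ true false 64 RtB15_7.Cx RtB15_7.CX RtB15_7.Ctp.right.right.left RtB15_7.Ce.right.right.left RtB15_7.CTn.left.left.left RtB15_7.CEr.left.left.left.left 0xad32876ed22e05364c1fd6e4318d6ac962f97d540d22ac476f06b41eee486f05b354dd05f05b35a5a864cd57c98f7d6110897968d530d34deac4d77d62b90bf568d520d301819a5fd185f4764ca442c877d61ba717968d540d34 = true := by decide +kernel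

theorem cB15_7_1_5 : chunkOkM (LB15_7.ctx true false 232 23 16 7 16 87 221 32 512) muQ true false 64 RtB15_7.Cx RtB15_7.CX RtB15_7.Ctp.right.right.right RtB15_7.Ce.right.right.left RtB15_7.CTn.left.left.left RtB15_7.CEr.left.left.left.left 0x11adb235fd4c97d264c12e1c9cc89c630d3 = true := by decide +kernel

theorem cB15_7_1_6 : chunkOkM (LB15_7.ctx true false 249 47 32 7 16 165 969 32 512) muQ true false 64 RtB15_7.Cx RtB15_7.CX RtB15_7.Ctp.right.right.left RtB15_7.Ce.right.right.right RtB15_7.CTn.left.left.left RtB15_7.CEr.left.left.left.left 0x59593db5486ed15eb6564c179856758d6137a96c38d540d69759344593 = true := by decide +kernel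

theorem cB15_7_1_7 : chunkOkM (LB15_7.ctx true false 252 47 32 7 16 177 2023 32 512) muQ true false 64 RtB15_7.Cx RtB15_7.CX RtB15_7.Ctp.right.right.right RtB15_7.Ce.right.right.right.left RtB15_7.CTn.left.left.left RtB15_7.CEr.left.left.left.left 0x18a464c7ed472d4297d6e5e52767d25408d837d040d886b786ed38a4f8673c2d63365d8d65d0b2097d240d6f0d696ed4943b4673c2b6b9bf98d65c7340d7d240d493d1f76ed19611c64c3af5d7728d6373de577d540d3217ef9b546edcc04554c26e3392c8d630d31d4fc6ed6ffdc764c29cf34eb8d692d40be7d240dd98a226ed44ad0f673c251ae17c8d67c6ae367d240d4743 = true := by decide +kernel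

theorem cB15_7_1_8 : chunkOkM (LB15_7.ctx true false 273 383 256 7 16 93 8177 32 512) muQ true false 64 RtB15_7.Cx RtB15_7.CX RtB15_7.Ctp.right.right.right RtB15_7.Ce.right.right.right.right RtB15_7.CTn.left.left.left RtB15_7.CEr.left.left.left.left 0x21212121cc5275f06b2638546f06b32174217421742174 = true := by decide +kernel

theorem cB15_7_1_9 : chunkOkM (LB15_7.ctx true false 92 1 1 1 1 1 1 1 1) muQ true false 64 RtB15_7.Cx RtB15_7.CX RtB15_7.Ctp.right RtB15_7.Ce.right RtB15_7.CTn.left.left.left RtB15_7.CEr.left.left.left.right 0x5a = true := by decide +kernel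

theorem cB15_7_1_10 : chunkOkM (LB15_7.ctx true false 92 1 1 1 1 1 1 1 1) muQ true false 64 RtB15_7.Cx RtB15_7.CX RtB15_7.Ctp.right RtB15_7.Ce.right RtB15_7.CTn.left.left.left RtB15_7.CEr.left.left.right 0x5a = true := by decide +kernel

theorem cB15_7_1_11 : chunkOkM (LB15_7.ctx true false 92 1 1 1 1 1 1 1 1) muQ true false 64 RtB15_7.Cx RtB15_7.CX RtB15_7.Ctp.right RtB15_7.Ce.right RtB15_7.CTn.left.left.left RtB15_7.CEr.left.right 0x5a = true := by decide +kernel

theorem cB15_7_1_12 : chunkOkM (LB15_7.ctx true false 92 1 1 1 1 1 1 1 1) muQ true false 64 RtB15_7.Cx RtB15_7.CX RtB15_7.Ctp.right RtB15_7.Ce.right RtB15_7.CTn.left.left.right RtB15_7.CEr.left 0x5a = true := by decide +kernel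

theorem cB15_7_1_13 : chunkOkM (LB15_7.ctx true false 92 1 1 1 1 1 1 1 1) muQ true false 64 RtB15_7.Cx RtB15_7.CX RtB15_7.Ctp.right RtB15_7.Ce.right RtB15_7.CTn.left.right RtB15_7.CEr.left 0x5a = true := by decide +kernel

theorem cB15_7_1_14 : chunkOkM (LB15_7.ctx true false 92 1 1 1 1 1 1 1 1) muQ true false 64 RtB15_7.Cx RtB15_7.CX RtB15_7.Ctp.right RtB15_7.Ce.right RtB15_7.CTn.left RtB15_7.CEr.right 0x52 = true := by decide +kernel

theorem cB15_7_1_15 : chunkOkM (LB15_7.ctx true false 92 1 1 1 1 1 1 1 1) muQ true false 64 RtB15_7.Cx RtB15_7.CX RtB15_7.Ctp.right RtB15_7.Ce.right RtB15_7.CTn.right RtB15_7.CEr 0x5a = true := by decide +kernel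

theorem cB15_7_0_0 : chunkOkM (LB15_7.ctx false false 92 1 1 1 1 1 1 1 1) muQ false false 64 RtB15_7.Cx RtB15_7.CX RtB15_7.Ctn RtB15_7.Ce RtB15_7.CTn RtB15_7.CEr 0x49 = true := by decide +kernel

end Vale.Agent.helper4.Q4
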