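import Vale.Agent.helper4.Q4TreeM
import Vale.Agent.helper4.Q4G.PB15_7_0
import Vale.Agent.helper4.Q4G.PB15_7_1
import Vale.Agent.helper4.Q4G.PB15_7_2_0
import Vale.Agent.helper4.Q4G.PB15_7_2_1
import Vale.Agent.helper4.Q4G.PB15_7_2_2
import Vale.Agent.helper4.Q4G.PB15_7_2_3
import Vale.Agent.helper4.Q4G.PB15_7_3
import Vale.Agent.helper4.Q4G.PB15_7_4

/-!
Checks for pairs of intervals of second moments.
-/

set_option maxRecDepth 100000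
set_option linter.unusedVariables false

namespace Vale.Agent.helper4.Q4

theorem covB15_7 : LB15_7.Full muQ.val RtB15_7 := ⟨(LitT.Cov.split_t (LitT.cov_of_chunkM cB15_7_3_0) (LitT.Cov.split_e (LitT.cov_of_chunkM cB15_7_3_1) (LitT.Cov.split_e (LitT.Cov.split_t (LitT.Cov.split_e (LitT.cov_of_chunkM cB15_7_3_2) (LitT.Cov.split_t (LitT.cov_of_chunkM cB15_7_3_3) (LitT.Cov.split_e (LitT.cov_of_chunkM cB15_7_3_4) (LitT.Cov.split_t (LitT.cov_of_chunkM cB15_7_3_5) (LitT.cov_of_chunkM cB15_7_3_6))))) (LitT.cov_of_chunkM cB15_7_3_7)) (LitT.Cov.split_t (LitT.cov_of_chunkM cB15_7_3_8) (LitT.Cov.split_e (LitT.Cov.split_t (LitT.Cov.split_e (LitT.Cov.split_t (LitT.Cov.split_e (LitT.cov_of_chunkM cB15_7_3_9) (LitT.Cov.split_t (LitT.cov_of_chunkM cB15_7_3_10) (LitT.Cov.split_e (LitT.cov_of_chunkM cB15_7_3_11) (LitT.cov_of_chunkM cB15_7_3_12)))) (LitT.cov_of_chunkM cB15_7_3_13))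 (LitT.Cov.split_t (LitT.Cov.split_e (LitT.Cov.split_t (LitT.cov_of_chunkM cB15_7_3_14) (LitT.Cov.split_e (LitT.cov_of_chunkM cB15_7_3_15) (LitT.cov_of_chunkM cB15_7_3_16))) (LitT.cov_of_chunkM cB15_7_3_17)) (LitT.Cov.split_e (LitT.Cov.split_t (LitT.Cov.split_e (LitT.cov_of_chunkM cB15_7_3_18) (LitT.Cov.split_x (LitT.cov_of_chunkM cB15_7_3_19) (LitT.cov_of_chunkM cB15_7_3_20))) (LitT.cov_of_chunkM cB15_7_3_21)) (LitT.Cov.split_t (LitT.Cov.split_e (LitT.Cov.split_x (LitT.cov_of_chunkM cB15_7_3_22) (LitT.cov_of_chunkM cB15_7_3_23)) (LitT.cov_of_chunkM cB15_7_3_24)) (LitT.Cov.split_e (LitT.Cov.split_T (LitT.cov_of_chunkM cB15_7_3_25) (LitT.cov_of_chunkM cB15_7_3_26)) (LitT.Cov.split_x (LitT.cov_of_chunkM cB15_7_3_27) (LitT.Cov.split_T (LitT.cov_of_chunkM cB15_7_3_28) (LitT.cov_of_chunkM cB15_7_3_29)))))))) (LitT.Cov.split_t (LitT.Cov.split_e (LitT.cov_of_chunkM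 cB15_7_3_30) (LitT.Cov.split_T (LitT.Cov.split_E (LitT.Cov.split_e (LitT.cov_of_chunkM cB15_7_3_31) (LitT.Cov.split_x (LitT.cov_of_chunkM cB15_7_3_32) (LitT.cov_of_chunkM cB15_7_3_33))) (LitT.cov_of_chunkM cB15_7_3_34)) (LitT.cov_of_chunkM cB15_7_3_35))) (LitT.cov_of_chunkM cB15_7_3_36))) (LitT.Cov.split_t (LitT.Cov.split_t (LitT.cov_of_chunkM cB15_7_3_37) (LitT.Cov.split_e (LitT.Cov.split_e (LitT.Cov.split_t (LitT.cov_of_chunkM cB15_7_3_38) (LitT.Cov.split_x (LitT.cov_of_chunkM cB15_7_3_39) (LitT.Cov.split_e (LitT.Cov.split_t (LitT.cov_of_chunkM cB15_7_3_40) (LitT.Cov.split_T (LitT.cov_of_chunkM cB15_7_3_41) (LitT.cov_of_chunkM cB15_7_3_42))) (LitT.cov_of_chunkM cB15_7_3_43)))) (LitT.cov_of_chunkM cB15_7_3_44)) (LitT.cov_of_chunkM cB15_7_3_45))) (LitT.Cov.split_e (LitT.Cov.split_t (LitT.Cov.split_e (LitT.Cov.split_x (LitT.Cov.split_T (LitT.Cov.split_e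 (LitT.cov_of_chunkM cB15_7_3_46) (LitT.cov_of_chunkM cB15_7_3_47)) (LitT.cov_of_chunkM cB15_7_3_48)) (LitT.Cov.split_t (LitT.Cov.split_e (LitT.cov_of_chunkM cB15_7_3_49) (LitT.Cov.split_T (LitT.cov_of_chunkM cB15_7_3_50) (LitT.cov_of_chunkM cB15_7_3_51))) (LitT.cov_of_chunkM cB15_7_3_52))) (LitT.Cov.split_x (LitT.cov_of_chunkM cB15_7_3_53) (LitT.Cov.split_t (LitT.cov_of_chunkM cB15_7_3_54) (LitT.Cov.split_e (LitT.Cov.split_T (LitT.cov_of_chunkM cB15_7_3_55) (LitT.cov_of_chunkM cB15_7_3_56)) (LitT.cov_of_chunkM cB15_7_3_57))))) (LitT.cov_of_chunkM cB15_7_3_58)) (LitT.cov_of_chunkM cB15_7_3_59)))))))), (LitT.Cov.split_t (LitT.cov_of_chunkM cB15_7_1_0) (LitT.Cov.split_e (LitT.cov_of_chunkM cB15_7_1_1) (LitT.Cov.split_T (LitT.Cov.split_E (LitT.Cov.split_T (LitT.Cov.split_T (LitT.Cov.split_E (LitT.Cov.split_E (LitT.Cov.split_E (LitT.Cov.split_e (LitT.cov_of_chunkM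 cB15_7_1_2) (LitT.Cov.split_t (LitT.cov_of_chunkM cB15_7_1_3) (LitT.Cov.split_e (LitT.Cov.split_t (LitT.cov_of_chunkM cB15_7_1_4) (LitT.cov_of_chunkM cB15_7_1_5)) (LitT.Cov.split_t (LitT.cov_of_chunkM cB15_7_1_6) (LitT.Cov.split_e (LitT.cov_of_chunkM cB15_7_1_7) (LitT.cov_of_chunkM cB15_7_1_8)))))) (LitT.cov_of_chunkM cB15_7_1_9)) (LitT.cov_of_chunkM cB15_7_1_10)) (LitT.cov_of_chunkM cB15_7_1_11)) (LitT.cov_of_chunkM cB15_7_1_12)) (LitT.cov_of_chunkM cB15_7_1_13)) (LitT.cov_of_chunkM cB15_7_1_14)) (LitT.cov_of_chunkM cB15_7_1_15)))), (LitT.cov_of_chunkM cB15_7_2_0), (LitT.cov_of_chunkM cB15_7_0_0)⟩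

end Vale.Agent.helper4.Q4
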