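import Vale.Agent.helper4.Q4TreeM
import Vale.Agent.helper4.Q4G.PB15_8

/-!
Checks for pairs of intervals of second moments.
-/

set_option maxRecDepth 100000
set_option linter.unusedVariables false

namespace Vale.Agent.helper4.Q4

theorem cB15_8_3_16 : chunkOkM (LB15_8.ctx true true 239 47 32 9 16 153 1819 8 64) muQ true true 64 RtB15_8.Cx RtB15_8.CX RtB15_8.Ctp.right.right.left.left.right RtB15_8.Ce.right.right.left.right.left RtB15_8.CTp.left RtB15_8.CEr 0x22f632718ed32f849675ce76a826f641dc7797f540d2953d78e8ed24c13ef184c46326327f530d597123399f48ed12a2f83284c176e8d07f644f95bd7f540d377f9177fd2dd9bde284c388b43c7f530d5e9ed4b97edf05038c74c127fbcc7f635acd707f540d37a28b97fd3900084384c42f0ec87f635142527f540d3fd0a47a8ed27cd812a84c3c9be9077b3f41256f63ffc14068e550d65746 = true := by decide +kernel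

theorem cB15_8_3_17 : chunkOkM (LB15_8.ctx true true 223 23 16 9 16 153 901 4 32) muQ true true 64 RtB15_8.Cx RtB15_8.CX RtB15_8.Ctp.right.right.left.left RtB15_8.Ce.right.right.left.right.left RtB15_8.CTp.right RtB15_8.CEr 0x61f77a07ed5a80d76e8550be76f63fa13627f540d3a270ec7ed167b6f87e8f72de36e7565b8c97f540d36a6 = true := by decide +kernel

theorem cB15_8_3_18 : chunkOkM (LB15_8.ctx true true 97 1 1 1 1 1 1 1 1) muQ true true 64 RtB15_8.Cx RtB15_8.CX RtB15_8.Ctp.right.right.left.left RtB15_8.Ce.right.right.left.right.right RtB15_8.CTp RtB15_8.CEr 0x59 = true := by decide +kernel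

theorem cB15_8_3_19 : chunkOkM (LB15_8.ctx true true 251 47 32 9 16 321 1819 16 128) muQ true true 64 RtB15_8.Cx RtB15_8.CX RtB15_8.Ctp.right.right.left.right RtB15_8.Ce.right.right.left.right.left RtB15_8.CTp.left.left RtB15_8.CEr.left 0x5a2420f0f7fd2f35c2075c2fb619678e613de23f48e540d65a51f779897fd120dfb475c59d9a4677b36160c2e8e640d197c0507fdbb1085174c603133c77b23b08cf7f62cf7a907f550d17c0e9ea8edbb7d42574c66a2ed777b47e4f617f6157ee847f550d20ab50248ed16459c2284c3bd2d1077b9a08306f63561e5d58e550d37198f7d27fdd1194865c683779b77b1acc09e28e61a088b088e550d436 = true := by decide +kernel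

theorem cB15_8_3_20 : chunkOkM (LB15_8.ctx true true 240 47 32 9 16 165 1819 8 64) muQ true true 64 RtB15_8.Cx RtB15_8.CX RtB15_8.Ctp.right.right.left.right RtB15_8.Ce.right.right.left.right.left RtB15_8.CTp.left.right RtB15_8.CEr.left 0x114ebb358ed141939775c436ca6b38e630d208751a7f05bf2d3bb97ed125f010684c2e268987f61fca14bd8e540d7edf30ef7ed125f21275c1a091d228e61c92bbe58e540d436a6 = true := by decide +kernel

theorem cB15_8_3_21 : chunkOkM (LB15_8.ctx true true 244 47 32 9 16 321 1853 8 64) muQ true true 64 RtB15_8.Cx RtB15_8.CX RtB15_8.Ctp.right.right.left.right.left RtB15_8.Ce.right.right.left.right.right.left RtB15_8.CTp.left RtB15_8.CEr.left 0x102b09b18edde7009e74c14fb7367f62f93d237f540d205d6c7184c3b979e6f632496597f530d15a486108ed785b94774c698753177b129ea3a7f631f98c47f550d6513db5ff68ed1143a18784c3d208017f61cb8f647f540d2d6a4a07fd3522216184c4b25d077f619906a27f540d1a5dc8678edc254cc974c599ad4477b363258938e61df61077f550d655937 = true := by decide +kernel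

theorem cB15_8_3_22 : chunkOkM (LB15_8.ctx true true 244 47 32 9 16 321 1887 8 64) muQ true true 64 RtB15_8.Cx RtB15_8.CX RtB15_8.Ctp.right.right.left.right.left RtB15_8.Ce.right.right.left.right.right.right RtB15_8.CTp.left RtB15_8.CEr.left 0xc3a7bb17edc0ac9a274c1f5833f7f6335c0e07f540d4b74a457fd3dbc4d6684cd2f2ce6f6375c6457f540d991ab527ed5c5ac3a77b40efa9228e530d65593597 = true := by decide +kernel

theorem cB15_8_3_23 : chunkOkM (LB15_8.ctx true true 248 47 32 9 16 333 1887 16 64) muQ true true 64 RtB15_8.Cx RtB15_8.CX RtB15_8.Ctp.right.right.left.right.right RtB15_8.Ce.right.right.left.right.right RtB15_8.CTp.left.left RtB15_8.CEr.left 0x152d95e7fd25f642fd84c30179b6b8e610dd395a8e540d5a5140cb03a8edc27572674c45e1c6377b7c828427f640d164180af8ed9b9e2c874c5cafe8977b30c56497f620d75767f550d31de68e2a8ede928b2d74c70c505677b7bc14f018e640d17ac84138edb28bb9574c5a16f7977bb259a4dd8e640d371bd1d447fde68c3b274c44addd377b34e4fc248e610c92b108e550d3b694eb7f06b187409f74c79888de77b74cf42f7f630d5746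 = true := by decide +kernel

theorem cB15_8_3_24 : chunkOkM (LB15_8.ctx true true 240 47 32 9 16 165 1887 8 64) muQ true true 64 RtB15_8.Cx RtB15_8.CX RtB15_8.Ctp.right.right.left.right.right RtB15_8.Ce.right.right.left.right.right RtB15_8.CTp.left.right RtB15_8.CEr.left 0xe689cac7ed1136eb0084c2f73ece7f61c60627c8e540dd5657607edfa0c01a74c9c2f34ab8e630d70daa6b6f7ed10243d4c84c77696aa7f630d746a6 = true := by decide +kernel

theorem cB15_8_3_25 : chunkOkM (LB15_8.ctx true true 242 23 16 9 16 165 935 32 128) muQ true true 64 RtB15_8.Cx RtB15_8.CX RtB15_8.Ctp.right.right.left.right RtB15_8.Ce.right.right.left.right RtB15_8.CTp.left RtB15_8.CEr.right 0x5a5a5c410065c2ed0fde58e61340793c8e530d3c9bb637f05b303e49ae65c1a902d8a8e61e5f9f578e530d345a565a565a5 = true := by decide +kernel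

theorem cB15_8_3_26 : chunkOkM (LB15_8.ctx true true 97 1 1 1 1 1 1 1 1) muQ true true 64 RtB15_8.Cx RtB15_8.CX RtB15_8.Ctp.right.right.left.right RtB15_8.Ce.right.right.left.right RtB15_8.CTp.right RtB15_8.CEr.left 0x6a = true := by decide +kernel

theorem cB15_8_3_27 : chunkOkM (LB15_8.ctx true true 240 47 32 9 16 321 1819 4 64) muQ true true 64 RtB15_8.Cx RtB15_8.CX RtB15_8.Ctp.right.right.left.right RtB15_8.Ce.right.right.left.right.left RtB15_8.CTp.right RtB15_8.CEr.right 0x50404747ed272aed274cdf09c36e94011697e8e640d47abfeb7edf584e06e91c5d2057f628049547f540d895acfc7ed2105b8774c33a3a9a7f619f8e6d7f540d1dcb3357ed23c8eb67e833c01fd7f6c1f2a5e7e540d657e914a7ed1c00d9774cf1604a6e9182422a7f62a5f4247f550d37210ad06f06c8986aa97ed195f75274c2870b327f61b127f988e540d44be0787ed1793d457f61750361c8e530d6743 = true := by decide +kernel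

theorem cB15_8_3_28 : chunkOkM (LB15_8.ctx true true 243 47 32 9 16 321 3723 4 64) muQ true true 64 RtB15_8.Cx RtB15_8.CX RtB15_8.Ctp.right.right.left.right.left RtB15_8.Ce.right.right.left.right.right RtB15_8.CTp.right RtB15_8.CEr.right 0x4684b237ed19cb56e74cdab39b67e63ccc9127f540d4d44b9e7edcbd48064cf34f4d6f62d28a487f540d45e91a57ed89b31164c3afa37d58e530d350018007ed182f61874cb33e336e939421ce7f622b8ef97f550d90a1ee97ed5a096f64c329a7757f61d0aec47f540d53f18d37ed154c38774c27188837f62adda837f540d6459374 = true := by decide +kernel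

end Vale.Agent.helper4.Q4
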