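import Vale.Agent.helper4.Q4TreeM
import Vale.Agent.helper4.Q4G.PB15_8

/-!
Checks for pairs of intervals of second moments.
-/

set_option maxRecDepth 100000
set_option linter.unusedVariables false

namespace Vale.Agent.helper4.Q4

theorem cB15_8_3_29 : chunkOkM (LB15_8.ctx true true 249 91 64 9 16 333 3757 4 64) muQ true true 64 RtB15_8.Cx RtB15_8.CX RtB15_8.Ctp.right.right.left.right.right RtB15_8.Ce.right.right.left.right.right RtB15_8.CTp.right RtB15_8.CEr.right 0x4aa83c47ed1739ea174c6947b26e95defe3b7f640d8067a837ed44f91f64c2eb87147f620402847f540d4cfd67f7ed1fb48ca7f6246a4a27f530d6350b4b3c7ed343240474c23fb346e9884ee947f640d694efbe0c7edd92a0564ca1df646e9bd707d57f675981a6f550d4697374a3452e7edf9e2dd64c10f81887e9389e73a18e617d976b48e550d540aa847ed2a7030174c6547d927f630d492243c7ed439de464c5f394667f630d674 = true := by decide +kernel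

theorem cB15_8_3_30 : chunkOkM (LB15_8.ctx true true 97 1 1 1 1 1 1 1 1) muQ true true 64 RtB15_8.Cx RtB15_8.CX RtB15_8.Ctp.right.right.right.left RtB15_8.Ce.right.right.left.left RtB15_8.CTp RtB15_8.CEr 0x11 = true := by decide +kernel

theorem cB15_8_3_31 : chunkOkM (LB15_8.ctx true true 258 91 64 17 32 171 1887 16 128) muQ true true 64 RtB15_8.Cx RtB15_8.CX RtB15_8.Ctp.right.right.right.left.left RtB15_8.Ce.right.right.left.right RtB15_8.CTp.left.left RtB15_8.CEr.left.left 0x51d04cd23c7427ed9b9463f74c3ab4be577b353723258e67db6e3a7e250d6a642e2c677974c52c55537f620d41f4e6a7fd2f3994ff84c181903977b2a9ff5a7f6f8df886f250d46352ed7fd1926ebc884c3be90a877b6848a1128e610a01fd08e250d67f0c522474c354bc12a8e620d4857413ca687fd2beede175c4bd826177b39b3e83f8e640d4 = true := by decide +kernel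

theorem cB15_8_3_32 : chunkOkM (LB15_8.ctx true true 263 89 64 17 32 699 1887 16 64) muQ true true 64 RtB15_8.Cx RtB15_8.CX RtB15_8.Ctp.right.right.right.left.right RtB15_8.Ce.right.right.left.right RtB15_8.CTp.left.left RtB15_8.CEr.left.left 0x111111012028985f8ed12e5f10d84c3d92bfd77b1336caf7f6164a63848e2855db9b7e060d42d8db44974cdcb5a067bd53c766f619cc60ef8e242c16517e050d853771141143 = true := by decide +kernel

theorem cB15_8_3_33 : chunkOkM (LB15_8.ctx true true 242 23 16 9 16 177 459 32 256) muQ true true 64 RtB15_8.Cx RtB15_8.CX RtB15_8.Ctp.right.right.right.left RtB15_8.Ce.right.right.left.right RtB15_8.CTp.left.left RtB15_8.CEr.left.right 0x5a5a15aeae775cd7639fc7e6f9e38f87e2a68d6df7e040dd4b79a65c21f935b77b2a3463688e6197e9b37e240d365a565a5 = true := by decide +kernel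

theorem cB15_8_3_34 : chunkOkM (LB15_8.ctx true true 246 91 64 9 16 177 1887 8 64) muQ true true 64 RtB15_8.Cx RtB15_8.CX RtB15_8.Ctp.right.right.right.left RtB15_8.Ce.right.right.left.right RtB15_8.CTp.left.right RtB15_8.CEr.left 0x13092a9f8ed199779dd84cc1ec3fc7e610da93778e26b1b5487e050d01312354b8ed185b34b284c442b2ba7f630d1355a5388ed1a694d6d84c565dd29b8e6b14c8f07e240d77e184d077ed1682467584c40c882d88e630d41127619f8ed172cbd0d84c184071208e630d436a6 = true := by decide +kernel

theorem cB15_8_3_35 : chunkOkM (LB15_8.ctx true true 228 23 16 9 16 87 459 16 64) muQ true true 64 RtB15_8.Cx RtB15_8.CX RtB15_8.Ctp.right.right.right.left RtB15_8.Ce.right.right.left.right RtB15_8.CTp.left RtB15_8.CEr.right 0x5a978a386fd10fe5a3d84c2a4d423a8e699a71f67e240d5a565a5 = true := by decide +kernel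

theorem cB15_8_3_36 : chunkOkM (LB15_8.ctx true true 238 23 16 9 16 351 1887 8 64) muQ true true 64 RtB15_8.Cx RtB15_8.CX RtB15_8.Ctp.right.right.right.left RtB15_8.Ce.right.right.left.right RtB15_8.CTp.right RtB15_8.CEr 0x118ea251f7ed3cd892c74ce524e487e61136bcde8e21110f0e7e050da5217bb7ed58302b674c12d6749b8e61af2d40c8e22058b7b7e150d61141143514d0037ed152492d74c293320828e630d1a30e8ae8edd4ae03074c3132e18a8e630d55c0926a7ed311e59874c34a420f78e630d65b7b0f6f06c436a6 = true := by decide +kernel

theorem cB15_8_3_37 : chunkOkM (LB15_8.ctx true true 97 1 1 1 1 1 1 1 1) muQ true true 64 RtB15_8.Cx RtB15_8.CX RtB15_8.Ctp.right.right.right.right RtB15_8.Ce.right.right.left RtB15_8.CTp RtB15_8.CEr 0x11 = true := by decide +kernel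

theorem cB15_8_3_38 : chunkOkM (LB15_8.ctx true true 97 1 1 1 1 1 1 1 1) muQ true true 64 RtB15_8.Cx RtB15_8.CX RtB15_8.Ctp.right.right.left.left RtB15_8.Ce.right.right.right RtB15_8.CTp RtB15_8.CEr 0x59 = true := by decide +kernel

theorem cB15_8_3_39 : chunkOkM (LB15_8.ctx true true 97 1 1 1 1 1 1 1 1) muQ true true 64 RtB15_8.Cx RtB15_8.CX RtB15_8.Ctp.right.right.left.right.left RtB15_8.Ce.right.right.right.left.left RtB15_8.CTp RtB15_8.CEr 0x59 = true := by decide +kernel

theorem cB15_8_3_40 : chunkOkM (LB15_8.ctx true true 97 1 1 1 1 1 1 1 1) muQ true true 64 RtB15_8.Cx.left RtB15_8.CX RtB15_8.Ctp.right.right.left.right.right RtB15_8.Ce.right.right.right.left.left RtB15_8.CTp RtB15_8.CEr 0x69 = true := by decide +kernel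

theorem cB15_8_3_41 : chunkOkM (LB15_8.ctx true true 253 95 64 9 16 333 3859 8 64) muQ true true 64 RtB15_8.Cx.right RtB15_8.CX RtB15_8.Ctp.right.right.left.right.right RtB15_8.Ce.right.right.right.left.left.left RtB15_8.CTp.left RtB15_8.CEr.left 0xd303e397edf14be5174c4c6b7e37f6173caf87f540d6cf4c2b7ed8f8d1b874c1c6946a7f633278b258e540d36a63460f687fd39cbed1c84c82beb797f61ca03357f540d19555e2b8edac5485c74c5800bf677b7a3b3fa7f616f16cb7f550d2407af828ed109035ed84c69072b077bfed81617f640d716bd09988eda78118174c44f893b77b3553e7b7f610f617f7f550d1b07bc458edcd4bfeb74c4f2617c77be43d55d7f640d7418e6909e8edc0fa01274c3df391577b31a82ad7f6292d89228e550d365 = true := by decide +kernel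

theorem cB15_8_3_42 : chunkOkM (LB15_8.ctx true true 250 95 64 9 16 333 1955 8 64) muQ true true 64 RtB15_8.Cx.right RtB15_8.CX RtB15_8.Ctp.right.right.left.right.right RtB15_8.Ce.right.right.right.left.left.right RtB15_8.CTp.left RtB15_8.CEr.left 0x11b28c978ede3a369074c4f79ea37f62060ecf7f540d3934e987fd36d17d5a84c30168967f6271ea417f540d1499839b8ed8b3ecc074c5181b7577b587b40f7f61dcdad368e550d65697593 = true := by decide +kernel

theorem cB15_8_3_43 : chunkOkM (LB15_8.ctx true true 234 47 32 9 16 165 969 8 32) muQ true true 64 RtB15_8.Cx.right RtB15_8.CX RtB15_8.Ctp.right.right.left.right.right RtB15_8.Ce.right.right.right.left.left RtB15_8.CTp.left RtB15_8.CEr.right 0xcc87d9f7ed150ea4cc84c26c134b7f6261a1157f540d5a5 = true := by decide +kernel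

theorem cB15_8_3_44 : chunkOkM (LB15_8.ctx true true 97 1 1 1 1 1 1 1 1) muQ true true 64 RtB15_8.Cx.right RtB15_8.CX RtB15_8.Ctp.right.right.left.right.right RtB15_8.Ce.right.right.right.left.left RtB15_8.CTp.right RtB15_8.CEr.left 0x6a = true := by decide +kernel

theorem cB15_8_3_45 : chunkOkM (LB15_8.ctx true true 249 95 64 9 16 333 3859 4 64) muQ true true 64 RtB15_8.Cx.right RtB15_8.CX RtB15_8.Ctp.right.right.left.right.right RtB15_8.Ce.right.right.right.left.left.left RtB15_8.CTp.right RtB15_8.CEr.right 0x79a7ff17edb9c59f64c3f10ea27f61918acf7f540d85165f57ed137cab64c481546c7f610fb80e7f540d43e9813a7ed3598926e83de09dc7f618f7263d8e540d6427262d7ed11ae97274c1384c717f63b5286d7f540d425f1297ed116e56674cf6dda46f62d4d4ee7f540d44a43b17ed1b1894074c448616f7f624b4b5c7f540d743 = true := by decide +kernel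

theorem cB15_8_3_46 : chunkOkM (LB15_8.ctx true true 250 95 64 9 16 333 3927 8 32) muQ true true 64 RtB15_8.Cx.right RtB15_8.CX RtB15_8.Ctp.right.right.left.right.right RtB15_8.Ce.right.right.right.left.left.right RtB15_8.CTp.right RtB15_8.CEr.right 0x45c07da7edfce53964c48bde6a7f6227a7927f540d279c5bc7ed24607387e81452e847f62bc69807f540d4c148217ed39b34cf74c39f970a7f6280a3347f540d54697593 = true := by decide +kernel

theorem cB15_8_3_47 : chunkOkM (LB15_8.ctx true true 97 1 1 1 1 1 1 1 1) muQ true true 64 RtB15_8.Cx RtB15_8.CX RtB15_8.Ctp.right.right.left.right RtB15_8.Ce.right.right.right.left.right RtB15_8.CTp RtB15_8.CEr 0x59 = true := by decide +kernel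

theorem cB15_8_3_48 : chunkOkM (LB15_8.ctx true true 97 1 1 1 1 1 1 1 1) muQ true true 64 RtB15_8.Cx RtB15_8.CX RtB15_8.Ctp.right.right.left.right RtB15_8.Ce.right.right.right.right RtB15_8.CTp RtB15_8.CEr 0x59 = true := by decide +kernel

theorem cB15_8_3_49 : chunkOkM (LB15_8.ctx true true 285 359 256 17 32 693 7633 16 128) muQ true true 64 RtB15_8.Cx.left RtB15_8.CX RtB15_8.Ctp.right.right.right.left RtB15_8.Ce.right.right.right.left.left.left RtB15_8.CTp.left.left RtB15_8.CEr.left.left 0xed2473b7ed76a3ed974c31d711b77b308b96fa8e617f8c89a8e2406df817e060d4211142a05c2c67d787fd15259f2584c26cd67077b480c8597f61ed96d248e250d6321d0e5cb374cb0c7b267b2fdb55b7f6224906d7f223493b07e050d421778549cf82c7ed3d912164c304fec077b575c31768e6579414e7e250d42d43c52b74c3f8c8967b65a42287f69a6da76f240d852169182c04c436549274c7d9174c77b2380044a8f630d56934697217693473 = true := by decide +kernel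

end Vale.Agent.helper4.Q4
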