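import Vale.Agent.helper4.Q4TreeM
import Vale.Agent.helper4.Q4G.PB15_8

/-!
Checks for pairs of intervals of second moments.
-/

set_option maxRecDepth 100000
set_option linter.unusedVariables false

namespace Vale.Agent.helper4.Q4

theorem cB15_8_3_50 : chunkOkM (LB15_8.ctx true true 266 91 64 17 32 345 3893 16 128) muQ true true 64 RtB15_8.Cx.left RtB15_8.CX RtB15_8.Ctp.right.right.right.left RtB15_8.Ce.right.right.right.left.left.right RtB15_8.CTp.left.left RtB15_8.CEr.left.left 0xfa6f0c07ed75d85b374c3e89c4777b3868d3798e61cfdd7598e250d4216f0fb47fd1ac87ab984ce6e28267b2c83a5e7f61fe0ee67f250d40240a6fd33eadcd77b24fc1d8d8e6219047948e240d6856914c5ad158ed990254a74c7a8612177b1d533e748f640d46933217 = true := by decide +kernel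

theorem cB15_8_3_51 : chunkOkM (LB15_8.ctx true true 250 45 32 9 16 87 1955 32 256) muQ true true 64 RtB15_8.Cx.left RtB15_8.CX RtB15_8.Ctp.right.right.right.left RtB15_8.Ce.right.right.right.left.left RtB15_8.CTp.left.left RtB15_8.CEr.left.right 0x5a5a114442d75ccec64667b4c1cbb958e6181d6a07f240ddf8cfd65c1b2b32077b4cfad1cf8e6121dfa37f240d465a565a5 = true := by decide +kernel

theorem cB15_8_3_52 : chunkOkM (LB15_8.ctx true true 240 47 32 9 16 87 1921 16 64) muQ true true 64 RtB15_8.Cx.right RtB15_8.CX RtB15_8.Ctp.right.right.right.left RtB15_8.Ce.right.right.right.left.left.left RtB15_8.CTp.left.left RtB15_8.CEr.left.left 0x351e5727f06b197ef5d74c725395e77b5de954358e630d5 = true := by decide +kernel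

theorem cB15_8_3_53 : chunkOkM (LB15_8.ctx true true 258 95 64 9 16 345 3927 16 64) muQ true true 64 RtB15_8.Cx.right RtB15_8.CX RtB15_8.Ctp.right.right.right.left.left RtB15_8.Ce.right.right.right.left.left.right RtB15_8.CTp.left.left RtB15_8.CEr.left.left 0x19db8a638edad03c4674c7105f4a77b9febcc07f640d186207d18ed98d0c4974c552f3f077bae3070d7f640d31777ca4b8ed93b9ea174c6660f6277b9eb408f7f640d44df5d0e7f06b1f2357274c726101f77b8440d6e7f630d510ed2c9a8ed653310274c65bd25e77ba35642e7f640d37 = true := by decide +kernel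

theorem cB15_8_3_54 : chunkOkM (LB15_8.ctx true true 253 47 32 17 32 177 1955 16 128) muQ true true 64 RtB15_8.Cx.right RtB15_8.CX RtB15_8.Ctp.right.right.right.left.right RtB15_8.Ce.right.right.right.left.left.right RtB15_8.CTp.left.left RtB15_8.CEr.left.left 0xee1b21c7ed66c459474c38b06d977b4a5d27bd8e6109655078e250d423266f187fd28dd650a84c46eeb4f28e6f526ef47e240d442dce65c41c79d077b396d2e2f8e6125bb09d8e240d685 = true := by decide +kernel

theorem cB15_8_3_55 : chunkOkM (LB15_8.ctx true true 233 47 32 9 16 87 969 8 64) muQ true true 64 RtB15_8.Cx.right RtB15_8.CX RtB15_8.Ctp.right.right.right.left RtB15_8.Ce.right.right.right.left.left RtB15_8.CTp.left.left RtB15_8.CEr.left.right 0x2c1d2127fd3851f36984c36f86167b4f1084a68e640d = true := by decide +kernel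

theorem cB15_8_3_56 : chunkOkM (LB15_8.ctx true true 97 1 1 1 1 1 1 1 1) muQ true true 64 RtB15_8.Cx RtB15_8.CX RtB15_8.Ctp.right.right.right.left RtB15_8.Ce.right.right.right.left.left RtB15_8.CTp.left.right RtB15_8.CEr.left.left 0x6a = true := by decide +kernel

theorem cB15_8_3_57 : chunkOkM (LB15_8.ctx true true 250 91 64 9 16 177 3927 8 64) muQ true true 64 RtB15_8.Cx.left RtB15_8.CX RtB15_8.Ctp.right.right.right.left RtB15_8.Ce.right.right.right.left.left RtB15_8.CTp.left.right RtB15_8.CEr.left.right 0xfc4cc457ed160915cd84c4cbb19c58e61e558dd18e240d12c6095a8ed1920188984c5bd92137f61a163767f240d490f353d7ede2720d674cbd92ebab8e630d321711ae3e728ed1873084384c3a9ad6e18e619e285318e240d1160cf5f8ed17f112a784c21fd7ce7f61ea831498e229cf3357e050d710ce12e38ed16f601f784c6eb1bf7b8e618b9dcb7e240d1202d1968ed1809e93784c51da16b28e6feb4346f240d734 = true := by decide +kernel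

theorem cB15_8_3_58 : chunkOkM (LB15_8.ctx true true 244 47 32 9 16 345 1955 8 64) muQ true true 64 RtB15_8.Cx.right RtB15_8.CX RtB15_8.Ctp.right.right.right.left RtB15_8.Ce.right.right.right.left.left RtB15_8.CTp.left.right RtB15_8.CEr.left.right 0x12745cef8ed1893baa184c41736bc68e61cfe3bc7e240df5b500f7ed133d199d84c68c43f77f630db430a2a7edbcad3fd74c71ec8fb38e630d3c7d14617ede06ed4d74c5a511d028e630d43 = true := by decide +kernel

theorem cB15_8_3_59 : chunkOkM (LB15_8.ctx true true 97 1 1 1 1 1 1 1 1) muQ true true 64 RtB15_8.Cx.left RtB15_8.CX RtB15_8.Ctp.right.right.right.left RtB15_8.Ce.right.right.right.left.right RtB15_8.CTp.left RtB15_8.CEr.left 0x21 = true := by decide +kernel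

theorem cB15_8_3_60 : chunkOkM (LB15_8.ctx true true 251 95 64 9 16 345 1989 8 64) muQ true true 64 RtB15_8.Cx.right RtB15_8.CX RtB15_8.Ctp.right.right.right.left.left RtB15_8.Ce.right.right.right.left.right RtB15_8.CTp.left.left RtB15_8.CEr.left 0x692e4521d7fd3540e2a084c9098cff7f630d14316e028ed9162bc674c621bc8f77bb4a150b7f640d11c652358ed6f1f7d274c4b7123077bec16e0a7f640d366974 = true := by decide +kernel

theorem cB15_8_3_61 : chunkOkM (LB15_8.ctx true true 268 187 128 17 32 177 3995 16 128) muQ true true 64 RtB15_8.Cx.right RtB15_8.CX RtB15_8.Ctp.right.right.right.left.right RtB15_8.Ce.right.right.right.left.right.left RtB15_8.CTp.left.left RtB15_8.CEr.left.left 0x16ac48df8edd4adf3c74c34379c577b58a15737f640d42b4d5fd374cb40dba67b681c48f7f65ea72117e240d85112f70b08edbb1fe8874c3ad81e477b57a14d818e610de70fd8e250d6a642527fc0468ed3351b55784c1a0944377b5f68a3c7f6131f7e87f250d2b17b217fd110b475284c20994c677b4075e15c8e618418bc7f250d62173c4673e78ed2c673c6084c14a070577b1d346f57f612b875d7f250d1d8f8857fd92f57aa74c4b23b1f77b31554387f615e3b7e7f250d64857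 = true := by decide +kernel

theorem cB15_8_3_62 : chunkOkM (LB15_8.ctx true true 272 191 128 17 32 357 4063 16 128) muQ true true 64 RtB15_8.Cx.right RtB15_8.CX RtB15_8.Ctp.right.right.right.left.right RtB15_8.Ce.right.right.right.left.right.right RtB15_8.CTp.left.left RtB15_8.CEr.left.left 0x5752f507ed3183cf777b7e81b1fc8e6125febad8e240d42b3aa14274c62be3567b98df6d77f6f2bb696f240daf20ef174c60a48867b60bb1a57f61a8e0117f240d785693ff3f8c67ed7b2eb1974c35390a477b78c758b7f6ab419b87e250d42514fcb788ed3492035584c3bc46217f6120971598e240d2d5f26e7fdf2c4e4674c23b1b9577b98857af7f6223d64258e250d675689fb74c50d7d0477bdf47d267f630d3854217 = true := by decide +kernel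

theorem cB15_8_3_63 : chunkOkM (LB15_8.ctx true true 255 47 32 9 16 177 2023 32 256) muQ true true 64 RtB15_8.Cx.right RtB15_8.CX RtB15_8.Ctp.right.right.right.left.right RtB15_8.Ce.right.right.right.left.right RtB15_8.CTp.left.left RtB15_8.CEr.left.right 0x5a5a102faf875c30e07967b4959962a8e6df447227e240db75b4265c1832a2577b4f4cb9f7f6be44aa57e240d465a565a5 = true := by decide +kernel

theorem cB15_8_3_64 : chunkOkM (LB15_8.ctx true true 254 95 64 9 16 177 4063 16 64) muQ true true 64 RtB15_8.Cx.right RtB15_8.CX RtB15_8.Ctp.right.right.right.left RtB15_8.Ce.right.right.right.left.right RtB15_8.CTp.left.right RtB15_8.CEr.left 0x11e9e41c8ed166ab18d84c748008c28e69f91d96f240d11cf4e398ed1714ecde84c6d0ac477f65aac396f240d421711c1a94a8ed161995b384c6541a587f630d127bb6f08ed182505ef84c6e6b622a8e6122b0a27f240d118d3c368ed10c7cc9b84c3e3bbdb7f61756fe47f240d1237ac2f8ed1979b03b84c7ecbaea7f61148d8f7f240d547469da91c2d7ed100c157484cc129a83b8e630d436a6 = true := by decide +kernel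

theorem cB15_8_3_65 : chunkOkM (LB15_8.ctx true true 252 47 32 9 16 177 1955 32 128) muQ true true 64 RtB15_8.Cx RtB15_8.CX RtB15_8.Ctp.right.right.right.left RtB15_8.Ce.right.right.right.left RtB15_8.CTp.left RtB15_8.CEr.right 0x5a5a4f7d73474c410b5f5e8e6bad1fc57e230d6c386837f06b32173b692677f06b7d00656fdbb126965c4b232a328e6168494c7f240d7e8f956fdc74aed274c446ab5588e6ee56ef97e240d4745a565a565a5 = true := by decide +kernel

end Vale.Agent.helper4.Q4
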