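import Vale.Agent.helper4.Q4TreeM
import Vale.Agent.helper4.Q4G.PB15_8

/-!
Checks for pairs of intervals of second moments.
-/

set_option maxRecDepth 100000
set_option linter.unusedVariables false

namespace Vale.Agent.helper4.Q4

theorem cB15_8_3_66 : chunkOkM (LB15_8.ctx true true 264 95 64 17 32 723 2023 16 64) muQ true true 64 RtB15_8.Cx RtB15_8.CX RtB15_8.Ctp.right.right.right.right RtB15_8.Ce.right.right.right.left RtB15_8.CTp.left RtB15_8.CEr 0x01010126ecf6138ed33963d7584c1dcb47c7f6231fbb87f240de6a40727ed145d316a84cb50cdc6f621695f67f240d6a62c4e16a7fd340bd74584c1119ccf77b92fe946f626207087f218c5d247e160dae8622a7ed322dbee74c2cdfca877b2f3c88d7f61ee10437f250d1fbb7e060d429f6ec1374c1c2d99977bfa87276f6221ed8d7f240d85656114114330170173 = true := by decide +kernel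

theorem cB15_8_3_67 : chunkOkM (LB15_8.ctx true true 97 1 1 1 1 1 1 1 1) muQ true true 64 RtB15_8.Cx RtB15_8.CX RtB15_8.Ctp.right.right.right RtB15_8.Ce.right.right.right.left RtB15_8.CTp.right RtB15_8.CEr.left 0x6a = true := by decide +kernel

theorem cB15_8_3_68 : chunkOkM (LB15_8.ctx true true 240 45 32 9 16 177 1955 8 64) muQ true true 64 RtB15_8.Cx.left RtB15_8.CX RtB15_8.Ctp.right.right.right.left RtB15_8.Ce.right.right.right.left.left RtB15_8.CTp.right RtB15_8.CEr.right 0x2977f0c7ed1c575db7e814dced8d8e6116d6d558e240d64e5a747ed6f3881874c158a0497f6163e6bf7f2c1d8bb6e050d55bf10b27ed2d3fd9974c90aee4e28e630d744aed77ed408f43a74c48d974d18e6680c9f6f240d9a7e4597ed50bf4ff74c5cef34de8e630d643 = true := by decide +kernel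

theorem cB15_8_3_69 : chunkOkM (LB15_8.ctx true true 250 95 64 9 16 345 3927 4 64) muQ true true 64 RtB15_8.Cx.right RtB15_8.CX RtB15_8.Ctp.right.right.right.left.left RtB15_8.Ce.right.right.right.left.left RtB15_8.CTp.right RtB15_8.CEr.right 0x4d66f1f7ed34d8ba274c78d511c7f630d4824eed7ed104a19e74c5d70e767f630d658aaeb67edd0d9bda7f62c49256f530d821cb0758dde42b806e863246357f630d66975f5b9e57ed70fa0607f620d5aaf4377ed1f06cf77e8aa60ed07f630d64347138ca7ed26f347674c643f7717f630d4 = true := by decide +kernel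

theorem cB15_8_3_70 : chunkOkM (LB15_8.ctx true true 234 47 32 9 16 177 969 4 64) muQ true true 64 RtB15_8.Cx.right RtB15_8.CX RtB15_8.Ctp.right.right.right.left.right RtB15_8.Ce.right.right.right.left.left RtB15_8.CTp.right RtB15_8.CEr.right 0x697a1607ed31edf2a74c410318a08e630d557cd4a7ed1ef189474c437f3c948e630d6 = true := by decide +kernel

theorem cB15_8_3_71 : chunkOkM (LB15_8.ctx true true 251 95 64 9 16 345 2023 8 64) muQ true true 64 RtB15_8.Cx RtB15_8.CX RtB15_8.Ctp.right.right.right.left RtB15_8.Ce.right.right.right.left.right RtB15_8.CTp.right RtB15_8.CEr.right 0x4e851827ed7560d964c719fc3628e63b99a86f240da0ff8a17ed6acfb4b74c5884f6b7f6d284c46f240d598cf1a07ed3492ffb74c737c6c97f663fc566f240d6217521fbd77ed177bfda7e849114347f66d803057e240dc43e57e7ed5ac455274c2762c297f6b54a8e6f240d56c78f0b7ed1c5ca9674c3e010177f6e2c84657e240d64694b2c5d27ed1b0f41574c8d381f27f630d42d49ba7ed14443e274cb7e864e7f630d369743217 = true := by decide +kernel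

theorem cB15_8_3_72 : chunkOkM (LB15_8.ctx true true 251 95 64 9 16 723 2023 4 64) muQ true true 64 RtB15_8.Cx RtB15_8.CX RtB15_8.Ctp.right.right.right.right RtB15_8.Ce.right.right.right.left RtB15_8.CTp.right RtB15_8.CEr.right 0x010101696d4cb7ed1d417dd74cf3a5696f61cfba7d7f240dc2cbc1228dd45527ba74cb5bfd16f61ceccd47f240d6114114330170173 = true := by decide +kernel

theorem cB15_8_3_73 : chunkOkM (LB15_8.ctx true true 97 1 1 1 1 1 1 1 1) muQ true true 64 RtB15_8.Cx.left RtB15_8.CX RtB15_8.Ctp.right.right.right RtB15_8.Ce.right.right.right.right.left RtB15_8.CTp RtB15_8.CEr 0x21 = true := by decide +kernel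

theorem cB15_8_3_74 : chunkOkM (LB15_8.ctx true true 97 1 1 1 1 1 1 1 1) muQ true true 64 RtB15_8.Cx.right.left RtB15_8.CX RtB15_8.Ctp.right.right.right RtB15_8.Ce.right.right.right.right.left.left RtB15_8.CTp RtB15_8.CEr 0x21 = true := by decide +kernel

theorem cB15_8_3_75 : chunkOkM (LB15_8.ctx true true 97 1 1 1 1 1 1 1 1) muQ true true 64 RtB15_8.Cx.right.right.left RtB15_8.CX RtB15_8.Ctp.right.right.right RtB15_8.Ce.right.right.right.right.left.left.left RtB15_8.CTp RtB15_8.CEr 0x21 = true := by decide +kernel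

theorem cB15_8_3_76 : chunkOkM (LB15_8.ctx true true 97 1 1 1 1 1 1 1 1) muQ true true 64 RtB15_8.Cx.right.right.right.left RtB15_8.CX RtB15_8.Ctp.right.right.right RtB15_8.Ce.right.right.right.right.left.left.left.left RtB15_8.CTp RtB15_8.CEr 0x21 = true := by decide +kernel

theorem cB15_8_3_77 : chunkOkM (LB15_8.ctx true true 325 3071 2048 9 16 11517 65297 16 64) muQ true true 64 RtB15_8.Cx.right.right.right.right RtB15_8.CX RtB15_8.Ctp.right.right.right.left RtB15_8.Ce.right.right.right.right.left.left.left.left RtB15_8.CTp.left RtB15_8.CEr 0x69696925b078b98ed3094d67684c58984e248f630d1984451c8ed1780a5a984c1362f43ab9f630d21b05c41c04c2c0f21974c73886b077bb8a9184709f630d5656693693469769346976934697693693593 = true := by decide +kernel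

theorem cB15_8_3_78 : chunkOkM (LB15_8.ctx true true 277 383 256 9 16 723 8177 16 64) muQ true true 64 RtB15_8.Cx.right.right.right.right RtB15_8.CX RtB15_8.Ctp.right.right.right.right RtB15_8.Ce.right.right.right.right.left.left.left.left RtB15_8.CTp.left RtB15_8.CEr 0x01010124aafd778ed3021a15a84c76824e07f61674b257f240dd3e408b7ed134be7de84cab3c4b97f61f820bb7f240d6a62fb22ce7fd36ada18a84ca0eadc67bb0fbf86f640dbc6a8cb7ed4427aaa74c379d83477b7d6c5197f6208f5307f250d27ead4974c72d1c4177be0f89da7f61b56be67f240d5656333 = true := by decide +kernel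

theorem cB15_8_3_79 : chunkOkM (LB15_8.ctx true true 269 383 256 9 16 723 8177 4 64) muQ true true 64 RtB15_8.Cx.right.right.right.right RtB15_8.CX RtB15_8.Ctp.right.right.right RtB15_8.Ce.right.right.right.right.left.left.left.left RtB15_8.CTp.right RtB15_8.CEr 0x0101017df1f497ed9ba9dc64c4ecca997f6f695626f240d5b6870e98dd345a60374c4913b1a7f61b1a0c57f240d63334b822757ed1b6940e74c108571518f630d59336a6 = true := by decide +kernel

theorem cB15_8_3_80 : chunkOkM (LB15_8.ctx true true 97 1 1 1 1 1 1 1 1) muQ true true 64 RtB15_8.Cx.right.right.right RtB15_8.CX RtB15_8.Ctp.right.right.right RtB15_8.Ce.right.right.right.right.left.left.left.right RtB15_8.CTp RtB15_8.CEr 0x21 = true := by decide +kernel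

theorem cB15_8_3_81 : chunkOkM (LB15_8.ctx true true 97 1 1 1 1 1 1 1 1) muQ true true 64 RtB15_8.Cx.right.right RtB15_8.CX RtB15_8.Ctp.right.right.right RtB15_8.Ce.right.right.right.right.left.left.right RtB15_8.CTp RtB15_8.CEr 0x21 = true := by decide +kernel

theorem cB15_8_3_82 : chunkOkM (LB15_8.ctx true true 97 1 1 1 1 1 1 1 1) muQ true true 64 RtB15_8.Cx.right RtB15_8.CX RtB15_8.Ctp.right.right.right RtB15_8.Ce.right.right.right.right.left.right RtB15_8.CTp RtB15_8.CEr 0x21 = true := by decide +kernel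

theorem cB15_8_3_83 : chunkOkM (LB15_8.ctx true true 97 1 1 1 1 1 1 1 1) muQ true true 64 RtB15_8.Cx RtB15_8.CX RtB15_8.Ctp.right.right.right RtB15_8.Ce.right.right.right.right.right RtB15_8.CTp RtB15_8.CEr 0x21 = true := by decide +kernel

theorem cB15_8_2_0 : chunkOkM (LB15_8.ctx false true 97 1 1 1 1 1 1 1 1) muQ false true 64 RtB15_8.Cx RtB15_8.CX RtB15_8.Ctn RtB15_8.Ce RtB15_8.CTp RtB15_8.CEr 0x49 = true := by decide +kernel

theorem cB15_8_1_0 : chunkOkM (LB15_8.ctx true false 97 1 1 1 1 1 1 1 1) muQ true false 64 RtB15_8.Cx RtB15_8.CX RtB15_8.Ctp.left RtB15_8.Ce RtB15_8.CTn RtB15_8.CEr 0x49 = true := by decide +kernel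

theorem cB15_8_1_1 : chunkOkM (LB15_8.ctx true false 97 1 1 1 1 1 1 1 1) muQ true false 64 RtB15_8.Cx RtB15_8.CX RtB15_8.Ctp.right RtB15_8.Ce.left RtB15_8.CTn RtB15_8.CEr 0x69 = true := by decide +kernel

theorem cB15_8_1_2 : chunkOkM (LB15_8.ctx true false 326 23 16 513 1024 69 391 16384 65536) muQ true false 64 RtB15_8.Cx RtB15_8.CX.left.left.left.left.left.left RtB15_8.Ctp.right RtB15_8.Ce.right.left RtB15_8.CTn.left.left.left.left.left.left.left.left.left.left.left.left RtB15_8.CEr.left.left.left.left.left.left.left.left.left.left.left.left 0xe237446f06b2e9b1127f05b7d84b757f05b327eb0717f05b44526a207f611997d2c8f570a89347f430d3691c384e738e684ec4837f5b463eef7f430d343 = true := by decide +kernel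

theorem cB15_8_1_3 : chunkOkM (LB15_8.ctx true false 317 23 16 513 1024 33 119 16384 65536) muQ true false 64 RtB15_8.Cx RtB15_8.CX.left.left.left.left.left.left RtB15_8.Ctp.right.left RtB15_8.Ce.right.right RtB15_8.CTn.left.left.left.left.left.left.left.left.left.left.left.left RtB15_8.CEr.left.left.left.left.left.left.left.left.left.left.left.left 0x382b4ab36468d228e6a92c1c97f530d593 = true := by decide +kernel

end Vale.Agent.helper4.Q4
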