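import Vale.Agent.helper4.Q4TreeM
import Vale.Agent.helper4.Q4G.PB15_8

/-!
Checks for pairs of intervals of second moments.
-/

set_option maxRecDepth 100000
set_option linter.unusedVariables false

namespace Vale.Agent.helper4.Q4

theorem cB15_8_1_4 : chunkOkM (LB15_8.ctx true false 337 23 16 513 1024 165 935 16384 65536) muQ true false 64 RtB15_8.Cx RtB15_8.CX.left.left.left.left.left.left RtB15_8.Ctp.right.right RtB15_8.Ce.right.right.left RtB15_8.CTn.left.left.left.left.left.left.left.left.left.left.left.left RtB15_8.CEr.left.left.left.left.left.left.left.left.left.left.left.left 0x2c33be5f79fdd01047c2630c6168e63ac45d6f22bb4696f050d54236187f06b3ade3be7f05b3647547c2b21c4608e613b46b648e530d45cfc64d7f05b30306e9627f05b343 = true := by decide +kernel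

theorem cB15_8_1_5 : chunkOkM (LB15_8.ctx true false 346 47 32 513 1024 177 2057 16384 65536) muQ true false 64 RtB15_8.Cx RtB15_8.CX.left.left.left.left.left.left RtB15_8.Ctp.right.right RtB15_8.Ce.right.right.right RtB15_8.CTn.left.left.left.left.left.left.left.left.left.left.left.left RtB15_8.CEr.left.left.left.left.left.left.left.left.left.left.left.left 0x2121418767e98fd466047c418d15188e62a275377f240d42174232a9257f00b386c47c4bc381af8e6101f41a78e230d5c5ba037f06b321735c3bd57f06b182f2f4319fdb41647c44df026a8e6172a4137f240d74345939c747c333017c78e62a1f1cf7f530d45933 = true := by decide +kernel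

theorem cB15_8_1_6 : chunkOkM (LB15_8.ctx true false 97 1 1 1 1 1 1 1 1) muQ true false 64 RtB15_8.Cx RtB15_8.CX.left.left.left.left.left.right RtB15_8.Ctp.right RtB15_8.Ce.right RtB15_8.CTn.left.left.left.left.left.left.left.left.left.left.left.left RtB15_8.CEr.left.left.left.left.left.left.left.left.left.left.left.left 0x42 = true := by decide +kernel

theorem cB15_8_1_7 : chunkOkM (LB15_8.ctx true false 97 1 1 1 1 1 1 1 1) muQ true false 64 RtB15_8.Cx RtB15_8.CX.left.left.left.left.right RtB15_8.Ctp.right RtB15_8.Ce.right RtB15_8.CTn.left.left.left.left.left.left.left.left.left.left.left.left RtB15_8.CEr.left.left.left.left.left.left.left.left.left.left.left.left 0x42 = true := by decide +kernel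

theorem cB15_8_1_8 : chunkOkM (LB15_8.ctx true false 97 1 1 1 1 1 1 1 1) muQ true false 64 RtB15_8.Cx RtB15_8.CX.left.left.left.left RtB15_8.Ctp.right RtB15_8.Ce.right RtB15_8.CTn.left.left.left.left.left.left.left.left.left.left.left.left RtB15_8.CEr.left.left.left.left.left.left.left.left.left.left.left.right 0x5a = true := by decide +kernel

theorem cB15_8_1_9 : chunkOkM (LB15_8.ctx true false 97 1 1 1 1 1 1 1 1) muQ true false 64 RtB15_8.Cx RtB15_8.CX.left.left.left.left RtB15_8.Ctp.right RtB15_8.Ce.right RtB15_8.CTn.left.left.left.left.left.left.left.left.left.left.left.right RtB15_8.CEr.left.left.left.left.left.left.left.left.left.left.left 0x5a = true := by decide +kernel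

theorem cB15_8_1_10 : chunkOkM (LB15_8.ctx true false 97 1 1 1 1 1 1 1 1) muQ true false 64 RtB15_8.Cx RtB15_8.CX.left.left.left.left RtB15_8.Ctp.right RtB15_8.Ce.right RtB15_8.CTn.left.left.left.left.left.left.left.left.left.left.right RtB15_8.CEr.left.left.left.left.left.left.left.left.left.left.left 0x5a = true := by decide +kernel

theorem cB15_8_1_11 : chunkOkM (LB15_8.ctx true false 97 1 1 1 1 1 1 1 1) muQ true false 64 RtB15_8.Cx RtB15_8.CX.left.left.left.right RtB15_8.Ctp.right RtB15_8.Ce.right RtB15_8.CTn.left.left.left.left.left.left.left.left.left.left RtB15_8.CEr.left.left.left.left.left.left.left.left.left.left.left 0x42 = true := by decide +kernel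

theorem cB15_8_1_12 : chunkOkM (LB15_8.ctx true false 97 1 1 1 1 1 1 1 1) muQ true false 64 RtB15_8.Cx RtB15_8.CX.left.left.left RtB15_8.Ctp.right RtB15_8.Ce.right RtB15_8.CTn.left.left.left.left.left.left.left.left.left.left RtB15_8.CEr.left.left.left.left.left.left.left.left.left.left.right 0x5a = true := by decide +kernel

theorem cB15_8_1_13 : chunkOkM (LB15_8.ctx true false 97 1 1 1 1 1 1 1 1) muQ true false 64 RtB15_8.Cx RtB15_8.CX.left.left.left RtB15_8.Ctp.right RtB15_8.Ce.right RtB15_8.CTn.left.left.left.left.left.left.left.left.left.left RtB15_8.CEr.left.left.left.left.left.left.left.left.left.right 0x5a = true := by decide +kernel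

theorem cB15_8_1_14 : chunkOkM (LB15_8.ctx true false 97 1 1 1 1 1 1 1 1) muQ true false 64 RtB15_8.Cx RtB15_8.CX.left.left.left RtB15_8.Ctp.right RtB15_8.Ce.right RtB15_8.CTn.left.left.left.left.left.left.left.left.left.right RtB15_8.CEr.left.left.left.left.left.left.left.left.left 0x5a = true := by decide +kernel

theorem cB15_8_1_15 : chunkOkM (LB15_8.ctx true false 97 1 1 1 1 1 1 1 1) muQ true false 64 RtB15_8.Cx RtB15_8.CX.left.left.left RtB15_8.Ctp.right RtB15_8.Ce.right RtB15_8.CTn.left.left.left.left.left.left.left.left.right RtB15_8.CEr.left.left.left.left.left.left.left.left.left 0x5a = true := by decide +kernel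

theorem cB15_8_1_16 : chunkOkM (LB15_8.ctx true false 97 1 1 1 1 1 1 1 1) muQ true false 64 RtB15_8.Cx RtB15_8.CX.left.left.right RtB15_8.Ctp.right RtB15_8.Ce.right RtB15_8.CTn.left.left.left.left.left.left.left.left RtB15_8.CEr.left.left.left.left.left.left.left.left.left 0x42 = true := by decide +kernel

theorem cB15_8_1_17 : chunkOkM (LB15_8.ctx true false 97 1 1 1 1 1 1 1 1) muQ true false 64 RtB15_8.Cx RtB15_8.CX.left.left RtB15_8.Ctp.right RtB15_8.Ce.right RtB15_8.CTn.left.left.left.left.left.left.left.left RtB15_8.CEr.left.left.left.left.left.left.left.left.right 0x5a = true := by decide +kernel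

theorem cB15_8_1_18 : chunkOkM (LB15_8.ctx true false 97 1 1 1 1 1 1 1 1) muQ true false 64 RtB15_8.Cx RtB15_8.CX.left.left RtB15_8.Ctp.right RtB15_8.Ce.right RtB15_8.CTn.left.left.left.left.left.left.left.left RtB15_8.CEr.left.left.left.left.left.left.left.right 0x5a = true := by decide +kernel

theorem cB15_8_1_19 : chunkOkM (LB15_8.ctx true false 97 1 1 1 1 1 1 1 1) muQ true false 64 RtB15_8.Cx RtB15_8.CX.left.left RtB15_8.Ctp.right RtB15_8.Ce.right RtB15_8.CTn.left.left.left.left.left.left.left.right RtB15_8.CEr.left.left.left.left.left.left.left 0x5a = true := by decide +kernel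

theorem cB15_8_1_20 : chunkOkM (LB15_8.ctx true false 97 1 1 1 1 1 1 1 1) muQ true false 64 RtB15_8.Cx RtB15_8.CX.left.left RtB15_8.Ctp.right RtB15_8.Ce.right RtB15_8.CTn.left.left.left.left.left.left.right RtB15_8.CEr.left.left.left.left.left.left.left 0x5a = true := by decide +kernel

theorem cB15_8_1_21 : chunkOkM (LB15_8.ctx true false 97 1 1 1 1 1 1 1 1) muQ true false 64 RtB15_8.Cx RtB15_8.CX.left.right RtB15_8.Ctp.right RtB15_8.Ce.right RtB15_8.CTn.left.left.left.left.left.left RtB15_8.CEr.left.left.left.left.left.left.left 0x42 = true := by decide +kernel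

theorem cB15_8_1_22 : chunkOkM (LB15_8.ctx true false 97 1 1 1 1 1 1 1 1) muQ true false 64 RtB15_8.Cx RtB15_8.CX.left RtB15_8.Ctp.right RtB15_8.Ce.right RtB15_8.CTn.left.left.left.left.left.left RtB15_8.CEr.left.left.left.left.left.left.right 0x5a = true := by decide +kernel

theorem cB15_8_1_23 : chunkOkM (LB15_8.ctx true false 97 1 1 1 1 1 1 1 1) muQ true false 64 RtB15_8.Cx RtB15_8.CX.left RtB15_8.Ctp.right RtB15_8.Ce.right RtB15_8.CTn.left.left.left.left.left.left RtB15_8.CEr.left.left.left.left.left.right 0x5a = true := by decide +kernel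

theorem cB15_8_1_24 : chunkOkM (LB15_8.ctx true false 97 1 1 1 1 1 1 1 1) muQ true false 64 RtB15_8.Cx RtB15_8.CX.right RtB15_8.Ctp.right RtB15_8.Ce.right RtB15_8.CTn.left.left.left.left.left.left RtB15_8.CEr.left.left.left.left.left 0x42 = true := by decide +kernel

theorem cB15_8_1_25 : chunkOkM (LB15_8.ctx true false 97 1 1 1 1 1 1 1 1) muQ true false 64 RtB15_8.Cx RtB15_8.CX RtB15_8.Ctp.right RtB15_8.Ce.right RtB15_8.CTn.left.left.left.left.left.right RtB15_8.CEr.left.left.left.left.left 0x42 = true := by decide +kernel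

theorem cB15_8_1_26 : chunkOkM (LB15_8.ctx true false 97 1 1 1 1 1 1 1 1) muQ true false 64 RtB15_8.Cx RtB15_8.CX RtB15_8.Ctp.right RtB15_8.Ce.right RtB15_8.CTn.left.left.left.left.left RtB15_8.CEr.left.left.left.left.right 0x5a = true := by decide +kernel

theorem cB15_8_1_27 : chunkOkM (LB15_8.ctx true false 97 1 1 1 1 1 1 1 1) muQ true false 64 RtB15_8.Cx RtB15_8.CX RtB15_8.Ctp.right RtB15_8.Ce.right RtB15_8.CTn.left.left.left.left.right RtB15_8.CEr.left.left.left.left 0x42 = true := by decide +kernel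

theorem cB15_8_1_28 : chunkOkM (LB15_8.ctx true false 97 1 1 1 1 1 1 1 1) muQ true false 64 RtB15_8.Cx RtB15_8.CX RtB15_8.Ctp.right RtB15_8.Ce.right RtB15_8.CTn.left.left.left.right RtB15_8.CEr.left.left.left.left 0x42 = true := by decide +kernel

theorem cB15_8_1_29 : chunkOkM (LB15_8.ctx true false 97 1 1 1 1 1 1 1 1) muQ true false 64 RtB15_8.Cx RtB15_8.CX RtB15_8.Ctp.right RtB15_8.Ce.right RtB15_8.CTn.left.left.left RtB15_8.CEr.left.left.left.right 0x5a = true := by decide +kernel

theorem cB15_8_1_30 : chunkOkM (LB15_8.ctx true false 97 1 1 1 1 1 1 1 1) muQ true false 64 RtB15_8.Cx RtB15_8.CX RtB15_8.Ctp.right RtB15_8.Ce.right RtB15_8.CTn.left.left.right RtB15_8.CEr.left.left.left 0x42 = true := by decide +kernel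

theorem cB15_8_1_31 : chunkOkM (LB15_8.ctx true false 97 1 1 1 1 1 1 1 1) muQ true false 64 RtB15_8.Cx RtB15_8.CX RtB15_8.Ctp.right RtB15_8.Ce.right RtB15_8.CTn.left.left RtB15_8.CEr.left.left.right 0x5a = true := by decide +kernel

theorem cB15_8_1_32 : chunkOkM (LB15_8.ctx true false 97 1 1 1 1 1 1 1 1) muQ true false 64 RtB15_8.Cx RtB15_8.CX RtB15_8.Ctp.right RtB15_8.Ce.right RtB15_8.CTn.left.right RtB15_8.CEr.left.left 0x42 = true := by decide +kernel

theorem cB15_8_1_33 : chunkOkM (LB15_8.ctx true false 97 1 1 1 1 1 1 1 1) muQ true false 64 RtB15_8.Cx RtB15_8.CX RtB15_8.Ctp.right RtB15_8.Ce.right RtB15_8.CTn.left RtB15_8.CEr.left.right 0x5a = true := by decide +kernel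

theorem cB15_8_1_34 : chunkOkM (LB15_8.ctx true false 97 1 1 1 1 1 1 1 1) muQ true false 64 RtB15_8.Cx RtB15_8.CX RtB15_8.Ctp.right RtB15_8.Ce.right RtB15_8.CTn.right RtB15_8.CEr.left 0x42 = true := by decide +kernel

theorem cB15_8_1_35 : chunkOkM (LB15_8.ctx true false 97 1 1 1 1 1 1 1 1) muQ true false 64 RtB15_8.Cx RtB15_8.CX RtB15_8.Ctp.right RtB15_8.Ce.right RtB15_8.CTn RtB15_8.CEr.right 0x52 = true := by decide +kernel

theorem cB15_8_0_0 : chunkOkM (LB15_8.ctx false false 97 1 1 1 1 1 1 1 1) muQ false false 64 RtB15_8.Cx RtB15_8.CX RtB15_8.Ctn RtB15_8.Ce RtB15_8.CTn RtB15_8.CEr 0x49 = true := by decide +kernel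

end Vale.Agent.helper4.Q4
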