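import Vale.Agent.helper4.Q4TreeM
import Vale.Agent.helper4.Q4G.PB15_8_0
import Vale.Agent.helper4.Q4G.PB15_8_1
import Vale.Agent.helper4.Q4G.PB15_8_2
import Vale.Agent.helper4.Q4G.PB15_8_3
import Vale.Agent.helper4.Q4G.PB15_8_4
import Vale.Agent.helper4.Q4G.PB15_8_5

/-!
Checks for pairs of intervals of second moments.
-/

set_option maxRecDepth 100000
set_option linter.unusedVariables false

namespace Vale.Agent.helper4.Q4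

theorem covB15_8 : LB15_8.Full muQ.val RtB15_8 := ⟨(LitT.Cov.split_t (LitT.cov_of_chunkM cB15_8_3_0) (LitT.Cov.split_e (LitT.cov_of_chunkM cB15_8_3_1) (LitT.Cov.split_t (LitT.Cov.split_e (LitT.Cov.split_e (LitT.Cov.split_t (LitT.Cov.split_e (LitT.cov_of_chunkM cB15_8_3_2) (LitT.cov_of_chunkM cB15_8_3_3)) (LitT.cov_of_chunkM cB15_8_3_4)) (LitT.Cov.split_t (LitT.cov_of_chunkM cB15_8_3_5) (LitT.Cov.split_e (LitT.cov_of_chunkM cB15_8_3_6) (LitT.Cov.split_t (LitT.cov_of_chunkM cB15_8_3_7) (LitT.cov_of_chunkM cB15_8_3_8))))) (LitT.cov_of_chunkM cB15_8_3_9)) (LitT.Cov.split_e (LitT.cov_of_chunkM cB15_8_3_10) (LitT.Cov.split_e (LitT.Cov.split_t (LitT.Cov.split_e (LitT.Cov.split_T (LitT.Cov.split_E (LitT.Cov.split_t (LitT.cov_of_chunkM cB15_8_3_11) (LitT.cov_of_chunkM cB15_8_3_12)) (LitT.cov_of_chunkM cB15_8_3_13)) (LitT.cov_of_chunkM cB15_8_3_14)) (LitT.Cov.split_t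 (LitT.Cov.split_e (LitT.Cov.split_T (LitT.Cov.split_t (LitT.cov_of_chunkM cB15_8_3_15) (LitT.cov_of_chunkM cB15_8_3_16)) (LitT.cov_of_chunkM cB15_8_3_17)) (LitT.cov_of_chunkM cB15_8_3_18)) (LitT.Cov.split_T (LitT.Cov.split_E (LitT.Cov.split_e (LitT.Cov.split_T (LitT.cov_of_chunkM cB15_8_3_19) (LitT.cov_of_chunkM cB15_8_3_20)) (LitT.Cov.split_t (LitT.Cov.split_e (LitT.cov_of_chunkM cB15_8_3_21) (LitT.cov_of_chunkM cB15_8_3_22)) (LitT.Cov.split_T (LitT.cov_of_chunkM cB15_8_3_23) (LitT.cov_of_chunkM cB15_8_3_24)))) (LitT.cov_of_chunkM cB15_8_3_25)) (LitT.Cov.split_E (LitT.cov_of_chunkM cB15_8_3_26) (LitT.Cov.split_e (LitT.cov_of_chunkM cB15_8_3_27) (LitT.Cov.split_t (LitT.cov_of_chunkM cB15_8_3_28) (LitT.cov_of_chunkM cB15_8_3_29))))))) (LitT.Cov.split_t (LitT.Cov.split_e (LitT.cov_of_chunkM cB15_8_3_30) (LitT.Cov.split_T (LitT.Cov.split_E (LitT.Cov.split_T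 (LitT.Cov.split_E (LitT.Cov.split_t (LitT.cov_of_chunkM cB15_8_3_31) (LitT.cov_of_chunkM cB15_8_3_32)) (LitT.cov_of_chunkM cB15_8_3_33)) (LitT.cov_of_chunkM cB15_8_3_34)) (LitT.cov_of_chunkM cB15_8_3_35)) (LitT.cov_of_chunkM cB15_8_3_36))) (LitT.cov_of_chunkM cB15_8_3_37))) (LitT.Cov.split_t (LitT.Cov.split_t (LitT.cov_of_chunkM cB15_8_3_38) (LitT.Cov.split_e (LitT.Cov.split_e (LitT.Cov.split_t (LitT.cov_of_chunkM cB15_8_3_39) (LitT.Cov.split_x (LitT.cov_of_chunkM cB15_8_3_40) (LitT.Cov.split_T (LitT.Cov.split_E (LitT.Cov.split_e (LitT.cov_of_chunkM cB15_8_3_41) (LitT.cov_of_chunkM cB15_8_3_42)) (LitT.cov_of_chunkM cB15_8_3_43)) (LitT.Cov.split_E (LitT.cov_of_chunkM cB15_8_3_44) (LitT.Cov.split_e (LitT.cov_of_chunkM cB15_8_3_45) (LitT.cov_of_chunkM cB15_8_3_46)))))) (LitT.cov_of_chunkM cB15_8_3_47)) (LitT.cov_of_chunkM cB15_8_3_48))) (LitT.Cov.split_e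 (LitT.Cov.split_T (LitT.Cov.split_t (LitT.Cov.split_E (LitT.Cov.split_e (LitT.Cov.split_T (LitT.Cov.split_x (LitT.Cov.split_E (LitT.Cov.split_e (LitT.cov_of_chunkM cB15_8_3_49) (LitT.cov_of_chunkM cB15_8_3_50)) (LitT.cov_of_chunkM cB15_8_3_51)) (LitT.Cov.split_E (LitT.Cov.split_e (LitT.cov_of_chunkM cB15_8_3_52) (LitT.Cov.split_t (LitT.cov_of_chunkM cB15_8_3_53) (LitT.cov_of_chunkM cB15_8_3_54))) (LitT.cov_of_chunkM cB15_8_3_55))) (LitT.Cov.split_E (LitT.cov_of_chunkM cB15_8_3_56) (LitT.Cov.split_x (LitT.cov_of_chunkM cB15_8_3_57) (LitT.cov_of_chunkM cB15_8_3_58)))) (LitT.Cov.split_x (LitT.cov_of_chunkM cB15_8_3_59) (LitT.Cov.split_T (LitT.Cov.split_t (LitT.cov_of_chunkM cB15_8_3_60) (LitT.Cov.split_E (LitT.Cov.split_e (LitT.cov_of_chunkM cB15_8_3_61) (LitT.cov_of_chunkM cB15_8_3_62)) (LitT.cov_of_chunkM cB15_8_3_63))) (LitT.cov_of_chunkM cB15_8_3_64))))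 (LitT.cov_of_chunkM cB15_8_3_65)) (LitT.cov_of_chunkM cB15_8_3_66)) (LitT.Cov.split_E (LitT.cov_of_chunkM cB15_8_3_67) (LitT.Cov.split_t (LitT.Cov.split_e (LitT.Cov.split_x (LitT.cov_of_chunkM cB15_8_3_68) (LitT.Cov.split_t (LitT.cov_of_chunkM cB15_8_3_69) (LitT.cov_of_chunkM cB15_8_3_70))) (LitT.cov_of_chunkM cB15_8_3_71)) (LitT.cov_of_chunkM cB15_8_3_72)))) (LitT.Cov.split_e (LitT.Cov.split_x (LitT.cov_of_chunkM cB15_8_3_73) (LitT.Cov.split_e (LitT.Cov.split_x (LitT.cov_of_chunkM cB15_8_3_74) (LitT.Cov.split_e (LitT.Cov.split_x (LitT.cov_of_chunkM cB15_8_3_75) (LitT.Cov.split_e (LitT.Cov.split_x (LitT.cov_of_chunkM cB15_8_3_76) (LitT.Cov.split_T (LitT.Cov.split_t (LitT.cov_of_chunkM cB15_8_3_77) (LitT.cov_of_chunkM cB15_8_3_78)) (LitT.cov_of_chunkM cB15_8_3_79))) (LitT.cov_of_chunkM cB15_8_3_80))) (LitT.cov_of_chunkM cB15_8_3_81))) (LitT.cov_of_chunkM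 cB15_8_3_82))) (LitT.cov_of_chunkM cB15_8_3_83))))))))), (LitT.Cov.split_t (LitT.cov_of_chunkM cB15_8_1_0) (LitT.Cov.split_e (LitT.cov_of_chunkM cB15_8_1_1) (LitT.Cov.split_E (LitT.Cov.split_T (LitT.Cov.split_E (LitT.Cov.split_T (LitT.Cov.split_E (LitT.Cov.split_T (LitT.Cov.split_E (LitT.Cov.split_T (LitT.Cov.split_T (LitT.Cov.split_E (LitT.Cov.split_T (LitT.Cov.split_X (LitT.Cov.split_E (LitT.Cov.split_E (LitT.Cov.split_X (LitT.Cov.split_T (LitT.Cov.split_T (LitT.Cov.split_E (LitT.Cov.split_E (LitT.Cov.split_X (LitT.Cov.split_T (LitT.Cov.split_T (LitT.Cov.split_E (LitT.Cov.split_E (LitT.Cov.split_X (LitT.Cov.split_T (LitT.Cov.split_T (LitT.Cov.split_E (LitT.Cov.split_X (LitT.Cov.split_X (LitT.Cov.split_e (LitT.cov_of_chunkM cB15_8_1_2) (LitT.Cov.split_t (LitT.cov_of_chunkM cB15_8_1_3) (LitT.Cov.split_e (LitT.cov_of_chunkM cB15_8_1_4) (LitT.cov_of_chunkM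 cB15_8_1_5)))) (LitT.cov_of_chunkM cB15_8_1_6)) (LitT.cov_of_chunkM cB15_8_1_7)) (LitT.cov_of_chunkM cB15_8_1_8)) (LitT.cov_of_chunkM cB15_8_1_9)) (LitT.cov_of_chunkM cB15_8_1_10)) (LitT.cov_of_chunkM cB15_8_1_11)) (LitT.cov_of_chunkM cB15_8_1_12)) (LitT.cov_of_chunkM cB15_8_1_13)) (LitT.cov_of_chunkM cB15_8_1_14)) (LitT.cov_of_chunkM cB15_8_1_15)) (LitT.cov_of_chunkM cB15_8_1_16)) (LitT.cov_of_chunkM cB15_8_1_17)) (LitT.cov_of_chunkM cB15_8_1_18)) (LitT.cov_of_chunkM cB15_8_1_19)) (LitT.cov_of_chunkM cB15_8_1_20)) (LitT.cov_of_chunkM cB15_8_1_21)) (LitT.cov_of_chunkM cB15_8_1_22)) (LitT.cov_of_chunkM cB15_8_1_23)) (LitT.cov_of_chunkM cB15_8_1_24)) (LitT.cov_of_chunkM cB15_8_1_25)) (LitT.cov_of_chunkM cB15_8_1_26)) (LitT.cov_of_chunkM cB15_8_1_27)) (LitT.cov_of_chunkM cB15_8_1_28)) (LitT.cov_of_chunkM cB15_8_1_29)) (LitT.cov_of_chunkM cB15_8_1_30))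 (LitT.cov_of_chunkM cB15_8_1_31)) (LitT.cov_of_chunkM cB15_8_1_32)) (LitT.cov_of_chunkM cB15_8_1_33)) (LitT.cov_of_chunkM cB15_8_1_34)) (LitT.cov_of_chunkM cB15_8_1_35)))), (LitT.cov_of_chunkM cB15_8_2_0), (LitT.cov_of_chunkM cB15_8_0_0)⟩

end Vale.Agent.helper4.Q4
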