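import Vale.Agent.helper4.Q4TreeM
import Vale.Agent.helper4.Q4G.PB15_9

/-!
Checks for pairs of intervals of second moments.
-/

set_option maxRecDepth 100000
set_option linter.unusedVariables false

namespace Vale.Agent.helper4.Q4

theorem cB15_9_3_0 : chunkOkM (LB15_9.ctx true true 101 1 1 1 1 1 1 1 1) muQ true true 64 RtB15_9.Cx RtB15_9.CX RtB15_9.Ctp.left RtB15_9.Ce RtB15_9.CTp RtB15_9.CEr 0x49 = true := by decide +kernel

theorem cB15_9_3_1 : chunkOkM (LB15_9.ctx true true 101 1 1 1 1 1 1 1 1) muQ true true 64 RtB15_9.Cx RtB15_9.CX RtB15_9.Ctp.right RtB15_9.Ce.left RtB15_9.CTp RtB15_9.CEr 0x69 = true := by decide +kernel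

theorem cB15_9_3_2 : chunkOkM (LB15_9.ctx true true 247 23 16 21 32 64 323 256 32) muQ true true 64 RtB15_9.Cx RtB15_9.CX RtB15_9.Ctp.right.left.left RtB15_9.Ce.right.left.left RtB15_9.CTp.left RtB15_9.CEr 0x4a5e76b697fd3940ef69bf2700f6f813d077598f6548c7dfe8f5215798758f460d5f93fc37fd244fac69b14473317f84aeb923b8f6d82a3bb38f5619907268f460d362459c97fd5763959b123c4667f860349d1a8f6d1cac0618f5819cfcb58f460d484a5425 = true := by decide +kernel

theorem cB15_9_3_3 : chunkOkM (LB15_9.ctx true true 250 45 32 11 16 128 663 64 64) muQ true true 64 RtB15_9.Cx RtB15_9.CX RtB15_9.Ctp.right.left.left RtB15_9.Ce.right.left.left RtB15_9.CTp.right RtB15_9.CEr 0x51cb83c7fd253f236f86c5d22278f6e63ae9d88f540d62ded4b7fd237033b75c3f995f17f92758c577f840a828b08f521c8aef08f460d36bc33f97fd39adf487f924c4eeb7f730839ec88f688fe51598f550d4142ec7708fd150f57678f6587831cb8f51f2847c68f440d641631bc3b7fd3ec74fb7f83b5b9fc28f6b59913738f52d1329cb8f450d7493363bdb757fd3e00e477f865a8e85a8f6dc7a57bf8f57fd687a98f450d4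 = true := by decide +kernel

theorem cB15_9_3_4 : chunkOkM (LB15_9.ctx true true 101 1 1 1 1 1 1 1 1) muQ true true 64 RtB15_9.Cx RtB15_9.CX RtB15_9.Ctp.right.left.right RtB15_9.Ce.right.left.left RtB15_9.CTp RtB15_9.CEr 0x69 = true := by decide +kernel

theorem cB15_9_3_5 : chunkOkM (LB15_9.ctx true true 261 23 16 21 32 128 731 256 64) muQ true true 64 RtB15_9.Cx RtB15_9.CX RtB15_9.Ctp.right.left.left RtB15_9.Ce.right.left.right RtB15_9.CTp RtB15_9.CEr 0x593f41bf67fdb22e6b53d9f630e77eae16af52231ea0b61af440d5c7ab4b7fd2928a247f96255a46f73fe9ec728f5180f97ed8f450d58619977fd16685a65c421ed89469f54299bfdc89f440d3411980b418fd272433d38f69dc175478f530d64a5aa35567fd385bd569b5ee2086f81e01d01e8f68cfc612d8f5f32bf617f460d84a542554593 = true := by decide +kernel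

theorem cB15_9_3_6 : chunkOkM (LB15_9.ctx true true 251 23 16 21 32 69 391 256 64) muQ true true 64 RtB15_9.Cx RtB15_9.CX RtB15_9.Ctp.right.left.right RtB15_9.Ce.right.left.right RtB15_9.CTp.left RtB15_9.CEr 0x4afa79f767fd1416b41285c9a8f159b112882928f62fe567e68f550ddf98d227fd41d96c975c45ccb169b10012b9c8f6336f5d4d8f550d65771be27fd1cb20c66c36ba2c69b1a10f8808f66d873df48f550d369c82f39c7fdc6c848775c300e1a69b745b4287f6385cdc8a8f550db5d9c017fd7abced675c13866d0a8f64dd4e5e98f540d63484a5425 = true := by decide +kernel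

theorem cB15_9_3_7 : chunkOkM (LB15_9.ctx true true 290 23 16 41 64 69 391 4096 4096) muQ true true 64 RtB15_9.Cx RtB15_9.CX RtB15_9.Ctp.right.left.right RtB15_9.Ce.right.left.right RtB15_9.CTp.right RtB15_9.CEr.left 0x1212126a6a6a4a6a1e2f880f8f05b505e5c8b8f05b37d1b4227fd174f35528f641dd3a208f530d4886a66a656a655126512651265 = true := by decide +kernel

theorem cB15_9_3_8 : chunkOkM (LB15_9.ctx true true 244 23 16 11 16 129 731 64 64) muQ true true 64 RtB15_9.Cx RtB15_9.CX RtB15_9.Ctp.right.left.right RtB15_9.Ce.right.left.right.left RtB15_9.CTp.right RtB15_9.CEr.right 0x6954449957fd1f8b17e75c33e03ba7f99dd26f17f6323e53a18f550d625d5267fd8e2a816f911253e47f7a76fb867f654b667d88f550d359e94987fd389e8837f96c7f096f7203a933f8f64e10d56b8f550d43 = true := by decide +kernel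

theorem cB15_9_3_9 : chunkOkM (LB15_9.ctx true true 245 23 16 11 16 141 799 64 64) muQ true true 64 RtB15_9.Cx RtB15_9.CX RtB15_9.Ctp.right.left.right RtB15_9.Ce.right.left.right.right RtB15_9.CTp.right RtB15_9.CEr.right 0x60943a17fd3b1765275c1233ab57f96e448417f6220e3ea18f550d67641387fd10157b6385c2683add7f96193a5f7f8b4eb2967f640d6704e8f560d356f75db7fd397d9d375c26882b17f9ebb03d67f626b77dc28f550d46237a187fd57b42157f926c9dae7f84bc46ffa8f6ac9d3b0f8f550d5d0b3e67fd124aa7975c2b2b6077f9ff848d47f65213a20f8f550d4b7b5167fd45d5596f8be02686f76bb3685f8f6e7b51d2f8f58b23ff27f460d343 = true := by decide +kernel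

theorem cB15_9_3_10 : chunkOkM (LB15_9.ctx true true 258 23 16 21 32 141 867 256 64) muQ true true 64 RtB15_9.Cx RtB15_9.CX RtB15_9.Ctp.right.left RtB15_9.Ce.right.right RtB15_9.CTp RtB15_9.CEr 0x595957a83fb7fd38ea10c7f98927dd6f7de0a0b07f64f1f2d008f550d3ec031b7fdd1e9916f81ad6cc47f7d008f96f62f88c9358f550da5ccd517fd109f9cbb85c1704205c8f641227b228f540d55e02bd17fd44b021175c4861e387f92f75e0d7f8128407358f652410fa88f560d34cd12f8f7fd19abc87e8f64e75445a8f530d64a64929bc7fdc268d766c1511cdf08f6503c0e708f540de8605f87fdb11286d75c152a6c538f64f0b60788f540d684a5425545934593 = true := by decide +kernel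

theorem cB15_9_3_11 : chunkOkM (LB15_9.ctx true true 279 89 64 11 16 579 3247 256 64) muQ true true 64 RtB15_9.Cx RtB15_9.CX RtB15_9.Ctp.right.right RtB15_9.Ce.right.left RtB15_9.CTp RtB15_9.CEr 0x111169696969695f1ac4e7fdd571b7775c2b0f9877f810e435e7f740d144b1ce58f01c66f6483d7fda9981b175c2fb192578b30d4a542557769469469411433331143 = true := by decide +kernel

theorem cB15_9_3_12 : chunkOkM (LB15_9.ctx true true 101 1 1 1 1 1 1 1 1) muQ true true 64 RtB15_9.Cx RtB15_9.CX RtB15_9.Ctp.right.right.left RtB15_9.Ce.right.right.left RtB15_9.CTp.left.left RtB15_9.CEr 0x42 = true := by decide +kernel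

theorem cB15_9_3_13 : chunkOkM (LB15_9.ctx true true 101 1 1 1 1 1 1 1 1) muQ true true 64 RtB15_9.Cx RtB15_9.CX RtB15_9.Ctp.right.right.left RtB15_9.Ce.right.right.left RtB15_9.CTp.left.right.left RtB15_9.CEr 0x4a = true := by decide +kernel

theorem cB15_9_3_14 : chunkOkM (LB15_9.ctx true true 272 23 16 21 32 81 425 1024 1024) muQ true true 64 RtB15_9.Cx RtB15_9.CX.left RtB15_9.Ctp.right.right.left RtB15_9.Ce.right.right.left.left RtB15_9.CTp.left.right.right RtB15_9.CEr 0x525a5a5a09698ef47fdd4894466ce50b5407f621a2fae98f540d35a565a56660d28f306fd1b11b969be4c03747f6220ce4928f540d36a61266 = true := by decide +kernel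

theorem cB15_9_3_15 : chunkOkM (LB15_9.ctx true true 280 23 16 21 32 165 935 1024 1024) muQ true true 64 RtB15_9.Cx RtB15_9.CX.left RtB15_9.Ctp.right.right.left RtB15_9.Ce.right.right.left.right RtB15_9.CTp.left.right.right RtB15_9.CEr 0x525a5a5a69ef6966c3a1dc98a8f620d23f10d568f05b37d0774088fd70e72e976c5586559b1b0484c88f699e179b7f550d439f8428a8f05b35a5665a566134c03118fd1bc941c985c250b929e8f6a86c1bf7f540ddb1dae47fd10bd79e76c402461a7f6208d28e38f540d312f51cee8fd193da5c76cb1860768b1b2a63b18f6bf809b87f550d462a7e9c7fd55055e66c12bdfc1c8f63455c4fc8f540d36a61266 = true := by decide +kernel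

theorem cB15_9_3_16 : chunkOkM (LB15_9.ctx true true 101 1 1 1 1 1 1 1 1) muQ true true 64 RtB15_9.Cx RtB15_9.CX.right RtB15_9.Ctp.right.right.left RtB15_9.Ce.right.right.left RtB15_9.CTp.left.right.right RtB15_9.CEr 0x4a = true := by decide +kernel

end Vale.Agent.helper4.Q4
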