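import Vale.Agent.helper4.Q4TreeM
import Vale.Agent.helper4.Q4G.PB15_9

/-!
Checks for pairs of intervals of second moments.
-/

set_option maxRecDepth 100000
set_option linter.unusedVariables false

namespace Vale.Agent.helper4.Q4

theorem cB15_9_3_17 : chunkOkM (LB15_9.ctx true true 299 23 16 41 64 165 935 4096 4096) muQ true true 64 RtB15_9.Cx RtB15_9.CX RtB15_9.Ctp.right.right.left RtB15_9.Ce.right.right.left RtB15_9.CTp.right RtB15_9.CEr.left 0x1212126a6a6a4a6a28777e818f06b22e3c5398f05b316fac297fd193d1e558f6b56eb3f7f530d43a1917ae8f05b30be0a50d7fdd050c337f6223392728f530d34886a66a66a6551265512655126 = true := by decide +kernel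

theorem cB15_9_3_18 : chunkOkM (LB15_9.ctx true true 249 23 16 11 16 75 833 128 128) muQ true true 64 RtB15_9.Cx RtB15_9.CX RtB15_9.Ctp.right.right.left.left RtB15_9.Ce.right.right.left.left.left RtB15_9.CTp.right RtB15_9.CEr.right 0x404da7b7fd267e1f6f89da16b6f711689ed58f61977d85e8f550d10b11a818fdf04084875c125287a38f619dbb3798f540d5dca1f8d7fde0edf165c1b37ad198f621e2c62b8f540d7f6c6467fda02638d75c12eb6d798f61c658bc38f540d56 = true := by decide +kernel

theorem cB15_9_3_19 : chunkOkM (LB15_9.ctx true true 253 23 16 11 16 153 867 128 128) muQ true true 64 RtB15_9.Cx RtB15_9.CX RtB15_9.Ctp.right.right.left.left RtB15_9.Ce.right.right.left.left.right RtB15_9.CTp.right RtB15_9.CEr.right 0x45f4f2e7fda622fb6f8196c3b5b8f6183b5ada8f540dfa501387fdc23a21d75c14e595218f6167204e48f540d51e620fdd8fd14f1e87c8f61b07b7278f530d7d7fea57fdc3290b875ce3d4d197f61c9f9f178f540d568887bc67fd5b3958a75c23058217f62addf24f8f540d677eb807fd3a691c975c2ba4db708f530d63 = true := by decide +kernel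

theorem cB15_9_3_20 : chunkOkM (LB15_9.ctx true true 253 23 16 11 16 159 867 128 128) muQ true true 64 RtB15_9.Cx RtB15_9.CX RtB15_9.Ctp.right.right.left.right RtB15_9.Ce.right.right.left.left RtB15_9.CTp.right RtB15_9.CEr.right 0x6912b75497f06c21c05c553fd8007fd5da377375c20d66943 = true := by decide +kernel

theorem cB15_9_3_21 : chunkOkM (LB15_9.ctx true true 256 23 16 11 16 153 1819 128 128) muQ true true 64 RtB15_9.Cx RtB15_9.CX RtB15_9.Ctp.right.right.left.left RtB15_9.Ce.right.right.left.right RtB15_9.CTp.right RtB15_9.CEr.right 0x59734a11b7fd74a875a75c89da246f911445b618f6302d3cd28f550d37a06647fdf6b07f6f83607e807f62365e2e68f540d3280a8d085c20b96e7e8f520d545cb50a97fd43f9ee175c659096e7f6264b0b6b8f540d6dc69c77fda72afdf75c385d2067f62771967f8f540d564d6b7747fd3ce728675c3bbccb708f530d34 = true := by decide +kernel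

theorem cB15_9_3_22 : chunkOkM (LB15_9.ctx true true 267 47 32 11 16 321 1819 128 128) muQ true true 64 RtB15_9.Cx RtB15_9.CX RtB15_9.Ctp.right.right.left.right RtB15_9.Ce.right.right.left.right.left RtB15_9.CTp.right RtB15_9.CEr.right.left 0x40898ff7fdb458786f815c53c4c8f6d19b4fa7f540d7b81a207fdaf0483c75c230135688f630d7c195ba7fda5971ab75c10e664db8f61bb81cb88f540d99eaa277fdb9b059575c28d003c28f6ebc863a7f540d6df39917fda53289b75c159af1288f61b2de3428f540d37726c0f27fda5e57ed75c1671a8a98f6eb28d567f540d435 = true := by decide +kernel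

theorem cB15_9_3_23 : chunkOkM (LB15_9.ctx true true 254 23 16 11 16 165 901 128 128) muQ true true 64 RtB15_9.Cx RtB15_9.CX RtB15_9.Ctp.right.right.left.right RtB15_9.Ce.right.right.left.right.left RtB15_9.CTp.right RtB15_9.CEr.right.right 0x4b7ef2a7f06c433be3d7fda7d2e66f910337b6f7fc585967f6120a6c268f550d315a93b648fd12700f9685c21e035ea8f69f287427f540d5 = true := by decide +kernel

theorem cB15_9_3_24 : chunkOkM (LB15_9.ctx true true 256 23 16 11 16 159 1887 128 128) muQ true true 64 RtB15_9.Cx RtB15_9.CX RtB15_9.Ctp.right.right.left.right.left RtB15_9.Ce.right.right.left.right.right RtB15_9.CTp.right RtB15_9.CEr.right.left 0xa9b5daf7fdf8ec0027f620330c388f530d513b0ea7fd72a290775caab06997f6259f81108f540d92753f77fda9277b075cea830f57f61b6550bf8f540d45 = true := by decide +kernel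

theorem cB15_9_3_25 : chunkOkM (LB15_9.ctx true true 266 47 32 11 16 165 1887 128 256) muQ true true 64 RtB15_9.Cx RtB15_9.CX RtB15_9.Ctp.right.right.left.right.right RtB15_9.Ce.right.right.left.right.right RtB15_9.CTp.right RtB15_9.CEr.right.left 0x26e6af87fd27069767f81893ad138f6c79f88d7f540da2141477fdc5960ab75c1c332d2c8f61039ceb78f540d11e308848fde4f91e875c1f4aaba38f6a48b9917f540d69a4b7f37fdb60e3f175c6deef5918f630d7609a90d7fd8b890a375c220f970c8f6bbc74c67f540d9221dca7fdacab45875c4311ea0c8f630d745 = true := by decide +kernel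

theorem cB15_9_3_26 : chunkOkM (LB15_9.ctx true true 277 47 32 11 16 165 1887 512 512) muQ true true 64 RtB15_9.Cx RtB15_9.CX RtB15_9.Ctp.right.right.left.right RtB15_9.Ce.right.right.left.right.right RtB15_9.CTp.right RtB15_9.CEr.right.right 0x4b9203c7fd191aa86f924034d6f717ad45b78f6bf0a9b27f550d5cdb9957fd604d536f834fe0a6f75d35c2b98f640d76283b4a7fd44f80c6f81729eb808f6707a4317f540d44b149067fd24d774c7f96d06c76f77080d847f62098912d8f550d35a5a6ec4ce175c38a6b4078f620d24f8e9718f05b35a5665a55 = true := by decide +kernel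

theorem cB15_9_3_27 : chunkOkM (LB15_9.ctx true true 101 1 1 1 1 1 1 1 1) muQ true true 64 RtB15_9.Cx RtB15_9.CX RtB15_9.Ctp.right.right.right.left RtB15_9.Ce.right.right.left.left RtB15_9.CTp RtB15_9.CEr 0x11 = true := by decide +kernel

theorem cB15_9_3_28 : chunkOkM (LB15_9.ctx true true 263 23 16 21 32 177 459 256 256) muQ true true 64 RtB15_9.Cx RtB15_9.CX RtB15_9.Ctp.right.right.right.left RtB15_9.Ce.right.right.left.right RtB15_9.CTp.left RtB15_9.CEr 0x4a1c291c158fd25da7cdc85c1233d869b190e39b28f64b7d81a7f21b96eff7f060dedb4fd97fd14c1e8af85c1d8060078ba9366c67f6cac54c77f23aeca087f060db0639987fd13119cb785ce027c168b1798ef438f637d552a7f250d36a6126684a5425 = true := by decide +kernel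

theorem cB15_9_3_29 : chunkOkM (LB15_9.ctx true true 240 23 16 11 16 87 459 64 64) muQ true true 64 RtB15_9.Cx RtB15_9.CX RtB15_9.Ctp.right.right.right.left RtB15_9.Ce.right.right.left.right RtB15_9.CTp.right RtB15_9.CEr.left 0x25a5365c8fd1996c12b8f62da10207f230d = true := by decide +kernel

end Vale.Agent.helper4.Q4
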