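import Vale.Agent.helper4.Q4TreeM
import Vale.Agent.helper4.Q4G.PB15_9

/-!
Checks for pairs of intervals of second moments.
-/

set_option maxRecDepth 100000
set_option linter.unusedVariables false

namespace Vale.Agent.helper4.Q4

theorem cB15_9_3_30 : chunkOkM (LB15_9.ctx true true 274 47 32 11 16 351 1887 256 256) muQ true true 64 RtB15_9.Cx RtB15_9.CX RtB15_9.Ctp.right.right.right.left RtB15_9.Ce.right.right.left.right RtB15_9.CTp.right.left RtB15_9.CEr.right.left 0x113c0a6ad7fd348102075c1678317a8f257732277f140dae41c597fd1302b6f385c16d73b07f6fab623f7f2281011c7f150d5114114356c4aa07fd51aadf575c18db8e9a8f630db69e2297fd1245d29485c11a002688f62b99ec67f240d55025e16f01c26818c17fd1c299f008f633c60927f230df2e38c87fd164af02d85c1c283b348f66597af87f240d57161418bd8f06b463 = true := by decide +kernel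

theorem cB15_9_3_31 : chunkOkM (LB15_9.ctx true true 247 23 16 11 16 87 459 128 128) muQ true true 64 RtB15_9.Cx RtB15_9.CX RtB15_9.Ctp.right.right.right.left RtB15_9.Ce.right.right.left.right RtB15_9.CTp.right.left RtB15_9.CEr.right.right 0x13dd1e478fd130e5ce985c199084d48f62ec71e6f2241e6827f050d = true := by decide +kernel

theorem cB15_9_3_32 : chunkOkM (LB15_9.ctx true true 251 23 16 11 16 177 459 128 128) muQ true true 64 RtB15_9.Cx RtB15_9.CX RtB15_9.Ctp.right.right.right.left RtB15_9.Ce.right.right.left.right RtB15_9.CTp.right.right RtB15_9.CEr.right 0x4bf218a7fd10a80ff75ce39b2c27f667f95df7f244d8ac17f050d4fc2ab97fd206219375c140ee5b48f630d3855f9387fd18338ebc8f620d6 = true := by decide +kernel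

theorem cB15_9_3_33 : chunkOkM (LB15_9.ctx true true 101 1 1 1 1 1 1 1 1) muQ true true 64 RtB15_9.Cx RtB15_9.CX RtB15_9.Ctp.right.right.right.right RtB15_9.Ce.right.right.left RtB15_9.CTp RtB15_9.CEr 0x11 = true := by decide +kernel

theorem cB15_9_3_34 : chunkOkM (LB15_9.ctx true true 101 1 1 1 1 1 1 1 1) muQ true true 64 RtB15_9.Cx RtB15_9.CX RtB15_9.Ctp.right.right.left.left RtB15_9.Ce.right.right.right RtB15_9.CTp RtB15_9.CEr 0x59 = true := by decide +kernel

theorem cB15_9_3_35 : chunkOkM (LB15_9.ctx true true 101 1 1 1 1 1 1 1 1) muQ true true 64 RtB15_9.Cx RtB15_9.CX RtB15_9.Ctp.right.right.left.right.left RtB15_9.Ce.right.right.right.left.left RtB15_9.CTp RtB15_9.CEr 0x59 = true := by decide +kernel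

theorem cB15_9_3_36 : chunkOkM (LB15_9.ctx true true 101 1 1 1 1 1 1 1 1) muQ true true 64 RtB15_9.Cx.left RtB15_9.CX RtB15_9.Ctp.right.right.left.right.right RtB15_9.Ce.right.right.right.left.left RtB15_9.CTp RtB15_9.CEr 0x69 = true := by decide +kernel

theorem cB15_9_3_37 : chunkOkM (LB15_9.ctx true true 266 47 32 21 32 165 969 256 64) muQ true true 64 RtB15_9.Cx.right RtB15_9.CX RtB15_9.Ctp.right.right.left.right.right RtB15_9.Ce.right.right.right.left.left RtB15_9.CTp.left RtB15_9.CEr 0x4aff019b67fd1573023f85c2fca59c68f61321c05e8f540dc2ea23d7fda2b55f275c31dbb1178b2d59688f8f6135bcf518f550d684a5425 = true := by decide +kernel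

theorem cB15_9_3_38 : chunkOkM (LB15_9.ctx true true 267 47 32 11 16 333 1955 128 128) muQ true true 64 RtB15_9.Cx.right RtB15_9.CX RtB15_9.Ctp.right.right.left.right.right RtB15_9.Ce.right.right.right.left.left RtB15_9.CTp.right RtB15_9.CEr 0x3e974f37fd6a767a6f97e5b45f7232ff24a8f61423fc598f550d1903b3cc8fd108f49a285c21963b788f61437915b8f540d565831c77fd3dc7e66f8125d4a4e8f6198cf46b8f540d840ed3b7fd90d826575c3a4a7da98f613c671a88f540d8cd58747fda1added75c2d1303f28f6dbef6247f540d6ef780b7fd90337fa75c16117b668f61a0dc0788f540d345673d59707fd1cd734888f610d69a048f530d6 = true := by decide +kernel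

theorem cB15_9_3_39 : chunkOkM (LB15_9.ctx true true 101 1 1 1 1 1 1 1 1) muQ true true 64 RtB15_9.Cx RtB15_9.CX RtB15_9.Ctp.right.right.left.right RtB15_9.Ce.right.right.right.left.right RtB15_9.CTp RtB15_9.CEr 0x59 = true := by decide +kernel

theorem cB15_9_3_40 : chunkOkM (LB15_9.ctx true true 101 1 1 1 1 1 1 1 1) muQ true true 64 RtB15_9.Cx RtB15_9.CX RtB15_9.Ctp.right.right.left.right RtB15_9.Ce.right.right.right.right RtB15_9.CTp RtB15_9.CEr 0x59 = true := by decide +kernel

theorem cB15_9_3_41 : chunkOkM (LB15_9.ctx true true 101 1 1 1 1 1 1 1 1) muQ true true 64 RtB15_9.Cx RtB15_9.CX RtB15_9.Ctp.right.right.right RtB15_9.Ce.right.right.right RtB15_9.CTp.left.left RtB15_9.CEr 0x42 = true := by decide +kernel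

theorem cB15_9_3_42 : chunkOkM (LB15_9.ctx true true 101 1 1 1 1 1 1 1 1) muQ true true 64 RtB15_9.Cx RtB15_9.CX RtB15_9.Ctp.right.right.right RtB15_9.Ce.right.right.right RtB15_9.CTp.left.right.left RtB15_9.CEr 0x4a = true := by decide +kernel

theorem cB15_9_3_43 : chunkOkM (LB15_9.ctx true true 101 1 1 1 1 1 1 1 1) muQ true true 64 RtB15_9.Cx RtB15_9.CX.left RtB15_9.Ctp.right.right.right RtB15_9.Ce.right.right.right RtB15_9.CTp.left.right.right RtB15_9.CEr.left.left 0x12 = true := by decide +kernel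

theorem cB15_9_3_44 : chunkOkM (LB15_9.ctx true true 101 1 1 1 1 1 1 1 1) muQ true true 64 RtB15_9.Cx RtB15_9.CX.left RtB15_9.Ctp.right.right.right RtB15_9.Ce.right.right.right RtB15_9.CTp.left.right.right RtB15_9.CEr.left.right.left 0x6a = true := by decide +kernel

theorem cB15_9_3_45 : chunkOkM (LB15_9.ctx true true 276 47 32 21 32 177 2023 256 256) muQ true true 64 RtB15_9.Cx RtB15_9.CX.left RtB15_9.Ctp.right.right.right RtB15_9.Ce.right.right.right.left RtB15_9.CTp.left.right.right RtB15_9.CEr.left.right.right 0xe9c85727fd171b239985c9166c917f61281e8d58f2dc1df86f17d4e5517f060ddf1d05d7fd128e440485c1c757ee78b46a8e5028f6a95b5417f250d11d50b058fd14d37c9585c29aac7c78b3594d0318f684292e77f250d413d193128fd18e6fb9585c39faee748f630d3217afe816f7fde5367cf75c1e3a96978b2f1055f18f640db075d657fdf838cc475c2125b4178b2b2a7b6e8f610953ea68f250d1e1def018fd27d7e98285ca3ceedd7f6b7846b37f2397d75f7f050de09687f7fd15786c4c85cb1264d68b30114eb88f66d8c9517f250d34743 = true := by decide +kernel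

theorem cB15_9_3_46 : chunkOkM (LB15_9.ctx true true 297 383 256 21 32 93 8177 256 256) muQ true true 64 RtB15_9.Cx RtB15_9.CX.left RtB15_9.Ctp.right.right.right RtB15_9.Ce.right.right.right.right RtB15_9.CTp.left.right.right RtB15_9.CEr.left.right.right 0x21212121c78be9e7fd113b56c385c124a93a78b191b035e8f613c08c278f28d3695f060d1932850c8fd1ef9ffb385c435792de49f630d32174217421742174 = true := by decide +kernel

theorem cB15_9_3_47 : chunkOkM (LB15_9.ctx true true 287 47 32 21 32 177 1037 1024 1024) muQ true true 64 RtB15_9.Cx RtB15_9.CX.left RtB15_9.Ctp.right.right.right RtB15_9.Ce.right.right.right RtB15_9.CTp.left.right.right RtB15_9.CEr.right 0x525a5a5a21aa5b47b7fdf3657466cdfd3a59b2804ed4f8f61fccf9188f250d415a69cc28f00b61b1e0375c2078b3e98f6b8fbb697f230d3826ccd98f06b321720a75c3b8f06b80f24f66c16a34f078b247ea8328f6dc88c147f240d743465a565a566 = true := by decide +kernel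

theorem cB15_9_3_48 : chunkOkM (LB15_9.ctx true true 101 1 1 1 1 1 1 1 1) muQ true true 64 RtB15_9.Cx RtB15_9.CX.right RtB15_9.Ctp.right.right.right RtB15_9.Ce.right.right.right RtB15_9.CTp.left.right.right RtB15_9.CEr 0x4a = true := by decide +kernel

theorem cB15_9_3_49 : chunkOkM (LB15_9.ctx true true 302 47 32 41 64 93 1003 4096 4096) muQ true true 64 RtB15_9.Cx RtB15_9.CX RtB15_9.Ctp.right.right.right RtB15_9.Ce.right.right.right RtB15_9.CTp.right RtB15_9.CEr.left 0x1212126a6a6a4a6aab158317fd2886b0588f628ad991a8f230d1520688b8f00b7b3da56c3aee95e58f642569617f230d2171bcad8248f06b335c22b18f6e7512ca7f220d7434885556a66a66a6126512655126 = true := by decide +kernel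

theorem cB15_9_3_50 : chunkOkM (LB15_9.ctx true true 276 91 64 11 16 177 1955 256 256) muQ true true 64 RtB15_9.Cx.left RtB15_9.CX RtB15_9.Ctp.right.right.right.left RtB15_9.Ce.right.right.right.left.left RtB15_9.CTp.right.left RtB15_9.CEr.right.left 0x6a310b728ed7b108fb75c2495cd008f611e3c65e8f296f8b36f050de89aaf17fd15fdd72085c1e27634b8f6122ebf718f240d583ebb6f7fdb94e9a075c6ad219228f630d32174e659afc8ed4b12f5475c50d40967f68866feb7f23e9373f7f050d5c8bd5f7fd62402b675c2795fde08f646f669d7f240d325a3754b8fd2eabe11385c28fb9a9e8f6d3d05dd7f240def7d38f7fd13209ee285c4cec7368b142b921a8f6b5530487f234e66787f060ddce07dd7fd131e68d085c33a4ab028f6717951c7f240d3654 = true := by decide +kernel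

theorem cB15_9_3_51 : chunkOkM (LB15_9.ctx true true 270 47 32 11 16 177 1955 256 256) muQ true true 64 RtB15_9.Cx.right RtB15_9.CX RtB15_9.Ctp.right.right.right.left RtB15_9.Ce.right.right.right.left.left RtB15_9.CTp.right.left RtB15_9.CEr.right.left 0x472e0ef7fd44c3eae75c1c8815c38f630dd65bcff7fd14a2865a85c2a127a958f648854a27f2ac24b66f050d59f53e7a7fdb8c54e575c425c0a218f630d59ca37d7fd3e27d7475c3bbac2de8f630d69a0d5137fdb9b8ecd75c40c9bff58f630d43 = true := by decide +kernel

end Vale.Agent.helper4.Q4
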