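import Vale.Agent.helper4.Q4TreeM
import Vale.Agent.helper4.Q4G.PB15_9

/-!
Checks for pairs of intervals of second moments.
-/

set_option maxRecDepth 100000
set_option linter.unusedVariables false

namespace Vale.Agent.helper4.Q4

theorem cB15_9_3_52 : chunkOkM (LB15_9.ctx true true 270 47 32 11 16 87 969 512 512) muQ true true 64 RtB15_9.Cx RtB15_9.CX RtB15_9.Ctp.right.right.right.left RtB15_9.Ce.right.right.right.left.left RtB15_9.CTp.right.right RtB15_9.CEr.right.left 0x126a20bd36458f06b41762077fd31d478d08f6c06f9fe7f230d76a655126 = true := by decide +kernel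

theorem cB15_9_3_53 : chunkOkM (LB15_9.ctx true true 277 95 64 11 16 177 2023 256 256) muQ true true 64 RtB15_9.Cx RtB15_9.CX RtB15_9.Ctp.right.right.right.left RtB15_9.Ce.right.right.right.left.right RtB15_9.CTp.right RtB15_9.CEr.right.left 0x125a1f88e7fd3ca1bcd88f620bf7fb7f230d512641c27177fd1d1919d75c2d1f79be8f680664a57f240dc5924ce7fd12dc4a6485c3f1ccc928f6634478e7f240d521756996c57fd617d19b75c25fbc6008f6711b9257f240daf7e5557fdfb49e2775c5f6ac068b12db24738f6ef1180a7f250dc6737537fd11aaa8a485c25ebca68b26c375cb8f6800324e7f250d65469844b4347fd972fc0675c754185eb8f630d697435217 = true := by decide +kernel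

theorem cB15_9_3_54 : chunkOkM (LB15_9.ctx true true 270 47 32 11 16 87 1003 512 512) muQ true true 64 RtB15_9.Cx RtB15_9.CX RtB15_9.Ctp.right.right.right.left RtB15_9.Ce.right.right.right.left RtB15_9.CTp.right.left RtB15_9.CEr.right.right 0x5a5a6263a677fd63f89c875c35e3a2e78f638417d17f240d217258eacc68f06be0fb3b27fda9f8ce975c29c7bfc48f6d4dab867f240d7465a565a5 = true := by decide +kernel

theorem cB15_9_3_55 : chunkOkM (LB15_9.ctx true true 264 47 32 11 16 177 2023 128 128) muQ true true 64 RtB15_9.Cx RtB15_9.CX RtB15_9.Ctp.right.right.right.left RtB15_9.Ce.right.right.right.left RtB15_9.CTp.right.right RtB15_9.CEr.right.right 0x4c0e2ad7fd110570675c26f2867c8f65dcd6407f240d40885bc7fd16385af75c1b5941b68f6af08d2d7f240d43b4f3b27fdac04df65c48a2e0298f630d32173f322d07fdf6a9a065c2c2ef08c8f630d40758817fdce5ce865c17e9f66f9242d75f18f6f7188ce7f250d4d7f03228ed1aeee3f75c1401f14d8f68a130f27f21961c067f050d3c9f07a7fd13e09bc75c2036c0058f66c282b77f240d3474 = true := by decide +kernel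

theorem cB15_9_3_56 : chunkOkM (LB15_9.ctx true true 282 95 64 11 16 723 2023 256 128) muQ true true 64 RtB15_9.Cx RtB15_9.CX RtB15_9.Ctp.right.right.right.right RtB15_9.Ce.right.right.right.left RtB15_9.CTp.right RtB15_9.CEr.right 0x0101013f8d2bc58ed2e73646f8134ba9718f6eea06457f27703666f150d10724cb68fd102758d685cd7f7b407f6cab20c47f240d486eb72c8ed5415d8775c19c7ea2e8f6cf7dbce7f240d90112747fdef0569575c4d094468b3d2145e7f6110a68158f250d565114114301730173 = true := by decide +kernel

theorem cB15_9_3_57 : chunkOkM (LB15_9.ctx true true 344 3071 2048 11 16 11517 65297 256 128) muQ true true 64 RtB15_9.Cx RtB15_9.CX RtB15_9.Ctp.right.right.right RtB15_9.Ce.right.right.right.right RtB15_9.CTp.right RtB15_9.CEr.right 0x2121212101010130f16ece8ed2fa84965c14dc273a8f230db1aa5967fdcd80d9575c1178202849f630d42be52098ed3583e3c75c96afd967f616947b388f240dbd30b827fd11e10f8c85c2798c2ec8f6156f88cd8f2175db96f050d565333696969306b8a97f06c142b05c6f0950728eda8a128275c756cef6d79f630d6569369346936974697693469769369359332174217421742174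 = true := by decide +kernel

theorem cB15_9_2_0 : chunkOkM (LB15_9.ctx false true 101 1 1 1 1 1 1 1 1) muQ false true 64 RtB15_9.Cx RtB15_9.CX RtB15_9.Ctn RtB15_9.Ce RtB15_9.CTp RtB15_9.CEr 0x49 = true := by decide +kernel

theorem cB15_9_1_0 : chunkOkM (LB15_9.ctx true false 101 1 1 1 1 1 1 1 1) muQ true false 64 RtB15_9.Cx RtB15_9.CX RtB15_9.Ctp RtB15_9.Ce RtB15_9.CTn RtB15_9.CEr 0x4a = true := by decide +kernel

theorem cB15_9_0_0 : chunkOkM (LB15_9.ctx false false 101 1 1 1 1 1 1 1 1) muQ false false 64 RtB15_9.Cx RtB15_9.CX RtB15_9.Ctn RtB15_9.Ce RtB15_9.CTn RtB15_9.CEr 0x49 = true := by decide +kernel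

end Vale.Agent.helper4.Q4
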