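import Vale.Agent.helper4.Q4TreeM
import Vale.Agent.helper4.Q4G.PB15_9_0
import Vale.Agent.helper4.Q4G.PB15_9_1
import Vale.Agent.helper4.Q4G.PB15_9_2
import Vale.Agent.helper4.Q4G.PB15_9_3

/-!
Checks for pairs of intervals of second moments.
-/

set_option maxRecDepth 100000
set_option linter.unusedVariables false

namespace Vale.Agent.helper4.Q4

theorem covB15_9 : LB15_9.Full muQ.val RtB15_9 := ⟨(LitT.Cov.split_t (LitT.cov_of_chunkM cB15_9_3_0) (LitT.Cov.split_e (LitT.cov_of_chunkM cB15_9_3_1) (LitT.Cov.split_t (LitT.Cov.split_e (LitT.Cov.split_e (LitT.Cov.split_t (LitT.Cov.split_T (LitT.cov_of_chunkM cB15_9_3_2) (LitT.cov_of_chunkM cB15_9_3_3)) (LitT.cov_of_chunkM cB15_9_3_4)) (LitT.Cov.split_t (LitT.cov_of_chunkM cB15_9_3_5) (LitT.Cov.split_T (LitT.cov_of_chunkM cB15_9_3_6) (LitT.Cov.split_E (LitT.cov_of_chunkM cB15_9_3_7) (LitT.Cov.split_e (LitT.cov_of_chunkM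 cB15_9_3_8) (LitT.cov_of_chunkM cB15_9_3_9)))))) (LitT.cov_of_chunkM cB15_9_3_10)) (LitT.Cov.split_e (LitT.cov_of_chunkM cB15_9_3_11) (LitT.Cov.split_e (LitT.Cov.split_t (LitT.Cov.split_T (LitT.Cov.split_T (LitT.cov_of_chunkM cB15_9_3_12) (LitT.Cov.split_T (LitT.cov_of_chunkM cB15_9_3_13) (LitT.Cov.split_X (LitT.Cov.split_e (LitT.cov_of_chunkM cB15_9_3_14) (LitT.cov_of_chunkM cB15_9_3_15)) (LitT.cov_of_chunkM cB15_9_3_16)))) (LitT.Cov.split_E (LitT.cov_of_chunkM cB15_9_3_17) (LitT.Cov.split_e (LitT.Cov.split_t (LitT.Cov.split_e (LitT.cov_of_chunkM cB15_9_3_18) (LitT.cov_of_chunkM cB15_9_3_19)) (LitT.cov_of_chunkM cB15_9_3_20)) (LitT.Cov.split_t (LitT.cov_of_chunkM cB15_9_3_21) (LitT.Cov.split_e (LitT.Cov.split_E (LitT.cov_of_chunkM cB15_9_3_22) (LitT.cov_of_chunkM cB15_9_3_23)) (LitT.Cov.split_E (LitT.Cov.split_t (LitT.cov_of_chunkM cB15_9_3_24) (LitT.cov_of_chunkM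 cB15_9_3_25)) (LitT.cov_of_chunkM cB15_9_3_26))))))) (LitT.Cov.split_t (LitT.Cov.split_e (LitT.cov_of_chunkM cB15_9_3_27) (LitT.Cov.split_T (LitT.cov_of_chunkM cB15_9_3_28) (LitT.Cov.split_E (LitT.cov_of_chunkM cB15_9_3_29) (LitT.Cov.split_T (LitT.Cov.split_E (LitT.cov_of_chunkM cB15_9_3_30) (LitT.cov_of_chunkM cB15_9_3_31)) (LitT.cov_of_chunkM cB15_9_3_32))))) (LitT.cov_of_chunkM cB15_9_3_33))) (LitT.Cov.split_t (LitT.Cov.split_t (LitT.cov_of_chunkM cB15_9_3_34) (LitT.Cov.split_e (LitT.Cov.split_e (LitT.Cov.split_t (LitT.cov_of_chunkM cB15_9_3_35) (LitT.Cov.split_x (LitT.cov_of_chunkM cB15_9_3_36) (LitT.Cov.split_T (LitT.cov_of_chunkM cB15_9_3_37) (LitT.cov_of_chunkM cB15_9_3_38)))) (LitT.cov_of_chunkM cB15_9_3_39)) (LitT.cov_of_chunkM cB15_9_3_40))) (LitT.Cov.split_T (LitT.Cov.split_T (LitT.cov_of_chunkM cB15_9_3_41) (LitT.Cov.split_T (LitT.cov_of_chunkM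 cB15_9_3_42) (LitT.Cov.split_X (LitT.Cov.split_E (LitT.Cov.split_E (LitT.cov_of_chunkM cB15_9_3_43) (LitT.Cov.split_E (LitT.cov_of_chunkM cB15_9_3_44) (LitT.Cov.split_e (LitT.cov_of_chunkM cB15_9_3_45) (LitT.cov_of_chunkM cB15_9_3_46)))) (LitT.cov_of_chunkM cB15_9_3_47)) (LitT.cov_of_chunkM cB15_9_3_48)))) (LitT.Cov.split_E (LitT.cov_of_chunkM cB15_9_3_49) (LitT.Cov.split_e (LitT.Cov.split_t (LitT.Cov.split_E (LitT.Cov.split_e (LitT.Cov.split_T (LitT.Cov.split_x (LitT.cov_of_chunkM cB15_9_3_50) (LitT.cov_of_chunkM cB15_9_3_51)) (LitT.cov_of_chunkM cB15_9_3_52)) (LitT.cov_of_chunkM cB15_9_3_53)) (LitT.Cov.split_T (LitT.cov_of_chunkM cB15_9_3_54) (LitT.cov_of_chunkM cB15_9_3_55))) (LitT.cov_of_chunkM cB15_9_3_56)) (LitT.cov_of_chunkM cB15_9_3_57)))))))))), (LitT.cov_of_chunkM cB15_9_1_0), (LitT.cov_of_chunkM cB15_9_2_0), (LitT.cov_of_chunkM cB15_9_0_0)⟩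

end Vale.Agent.helper4.Q4
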