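import Vale.Agent.helper4.Q4TreeM
import Vale.Agent.helper4.Q4G.PB16_10

/-!
Checks for pairs of intervals of second moments.
-/

set_option maxRecDepth 100000
set_option linter.unusedVariables false

namespace Vale.Agent.helper4.Q4

theorem cB16_10_3_0 : chunkOkM (LB16_10.ctx true true 98 1 1 1 1 1 1 1 1) muQ true true 64 RtB16_10.Cx RtB16_10.CX RtB16_10.Ctp.left RtB16_10.Ce RtB16_10.CTp RtB16_10.CEr 0x41 = true := by decide +kernel

theorem cB16_10_3_1 : chunkOkM (LB16_10.ctx true true 98 1 1 1 1 1 1 1 1) muQ true true 64 RtB16_10.Cx RtB16_10.CX RtB16_10.Ctp.right RtB16_10.Ce RtB16_10.CTp.left RtB16_10.CEr 0x42 = true := by decide +kernel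

theorem cB16_10_3_2 : chunkOkM (LB16_10.ctx true true 197 13 8 13 16 39 8 32 8) muQ true true 64 RtB16_10.Cx RtB16_10.CX RtB16_10.Ctp.right RtB16_10.Ce.left RtB16_10.CTp.right RtB16_10.CEr 0xa0122a6fdd4352a6f85fc3dfce59f4a00d03ba8f140d = true := by decide +kernel

theorem cB16_10_3_3 : chunkOkM (LB16_10.ctx true true 259 193 128 13 16 1027 195 32 35) muQ true true 64 RtB16_10.Cx RtB16_10.CX RtB16_10.Ctp.right.left RtB16_10.Ce.right.left.left RtB16_10.CTp.right RtB16_10.CEr 0x11694149eb4395c7ed970f92b74c6e68d86f8e6e9a1bf17f540d14062f9d8ed924066974c791814458e6f4095727f540d6ce8a486f06c67736941143414141498ce0ce37ede270abe74c19f025a7e838d7e927f6ac148fd7f51e166e27f460d27793b9488b183c53e949e865a641f7f520891917f440d677776946944934934933 = true := by decide +kernel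

theorem cB16_10_3_4 : chunkOkM (LB16_10.ctx true true 213 13 8 13 16 128 55 32 8) muQ true true 64 RtB16_10.Cx RtB16_10.CX RtB16_10.Ctp.right.left.left RtB16_10.Ce.right.left.right RtB16_10.CTp.right RtB16_10.CEr 0x181f5ee7f81ca86c7219f52d8c8e37c9f430d = true := by decide +kernel

theorem cB16_10_3_5 : chunkOkM (LB16_10.ctx true true 218 13 8 13 16 143 105 32 16) muQ true true 64 RtB16_10.Cx RtB16_10.CX RtB16_10.Ctp.right.left.right RtB16_10.Ce.right.left.right.left RtB16_10.CTp.right RtB16_10.CEr.left 0x3c3e5c7f88b24d377ae59e846782027f52cf88377f440d = true := by decide +kernel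

theorem cB16_10_3_6 : chunkOkM (LB16_10.ctx true true 248 49 32 13 16 559 205 64 35) muQ true true 64 RtB16_10.Cx.left RtB16_10.CX RtB16_10.Ctp.right.left.right.left RtB16_10.Ce.right.left.right.left.left RtB16_10.CTp.right RtB16_10.CEr.right 0xf5787837ed122179e484c1b9410d78e664aeb147f540d1308b22a8edbb16bd074c2922f33d8e66df54267f540d649778f9857ed1af204d7e82e282dc7e76b4b1767f6efc16027f550df8a792a7ed1c2551075c36a514b7f6a7a7e6d7f52e4a8f17f450d573 = true := by decide +kernel

theorem cB16_10_3_7 : chunkOkM (LB16_10.ctx true true 246 25 16 13 16 559 435 64 35) muQ true true 64 RtB16_10.Cx.left RtB16_10.CX RtB16_10.Ctp.right.left.right.left RtB16_10.Ce.right.left.right.left.right RtB16_10.CTp.right RtB16_10.CEr.right 0x658a1297ed127717b7e831f3f557e726a35c97f6a47c10b7f512f21037f460dd8704037ed159ef7175c296d4777f6a9df2567f5df9d776f450d5f87662f7ed28efedd884cafdef597e814f9156f65b001317f5144b3d97f460db64a18d7edc87250874c5cbc9737f511b4d737f440d64722433c7ed3adb5165c2a67758b692532868f58a4bed4a8f450d3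 = true := by decide +kernel

theorem cB16_10_3_8 : chunkOkM (LB16_10.ctx true true 98 1 1 1 1 1 1 1 1) muQ true true 64 RtB16_10.Cx.right RtB16_10.CX RtB16_10.Ctp.right.left.right.left RtB16_10.Ce.right.left.right.left RtB16_10.CTp.right RtB16_10.CEr.right 0x49 = true := by decide +kernel

theorem cB16_10_3_9 : chunkOkM (LB16_10.ctx true true 233 13 8 13 16 299 215 64 35) muQ true true 64 RtB16_10.Cx RtB16_10.CX RtB16_10.Ctp.right.left.right.right RtB16_10.Ce.right.left.right.left RtB16_10.CTp.right RtB16_10.CEr.right 0xa734c167ed3f9c14308e66fb1dd17f530d219ef16ec95c9748b14c88b1ba9951b8e6443279e7f540d58ea51d27ed3e512fb7e832711b918e66c991a17f540de55baf27ed14c2f9375c3890a568b21cb3fea8e6523fe537f550d56694 = true := by decide +kernel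

theorem cB16_10_3_10 : chunkOkM (LB16_10.ctx true true 221 13 8 13 16 273 115 32 8) muQ true true 64 RtB16_10.Cx RtB16_10.CX RtB16_10.Ctp.right.left.right.left RtB16_10.Ce.right.left.right.right RtB16_10.CTp.right RtB16_10.CEr 0x9151c127edec833565c6cd4d46f87782191f8f63152f73669f53e54940da9f460d = true := by decide +kernel

theorem cB16_10_3_11 : chunkOkM (LB16_10.ctx true true 223 13 8 13 16 299 115 32 16) muQ true true 64 RtB16_10.Cx RtB16_10.CX RtB16_10.Ctp.right.left.right.right RtB16_10.Ce.right.left.right.right RtB16_10.CTp.right RtB16_10.CEr.left 0x33305c3088b1f16cc33d9e85fdaf087f51ad90f57f440d = true := by decide +kernel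

theorem cB16_10_3_12 : chunkOkM (LB16_10.ctx true true 242 27 16 13 16 585 455 32 35) muQ true true 64 RtB16_10.Cx RtB16_10.CX RtB16_10.Ctp.right.left.right.right.left RtB16_10.Ce.right.left.right.right.left RtB16_10.CTp.right RtB16_10.CEr.right 0x84e2b057ed190a71475c794b8777e83b9ca05f8e69590a767f553b9ec47f460dca2d7eb7eddc01bb65c722b35e7f6e2ce04f7f540ded50bef7ed2542a02884c989451e7e8122f9137f66cf804e7f550d486554297ed895ea1b74c25b6bab7f690341507f540db3677d97edc572b8474c9e321e6f66597d057f540d467 = true := by decide +kernel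

theorem cB16_10_3_13 : chunkOkM (LB16_10.ctx true true 237 13 8 13 16 611 225 64 35) muQ true true 64 RtB16_10.Cx RtB16_10.CX RtB16_10.Ctp.right.left.right.right.right RtB16_10.Ce.right.left.right.right.left RtB16_10.CTp.right RtB16_10.CEr.right 0x6ee98207ed3dde696e824510ae98e647ff07a7f540d1b8f876a495c7c2e8da888b1c97df548e64ee3dbd7f540d5d6be1597edb0fd6877e63e0d5257f530dd9b973f7ed1748b2075c19504068b85fb75b7e63d85ac87f550d56 = true := by decide +kernel

theorem cB16_10_3_14 : chunkOkM (LB16_10.ctx true true 236 27 16 13 16 585 235 32 16) muQ true true 64 RtB16_10.Cx RtB16_10.CX RtB16_10.Ctp.right.left.right.right.left RtB16_10.Ce.right.left.right.right.right RtB16_10.CTp.right RtB16_10.CEr.right 0x87372b07ed1cf766675c94b86547e84253f46f67cf066f7f556824a67f460d87cba6b7ed1df191275c9b8c1ed7e88a57fea7f540d7 = true := by decide +kernel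

theorem cB16_10_3_15 : chunkOkM (LB16_10.ctx true true 247 25 16 13 16 611 475 64 35) muQ true true 64 RtB16_10.Cx.left RtB16_10.CX RtB16_10.Ctp.right.left.right.right.right RtB16_10.Ce.right.left.right.right.right RtB16_10.CTp.right RtB16_10.CEr.right 0xbe9c11a7ed3390e0875cfae9c917e82db49267f67e2b25f7f550d877dde57ed24b637474c1ddef747e9208c21e7f66b2ae127f550d186ad3cc695c6dfe7c6988be64a1f6f6514238f7f540d5491e19857edb80b0fa74c1fc30ce7f6750a1b07f540da5793e57ed52d64947f520d1251e9028ed1a1bccc884c46aafdc7f530d546 = true := by decide +kernel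

theorem cB16_10_3_16 : chunkOkM (LB16_10.ctx true true 248 53 32 13 16 611 475 32 35) muQ true true 64 RtB16_10.Cx.right RtB16_10.CX RtB16_10.Ctp.right.left.right.right.right RtB16_10.Ce.right.left.right.right.right RtB16_10.CTp.right RtB16_10.CEr.right 0x49c3a80d47ed1edae21284c86c56177e86633c957f6cf29cc07f550d8ae0fbb7ed8fec99a74c336ef277f69dcb7467f540d6ab743ef7ed69c55d574cc0848b07f610766f0b8f540dfdd65c77ed74f96f774c69b0f4a7f6b00116e7f521bf576f450d647 = true := by decide +kernel

theorem cB16_10_3_17 : chunkOkM (LB16_10.ctx true true 253 53 32 13 16 1235 485 64 16) muQ true true 64 RtB16_10.Cx RtB16_10.CX RtB16_10.Ctp.right.left RtB16_10.Ce.right.right RtB16_10.CTp.right RtB16_10.CEr 0x59595949594e9f5dd7ed184cea07e8214e7627e74a4daa6f658441ea7f520003f6f460d7e2fcec7eda52ae3874c65852c07f6c4fdbf67f540d51f4c5b7588b131856ff19e866045a77f530d659345937597445934593 = true := by decide +kernel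

theorem cB16_10_3_18 : chunkOkM (LB16_10.ctx true true 98 1 1 1 1 1 1 1 1) muQ true true 64 RtB16_10.Cx RtB16_10.CX RtB16_10.Ctp.right.right.left RtB16_10.Ce.right.left.left RtB16_10.CTp.right RtB16_10.CEr 0x11 = true := by decide +kernel

theorem cB16_10_3_19 : chunkOkM (LB16_10.ctx true true 98 1 1 1 1 1 1 1 1) muQ true true 64 RtB16_10.Cx RtB16_10.CX RtB16_10.Ctp.right.right.left.left RtB16_10.Ce.right.left.right.left RtB16_10.CTp.right RtB16_10.CEr 0x11 = true := by decide +kernel

theorem cB16_10_3_20 : chunkOkM (LB16_10.ctx true true 223 13 8 13 16 325 115 32 16) muQ true true 64 RtB16_10.Cx RtB16_10.CX RtB16_10.Ctp.right.right.left.left RtB16_10.Ce.right.left.right.right RtB16_10.CTp.right RtB16_10.CEr.left 0x24a0d78888b1623baf5c9e820d = true := by decide +kernel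

theorem cB16_10_3_21 : chunkOkM (LB16_10.ctx true true 248 27 16 13 16 663 235 128 35) muQ true true 64 RtB16_10.Cx RtB16_10.CX RtB16_10.Ctp.right.right.left.left RtB16_10.Ce.right.left.right.right RtB16_10.CTp.right.left RtB16_10.CEr.right 0x6a6b1c6f06cce7a9edfd94c377b537988b428d2c87e530df499156f05b708a7747ed41f085e74c65f44168b25b32a158e644fb7f27f550d367b7fc7d7ed9753b0a74c746e4e68b3599d467e540d474a5 = true := by decide +kernel

theorem cB16_10_3_22 : chunkOkM (LB16_10.ctx true true 238 13 8 13 16 663 235 64 35) muQ true true 64 RtB16_10.Cx RtB16_10.CX RtB16_10.Ctp.right.right.left.left RtB16_10.Ce.right.left.right.right RtB16_10.CTp.right.right RtB16_10.CEr.right 0xb4b94e6f06c806cc547edcbbb055c73f4e5f9e1f59567e633f5b9a7f550d33955856f06c49fc33b37ed18c7fbd7e8203abe788e62f84891b8e540d6 = true := by decide +kernel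

theorem cB16_10_3_23 : chunkOkM (LB16_10.ctx true true 98 1 1 1 1 1 1 1 1) muQ true true 64 RtB16_10.Cx RtB16_10.CX RtB16_10.Ctp.right.right.left.right RtB16_10.Ce.right.left.right RtB16_10.CTp.right RtB16_10.CEr 0x69 = true := by decide +kernel

theorem cB16_10_3_24 : chunkOkM (LB16_10.ctx true true 98 1 1 1 1 1 1 1 1) muQ true true 64 RtB16_10.Cx RtB16_10.CX RtB16_10.Ctp.right.right.right RtB16_10.Ce.right.left RtB16_10.CTp.right RtB16_10.CEr 0x11 = true := by decide +kernel

theorem cB16_10_3_25 : chunkOkM (LB16_10.ctx true true 217 13 8 13 16 169 65 32 16) muQ true true 64 RtB16_10.Cx RtB16_10.CX RtB16_10.Ctp.right.right.left RtB16_10.Ce.right.right.left RtB16_10.CTp.right RtB16_10.CEr.left 0x4da4bd3d88b2e71d64c8f8312ac4b98e651e62627f540d = true := by decide +kernel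

end Vale.Agent.helper4.Q4
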