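import Vale.Agent.helper4.Q4TreeM
import Vale.Agent.helper4.Q4G.PB16_10

/-!
Checks for pairs of intervals of second moments.
-/

set_option maxRecDepth 100000
set_option linter.unusedVariables false

namespace Vale.Agent.helper4.Q4

theorem cB16_10_3_26 : chunkOkM (LB16_10.ctx true true 251 25 16 13 16 663 495 128 35) muQ true true 64 RtB16_10.Cx.left RtB16_10.CX RtB16_10.Ctp.right.right.left.left RtB16_10.Ce.right.right.left.left.left RtB16_10.CTp.right RtB16_10.CEr.right 0x6dcd1d37ed45a847f74c9d9e1c6f62eb98ca7f540d691d2b27ed43deea374c169ea1488e623cfbc728e540d454389d37ed1b3bf137f65763d9f7f530d32252c577395c986f72ba88b1ccbe387f61d4e3ea7f540d54aae00b7ed1b68c907e8256230898e62b7d3c17f540d5ffedda7ed3ce518874c4b0b91e77b1f6e5bc18e62cfd1c798e550d4a5541a573f7ed418f1787e81bd113e7f65a10df37f540dc789e1c7ed176d6c075ccc8f2167b1255c527f658d7d627f550d536 = true := by decide +kernel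

theorem cB16_10_3_27 : chunkOkM (LB16_10.ctx true true 251 27 16 13 16 1313 495 64 35) muQ true true 64 RtB16_10.Cx.right RtB16_10.CX RtB16_10.Ctp.right.right.left.left RtB16_10.Ce.right.right.left.left.left RtB16_10.CTp.right RtB16_10.CEr.right 0x69b12ea557ed19a4dfc284c52276d07e8141fbdd18e646d7d937f550d7e52df77edbca6f2c74c1306ddf28e642bf0f47f540d6389c698e7ed2246a7d7e8716ebe6f657cbb427f540d13a8d7350da4c586be98c88b2df04267f66be74227f540d53fa45937ed44381567e8971b456f65e2d2307f540dc8bd00f7ed1200dc175cc4aba56f664fbd737f540d56a1a7d4a7ed20fadccb84c8cb15587e8c43f2877e64ad26f27f550d7e0bb277ed8265deb74c1ccf585f8e6553cc767f540d643 = true := by decide +kernel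

theorem cB16_10_3_28 : chunkOkM (LB16_10.ctx true true 257 55 32 13 16 1287 515 32 35) muQ true true 64 RtB16_10.Cx RtB16_10.CX RtB16_10.Ctp.right.right.left.left.left RtB16_10.Ce.right.right.left.left.right RtB16_10.CTp.right RtB16_10.CEr.right 0x825ef427ed248b4d6f84cd9dbe417e841a7aea7f6a4275607f5e87e256f460d597593ded9a737ed1000019a84c2f164c67e84ac1da6f659e75b17f550d79bfacf7ed547d60074c5e291c97f530d689b68287ed2743b6d75cf07ef507e818ca086cd9f6cba2c863d9f515a982ecc1af460d34597 = true := by decide +kernel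

theorem cB16_10_3_29 : chunkOkM (LB16_10.ctx true true 248 25 16 13 16 663 255 128 35) muQ true true 64 RtB16_10.Cx.left RtB16_10.CX RtB16_10.Ctp.right.right.left.left.right RtB16_10.Ce.right.right.left.left.right RtB16_10.CTp.right RtB16_10.CEr.right 0x7b92a4a7ed58a1155c15d5625b8e647badf37f540d2177104ad95c96e4d7c788bbccd7c6f63be4dc67f540d556086197ed1ec19827f64640c1b7f530d62a2ad17ed41103165c36974b68b20e608168e643eac4b7f550d4a556 = true := by decide +kernel

theorem cB16_10_3_30 : chunkOkM (LB16_10.ctx true true 248 27 16 13 16 663 515 64 35) muQ true true 64 RtB16_10.Cx.right RtB16_10.CX RtB16_10.Ctp.right.right.left.left.right RtB16_10.Ce.right.right.left.left.right RtB16_10.CTp.right RtB16_10.CEr.right 0x653e4267ed8853d06e8f7b5e76f65929c3e7f540d1614f359b0a4c637c6b9088b13a92ea7f6515d2937f540d55c2a2837ed5c5525e83cbbcc478e64e8decf7f540d108dc5fd98a4c4a34246b297b2f1be1918e646fbaae7f540d54691975e7ed1685bd97e8d576f36f65682fa27f540dd51dd627ed1556030484c186fc2d7f65eb6b3b7f540d5727763e7ed191e2af68e647feeeb7f530dd0e2acc7ed1660b9d75c1e15e61b8e64c7993d7f540d546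 = true := by decide +kernel

theorem cB16_10_3_31 : chunkOkM (LB16_10.ctx true true 98 1 1 1 1 1 1 1 1) muQ true true 64 RtB16_10.Cx RtB16_10.CX RtB16_10.Ctp.right.right.left.right RtB16_10.Ce.right.right.left.left RtB16_10.CTp.right.left.left RtB16_10.CEr.right 0x4a = true := by decide +kernel

theorem cB16_10_3_32 : chunkOkM (LB16_10.ctx true true 238 13 8 13 16 351 245 128 32) muQ true true 64 RtB16_10.Cx RtB16_10.CX RtB16_10.Ctp.right.right.left.right RtB16_10.Ce.right.right.left.left.left RtB16_10.CTp.right.left.right RtB16_10.CEr.right.left 0x701962b7ed79654a65c1db5af68b2926ce678e67df2ce77e550d = true := by decide +kernel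

theorem cB16_10_3_33 : chunkOkM (LB16_10.ctx true true 261 51 32 13 16 1391 515 128 32) muQ true true 64 RtB16_10.Cx.left RtB16_10.CX RtB16_10.Ctp.right.right.left.right.left RtB16_10.Ce.right.right.left.left.right RtB16_10.CTp.right.left.right RtB16_10.CEr.right.left 0x5b70b337ed4abe1f374c3abdbf677b241a5a77f6270454698e550d682ddc87ed6990d1a74c2fc505c77b6537303b8e6107e2e4b8e550d76fcc2cd7ed7a8525074c4509fc838e6207ebed68e540d793ce5c7ed9c58ade74c14ebd5c77b5a057f87f640d650bc0a7ed646942274c302afa477b271fe9e7f61d1517908e550d374 = true := by decide +kernel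

theorem cB16_10_3_34 : chunkOkM (LB16_10.ctx true true 269 99 64 13 16 715 1035 128 64) muQ true true 64 RtB16_10.Cx.left RtB16_10.CX RtB16_10.Ctp.right.right.left.right.right RtB16_10.Ce.right.right.left.left.right RtB16_10.CTp.right.left.right RtB16_10.CEr.right.left 0x5e7ea517ed5d3728474c296dcf277b790a717c8e640d1219cb718ed12bcea6384c1b343b077b7150e6a88e640de8888447ed13e9bcdc84c10715fd77b5eaf7f67f6d160b46f250dd2d10a17ed1269efcb84c13fe5eb77b4bd99af7f688f5e687e250d4710efabc48ed14217a0784c473897598e62a1c53e7e240d675f771c97ed6de818774c418b30a77b346b84238e640d4 = true := by decide +kernel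

theorem cB16_10_3_35 : chunkOkM (LB16_10.ctx true true 244 27 16 13 16 351 255 128 32) muQ true true 64 RtB16_10.Cx.right RtB16_10.CX RtB16_10.Ctp.right.right.left.right RtB16_10.Ce.right.right.left.left.right RtB16_10.CTp.right.left.right RtB16_10.CEr.right.left 0x5175ccd7ed299bb865cd00ff58b403e81d28e6304b78178e550d = true := by decide +kernel

theorem cB16_10_3_36 : chunkOkM (LB16_10.ctx true true 236 13 8 13 16 351 125 128 35) muQ true true 64 RtB16_10.Cx RtB16_10.CX RtB16_10.Ctp.right.right.left.right RtB16_10.Ce.right.right.left.left RtB16_10.CTp.right.left.right RtB16_10.CEr.right.right 0x14720b7f61a4c5c22d8b288b2a2547458e61301479e8e540d = true := by decide +kernel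

theorem cB16_10_3_37 : chunkOkM (LB16_10.ctx true true 257 27 16 13 16 715 515 128 128) muQ true true 64 RtB16_10.Cx RtB16_10.CX RtB16_10.Ctp.right.right.left.right RtB16_10.Ce.right.right.left.left RtB16_10.CTp.right.right RtB16_10.CEr.right.left 0x1218d5d8e28edb6ff255c408fb42e8e6384b39e28e540dc9dc4e07ed32f91dc74c456712048e6583c356e540d10f314998ed131924974c2418d1358e6220cd8eb8e540d13f25fde8ed1fe182774c3160b31b8e6148ec8fe8e540d43769de6847ed18ecd765c2903c7108e6e2a36e27e540d46a61265 = true := by decide +kernel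

theorem cB16_10_3_38 : chunkOkM (LB16_10.ctx true true 247 25 16 13 16 689 245 64 75) muQ true true 64 RtB16_10.Cx RtB16_10.CX RtB16_10.Ctp.right.right.left.right RtB16_10.Ce.right.right.left.left.left RtB16_10.CTp.right.right RtB16_10.CEr.right.right 0x6969bc035fa7ed51eae4374c3d5d0b278e6e6e555d7e540d9cbb24e7ed22c838274c39664e158e6b5070ac7e540d673 = true := by decide +kernel

theorem cB16_10_3_39 : chunkOkM (LB16_10.ctx true true 260 51 32 13 16 1391 505 64 75) muQ true true 64 RtB16_10.Cx.left RtB16_10.CX RtB16_10.Ctp.right.right.left.right.left RtB16_10.Ce.right.right.left.left.right.left RtB16_10.CTp.right.right RtB16_10.CEr.right.right 0x580a3f07ed43b7d6e74c46af29778e620531bc98e540ded41c977ed53d7f8774c26a34147e93cd74407f6f8a6b86f550dca6f2747ed16e3def74c5ff00fd7f630dd1396987ed20e7e4474c33bf0187f61bacc8108e540d367 = true := by decide +kernel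

end Vale.Agent.helper4.Q4
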