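import Vale.Agent.helper4.Q4TreeM
import Vale.Agent.helper4.Q4G.PB16_10

/-!
Checks for pairs of intervals of second moments.
-/

set_option maxRecDepth 100000
set_option linter.unusedVariables false

namespace Vale.Agent.helper4.Q4

theorem cB16_10_3_40 : chunkOkM (LB16_10.ctx true true 260 51 32 13 16 1391 515 64 75) muQ true true 64 RtB16_10.Cx.left RtB16_10.CX RtB16_10.Ctp.right.right.left.right.left RtB16_10.Ce.right.right.left.left.right.right RtB16_10.CTp.right.right RtB16_10.CEr.right.right 0x65e11d37ed3f954c474c2021eea7f61d36268f8e540d6620dd07ed46ae4c074c1359efa7f62c27a7a7f540d31597899b8edd629bf6e855034117f68831816f540da9181d57ed3f3895074c4c9f66538e6135843ab8e540d662adb757ed4a16b4374c48fe446f6398a5b77f540d37 = true := by decide +kernel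

theorem cB16_10_3_41 : chunkOkM (LB16_10.ctx true true 261 51 32 13 16 715 515 135 75) muQ true true 64 RtB16_10.Cx.left RtB16_10.CX RtB16_10.Ctp.right.right.left.right.right RtB16_10.Ce.right.right.left.left.right RtB16_10.CTp.right.right RtB16_10.CEr.right.right 0x83043717ed2f25ab87e932a713df8e630d5a5a490e56f06c4de5ae97ed7f9fc66e856a4da618e6309ec0d7e240d1026e6fb8edadafed574c49152b358e61e3efd57e240d57c3d6e677ed1b3e78974c45b600648e630d46 = true := by decide +kernel

theorem cB16_10_3_42 : chunkOkM (LB16_10.ctx true true 240 27 16 13 16 351 255 64 35) muQ true true 64 RtB16_10.Cx.right RtB16_10.CX RtB16_10.Ctp.right.right.left.right RtB16_10.Ce.right.right.left.left.right RtB16_10.CTp.right.right RtB16_10.CEr.right.right 0x5ba887e7ed13e41865c505cf10a8e63dcfe8208e540d = true := by decide +kernel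

theorem cB16_10_3_43 : chunkOkM (LB16_10.ctx true true 262 111 64 13 16 1339 1065 32 35) muQ true true 64 RtB16_10.Cx RtB16_10.CX RtB16_10.Ctp.right.right.left.left RtB16_10.Ce.right.right.left.right RtB16_10.CTp.right RtB16_10.CEr.right 0x59597551f457ed1b30cf9484c88458327e8485ccd57f689c53ef7f550d5974597593b9c63777ed1b30968384c6e9b07c7e814db9517f660a88067f550d9c44afc7ed910758d74c51ff096f6594ac0e7f540d67bf8ae97ed201d3b6484cb489b1d7e843742007f698eb5c27f550d597345975934 = true := by decide +kernel

theorem cB16_10_3_44 : chunkOkM (LB16_10.ctx true true 98 1 1 1 1 1 1 1 1) muQ true true 64 RtB16_10.Cx.left RtB16_10.CX RtB16_10.Ctp.right.right.left.right RtB16_10.Ce.right.right.left.right.left RtB16_10.CTp.right.left.left RtB16_10.CEr.right.left 0x4a = true := by decide +kernel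

theorem cB16_10_3_45 : chunkOkM (LB16_10.ctx true true 248 25 16 13 16 689 265 128 32) muQ true true 64 RtB16_10.Cx.left RtB16_10.CX RtB16_10.Ctp.right.right.left.right.left RtB16_10.Ce.right.right.left.right.left RtB16_10.CTp.right.left.right RtB16_10.CEr.right.left 0x603d82f7ed5c881c65c29403168b1b8adeb68e63300f247f550d = true := by decide +kernel

theorem cB16_10_3_46 : chunkOkM (LB16_10.ctx true true 273 99 64 13 16 1443 1055 128 64) muQ true true 64 RtB16_10.Cx.left RtB16_10.CX RtB16_10.Ctp.right.right.left.right.right RtB16_10.Ce.right.right.left.right.left.left RtB16_10.CTp.right.left.right RtB16_10.CEr.right.left 0xa15e65a7ede52dede74c980c4dca8e630d6904d477ed74ee00374c2578e2377b66d1c3a7f6123b73748e550d59eeea87ed57ac74e74c236691a77b694ba177f640d43e34833b7ed12c17f1884ce9fcf467b5e9cacb7f666171c6f250de6c51a07ed12a8725d84c10daf4677b4a7da1e88e614c0ada7f250d75629bdb7edcef6fc274c7970b2388e630d31fc39527ed529bd3d18e620d67 = true := by decide +kernel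

theorem cB16_10_3_47 : chunkOkM (LB16_10.ctx true true 264 51 32 13 16 1443 1075 128 32) muQ true true 64 RtB16_10.Cx.left RtB16_10.CX RtB16_10.Ctp.right.right.left.right.right RtB16_10.Ce.right.right.left.right.left.right RtB16_10.CTp.right.left.right RtB16_10.CEr.right.left 0x5b4a0ab7ed59ac09974c2f558ac77b9a8990b7f640d5ab39937ed57fb73074c3250f6177b7c41fb97f640d44ba76c07ed463b5f774c2c0e07977b794b0a6b8e61f89e1d38e550d5c278f97ed52efb3474c2e608b977b60523137f614edcab98e550d43697 = true := by decide +kernel

theorem cB16_10_3_48 : chunkOkM (LB16_10.ctx true true 263 51 32 13 16 715 535 128 128) muQ true true 64 RtB16_10.Cx.left RtB16_10.CX RtB16_10.Ctp.right.right.left.right RtB16_10.Ce.right.right.left.right.left RtB16_10.CTp.right.right RtB16_10.CEr.right.left 0x12be914a97ed2c3357b74c63e9dc548e610c21c3b8e540d6977a8cb397ed14ae9c674c2fd837118e6f8f0b5d7e540db57a7e07ed41b3fd974ca223a9bc8e630d74a3027bb7ed232aec938e633bb28778e530d36a61265 = true := by decide +kernel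

theorem cB16_10_3_49 : chunkOkM (LB16_10.ctx true true 241 25 16 13 16 351 265 64 35) muQ true true 64 RtB16_10.Cx.left RtB16_10.CX RtB16_10.Ctp.right.right.left.right RtB16_10.Ce.right.right.left.right.left RtB16_10.CTp.right.left RtB16_10.CEr.right.right 0x248f5b19b95ca54da07088b1d8c0127f61c44fa97f540d = true := by decide +kernel

theorem cB16_10_3_50 : chunkOkM (LB16_10.ctx true true 253 51 32 13 16 689 525 64 35) muQ true true 64 RtB16_10.Cx.left RtB16_10.CX RtB16_10.Ctp.right.right.left.right.left RtB16_10.Ce.right.right.left.right.left RtB16_10.CTp.right.right RtB16_10.CEr.right.right 0x5975dbea47ed3454a9774c2621f0f7f62e7056d7f540d5974 = true := by decide +kernel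

theorem cB16_10_3_51 : chunkOkM (LB16_10.ctx true true 261 51 32 13 16 1443 525 64 75) muQ true true 64 RtB16_10.Cx.left RtB16_10.CX RtB16_10.Ctp.right.right.left.right.right RtB16_10.Ce.right.right.left.right.left.left RtB16_10.CTp.right.right RtB16_10.CEr.right.right 0xbf26a0e7ed38d3c8274c4c2d5dc7f6a0a7e8a7e540d9f814f17ed32d162474c6e64ca2a8e630da4e8b3b7ed3216e6674c3ff49957f6136d4e388e540d36c5a5d6a7ed4d5d4c974c46e966d7f632efd36f240da5cfac57ed4be328a74c460dbde98e69077436f240dc6041147ed3a7dca474c9e1c76658e630d367 = true := by decide +kernel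

theorem cB16_10_3_52 : chunkOkM (LB16_10.ctx true true 270 103 64 13 16 1443 1075 64 75) muQ true true 64 RtB16_10.Cx.left RtB16_10.CX RtB16_10.Ctp.right.right.left.right.right RtB16_10.Ce.right.right.left.right.left.right RtB16_10.CTp.right.right RtB16_10.CEr.right.right 0xb0be6287ed482e23f74c27779607e96f354927f640d8f2b3f47ed321d78474c9a814387f630dbbf54797ed226f4a174c950b5a37f630d46654b0797ed38809ce74c67e11bb7f61b7b0887f540d5f6c6347ed3dc927574c52013a57f61808ddb7f540d61b174b7ed51a781774c15bf4fec8f630d743697 = true := by decide +kernel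

theorem cB16_10_3_53 : chunkOkM (LB16_10.ctx true true 257 55 32 13 16 715 535 128 32) muQ true true 64 RtB16_10.Cx.right RtB16_10.CX RtB16_10.Ctp.right.right.left.right RtB16_10.Ce.right.right.left.right.left RtB16_10.CTp.right RtB16_10.CEr.right.left 0x8e769e47ed374cb4a74c31c9aa5a8e621de65e28e540d0563f6037ed40487a174c397963777b41a2e14e8e6210105028e550d79b5da5f01c44a558a737fd7edbd803564c1c3db857f649ce3b67f540dbc282fb7ed1116b90f84c221d1ce77b4f2fd66f647b64777f550d554164497ed148527e7e82028c62e8e63cc8b167f540d61c81267ed282805574c4c8170d77becc9c787e638688a57f550d4a5543 = true := by decide +kernel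

end Vale.Agent.helper4.Q4
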