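import Vale.Agent.helper4.Q4TreeM
import Vale.Agent.helper4.Q4G.PB16_10

/-!
Checks for pairs of intervals of second moments.
-/

set_option maxRecDepth 100000
set_option linter.unusedVariables false

namespace Vale.Agent.helper4.Q4

theorem cB16_10_3_54 : chunkOkM (LB16_10.ctx true true 258 55 32 13 16 1443 535 64 35) muQ true true 64 RtB16_10.Cx.right RtB16_10.CX RtB16_10.Ctp.right.right.left.right RtB16_10.Ce.right.right.left.right.left RtB16_10.CTp.right RtB16_10.CEr.right.right 0x2290436f06c5c639217ed32bcaeb74c520226a28e612ac2c448e540d65540e87ed359f95874c12e16417e919165ea7f628e3e397f550d3761c5cd6f06c4577c3997ed130d81c74c22824657e919476987f647ca8187f550d5b2932b7ed1dcb1b174c12350e47e925d7706b8e63ae77897f550d431865bb5f23a4c6ceec97388bd1510277e632297987f540d5 = true := by decide +kernel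

theorem cB16_10_3_55 : chunkOkM (LB16_10.ctx true true 277 207 128 13 16 1443 1085 128 35) muQ true true 64 RtB16_10.Cx.left RtB16_10.CX RtB16_10.Ctp.right.right.left.right RtB16_10.Ce.right.right.left.right.right RtB16_10.CTp.right RtB16_10.CEr.right 0x59696a403337ed34d5a7b74cb9977ba7f630d130d6eb1c5a4c55db6f56797bfc1a6627f630d53acca627ed192f56e7e89c73cfc7f630d96c190b7edcd05eb974cd6f20507f630d4a55669746975932174593 = true := by decide +kernel

theorem cB16_10_3_56 : chunkOkM (LB16_10.ctx true true 319 1791 1024 13 16 22451 17605 64 35) muQ true true 64 RtB16_10.Cx.right RtB16_10.CX RtB16_10.Ctp.right.right.left.right.left RtB16_10.Ce.right.right.left.right.right RtB16_10.CTp.right RtB16_10.CEr.right 0x5959595959817684c7edae5222974c139b3da7f530d60d6e5378dd7e0013b74c45dab5a7f530d645975934597593459759345975935974593be450017ed1813eb8684c4b729fb7e814050157f64ed29817f550d5387e0d7ed108f966f64e5e56b7f530db848ea97ed11dbb61084c9f06c76f650353cb7f540d565959883d4ef7ed15006b8784c41ea6717e823902567f656627777f550d83de5c87ed77b7bfc74c107e463b8f6bc7f91a7f540d65934597593597434597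 = true := by decide +kernel

theorem cB16_10_3_57 : chunkOkM (LB16_10.ctx true true 265 55 32 13 16 1443 1095 128 32) muQ true true 64 RtB16_10.Cx.right RtB16_10.CX RtB16_10.Ctp.right.right.left.right.right RtB16_10.Ce.right.right.left.right.right RtB16_10.CTp.right RtB16_10.CEr.right.left 0x5024a9f7ed2d41026e8d5f0f36f63a8827e7f540d4b78b2c7ed1f0b03f74c2ec86cc77b1db2bff7f63c04bc77f550d59651ca7ed4616c9474c2766da777b2dca6407f62df92c87f550d74a5587270057ed1c977b47f62adfaff7f530d6099a807ed3fcc0db74c4a5aa8277b289370ff8e6398304498e550d573dc1a7ed4b024c274c2a91e7677b4ced3857f61cadd717f550d59b20dc7ed4f34d2c74c325cfe677b583f35c7f61b6bbdb68e550d43adf3e67ed3fc9dbc74c1c75b537f63275de4d8e540d374a554 = true := by decide +kernel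

theorem cB16_10_3_58 : chunkOkM (LB16_10.ctx true true 245 27 16 13 16 715 275 64 35) muQ true true 64 RtB16_10.Cx.right RtB16_10.CX RtB16_10.Ctp.right.right.left.right.right RtB16_10.Ce.right.right.left.right.right RtB16_10.CTp.right.left RtB16_10.CEr.right.right 0x1ae21a48e95c7981fa3488b34e9396f6314c6cd7f540d = true := by decide +kernel

theorem cB16_10_3_59 : chunkOkM (LB16_10.ctx true true 270 107 64 13 16 1443 1095 64 75) muQ true true 64 RtB16_10.Cx.right RtB16_10.CX RtB16_10.Ctp.right.right.left.right.right RtB16_10.Ce.right.right.left.right.right.left RtB16_10.CTp.right.right RtB16_10.CEr.right.right 0x65728c67ed4625c76e730ba8fb38e633bf510e8e540d5229fa87ed3e17d4d74c4491b1b7f61e81ec27f540dd6854157ed18c1a0274c6fe8ee07f611b21187f540d7099a9f7ed211416574c4837eba7f61c44ac428e540d67a034cb77ed4049ba474c628b936e936a9e277f61deeaadb8e550d909272c7ed2254cb274c57272a37f617feb5818e540d64611f6027ed2c33b5a74c37e027c7e928b05cf7f6345620f7f550d37 = true := by decide +kernel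

theorem cB16_10_3_60 : chunkOkM (LB16_10.ctx true true 267 107 64 13 16 1443 1115 64 35) muQ true true 64 RtB16_10.Cx.right RtB16_10.CX RtB16_10.Ctp.right.right.left.right.right RtB16_10.Ce.right.right.left.right.right.right RtB16_10.CTp.right.right RtB16_10.CEr.right.right 0x556cb697ed1a6cd4974c30f9cc47f63ba17c37f540d5732a007ed37a770274cd8cfbe6f637c85f97f540d5cc2a5e7ed2e0d22c74c502d3327f622e28967f540d6dd82697ed2ec507674c59ed2437f61b8055f7f540d745937 = true := by decide +kernel

theorem cB16_10_3_61 : chunkOkM (LB16_10.ctx true true 218 13 8 13 16 195 65 32 16) muQ true true 64 RtB16_10.Cx RtB16_10.CX RtB16_10.Ctp.right.right.right RtB16_10.Ce.right.right.left RtB16_10.CTp.right RtB16_10.CEr.left 0x4a274fe488b353787f18f82bd04a8c8e6ae9c1157f240d = true := by decide +kernel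

theorem cB16_10_3_62 : chunkOkM (LB16_10.ctx true true 281 195 128 13 16 2925 1035 135 35) muQ true true 64 RtB16_10.Cx RtB16_10.CX RtB16_10.Ctp.right.right.right.left RtB16_10.Ce.right.right.left.left RtB16_10.CTp.right RtB16_10.CEr.right 0x11111111110146c1016f06c7b576387eda4b697174c6035b177f66027356f040d55740ae6f06c6252a05c602061e28dd6c0c9b674c44252ae77b248414d7f6175eb5b7f22c7b1b6f060d64a55114301777711411433 = true := by decide +kernel

theorem cB16_10_3_63 : chunkOkM (LB16_10.ctx true true 98 1 1 1 1 1 1 1 1) muQ true true 64 RtB16_10.Cx RtB16_10.CX RtB16_10.Ctp.right.right.right.left RtB16_10.Ce.right.right.left.right RtB16_10.CTp.right.left.left RtB16_10.CEr.right 0x4a = true := by decide +kernel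

theorem cB16_10_3_64 : chunkOkM (LB16_10.ctx true true 279 199 128 13 16 1469 1065 128 64) muQ true true 64 RtB16_10.Cx.left.left RtB16_10.CX RtB16_10.Ctp.right.right.right.left.left RtB16_10.Ce.right.right.left.right.left RtB16_10.CTp.right.left.right RtB16_10.CEr.right.left 0x0121dad409a7ed1210245484c106cb3977b68625807f6162f1b27f250da7f55cd38dda9c8f7074ce9bbf267b50888d17f6105b8367f250d62174217e78a4ee7ed1349f35484c105431f77b269f4457f61b0ccc008e250d798092b7ed610257974ce9f48067b28fb77e48e6273589a88e2224d516e060d643 = true := by decide +kernel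

theorem cB16_10_3_65 : chunkOkM (LB16_10.ctx true true 269 103 64 13 16 741 535 128 128) muQ true true 64 RtB16_10.Cx.left.right RtB16_10.CX RtB16_10.Ctp.right.right.right.left.left RtB16_10.Ce.right.right.left.right.left RtB16_10.CTp.right.left.right RtB16_10.CEr.right.left 0x902e7ae7ed1138e37d84c68623dbf8e630df5b8c957ed138b9da884c218452577b44c6f7d28e6cbb1a037e250da19ed457ed98d4a8274c21b7fcc77b408bc4388e69a8fe897e250d67fc3afea7ede15592374c2b0a1ec77b21b66ac38e640d43b2a04c7ed270d07d77b2f7b5de48e6c12949a7e240d6 = true := by decide +kernel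

end Vale.Agent.helper4.Q4
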