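import Vale.Agent.helper4.Q4TreeM
import Vale.Agent.helper4.Q4G.PB16_10

/-!
Checks for pairs of intervals of second moments.
-/

set_option maxRecDepth 100000
set_option linter.unusedVariables false

namespace Vale.Agent.helper4.Q4

theorem cB16_10_3_66 : chunkOkM (LB16_10.ctx true true 280 207 128 13 16 1495 1105 128 64) muQ true true 64 RtB16_10.Cx.left RtB16_10.CX RtB16_10.Ctp.right.right.right.left.left RtB16_10.Ce.right.right.left.right.right RtB16_10.CTp.right.left.right RtB16_10.CEr.right.left 0x21d142fe87edfac87a074c183b1c177b948f5157f6ab2bb86f250d7af108018dd74b45ad74cb50f3367b71bef327f6cfef5c6f250d62174217693cd4bdc07ed109cc9da84cabf34e67b5146eb57f6144ede4b8e250d12ebc3be8ed15869dd884cbd128377f630d3cbc85887ed107e8a6e84c17c768b77b654c94dc8e640d421d1cffe47ed111ff7f584ce5a67767b60c0f9d7f616412b17f250d47a116bbf7ed943f87874c5a88ed8d8e6e3108d6f240d64217 = true := by decide +kernel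

theorem cB16_10_3_67 : chunkOkM (LB16_10.ctx true true 98 1 1 1 1 1 1 1 1) muQ true true 64 RtB16_10.Cx.right RtB16_10.CX RtB16_10.Ctp.right.right.right.left.left RtB16_10.Ce.right.right.left.right.left RtB16_10.CTp.right.left.right RtB16_10.CEr.right.left 0x69 = true := by decide +kernel

theorem cB16_10_3_68 : chunkOkM (LB16_10.ctx true true 258 53 32 13 16 741 545 128 32) muQ true true 64 RtB16_10.Cx.right RtB16_10.CX RtB16_10.Ctp.right.right.right.left.left RtB16_10.Ce.right.right.left.right.right.left RtB16_10.CTp.right.left.right RtB16_10.CEr.right.left 0x6954374207ed46f081374c2ff94f577b791254ad8e640d7 = true := by decide +kernel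

theorem cB16_10_3_69 : chunkOkM (LB16_10.ctx true true 274 107 64 13 16 1495 1115 128 64) muQ true true 64 RtB16_10.Cx.right.left RtB16_10.CX RtB16_10.Ctp.right.right.right.left.left RtB16_10.Ce.right.right.left.right.right.right RtB16_10.CTp.right.left.right RtB16_10.CEr.right.left 0x6feb7337edd9fc6ee74c91858c0e8e630dbb5ca5b7edfa94ef674cb0374567b97a683c7f666fec36f250daf33e037ed115320bf84ca1e07ef7f630d474d9b44c7ed3a1da5474c66b026a88e6b11305e240d64dc48b47ed39419ca74c2ab109077bc9e8f4a7f6bc2553b7e550d2f810af7ed2b576b774c2461adb77b1d93391f8f640d7669794b7ed7e686be74cad2f0d87f630d5275eb77ed4f4d34f74c2d2f5f777bd87e86e7f640d743 = true := by decide +kernel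

theorem cB16_10_3_70 : chunkOkM (LB16_10.ctx true true 258 55 32 13 16 741 555 128 32) muQ true true 64 RtB16_10.Cx.right.right RtB16_10.CX RtB16_10.Ctp.right.right.right.left.left RtB16_10.Ce.right.right.left.right.right.right RtB16_10.CTp.right.left.right RtB16_10.CEr.right.left 0x4dc5c747ed38f3fec74c1ad473a77b6982c3d68e617a74f828e550d = true := by decide +kernel

theorem cB16_10_3_71 : chunkOkM (LB16_10.ctx true true 253 27 16 13 16 1521 275 128 32) muQ true true 64 RtB16_10.Cx RtB16_10.CX RtB16_10.Ctp.right.right.right.left.right RtB16_10.Ce.right.right.left.right RtB16_10.CTp.right.left.right RtB16_10.CEr.right.left 0x11562aeaa7ed5a8b30f74c33fc47677b11a3468b8e61bdb0f298e2198b7f6e060d3114017 = true := by decide +kernel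

theorem cB16_10_3_72 : chunkOkM (LB16_10.ctx true true 237 13 8 13 16 377 135 128 35) muQ true true 64 RtB16_10.Cx RtB16_10.CX RtB16_10.Ctp.right.right.right.left RtB16_10.Ce.right.right.left.right RtB16_10.CTp.right.left.right RtB16_10.CEr.right.right 0x55a42515f9edc6a8d966894c35aa454c88b373e72b88e63f7cfa07e150d = true := by decide +kernel

theorem cB16_10_3_73 : chunkOkM (LB16_10.ctx true true 264 55 32 13 16 767 555 128 128) muQ true true 64 RtB16_10.Cx RtB16_10.CX RtB16_10.Ctp.right.right.right.left RtB16_10.Ce.right.right.left.right RtB16_10.CTp.right.right RtB16_10.CEr.right.left 0x12aa4c3027ed352eef874c164dd3be8e61c8c771d8e240d0176bb8ed6f06ca4fe23e7ed14833c774c6b782d178e64cc9e747e540d74a335077edb994a264c3ad9a1648e6e87d89d7e540d4694a28d0767ed425188674c5fa277f48e610e2f477f240dc2f885e7ed28de61374c433239888e6b4e98f97e240d421787017d37ed38dfd4b74c28e701138e610bb4de78e240db34ade97ed24bb84874c163d71ce8e6235d153f8e240d74736a61265 = true := by decide +kernel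

theorem cB16_10_3_74 : chunkOkM (LB16_10.ctx true true 280 199 128 13 16 1469 1065 135 75) muQ true true 64 RtB16_10.Cx.left RtB16_10.CX RtB16_10.Ctp.right.right.right.left.left RtB16_10.Ce.right.right.left.right.left RtB16_10.CTp.right.right RtB16_10.CEr.right.right 0xb139d467ed49cdbe074c298c52308e6b190b9e7e240d4410a9c7ed6a32a06e828fc26218e6f0de68b7e240dcf32b2a7ed7a1829274c32defb7d8e6aebe98b7e240d560121d50c0dc7ed3c465af74c17247937f61901f767f240dcff58c97ed45ca4ea74c5dd9e027f610836c07f240d62174217b219c1e7ed5765d8774cbc98186f6138c7b97f23145e5f050da9b39157ed471761e74c24733047f61a592e0c8e29561276e050d6437 = true := by decide +kernel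

theorem cB16_10_3_75 : chunkOkM (LB16_10.ctx true true 281 207 128 13 16 1495 1105 135 75) muQ true true 64 RtB16_10.Cx.left RtB16_10.CX RtB16_10.Ctp.right.right.right.left.left RtB16_10.Ce.right.right.left.right.right RtB16_10.CTp.right.right RtB16_10.CEr.right.right 0x219dd46eb7ed49ffe3474c3bd82ff7f6152d8187f240d8ab06e77ed431b7c774c56641d87f6120dd677f240d621742176934fade5a7edc8b3ea64c3f5a8c2c8e684656c6f240d5a546fab127ed85bd846e8480f43c38e6c9d2cf6f240d75953697ed6ec9e3f74c4db6b047f62238b5f240d61175027ed72ba49d74c6037611a8e61992a3a7f240d7564217 = true := by decide +kernel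

theorem cB16_10_3_76 : chunkOkM (LB16_10.ctx true true 98 1 1 1 1 1 1 1 1) muQ true true 64 RtB16_10.Cx.left RtB16_10.CX RtB16_10.Ctp.right.right.right.left.right RtB16_10.Ce.right.right.left.right RtB16_10.CTp.right.right RtB16_10.CEr.right.right 0x01 = true := by decide +kernel

theorem cB16_10_3_77 : chunkOkM (LB16_10.ctx true true 98 1 1 1 1 1 1 1 1) muQ true true 64 RtB16_10.Cx.right RtB16_10.CX RtB16_10.Ctp.right.right.right.left RtB16_10.Ce.right.right.left.right.left RtB16_10.CTp.right.right RtB16_10.CEr.right.right 0x69 = true := by decide +kernel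

theorem cB16_10_3_78 : chunkOkM (LB16_10.ctx true true 257 53 32 13 16 741 545 64 75) muQ true true 64 RtB16_10.Cx.right RtB16_10.CX RtB16_10.Ctp.right.right.right.left.left RtB16_10.Ce.right.right.left.right.right.left RtB16_10.CTp.right.right RtB16_10.CEr.right.right 0x69106a23cb8ed3f4876174c672dcf5b8e630d586e7077ed1fca63274c71058cb58e630d67 = true := by decide +kernel

theorem cB16_10_3_79 : chunkOkM (LB16_10.ctx true true 270 107 64 13 16 1469 1115 64 75) muQ true true 64 RtB16_10.Cx.right.left RtB16_10.CX RtB16_10.Ctp.right.right.right.left.left.left RtB16_10.Ce.right.right.left.right.right.right RtB16_10.CTp.right.right RtB16_10.CEr.right.right 0xce0b1867ed413128b74c504b2bf7e9c13c1217f6fcff206f550da9e9d8c7ed18d7bb774ca5bab6e7f6119f8d098e540d673dc04c7ed406917774cbe78a127f630d79927e0b7ed47451c874c75db67d7f6997d94c7e540d9bb976b7ed13ca1a874c9a70dcf7f646abe747e540d64 = true := by decide +kernel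

theorem cB16_10_3_80 : chunkOkM (LB16_10.ctx true true 270 107 64 13 16 1495 1115 64 75) muQ true true 64 RtB16_10.Cx.right.left RtB16_10.CX RtB16_10.Ctp.right.right.right.left.left.right RtB16_10.Ce.right.right.left.right.right.right RtB16_10.CTp.right.right RtB16_10.CEr.right.right 0xd87cc067ed2c2913574c58f87167f630d8ff82047ed1c198a974c902db2c28e630d97aa4187ed3ac13e674c85853e27f66781196f240dfe1b19d7ed26392a774c972ff2b7f630d476 = true := by decide +kernel

theorem cB16_10_3_81 : chunkOkM (LB16_10.ctx true true 254 55 32 13 16 741 555 64 35) muQ true true 64 RtB16_10.Cx.right.right RtB16_10.CX RtB16_10.Ctp.right.right.right.left.left RtB16_10.Ce.right.right.left.right.right.right RtB16_10.CTp.right.right RtB16_10.CEr.right.right 0x518906e7ed2f9482874c53d517748e619bc50628e540d = true := by decide +kernel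

theorem cB16_10_3_82 : chunkOkM (LB16_10.ctx true true 257 27 16 13 16 1521 555 135 35) muQ true true 64 RtB16_10.Cx.right RtB16_10.CX RtB16_10.Ctp.right.right.right.left.right RtB16_10.Ce.right.right.left.right.right RtB16_10.CTp.right.right RtB16_10.CEr.right.right 0x1158a2a307ed1f5716874c41630a6e91569d0788e61ba8892c8e250d5d8e0487ed6eedd3874cb6a51967e6192ef1c18e240d51143 = true := by decide +kernel

theorem cB16_10_3_83 : chunkOkM (LB16_10.ctx true true 222 13 8 13 16 403 65 32 16) muQ true true 64 RtB16_10.Cx RtB16_10.CX RtB16_10.Ctp.right.right.right.right RtB16_10.Ce.right.right.left RtB16_10.CTp.right RtB16_10.CEr.right 0xa1726d68b1c8c4f798e11a5392598f030d = true := by decide +kernel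

theorem cB16_10_3_84 : chunkOkM (LB16_10.ctx true true 98 1 1 1 1 1 1 1 1) muQ true true 64 RtB16_10.Cx.left RtB16_10.CX RtB16_10.Ctp.right.right RtB16_10.Ce.right.right.right.left RtB16_10.CTp.right RtB16_10.CEr 0x21 = true := by decide +kernel

end Vale.Agent.helper4.Q4
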