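import Vale.Agent.helper4.Q4TreeM
import Vale.Agent.helper4.Q4G.PB16_10

/-!
Checks for pairs of intervals of second moments.
-/

set_option maxRecDepth 100000
set_option linter.unusedVariables false

namespace Vale.Agent.helper4.Q4

theorem cB16_10_3_85 : chunkOkM (LB16_10.ctx true true 259 55 32 13 16 1443 565 64 35) muQ true true 64 RtB16_10.Cx.right RtB16_10.CX RtB16_10.Ctp.right.right.left RtB16_10.Ce.right.right.right.left RtB16_10.CTp.right RtB16_10.CEr 0x595959da0e27ed4cb9e16e96f05c16e821eaa797f63f7abca7f550d14f20176a0a4c5e6603d188b391de2d7f530d52a9a0f37ed29b7dbb7e81feec7b7f640d17aa7f540db5fac4e7ed101ef7d284c1b32c8477b3dd5526f642a95757f550d561743ad1288bf7d0517b8e86a69f9998f630d659359745934593 = true := by decide +kernel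

theorem cB16_10_3_86 : chunkOkM (LB16_10.ctx true true 227 27 16 13 16 195 145 32 16) muQ true true 64 RtB16_10.Cx.right RtB16_10.CX RtB16_10.Ctp.right.right.right RtB16_10.Ce.right.right.right.left RtB16_10.CTp.right RtB16_10.CEr.left 0x2962157d88b1c2be381b9e89dcafe57e130d = true := by decide +kernel

theorem cB16_10_3_87 : chunkOkM (LB16_10.ctx true true 98 1 1 1 1 1 1 1 1) muQ true true 64 RtB16_10.Cx.right RtB16_10.CX RtB16_10.Ctp.right.right.right.left RtB16_10.Ce.right.right.right.left.left RtB16_10.CTp.right.left.left RtB16_10.CEr.right 0x4a = true := by decide +kernel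

theorem cB16_10_3_88 : chunkOkM (LB16_10.ctx true true 271 111 64 13 16 1495 1135 128 32) muQ true true 64 RtB16_10.Cx.right RtB16_10.CX RtB16_10.Ctp.right.right.right.left.left RtB16_10.Ce.right.right.right.left.left.left RtB16_10.CTp.right.left.right RtB16_10.CEr.right.left 0xb6a4c5f06c52175917ed31d8c9f74c2acff7477bd72572e7f640d74a101777ed368c2fe74c29971f677bf868c1128e640d44e0461c7ed392ff4774c2af8d1377b258eb747f628f8905f8e550d350b8d477ed4c523f174c2d3201677b109d29468f640d6975515c0b7ed4826d0474c337ccab77bee15ab87f640d55234037ed584027474c325785577ba98932e7f640e7c26f250d746957158347ed59e665d74c1d4415977b857e0d27f614a475f48e550d469737 = true := by decide +kernel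

theorem cB16_10_3_89 : chunkOkM (LB16_10.ctx true true 274 111 64 13 16 1495 1155 128 64) muQ true true 64 RtB16_10.Cx.right RtB16_10.CX RtB16_10.Ctp.right.right.right.left.left RtB16_10.Ce.right.right.right.left.left.right RtB16_10.CTp.right.left.right RtB16_10.CEr.right.left 0x4893dc87ed334456574c29b285a77b8317b017f61b403ac28e550d6fe645c7ed93881b274c12f6a7038f630d73e6b10c7ed2868a9974c24f917377ba561a7f7f61c17880b8e550dadea0cc7edc4a3d4574c2ca51267bfb997c47f65d3f2b6e550d20f8d64a8ed1acf554084caf0e9e97f66e7ea8d7e540d674578af7d7ed41a767074c2669e0c77b2cd78ed7f6323fdd17f550d3697 = true := by decide +kernel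

theorem cB16_10_3_90 : chunkOkM (LB16_10.ctx true true 273 107 64 13 16 767 1135 128 128) muQ true true 64 RtB16_10.Cx.right.left RtB16_10.CX RtB16_10.Ctp.right.right.right.left.right RtB16_10.Ce.right.right.right.left.left.left RtB16_10.CTp.right.left.right RtB16_10.CEr.right.left 0x9d5a3817ed12188be784c3ac8d667b570a5fed8e61468c247f250d7a85cbb7ed665f5db74c138ab3c77b5339a6908e612b55b77f250d67e20a6c7edf0e2bce74c87c68aea8e630d4b4ddf237ede4c192174cd4e4c967b4c8731e7f61ebbe8d7f250d730164e77ed3d47a3be8e619e2fb238e230d6 = true := by decide +kernel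

theorem cB16_10_3_91 : chunkOkM (LB16_10.ctx true true 274 107 64 13 16 1547 1155 128 64) muQ true true 64 RtB16_10.Cx.right.left RtB16_10.CX RtB16_10.Ctp.right.right.right.left.right RtB16_10.Ce.right.right.right.left.left.right RtB16_10.CTp.right.left.right RtB16_10.CEr.right.left 0xace3f837edd70a86074cbf8fb967b6d51d9f7f61b9d7f37f250db2468057eddc7051774c13122a877b193bdff7f623097d6b8e250db8ea88e7ede05280274c1003a2e77b8fd09457f6d306276f250d347e76a1b7ed752f0e274c341b4167b730bbc47f6113a6827f250d6217 = true := by decide +kernel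

theorem cB16_10_3_92 : chunkOkM (LB16_10.ctx true true 275 111 64 13 16 1547 1155 128 64) muQ true true 64 RtB16_10.Cx.right.right RtB16_10.CX RtB16_10.Ctp.right.right.right.left.right RtB16_10.Ce.right.right.right.left.left RtB16_10.CTp.right.left.right RtB16_10.CEr.right.left 0x45c3a497ed3d8aa8274c227b0f377bd32d908a8e640d46c83aa7ed3beba7a74c34cb27377b469d87d7f61f2287c7f250dab95b747edd3b8a7574cc858bf67bb176dce7f640dc32fead7edd09570174c7f267607f630d637ac7eaaa7edd2f84cf74cb6eb1d67b8d3f5b528e640d8c162137ed7c827e274c7f7f07cf8e630d644d26a157ed44e90c074c2ee6b3e77b2064b25ba9e640d4 = true := by decide +kernel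

theorem cB16_10_3_93 : chunkOkM (LB16_10.ctx true true 246 27 16 13 16 377 285 128 35) muQ true true 64 RtB16_10.Cx.right RtB16_10.CX RtB16_10.Ctp.right.right.right.left RtB16_10.Ce.right.right.right.left.left RtB16_10.CTp.right.left.right RtB16_10.CEr.right.right 0x152b0f140ca4c5f56f75988b39340297f6aa04a66f540d = true := by decide +kernel

theorem cB16_10_3_94 : chunkOkM (LB16_10.ctx true true 98 1 1 1 1 1 1 1 1) muQ true true 64 RtB16_10.Cx.right RtB16_10.CX RtB16_10.Ctp.right.right.right.left RtB16_10.Ce.right.right.right.left.left RtB16_10.CTp.right.right RtB16_10.CEr.right.left.left 0x12 = true := by decide +kernel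

theorem cB16_10_3_95 : chunkOkM (LB16_10.ctx true true 98 1 1 1 1 1 1 1 1) muQ true true 64 RtB16_10.Cx.right RtB16_10.CX RtB16_10.Ctp.right.right.right.left RtB16_10.Ce.right.right.right.left.left RtB16_10.CTp.right.right.left RtB16_10.CEr.right.left.right.left 0x6a = true := by decide +kernel

theorem cB16_10_3_96 : chunkOkM (LB16_10.ctx true true 268 55 32 13 16 1495 575 128 128) muQ true true 64 RtB16_10.Cx.right RtB16_10.CX RtB16_10.Ctp.right.right.right.left.left RtB16_10.Ce.right.right.right.left.left RtB16_10.CTp.right.right.left RtB16_10.CEr.right.left.right.right 0x4c91ad37ed55d65864c38e749c7f61a8293878e540dc07db297ed11f29b074cde8e406f637a3aa768e540d3697c846e8f7ed4deba8938e61b2205c38e530d8337efd7ed2fb883e74c77a169a98e630d4edf5237ed1e6e01988e62eea19138e530d374 = true := by decide +kernel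

theorem cB16_10_3_97 : chunkOkM (LB16_10.ctx true true 264 55 32 13 16 767 575 128 128) muQ true true 64 RtB16_10.Cx.right RtB16_10.CX RtB16_10.Ctp.right.right.right.left.right RtB16_10.Ce.right.right.right.left.left RtB16_10.CTp.right.right.left RtB16_10.CEr.right.left.right.right 0x57b46de7ed6618d14d8e620dd0954bb7f06b46e8279f7ed1f126ac74c50899b398e6119cf1698e240d94672c77ed41f017174c3b336f568e6185e19748e240d47 = true := by decide +kernel

theorem cB16_10_3_98 : chunkOkM (LB16_10.ctx true true 98 1 1 1 1 1 1 1 1) muQ true true 64 RtB16_10.Cx.right RtB16_10.CX RtB16_10.Ctp.right.right.right.left RtB16_10.Ce.right.right.right.left.left RtB16_10.CTp.right.right.right RtB16_10.CEr.right.left.right 0x12 = true := by decide +kernel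

theorem cB16_10_3_99 : chunkOkM (LB16_10.ctx true true 284 211 128 13 16 3003 2245 64 75) muQ true true 64 RtB16_10.Cx.right.left RtB16_10.CX RtB16_10.Ctp.right.right.right.left.left RtB16_10.Ce.right.right.right.left.left.left RtB16_10.CTp.right.right RtB16_10.CEr.right.right 0x7e5a7cf7ed1a97e8574cebf3cd07f630d8b6896b7ed3c2928f74cf39e88a7f630d669774763e97ed38391c574ca832d917f630d6979a68e67ed4100c5374c1ebdf47e8f630d46932177469a680fa37ed3b606dc74c4de000f7f612dfe4a7f540d7983a747ed2843d3c74c753768c7f613ca6ef58e540d646973 = true := by decide +kernel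

theorem cB16_10_3_100 : chunkOkM (LB16_10.ctx true true 271 111 64 13 16 1495 1135 64 75) muQ true true 64 RtB16_10.Cx.right.right RtB16_10.CX RtB16_10.Ctp.right.right.right.left.left RtB16_10.Ce.right.right.right.left.left.left RtB16_10.CTp.right.right RtB16_10.CEr.right.right 0x8915f4d7ed37dbf0b74c559bed67f6fc96fe17e540d6f5b1f27ed29ce07774c629900068e6f71a9287e540d646baefb7ed2a9650c74c22121557f62a3ca727f540d5570cc87ed2bbf02d74c75dcbee7f61fbdbcf7f540d7566694f7ed2d415e774c39d9ee47f621172367f540d43 = true := by decide +kernel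

end Vale.Agent.helper4.Q4
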