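import Vale.Agent.helper4.Q4TreeM
import Vale.Agent.helper4.Q4G.PB16_10

/-!
Checks for pairs of intervals of second moments.
-/

set_option maxRecDepth 100000
set_option linter.unusedVariables false

namespace Vale.Agent.helper4.Q4

theorem cB16_10_3_101 : chunkOkM (LB16_10.ctx true true 275 111 64 13 16 3003 1155 64 75) muQ true true 64 RtB16_10.Cx.right RtB16_10.CX RtB16_10.Ctp.right.right.right.left.left RtB16_10.Ce.right.right.right.left.left.right RtB16_10.CTp.right.right RtB16_10.CEr.right.right 0x7e3bbfc7ed392bad274c47fdfb97f61b5fb247f540d844da0f7ed15dfb5c74c936d7437f6114e34778e540d64ec6e7b7ed2b819cc74c1b9b8f87f631447e17f540d364106147ed282dc2074c11baa4828f630d74fcf68b7ed2d39f8c74c54263b27f61c8d10808e540db92e8b97ed291449b74c151744278f630d8020a067ed1fc04b874cc3850917f6998369b7e540d674575fa677ed394b8a574c18a20f97f635879f87f540d3697 = true := by decide +kernel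

theorem cB16_10_3_102 : chunkOkM (LB16_10.ctx true true 271 107 64 13 16 767 1155 135 75) muQ true true 64 RtB16_10.Cx.right.left RtB16_10.CX RtB16_10.Ctp.right.right.right.left.right RtB16_10.Ce.right.right.right.left.left RtB16_10.CTp.right.right RtB16_10.CEr.right.right 0x652ba7a7ed38c991a7e977356a6e85b4c5767f610d59867f250d5a57e96e2a7ed337649f74c68c0e087f61ab91e27f240d4bffcef7ed5469d427f6120336f7f230d74d18907ed5da7cd774c7f77a6f7f61367bf67f240d5462174c078877ed2f823d6e92fe4fd6e8363d1c288e6161207a7f250d5a737f1667ed539968274c39f4bceb8e616768e1e8e240d654 = true := by decide +kernel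

theorem cB16_10_3_103 : chunkOkM (LB16_10.ctx true true 275 111 64 13 16 1547 1155 135 75) muQ true true 64 RtB16_10.Cx.right.right RtB16_10.CX RtB16_10.Ctp.right.right.right.left.right RtB16_10.Ce.right.right.right.left.left RtB16_10.CTp.right.right RtB16_10.CEr.right.right 0x5fdaed87ed5af9656e87bca510b8e630d5a554f8b147ed1b8ab2774cefd53f7c8e630d8f5acb57ed3bd790674c6554d877f61feb2667f240d841702d7ed2f3bfc874cbcf28e37f630d377906d747ed371222574c83fec1268e630d46ad615b6f06c4 = true := by decide +kernel

theorem cB16_10_3_104 : chunkOkM (LB16_10.ctx true true 98 1 1 1 1 1 1 1 1) muQ true true 64 RtB16_10.Cx.right.left RtB16_10.CX RtB16_10.Ctp.right.right.right.left RtB16_10.Ce.right.right.right.left.right RtB16_10.CTp.right RtB16_10.CEr.right 0x21 = true := by decide +kernel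

theorem cB16_10_3_105 : chunkOkM (LB16_10.ctx true true 279 111 64 13 16 3003 1165 128 75) muQ true true 64 RtB16_10.Cx.right.right RtB16_10.CX RtB16_10.Ctp.right.right.right.left.left RtB16_10.Ce.right.right.right.left.right RtB16_10.CTp.right RtB16_10.CEr.right 0x5959b9bc5dd7ed131eb9a74c4d722ca7f61c1208e7f540d69444757ed32e8fb574c63b41377f623674987f540d647093587ed2661fe374c1f03306e93fd35ea7f540d31221f0456ea4c51e94382097b7eb474f7f612c387d7f540d546440437ed833b476e84bf12067f626a12b37f540d48fc9777ed358c6bd74c26030a977b7c90f6c7f61de9e4a7f550d4a55645975934 = true := by decide +kernel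

theorem cB16_10_3_106 : chunkOkM (LB16_10.ctx true true 98 1 1 1 1 1 1 1 1) muQ true true 64 RtB16_10.Cx.right.right RtB16_10.CX RtB16_10.Ctp.right.right.right.left.right RtB16_10.Ce.right.right.right.left.right RtB16_10.CTp.right.left.left RtB16_10.CEr.right 0x4a = true := by decide +kernel

theorem cB16_10_3_107 : chunkOkM (LB16_10.ctx true true 281 219 128 13 16 3055 1175 128 32) muQ true true 64 RtB16_10.Cx.right.right RtB16_10.CX RtB16_10.Ctp.right.right.right.left.right.left RtB16_10.Ce.right.right.right.left.right.left RtB16_10.CTp.right.left.right RtB16_10.CEr.right.left 0x483923b7ed3d40af174c2938f1f77bf4163d07f640d409603e7ed21c816174c2d28e3777b149940898f640d369748d4a8f7ed3b9b63874c256ad9677be2ffe7b7f640d511222b58dd476fef674c3104dbe77b1096160f8f640d69769374 = true := by decide +kernel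

theorem cB16_10_3_108 : chunkOkM (LB16_10.ctx true true 283 219 128 13 16 1547 2345 128 64) muQ true true 64 RtB16_10.Cx.right.right RtB16_10.CX RtB16_10.Ctp.right.right.right.left.right.right RtB16_10.Ce.right.right.right.left.right.left RtB16_10.CTp.right.left.right RtB16_10.CEr.right.left 0x9dd11c47edc1e6cd974cef48ed67bafd4fde7f6617b1d6f250d419fb6c7ed3d261ef74c97707507f641a0956f240d64a7d03f7ed44f792174c3014d3b77bd3eba917f640d4214a8e40578dd44f321574c309051977ba57a8f47f614800ec7f250d4217acacf7a7edcc6d40e74cc91fb367b6c0cc827f616b5d467f250db099e57f8ddb848be774c82250767b824a5787f6190be057f250d647 = true := by decide +kernel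

theorem cB16_10_3_109 : chunkOkM (LB16_10.ctx true true 285 223 128 13 16 3107 1195 128 64) muQ true true 64 RtB16_10.Cx.right.right RtB16_10.CX RtB16_10.Ctp.right.right.right.left.right RtB16_10.Ce.right.right.right.left.right.right RtB16_10.CTp.right.left.right RtB16_10.CEr.right.left 0x478fdf27ed43c191174c2bfa9c877b1346f39b8f6f231456f250d21769399980527edba41b2474ccc7d8c67baa1d1527f63e0cee6f250d9ef39377edc1a262874c10f562477bde3f3327f6ec0a586f250d77b898637ed6cfe56174c13adcf977b96f69ff7f69d2b036f250d6441e90f77ed36b800674c2b0fce677b83d9256f8f640d3217 = true := by decide +kernel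

theorem cB16_10_3_110 : chunkOkM (LB16_10.ctx true true 256 55 32 13 16 767 295 128 35) muQ true true 64 RtB16_10.Cx.right.right RtB16_10.CX RtB16_10.Ctp.right.right.right.left.right RtB16_10.Ce.right.right.right.left.right RtB16_10.CTp.right.left.right RtB16_10.CEr.right.right 0xfb0565ce294c45e6956988b6ab4d457f630d = true := by decide +kernel

theorem cB16_10_3_111 : chunkOkM (LB16_10.ctx true true 278 111 64 13 16 1547 1175 128 128) muQ true true 64 RtB16_10.Cx.right.right RtB16_10.CX RtB16_10.Ctp.right.right.right.left.right RtB16_10.Ce.right.right.right.left.right RtB16_10.CTp.right.right RtB16_10.CEr.right.left 0x12658d37a7ed1d2b3d274c8e91fd77f6974f246f240d359d5157edd1091e64c71b47882c9e630d321798dc6897ed30e50e274c7905a9b7f630d8c2d86d7ed3d4d6bd74c90609a058e614fc42b18e240d731bec917edb6de6764cac39e02c8e630d36473727edc5f50164caa4bb9b7f630d4346a65126 = true := by decide +kernel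

theorem cB16_10_3_112 : chunkOkM (LB16_10.ctx true true 281 219 128 13 16 3055 1175 64 75) muQ true true 64 RtB16_10.Cx.right.right RtB16_10.CX RtB16_10.Ctp.right.right.right.left.right.left RtB16_10.Ce.right.right.right.left.right.left RtB16_10.CTp.right.right RtB16_10.CEr.right.right 0x82421b47ed268d69f74ca194ddc7f630d7eb40117ed266c73774ccf188157f630d6697704f4957ed3edd96074cb76fa197f630d7be45e07ed1ede05574cadb00907f630d6b4452517ed49a746d74c94cf3d87f630da8f89cc7ed409cbcd74cc5582197f630d669769374 = true := by decide +kernel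

end Vale.Agent.helper4.Q4
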