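import Vale.Agent.helper4.Q4TreeM
import Vale.Agent.helper4.Q4G.PB16_10_0
import Vale.Agent.helper4.Q4G.PB16_10_1
import Vale.Agent.helper4.Q4G.PB16_10_2
import Vale.Agent.helper4.Q4G.PB16_10_3
import Vale.Agent.helper4.Q4G.PB16_10_4
import Vale.Agent.helper4.Q4G.PB16_10_5
import Vale.Agent.helper4.Q4G.PB16_10_6
import Vale.Agent.helper4.Q4G.PB16_10_7

/-!
Checks for pairs of intervals of second moments.
-/

set_option maxRecDepth 100000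
set_option linter.unusedVariables false

namespace Vale.Agent.helper4.Q4

theorem covB16_10 : LB16_10.Full muQ.val RtB16_10 := ⟨(LitT.Cov.split_t (LitT.cov_of_chunkM cB16_10_3_0) (LitT.Cov.split_T (LitT.cov_of_chunkM cB16_10_3_1) (LitT.Cov.split_e (LitT.cov_of_chunkM cB16_10_3_2) (LitT.Cov.split_t (LitT.Cov.split_e (LitT.Cov.split_e (LitT.cov_of_chunkM cB16_10_3_3) (LitT.Cov.split_t (LitT.cov_of_chunkM cB16_10_3_4) (LitT.Cov.split_e (LitT.Cov.split_E (LitT.cov_of_chunkM cB16_10_3_5) (LitT.Cov.split_t (LitT.Cov.split_x (LitT.Cov.split_e (LitT.cov_of_chunkM cB16_10_3_6) (LitT.cov_of_chunkM cB16_10_3_7)) (LitT.cov_of_chunkM cB16_10_3_8)) (LitT.cov_of_chunkM cB16_10_3_9))) (LitT.Cov.split_t (LitT.cov_of_chunkM cB16_10_3_10) (LitT.Cov.split_E (LitT.cov_of_chunkM cB16_10_3_11) (LitT.Cov.split_e (LitT.Cov.split_t (LitT.cov_of_chunkM cB16_10_3_12) (LitT.cov_of_chunkM cB16_10_3_13))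 (LitT.Cov.split_t (LitT.cov_of_chunkM cB16_10_3_14) (LitT.Cov.split_x (LitT.cov_of_chunkM cB16_10_3_15) (LitT.cov_of_chunkM cB16_10_3_16))))))))) (LitT.cov_of_chunkM cB16_10_3_17)) (LitT.Cov.split_e (LitT.Cov.split_t (LitT.Cov.split_e (LitT.cov_of_chunkM cB16_10_3_18) (LitT.Cov.split_t (LitT.Cov.split_e (LitT.cov_of_chunkM cB16_10_3_19) (LitT.Cov.split_E (LitT.cov_of_chunkM cB16_10_3_20) (LitT.Cov.split_T (LitT.cov_of_chunkM cB16_10_3_21) (LitT.cov_of_chunkM cB16_10_3_22)))) (LitT.cov_of_chunkM cB16_10_3_23))) (LitT.cov_of_chunkM cB16_10_3_24)) (LitT.Cov.split_e (LitT.Cov.split_t (LitT.Cov.split_E (LitT.cov_of_chunkM cB16_10_3_25) (LitT.Cov.split_e (LitT.Cov.split_t (LitT.Cov.split_e (LitT.Cov.split_x (LitT.cov_of_chunkM cB16_10_3_26) (LitT.cov_of_chunkM cB16_10_3_27)) (LitT.Cov.split_t (LitT.cov_of_chunkM cB16_10_3_28) (LitT.Cov.split_x (LitT.cov_of_chunkM cB16_10_3_29)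 (LitT.cov_of_chunkM cB16_10_3_30)))) (LitT.Cov.split_T (LitT.Cov.split_T (LitT.cov_of_chunkM cB16_10_3_31) (LitT.Cov.split_E (LitT.Cov.split_e (LitT.cov_of_chunkM cB16_10_3_32) (LitT.Cov.split_x (LitT.Cov.split_t (LitT.cov_of_chunkM cB16_10_3_33) (LitT.cov_of_chunkM cB16_10_3_34)) (LitT.cov_of_chunkM cB16_10_3_35))) (LitT.cov_of_chunkM cB16_10_3_36))) (LitT.Cov.split_E (LitT.cov_of_chunkM cB16_10_3_37) (LitT.Cov.split_e (LitT.cov_of_chunkM cB16_10_3_38) (LitT.Cov.split_x (LitT.Cov.split_t (LitT.Cov.split_e (LitT.cov_of_chunkM cB16_10_3_39) (LitT.cov_of_chunkM cB16_10_3_40)) (LitT.cov_of_chunkM cB16_10_3_41)) (LitT.cov_of_chunkM cB16_10_3_42)))))) (LitT.Cov.split_t (LitT.cov_of_chunkM cB16_10_3_43) (LitT.Cov.split_e (LitT.Cov.split_x (LitT.Cov.split_E (LitT.Cov.split_T (LitT.Cov.split_T (LitT.cov_of_chunkM cB16_10_3_44) (LitT.Cov.split_t (LitT.cov_of_chunkM cB16_10_3_45)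 (LitT.Cov.split_e (LitT.cov_of_chunkM cB16_10_3_46) (LitT.cov_of_chunkM cB16_10_3_47)))) (LitT.cov_of_chunkM cB16_10_3_48)) (LitT.Cov.split_T (LitT.cov_of_chunkM cB16_10_3_49) (LitT.Cov.split_t (LitT.cov_of_chunkM cB16_10_3_50) (LitT.Cov.split_e (LitT.cov_of_chunkM cB16_10_3_51) (LitT.cov_of_chunkM cB16_10_3_52))))) (LitT.Cov.split_E (LitT.cov_of_chunkM cB16_10_3_53) (LitT.cov_of_chunkM cB16_10_3_54))) (LitT.Cov.split_x (LitT.cov_of_chunkM cB16_10_3_55) (LitT.Cov.split_t (LitT.cov_of_chunkM cB16_10_3_56) (LitT.Cov.split_E (LitT.cov_of_chunkM cB16_10_3_57) (LitT.Cov.split_T (LitT.cov_of_chunkM cB16_10_3_58) (LitT.Cov.split_e (LitT.cov_of_chunkM cB16_10_3_59) (LitT.cov_of_chunkM cB16_10_3_60)))))))))) (LitT.Cov.split_E (LitT.cov_of_chunkM cB16_10_3_61) (LitT.Cov.split_t (LitT.Cov.split_e (LitT.cov_of_chunkM cB16_10_3_62) (LitT.Cov.split_T (LitT.Cov.split_T (LitT.cov_of_chunkM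 cB16_10_3_63) (LitT.Cov.split_E (LitT.Cov.split_t (LitT.Cov.split_x (LitT.Cov.split_e (LitT.Cov.split_x (LitT.cov_of_chunkM cB16_10_3_64) (LitT.cov_of_chunkM cB16_10_3_65)) (LitT.cov_of_chunkM cB16_10_3_66)) (LitT.Cov.split_e (LitT.cov_of_chunkM cB16_10_3_67) (LitT.Cov.split_e (LitT.cov_of_chunkM cB16_10_3_68) (LitT.Cov.split_x (LitT.cov_of_chunkM cB16_10_3_69) (LitT.cov_of_chunkM cB16_10_3_70))))) (LitT.cov_of_chunkM cB16_10_3_71)) (LitT.cov_of_chunkM cB16_10_3_72))) (LitT.Cov.split_E (LitT.cov_of_chunkM cB16_10_3_73) (LitT.Cov.split_x (LitT.Cov.split_t (LitT.Cov.split_e (LitT.cov_of_chunkM cB16_10_3_74) (LitT.cov_of_chunkM cB16_10_3_75)) (LitT.cov_of_chunkM cB16_10_3_76)) (LitT.Cov.split_e (LitT.cov_of_chunkM cB16_10_3_77) (LitT.Cov.split_t (LitT.Cov.split_e (LitT.cov_of_chunkM cB16_10_3_78) (LitT.Cov.split_x (LitT.Cov.split_t (LitT.cov_of_chunkM cB16_10_3_79) (LitT.cov_of_chunkM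 cB16_10_3_80)) (LitT.cov_of_chunkM cB16_10_3_81))) (LitT.cov_of_chunkM cB16_10_3_82))))))) (LitT.cov_of_chunkM cB16_10_3_83)))) (LitT.Cov.split_e (LitT.Cov.split_x (LitT.cov_of_chunkM cB16_10_3_84) (LitT.Cov.split_t (LitT.cov_of_chunkM cB16_10_3_85) (LitT.Cov.split_E (LitT.cov_of_chunkM cB16_10_3_86) (LitT.Cov.split_t (LitT.Cov.split_e (LitT.Cov.split_T (LitT.Cov.split_T (LitT.cov_of_chunkM cB16_10_3_87) (LitT.Cov.split_E (LitT.Cov.split_t (LitT.Cov.split_e (LitT.cov_of_chunkM cB16_10_3_88) (LitT.cov_of_chunkM cB16_10_3_89)) (LitT.Cov.split_x (LitT.Cov.split_e (LitT.cov_of_chunkM cB16_10_3_90) (LitT.cov_of_chunkM cB16_10_3_91)) (LitT.cov_of_chunkM cB16_10_3_92))) (LitT.cov_of_chunkM cB16_10_3_93))) (LitT.Cov.split_E (LitT.Cov.split_E (LitT.cov_of_chunkM cB16_10_3_94) (LitT.Cov.split_T (LitT.Cov.split_E (LitT.cov_of_chunkM cB16_10_3_95) (LitT.Cov.split_t (LitT.cov_of_chunkM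 cB16_10_3_96) (LitT.cov_of_chunkM cB16_10_3_97))) (LitT.cov_of_chunkM cB16_10_3_98))) (LitT.Cov.split_t (LitT.Cov.split_e (LitT.Cov.split_x (LitT.cov_of_chunkM cB16_10_3_99) (LitT.cov_of_chunkM cB16_10_3_100)) (LitT.cov_of_chunkM cB16_10_3_101)) (LitT.Cov.split_x (LitT.cov_of_chunkM cB16_10_3_102) (LitT.cov_of_chunkM cB16_10_3_103))))) (LitT.Cov.split_x (LitT.cov_of_chunkM cB16_10_3_104) (LitT.Cov.split_t (LitT.cov_of_chunkM cB16_10_3_105) (LitT.Cov.split_T (LitT.Cov.split_T (LitT.cov_of_chunkM cB16_10_3_106) (LitT.Cov.split_E (LitT.Cov.split_e (LitT.Cov.split_t (LitT.cov_of_chunkM cB16_10_3_107) (LitT.cov_of_chunkM cB16_10_3_108)) (LitT.cov_of_chunkM cB16_10_3_109)) (LitT.cov_of_chunkM cB16_10_3_110))) (LitT.Cov.split_E (LitT.cov_of_chunkM cB16_10_3_111) (LitT.Cov.split_e (LitT.Cov.split_t (LitT.cov_of_chunkM cB16_10_3_112) (LitT.cov_of_chunkM cB16_10_3_113)) (LitT.cov_of_chunkM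 cB16_10_3_114))))))) (LitT.cov_of_chunkM cB16_10_3_115))))) (LitT.cov_of_chunkM cB16_10_3_116)))))))), (LitT.cov_of_chunkM cB16_10_1_0), (LitT.cov_of_chunkM cB16_10_2_0), (LitT.cov_of_chunkM cB16_10_0_0)⟩

end Vale.Agent.helper4.Q4
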