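import Vale.Agent.helper4.Q4TreeM
import Vale.Agent.helper4.Q4G.PB16_11

/-!
Checks for pairs of intervals of second moments.
-/

set_option maxRecDepth 100000
set_option linter.unusedVariables false

namespace Vale.Agent.helper4.Q4

theorem cB16_11_3_0 : chunkOkM (LB16_11.ctx true true 90 1 1 1 1 1 1 1 1) muQ true true 64 RtB16_11.Cx RtB16_11.CX RtB16_11.Ctp.left RtB16_11.Ce RtB16_11.CTp RtB16_11.CEr 0x41 = true := by decide +kernel

theorem cB16_11_3_1 : chunkOkM (LB16_11.ctx true true 90 1 1 1 1 1 1 1 1) muQ true true 64 RtB16_11.Cx RtB16_11.CX RtB16_11.Ctp.right RtB16_11.Ce RtB16_11.CTp.left RtB16_11.CEr 0x42 = true := by decide +kernel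

theorem cB16_11_3_2 : chunkOkM (LB16_11.ctx true true 90 1 1 1 1 1 1 1 1) muQ true true 64 RtB16_11.Cx RtB16_11.CX RtB16_11.Ctp.right RtB16_11.Ce RtB16_11.CTp.right RtB16_11.CEr.left 0x6a = true := by decide +kernel

theorem cB16_11_3_3 : chunkOkM (LB16_11.ctx true true 192 13 8 15 16 39 8 16 33) muQ true true 64 RtB16_11.Cx RtB16_11.CX RtB16_11.Ctp.right RtB16_11.Ce.left RtB16_11.CTp.right RtB16_11.CEr.right 0xb5908f6dd9965354c1603b57b626310808e4a4aa5f828d150d = true := by decide +kernel

theorem cB16_11_3_4 : chunkOkM (LB16_11.ctx true true 255 193 128 15 16 1027 195 35 77) muQ true true 64 RtB16_11.Cx RtB16_11.CX RtB16_11.Ctp.right.left RtB16_11.Ce.right.left.left RtB16_11.CTp.right RtB16_11.CEr.right 0x116980efcca7cd3ca8ae6d93d1dfaa7c82662b86b8c681242317d511373cb7d460de51b0607cd1798cbe73ca703ce66b1b8f1e068c6752d8e17d515d91cf7d460d51e4039b48cd2233acc76b13a22df38c81c0c44838c6718c0c37d51f263557d460d669411433414141496a87dc17cd4ca33187c83e96c637d6bc828997d54f2a55e450db2c9b6a7cd9f376163c151517e76b270048e7d6990f6aa7d5127b586e460d577776946944934934933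 = true := by decide +kernel

theorem cB16_11_3_5 : chunkOkM (LB16_11.ctx true true 207 13 8 15 16 128 55 16 33) muQ true true 64 RtB16_11.Cx RtB16_11.CX RtB16_11.Ctp.right.left.left RtB16_11.Ce.right.left.right RtB16_11.CTp.right RtB16_11.CEr.right 0x9987a36d87e7cf5ea8d51485929a8e430d = true := by decide +kernel

theorem cB16_11_3_6 : chunkOkM (LB16_11.ctx true true 256 25 16 57 64 559 215 256 77) muQ true true 64 RtB16_11.Cx RtB16_11.CX RtB16_11.Ctp.right.left.right.left RtB16_11.Ce.right.left.right.left RtB16_11.CTp.right RtB16_11.CEr.right 0x497368d717cdbf5c0d772c5f658ea7c832e43487d6b2d61707d550d942a97c7cd63ab6163c1f56ff576b39ead4f7d6b76a8597d550d568c45ca7cd27431663ca6404866b8b7e03008d5bd82044c8d450d37a1b8fd7cd15ee1017c83075f6148c679ada257d540db7cc78b7cd46d8ce672c175d6447c82fe0f7e7c764243c77d52bfada87d460d36a64a4a666330d7cd2872c266b115ae3b7c837928c608c6852f51a7d550d5c4f8377cd38aa0366b18a23c97c815bc886d66d1ceed7d5207f0327d460d34a5884a5425547 = true := by decide +kernel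

theorem cB16_11_3_7 : chunkOkM (LB16_11.ctx true true 225 13 8 15 16 299 215 35 77) muQ true true 64 RtB16_11.Cx RtB16_11.CX RtB16_11.Ctp.right.left.right.right RtB16_11.Ce.right.left.right.left RtB16_11.CTp.right RtB16_11.CEr.right 0x830fe9b7cd8ac80d63c27a5f787c8137ff86d72894ffce8c6524a0267d560d6a69c8b1377cdc41ab663c1ceab2b76b1e3d0c158c64bae8f37d550d5694 = true := by decide +kernel

theorem cB16_11_3_8 : chunkOkM (LB16_11.ctx true true 215 13 8 15 16 273 115 16 33) muQ true true 64 RtB16_11.Cx RtB16_11.CX RtB16_11.Ctp.right.left.right.left RtB16_11.Ce.right.left.right.right RtB16_11.CTp.right RtB16_11.CEr.right 0xc61576f7cd1700a1b73c643f1f048d62aebea7b29d5368158b549d450d = true := by decide +kernel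

theorem cB16_11_3_9 : chunkOkM (LB16_11.ctx true true 251 13 8 57 64 611 225 256 77) muQ true true 64 RtB16_11.Cx RtB16_11.CX RtB16_11.Ctp.right.left.right.right RtB16_11.Ce.right.left.right.right.left RtB16_11.CTp.right RtB16_11.CEr.right 0x9543e127cd1f87af973cabd7aa87c817e5fb5d8c63e9c6bb7d550da18699e7cda5a4b56c81076656d7246c2e17c65efe8e07d51336dae7d460d36a64a4a61a1fb87cd16c5d263c2d272566b1b3003668c64bc7b8b7d550d69b69777cd2c85676c85ecbc9c7d5eba1c46d440d3884a54a54255 = true := by decide +kernel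

theorem cB16_11_3_10 : chunkOkM (LB16_11.ctx true true 317 1663 1024 15 16 38259 14725 64 77) muQ true true 64 RtB16_11.Cx RtB16_11.CX RtB16_11.Ctp.right.left.right.right RtB16_11.Ce.right.left.right.right.right RtB16_11.CTp.right RtB16_11.CEr.right 0x885790c7cde6dc516c8108164d7c73dba62b7c658159d87d51a9f496d460d6a67fb2bc67cd657d1e63cdd572f66bec846e6c658cfae67d550d425541495949595fa35ec7cd883429f72c54cc9047c81a1eeb77d67f0f2937d550d82ce7e97cd438e3be72c1772feac85b2cbbca468d631fb09de8d550d55934747749359595959595960954f06c85b2e4b7cd8a8861f72c1227ee6585b80f7086e540d559345975934597593459759359745975934597593473 = true := by decide +kernel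

theorem cB16_11_3_11 : chunkOkM (LB16_11.ctx true true 245 53 32 15 16 1235 485 35 33) muQ true true 64 RtB16_11.Cx RtB16_11.CX RtB16_11.Ctp.right.left RtB16_11.Ce.right.right RtB16_11.CTp.right RtB16_11.CEr.right 0x5959594959584780d7cd5d7e7cd72c43698e97c8266ba2c7d69172f9d7d550d9be85007cdcff92063cbd9cf1b75b305354e7d692bdbe07d550d559345937597445934593 = true := by decide +kernel

theorem cB16_11_3_12 : chunkOkM (LB16_11.ctx true true 258 27 16 57 64 663 235 256 77) muQ true true 64 RtB16_11.Cx RtB16_11.CX RtB16_11.Ctp.right.right RtB16_11.Ce.right.left RtB16_11.CTp.right RtB16_11.CEr.right 0x11694df24f06c8e7458b7cde8d5dba72c3228c807c810de966c7d1565b77c61735fb258c560d8e4f0587cd938d30572c1db66d27c81c6e91378c637ecda17d550d376e8f4f06c46a64a4a5d9f5277cd9a9b9863c24cc52668c62ff8c9118c540d7f5d20e7cd64401a63c2ae6c7168c631c7fdd48c540d64b3c4f06c4884a54a5425511431143 = true := by decide +kernel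

theorem cB16_11_3_13 : chunkOkM (LB16_11.ctx true true 254 27 16 57 64 663 245 256 33) muQ true true 64 RtB16_11.Cx RtB16_11.CX RtB16_11.Ctp.right.right.left.left RtB16_11.Ce.right.right.left.left.left RtB16_11.CTp.right.left RtB16_11.CEr.right 0x4a4a4ac11a07cd33ce8366bc20d8c6c82b01a57a8c65df57047d550d5c6da947cd5be0af672c250e8666b19c1c2968c627e9bc67d550d67052607cd50248463c3ce54d37d667e8b6a7d540d37884a54a5425 = true := by decide +kernel

theorem cB16_11_3_14 : chunkOkM (LB16_11.ctx true true 243 27 16 15 16 663 495 35 165) muQ true true 64 RtB16_11.Cx RtB16_11.CX RtB16_11.Ctp.right.right.left.left RtB16_11.Ce.right.right.left.left.left RtB16_11.CTp.right.right RtB16_11.CEr.right 0x66384f06c1172c3378cdc0c8d0d72c20df51a7c78fbc4f6d62b98a6c7d550d1afc11478cd9658096c87f978d6d62ee14ee7d540d6113826d18cdb2681e272c20570f47c721e82c988c6220790e98c550d1367ec3e8cd136da2d7c821da87a68c61bb448c48c540d64768ba9b67cd230418f72c200cf207c7391f44478c67ccb7e27d550d819a54a7cd42ccdcd72c5f6b336c71163c6e7d651df6f17d550d736a6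 = true := by decide +kernel

theorem cB16_11_3_15 : chunkOkM (LB16_11.ctx true true 248 27 16 15 16 663 255 256 77) muQ true true 64 RtB16_11.Cx RtB16_11.CX RtB16_11.Ctp.right.right.left.left RtB16_11.Ce.right.right.left.left.right RtB16_11.CTp.right RtB16_11.CEr.right 0x706cd867cdc9123e62c6383036c72c3872b88c65af10997d550d837d88b7cd1960542f82c75115d37c8130bbaa7d644bc5f37d550d76a66a3dfb17cd6edc7eb72c4878a366b5806ce6d646eadba7d550d4a54a542555e935857cd12f3217282c86764d37c83501ae07d69d609277d5ea343d6d460d89aa23c7cdaa411063c108542b76b30787d97d698dce237d510643907d460d55973 = true := by decide +kernel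

theorem cB16_11_3_16 : chunkOkM (LB16_11.ctx true true 267 27 16 57 64 715 255 256 539) muQ true true 64 RtB16_11.Cx RtB16_11.CX RtB16_11.Ctp.right.right.left.right RtB16_11.Ce.right.right.left.left RtB16_11.CTp.right.left RtB16_11.CEr.right 0x4a4a525a5a90774f05b18373c97ddf49ee363c304621978c630d4502096dd9b84e063c3db270dc8c61abd2c7f8c540d3729d895f06b46664ed94f05b220065f06b1135a1c7dd975e4163c168158aa8c61cbd32008c540d37135915f06b46a61261266884a54a5425 = true := by decide +kernel

theorem cB16_11_3_17 : chunkOkM (LB16_11.ctx true true 90 1 1 1 1 1 1 1 1) muQ true true 64 RtB16_11.Cx RtB16_11.CX RtB16_11.Ctp.right.right.left.right RtB16_11.Ce.right.right.left.left RtB16_11.CTp.right.right RtB16_11.CEr.right.left 0x6a = true := by decide +kernel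

theorem cB16_11_3_18 : chunkOkM (LB16_11.ctx true true 234 13 8 15 16 689 245 35 165) muQ true true 64 RtB16_11.Cx RtB16_11.CX RtB16_11.Ctp.right.right.left.right RtB16_11.Ce.right.right.left.left.left RtB16_11.CTp.right.right RtB16_11.CEr.right.right 0x69fdf239e7cda0fac463c14009847c71b907b788c6c2b83b27c550d104330098cd80869862c20d037128c683be1647c540d63 = true := by decide +kernel

end Vale.Agent.helper4.Q4
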