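import Vale.Agent.helper4.Q4TreeM
import Vale.Agent.helper4.Q4G.PB16_11

/-!
Checks for pairs of intervals of second moments.
-/

set_option maxRecDepth 100000
set_option linter.unusedVariables false

namespace Vale.Agent.helper4.Q4

theorem cB16_11_3_19 : chunkOkM (LB16_11.ctx true true 257 51 32 15 16 715 515 145 165) muQ true true 64 RtB16_11.Cx.left RtB16_11.CX RtB16_11.Ctp.right.right.left.right RtB16_11.Ce.right.right.left.left.right RtB16_11.CTp.right.right RtB16_11.CEr.right.right 0x0262aecd87cd4ffac56c8343441aa8c630d64caf347cd2bb77b87c917a1cff7c7286ca4628c61c325af28c550d35144b19428cd104d273b82c2d7387128c630dbd9d4e97cd87baa8f72c33e79f578c630d68a69f737cd92e9a9b72c1b7ad907d62522ce47d540d8a300607cd9dbb71672c5dcc65f7d6111e4707d540d7148b25228cde9ee98f72c2cc7d6758c61139cc388c540daac07917cd611591a72c234cfc7d8c6147880af8c540d6435 = true := by decide +kernel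

theorem cB16_11_3_20 : chunkOkM (LB16_11.ctx true true 233 27 16 15 16 351 255 35 77) muQ true true 64 RtB16_11.Cx.right RtB16_11.CX RtB16_11.Ctp.right.right.left.right RtB16_11.Ce.right.right.left.left.right RtB16_11.CTp.right.right RtB16_11.CEr.right.right 0x67f22477cdffdbee772c448f0477c844b760668c6350c9c028c550d = true := by decide +kernel

theorem cB16_11_3_21 : chunkOkM (LB16_11.ctx true true 233 27 16 15 16 663 265 35 33) muQ true true 64 RtB16_11.Cx RtB16_11.CX RtB16_11.Ctp.right.right.left.left RtB16_11.Ce.right.right.left.right RtB16_11.CTp.right RtB16_11.CEr.right 0x59582633a7cd134c565c82c7de1b3a7c82c414957d67abcad17d550d8f7b2657cd100f64273ca0611b66b2bba0487d67f826a17d550d55974593 = true := by decide +kernel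

theorem cB16_11_3_22 : chunkOkM (LB16_11.ctx true true 90 1 1 1 1 1 1 1 1) muQ true true 64 RtB16_11.Cx RtB16_11.CX RtB16_11.Ctp.right.right.left.right RtB16_11.Ce.right.right.left.right RtB16_11.CTp.right.left.left RtB16_11.CEr.right 0x42 = true := by decide +kernel

theorem cB16_11_3_23 : chunkOkM (LB16_11.ctx true true 90 1 1 1 1 1 1 1 1) muQ true true 64 RtB16_11.Cx RtB16_11.CX RtB16_11.Ctp.right.right.left.right RtB16_11.Ce.right.right.left.right RtB16_11.CTp.right.left.right.left RtB16_11.CEr.right 0x4a = true := by decide +kernel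

theorem cB16_11_3_24 : chunkOkM (LB16_11.ctx true true 90 1 1 1 1 1 1 1 1) muQ true true 64 RtB16_11.Cx RtB16_11.CX RtB16_11.Ctp.right.right.left.right RtB16_11.Ce.right.right.left.right RtB16_11.CTp.right.left.right.right.left RtB16_11.CEr.right 0x4a = true := by decide +kernel

theorem cB16_11_3_25 : chunkOkM (LB16_11.ctx true true 270 27 16 57 64 715 535 256 539) muQ true true 64 RtB16_11.Cx RtB16_11.CX.left.left RtB16_11.Ctp.right.right.left.right RtB16_11.Ce.right.right.left.right.left RtB16_11.CTp.right.left.right.right.right RtB16_11.CEr.right 0x4e149897cd5847bd272c2b2c215b8c61dff01d18c540d4c145927cd26fac9c72c2a874666b2dcd7e9e8c643854cb7d550d3525a5a141dd507ddd7065963c4ce8876c8c657841b27c540d95b4296ddb0d58363c3f79e5768c6277a5e47c540d4400475f05b3666132f5877ddc6487e63c4e49f9488c64c22e747c540d4a3ed5f06b43ee175f05b36a612612667 = true := by decide +kernel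

theorem cB16_11_3_26 : chunkOkM (LB16_11.ctx true true 267 51 32 57 64 715 545 256 77) muQ true true 64 RtB16_11.Cx RtB16_11.CX.left.left RtB16_11.Ctp.right.right.left.right RtB16_11.Ce.right.right.left.right.right RtB16_11.CTp.right.left.right.right.right RtB16_11.CEr.right 0xa409c397cdad0016772c33426e07d6312d5157d540d7dac77f7cd394344a72c33c36d57d6303a3547d540d63a18c757cddce9653c165d2166b268f1c27d6637dfd37d550d359521954c7cd6b4f04272c6f2c856b929b3d87d6117e0b6d550d21745937 = true := by decide +kernel

theorem cB16_11_3_27 : chunkOkM (LB16_11.ctx true true 90 1 1 1 1 1 1 1 1) muQ true true 64 RtB16_11.Cx RtB16_11.CX.left.right RtB16_11.Ctp.right.right.left.right RtB16_11.Ce.right.right.left.right RtB16_11.CTp.right.left.right.right.right RtB16_11.CEr.right 0x4a = true := by decide +kernel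

theorem cB16_11_3_28 : chunkOkM (LB16_11.ctx true true 90 1 1 1 1 1 1 1 1) muQ true true 64 RtB16_11.Cx RtB16_11.CX.right RtB16_11.Ctp.right.right.left.right RtB16_11.Ce.right.right.left.right RtB16_11.CTp.right.left.right.right.right RtB16_11.CEr.right 0x4a = true := by decide +kernel

theorem cB16_11_3_29 : chunkOkM (LB16_11.ctx true true 90 1 1 1 1 1 1 1 1) muQ true true 64 RtB16_11.Cx RtB16_11.CX RtB16_11.Ctp.right.right.left.right RtB16_11.Ce.right.right.left.right RtB16_11.CTp.right.right RtB16_11.CEr.right.left 0x6a = true := by decide +kernel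

theorem cB16_11_3_30 : chunkOkM (LB16_11.ctx true true 253 51 32 15 16 1391 525 35 165) muQ true true 64 RtB16_11.Cx.left RtB16_11.CX RtB16_11.Ctp.right.right.left.right.left RtB16_11.Ce.right.right.left.right.left RtB16_11.CTp.right.right RtB16_11.CEr.right.right 0x5912061a7e8cda4db24872c1c4d15d7c71639b1e7d62692eea7d550d85e8eb57cd51a89e62c1ea6eac7d62e701be7d540d67264aac7cd80fcb4872c261ccc77c7151988a7d6353397f7d550d35974 = true := by decide +kernel

theorem cB16_11_3_31 : chunkOkM (LB16_11.ctx true true 293 51 32 115 128 715 535 1125 1221) muQ true true 64 RtB16_11.Cx.left RtB16_11.CX RtB16_11.Ctp.right.right.left.right.right RtB16_11.Ce.right.right.left.right.left RtB16_11.CTp.right.right RtB16_11.CEr.right.right.left 0x0212126a0202684f35f06b45fd45f06b4126550288812651265a7947847cd64cffaf72c7c9efd178c69988d4c7c540d697105c46528cd3e9e4f172c6180961d8c635c18fd7c540d80e841b7cd648322a72c53ec2cbe8c630d745 = true := by decide +kernel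

theorem cB16_11_3_32 : chunkOkM (LB16_11.ctx true true 254 51 32 15 16 715 535 75 165) muQ true true 64 RtB16_11.Cx.left RtB16_11.CX RtB16_11.Ctp.right.right.left.right.right RtB16_11.Ce.right.right.left.right.left RtB16_11.CTp.right.right RtB16_11.CEr.right.right.right 0x96aca487cd14f7d017c97e11156c764bfe54d8c677d0ba07c550d5afbd777cdd8dcdb972c7fd0df27d64fbe7a6d540d5697798388e7cd4f1f2b77c9c7ade36c74cf1be0a8c640d11f1f5278cdb594b3f72c44a35817d62a4bdd6d540d54 = true := by decide +kernel

theorem cB16_11_3_33 : chunkOkM (LB16_11.ctx true true 243 27 16 15 16 715 535 35 165) muQ true true 64 RtB16_11.Cx.right RtB16_11.CX RtB16_11.Ctp.right.right.left.right RtB16_11.Ce.right.right.left.right.left RtB16_11.CTp.right.right RtB16_11.CEr.right.right 0xc3f9aae7cd6763ea672cc2c3726c736ee790e8c61dbd03ad8c550de99fe377cd1a6db0372c36b16d338c62007670e8c540d67d482267cd765230672c229d3a77c8c819a56d6438481f7d550d7829ada7cd61ded9372c16547b97c82670aa3d8c6388a9a57d550d43 = true := by decide +kernel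

theorem cB16_11_3_34 : chunkOkM (LB16_11.ctx true true 268 207 128 15 16 1443 1085 35 165) muQ true true 64 RtB16_11.Cx.left RtB16_11.CX RtB16_11.Ctp.right.right.left.right RtB16_11.Ce.right.right.left.right.right RtB16_11.CTp.right.right RtB16_11.CEr.right.right 0x596988d94497cd69e0aea72c168cbd77c9d20ad557d640d820afe47cd1ca9426c8a00e4727d630d669746975932174593 = true := by decide +kernel

theorem cB16_11_3_35 : chunkOkM (LB16_11.ctx true true 237 27 16 15 16 689 275 35 77) muQ true true 64 RtB16_11.Cx.right RtB16_11.CX RtB16_11.Ctp.right.right.left.right.left RtB16_11.Ce.right.right.left.right.right RtB16_11.CTp.right.right RtB16_11.CEr.right.right 0x740ac657cd427f216d94d2915d722bccc57d65e114847d550d = true := by decide +kernel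

theorem cB16_11_3_36 : chunkOkM (LB16_11.ctx true true 254 55 32 15 16 1443 545 35 165) muQ true true 64 RtB16_11.Cx.right RtB16_11.CX RtB16_11.Ctp.right.right.left.right.right RtB16_11.Ce.right.right.left.right.right.left RtB16_11.CTp.right.right RtB16_11.CEr.right.right 0x732a92e7cda937f362c536a71ea8c6340564228c540dc2346a37cd5bed0e672c76af8e6c738d869a7d61846ebb7d550db1467097cd1fd9d6972c35d38ab7d61af61b37d540d67a5d1f17cd13c3d44982c55493217c8aea4376d6349c3777d550d37 = true := by decide +kernel

theorem cB16_11_3_37 : chunkOkM (LB16_11.ctx true true 257 55 32 15 16 1443 1115 35 165) muQ true true 64 RtB16_11.Cx.right RtB16_11.CX RtB16_11.Ctp.right.right.left.right.right RtB16_11.Ce.right.right.left.right.right.right RtB16_11.CTp.right.right RtB16_11.CEr.right.right 0x716d3227cd238ab5172c282e6f17d62d8b1b57d540d7c14d207cdf30fadd72c53d8f017c812543127d64179fc67d550d3776dc2c7cde6e24d972c3cb0acb7c815ab66a7d6387b6647d550dbc6029d7cd3e0b95e72c346976f7d61d6b0967d540dc6ecaa57cd14fb9dd72c3eaf7597d61ac8f5e7d540d645937 = true := by decide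 +kernel

theorem cB16_11_3_38 : chunkOkM (LB16_11.ctx true true 280 195 128 15 16 2925 1035 256 77) muQ true true 64 RtB16_11.Cx RtB16_11.CX RtB16_11.Ctp.right.right.right.left RtB16_11.Ce.right.right.left.left RtB16_11.CTp.right RtB16_11.CEr.right 0x11111111110154031a97cd27ef13a7c920a3f1e7c862e8ad97d683c9846d25950d06d060d99227367cdba998ce72c142922c7d6fff6f66d243433b6d050d56a67794d4f7cde46313472c267f9cd75b20bd9d17d6123393e7d2277fee6d060d4a54a54255114301777711431143 = true := by decide +kernel

theorem cB16_11_3_39 : chunkOkM (LB16_11.ctx true true 90 1 1 1 1 1 1 1 1) muQ true true 64 RtB16_11.Cx RtB16_11.CX RtB16_11.Ctp.right.right.right.left RtB16_11.Ce.right.right.left.right RtB16_11.CTp.right.left.left RtB16_11.CEr.right 0x42 = true := by decide +kernel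

theorem cB16_11_3_40 : chunkOkM (LB16_11.ctx true true 90 1 1 1 1 1 1 1 1) muQ true true 64 RtB16_11.Cx RtB16_11.CX RtB16_11.Ctp.right.right.right.left RtB16_11.Ce.right.right.left.right RtB16_11.CTp.right.left.right.left RtB16_11.CEr.right 0x4a = true := by decide +kernel

theorem cB16_11_3_41 : chunkOkM (LB16_11.ctx true true 90 1 1 1 1 1 1 1 1) muQ true true 64 RtB16_11.Cx RtB16_11.CX RtB16_11.Ctp.right.right.right.left RtB16_11.Ce.right.right.left.right RtB16_11.CTp.right.left.right.right.left RtB16_11.CEr.right 0x4a = true := by decide +kernel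

theorem cB16_11_3_42 : chunkOkM (LB16_11.ctx true true 276 51 32 57 64 767 555 256 517) muQ true true 64 RtB16_11.Cx RtB16_11.CX.left.left RtB16_11.Ctp.right.right.right.left RtB16_11.Ce.right.right.left.right RtB16_11.CTp.right.left.right.right.right RtB16_11.CEr.right.left 0x1c6d05f06b017e378b46dd8f509363c4a83c4e98c6b5ac60a7c540d19a795f06b48ede7a6dd90f67763c411500478c6b882f547c240d21776951db9663c9583456b2127cf3a8c618b607038c240d7436a6126126 = true := by decide +kernel

end Vale.Agent.helper4.Q4
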