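import Vale.Agent.helper4.Q4TreeM
import Vale.Agent.helper4.Q4G.PB16_11

/-!
Checks for pairs of intervals of second moments.
-/

set_option maxRecDepth 100000
set_option linter.unusedVariables false

namespace Vale.Agent.helper4.Q4

theorem cB16_11_3_43 : chunkOkM (LB16_11.ctx true true 276 51 32 57 64 767 555 256 539) muQ true true 64 RtB16_11.Cx RtB16_11.CX.left.left RtB16_11.Ctp.right.right.right.left RtB16_11.Ce.right.right.left.right RtB16_11.CTp.right.left.right.right.right RtB16_11.CEr.right.right 0x525a5af6da026ddb0e17063c1315fcde8c637ab056e8c25b8b52d7c150d017ed293c6dda1bfc663c4c8225c28c6b9bb9c57c540d35cc55f06b46945020596dda7db8b63c4361c65d8c6d09f866d240d21774ed8363c24b97f1d8c618e6a5498c230d473666 = true := by decide +kernel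

theorem cB16_11_3_44 : chunkOkM (LB16_11.ctx true true 90 1 1 1 1 1 1 1 1) muQ true true 64 RtB16_11.Cx RtB16_11.CX.left.right RtB16_11.Ctp.right.right.right.left RtB16_11.Ce.right.right.left.right RtB16_11.CTp.right.left.right.right.right RtB16_11.CEr.right 0x4a = true := by decide +kernel

theorem cB16_11_3_45 : chunkOkM (LB16_11.ctx true true 90 1 1 1 1 1 1 1 1) muQ true true 64 RtB16_11.Cx RtB16_11.CX.right RtB16_11.Ctp.right.right.right.left RtB16_11.Ce.right.right.left.right RtB16_11.CTp.right.left.right.right.right RtB16_11.CEr.right 0x4a = true := by decide +kernel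

theorem cB16_11_3_46 : chunkOkM (LB16_11.ctx true true 90 1 1 1 1 1 1 1 1) muQ true true 64 RtB16_11.Cx RtB16_11.CX RtB16_11.Ctp.right.right.right.left RtB16_11.Ce.right.right.left.right RtB16_11.CTp.right.right RtB16_11.CEr.right.left 0x6a = true := by decide +kernel

theorem cB16_11_3_47 : chunkOkM (LB16_11.ctx true true 255 51 32 15 16 741 265 145 165) muQ true true 64 RtB16_11.Cx.left RtB16_11.CX RtB16_11.Ctp.right.right.right.left.left RtB16_11.Ce.right.right.left.right.left RtB16_11.CTp.right.right RtB16_11.CEr.right.right 0x028928a3c7cd26806807c9b1de7a6c7226e09978c610cee9578c28a67096c060d79e84e17cde9bb066c8e1ee4e6c711e2b4598c6141a9d848c2203bdb47c060d651060a61f8cdcc88b7772c20ce590d8c616eca247d2527da5d050d9aa8dfa7cd5cd05b072c2a7a2cf58c6111f195d8c240d88e0dae7cd73029a372c2029da9c8c61b6759da8c2272672d7c050d765 = true := by decide +kernel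

theorem cB16_11_3_48 : chunkOkM (LB16_11.ctx true true 264 51 32 15 16 741 1095 145 319) muQ true true 64 RtB16_11.Cx.left RtB16_11.CX RtB16_11.Ctp.right.right.right.left.left RtB16_11.Ce.right.right.left.right.right RtB16_11.CTp.right.right RtB16_11.CEr.right.right 0x025375c227cd417efd62c1077cb47c95f533aa18c610e4fbb7d250d5a8e7407cd1716296c8415a38478c6cdc8b76d240d455ae46935e7cdbe3b3a372c40f9eb978c68a3fae6d240de6eeefb7cdd7f6e8e72c35281187d67354ba6d240d4687fb72c7cd443ea1972c626a0f168c61d50c9a7d240dbaff79d7cd7fdee4372c66171ffb8c6ceb59c6d240dd8cd47c7cd7ab3e2072c4e65bfe58c6db02006d240d4465217 = true := by decide +kernel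

theorem cB16_11_3_49 : chunkOkM (LB16_11.ctx true true 262 55 32 15 16 1495 555 145 165) muQ true true 64 RtB16_11.Cx.right RtB16_11.CX RtB16_11.Ctp.right.right.right.left.left RtB16_11.Ce.right.right.left.right RtB16_11.CTp.right.right RtB16_11.CEr.right.right 0x02414c25b7cd821b376c8a16fe26c75f46e0528c622fc30f58c550d52d79907cdc34a9e6c9e3e3396c78cfea817d640d7498cf377cd56c3bf6c83de6016c76308de148c640d455a64db77cd6b6638272c4c2ba6838c61eb56a158c540d1338b7208cd7cebe7072c6b410aa7d630d8472c2d7cd511595072c4d62a8228c630d8f6852b7cd4f6584d72c4162a607d6eb9cffd7c540d367519cbb7cd7685ed772c651411d88c630d475694 = true := by decide +kernel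

theorem cB16_11_3_50 : chunkOkM (LB16_11.ctx true true 261 105 64 15 16 1521 555 75 77) muQ true true 64 RtB16_11.Cx RtB16_11.CX RtB16_11.Ctp.right.right.right.left.right RtB16_11.Ce.right.right.left.right RtB16_11.CTp.right.right RtB16_11.CEr.right.right 0x111111555fbd47cd6b5b356c820c2c837d6f293376d281a105d050d7547f177cd860768872c1f708ae7d616adc0d7d240d5771143114017 = true := by decide +kernel

theorem cB16_11_3_51 : chunkOkM (LB16_11.ctx true true 213 13 8 15 16 403 65 16 33) muQ true true 64 RtB16_11.Cx RtB16_11.CX RtB16_11.Ctp.right.right.right.right RtB16_11.Ce.right.right.left RtB16_11.CTp.right RtB16_11.CEr.right 0x41c42af7cd2394c5876bed8815058c123afc4c28d040d = true := by decide +kernel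

theorem cB16_11_3_52 : chunkOkM (LB16_11.ctx true true 90 1 1 1 1 1 1 1 1) muQ true true 64 RtB16_11.Cx.left RtB16_11.CX RtB16_11.Ctp.right.right RtB16_11.Ce.right.right.right.left RtB16_11.CTp.right RtB16_11.CEr.right 0x21 = true := by decide +kernel

theorem cB16_11_3_53 : chunkOkM (LB16_11.ctx true true 254 55 32 15 16 1443 565 64 77) muQ true true 64 RtB16_11.Cx.right RtB16_11.CX RtB16_11.Ctp.right.right.left RtB16_11.Ce.right.right.right.left RtB16_11.CTp.right RtB16_11.CEr.right 0x5959679705f7cd3d233ba72c28f3b257d641a3f757d540d6a6704023d7cdcc8c46772c3ebaa0b75baae0db6d6425092b7d550d425559359744593593 = true := by decide +kernel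

theorem cB16_11_3_54 : chunkOkM (LB16_11.ctx true true 90 1 1 1 1 1 1 1 1) muQ true true 64 RtB16_11.Cx.right RtB16_11.CX RtB16_11.Ctp.right.right.right.left RtB16_11.Ce.right.right.right.left RtB16_11.CTp.right.left.left RtB16_11.CEr.right 0x42 = true := by decide +kernel

theorem cB16_11_3_55 : chunkOkM (LB16_11.ctx true true 90 1 1 1 1 1 1 1 1) muQ true true 64 RtB16_11.Cx.right RtB16_11.CX RtB16_11.Ctp.right.right.right.left RtB16_11.Ce.right.right.right.left RtB16_11.CTp.right.left.right.left RtB16_11.CEr.right 0x4a = true := by decide +kernel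

theorem cB16_11_3_56 : chunkOkM (LB16_11.ctx true true 90 1 1 1 1 1 1 1 1) muQ true true 64 RtB16_11.Cx.right RtB16_11.CX RtB16_11.Ctp.right.right.right.left RtB16_11.Ce.right.right.right.left RtB16_11.CTp.right.left.right.right.left RtB16_11.CEr.right 0x4a = true := by decide +kernel

theorem cB16_11_3_57 : chunkOkM (LB16_11.ctx true true 277 55 32 57 64 767 575 256 517) muQ true true 64 RtB16_11.Cx.right RtB16_11.CX.left.left RtB16_11.Ctp.right.right.right.left RtB16_11.Ce.right.right.right.left.left RtB16_11.CTp.right.left.right.right.right RtB16_11.CEr.right.left 0x420d55f06b9033c36dd773cba63c227910788c654885207c51ab3fe478c250d7dfd56f6dd7bc58163c5b2cc56b333d50a7d6263ccaef8c550d6979de4886dd4ddcc063c2efdc1018c61bdb48688c540d76e985f06b7436a6126126 = true := by decide +kernel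

theorem cB16_11_3_58 : chunkOkM (LB16_11.ctx true true 277 55 32 57 64 767 575 256 539) muQ true true 64 RtB16_11.Cx.right RtB16_11.CX.left.left RtB16_11.Ctp.right.right.right.left RtB16_11.Ce.right.right.right.left.left RtB16_11.CTp.right.left.right.right.right RtB16_11.CEr.right.right 0x525a5a3c1cfc6dd4a497f63c3ca78cda8c6441b84c7c540d86b5046dd713fc463c23dd14698c644369fe7c51ae1cdb68c250d7f578836dd8712af63c40a52d17d6251b960a8c540d697bc16d76dd9a7f3f63c59eac3588c6197ba3298c540d2394886dd4938dc63c8525ba318c622f3af67c540d743666 = true := by decide +kernel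

theorem cB16_11_3_59 : chunkOkM (LB16_11.ctx true true 281 55 32 57 64 1547 595 256 539) muQ true true 64 RtB16_11.Cx.right RtB16_11.CX.left.left RtB16_11.Ctp.right.right.right.left RtB16_11.Ce.right.right.right.left.right RtB16_11.CTp.right.left.right.right.right RtB16_11.CEr.right 0x525a5a9ee35a6dd6f96dd63c83701d928c69c08616d240dade3186dd8209e9c72c5bb1e3398c610cdc7688c240d9b88c56dd6bd93163c1ae846b6f2ba9bc8c627f5d3a7c550d3439dec463c397fa0cd8c62b2f1767d530d3666692f846dd63acdc63c8411a06c8c6a3e69f6d240d3c22e5bc8cd127882f382c29ee08375b5b3f7e558c617b4eee28c250d813df5f06b34d79c2e6dd5a8b4363c1ed84c878c630d33927d540d36a61261266217 = true := by decide +kernel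

theorem cB16_11_3_60 : chunkOkM (LB16_11.ctx true true 90 1 1 1 1 1 1 1 1) muQ true true 64 RtB16_11.Cx.right RtB16_11.CX.left.right RtB16_11.Ctp.right.right.right.left RtB16_11.Ce.right.right.right.left RtB16_11.CTp.right.left.right.right.right RtB16_11.CEr.right 0x4a = true := by decide +kernel

theorem cB16_11_3_61 : chunkOkM (LB16_11.ctx true true 90 1 1 1 1 1 1 1 1) muQ true true 64 RtB16_11.Cx.right RtB16_11.CX.right RtB16_11.Ctp.right.right.right.left RtB16_11.Ce.right.right.right.left RtB16_11.CTp.right.left.right.right.right RtB16_11.CEr.right 0x4a = true := by decide +kernel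

theorem cB16_11_3_62 : chunkOkM (LB16_11.ctx true true 90 1 1 1 1 1 1 1 1) muQ true true 64 RtB16_11.Cx.right RtB16_11.CX RtB16_11.Ctp.right.right.right.left RtB16_11.Ce.right.right.right.left RtB16_11.CTp.right.right RtB16_11.CEr.right.left 0x6a = true := by decide +kernel

theorem cB16_11_3_63 : chunkOkM (LB16_11.ctx true true 258 53 32 15 16 1495 565 75 165) muQ true true 64 RtB16_11.Cx.right.left RtB16_11.CX RtB16_11.Ctp.right.right.right.left.left RtB16_11.Ce.right.right.right.left.left.left RtB16_11.CTp.right.right RtB16_11.CEr.right.right 0x72ed8027cd1e649b07c9b4d8c36c7837904118c62b2fea6d550d10195d728cd87d77dd72c8e326177d630d553a88c77cdb93b6d6c9eaba836c77dc59f608c62f2baf6d550d93151157cd5616e7372c709543798c625b3346d240d79e8c807cd3748cc272c4a8030908c6155b4b5e8c540d356 = true := by decide +kernel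

theorem cB16_11_3_64 : chunkOkM (LB16_11.ctx true true 258 55 32 15 16 1495 565 75 165) muQ true true 64 RtB16_11.Cx.right.right RtB16_11.CX RtB16_11.Ctp.right.right.right.left.left RtB16_11.Ce.right.right.right.left.left.left RtB16_11.CTp.right.right RtB16_11.CEr.right.right 0xac86a247cd44e8d3072c245e3a6c75d611567d6cc92d277c550db4234137cd50f376e72c82b0696c724db00f7d625454887d550d32bc4b817cd4c3c6a47c93d16bd47c86da1eee88c618d2bd8f8c550d7988aae7cd36e35ff72c4c4cb55b8c6197473258c540d56 = true := by decide +kernel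

theorem cB16_11_3_65 : chunkOkM (LB16_11.ctx true true 90 1 1 1 1 1 1 1 1) muQ true true 64 RtB16_11.Cx.right.left RtB16_11.CX RtB16_11.Ctp.right.right.right.left.left RtB16_11.Ce.right.right.right.left.left.right RtB16_11.CTp.right.right RtB16_11.CEr.right.right 0x69 = true := by decide +kernel

end Vale.Agent.helper4.Q4
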