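import Vale.Agent.helper4.Q4TreeM
import Vale.Agent.helper4.Q4G.PB16_11

/-!
Checks for pairs of intervals of second moments.
-/

set_option maxRecDepth 100000
set_option linter.unusedVariables false

namespace Vale.Agent.helper4.Q4

theorem cB16_11_3_66 : chunkOkM (LB16_11.ctx true true 260 111 64 15 16 1469 1155 35 77) muQ true true 64 RtB16_11.Cx.right.right RtB16_11.CX RtB16_11.Ctp.right.right.right.left.left.left RtB16_11.Ce.right.right.right.left.left.right RtB16_11.CTp.right.right RtB16_11.CEr.right.right 0x5607ad17cd36635e672c2bd96b6c93bef1fe7d63e833257d550d666c9027cda31824a72c278c2367c81b1d0267d6308a6107d550d6c96b267cdaa4745572c294f3587c82f373407d634b29ca7d550d74 = true := by decide +kernel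

theorem cB16_11_3_67 : chunkOkM (LB16_11.ctx true true 268 111 64 15 16 1495 1155 75 165) muQ true true 64 RtB16_11.Cx.right.right RtB16_11.CX RtB16_11.Ctp.right.right.right.left.left.right RtB16_11.Ce.right.right.right.left.left.right RtB16_11.CTp.right.right RtB16_11.CEr.right.right 0x82139677cd4c6d81272c5111346c78891c647d612cc3477d550d8f85fbf7cd275a7da72c1712882a8d630d74368c6b7cd30a2da6c8e9d5e46c75759b297d6cb3a2267c550d965a0f17cd67259dc72c374c71b7d612b8eda7d540d5438eb2597cd51aca537c9284eff77c83d3c9327d61ac3fcf7d550d845bcc17cd4414b8772c3c208d17d6188322238c540d56 = true := by decide +kernel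

theorem cB16_11_3_68 : chunkOkM (LB16_11.ctx true true 257 55 32 15 16 767 575 65 319) muQ true true 64 RtB16_11.Cx.right RtB16_11.CX RtB16_11.Ctp.right.right.right.left.right RtB16_11.Ce.right.right.right.left.left RtB16_11.CTp.right.right.left RtB16_11.CEr.right.right 0xc93a7587cd81561da72c3d07e3738c643cd9707c540d8bae5227cd5224c6172c6cc0d9948c630dfa894f06b465a98a55667cd8f4769772c632f6c7f8c6161e1da7d240df71cd257cdd31691272c22a74e098c610daf387d240d4681e3d837cd44a9a5c72c4f0a32a28c61768d9d7d240d895b7227cd4aaa25872c2e467dfc8c61783ff3b8c240d467 = true := by decide +kernel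

theorem cB16_11_3_69 : chunkOkM (LB16_11.ctx true true 255 55 32 15 16 767 285 145 165) muQ true true 64 RtB16_11.Cx.right RtB16_11.CX RtB16_11.Ctp.right.right.right.left.right RtB16_11.Ce.right.right.right.left.left RtB16_11.CTp.right.right.right RtB16_11.CEr.right.right 0x0249b3f677cddbcc652c2f1b3ef7c93c8d6d468c61503b1c7c550d49c62257cd2e27c16c81af81f47c739279b738c665aae437c550d672a93167cd111c2137c9647ce56c7250415bc8c638201fe7c517d9f827d260d623dc1f7cd36cbc7f7c919e28c27c82256962b8c651cf5fc7c51944519b8c260d675 = true := by decide +kernel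

theorem cB16_11_3_70 : chunkOkM (LB16_11.ctx true true 90 1 1 1 1 1 1 1 1) muQ true true 64 RtB16_11.Cx.right.left RtB16_11.CX RtB16_11.Ctp.right.right.right.left RtB16_11.Ce.right.right.right.left.right RtB16_11.CTp.right.right RtB16_11.CEr.right.right 0x21 = true := by decide +kernel

theorem cB16_11_3_71 : chunkOkM (LB16_11.ctx true true 263 111 64 15 16 1495 1165 35 165) muQ true true 64 RtB16_11.Cx.right.right RtB16_11.CX RtB16_11.Ctp.right.right.right.left.left RtB16_11.Ce.right.right.right.left.right RtB16_11.CTp.right.right RtB16_11.CEr.right.right 0x595988e56cf7cd49f593a72c22b2df6c758ccfba7d61ee4acc7d550d5560e827cd1051d3f72c8a5c5b17d619ed2f57d540d645975934 = true := by decide +kernel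

theorem cB16_11_3_72 : chunkOkM (LB16_11.ctx true true 270 111 64 15 16 1547 1175 65 319) muQ true true 64 RtB16_11.Cx.right.right RtB16_11.CX RtB16_11.Ctp.right.right.right.left.right RtB16_11.Ce.right.right.right.left.right.left RtB16_11.CTp.right.right.left RtB16_11.CEr.right.right 0x5a59d71807cd8ecaae072c7a4e59a7d630ded6c9877cd8a2008b72c69b4c837d67d9c266d240d766033fcb7cd430c1a372c66b987438c681f7dcd7c240d86d030d7cd4c8843372c827142f7d6154effd7d240d77ec2e327cd42fa3c672c95bfd277d630d7eee33f7cd437be0b72c97d8f847d630d436 = true := by decide +kernel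

theorem cB16_11_3_73 : chunkOkM (LB16_11.ctx true true 298 55 32 115 128 1547 585 1125 1221) muQ true true 64 RtB16_11.Cx.right.right RtB16_11.CX RtB16_11.Ctp.right.right.right.left.right RtB16_11.Ce.right.right.right.left.right.left RtB16_11.CTp.right.right.right RtB16_11.CEr.right.right 0x025403fb07cd58e6a96c943be996c76b8f54c7d61231fb37d250d63340b37cd21db9f97c94ee9e36c78d741507d640d312126a02024b8b85f06b7a7305f06b35126502888126512665 = true := by decide +kernel

theorem cB16_11_3_74 : chunkOkM (LB16_11.ctx true true 268 111 64 15 16 1547 1195 75 165) muQ true true 64 RtB16_11.Cx.right.right RtB16_11.CX RtB16_11.Ctp.right.right.right.left.right RtB16_11.Ce.right.right.right.left.right.right RtB16_11.CTp.right.right RtB16_11.CEr.right.right 0x527e1bf7cd399cc457c9c956c46c87140d7f7d66e59476d250dc70ca197cd758a58672c91dd7e57d6b62cbe6d240d7d307627cd42e1bc372c9ea3ace7d630d87b484a7cd4b38c1572ca48a6a47d686259e6d240d46562b69767cdb4195e172c2ac0ca77c861b411798d640d3217 = true := by decide +kernel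

theorem cB16_11_3_75 : chunkOkM (LB16_11.ctx true true 279 223 128 15 16 6253 595 128 77) muQ true true 64 RtB16_11.Cx.right RtB16_11.CX RtB16_11.Ctp.right.right.right.right RtB16_11.Ce.right.right.right.left RtB16_11.CTp.right RtB16_11.CEr.right 0x010101013aeb1307cdf9dfdb6c84bf65ca7d625de9cf7d240d5b1a87c7cd648554272c272a09d7d62dc05907d240d56a6541c1217cd8b0e14472c5400ae775b172fe1a7d6321d4f37d250d4a542551141143017301730173 = true := by decide +kernel

theorem cB16_11_3_76 : chunkOkM (LB16_11.ctx true true 90 1 1 1 1 1 1 1 1) muQ true true 64 RtB16_11.Cx RtB16_11.CX RtB16_11.Ctp.right.right RtB16_11.Ce.right.right.right.right RtB16_11.CTp.right RtB16_11.CEr.right 0x21 = true := by decide +kernel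

theorem cB16_11_2_0 : chunkOkM (LB16_11.ctx false true 90 1 1 1 1 1 1 1 1) muQ false true 64 RtB16_11.Cx RtB16_11.CX RtB16_11.Ctn RtB16_11.Ce RtB16_11.CTp RtB16_11.CEr 0x49 = true := by decide +kernel

theorem cB16_11_1_0 : chunkOkM (LB16_11.ctx true false 90 1 1 1 1 1 1 1 1) muQ true false 64 RtB16_11.Cx RtB16_11.CX RtB16_11.Ctp RtB16_11.Ce RtB16_11.CTn RtB16_11.CEr 0x4a = true := by decide +kernel

theorem cB16_11_0_0 : chunkOkM (LB16_11.ctx false false 90 1 1 1 1 1 1 1 1) muQ false false 64 RtB16_11.Cx RtB16_11.CX RtB16_11.Ctn RtB16_11.Ce RtB16_11.CTn RtB16_11.CEr 0x49 = true := by decide +kernel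

end Vale.Agent.helper4.Q4
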