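import Vale.Agent.helper4.Q4TreeM
import Vale.Agent.helper4.Q4G.PB16_11_0
import Vale.Agent.helper4.Q4G.PB16_11_1
import Vale.Agent.helper4.Q4G.PB16_11_2
import Vale.Agent.helper4.Q4G.PB16_11_3

/-!
Checks for pairs of intervals of second moments.
-/

set_option maxRecDepth 100000
set_option linter.unusedVariables false

namespace Vale.Agent.helper4.Q4

theorem covB16_11 : LB16_11.Full muQ.val RtB16_11 := ⟨(LitT.Cov.split_t (LitT.cov_of_chunkM cB16_11_3_0) (LitT.Cov.split_T (LitT.cov_of_chunkM cB16_11_3_1) (LitT.Cov.split_E (LitT.cov_of_chunkM cB16_11_3_2) (LitT.Cov.split_e (LitT.cov_of_chunkM cB16_11_3_3) (LitT.Cov.split_t (LitT.Cov.split_e (LitT.Cov.split_e (LitT.cov_of_chunkM cB16_11_3_4) (LitT.Cov.split_t (LitT.cov_of_chunkM cB16_11_3_5) (LitT.Cov.split_e (LitT.Cov.split_t (LitT.cov_of_chunkM cB16_11_3_6) (LitT.cov_of_chunkM cB16_11_3_7)) (LitT.Cov.split_t (LitT.cov_of_chunkM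 cB16_11_3_8) (LitT.Cov.split_e (LitT.cov_of_chunkM cB16_11_3_9) (LitT.cov_of_chunkM cB16_11_3_10)))))) (LitT.cov_of_chunkM cB16_11_3_11)) (LitT.Cov.split_e (LitT.cov_of_chunkM cB16_11_3_12) (LitT.Cov.split_e (LitT.Cov.split_t (LitT.Cov.split_e (LitT.Cov.split_t (LitT.Cov.split_e (LitT.Cov.split_T (LitT.cov_of_chunkM cB16_11_3_13) (LitT.cov_of_chunkM cB16_11_3_14)) (LitT.cov_of_chunkM cB16_11_3_15)) (LitT.Cov.split_T (LitT.cov_of_chunkM cB16_11_3_16) (LitT.Cov.split_E (LitT.cov_of_chunkM cB16_11_3_17) (LitT.Cov.split_e (LitT.cov_of_chunkM cB16_11_3_18) (LitT.Cov.split_x (LitT.cov_of_chunkM cB16_11_3_19) (LitT.cov_of_chunkM cB16_11_3_20)))))) (LitT.Cov.split_t (LitT.cov_of_chunkM cB16_11_3_21) (LitT.Cov.split_T (LitT.Cov.split_T (LitT.cov_of_chunkM cB16_11_3_22) (LitT.Cov.split_T (LitT.cov_of_chunkM cB16_11_3_23) (LitT.Cov.split_T (LitT.cov_of_chunkM cB16_11_3_24) (LitT.Cov.split_X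 (LitT.Cov.split_X (LitT.Cov.split_e (LitT.cov_of_chunkM cB16_11_3_25) (LitT.cov_of_chunkM cB16_11_3_26)) (LitT.cov_of_chunkM cB16_11_3_27)) (LitT.cov_of_chunkM cB16_11_3_28))))) (LitT.Cov.split_E (LitT.cov_of_chunkM cB16_11_3_29) (LitT.Cov.split_e (LitT.Cov.split_x (LitT.Cov.split_t (LitT.cov_of_chunkM cB16_11_3_30) (LitT.Cov.split_E (LitT.cov_of_chunkM cB16_11_3_31) (LitT.cov_of_chunkM cB16_11_3_32))) (LitT.cov_of_chunkM cB16_11_3_33)) (LitT.Cov.split_x (LitT.cov_of_chunkM cB16_11_3_34) (LitT.Cov.split_t (LitT.cov_of_chunkM cB16_11_3_35) (LitT.Cov.split_e (LitT.cov_of_chunkM cB16_11_3_36) (LitT.cov_of_chunkM cB16_11_3_37))))))))) (LitT.Cov.split_t (LitT.Cov.split_e (LitT.cov_of_chunkM cB16_11_3_38) (LitT.Cov.split_T (LitT.Cov.split_T (LitT.cov_of_chunkM cB16_11_3_39) (LitT.Cov.split_T (LitT.cov_of_chunkM cB16_11_3_40) (LitT.Cov.split_T (LitT.cov_of_chunkM cB16_11_3_41)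 (LitT.Cov.split_X (LitT.Cov.split_X (LitT.Cov.split_E (LitT.cov_of_chunkM cB16_11_3_42) (LitT.cov_of_chunkM cB16_11_3_43)) (LitT.cov_of_chunkM cB16_11_3_44)) (LitT.cov_of_chunkM cB16_11_3_45))))) (LitT.Cov.split_E (LitT.cov_of_chunkM cB16_11_3_46) (LitT.Cov.split_t (LitT.Cov.split_x (LitT.Cov.split_e (LitT.cov_of_chunkM cB16_11_3_47) (LitT.cov_of_chunkM cB16_11_3_48)) (LitT.cov_of_chunkM cB16_11_3_49)) (LitT.cov_of_chunkM cB16_11_3_50))))) (LitT.cov_of_chunkM cB16_11_3_51))) (LitT.Cov.split_e (LitT.Cov.split_x (LitT.cov_of_chunkM cB16_11_3_52) (LitT.Cov.split_t (LitT.cov_of_chunkM cB16_11_3_53) (LitT.Cov.split_t (LitT.Cov.split_T (LitT.Cov.split_T (LitT.cov_of_chunkM cB16_11_3_54) (LitT.Cov.split_T (LitT.cov_of_chunkM cB16_11_3_55) (LitT.Cov.split_T (LitT.cov_of_chunkM cB16_11_3_56) (LitT.Cov.split_X (LitT.Cov.split_X (LitT.Cov.split_e (LitT.Cov.split_E (LitT.cov_of_chunkM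 cB16_11_3_57) (LitT.cov_of_chunkM cB16_11_3_58)) (LitT.cov_of_chunkM cB16_11_3_59)) (LitT.cov_of_chunkM cB16_11_3_60)) (LitT.cov_of_chunkM cB16_11_3_61))))) (LitT.Cov.split_E (LitT.cov_of_chunkM cB16_11_3_62) (LitT.Cov.split_e (LitT.Cov.split_t (LitT.Cov.split_e (LitT.Cov.split_x (LitT.cov_of_chunkM cB16_11_3_63) (LitT.cov_of_chunkM cB16_11_3_64)) (LitT.Cov.split_x (LitT.cov_of_chunkM cB16_11_3_65) (LitT.Cov.split_t (LitT.cov_of_chunkM cB16_11_3_66) (LitT.cov_of_chunkM cB16_11_3_67)))) (LitT.Cov.split_T (LitT.cov_of_chunkM cB16_11_3_68) (LitT.cov_of_chunkM cB16_11_3_69))) (LitT.Cov.split_x (LitT.cov_of_chunkM cB16_11_3_70) (LitT.Cov.split_t (LitT.cov_of_chunkM cB16_11_3_71) (LitT.Cov.split_e (LitT.Cov.split_T (LitT.cov_of_chunkM cB16_11_3_72) (LitT.cov_of_chunkM cB16_11_3_73)) (LitT.cov_of_chunkM cB16_11_3_74))))))) (LitT.cov_of_chunkM cB16_11_3_75)))) (LitT.cov_of_chunkM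 cB16_11_3_76))))))))), (LitT.cov_of_chunkM cB16_11_1_0), (LitT.cov_of_chunkM cB16_11_2_0), (LitT.cov_of_chunkM cB16_11_0_0)⟩

end Vale.Agent.helper4.Q4
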