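import Vale.Agent.helper4.Q4TreeM
import Vale.Agent.helper4.Q4G.PB16_12

/-!
Checks for pairs of intervals of second moments.
-/

set_option maxRecDepth 100000
set_option linter.unusedVariables false

namespace Vale.Agent.helper4.Q4

theorem cB16_12_3_0 : chunkOkM (LB16_12.ctx true true 103 1 1 1 1 1 1 1 1) muQ true true 64 RtB16_12.Cx RtB16_12.CX RtB16_12.Ctp.left RtB16_12.Ce RtB16_12.CTp RtB16_12.CEr 0x41 = true := by decide +kernel

theorem cB16_12_3_1 : chunkOkM (LB16_12.ctx true true 103 1 1 1 1 1 1 1 1) muQ true true 64 RtB16_12.Cx RtB16_12.CX RtB16_12.Ctp.right RtB16_12.Ce RtB16_12.CTp.left RtB16_12.CEr 0x42 = true := by decide +kernel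

theorem cB16_12_3_2 : chunkOkM (LB16_12.ctx true true 103 1 1 1 1 1 1 1 1) muQ true true 64 RtB16_12.Cx RtB16_12.CX RtB16_12.Ctp.right RtB16_12.Ce RtB16_12.CTp.right.left RtB16_12.CEr 0x42 = true := by decide +kernel

theorem cB16_12_3_3 : chunkOkM (LB16_12.ctx true true 103 1 1 1 1 1 1 1 1) muQ true true 64 RtB16_12.Cx RtB16_12.CX RtB16_12.Ctp.right RtB16_12.Ce RtB16_12.CTp.right.right RtB16_12.CEr.left 0x12 = true := by decide +kernel

theorem cB16_12_3_4 : chunkOkM (LB16_12.ctx true true 210 13 8 17 16 39 8 35 39) muQ true true 64 RtB16_12.Cx RtB16_12.CX RtB16_12.Ctp.right RtB16_12.Ce.left RtB16_12.CTp.right.right RtB16_12.CEr.right 0x146f4cf58fdf8df1ea7f8e691246da6af418144c14ceaf140d = true := by decide +kernel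

theorem cB16_12_3_5 : chunkOkM (LB16_12.ctx true true 271 193 128 17 16 1027 195 35 91) muQ true true 64 RtB16_12.Cx RtB16_12.CX RtB16_12.Ctp.right.left RtB16_12.Ce.right.left.left RtB16_12.CTp.right.right RtB16_12.CEr.right 0x111e82523b8fd33ee2ce76c884b5197f8d72b15938f61923691d89f579d5f23e8f460df81b8236d99b76da7ea323af840dc39708f530d6694114341414149184fb1ee8fd2c8e96c76c8acfb7c7f8a2cc40708f619f73c8589f546a5cb078f460de24f2f76999b6ca71617f1af86712882c8f615f66c9d49f53199a1438f450d677776946944934934933 = true := by decide +kernel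

theorem cB16_12_3_6 : chunkOkM (LB16_12.ctx true true 226 13 8 17 16 128 55 35 39) muQ true true 64 RtB16_12.Cx RtB16_12.CX RtB16_12.Ctp.right.left.left RtB16_12.Ce.right.left.right RtB16_12.CTp.right.right RtB16_12.CEr.right 0x1441b2648fd10e4e867c45f0296c39af56d04998d14af440d = true := by decide +kernel

theorem cB16_12_3_7 : chunkOkM (LB16_12.ctx true true 264 49 32 17 16 559 435 75 91) muQ true true 64 RtB16_12.Cx RtB16_12.CX RtB16_12.Ctp.right.left.right.left RtB16_12.Ce.right.left.right.left RtB16_12.CTp.right.right RtB16_12.CEr.right 0x491ce7d68e8fd25012bf76c2725c1f7f8a5cb1c618f61c01de1f19f5431e12d88f460d1af3e84b8fded84956ccedb139d8f530d15988be48fd2412bd576c10b281f79b102086dc8f6df16ff658f53e1412ce8f460d54193e3afc8fd55e349bd9fa1e2779f512077b315faf440d31e57f97d8fd51454d476c11656a3f8f84449427e8f6d8d7cc598f550d491e22a38e8fd2ece33e76c5a1ba227f859756feb8f6160570d289f550d734178e1296fda9bb4e8776afdaf8b354af2e8f61de9be88d9f540d67 = true := by decide +kernel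

theorem cB16_12_3_8 : chunkOkM (LB16_12.ctx true true 251 25 16 17 16 299 215 75 91) muQ true true 64 RtB16_12.Cx RtB16_12.CX RtB16_12.Ctp.right.left.right.right RtB16_12.Ce.right.left.right.left RtB16_12.CTp.right.right RtB16_12.CEr.right 0x6914799e478fd4c7da3d76c18cf042c8f8623d1afa8f6aaee6d308f550d2599068e8fd185acea76c163807679b465b31d08f6a26ea29b8f550d57c8c9ab76499b60611cb6cbaf8531a32428f530d6694 = true := by decide +kernel

theorem cB16_12_3_9 : chunkOkM (LB16_12.ctx true true 234 13 8 17 16 273 115 35 39) muQ true true 64 RtB16_12.Cx RtB16_12.CX RtB16_12.Ctp.right.left.right.left RtB16_12.Ce.right.left.right.right RtB16_12.CTp.right.right RtB16_12.CEr.right 0x10a883188fd4fc92966ceff10c5039f663ef0f59a5af57ed0c7047aaf450d = true := by decide +kernel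

theorem cB16_12_3_10 : chunkOkM (LB16_12.ctx true true 237 13 8 17 16 299 115 35 65) muQ true true 64 RtB16_12.Cx RtB16_12.CX RtB16_12.Ctp.right.left.right.right RtB16_12.Ce.right.left.right.right RtB16_12.CTp.right.right RtB16_12.CEr.right.left 0x161cd4b91ca9ba9d1dbafe4af81c255067f6cc1371c48f538bdfb478f450d = true := by decide +kernel

theorem cB16_12_3_11 : chunkOkM (LB16_12.ctx true true 257 27 16 17 16 611 455 75 91) muQ true true 64 RtB16_12.Cx RtB16_12.CX RtB16_12.Ctp.right.left.right.right RtB16_12.Ce.right.left.right.right.left RtB16_12.CTp.right.right RtB16_12.CEr.right.right 0x691239866b8fd104c40876c2f186577f8472d2e7f8f697d877078f550d13d20d298fd88a70b66c33a8f3379ba29aae998f6e4a6931c8f550d571921fbde8fd2162e2376c53032027f8401816a98f6ff3c61678f58bc9c5488f460d1b3c06bc8fd3c533e976cb3b2f0b7f862baefda8f613e9f77549f550d11139bb88fdfdd5856c5adbea69b4ff519ab8f6121a5168f9f550d233308498fd134e95b76c11cb1b879bb49d77208f540d5473 = true := by decide +kernel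

theorem cB16_12_3_12 : chunkOkM (LB16_12.ctx true true 262 53 32 17 16 611 475 35 195) muQ true true 64 RtB16_12.Cx RtB16_12.CX RtB16_12.Ctp.right.left.right.right RtB16_12.Ce.right.left.right.right.right RtB16_12.CTp.right.right RtB16_12.CEr.right.right 0x49197f8c258fd1e5f58a76c2ef06b97f8757a1b678f615084888c9f550d14573e4d8fdba719866c3cefaf69ba04f310b8f613cf01e4d9f550d471fd95e7d8fd499646a76cdc838187f832a40ad18f6e69316708f550d3b385af08fd220217976c9df644458f530d294b19be8fd1a4c4cd76c3cfe4d69b87222a87f6a250e6288f550d6471de104698fd1cf4c8a76c40be4fd7f82994d7168f614ffc19d69f5984b95338f460d3 = true := by decide +kernel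

theorem cB16_12_3_13 : chunkOkM (LB16_12.ctx true true 264 53 32 17 16 1235 485 35 91) muQ true true 64 RtB16_12.Cx RtB16_12.CX RtB16_12.Ctp.right.left RtB16_12.Ce.right.right RtB16_12.CTp.right.right RtB16_12.CEr.right 0x59595949591876a2328fd26fb4c876c75f60537f883e253ef8f615aa3ec2c9f550db1839487c99b5540cfd43eaf874b854338f61473bc3ac9f5339aa1b08f450d659345937597445934593 = true := by decide +kernel

theorem cB16_12_3_14 : chunkOkM (LB16_12.ctx true true 262 27 16 17 16 663 235 135 169) muQ true true 64 RtB16_12.Cx RtB16_12.CX RtB16_12.Ctp.right.right RtB16_12.Ce.right.left RtB16_12.CTp.right.right RtB16_12.CEr.right 0x11697c55c287f06c15820efa8fd892bdd676c2926af528f8265e44d7f617d6604c8f550d11f0960b8fdecd9cc66c12152b17f8508f0b4d8f67135ade18f550d3711ce69818f06c45a1e4879468fd194b18e76c5c91a369b470010d58f65f37d8c08f550d4a565a46de01bb99b4e9a257dd3af84eb5c8ff8f630d611431143 = true := by decide +kernel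

theorem cB16_12_3_15 : chunkOkM (LB16_12.ctx true true 234 13 8 17 16 169 125 35 65) muQ true true 64 RtB16_12.Cx RtB16_12.CX RtB16_12.Ctp.right.right.left RtB16_12.Ce.right.right.left.left RtB16_12.CTp.right.right RtB16_12.CEr.right.left 0x15b080ed52a9ba69ae53078af85489afd58f6888e18048f540d = true := by decide +kernel

theorem cB16_12_3_16 : chunkOkM (LB16_12.ctx true true 261 25 16 17 16 663 495 75 195) muQ true true 64 RtB16_12.Cx.left RtB16_12.CX RtB16_12.Ctp.right.right.left.left RtB16_12.Ce.right.right.left.left.left RtB16_12.CTp.right.right RtB16_12.CEr.right.right 0x33d7d6e48fd3a12e4d76c4a5e2067f826c287f78f65476def28f550d118534ac8fd5b732c57f911216b6f7528f6d778f6563bf7a98f550d232bb4f08fd1a3af5376c118685779b3e64f5f48f652d85c298f550d561a42c3b48fd42a15d476ca9872f67f83b5046bd8f6c1bd17e88f550d35228dd18fd226c9e076c17419e69b1d2223cd8f697e289968f550d22107a978fd1cfdb8576c3435c769b9819c6b7f691ce041e8f550d643 = true := by decide +kernel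

theorem cB16_12_3_17 : chunkOkM (LB16_12.ctx true true 257 27 16 17 16 1287 495 35 91) muQ true true 64 RtB16_12.Cx.right RtB16_12.CX RtB16_12.Ctp.right.right.left.left RtB16_12.Ce.right.right.left.left.left RtB16_12.CTp.right.right RtB16_12.CEr.right.right 0x16c5d5078fd3f5204c76cb69c3757f8758ca11c8f69d4d205d8f550d18ad906c8fd308f16f76c7c08a9b7f894bf2b6a8f540d1d54888e8fd101d53476c194238c08f6e2e336ef8f522f69e238f450d318386c278fd37dcdd176cb38481c7f8381075aa8f6ae59cddf8f550d43 = true := by decide +kernel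

theorem cB16_12_3_18 : chunkOkM (LB16_12.ctx true true 261 27 16 17 16 1287 515 35 91) muQ true true 64 RtB16_12.Cx RtB16_12.CX RtB16_12.Ctp.right.right.left.left.left RtB16_12.Ce.right.right.left.left.right RtB16_12.CTp.right.right RtB16_12.CEr.right.right 0x14b282bd8fd396cb2e76c104aad918f81358625859f621c49baa09f513a684d68f460d1d8265a38fd1ca0b2f76c4643a407f84517d4bc8f6108c66e6e9f5822c3d07f460d13ed95928fdbc42b566c8b358569b320eaed8f4af619aaeee0cecbf52bb40e6713dbf460d34597 = true := by decide +kernel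

theorem cB16_12_3_19 : chunkOkM (LB16_12.ctx true true 280 103 64 17 16 1339 1025 75 195) muQ true true 64 RtB16_12.Cx.left RtB16_12.CX RtB16_12.Ctp.right.right.left.left.right RtB16_12.Ce.right.right.left.left.right RtB16_12.CTp.right.right RtB16_12.CEr.right.right 0x591833d7908fd5228cfc76cf54d5ab7f88049cb258f540d59745975933699f62c8fd23fec1576c2f36830c8f691f5e5508f540dc96ed617fd22a64a17f8db2eac87f686e62ef48f540d20d3b5808fd1bdceb776cff724d69b341de0738f68350a96c8f550d564 = true := by decide +kernel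

end Vale.Agent.helper4.Q4
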