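import Vale.Agent.helper4.Q4TreeM
import Vale.Agent.helper4.Q4G.PB16_12

/-!
Checks for pairs of intervals of second moments.
-/

set_option maxRecDepth 100000
set_option linter.unusedVariables false

namespace Vale.Agent.helper4.Q4

theorem cB16_12_3_20 : chunkOkM (LB16_12.ctx true true 267 55 32 17 16 1339 515 35 195) muQ true true 64 RtB16_12.Cx.right RtB16_12.CX RtB16_12.Ctp.right.right.left.left.right RtB16_12.Ce.right.right.left.left.right RtB16_12.CTp.right.right RtB16_12.CEr.right.right 0x16c663a58fd13f772e76c48adb86f860af58018f6e3171c948f550d17e590f38fd3acd31b76c9527ad67f8146aa48c8f68a8483348f550d15f921c68fd3fee89476cc7ab5cf7f8654885fa8f6e411c41b8f550d371ed7e14a8fd1e7785976cd445634e8f6df307eb18f540d1d379acf8fd19f6c3776c4cceef6c8f6a066686e8f540d64 = true := by decide +kernel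

theorem cB16_12_3_21 : chunkOkM (LB16_12.ctx true true 271 27 16 33 32 715 255 275 169) muQ true true 64 RtB16_12.Cx RtB16_12.CX RtB16_12.Ctp.right.right.left.right RtB16_12.Ce.right.right.left.left RtB16_12.CTp.right.right.left RtB16_12.CEr.right.right 0x5a4a98831877fd8e428166c11578e079bab38c6df8f6832f4d748f550d15e49dba8fd147140576c4e2f1e6c8f630d1291e3388fd194537c76c5cdfe5fc8f6384979d58f540d37143a6f668fd12c8e1376c4a3196e48f618beb0448f540d484a54a56 = true := by decide +kernel

theorem cB16_12_3_22 : chunkOkM (LB16_12.ctx true true 267 27 16 35 32 715 255 75 377) muQ true true 64 RtB16_12.Cx RtB16_12.CX RtB16_12.Ctp.right.right.left.right RtB16_12.Ce.right.right.left.left RtB16_12.CTp.right.right.right RtB16_12.CEr.right.right 0xf2e77397fdc26c9166cb638cc6f88311e2758f664de9f038f550d22173d82628fd1a6744976c3d108397f9446473ab8f640d2263efb08fd1020f4f76c4cd3b2968f6328115b78f540d32286171c57298fd12fa83275c54d909c08f630d159714a98fd9b0911675c2fb4a627f75c3bfd0d8f637a759608f550d3676913e7f6d58fd2d1dbf476c9f9012a7f83ea2a3228f61df8a50e8f550d34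 = true := by decide +kernel

theorem cB16_12_3_23 : chunkOkM (LB16_12.ctx true true 252 27 16 17 16 663 265 35 91) muQ true true 64 RtB16_12.Cx RtB16_12.CX RtB16_12.Ctp.right.right.left.left RtB16_12.Ce.right.right.left.right RtB16_12.CTp.right.right RtB16_12.CEr.right 0x5916c06b518fd286c7c876c6cdeb8b7f865e33a9e8f610189b3759f550def4c9091c99b72dc0ff5b1af84644f6ff8f6ff15d36f8f540d65974593 = true := by decide +kernel

theorem cB16_12_3_24 : chunkOkM (LB16_12.ctx true true 238 13 8 17 16 351 135 35 65) muQ true true 64 RtB16_12.Cx RtB16_12.CX RtB16_12.Ctp.right.right.left.right RtB16_12.Ce.right.right.left.right RtB16_12.CTp.right.right RtB16_12.CEr.right.left 0x125eaac654a9b8d1146921eaf8771f36478f67b91f25a8f540d = true := by decide +kernel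

theorem cB16_12_3_25 : chunkOkM (LB16_12.ctx true true 283 51 32 35 32 715 535 275 377) muQ true true 64 RtB16_12.Cx.left RtB16_12.CX RtB16_12.Ctp.right.right.left.right RtB16_12.Ce.right.right.left.right.left RtB16_12.CTp.right.right RtB16_12.CEr.right.right 0x2238added68fdedf37366c2171cd57f96e3ca2948f611c715e68f550d2ad70acf8fd15ff27076c6366e5d18f66f9d02388f540d322865a5144c14dd8fd9e7a97775c2bdec967f796c6fe028f6d7aadf17f550d141d84938fd85694e875c25293bc7f78bdbeb938f6536de777f550d44a15a378368fdfdddf566c988369ee8f6133aa60a8f540df9a7fac7fd11006d376ca181dc7e8f630d484a54a5559f1aeefc7fdc0d7b927f9173be587f8afaf1d028f66cd3976c8f550d1e3750aa8fd1d5110876cf4fe8269b6220a6b28f6632a97328f550d5597436 = true := by decide +kernel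

theorem cB16_12_3_26 : chunkOkM (LB16_12.ctx true true 268 55 32 17 16 689 525 75 195) muQ true true 64 RtB16_12.Cx.right RtB16_12.CX RtB16_12.Ctp.right.right.left.right.left RtB16_12.Ce.right.right.left.right.left.left RtB16_12.CTp.right.right RtB16_12.CEr.right.right 0x2ff1c7798fd17c738576c158473768f6672029d38f540d175f1de48fd15d7f8b76c6fadfbd88f6a7369c068f540dbe38b6f7fd5db0f26f8473f91da8f66b3e29028f540d1deccf818fdfd74c266c12e853479bbfbbb1428f6921adf988f550d576 = true := by decide +kernel

theorem cB16_12_3_27 : chunkOkM (LB16_12.ctx true true 268 55 32 17 16 1391 535 35 195) muQ true true 64 RtB16_12.Cx.right RtB16_12.CX RtB16_12.Ctp.right.right.left.right.left RtB16_12.Ce.right.right.left.right.left.right RtB16_12.CTp.right.right RtB16_12.CEr.right.right 0x1ca5e6678fd19caa2576c6728544c8f6b1fcf3f28f540d1c6b3c018fd18d2e6876cf65ee59b6e66cdca8f6b29aa83c8f550d635e01ce58fd34107f976c8301bc27f7bf9338498f6af45877f8f550d227b69278fd21f049376c8cbf8667f676ae192c8f540d1525dae08fd1957b2d76c675cea27f6a56f17458f540d367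 = true := by decide +kernel

theorem cB16_12_3_28 : chunkOkM (LB16_12.ctx true true 256 27 16 17 16 715 265 75 91) muQ true true 64 RtB16_12.Cx.right RtB16_12.CX RtB16_12.Ctp.right.right.left.right.right RtB16_12.Ce.right.right.left.right.left RtB16_12.CTp.right.right RtB16_12.CEr.right.right 0xfe310177fd2030ded76c75adb077f86a5035098f63eca38038f550d1e5b5d668fd1e5a75d76cd68a7e69b76e611a58f6418937a08f550d5 = true := by decide +kernel

theorem cB16_12_3_29 : chunkOkM (LB16_12.ctx true true 264 55 32 17 16 1391 555 35 91) muQ true true 64 RtB16_12.Cx RtB16_12.CX RtB16_12.Ctp.right.right.left.right.left RtB16_12.Ce.right.right.left.right.right RtB16_12.CTp.right.right RtB16_12.CEr.right.right 0x112c81848fda5938566c91cbee69bf626b24b8f540d16dfad258fd2f0d21d76c770f8cd7f8362e72818f69fe6b11d8f550d117ae5108fd6dfc0f66c6048f969b5d32da528f6f15352298f550d34597597 = true := by decide +kernel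

theorem cB16_12_3_30 : chunkOkM (LB16_12.ctx true true 287 207 128 17 16 1443 1085 75 195) muQ true true 64 RtB16_12.Cx.left RtB16_12.CX RtB16_12.Ctp.right.right.left.right.right RtB16_12.Ce.right.right.left.right.right RtB16_12.CTp.right.right RtB16_12.CEr.right.right 0x59692ff4338c8fd282815e76c167f3b27f71e63d79ad9f640d14f10b4e8fd1525add7f8f81acad88f630d14a5f3f18fd30ed33e76c19a8a86319f630d5669746975932174 = true := by decide +kernel

theorem cB16_12_3_31 : chunkOkM (LB16_12.ctx true true 262 27 16 17 16 715 545 75 195) muQ true true 64 RtB16_12.Cx.right RtB16_12.CX RtB16_12.Ctp.right.right.left.right.right RtB16_12.Ce.right.right.left.right.right.left RtB16_12.CTp.right.right RtB16_12.CEr.right.right 0x1e0802c18fd13f542276c3a393217f937ca95178f6560067b38f550d5a5125265bd8fd14c2246f831b4ba3a8f653ae5a678f540d1b102f018fd1a8a30876cbefaa569b367edfa38f653a494298f550d56 = true := by decide +kernel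

theorem cB16_12_3_32 : chunkOkM (LB16_12.ctx true true 272 55 32 17 16 1443 555 75 195) muQ true true 64 RtB16_12.Cx.right RtB16_12.CX RtB16_12.Ctp.right.right.left.right.right RtB16_12.Ce.right.right.left.right.right.right RtB16_12.CTp.right.right RtB16_12.CEr.right.right 0x1e10413a8fd1202ce676c1e9f414e8f6724167128f540d5a5b4c2b067fd2746f16f8da1495f7635da5ae8f65d42ca8f8f550d1b454c228fd1934b8176c521b22078b7ca809ce8f660f2f48f8f550d5181c54718fd1a8b7ba76c10d31c7f8f68ec1d9428f540d311b7c6328fd9e25cd6f72327e8168f66138b80e8f540d1b69841b8fd16f52c279b503464c68f6528330318f540d559376 = true := by decide +kernel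

theorem cB16_12_3_33 : chunkOkM (LB16_12.ctx true true 236 13 8 17 16 377 65 35 65) muQ true true 64 RtB16_12.Cx RtB16_12.CX RtB16_12.Ctp.right.right.right.left RtB16_12.Ce.right.right.left RtB16_12.CTp.right.right RtB16_12.CEr.right.left 0x1ba3f28bfca9bd44482d5e1af832b62df38f61e890e5a8f243671d37f050d = true := by decide +kernel

theorem cB16_12_3_34 : chunkOkM (LB16_12.ctx true true 287 195 128 17 16 2925 1035 75 91) muQ true true 64 RtB16_12.Cx RtB16_12.CX RtB16_12.Ctp.right.right.right.left RtB16_12.Ce.right.right.left.left RtB16_12.CTp.right.right RtB16_12.CEr.right.right 0x11111111110112cd92ea8fd235a7e6585c74db5737f8653e82fb8f619a88f988f2bcdf0b87f060d22d0a5fb8fd26fd4d276c109dfba79b2d7301de8f22014cfd7f150d5114301777711431143 = true := by decide +kernel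

end Vale.Agent.helper4.Q4
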