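import Vale.Agent.helper4.Q4TreeM
import Vale.Agent.helper4.Q4G.PB16_12

/-!
Checks for pairs of intervals of second moments.
-/

set_option maxRecDepth 100000
set_option linter.unusedVariables false

namespace Vale.Agent.helper4.Q4

theorem cB16_12_3_35 : chunkOkM (LB16_12.ctx true true 271 27 16 33 32 767 275 275 169) muQ true true 64 RtB16_12.Cx RtB16_12.CX RtB16_12.Ctp.right.right.right.left RtB16_12.Ce.right.right.left.right RtB16_12.CTp.right.right.left RtB16_12.CEr.right.right 0x5a4a10110b8e8fd1065b5d76c1ef79e3c8f620dc7ecc8f21db662bf8f050d10abba3d8fdc9bcb466ced8fa59b547466598f61944daeb8f550d104c51a38fd1148dea76c75513a3d8f6256bf1dc8f240d110ec6568fd139b0ef76c5fc7f9728f62eccb4c68f240d47384a54a56 = true := by decide +kernel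

theorem cB16_12_3_36 : chunkOkM (LB16_12.ctx true true 276 55 32 35 32 741 555 75 377) muQ true true 64 RtB16_12.Cx RtB16_12.CX RtB16_12.Ctp.right.right.right.left.left RtB16_12.Ce.right.right.left.right RtB16_12.CTp.right.right.right RtB16_12.CEr.right.right 0x1bc25bb58fd332b92e76cb54b4c37f87625941b8f616db59cb8f550d9ef738a7f06c13dc60c88fd402e13075c2c4b42a7f7c1a858aa8f640d7d506e037fd40394266c7c847c638f61845c6478f540d466942225c80da38fd16247b676c27747967f76f8d64be8f620de82738f250d216c5e6f8fd15955e176c143be0288f93ca973698f6207e8ffb8f23c250fb7f060d4228614233ace8fd6f84a3775c1fbb67b7f780fb682f8f61ba069a78f250d217156d74bc8fd42fd91375c13478317f74edf38d58f62790e90f8f245405847f060d467 = true := by decide +kernel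

theorem cB16_12_3_37 : chunkOkM (LB16_12.ctx true true 267 27 16 17 16 1521 555 75 195) muQ true true 64 RtB16_12.Cx RtB16_12.CX RtB16_12.Ctp.right.right.right.left.right RtB16_12.Ce.right.right.left.right RtB16_12.CTp.right.right.right RtB16_12.CEr.right.right 0x111238d7ed8fdf0e9a0c75c6b5fd26f71252c24e39f61dea37b7f27dd3ea77f060d114a842c8f06c61143114017 = true := by decide +kernel

theorem cB16_12_3_38 : chunkOkM (LB16_12.ctx true true 232 13 8 17 16 403 65 35 39) muQ true true 64 RtB16_12.Cx RtB16_12.CX RtB16_12.Ctp.right.right.right.right RtB16_12.Ce.right.right.left RtB16_12.CTp.right.right RtB16_12.CEr.right 0x2b02fd576c45112ec38f7a52950318f14f2f7ac639f040d = true := by decide +kernel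

theorem cB16_12_3_39 : chunkOkM (LB16_12.ctx true true 103 1 1 1 1 1 1 1 1) muQ true true 64 RtB16_12.Cx.left RtB16_12.CX RtB16_12.Ctp.right.right RtB16_12.Ce.right.right.right.left RtB16_12.CTp.right.right RtB16_12.CEr.right 0x21 = true := by decide +kernel

theorem cB16_12_3_40 : chunkOkM (LB16_12.ctx true true 268 55 32 17 16 1443 565 35 195) muQ true true 64 RtB16_12.Cx.right RtB16_12.CX RtB16_12.Ctp.right.right.left RtB16_12.Ce.right.right.right.left RtB16_12.CTp.right.right RtB16_12.CEr.right 0x595927ef3dcc8fdfa67ea66c307349838f6870925408f540d1dd397c28fd1c5905976c14a0cf928f67e3354d98f540d6a59e90dc89b4bf6c90519f843d204998f680050a678f540d659759344593593 = true := by decide +kernel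

theorem cB16_12_3_41 : chunkOkM (LB16_12.ctx true true 245 27 16 17 16 377 145 35 65) muQ true true 64 RtB16_12.Cx.right RtB16_12.CX RtB16_12.Ctp.right.right.right.left RtB16_12.Ce.right.right.right.left RtB16_12.CTp.right.right RtB16_12.CEr.right.left 0xe72b5bd5699b6ef390ee42af853ff54d08f63451d7dc8f5c78dd86f250d = true := by decide +kernel

theorem cB16_12_3_42 : chunkOkM (LB16_12.ctx true true 281 55 32 33 32 767 575 275 169) muQ true true 64 RtB16_12.Cx.right RtB16_12.CX RtB16_12.Ctp.right.right.right.left RtB16_12.Ce.right.right.right.left.left RtB16_12.CTp.right.right.left RtB16_12.CEr.right.right 0x5a4adb68bff7fd11e518c76ca128a1688f630d12ae182c8fd112afd776c67cb0c4c8f61668cba78f240d7f2809607fddaa7c266c4d0346818f64a0535478f540dd3f5efc7fd108aa9276c6049fecc8f635cc4d938f540d14576a978fdb48dba66cf961792b8f6199d10d7f540d74384a54a56 = true := by decide +kernel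

theorem cB16_12_3_43 : chunkOkM (LB16_12.ctx true true 277 55 32 35 32 741 575 75 377) muQ true true 64 RtB16_12.Cx.right RtB16_12.CX RtB16_12.Ctp.right.right.right.left.left RtB16_12.Ce.right.right.right.left.left RtB16_12.CTp.right.right.right RtB16_12.CEr.right.right 0x10272fcc8fd1dac38076c55f4b427f8848db7ac8f649284fc68f550d1821a53e8fd876c8e938f6477949e18f530d6697221056d5968fd9247a066ca19250de8f633c69df18f540ddc4ece97fdf70bae66c1252160d79f6414c5f37f540d72286e4405d87fd171f0d475c58d172a88f63a9343de8f540d143857f38fdd6ff55f8a3db0e6f71637facfc9f626441047f550d764 = true := by decide +kernel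

theorem cB16_12_3_44 : chunkOkM (LB16_12.ctx true true 277 55 32 35 32 767 575 75 377) muQ true true 64 RtB16_12.Cx.right RtB16_12.CX RtB16_12.Ctp.right.right.right.left.right RtB16_12.Ce.right.right.right.left.left RtB16_12.CTp.right.right.right RtB16_12.CEr.right.right 0x2217e8fdd38fdf525cd66cbc718e6d8f630d1d154a318fde3f41f66c41ff31f7f96774cb0f8f61d4334538f250d72286176332cc8fd5699fc65cee8d33c28f630d105e6ee58fd24b8e2b75c23793f97f9b95aa39a8f63b36b2fa8f250d712fc34ee8fd249030975c3c29a42f8f62b10fcc18f240d46 = true := by decide +kernel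

theorem cB16_12_3_45 : chunkOkM (LB16_12.ctx true true 103 1 1 1 1 1 1 1 1) muQ true true 64 RtB16_12.Cx.right.left RtB16_12.CX RtB16_12.Ctp.right.right.right.left RtB16_12.Ce.right.right.right.left.right RtB16_12.CTp.right.right RtB16_12.CEr.right.right 0x21 = true := by decide +kernel

theorem cB16_12_3_46 : chunkOkM (LB16_12.ctx true true 282 111 64 17 16 1495 1165 75 195) muQ true true 64 RtB16_12.Cx.right.right RtB16_12.CX RtB16_12.Ctp.right.right.right.left.left RtB16_12.Ce.right.right.right.left.right RtB16_12.CTp.right.right RtB16_12.CEr.right.right 0x59591346c4a08fddc313a66c15b31f1b59f626adfb208f540d5a5111090878fd820bd965c54a81e6f763e4fa7a8f652a81eb28f550d1c454ae98fd181fc3976c4bea82578b17a804e249f62c40da048f550d5645975934 = true := by decide +kernel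

theorem cB16_12_3_47 : chunkOkM (LB16_12.ctx true true 295 111 64 35 32 1547 595 275 377) muQ true true 64 RtB16_12.Cx.right.right RtB16_12.CX RtB16_12.Ctp.right.right.right.left.right RtB16_12.Ce.right.right.right.left.right RtB16_12.CTp.right.right RtB16_12.CEr.right.right 0x22197f44ab8fd7ac40e66cf12ffe328f6151d1ee7f240d192a6fb98fd9b672a66cbc3a786f9f6df26318f640d422865a5141c5f778fd1026583649f6c6ef256f230d217e6811de7fd31e2c4a75c5ab6ec908f62e3675bd8f240dfc11ac97fd136178f7e9f61d24cf6f130d344ad88efe17fdd9467666cf266252d8f612e5317f8f240de6d54de7fdcc62f966ce6d11e3c8f630d484a54a556 = true := by decide +kernel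

theorem cB16_12_3_48 : chunkOkM (LB16_12.ctx true true 294 223 128 17 16 6253 595 75 195) muQ true true 64 RtB16_12.Cx.right RtB16_12.CX RtB16_12.Ctp.right.right.right.right RtB16_12.Ce.right.right.right.left RtB16_12.CTp.right.right RtB16_12.CEr.right 0x01010101f528e977fdcb83b8275c11e6ba6f846a149e48f64a3fb9dc8f250d5a5109ac37f8fd6b147b57f914e8e547f837066117f657a112538f250d15d43e248fd2757ba5885c4847286b8f671f423d98f240d5646e8b045799b2207d6ae80af848b3b0638f67226e82c8f240d61141143017301730173 = true := by decide +kernel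

theorem cB16_12_3_49 : chunkOkM (LB16_12.ctx true true 103 1 1 1 1 1 1 1 1) muQ true true 64 RtB16_12.Cx RtB16_12.CX RtB16_12.Ctp.right.right RtB16_12.Ce.right.right.right.right RtB16_12.CTp.right.right RtB16_12.CEr.right 0x21 = true := by decide +kernel

theorem cB16_12_2_0 : chunkOkM (LB16_12.ctx false true 103 1 1 1 1 1 1 1 1) muQ false true 64 RtB16_12.Cx RtB16_12.CX RtB16_12.Ctn RtB16_12.Ce RtB16_12.CTp RtB16_12.CEr 0x49 = true := by decide +kernel

theorem cB16_12_1_0 : chunkOkM (LB16_12.ctx true false 103 1 1 1 1 1 1 1 1) muQ true false 64 RtB16_12.Cx RtB16_12.CX RtB16_12.Ctp RtB16_12.Ce RtB16_12.CTn RtB16_12.CEr 0x4a = true := by decide +kernel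

theorem cB16_12_0_0 : chunkOkM (LB16_12.ctx false false 103 1 1 1 1 1 1 1 1) muQ false false 64 RtB16_12.Cx RtB16_12.CX RtB16_12.Ctn RtB16_12.Ce RtB16_12.CTn RtB16_12.CEr 0x49 = true := by decide +kernel

end Vale.Agent.helper4.Q4
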