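import Vale.Agent.helper4.Q4TreeM
import Vale.Agent.helper4.Q4G.PB16_5

/-!
Checks for pairs of intervals of second moments.
-/

set_option maxRecDepth 100000
set_option linter.unusedVariables false

namespace Vale.Agent.helper4.Q4

theorem cB16_5_3_30 : chunkOkM (LB16_5.ctx true true 244 223 128 7 32 3055 2335 16 64) muQ true true 64 RtB16_5.Cx.right RtB16_5.CX RtB16_5.Ctp.right.right.right.left RtB16_5.Ce.right.right.right.left.right RtB16_5.CTp RtB16_5.CEr 0x5def4f06b471be46b8654df7ff8b620d42176a5f06b32175fbb4f06b3aa04f06b7d815fd6b847b6ae258b64f4c2e77b230d41663fe17b878e38617c620d1a3ad947b8a0feb7ad8b620d36971a7d47e7b84dc48067c620d1b026667b88fc796f7c620d1ad3ee67b8725ab457c620d4313a4ad87b87d7a80018b620d743459591a8a3c07b830cd4a108b610555d418b530d1da70647b834ba4dd7c6d2786737b530d1baa1327b8a61c39f98b620d7421cce597b81a184e638b520d3459759343217 = true := by decide +kernel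

theorem cB16_5_3_31 : chunkOkM (LB16_5.ctx true true 202 27 16 7 32 403 145 16 64) muQ true true 64 RtB16_5.Cx.right RtB16_5.CX RtB16_5.Ctp.right.right.right.right RtB16_5.Ce.right.right.right.left RtB16_5.CTp RtB16_5.CEr 0x15bd4f02b = true := by decide +kernel

theorem cB16_5_3_32 : chunkOkM (LB16_5.ctx true true 83 1 1 1 1 1 1 1 1) muQ true true 64 RtB16_5.Cx RtB16_5.CX RtB16_5.Ctp.right.right RtB16_5.Ce.right.right.right.right RtB16_5.CTp RtB16_5.CEr 0x21 = true := by decide +kernel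

theorem cB16_5_2_0 : chunkOkM (LB16_5.ctx false true 83 1 1 1 1 1 1 1 1) muQ false true 64 RtB16_5.Cx RtB16_5.CX RtB16_5.Ctn RtB16_5.Ce RtB16_5.CTp RtB16_5.CEr 0x49 = true := by decide +kernel

theorem cB16_5_1_0 : chunkOkM (LB16_5.ctx true false 83 1 1 1 1 1 1 1 1) muQ true false 64 RtB16_5.Cx RtB16_5.CX RtB16_5.Ctp.left RtB16_5.Ce RtB16_5.CTn RtB16_5.CEr 0x41 = true := by decide +kernel

theorem cB16_5_1_1 : chunkOkM (LB16_5.ctx true false 165 13 8 7 32 39 8 4 64) muQ true false 64 RtB16_5.Cx RtB16_5.CX RtB16_5.Ctp.right RtB16_5.Ce.left RtB16_5.CTn RtB16_5.CEr 0x17f3f06b = true := by decide +kernel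

theorem cB16_5_1_2 : chunkOkM (LB16_5.ctx true false 205 25 16 7 32 611 235 4 64) muQ true false 64 RtB16_5.Cx RtB16_5.CX RtB16_5.Ctp.right RtB16_5.Ce.right.left RtB16_5.CTn RtB16_5.CEr 0x11695d6795c7b6173056f28b520d311411431aa04f05b7be96f6b626ffc3848b51053bab7c430d31b3191a18b537626e6c420d4f7b2c3dd8b66908c01d69b5840e9e0c8c430d310c24f05b49842c4fb7b62af9f0bf8b5b234126c430d73413b70e7099b52d0a8d608c420d392d3f05b36318217b6250e089f8b5391843e7c430d343 = true := by decide +kernel

theorem cB16_5_1_3 : chunkOkM (LB16_5.ctx true false 179 13 8 7 32 143 35 4 64) muQ true false 64 RtB16_5.Cx RtB16_5.CX RtB16_5.Ctp.right.left RtB16_5.Ce.right.right RtB16_5.CTn RtB16_5.CEr 0x4369a327b62fccd9388b514bd1b67c430d593 = true := by decide +kernel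

theorem cB16_5_1_4 : chunkOkM (LB16_5.ctx true false 205 27 16 7 32 663 495 4 64) muQ true false 64 RtB16_5.Cx RtB16_5.CX RtB16_5.Ctp.right.right.left.left RtB16_5.Ce.right.right.left.left RtB16_5.CTn RtB16_5.CEr 0x197b4f05b22984f05b31dd34f05b7190c4f05b107a56a71c8566eca7b616795d128b530dd82ee361c6a3ee9d7b6134d24ec8b530d41b644f05b374 = true := by decide +kernel

theorem cB16_5_1_5 : chunkOkM (LB16_5.ctx true false 235 195 128 7 32 2743 1995 4 64) muQ true false 64 RtB16_5.Cx RtB16_5.CX RtB16_5.Ctp.right.right.left.right RtB16_5.Ce.right.right.left.left.left RtB16_5.CTn RtB16_5.CEr 0x696901581a8571c50e92d7b8b620db613f05bc8276e61c57e27e67c620d10d0fee71c26406ae7c6f02d3087b530d11e596b71cb40f00738b620d710309a071c261af347c6107f74258b530dacd47a61c55843bd7c648cd3c27b530d743711ee2df71c1fb1181b8b6a37a5717b530d4370437 = true := by decide +kernel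

theorem cB16_5_1_6 : chunkOkM (LB16_5.ctx true false 231 99 64 7 32 2795 2035 4 64) muQ true false 64 RtB16_5.Cx.left RtB16_5.CX RtB16_5.Ctp.right.right.left.right.left RtB16_5.Ce.right.right.left.left.right.left RtB16_5.CTn RtB16_5.CEr 0x10a64f05b15b826071c63eaf4d7c620ddc321361c4ae65b67c66edfeef7b530d15b205971c51c9f447c620d43180b4c471c6e0456268b620d7011b296f71c4a0254e7c620d7410982a871c2a3cccf7c6102f061a8b530d1d5e4f05b3b2c24f06b711457bd71c166e1037c61060f2b68b530dc8c36961c6ae9a0f98b6189cecf7b530dddcf2b61c6adfed67c620d4fb937861c327a84488b6fd46c237b530d37437 = true := by decide +kernel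

theorem cB16_5_1_7 : chunkOkM (LB16_5.ctx true false 236 203 128 7 32 2795 2075 4 64) muQ true false 64 RtB16_5.Cx.left RtB16_5.CX RtB16_5.Ctp.right.right.left.right.left RtB16_5.Ce.right.right.left.left.right.right RtB16_5.CTn RtB16_5.CEr 0xb8f3f05bca4f2261c29ea7717c611982c398b530dd7006461c4e890c37c6993a19a7b530d7116fcc871c2763e6d7c6f75a8cd7b530d4e1560361c273a9277c61299e3f18b530d37f5acaa61c13be87698b6118069228b530d4190f4f05b3101dae471c767f7af08b63a238ef7b530d697127095f71c688f3aa7c620d1060bd671c4c071ee08b6b19c3317b530d11c93a871c2e334ab7c6c62126f7b530d140af2371ccebd8c898b620d74398214f06b7425f54f05b37 = true := by decide +kernel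

theorem cB16_5_1_8 : chunkOkM (LB16_5.ctx true false 226 99 64 7 32 1443 1035 4 64) muQ true false 64 RtB16_5.Cx.left RtB16_5.CX RtB16_5.Ctp.right.right.left.right.right RtB16_5.Ce.right.right.left.left.right RtB16_5.CTn RtB16_5.CEr 0x155abbc71c3fb8229f8b620d2a46a1f71c3f02c1b18b620d1a21f9271c64b12487c620d1aaf55e71c5d61fe57c620d4339f238771c70f633c58b620d2e3620371c88a752e7c620d434ba15f06b275a52371c600936c28b620d437769287971371c38a64a0d8b620d74 = true := by decide +kernel

theorem cB16_5_1_9 : chunkOkM (LB16_5.ctx true false 198 27 16 7 32 351 255 4 64) muQ true false 64 RtB16_5.Cx.right RtB16_5.CX RtB16_5.Ctp.right.right.left.right RtB16_5.Ce.right.right.left.left.right RtB16_5.CTn RtB16_5.CEr 0xf0e3f05b = true := by decide +kernel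

theorem cB16_5_1_10 : chunkOkM (LB16_5.ctx true false 190 13 8 7 32 325 135 4 64) muQ true false 64 RtB16_5.Cx RtB16_5.CX RtB16_5.Ctp.right.right.left.left RtB16_5.Ce.right.right.left.right RtB16_5.CTn RtB16_5.CEr 0x66cca587b6261cedc18b520d = true := by decide +kernel

theorem cB16_5_1_11 : chunkOkM (LB16_5.ctx true false 230 103 64 7 32 2795 2095 4 64) muQ true false 64 RtB16_5.Cx.left RtB16_5.CX RtB16_5.Ctp.right.right.left.right.left RtB16_5.Ce.right.right.left.right.left RtB16_5.CTn RtB16_5.CEr 0x5922b24f05b14984f05b1254a6471c18f249158b617bb17bf8b530d11e684a71c2dca14538b610305a678b530d420554f05b3741de04f05b34597 = true := by decide +kernel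

theorem cB16_5_1_12 : chunkOkM (LB16_5.ctx true false 224 99 64 7 32 1443 1055 4 64) muQ true false 64 RtB16_5.Cx.left.left RtB16_5.CX RtB16_5.Ctp.right.right.left.right.right RtB16_5.Ce.right.right.left.right.left RtB16_5.CTn RtB16_5.CEr 0x692c566c671cbac16b838b620d29a6ba671c50e6d517c620d432db1a871c6bf10f478b6f3bf51e7b230d769239db7d71c712b62008b620d469734 = true := by decide +kernel

theorem cB16_5_1_13 : chunkOkM (LB16_5.ctx true false 236 203 128 7 32 2847 2095 4 64) muQ true false 64 RtB16_5.Cx.left.right RtB16_5.CX RtB16_5.Ctp.right.right.left.right.right RtB16_5.Ce.right.right.left.right.left.left RtB16_5.CTn RtB16_5.CEr 0x1c1f8cb71c438d6bbc8b620d66c64f06b4165eb1771c6b602967c620d10a4ef871c1a606aa7c610b1891a8b530d3147a4e371c68ebdd288b620de82f7861c649eff728b680a7f7a7b530d697376f53f05b1162b3c71c824e16b7c620de6150861c61f709c7c654d6c9d7b530dfb816261c5ca02377c620d43743 = true := by decide +kernel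

theorem cB16_5_1_14 : chunkOkM (LB16_5.ctx true false 237 207 128 7 32 2899 2135 4 64) muQ true false 64 RtB16_5.Cx.left.right RtB16_5.CX RtB16_5.Ctp.right.right.left.right.right RtB16_5.Ce.right.right.left.right.left.right RtB16_5.CTn RtB16_5.CEr 0x178fe5671c6438be07c620df8087361c61c772b7c635c2eaa7b530d1e07e9871cf943890f8b620d7317fe1b271c4fe8f3f7c620d41f1082f71cbf7de6078b620d1f213cb71c6dd050a68b620d4712552a771c2cb16a1e8b610b07ff98b530d697593597117e36471c236311a7c610d0bd208b530d703c3a61cb1e87907c620d7ec155161c3c399887c6f855da27b530dc373ae61c8345a947c656c86db7b530d741111b8471c1040800a8b61b94759b8b530d311e325f06b743 = true := by decide +kernel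

theorem cB16_5_1_15 : chunkOkM (LB16_5.ctx true false 215 55 32 7 32 1443 535 4 64) muQ true false 64 RtB16_5.Cx.right RtB16_5.CX RtB16_5.Ctp.right.right.left.right RtB16_5.Ce.right.right.left.right.left RtB16_5.CTn RtB16_5.CEr 0x0113a84f71c1b46d87d8b610c2dc658b530d14226ab71cbaa50bb7b61467bcd78b530d37041a0b4f05b3 = true := by decide +kernel

theorem cB16_5_1_16 : chunkOkM (LB16_5.ctx true false 236 211 128 7 32 2899 2195 4 64) muQ true false 64 RtB16_5.Cx RtB16_5.CX RtB16_5.Ctp.right.right.left.right RtB16_5.Ce.right.right.left.right.right RtB16_5.CTn RtB16_5.CEr 0x194d4f05b23424f05b1112e8071c26cb7cf38b6132505e28b530ddc790861c72bd80b88b670c54a17b530d74593714774f05beaa9bc61cf9e5b46c6141d364d8b530de1703761c64e477d7c6944bb317b530d105303d71c51a0ee77c667482157b530d414757e071cb0513aba8b620d7e0c0bb61c2c12d0748b617ed82458b530d3752f3f05b123e1ba71c6dceba77c620d120d3f171c32bd52d7c61029c50e8b530d132630d71c2f3ea807c61044a3e48b530d43741e3d4f05b3741e784f05b3596914dd81a71c7d18028e8b620d469759342175937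 = true := by decide +kernel

theorem cB16_5_1_17 : chunkOkM (LB16_5.ctx true false 186 13 8 7 32 195 125 4 64) muQ true false 64 RtB16_5.Cx RtB16_5.CX RtB16_5.Ctp.right.right.right RtB16_5.Ce.right.right.left.left RtB16_5.CTn RtB16_5.CEr 0x4529ab62c5f8dac57a610f555e28b230d = true := by decide +kernel

theorem cB16_5_1_18 : chunkOkM (LB16_5.ctx true false 230 203 128 7 32 1495 1105 4 64) muQ true false 64 RtB16_5.Cx.left RtB16_5.CX RtB16_5.Ctp.right.right.right RtB16_5.Ce.right.right.left.right RtB16_5.CTn RtB16_5.CEr 0x010121322ca6a71c70ae066f8b648735447b230d42176932ef374a71c2aa0c9f58b696702bc7b230d2801b5d71c9d2c3ce58b620d232b5f471c619b22f7c620d43212c3b89871c47d58747c6b97c0a6c230d303af4f71cc379a0058b620d3217474217245d66971c47636dfe8b620d357d2e071c5052c66c618a1cc17c230d2f546a871c563861ed8b620d3320311e71c4873522d8b622c98c37b230d4711705c4012ffec7671c60f3f9248b6117022dd8b230d32aaf6471c1c6f26bd8b610a586438b230d437433 = true := by decide +kernel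

theorem cB16_5_1_19 : chunkOkM (LB16_5.ctx true false 237 215 128 7 32 2951 2215 4 64) muQ true false 64 RtB16_5.Cx.right RtB16_5.CX RtB16_5.Ctp.right.right.right RtB16_5.Ce.right.right.left.right RtB16_5.CTn RtB16_5.CEr 0x11326e8962c176f12f58b220d8c6a9061c1cf043048b614c891c18b530d1d3507571c736cc9d7c620d289f43771c64071fd7c620d7245442771c588033458b620d4147873b71c75977a77c620d13071a471c2ca69f57c6100444418b530d103988a71c77c7c12e8b65b97d837b530d7379d54f06be0752561c492f4677c681c9c4f7b530d12fb84471c73e78b47c620d43414ee45d71cd0fd91d68b620d19a2fa271c7236cbf68b620d4737694dd54f06b019291c771c7e69cc77c620d736e894f06b47436943 = true := by decide +kernel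

theorem cB16_5_1_20 : chunkOkM (LB16_5.ctx true false 83 1 1 1 1 1 1 1 1) muQ true false 64 RtB16_5.Cx.left RtB16_5.CX RtB16_5.Ctp.right.right RtB16_5.Ce.right.right.right.left RtB16_5.CTn RtB16_5.CEr 0x21 = true := by decide +kernel

theorem cB16_5_1_21 : chunkOkM (LB16_5.ctx true false 192 27 16 7 32 169 145 4 64) muQ true false 64 RtB16_5.Cx.right RtB16_5.CX RtB16_5.Ctp.right.right.left RtB16_5.Ce.right.right.right.left RtB16_5.CTn RtB16_5.CEr 0xd65b6797b61e38db608b520d = true := by decide +kernel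

theorem cB16_5_1_22 : chunkOkM (LB16_5.ctx true false 234 215 128 7 32 2951 1135 4 64) muQ true false 64 RtB16_5.Cx.right.left RtB16_5.CX RtB16_5.Ctp.right.right.right.left.left RtB16_5.Ce.right.right.right.left.left RtB16_5.CTn RtB16_5.CEr 0x691f8257271c77c5b2e88b620d1d24da371c75e1dc47c620d46930be25671ca06c7fff8b620d476910deff271c7b1c5057c6582ec477b530dfb1b4f06b7f4855261c7b0f785e8b6d017f657b530d3469734 = true := by decide +kernel

theorem cB16_5_1_23 : chunkOkM (LB16_5.ctx true false 238 219 128 7 32 3003 2315 4 64) muQ true false 64 RtB16_5.Cx.right.right RtB16_5.CX RtB16_5.Ctp.right.right.right.left.left RtB16_5.Ce.right.right.right.left.left RtB16_5.CTn RtB16_5.CEr 0x12c933171c4fd6a067c6c9f81fb7b530df368f861c5e160497c67adeea37b530d412a125671c249211e7c6151658ff8b530d312b6f3071c18f618e7c611e4da768b530d415d7a9e71ca3fec8088b620d182b80e71c83cae6f7c620d144a06071c4cd61127c6cf9cdc37b530d174b35f06b73471656fe271c103f2fe98b617a335598b530d301b3186171c7af10147c620d113da9071c65f22427c662364267b530d113856e71c72a25577c620d437801a4f06b4150e4f05b1378eaf71c28e14fa88b61330aecb8b530d77213f05b144410471c1eb5c877c6123c6b0c8b530d7434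 = true := by decide +kernel

theorem cB16_5_1_24 : chunkOkM (LB16_5.ctx true false 225 111 64 7 32 1547 1155 4 64) muQ true false 64 RtB16_5.Cx.right RtB16_5.CX RtB16_5.Ctp.right.right.right.left.right RtB16_5.Ce.right.right.right.left.left RtB16_5.CTn RtB16_5.CEr 0x2bccf1271cf7bf9657b617364b598b230d18ec94e71c8c8eabe7c620d24c8b1071c7f9e6e47c620d71f7df0471c6c8ccba18b620d4304273b4f02b2c3f41371cb72c5a8c8b68e20e66b230d2f4c0ea71c64e2788d8b620d432172c8b76371c530794918b677a40b6c230d31705c42d0400e71c37e99c458b6113c76a88b230d747 = true := by decide +kernel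

theorem cB16_5_1_25 : chunkOkM (LB16_5.ctx true false 236 223 128 7 32 3055 1195 4 64) muQ true false 64 RtB16_5.Cx.right RtB16_5.CX RtB16_5.Ctp.right.right.right.left RtB16_5.Ce.right.right.right.left.right RtB16_5.CTn RtB16_5.CEr 0x1e66c9c71c9b1a658e8b620d2e3af9a71c8280dd8a8b620d439d5d5f06b321729ff71a71c957be477c620d21705c427e55b971c903ee7608b6162b91448b230d284000e71c41b436a7c69a48416c230d471e0724a71c88467d488b620d1729ebf71cbca58c518b620d316ec18271c89de50b7c620d15e5a8671c617956c7c620d1796f4c71ca7a4b057c620d7346922d35dd71c72873d1b8b620d473459591494cc771c332fe5c7c610608fb78b530dd6db2e61c15d98a2509b620d722f44f05b3459759343217 = true := by decide +kernel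

theorem cB16_5_1_26 : chunkOkM (LB16_5.ctx true false 196 27 16 7 32 403 145 4 64) muQ true false 64 RtB16_5.Cx.right RtB16_5.CX RtB16_5.Ctp.right.right.right.right RtB16_5.Ce.right.right.right.left RtB16_5.CTn RtB16_5.CEr 0x2d129ec71c196fbe47b624dad2df8b230d = true := by decide +kernel

theorem cB16_5_1_27 : chunkOkM (LB16_5.ctx true false 83 1 1 1 1 1 1 1 1) muQ true false 64 RtB16_5.Cx RtB16_5.CX RtB16_5.Ctp.right.right RtB16_5.Ce.right.right.right.right RtB16_5.CTn RtB16_5.CEr 0x21 = true := by decide +kernel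

theorem cB16_5_0_0 : chunkOkM (LB16_5.ctx false false 83 1 1 1 1 1 1 1 1) muQ false false 64 RtB16_5.Cx RtB16_5.CX RtB16_5.Ctn RtB16_5.Ce RtB16_5.CTn RtB16_5.CEr 0x49 = true := by decide +kernel

end Vale.Agent.helper4.Q4
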