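import Vale.Agent.helper4.Q4TreeM
import Vale.Agent.helper4.Q4G.PB16_5_0
import Vale.Agent.helper4.Q4G.PB16_5_1

/-!
Checks for pairs of intervals of second moments.
-/

set_option maxRecDepth 100000
set_option linter.unusedVariables false

namespace Vale.Agent.helper4.Q4

theorem covB16_5 : LB16_5.Full muQ.val RtB16_5 := ⟨(LitT.Cov.split_t (LitT.cov_of_chunkM cB16_5_3_0) (LitT.Cov.split_e (LitT.cov_of_chunkM cB16_5_3_1) (LitT.Cov.split_e (LitT.Cov.split_t (LitT.Cov.split_e (LitT.cov_of_chunkM cB16_5_3_2) (LitT.cov_of_chunkM cB16_5_3_3)) (LitT.cov_of_chunkM cB16_5_3_4)) (LitT.Cov.split_t (LitT.cov_of_chunkM cB16_5_3_5) (LitT.Cov.split_e (LitT.Cov.split_t (LitT.Cov.split_e (LitT.Cov.split_t (LitT.Cov.split_e (LitT.cov_of_chunkM cB16_5_3_6) (LitT.cov_of_chunkM cB16_5_3_7)) (LitT.Cov.split_e (LitT.cov_of_chunkM cB16_5_3_8) (LitT.Cov.split_x (LitT.Cov.split_t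 (LitT.Cov.split_e (LitT.cov_of_chunkM cB16_5_3_9) (LitT.cov_of_chunkM cB16_5_3_10)) (LitT.cov_of_chunkM cB16_5_3_11)) (LitT.cov_of_chunkM cB16_5_3_12)))) (LitT.Cov.split_t (LitT.cov_of_chunkM cB16_5_3_13) (LitT.Cov.split_e (LitT.Cov.split_x (LitT.Cov.split_t (LitT.cov_of_chunkM cB16_5_3_14) (LitT.Cov.split_e (LitT.cov_of_chunkM cB16_5_3_15) (LitT.cov_of_chunkM cB16_5_3_16))) (LitT.cov_of_chunkM cB16_5_3_17)) (LitT.Cov.split_x (LitT.cov_of_chunkM cB16_5_3_18) (LitT.cov_of_chunkM cB16_5_3_19))))) (LitT.Cov.split_e (LitT.cov_of_chunkM cB16_5_3_20) (LitT.Cov.split_t (LitT.Cov.split_x (LitT.cov_of_chunkM cB16_5_3_21) (LitT.cov_of_chunkM cB16_5_3_22)) (LitT.cov_of_chunkM cB16_5_3_23)))) (LitT.Cov.split_e (LitT.Cov.split_x (LitT.cov_of_chunkM cB16_5_3_24) (LitT.Cov.split_t (LitT.cov_of_chunkM cB16_5_3_25) (LitT.Cov.split_t (LitT.Cov.split_e (LitT.Cov.split_t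 (LitT.Cov.split_e (LitT.Cov.split_x (LitT.cov_of_chunkM cB16_5_3_26) (LitT.cov_of_chunkM cB16_5_3_27)) (LitT.cov_of_chunkM cB16_5_3_28)) (LitT.cov_of_chunkM cB16_5_3_29)) (LitT.cov_of_chunkM cB16_5_3_30)) (LitT.cov_of_chunkM cB16_5_3_31)))) (LitT.cov_of_chunkM cB16_5_3_32))))))), (LitT.Cov.split_t (LitT.cov_of_chunkM cB16_5_1_0) (LitT.Cov.split_e (LitT.cov_of_chunkM cB16_5_1_1) (LitT.Cov.split_e (LitT.cov_of_chunkM cB16_5_1_2) (LitT.Cov.split_t (LitT.cov_of_chunkM cB16_5_1_3) (LitT.Cov.split_e (LitT.Cov.split_t (LitT.Cov.split_e (LitT.Cov.split_t (LitT.cov_of_chunkM cB16_5_1_4) (LitT.Cov.split_e (LitT.cov_of_chunkM cB16_5_1_5) (LitT.Cov.split_x (LitT.Cov.split_t (LitT.Cov.split_e (LitT.cov_of_chunkM cB16_5_1_6) (LitT.cov_of_chunkM cB16_5_1_7)) (LitT.cov_of_chunkM cB16_5_1_8)) (LitT.cov_of_chunkM cB16_5_1_9)))) (LitT.Cov.split_t (LitT.cov_of_chunkM cB16_5_1_10)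 (LitT.Cov.split_e (LitT.Cov.split_x (LitT.Cov.split_t (LitT.cov_of_chunkM cB16_5_1_11) (LitT.Cov.split_x (LitT.cov_of_chunkM cB16_5_1_12) (LitT.Cov.split_e (LitT.cov_of_chunkM cB16_5_1_13) (LitT.cov_of_chunkM cB16_5_1_14)))) (LitT.cov_of_chunkM cB16_5_1_15)) (LitT.cov_of_chunkM cB16_5_1_16)))) (LitT.Cov.split_e (LitT.cov_of_chunkM cB16_5_1_17) (LitT.Cov.split_x (LitT.cov_of_chunkM cB16_5_1_18) (LitT.cov_of_chunkM cB16_5_1_19)))) (LitT.Cov.split_e (LitT.Cov.split_x (LitT.cov_of_chunkM cB16_5_1_20) (LitT.Cov.split_t (LitT.cov_of_chunkM cB16_5_1_21) (LitT.Cov.split_t (LitT.Cov.split_e (LitT.Cov.split_t (LitT.Cov.split_x (LitT.cov_of_chunkM cB16_5_1_22) (LitT.cov_of_chunkM cB16_5_1_23)) (LitT.cov_of_chunkM cB16_5_1_24)) (LitT.cov_of_chunkM cB16_5_1_25)) (LitT.cov_of_chunkM cB16_5_1_26)))) (LitT.cov_of_chunkM cB16_5_1_27))))))), (LitT.cov_of_chunkM cB16_5_2_0),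 (LitT.cov_of_chunkM cB16_5_0_0)⟩

end Vale.Agent.helper4.Q4
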