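import Vale.Agent.helper4.Q4TreeM
import Vale.Agent.helper4.Q4G.PB16_7

/-!
Checks for pairs of intervals of second moments.
-/

set_option maxRecDepth 100000
set_option linter.unusedVariables false

namespace Vale.Agent.helper4.Q4

theorem cB16_7_3_0 : chunkOkM (LB16_7.ctx true true 107 1 1 1 1 1 1 1 1) muQ true true 64 RtB16_7.Cx RtB16_7.CX RtB16_7.Ctp.left RtB16_7.Ce RtB16_7.CTp RtB16_7.CEr 0x41 = true := by decide +kernel

theorem cB16_7_3_1 : chunkOkM (LB16_7.ctx true true 211 13 8 7 16 39 8 16 32) muQ true true 64 RtB16_7.Cx RtB16_7.CX RtB16_7.Ctp.right RtB16_7.Ce.left RtB16_7.CTp RtB16_7.CEr 0xa198d147fd22ab770ad9f84e1ace8fa5cbf482af6bca7daf140d = true := by decide +kernel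

theorem cB16_7_3_2 : chunkOkM (LB16_7.ctx true true 225 13 8 7 16 143 45 16 32) muQ true true 64 RtB16_7.Cx RtB16_7.CX RtB16_7.Ctp.right.left RtB16_7.Ce.right.left.left RtB16_7.CTp RtB16_7.CEr 0x6ddeb71d8fdb13077f78f811ca6d738f77dd4cdde29f611db53ae15af558339d6f39f460d5ee1874a8fdd369b9f58f823f650ec8f722c73e7da9f6cdb3925b29f52116efbf63af460d3 = true := by decide +kernel

theorem cB16_7_3_3 : chunkOkM (LB16_7.ctx true true 227 13 8 7 16 128 55 16 32) muQ true true 64 RtB16_7.Cx RtB16_7.CX RtB16_7.Ctp.right.left.left RtB16_7.Ce.right.left.right RtB16_7.CTp RtB16_7.CEr 0xd3219e058f824d687e033cbf5392cf155d32bf430d = true := by decide +kernel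

theorem cB16_7_3_4 : chunkOkM (LB16_7.ctx true true 246 25 16 7 16 559 215 16 32) muQ true true 64 RtB16_7.Cx RtB16_7.CX RtB16_7.Ctp.right.left.right RtB16_7.Ce.right.left.right.left RtB16_7.CTp RtB16_7.CEr 0x64db0c818fd1bf19a67c5e6b1bd58f81c4bd93f29f6835f11b049f550d495e5d48288fd84b9b7098f83f8e24e679f61098510741af52d41be5e39f450d8905222c8fd773b08ca78af59f9e98b257af430d34a7e42ef8fd6c73726d8f826b1c79419f6c661e78449f540d6a4922c68fdc54596208f81ba2eee88f7ad6826dba9f558cd2fe4a9f450d3473 = true := by decide +kernel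

theorem cB16_7_3_5 : chunkOkM (LB16_7.ctx true true 248 27 16 7 16 611 235 16 32) muQ true true 64 RtB16_7.Cx RtB16_7.CX RtB16_7.Ctp.right.left.right RtB16_7.Ce.right.left.right.right RtB16_7.CTp RtB16_7.CEr 0x590f534a8fd89f0b0b08f847aa3df699f6e2dd1a25b9f5410b14ccd9f450d72d9b25a8fd250e23778f83dc5777e49f6cd00c74ab9f540d759c8f2c98fd75b506d08f8372608e28f71dd024d4b9f6103e3dddbdaf5758c133c39f460d366e497d98fd288574758f824f4ad948f6706407e7d9f540d522068518fd988617338f825ccdc418f78c19e925e9f6130a73df3aaf59cd617aab9f460d410eef0b8fd446e275a8f83e8b6a8909f6f644277529f540d7347debd6a78fd6c16ad978caf6116b0dc5fe1bf5bcd809c9b4af440d3 = true := by decide +kernel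

theorem cB16_7_3_6 : chunkOkM (LB16_7.ctx true true 107 1 1 1 1 1 1 1 1) muQ true true 64 RtB16_7.Cx RtB16_7.CX RtB16_7.Ctp.right.right.left RtB16_7.Ce.right.left.left RtB16_7.CTp RtB16_7.CEr 0x11 = true := by decide +kernel

theorem cB16_7_3_7 : chunkOkM (LB16_7.ctx true true 107 1 1 1 1 1 1 1 1) muQ true true 64 RtB16_7.Cx RtB16_7.CX RtB16_7.Ctp.right.right.left RtB16_7.Ce.right.left.right.left RtB16_7.CTp RtB16_7.CEr 0x11 = true := by decide +kernel

theorem cB16_7_3_8 : chunkOkM (LB16_7.ctx true true 236 13 8 7 16 325 225 16 32) muQ true true 64 RtB16_7.Cx RtB16_7.CX RtB16_7.Ctp.right.right.left.left RtB16_7.Ce.right.left.right.right.left RtB16_7.CTp RtB16_7.CEr 0x39bc60218f06c = true := by decide +kernel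

theorem cB16_7_3_9 : chunkOkM (LB16_7.ctx true true 262 51 32 7 16 1287 475 16 64) muQ true true 64 RtB16_7.Cx RtB16_7.CX RtB16_7.Ctp.right.right.left.left RtB16_7.Ce.right.left.right.right.right RtB16_7.CTp RtB16_7.CEr 0x6988403fba8fd7b6f5567c3833f2ee29f530d8232e6198fdd2f3457c22626afce9f64776980f99f540d6694786834b298f01c68d291c48fd264db1ec8f86ecdc0058f67548be4979f540d811849d08fd616cd5476cb3b43977f81251437319f6686e3963f9f550d7afe473c8fd2eb9c5576c11cb39d819f68f30cb16f9f540d37832c72c98fd77e97d67c310cd56d8f81386814519f66602c31159f550d473 = true := by decide +kernel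

theorem cB16_7_3_10 : chunkOkM (LB16_7.ctx true true 107 1 1 1 1 1 1 1 1) muQ true true 64 RtB16_7.Cx RtB16_7.CX RtB16_7.Ctp.right.right.left.right RtB16_7.Ce.right.left.right.right RtB16_7.CTp RtB16_7.CEr 0x69 = true := by decide +kernel

theorem cB16_7_3_11 : chunkOkM (LB16_7.ctx true true 107 1 1 1 1 1 1 1 1) muQ true true 64 RtB16_7.Cx RtB16_7.CX RtB16_7.Ctp.right.right.right RtB16_7.Ce.right.left RtB16_7.CTp RtB16_7.CEr 0x11 = true := by decide +kernel

theorem cB16_7_3_12 : chunkOkM (LB16_7.ctx true true 249 53 32 7 16 299 245 16 32) muQ true true 64 RtB16_7.Cx RtB16_7.CX RtB16_7.Ctp.right.left RtB16_7.Ce.right.right RtB16_7.CTp RtB16_7.CEr 0x595959493e672ed7fd9b463a458f8d74651ceb9f61a188894e2af540d7597445934593 = true := by decide +kernel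

theorem cB16_7_3_13 : chunkOkM (LB16_7.ctx true true 246 25 16 7 16 637 245 16 32) muQ true true 64 RtB16_7.Cx.left RtB16_7.CX RtB16_7.Ctp.right.right.left.left.left RtB16_7.Ce.right.right.left.left.left RtB16_7.CTp RtB16_7.CEr 0x848e95e88fd56c12d67c2f48d7498f8207f8ab5a9f69ed8ea6eb9f550d = true := by decide +kernel

theorem cB16_7_3_14 : chunkOkM (LB16_7.ctx true true 270 49 32 7 16 1339 975 32 64) muQ true true 64 RtB16_7.Cx.left.left RtB16_7.CX RtB16_7.Ctp.right.right.left.left.right RtB16_7.Ce.right.right.left.left.left.left RtB16_7.CTp RtB16_7.CEr 0x5731aac98fd1f602fce8f831942c6289f64fbbd7a079f540dbd3d23068fd1545949686c5ee6d94749f65b11d75679f540d1550062749fd10c705977ca0548c1a39f64bb31d3999f540d65456c231d8fd5fa635778f82ea55b92b9f675bd5effa9f540d8c120f058fdc11a13376c70922f6819f530d5599481ac8fd2b1327bd8f81acd7699a9f667bebdb149f540dc9973ef28fd100c582486c637fc71bf9f530d543 = true := by decide +kernel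

theorem cB16_7_3_15 : chunkOkM (LB16_7.ctx true true 256 51 32 7 16 663 485 16 32) muQ true true 64 RtB16_7.Cx.left.right RtB16_7.CX RtB16_7.Ctp.right.right.left.left.right RtB16_7.Ce.right.right.left.left.left.left RtB16_7.CTp RtB16_7.CEr 0x5fc544748fdae93406f824328a0d09f662a2c32f89f540d = true := by decide +kernel

theorem cB16_7_3_16 : chunkOkM (LB16_7.ctx true true 268 99 64 7 16 1313 985 16 32) muQ true true 64 RtB16_7.Cx.left.left RtB16_7.CX RtB16_7.Ctp.right.right.left.left.right.left RtB16_7.Ce.right.right.left.left.left.right RtB16_7.CTp RtB16_7.CEr 0x5974b261bc8fd38d006a76c70bfa61039f530d5974 = true := by decide +kernel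

theorem cB16_7_3_17 : chunkOkM (LB16_7.ctx true true 276 99 64 7 16 1339 985 32 64) muQ true true 64 RtB16_7.Cx.left.left RtB16_7.CX RtB16_7.Ctp.right.right.left.left.right.right RtB16_7.Ce.right.right.left.left.left.right.left RtB16_7.CTp RtB16_7.CEr 0x63dba1898fd1921d6168f81c91912ad9f6614f5c05f9f540dc4e031c58fdf9b489276c5a69de9999f530dce36302d8fd15670e7d86c96f458fcc9f65e7d290449f540d1a6dabe2b9fd10c403e186c576bb05aa9f646086b3ad9f540d675 = true := by decide +kernel

theorem cB16_7_3_18 : chunkOkM (LB16_7.ctx true true 280 99 64 7 16 2691 995 32 64) muQ true true 64 RtB16_7.Cx.left.left RtB16_7.CX RtB16_7.Ctp.right.right.left.left.right.right RtB16_7.Ce.right.right.left.left.left.right.right RtB16_7.CTp RtB16_7.CEr 0x3b4fecd98fd553194988f82621d89479f664cbac4d19f540db62743438fde9014aa76c199a3006f9f664d888bf39f540d5498927498fd46b3082c8f8c82d0b5f8f665450b6af9f540d19467b10b9fd10a720b286c4e0b2e20c9f65953d09f59f540d105165d5b9fdbd57b3976c1675368b69f66863a19a79f540d655937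 = true := by decide +kernel

theorem cB16_7_3_19 : chunkOkM (LB16_7.ctx true true 260 51 32 7 16 1339 495 16 32) muQ true true 64 RtB16_7.Cx.left.right RtB16_7.CX RtB16_7.Ctp.right.right.left.left.right RtB16_7.Ce.right.right.left.left.left.right RtB16_7.CTp RtB16_7.CEr 0x76920b7e8fd45af01076c36a1cb51e9f66aae527739f540d6422a2b08fd300a4b776cd8826be38f67e3145d009f540d3 = true := by decide +kernel

end Vale.Agent.helper4.Q4
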