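import Vale.Agent.helper4.Q4TreeM
import Vale.Agent.helper4.Q4G.PB16_7

/-!
Checks for pairs of intervals of second moments.
-/

set_option maxRecDepth 100000
set_option linter.unusedVariables false

namespace Vale.Agent.helper4.Q4

theorem cB16_7_3_20 : chunkOkM (LB16_7.ctx true true 250 27 16 7 16 663 495 16 32) muQ true true 64 RtB16_7.Cx.right RtB16_7.CX RtB16_7.Ctp.right.right.left.left RtB16_7.Ce.right.right.left.left.left RtB16_7.CTp RtB16_7.CEr 0x5792b4f08fd29b763f68f84a8d7ba3d9f696c4232b39f540d54d1ff318fd65e5e11e8f8187c21ad59f6b33c62b4a9f51bfb00e809f450d4f0d67138fd6328cbcd8f893f63982c9f61005e1286aaf540d43 = true := by decide +kernel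

theorem cB16_7_3_21 : chunkOkM (LB16_7.ctx true true 241 13 8 7 16 637 255 16 32) muQ true true 64 RtB16_7.Cx RtB16_7.CX RtB16_7.Ctp.right.right.left.left.left RtB16_7.Ce.right.right.left.left.right RtB16_7.CTp RtB16_7.CEr 0x54763c378fd8c44a7918f832abb72309f6e59f5c63c9f5249b430859f450d = true := by decide +kernel

theorem cB16_7_3_22 : chunkOkM (LB16_7.ctx true true 277 99 64 7 16 2691 1005 32 32) muQ true true 64 RtB16_7.Cx RtB16_7.CX RtB16_7.Ctp.right.right.left.left.right RtB16_7.Ce.right.right.left.left.right RtB16_7.CTp RtB16_7.CEr 0x4fd9b8cd8fd5e02d57c4021734e8f811cc808719f69e565c0849f550d4186ae338fd1ad65b0e8f81b2721e419f6897da82089f540d45dd8f6e88fdd58cd3b18f6ae40a1d8d9f530d77c295ba8fd41cb6bb76cf53cc7d38f66e9d2301e9f540d583637d08fd167719038f819b615d789f693a6312369f540d359495d2c478fd3ca0241b8f8a6ce5a948f66a98b78609f540dcc0161e48fd103201aa86c7b4434d3e9f530d55935974593747 = true := by decide +kernel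

theorem cB16_7_3_23 : chunkOkM (LB16_7.ctx true true 250 25 16 7 16 689 485 16 32) muQ true true 64 RtB16_7.Cx.left RtB16_7.CX RtB16_7.Ctp.right.right.left.right.left RtB16_7.Ce.right.right.left.left.left.left RtB16_7.CTp RtB16_7.CEr 0x990757878fdd941c467c3986539e8f830d = true := by decide +kernel

theorem cB16_7_3_24 : chunkOkM (LB16_7.ctx true true 280 99 64 7 16 2743 995 32 64) muQ true true 64 RtB16_7.Cx.left.left RtB16_7.CX RtB16_7.Ctp.right.right.left.right.left RtB16_7.Ce.right.right.left.left.left.right RtB16_7.CTp RtB16_7.CEr 0x53309d478fd1178013b8f88d1ade3959f62e2737c149f540d7206130c8fd16c62e1c86caf4b54d0f9f62d4e854ce9f540d1299680769fd12ed75377c141ca839b4af630d3719e1a229f05b155ab452a9fde40d42976c1c39dc4da7af630d1d2e1aa899fd1342d65186c8227a2e959f63e22a221d9f540d372062f7bc89fd12c4a0a77ce3fed671d9f663be65be8f540d4365 = true := by decide +kernel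

theorem cB16_7_3_25 : chunkOkM (LB16_7.ctx true true 256 51 32 7 16 689 495 16 32) muQ true true 64 RtB16_7.Cx.left.right RtB16_7.CX RtB16_7.Ctp.right.right.left.right.left RtB16_7.Ce.right.right.left.left.left.right RtB16_7.CTp RtB16_7.CEr 0x564ccc558f06c = true := by decide +kernel

theorem cB16_7_3_26 : chunkOkM (LB16_7.ctx true true 107 1 1 1 1 1 1 1 1) muQ true true 64 RtB16_7.Cx.left RtB16_7.CX RtB16_7.Ctp.right.right.left.right.right RtB16_7.Ce.right.right.left.left.left RtB16_7.CTp RtB16_7.CEr 0x69 = true := by decide +kernel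

theorem cB16_7_3_27 : chunkOkM (LB16_7.ctx true true 107 1 1 1 1 1 1 1 1) muQ true true 64 RtB16_7.Cx.right RtB16_7.CX RtB16_7.Ctp.right.right.left.right RtB16_7.Ce.right.right.left.left.left RtB16_7.CTp RtB16_7.CEr 0x69 = true := by decide +kernel

theorem cB16_7_3_28 : chunkOkM (LB16_7.ctx true true 276 99 64 7 16 1365 1005 32 64) muQ true true 64 RtB16_7.Cx.left.left RtB16_7.CX RtB16_7.Ctp.right.right.left.right.left.left RtB16_7.Ce.right.right.left.left.right.left.left RtB16_7.CTp RtB16_7.CEr 0x54b6a81f8fd1d5a6fc38f867a267e9d9f6423b6d29a9f540d1dc396e7c9fd139dce8c86c7256e0d099f654f1d40539f540d17971a8539fd104169a486c86333c9459f63ffcfb42b9f540d6155531de09fd145df70a86ce315051e49f636c6ddb3d9f540d1a96faffb9fd1155a63a86c11e345d026af62aefd26859f540d675 = true := by decide +kernel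

theorem cB16_7_3_29 : chunkOkM (LB16_7.ctx true true 342 3135 2048 7 16 44083 32325 32 64) muQ true true 64 RtB16_7.Cx.left.left RtB16_7.CX RtB16_7.Ctp.right.right.left.right.left.left RtB16_7.Ce.right.right.left.left.right.left.right RtB16_7.CTp RtB16_7.CEr 0x547eb0818fde4915357f83670faddc9f65b94024139f540dc2d2790c8fd147c837586c5561eec489f66268c09d99f540d1ff6ab3de9fd134cc38186c64f5f75129f653daaff139f540d6bec784ba8fde248ea576c9b15c91219f530d355969696969529e1b058f06c21d05cd809feed8fdc9357ef76c2e71c1452baf630d65469769346976934697693469759345975937 = true := by decide +kernel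

theorem cB16_7_3_30 : chunkOkM (LB16_7.ctx true true 276 99 64 7 16 1391 1015 32 64) muQ true true 64 RtB16_7.Cx.left.left RtB16_7.CX RtB16_7.Ctp.right.right.left.right.left.right RtB16_7.Ce.right.right.left.left.right.left RtB16_7.CTp RtB16_7.CEr 0x53ce26078fd187c929b8f8bd1d693cb9f616531f2ca9f540d81fb95868fd1162583086c1414ad7a51af630d1d35150349fd10724c6886c10648719deaf6416726e68f540d6b8883aa38fd1537c2f386c241e38592faf630de088f3288fdf4cfe3676c217b8fab9baf630d6796c711478fd1573d67486c113f8e9fffaf630d1c7b786149fd1263e82d86c104b18ee5baf630d645 = true := by decide +kernel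

end Vale.Agent.helper4.Q4
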