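import Vale.Agent.helper4.Q4TreeM
import Vale.Agent.helper4.Q4G.PB16_7

/-!
Checks for pairs of intervals of second moments.
-/

set_option maxRecDepth 100000
set_option linter.unusedVariables false

namespace Vale.Agent.helper4.Q4

theorem cB16_7_3_131 : chunkOkM (LB16_7.ctx true true 282 111 64 7 16 3003 1145 32 64) muQ true true 64 RtB16_7.Cx.right.right.right RtB16_7.CX RtB16_7.Ctp.right.right.right.left.left.right RtB16_7.Ce.right.right.right.left.left.right.left RtB16_7.CTp RtB16_7.CEr 0x541117bf8fd14a89c576c7ea1229139f64e8d47a509f540db7954ba98fdddafd0e76ce2fb8e8569f6452380dd39f540d5b7daae1c8fd715d22776c271044c10eaf630da28a6da38fd67ade5676ca3c23d97a9f64907895199f540d36 = true := by decide +kernel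

theorem cB16_7_3_132 : chunkOkM (LB16_7.ctx true true 287 219 128 7 16 3003 2305 16 64) muQ true true 64 RtB16_7.Cx.right.right.left RtB16_7.CX RtB16_7.Ctp.right.right.right.left.left.right RtB16_7.Ce.right.right.right.left.left.right.right RtB16_7.CTp RtB16_7.CEr 0x6984a6b8248fd9da5b9f76c642252ce4baf630d106b7ed139fdac28d2f76c318457ddd7af630d64697693 = true := by decide +kernel

theorem cB16_7_3_133 : chunkOkM (LB16_7.ctx true true 317 887 512 7 16 23907 9245 16 64) muQ true true 64 RtB16_7.Cx.right.right.right RtB16_7.CX RtB16_7.Ctp.right.right.right.left.left.right.left RtB16_7.Ce.right.right.right.left.left.right.right RtB16_7.CTp RtB16_7.CEr 0x766ac4348fd73dbb4276c85d8542bf9f65369b17f59f540d762de0c58fd589299b76c570e5ecf8f8d0c100c469f64d83a95839f550d659597e72c1af8fd67f3e1f76c645ef85f69f530dade4056f8fd592042e76c1b3f9ae849af62af3464d79f540d65934597593459759379194c8668fd7be4eb276cb50438c6a9f64c9f18e149f540dc9eb95278fd6f4c9f776c5688ab5359f6602a2b1569f540d64 = true := by decide +kernel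

theorem cB16_7_3_134 : chunkOkM (LB16_7.ctx true true 285 111 64 7 16 3003 2315 32 64) muQ true true 64 RtB16_7.Cx.right.right.right RtB16_7.CX RtB16_7.Ctp.right.right.right.left.left.right.right RtB16_7.Ce.right.right.right.left.left.right.right RtB16_7.CTp RtB16_7.CEr 0x3b6921018fdb6115d17f8137ff48ccfaf6eb9814378f540d18accf80c9fd10adbb7c86c144c247038af61968b35569f540d51f2a3e7539f81e29902a68af620d14a9f3b7c9fdb0492b876c181c02542baf615b4bd41f9f540d5ccfbf51c8fd7f1fdf376c25b1bbf98f8290bd6a809af640d46 = true := by decide +kernel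

theorem cB16_7_3_135 : chunkOkM (LB16_7.ctx true true 311 1695 1024 7 16 1521 9045 32 64) muQ true true 64 RtB16_7.Cx.right.left.left RtB16_7.CX RtB16_7.Ctp.right.right.right.left.right RtB16_7.Ce.right.right.right.left.left.left RtB16_7.CTp.left RtB16_7.CEr 0x01212121329859e109fd2154eaee86c1a5a01507aaf630d1cf68af389fd1491adb286c14fe5dc84faf63edcd3f499f240d62174217421742172014d10399fd1a5f269f86cc4fef04199f63a719be079f240d174c41dba9fd13125f8186c111934afc5af6498c08dbd9f240d643 = true := by decide +kernel

theorem cB16_7_3_136 : chunkOkM (LB16_7.ctx true true 282 107 64 7 16 3029 1135 32 64) muQ true true 64 RtB16_7.Cx.right.left.right RtB16_7.CX RtB16_7.Ctp.right.right.right.left.right RtB16_7.Ce.right.right.right.left.left.left RtB16_7.CTp.left RtB16_7.CEr 0x85d087fd8fd14bb4f0e86cd3f7981319f628b19e1b69f240d4854e55e99f00b19f6e7c669fd13f8f35e86c149e17be3faf6116ddb2a79f240d361111152c05cdc985da38fd1177e08186c270039ba5caf630d6334 = true := by decide +kernel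

theorem cB16_7_3_137 : chunkOkM (LB16_7.ctx true true 269 53 32 7 16 1547 1135 32 32) muQ true true 64 RtB16_7.Cx.right.left RtB16_7.CX RtB16_7.Ctp.right.right.right.left.right RtB16_7.Ce.right.right.right.left.left.left RtB16_7.CTp.right RtB16_7.CEr 0x4646b6088fdbe19ab07f8673f30cdd9f114c2c94030af040d4579c9738fdfebc5657f811de849fe0af61793b6fc39f240d52f40a228fd67d3d79079f63f4e8c1279f230d43 = true := by decide +kernel

theorem cB16_7_3_138 : chunkOkM (LB16_7.ctx true true 107 1 1 1 1 1 1 1 1) muQ true true 64 RtB16_7.Cx.right.left.left RtB16_7.CX RtB16_7.Ctp.right.right.right.left.right RtB16_7.Ce.right.right.right.left.left.right RtB16_7.CTp RtB16_7.CEr 0x21 = true := by decide +kernel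

theorem cB16_7_3_139 : chunkOkM (LB16_7.ctx true true 291 215 128 7 16 3055 2285 32 64) muQ true true 64 RtB16_7.Cx.right.left.right RtB16_7.CX RtB16_7.Ctp.right.right.right.left.right.left RtB16_7.Ce.right.right.right.left.left.right.left RtB16_7.CTp RtB16_7.CEr 0x46bed3df8fde63bab47f811e38c1a7baf669e6fbcb8f240d16cc7fe1f9fd1926d97686c1dfcd25e16af61226e8c109f240d166a105a49fd12d0da7d86c134da08f78af623304b5d59f240d66927de5db086c25136db217af620d29fad11db9fd190f4acc86c2f8b5112bdaf630d6469735 = true := by decide +kernel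

theorem cB16_7_3_140 : chunkOkM (LB16_7.ctx true true 318 863 512 7 16 12259 9205 32 64) muQ true true 64 RtB16_7.Cx.right.left.right RtB16_7.CX RtB16_7.Ctp.right.right.right.left.right.left RtB16_7.Ce.right.right.right.left.left.right.right RtB16_7.CTp RtB16_7.CEr 0x2121693b7be4de8f06c21d05c322272cd09fd1c1ed32b86c9f65ef66f9af630d65469321746932174217693 = true := by decide +kernel

end Vale.Agent.helper4.Q4
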