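import Vale.Agent.helper4.Q4TreeM
import Vale.Agent.helper4.Q4G.PB16_7

/-!
Checks for pairs of intervals of second moments.
-/

set_option maxRecDepth 100000
set_option linter.unusedVariables false

namespace Vale.Agent.helper4.Q4

theorem cB16_7_3_141 : chunkOkM (LB16_7.ctx true true 315 863 512 7 16 12285 4605 32 64) muQ true true 64 RtB16_7.Cx.right.left.right RtB16_7.CX RtB16_7.Ctp.right.right.right.left.right.right RtB16_7.Ce.right.right.right.left.left.right RtB16_7.CTp RtB16_7.CEr 0x0101015a9cab158fd16f7c0776c83420e9449f230d212121d05c21d6030c49fd16c5352586c371653e7c5af6333d8fb9b9f240d62174421d05c2bdf8df909fd1af4815786c77bfa8b79eaf65457aa0449f240d611411445333017017 = true := by decide +kernel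

theorem cB16_7_3_142 : chunkOkM (LB16_7.ctx true true 262 55 32 7 16 767 565 32 32) muQ true true 64 RtB16_7.Cx.right.right RtB16_7.CX RtB16_7.Ctp.right.right.right.left.right RtB16_7.Ce.right.right.right.left.left.left RtB16_7.CTp RtB16_7.CEr 0x338c32828f06cc0b76fab8fd11ce6cb77c4a4914eb81af630d5 = true := by decide +kernel

theorem cB16_7_3_143 : chunkOkM (LB16_7.ctx true true 278 109 64 7 16 1521 1145 32 64) muQ true true 64 RtB16_7.Cx.right.right RtB16_7.CX RtB16_7.Ctp.right.right.right.left.right.left RtB16_7.Ce.right.right.right.left.left.right.left RtB16_7.CTp RtB16_7.CEr 0x551c5f528fd21152b84d3af620d691cde1859c9fd191c91e586c19b500b47faf630d1c9448ebf9fd1365f9cc86c16cf73b760af630d675 = true := by decide +kernel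

theorem cB16_7_3_144 : chunkOkM (LB16_7.ctx true true 301 435 256 7 16 6071 2315 32 64) muQ true true 64 RtB16_7.Cx.right.right.left RtB16_7.CX RtB16_7.Ctp.right.right.right.left.right.left RtB16_7.Ce.right.right.right.left.left.right.right RtB16_7.CTp.left RtB16_7.CEr 0x187dcbf139fd1679b8e286c2e64801a63af630d1392cfa9d9fd108b915686c184f63308daf630d6230c4e2586c24022ebf48af620d208a725eb9fd1395837186c4084b592b3af630d61fcc6d4186c3e32b3e98caf620dbc77e81e8fdb8c5b3676c296d80aeddaf630d6469bd1377a38fd11d16b8586c50bb671a85af630d693697473 = true := by decide +kernel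

theorem cB16_7_3_145 : chunkOkM (LB16_7.ctx true true 275 109 64 7 16 1521 1155 32 32) muQ true true 64 RtB16_7.Cx.right.right.left RtB16_7.CX RtB16_7.Ctp.right.right.right.left.right.left RtB16_7.Ce.right.right.right.left.left.right.right RtB16_7.CTp.right RtB16_7.CEr 0x4ad75f6d8fd82656c66c17b4bd53f6af630d = true := by decide +kernel

theorem cB16_7_3_146 : chunkOkM (LB16_7.ctx true true 274 111 64 7 16 1521 1155 16 64) muQ true true 64 RtB16_7.Cx.right.right.right RtB16_7.CX RtB16_7.Ctp.right.right.right.left.right.left RtB16_7.Ce.right.right.right.left.left.right.right RtB16_7.CTp RtB16_7.CEr 0x97744f628fd9735a6476c204aef993baf630de03241c98fd9ba30f076c2897ff9cd0af630d6 = true := by decide +kernel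

theorem cB16_7_3_147 : chunkOkM (LB16_7.ctx true true 282 109 64 7 16 3081 1155 32 64) muQ true true 64 RtB16_7.Cx.right.right RtB16_7.CX RtB16_7.Ctp.right.right.right.left.right.right RtB16_7.Ce.right.right.right.left.left.right RtB16_7.CTp RtB16_7.CEr 0x115d1545f58fd3288d166c24519184e9f6657f55e689f240d112c7fb43da9fd1e8090aa86cdbed6bc209f634264b3829f240d2418203ac9fd16f351aa86cb18d745dd9f64766be8b19f240d6711453 = true := by decide +kernel

theorem cB16_7_3_148 : chunkOkM (LB16_7.ctx true true 107 1 1 1 1 1 1 1 1) muQ true true 64 RtB16_7.Cx.right.left RtB16_7.CX RtB16_7.Ctp.right.right.right.left RtB16_7.Ce.right.right.right.left.right RtB16_7.CTp RtB16_7.CEr 0x21 = true := by decide +kernel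

theorem cB16_7_3_149 : chunkOkM (LB16_7.ctx true true 107 1 1 1 1 1 1 1 1) muQ true true 64 RtB16_7.Cx.right.right RtB16_7.CX RtB16_7.Ctp.right.right.right.left.left.left RtB16_7.Ce.right.right.right.left.right.left RtB16_7.CTp RtB16_7.CEr 0x59 = true := by decide +kernel

theorem cB16_7_3_150 : chunkOkM (LB16_7.ctx true true 107 1 1 1 1 1 1 1 1) muQ true true 64 RtB16_7.Cx.right.right.left RtB16_7.CX RtB16_7.Ctp.right.right.right.left.left.right RtB16_7.Ce.right.right.right.left.right.left RtB16_7.CTp RtB16_7.CEr 0x59 = true := by decide +kernel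

theorem cB16_7_3_151 : chunkOkM (LB16_7.ctx true true 312 895 512 7 16 11947 9285 16 64) muQ true true 64 RtB16_7.Cx.right.right.right RtB16_7.CX RtB16_7.Ctp.right.right.right.left.left.right.left RtB16_7.Ce.right.right.right.left.right.left.left RtB16_7.CTp RtB16_7.CEr 0x5959596812c8ee8fd6022f7676c72d7b229b9f530d7a7e57498fdb4d137c76ca70589f58f87552f22fe9f540d6459759345975934597 = true := by decide +kernel

theorem cB16_7_3_152 : chunkOkM (LB16_7.ctx true true 306 887 512 7 16 6019 4645 16 64) muQ true true 64 RtB16_7.Cx.right.right.right RtB16_7.CX RtB16_7.Ctp.right.right.right.left.left.right.right RtB16_7.Ce.right.right.right.left.right.left.left RtB16_7.CTp RtB16_7.CEr 0x9c69fd3e8fd6e0ef1676c1f194d16e1af6300d7013e9f540d998a4f938fd63b33cf76c103f7ed602af64c6e878739f540d65978ecb92218fd7b36be676c15c738f708af63d1641a159f540dba3de92d8fd8ce6e8a76c1ec793588f8187d99a79aaf63af2d23c29f550d669676ad0918fd69890e876c32921ba75caf630de8c2811f8fd96017ef76c3f63b621cdaf630d6697469769374 = true := by decide +kernel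

theorem cB16_7_3_153 : chunkOkM (LB16_7.ctx true true 107 1 1 1 1 1 1 1 1) muQ true true 64 RtB16_7.Cx.right.right.right RtB16_7.CX RtB16_7.Ctp.right.right.right.left.left.right RtB16_7.Ce.right.right.right.left.right.left.right RtB16_7.CTp RtB16_7.CEr 0x59 = true := by decide +kernel

theorem cB16_7_3_154 : chunkOkM (LB16_7.ctx true true 107 1 1 1 1 1 1 1 1) muQ true true 64 RtB16_7.Cx.right.right RtB16_7.CX RtB16_7.Ctp.right.right.right.left.left RtB16_7.Ce.right.right.right.left.right.right RtB16_7.CTp RtB16_7.CEr 0x59 = true := by decide +kernel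

theorem cB16_7_3_155 : chunkOkM (LB16_7.ctx true true 292 219 128 7 16 3055 2335 32 64) muQ true true 64 RtB16_7.Cx.right.right.left RtB16_7.CX RtB16_7.Ctp.right.right.right.left.right.left RtB16_7.Ce.right.right.right.left.right.left.left RtB16_7.CTp RtB16_7.CEr 0x4bd1a4a48fd491b6dd71daf620db53fe9848fd1162907d86c78b0c86e67af630d241cb29886c287f162eb5af620d27643bbd09fd17a8b9b986c370f412935af630d645697693 = true := by decide +kernel

theorem cB16_7_3_156 : chunkOkM (LB16_7.ctx true true 285 111 64 7 16 3055 2335 32 64) muQ true true 64 RtB16_7.Cx.right.right.right RtB16_7.CX RtB16_7.Ctp.right.right.right.left.right.left RtB16_7.Ce.right.right.right.left.right.left.left RtB16_7.CTp RtB16_7.CEr 0x5b3311108fd3ba9eba76c10491a7afdaf630d6800563a8fdc27895f76c133815d00caf630d5c62f8c428fda2ca31a76c1d37d4e2e0af630dc351389a8fd954a23976c1c4e9bfa8f8308bee2490af640de3ba86358fd949b4bf76c30a741f2c4af630d436 = true := by decide +kernel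

theorem cB16_7_3_157 : chunkOkM (LB16_7.ctx true true 107 1 1 1 1 1 1 1 1) muQ true true 64 RtB16_7.Cx.right.right.left RtB16_7.CX RtB16_7.Ctp.right.right.right.left.right.left RtB16_7.Ce.right.right.right.left.right.left.right RtB16_7.CTp RtB16_7.CEr 0x69 = true := by decide +kernel

end Vale.Agent.helper4.Q4
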