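import Vale.Agent.helper4.Q4TreeM
import Vale.Agent.helper4.Q4G.PB16_7

/-!
Checks for pairs of intervals of second moments.
-/

set_option maxRecDepth 100000
set_option linter.unusedVariables false

namespace Vale.Agent.helper4.Q4

theorem cB16_7_3_158 : chunkOkM (LB16_7.ctx true true 287 223 128 7 16 3029 2345 16 64) muQ true true 64 RtB16_7.Cx.right.right.right RtB16_7.CX RtB16_7.Ctp.right.right.right.left.right.left.left RtB16_7.Ce.right.right.right.left.right.left.right RtB16_7.CTp RtB16_7.CEr 0x69891203f58fd7efa76c76c3409113206af630db068e1238fd87134a576c333fdc243caf630d64697 = true := by decide +kernel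

theorem cB16_7_3_159 : chunkOkM (LB16_7.ctx true true 297 443 256 7 16 3055 2355 32 64) muQ true true 64 RtB16_7.Cx.right.right.right RtB16_7.CX RtB16_7.Ctp.right.right.right.left.right.left.right RtB16_7.Ce.right.right.right.left.right.left.right RtB16_7.CTp RtB16_7.CEr 0x49fb86f88fd602532a7f8363dca5663af630d2037e46b86c1f966a299daf620ddd2b12458fdd01417f76c4b5af091a0af630d6697fa21b8a98fdfdde23076c20a4611b0daf630d992875908fd956741076c2c26c5640baf630d61fd2e39886c2332f90846af620d1ae6a7e329fd1153925086c308b708ca9af630d6697745 = true := by decide +kernel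

theorem cB16_7_3_160 : chunkOkM (LB16_7.ctx true true 293 439 256 7 16 1547 2345 32 64) muQ true true 64 RtB16_7.Cx.right.right.left RtB16_7.CX RtB16_7.Ctp.right.right.right.left.right.right RtB16_7.Ce.right.right.right.left.right.left RtB16_7.CTp RtB16_7.CEr 0x214c843bf88fd17d98931dbaf621f9620319f230d118e208a89fd14d0516086c16c077d79aaf62cd81216b9f240d1164f72e99fd100acfc886c1330ea575faf633a53731d9f240d6521742174857c9ed8fd95310f66c1fa3593fc9af630d1813d60a59fd174c9f3e86cf0c9ad6179f62392135b99f240d18d3228449fd121d059a86c124ed063caaf62d397962d9f240d654 = true := by decide +kernel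

theorem cB16_7_3_161 : chunkOkM (LB16_7.ctx true true 278 111 64 7 16 1547 1175 32 64) muQ true true 64 RtB16_7.Cx.right.right.right RtB16_7.CX RtB16_7.Ctp.right.right.right.left.right.right RtB16_7.Ce.right.right.right.left.right.left RtB16_7.CTp RtB16_7.CEr 0x64ad5f668fd2417ed776c1c429e9d2caf630dfa30814a8fd12f7f72886c1085acfe97af630d158011a309fd10a11a5686c1895b9ce62af6ca3d9cab8f240d6541b9fc748f06c112c05ce26125108fd108b46577c2df735839eaf630d654 = true := by decide +kernel

theorem cB16_7_3_162 : chunkOkM (LB16_7.ctx true true 107 1 1 1 1 1 1 1 1) muQ true true 64 RtB16_7.Cx.right.right.left RtB16_7.CX RtB16_7.Ctp.right.right.right.left.right RtB16_7.Ce.right.right.right.left.right.right RtB16_7.CTp RtB16_7.CEr 0x21 = true := by decide +kernel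

theorem cB16_7_3_163 : chunkOkM (LB16_7.ctx true true 277 111 64 7 16 3055 1185 16 32) muQ true true 64 RtB16_7.Cx.right.right.right RtB16_7.CX RtB16_7.Ctp.right.right.right.left.right.left RtB16_7.Ce.right.right.right.left.right.right RtB16_7.CTp RtB16_7.CEr 0x5981fa101b8fdeaaefb476c64797ade8f8131a89c9cc9bf640d5934 = true := by decide +kernel

theorem cB16_7_3_164 : chunkOkM (LB16_7.ctx true true 298 443 256 7 16 3107 2375 32 64) muQ true true 64 RtB16_7.Cx.right.right.right RtB16_7.CX RtB16_7.Ctp.right.right.right.left.right.right RtB16_7.Ce.right.right.right.left.right.right.left RtB16_7.CTp.left RtB16_7.CEr 0x1c87242f69fd18a538de86c153015633eaf630d1247842959fdeb0606b76c18c11f54c0af61a559e0db9f240d62131e2d645f9fd1ff9a58e86c2447c62ac4af630d1628ecd589fded124a676c3c6c1a8f16af630d621747ac4688238fd100d32ad86c543f95151eaf630d20e7876886c29aa3cce66af620dfa21b15f8fdfd7a2e576c47a4ce5ca1af630d646973 = true := by decide +kernel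

theorem cB16_7_3_165 : chunkOkM (LB16_7.ctx true true 275 111 64 7 16 1547 1185 32 32) muQ true true 64 RtB16_7.Cx.right.right.right RtB16_7.CX RtB16_7.Ctp.right.right.right.left.right.right RtB16_7.Ce.right.right.right.left.right.right.left RtB16_7.CTp.right RtB16_7.CEr 0x3f304df98fd112339128f810e9bf7efeaf630d = true := by decide +kernel

theorem cB16_7_3_166 : chunkOkM (LB16_7.ctx true true 302 447 256 7 16 6227 2385 32 64) muQ true true 64 RtB16_7.Cx.right.right.right RtB16_7.CX RtB16_7.Ctp.right.right.right.left.right.right RtB16_7.Ce.right.right.right.left.right.right.right RtB16_7.CTp RtB16_7.CEr 0x212fed40c68fd6f2e446f86873700467af630d3585b51599fd20fa231186c2ca7b28743af630d147febbc79fde0c833576c39a75f3768af630d656932174217693 = true := by decide +kernel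

theorem cB16_7_3_167 : chunkOkM (LB16_7.ctx true true 301 447 256 7 16 6253 2385 32 64) muQ true true 64 RtB16_7.Cx.right RtB16_7.CX RtB16_7.Ctp.right.right.right.right RtB16_7.Ce.right.right.right.left RtB16_7.CTp RtB16_7.CEr 0x010101012141324efd8f06c122c05c16020b4e99fd1092fce586c12b56bd1a7af672332a2f29f240d6521743d5e8fcd8f06cb98cc9ce8fd12c2206d86cf89fb50e59f66b62270a39f240d543331143114017017017 = true := by decide +kernel

theorem cB16_7_3_168 : chunkOkM (LB16_7.ctx true true 107 1 1 1 1 1 1 1 1) muQ true true 64 RtB16_7.Cx RtB16_7.CX RtB16_7.Ctp.right.right RtB16_7.Ce.right.right.right.right RtB16_7.CTp RtB16_7.CEr 0x21 = true := by decide +kernel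

theorem cB16_7_2_0 : chunkOkM (LB16_7.ctx false true 107 1 1 1 1 1 1 1 1) muQ false true 64 RtB16_7.Cx RtB16_7.CX RtB16_7.Ctn RtB16_7.Ce RtB16_7.CTp RtB16_7.CEr 0x49 = true := by decide +kernel

theorem cB16_7_1_0 : chunkOkM (LB16_7.ctx true false 107 1 1 1 1 1 1 1 1) muQ true false 64 RtB16_7.Cx RtB16_7.CX RtB16_7.Ctp.left RtB16_7.Ce RtB16_7.CTn RtB16_7.CEr 0x41 = true := by decide +kernel

theorem cB16_7_1_1 : chunkOkM (LB16_7.ctx true false 226 13 8 7 16 39 8 32 512) muQ true false 64 RtB16_7.Cx RtB16_7.CX RtB16_7.Ctp.right RtB16_7.Ce.left RtB16_7.CTn.left.left.left RtB16_7.CEr.left.left.left.left 0x1c09eea469f06b = true := by decide +kernel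

theorem cB16_7_1_2 : chunkOkM (LB16_7.ctx true false 241 13 8 7 16 143 45 32 512) muQ true false 64 RtB16_7.Cx RtB16_7.CX RtB16_7.Ctp.right.left RtB16_7.Ce.right.left.left RtB16_7.CTn.left.left.left RtB16_7.CEr.left.left.left.left 0x023ea3c4cc9f6db95e727c9f51dd9b23fb8af430d3 = true := by decide +kernel

end Vale.Agent.helper4.Q4
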