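import Vale.Agent.helper4.Q4TreeM
import Vale.Agent.helper4.Q4G.PB16_7

/-!
Checks for pairs of intervals of second moments.
-/

set_option maxRecDepth 100000
set_option linter.unusedVariables false

namespace Vale.Agent.helper4.Q4

theorem cB16_7_1_3 : chunkOkM (LB16_7.ctx true false 255 13 8 7 16 299 235 32 512) muQ true false 64 RtB16_7.Cx RtB16_7.CX RtB16_7.Ctp.right.left RtB16_7.Ce.right.left.right RtB16_7.CTn.left.left.left RtB16_7.CEr.left.left.left.left 0xb9a272c7e9f53cc0235e79f420d80ec26f0a9f05b461b2322e91af62986a595aefbf53448c069a1ebf430d334826e2c29f05b30b5d1b379f6cd3b088b79f5a18a125ec9f430d3496fa66a9a3af515fd1da0ca8bf420d3 = true := by decide +kernel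

theorem cB16_7_1_4 : chunkOkM (LB16_7.ctx true false 249 13 8 7 16 325 115 32 512) muQ true false 64 RtB16_7.Cx RtB16_7.CX RtB16_7.Ctp.right.right RtB16_7.Ce.right.left RtB16_7.CTn.left.left.left RtB16_7.CEr.left.left.left.left 0x11696776658c368f126579f66b76715b19f530d31141143 = true := by decide +kernel

theorem cB16_7_1_5 : chunkOkM (LB16_7.ctx true false 240 13 8 7 16 143 35 32 512) muQ true false 64 RtB16_7.Cx RtB16_7.CX RtB16_7.Ctp.right.left RtB16_7.Ce.right.right RtB16_7.CTn.left.left.left RtB16_7.CEr.left.left.left.left 0x6dd86ebce9f6193befffb2af56e26947529f430d593 = true := by decide +kernel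

theorem cB16_7_1_6 : chunkOkM (LB16_7.ctx true false 263 27 16 7 16 663 255 32 512) muQ true false 64 RtB16_7.Cx RtB16_7.CX RtB16_7.Ctp.right.right.left.left RtB16_7.Ce.right.right.left.left RtB16_7.CTn.left.left.left RtB16_7.CEr.left.left.left.left 0x83ec93d119f05bba1feb3209f05b33fba35ada9f6a421e40c29f520d1529e89679fd87f20067c3bd7c24669f6605e331e19f540d8794bae679f05b374 = true := by decide +kernel

theorem cB16_7_1_7 : chunkOkM (LB16_7.ctx true false 253 13 8 7 16 351 245 32 512) muQ true false 64 RtB16_7.Cx RtB16_7.CX RtB16_7.Ctp.right.right.left.right RtB16_7.Ce.right.right.left.left.left RtB16_7.CTn.left.left.left RtB16_7.CEr.left.left.left.left 0x3266062fe9fd89db958c5c10a457c9f6276bc59009f540d = true := by decide +kernel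

theorem cB16_7_1_8 : chunkOkM (LB16_7.ctx true false 273 51 32 7 16 715 515 32 512) muQ true false 64 RtB16_7.Cx.left RtB16_7.CX RtB16_7.Ctp.right.right.left.right RtB16_7.Ce.right.right.left.left.right RtB16_7.CTn.left.left.left RtB16_7.CEr.left.left.left.left 0x0eb9755c28fd1843a3b77cb7a78115e9f630d7648417b059f06b4186df3b78fd13b4ccb77c2df84504b9f6596b4c7559f540d71718beb59fda0245367cc591a4d399f62baf81dda9f540d73159e08a19f05b174283d589fdee29ae67c91fd44f499f62a27411059f540d743 = true := by decide +kernel

theorem cB16_7_1_9 : chunkOkM (LB16_7.ctx true false 259 27 16 7 16 351 255 32 512) muQ true false 64 RtB16_7.Cx.right RtB16_7.CX RtB16_7.Ctp.right.right.left.right RtB16_7.Ce.right.right.left.left.right RtB16_7.CTn.left.left.left RtB16_7.CEr.left.left.left.left 0x2524a6b6d9f05b = true := by decide +kernel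

theorem cB16_7_1_10 : chunkOkM (LB16_7.ctx true false 250 13 8 7 16 325 135 32 512) muQ true false 64 RtB16_7.Cx RtB16_7.CX RtB16_7.Ctp.right.right.left.left RtB16_7.Ce.right.right.left.right RtB16_7.CTn.left.left.left RtB16_7.CEr.left.left.left.left 0x42da832359f6e6d4a1dec9f520d = true := by decide +kernel

theorem cB16_7_1_11 : chunkOkM (LB16_7.ctx true false 277 51 32 7 16 1443 535 32 512) muQ true false 64 RtB16_7.Cx RtB16_7.CX RtB16_7.Ctp.right.right.left.right RtB16_7.Ce.right.right.left.right.left RtB16_7.CTn.left.left.left RtB16_7.CEr.left.left.left.left 0x5dba1d708fd16ca03577c69d5f01119f653576874b9f540d7e2fe484f9f05b31a7937e489fda552e967c13d68d4652af68280071d8f540d113f18f539fd7d6bf867c50997d5129f64b0ca4b829f540d369717d3ddf629fddd7e6767cb74d5f6ad9f61e931fa8f9f540d14c2da33d9fd13907d777c1011b2eeebaf63fd26a928f240d7484159b1359f05b37 = true := by decide +kernel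

theorem cB16_7_1_12 : chunkOkM (LB16_7.ctx true false 273 51 32 7 16 715 555 32 512) muQ true false 64 RtB16_7.Cx RtB16_7.CX RtB16_7.Ctp.right.right.left.right RtB16_7.Ce.right.right.left.right.right RtB16_7.CTn.left.left.left RtB16_7.CEr.left.left.left.left 0x812abd9f49f05b8c706b67c468c009259f658677ec179f530d4a37727a1d9f05b35915278a5037af06b21745937 = true := by decide +kernel

theorem cB16_7_1_13 : chunkOkM (LB16_7.ctx true false 251 13 8 7 16 377 125 32 512) muQ true false 64 RtB16_7.Cx RtB16_7.CX RtB16_7.Ctp.right.right.right.left RtB16_7.Ce.right.right.left.left RtB16_7.CTn.left.left.left RtB16_7.CEr.left.left.left.left 0x9f79e63049fd1ed8bcb77c1258f37289f63ad6964029f240d = true := by decide +kernel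

theorem cB16_7_1_14 : chunkOkM (LB16_7.ctx true false 277 51 32 7 16 1469 535 32 512) muQ true false 64 RtB16_7.Cx.left RtB16_7.CX RtB16_7.Ctp.right.right.right.left.left RtB16_7.Ce.right.right.left.right.left RtB16_7.CTn.left.left.left RtB16_7.CEr.left.left.left.left 0x2118c35489fde376aa67ca309a91269f61912bae619f240d040116a05b4559fd12bf48c77cefe31807e9f6440d7faea9f240d1c3098877c3a7840cb09f63b23bd0919f230d437 = true := by decide +kernel

theorem cB16_7_1_15 : chunkOkM (LB16_7.ctx true false 286 103 64 7 16 1495 1095 32 512) muQ true false 64 RtB16_7.Cx.left RtB16_7.CX RtB16_7.Ctp.right.right.right.left.left RtB16_7.Ce.right.right.left.right.right RtB16_7.CTn.left.left.left RtB16_7.CEr.left.left.left.left 0x18040c42d9fd1081b2877ceb35197239f61ed4123299f240d693217fc952bc38fd128a76477ce22348ead9f610fc574ba9f240d28d265ded9fd179370177cc4bf4d8069f630d4173f90bf99fda8715b67cbef8ff5d39f63aee3a65a9f240d74217 = true := by decide +kernel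

theorem cB16_7_1_16 : chunkOkM (LB16_7.ctx true false 107 1 1 1 1 1 1 1 1) muQ true false 64 RtB16_7.Cx.left RtB16_7.CX RtB16_7.Ctp.right.right.right.left.right RtB16_7.Ce.right.right.left.right RtB16_7.CTn.left.left.left RtB16_7.CEr.left.left.left.left 0x01 = true := by decide +kernel

end Vale.Agent.helper4.Q4
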