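import Vale.Agent.helper4.Q4TreeM
import Vale.Agent.helper4.Q4G.PB16_7

/-!
Checks for pairs of intervals of second moments.
-/

set_option maxRecDepth 100000
set_option linter.unusedVariables false

namespace Vale.Agent.helper4.Q4

theorem cB16_7_1_17 : chunkOkM (LB16_7.ctx true false 281 55 32 7 16 1495 1115 32 512) muQ true false 64 RtB16_7.Cx.right RtB16_7.CX RtB16_7.Ctp.right.right.right.left RtB16_7.Ce.right.right.left.right RtB16_7.CTn.left.left.left RtB16_7.CEr.left.left.left.left 0x4c49551649f02b13f514bd99f05b154e1269f9fddadbf267ceaf350d509f630d17307a8891af06b1179ee5d6caf06b4373a590c64f59f06b4694 = true := by decide +kernel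

theorem cB16_7_1_18 : chunkOkM (LB16_7.ctx true false 248 13 8 7 16 403 65 32 512) muQ true false 64 RtB16_7.Cx RtB16_7.CX RtB16_7.Ctp.right.right.right.right RtB16_7.Ce.right.right.left RtB16_7.CTn.left.left.left RtB16_7.CEr.left.left.left.left 0x987bb3c209f00b = true := by decide +kernel

theorem cB16_7_1_19 : chunkOkM (LB16_7.ctx true false 107 1 1 1 1 1 1 1 1) muQ true false 64 RtB16_7.Cx.left RtB16_7.CX RtB16_7.Ctp.right.right RtB16_7.Ce.right.right.right.left RtB16_7.CTn.left.left.left RtB16_7.CEr.left.left.left.left 0x21 = true := by decide +kernel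

theorem cB16_7_1_20 : chunkOkM (LB16_7.ctx true false 253 27 16 7 16 169 145 32 512) muQ true false 64 RtB16_7.Cx.right RtB16_7.CX RtB16_7.Ctp.right.right.left RtB16_7.Ce.right.right.right.left RtB16_7.CTn.left.left.left RtB16_7.CEr.left.left.left.left 0x924f48c80d210d8f9f6a37bd79fe9f530d = true := by decide +kernel

theorem cB16_7_1_21 : chunkOkM (LB16_7.ctx true false 284 107 64 7 16 1495 565 32 512) muQ true false 64 RtB16_7.Cx.right RtB16_7.CX RtB16_7.Ctp.right.right.right.left.left RtB16_7.Ce.right.right.right.left.left.left RtB16_7.CTn.left.left.left RtB16_7.CEr.left.left.left.left 0xf9fe4915d9f06b14c6753819fd13ba50877c40b23e7b29f66387a3fc59f540d3a175aff48fdc187f367c183cec586aaf630d425d8c3d8fd125013b77cfd96a8cf99f630d765f93667cf27e0d7319f63d4b7dc6c9f530d37 = true := by decide +kernel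

theorem cB16_7_1_22 : chunkOkM (LB16_7.ctx true false 281 55 32 7 16 1495 1155 32 512) muQ true false 64 RtB16_7.Cx.right RtB16_7.CX RtB16_7.Ctp.right.right.right.left.left RtB16_7.Ce.right.right.right.left.left.right RtB16_7.CTn.left.left.left RtB16_7.CEr.left.left.left.left 0x100eeb8169fd7169aa67cdff9528b99f630754ed029f540ddf6f97f38fd8eb1a367cd07c7a5e89f62d845604a9f540d482f3be91d9f05b3697 = true := by decide +kernel

theorem cB16_7_1_23 : chunkOkM (LB16_7.ctx true false 283 107 64 7 16 767 1155 32 512) muQ true false 64 RtB16_7.Cx.right.left RtB16_7.CX RtB16_7.Ctp.right.right.right.left.right RtB16_7.Ce.right.right.right.left.left RtB16_7.CTn.left.left.left RtB16_7.CEr.left.left.left.left 0x17642da77c11b78a9dd5af630d6f88779f230d174ed706e9fdc92f6e67cfa97a6f279f62e90086b19f240d4217136f669909fdf74fab67cbeb3e15549f6281031e2e9f240d170d4e777cfbdf358df9f643e8e198c9f230d74 = true := by decide +kernel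

theorem cB16_7_1_24 : chunkOkM (LB16_7.ctx true false 281 55 32 7 16 1547 1155 32 512) muQ true false 64 RtB16_7.Cx.right.right RtB16_7.CX RtB16_7.Ctp.right.right.right.left.right RtB16_7.Ce.right.right.right.left.left RtB16_7.CTn.left.left.left RtB16_7.CEr.left.left.left.left 0x563a407d69f02b1013547879fd90ea4467c141a6047d5af630d3bff0520869f06b404 = true := by decide +kernel

theorem cB16_7_1_25 : chunkOkM (LB16_7.ctx true false 107 1 1 1 1 1 1 1 1) muQ true false 64 RtB16_7.Cx.right.left RtB16_7.CX RtB16_7.Ctp.right.right.right.left RtB16_7.Ce.right.right.right.left.right RtB16_7.CTn.left.left.left RtB16_7.CEr.left.left.left.left 0x21 = true := by decide +kernel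

theorem cB16_7_1_26 : chunkOkM (LB16_7.ctx true false 270 55 32 7 16 741 295 32 512) muQ true false 64 RtB16_7.Cx.right.right RtB16_7.CX RtB16_7.Ctp.right.right.right.left.left RtB16_7.Ce.right.right.right.left.right RtB16_7.CTn.left.left.left RtB16_7.CEr.left.left.left.left 0xbcc75b67c479ec5b409f6697f7e1019f530d = true := by decide +kernel

theorem cB16_7_1_27 : chunkOkM (LB16_7.ctx true false 287 111 64 7 16 1547 1175 32 512) muQ true false 64 RtB16_7.Cx.right.right RtB16_7.CX RtB16_7.Ctp.right.right.right.left.right RtB16_7.Ce.right.right.right.left.right.left RtB16_7.CTn.left.left.left RtB16_7.CEr.left.left.left.left 0x1391f9b259fd9aff9a67c10e290b3e3af630d22e0e63c79fd9e270667c10e75cf6d5af62de123f0b9f240d7158844323baf06b119adbd790af06b4691d2594c3a2af06b473 = true := by decide +kernel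

theorem cB16_7_1_28 : chunkOkM (LB16_7.ctx true false 287 111 64 7 16 1547 1195 32 512) muQ true false 64 RtB16_7.Cx.right.right RtB16_7.CX RtB16_7.Ctp.right.right.right.left.right RtB16_7.Ce.right.right.right.left.right.right RtB16_7.CTn.left.left.left RtB16_7.CEr.left.left.left.left 0x2d17189409fd1e2c81477c215bb0b235af630d1898fca77c1b32c95f4aaf6a6e484998f230d43806a3b699af06b3217 = true := by decide +kernel

theorem cB16_7_1_29 : chunkOkM (LB16_7.ctx true false 258 27 16 7 16 403 145 32 512) muQ true false 64 RtB16_7.Cx.right RtB16_7.CX RtB16_7.Ctp.right.right.right.right RtB16_7.Ce.right.right.right.left RtB16_7.CTn.left.left.left RtB16_7.CEr.left.left.left.left 0x1d58b3977c167d947bc9f689a7eae5a9f230d = true := by decide +kernel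

theorem cB16_7_1_30 : chunkOkM (LB16_7.ctx true false 107 1 1 1 1 1 1 1 1) muQ true false 64 RtB16_7.Cx RtB16_7.CX RtB16_7.Ctp.right.right RtB16_7.Ce.right.right.right.right RtB16_7.CTn.left.left.left RtB16_7.CEr.left.left.left.left 0x21 = true := by decide +kernel

theorem cB16_7_1_31 : chunkOkM (LB16_7.ctx true false 107 1 1 1 1 1 1 1 1) muQ true false 64 RtB16_7.Cx RtB16_7.CX RtB16_7.Ctp.right RtB16_7.Ce RtB16_7.CTn.left.left.left RtB16_7.CEr.left.left.left.right 0x5a = true := by decide +kernel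

theorem cB16_7_1_32 : chunkOkM (LB16_7.ctx true false 107 1 1 1 1 1 1 1 1) muQ true false 64 RtB16_7.Cx RtB16_7.CX RtB16_7.Ctp.right RtB16_7.Ce RtB16_7.CTn.left.left.left RtB16_7.CEr.left.left.right 0x5a = true := by decide +kernel

theorem cB16_7_1_33 : chunkOkM (LB16_7.ctx true false 107 1 1 1 1 1 1 1 1) muQ true false 64 RtB16_7.Cx RtB16_7.CX RtB16_7.Ctp.right RtB16_7.Ce RtB16_7.CTn.left.left.left RtB16_7.CEr.left.right 0x5a = true := by decide +kernel

theorem cB16_7_1_34 : chunkOkM (LB16_7.ctx true false 107 1 1 1 1 1 1 1 1) muQ true false 64 RtB16_7.Cx RtB16_7.CX RtB16_7.Ctp.right RtB16_7.Ce RtB16_7.CTn.left.left.left RtB16_7.CEr.right 0x52 = true := by decide +kernel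

theorem cB16_7_1_35 : chunkOkM (LB16_7.ctx true false 107 1 1 1 1 1 1 1 1) muQ true false 64 RtB16_7.Cx RtB16_7.CX RtB16_7.Ctp.right RtB16_7.Ce RtB16_7.CTn.left.left.right RtB16_7.CEr 0x5a = true := by decide +kernel

theorem cB16_7_1_36 : chunkOkM (LB16_7.ctx true false 107 1 1 1 1 1 1 1 1) muQ true false 64 RtB16_7.Cx RtB16_7.CX RtB16_7.Ctp.right RtB16_7.Ce RtB16_7.CTn.left.right RtB16_7.CEr 0x5a = true := by decide +kernel

theorem cB16_7_1_37 : chunkOkM (LB16_7.ctx true false 107 1 1 1 1 1 1 1 1) muQ true false 64 RtB16_7.Cx RtB16_7.CX RtB16_7.Ctp.right RtB16_7.Ce RtB16_7.CTn.right RtB16_7.CEr 0x5a = true := by decide +kernel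

theorem cB16_7_0_0 : chunkOkM (LB16_7.ctx false false 107 1 1 1 1 1 1 1 1) muQ false false 64 RtB16_7.Cx RtB16_7.CX RtB16_7.Ctn RtB16_7.Ce RtB16_7.CTn RtB16_7.CEr 0x49 = true := by decide +kernel

end Vale.Agent.helper4.Q4
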