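import Vale.Agent.helper4.Q4TreeM
import Vale.Agent.helper4.Q4G.PB16_7

/-!
Checks for pairs of intervals of second moments.
-/

set_option maxRecDepth 100000
set_option linter.unusedVariables false

namespace Vale.Agent.helper4.Q4

theorem cB16_7_3_31 : chunkOkM (LB16_7.ctx true true 270 51 32 7 16 1391 1015 32 64) muQ true true 64 RtB16_7.Cx.left.right RtB16_7.CX RtB16_7.Ctp.right.right.left.right.left RtB16_7.Ce.right.right.left.left.right.left RtB16_7.CTp RtB16_7.CEr 0x6e4430718fdba1c4767c143e65aa8f830d45ae32ce8f06c64f783c768fd2b98c3e98f824afa69649f65d3ea4c1a9f540dbc706ab68fdee7194676c24769a97d9f66156f28389f540d58121cf008fd750ae3976c37bf146f947af658719f540d6d6d55d28f06c643 = true := by decide +kernel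

theorem cB16_7_3_32 : chunkOkM (LB16_7.ctx true true 302 399 256 7 16 5499 4085 32 64) muQ true true 64 RtB16_7.Cx.left.left RtB16_7.CX RtB16_7.Ctp.right.right.left.right.left.left RtB16_7.Ce.right.right.left.left.right.right RtB16_7.CTp RtB16_7.CEr 0x5959594f39d42c8fd2c0802508f8662046b399f530ddcfe5efa8fdfdb400a76c6b8db31779f530d108e975119fdb1275bb76c61448b6cb9f530d65459759345975935974 = true := by decide +kernel

theorem cB16_7_3_33 : chunkOkM (LB16_7.ctx true true 342 3135 2048 7 16 44915 32645 32 64) muQ true true 64 RtB16_7.Cx.left.left RtB16_7.CX RtB16_7.Ctp.right.right.left.right.left.right RtB16_7.Ce.right.right.left.left.right.right.left RtB16_7.CTp RtB16_7.CEr 0x4f3a44d68fd18aea44f8f8f19629ef69f62ab04f7509f540dcf8713718fd14cddce186cff27fd6919f62fef72b119f540d9e26ffe08fd9ced68676c119d234331af630d19b06542e9fdfeb46b476ccfe01a9169f630b3e29ff9f540d3656969696969411c478a8f06cfb4d05ae8fd17b9746586c3585689f1caf630d5469369746936974693697469769346976937 = true := by decide +kernel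

theorem cB16_7_3_34 : chunkOkM (LB16_7.ctx true true 335 3199 2048 7 16 22243 16485 32 64) muQ true true 64 RtB16_7.Cx.left.left RtB16_7.CX RtB16_7.Ctp.right.right.left.right.left.right RtB16_7.Ce.right.right.left.left.right.right.right RtB16_7.CTp RtB16_7.CEr 0x557c7f608fd9311e866c1b662f4241af630d138380c6a9fd187c580586c15db47ceeaaf630d260c858e39fd1278d59186c208790c47eaf630d65959596921d05cbc97880e8fda09fd2276c22d75fab13af630d6697459369745935974597593435697697 = true := by decide +kernel

theorem cB16_7_3_35 : chunkOkM (LB16_7.ctx true true 283 203 128 7 16 2743 1035 32 32) muQ true true 64 RtB16_7.Cx.left.right RtB16_7.CX RtB16_7.Ctp.right.right.left.right.left.left RtB16_7.Ce.right.right.left.left.right.right RtB16_7.CTp RtB16_7.CEr 0x78f496048fd406fdbe76c11b4a171a9f66dfc7247f9f540d76e006488fd49f1b8b76c10183d17f899f1f017f9f540d59759376d9a0bfd8fd37d1f7d76c2b0086438f664b4c80c29f540d4e2ea5608fd1cdf65a38f82119d5e509f6694356e7a9f540db992ebae8fdea59ac276c6ef5ea53d9f530d574 = true := by decide +kernel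

theorem cB16_7_3_36 : chunkOkM (LB16_7.ctx true true 270 51 32 7 16 1391 1025 32 64) muQ true true 64 RtB16_7.Cx.left.right RtB16_7.CX RtB16_7.Ctp.right.right.left.right.left.right RtB16_7.Ce.right.right.left.left.right.right.left RtB16_7.CTp RtB16_7.CEr 0x7a77749a8fd2dcb5b67cd95aef8039f64c64ea6389f540d5e5ac0d88fd126d2e3f86c759c3c2a39f654f1093b89f540d569f7ee228fd7a40ba6ce9f6580ea55e59f530d1b4790ac99fd114e74477c6b3dfc2bd9f6483cd68849f540d56 = true := by decide +kernel

theorem cB16_7_3_37 : chunkOkM (LB16_7.ctx true true 276 103 64 7 16 1391 1035 32 64) muQ true true 64 RtB16_7.Cx.left.right RtB16_7.CX RtB16_7.Ctp.right.right.left.right.left.right RtB16_7.Ce.right.right.left.left.right.right.right RtB16_7.CTp RtB16_7.CEr 0x4f464ad38fd29fee00e8f8562f1bd369f64a31a67059f540d5e4bba128fd80b5eec76c54353fb609f530db84eea538fd11e3e71f86c778eaf4f49f6489a71a1a9f540d17a3238569fdf7e0ac076c89c53cb659f645754271e9f540d675 = true := by decide +kernel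

theorem cB16_7_3_38 : chunkOkM (LB16_7.ctx true true 263 49 32 7 16 715 505 32 64) muQ true true 64 RtB16_7.Cx.left RtB16_7.CX RtB16_7.Ctp.right.right.left.right.right RtB16_7.Ce.right.right.left.left.right.left RtB16_7.CTp RtB16_7.CEr 0x5996da5c8fd92008e57f8837d1fe059f630d6914da4ebbc9fd1d4ae93d86c1076390dd4af630d1fca6a1799fd1a380f577cf59768a8d9f630d675 = true := by decide +kernel

end Vale.Agent.helper4.Q4
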