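import Vale.Agent.helper4.Q4TreeM
import Vale.Agent.helper4.Q4G.PB16_7

/-!
Checks for pairs of intervals of second moments.
-/

set_option maxRecDepth 100000
set_option linter.unusedVariables false

namespace Vale.Agent.helper4.Q4

theorem cB16_7_3_39 : chunkOkM (LB16_7.ctx true true 304 391 256 7 16 5707 4125 32 64) muQ true true 64 RtB16_7.Cx.left.left.left RtB16_7.CX RtB16_7.Ctp.right.right.left.right.right RtB16_7.Ce.right.right.left.left.right.right RtB16_7.CTp.left RtB16_7.CEr 0x2cde04ec49fd293e3d0d86c188c2e5459af630d26a4f90909fd1e19d69f86c1459758e4aaf610ccb816f9f240d669691024836519fd19d33b3486c8cc2852ab0af630d4693697469369732963f7a699fd20a594c886c11803ca270af630d2397667a49fd1efb0d3a86c1156e3f6c6af6d857846e8f240d1b17b5d7a9fd196b496286c17763a686faf630d364 = true := by decide +kernel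

theorem cB16_7_3_40 : chunkOkM (LB16_7.ctx true true 273 99 64 7 16 715 1035 32 64) muQ true true 64 RtB16_7.Cx.left.left.right RtB16_7.CX RtB16_7.Ctp.right.right.left.right.right RtB16_7.Ce.right.right.left.left.right.right RtB16_7.CTp.left RtB16_7.CEr 0x2a2bf6c4d9fd211c351286cf556672429f630d17b210c3b9fd14ea4da386c14cbfc1790af630d1352e85b59fd14e7040186c1762a6321baf630d46 = true := by decide +kernel

theorem cB16_7_3_41 : chunkOkM (LB16_7.ctx true true 260 49 32 7 16 715 515 32 32) muQ true true 64 RtB16_7.Cx.left.left RtB16_7.CX RtB16_7.Ctp.right.right.left.right.right RtB16_7.Ce.right.right.left.left.right.right RtB16_7.CTp.right RtB16_7.CEr 0x595a105e8fd8a5c2bd7f89b515e3bc9f630d = true := by decide +kernel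

theorem cB16_7_3_42 : chunkOkM (LB16_7.ctx true true 264 51 32 7 16 715 515 32 64) muQ true true 64 RtB16_7.Cx.left.right RtB16_7.CX RtB16_7.Ctp.right.right.left.right.right RtB16_7.Ce.right.right.left.left.right.right RtB16_7.CTp RtB16_7.CEr 0x581ebe1d8f06c162c05c17c6d719b9fdf7eb7e67c1261d13bb1af630d65 = true := by decide +kernel

theorem cB16_7_3_43 : chunkOkM (LB16_7.ctx true true 243 27 16 7 16 351 255 16 32) muQ true true 64 RtB16_7.Cx.right RtB16_7.CX RtB16_7.Ctp.right.right.left.right RtB16_7.Ce.right.right.left.left.right RtB16_7.CTp RtB16_7.CEr 0x57e597738fd5811827a99f6655d84cae9f530d = true := by decide +kernel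

theorem cB16_7_3_44 : chunkOkM (LB16_7.ctx true true 241 13 8 7 16 663 265 16 32) muQ true true 64 RtB16_7.Cx RtB16_7.CX RtB16_7.Ctp.right.right.left.left RtB16_7.Ce.right.right.left.right RtB16_7.CTp RtB16_7.CEr 0x594e1f9c748fd6d58090e8f82d4a74f699f6c97fca9389f540d5934 = true := by decide +kernel

theorem cB16_7_3_45 : chunkOkM (LB16_7.ctx true true 107 1 1 1 1 1 1 1 1) muQ true true 64 RtB16_7.Cx.left.left RtB16_7.CX RtB16_7.Ctp.right.right.left.right.left RtB16_7.Ce.right.right.left.right.left.left RtB16_7.CTp RtB16_7.CEr 0x59 = true := by decide +kernel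

theorem cB16_7_3_46 : chunkOkM (LB16_7.ctx true true 260 51 32 7 16 1365 525 16 32) muQ true true 64 RtB16_7.Cx.left.right RtB16_7.CX RtB16_7.Ctp.right.right.left.right.left.left RtB16_7.Ce.right.right.left.right.left.left RtB16_7.CTp RtB16_7.CEr 0x62c97d228fd13e73fa76cb6103de889f530d = true := by decide +kernel

theorem cB16_7_3_47 : chunkOkM (LB16_7.ctx true true 280 101 64 7 16 2795 1045 32 64) muQ true true 64 RtB16_7.Cx.left.right.left RtB16_7.CX RtB16_7.Ctp.right.right.left.right.left.right RtB16_7.Ce.right.right.left.right.left.left.left RtB16_7.CTp RtB16_7.CEr 0x523d806d8fd1360694f8f8729bbb8749f6574f234f49f540d7d2346e08fdf075b0976c5f56434159f655bacc6009f540d1e4cd0e699fd11c4baf286cb757eb2f69f65084841e39f540d6b42ba7288fdd5a8cdd76c9828e80a19f530d35 = true := by decide +kernel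

theorem cB16_7_3_48 : chunkOkM (LB16_7.ctx true true 280 103 64 7 16 2795 1045 32 64) muQ true true 64 RtB16_7.Cx.left.right.right RtB16_7.CX RtB16_7.Ctp.right.right.left.right.left.right RtB16_7.Ce.right.right.left.right.left.left.left RtB16_7.CTp RtB16_7.CEr 0x484c67318fd45bef8e28f82cb7c46bc9f65e874e0fe9f540d69c5cf3f8fdd82112076c60c04b1e09f6583e3f5999f540d1db0cefa99fd108d177786c684721a0b9f530d66053b48c8fd7b2c55676c71197a3169f530d35 = true := by decide +kernel

theorem cB16_7_3_49 : chunkOkM (LB16_7.ctx true true 284 103 64 7 16 2795 2115 32 64) muQ true true 64 RtB16_7.Cx.left.right RtB16_7.CX RtB16_7.Ctp.right.right.left.right.left.right RtB16_7.Ce.right.right.left.right.left.left.right RtB16_7.CTp RtB16_7.CEr 0x3f12718d8fd563370828f8406c857cf9f66871999f29f540dba7dd8728fdd330e4876c180ea40f49f68a6ed6e479f540d520f1e0e8fdeacc9c476c1a2b42c6f3af6461d43b5d9f540dc31b17ed8fd74ac14176c51b09b7859f66c28d52809f540d64568b400d78fd26f67b876cb380625579f530d3597 = true := by decide +kernel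

theorem cB16_7_3_50 : chunkOkM (LB16_7.ctx true true 107 1 1 1 1 1 1 1 1) muQ true true 64 RtB16_7.Cx.left RtB16_7.CX RtB16_7.Ctp.right.right.left.right.left RtB16_7.Ce.right.right.left.right.left.right RtB16_7.CTp RtB16_7.CEr 0x59 = true := by decide +kernel

theorem cB16_7_3_51 : chunkOkM (LB16_7.ctx true true 283 199 128 7 16 1417 1045 32 64) muQ true true 64 RtB16_7.Cx.left.left RtB16_7.CX RtB16_7.Ctp.right.right.left.right.right.left RtB16_7.Ce.right.right.left.right.left.left RtB16_7.CTp RtB16_7.CEr 0x694c8a91618fde95e9017f81ce3fbc549af630d12aa811a79fd162601db86c21438bbb11af630dea5107788fdfc3edd176c28d9811782af630d656974697 = true := by decide +kernel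

theorem cB16_7_3_52 : chunkOkM (LB16_7.ctx true true 303 391 256 7 16 5811 4165 32 64) muQ true true 64 RtB16_7.Cx.left.left RtB16_7.CX RtB16_7.Ctp.right.right.left.right.right.right RtB16_7.Ce.right.right.left.right.left.left RtB16_7.CTp RtB16_7.CEr 0x50e4f21f8fd91338bd7f8bf57f6e8c9f6c2d28cee8f240d3729c85919fd2371f1ba86c150657d27eaf630d2737218239fd1c2f05a486c1567ff462faf630d66971cf9f647b9fd1e87ed6c86c15882f5052af630d10a0385459fd1444bca386c17b8e7169daf630d6421696921d05c304e2c32e9fd2059fca086c52b1a09690af630d669342174693217475 = true := by decide +kernel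

end Vale.Agent.helper4.Q4
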