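import Vale.Agent.helper4.Q4TreeM
import Vale.Agent.helper4.Q4G.PB16_7

/-!
Checks for pairs of intervals of second moments.
-/

set_option maxRecDepth 100000
set_option linter.unusedVariables false

namespace Vale.Agent.helper4.Q4

theorem cB16_7_3_53 : chunkOkM (LB16_7.ctx true true 277 103 64 7 16 1417 1045 32 64) muQ true true 64 RtB16_7.Cx.left.right RtB16_7.CX RtB16_7.Ctp.right.right.left.right.right.left RtB16_7.Ce.right.right.left.right.left.left.left RtB16_7.CTp RtB16_7.CEr 0x4d295aad8fd2442ba768f8108525fb07af6465f2e8f8f540d112c05ce1c631d58fda515d067c39d5f3e399f530d66bdf86258fd11500e5786c103b410e46af61735ed1d49f540d1994d7a569fdf49e6b776c18086940f1af630d675 = true := by decide +kernel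

theorem cB16_7_3_54 : chunkOkM (LB16_7.ctx true true 322 1631 1024 7 16 11323 8445 32 64) muQ true true 64 RtB16_7.Cx.left.right.left RtB16_7.CX RtB16_7.Ctp.right.right.left.right.right.left RtB16_7.Ce.right.right.left.right.left.left.right RtB16_7.CTp RtB16_7.CEr 0x4e3a79588fd26be08818f810a5292e24af62546ed53b9f540dc78a772a8fd11b8883e86c1d7c611527af630dbd2a33918fdbe548d576c1e63674fc5af630d66969142c05cc62e39068fdaea35de76c3e84ce93f3af630d669746936974697593133b05d709fd1597f4d986c1df700d448af630d1765738659fddde561876c2dd4202a4daf61956d12c89f540d6469735 = true := by decide +kernel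

theorem cB16_7_3_55 : chunkOkM (LB16_7.ctx true true 277 103 64 7 16 1417 1055 32 64) muQ true true 64 RtB16_7.Cx.left.right.right RtB16_7.CX RtB16_7.Ctp.right.right.left.right.right.left RtB16_7.Ce.right.right.left.right.left.left.right RtB16_7.CTp RtB16_7.CEr 0x7f2f95a98fd427c365269f64ea93bebb9f530d89537b1c8fddc74ba476ce7898159a9f637b69e8969f540d510e33ebc09fd3e0f3988a9f66745cddac9f530d1645cd7fb9fdf8ab6a276c9a2cd13599f643adfc4dd9f540d56 = true := by decide +kernel

theorem cB16_7_3_56 : chunkOkM (LB16_7.ctx true true 268 51 32 7 16 1443 525 32 64) muQ true true 64 RtB16_7.Cx.left.right RtB16_7.CX RtB16_7.Ctp.right.right.left.right.right.right RtB16_7.Ce.right.right.left.right.left.left RtB16_7.CTp RtB16_7.CEr 0x5aae433d8fd17ff932e9eaf620d12d9837049fd17a823c286c12b7035a88af630d14d74e3299fd116335d77cee9f6bd519f630d65 = true := by decide +kernel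

theorem cB16_7_3_57 : chunkOkM (LB16_7.ctx true true 107 1 1 1 1 1 1 1 1) muQ true true 64 RtB16_7.Cx.left.left RtB16_7.CX RtB16_7.Ctp.right.right.left.right.right RtB16_7.Ce.right.right.left.right.left.right RtB16_7.CTp RtB16_7.CEr 0x69 = true := by decide +kernel

theorem cB16_7_3_58 : chunkOkM (LB16_7.ctx true true 313 815 512 7 16 11427 8485 32 32) muQ true true 64 RtB16_7.Cx.left.right.left RtB16_7.CX RtB16_7.Ctp.right.right.left.right.right.left RtB16_7.Ce.right.right.left.right.left.right.left RtB16_7.CTp RtB16_7.CEr 0x696969534f225a8f06cda1f5ee58fd131d3ce886c3413dd896caf630d5469769346976934697593 = true := by decide +kernel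

theorem cB16_7_3_59 : chunkOkM (LB16_7.ctx true true 294 207 128 7 16 5655 2135 32 64) muQ true true 64 RtB16_7.Cx.left.right.right RtB16_7.CX RtB16_7.Ctp.right.right.left.right.right.left RtB16_7.Ce.right.right.left.right.left.right.left RtB16_7.CTp RtB16_7.CEr 0x4f9b94e68fd1d8f4fa08f88f4662f619f6417fd3c549f540db2047ad08fd112efd4d86ce19a3077e9f63d485b2089f540d14bbd72ee9fde7bb04476cee8b8d76e9f63c54ce6f99f540d6265da71186c67f54f4259f520d14f0b0e4d9fdab137f976c267a491739f667bbda7419f540d6593597a801ed5b8fdba52fcb76c7d8e776b79f66111490899f540df95039dc8fdcc0d38976c45d7ea3a69f673986d9249f540d6435 = true := by decide +kernel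

theorem cB16_7_3_60 : chunkOkM (LB16_7.ctx true true 316 831 512 7 16 11427 8605 32 64) muQ true true 64 RtB16_7.Cx.left.right RtB16_7.CX RtB16_7.Ctp.right.right.left.right.right.left RtB16_7.Ce.right.right.left.right.left.right.right RtB16_7.CTp RtB16_7.CEr 0x4ec8f2588fd18aadcd48f8156f5d11bfaf63e4e9ee879f540d5969203f714786c44dc4e5f39f520dae14d5fb8fd8beccdf76c28660a81d6af630d64697593459759312b3ed69d9fd14466f6986c206e71a920af630d16a5922ec9fdceeebdc76caf1668c2f9f64b934725a9f540d645697593597 = true := by decide +kernel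

theorem cB16_7_3_61 : chunkOkM (LB16_7.ctx true true 277 103 64 7 16 1443 1065 32 64) muQ true true 64 RtB16_7.Cx.left.right RtB16_7.CX RtB16_7.Ctp.right.right.left.right.right.right RtB16_7.Ce.right.right.left.right.left.right.left RtB16_7.CTp RtB16_7.CEr 0x5ee9e2538fd12b5db2e8f8db13370299f630d12f6bae529fd143d674286c1aaa4f017daf630df5d710698fde4c824276c1bb43d3590af630d613fbee33d9fd17cedac586c1fec91f436af630d1b5ee3b179fd155139be86c28d5d8caf3af630d675 = true := by decide +kernel

end Vale.Agent.helper4.Q4
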