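import Vale.Agent.helper4.Q4TreeM
import Vale.Agent.helper4.Q4G.PB16_7

/-!
Checks for pairs of intervals of second moments.
-/

set_option maxRecDepth 100000
set_option linter.unusedVariables false

namespace Vale.Agent.helper4.Q4

theorem cB16_7_3_62 : chunkOkM (LB16_7.ctx true true 310 815 512 7 16 5811 4285 32 64) muQ true true 64 RtB16_7.Cx.left.right RtB16_7.CX RtB16_7.Ctp.right.right.left.right.right.right RtB16_7.Ce.right.right.left.right.left.right.right RtB16_7.CTp RtB16_7.CEr 0x54fa2b598fd2016e3528f810ec97a839af6b56407818f540daa2133818fd106c61ce86c1f8f9469eaaf630d1575521479fde1283b176c1bf8fd82b0af630d6569694f534f0f8f06ce64b87088fd15efe2cc86c5ce37833e9af630d5697469369746976937 = true := by decide +kernel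

theorem cB16_7_3_63 : chunkOkM (LB16_7.ctx true true 261 55 32 7 16 1391 535 16 32) muQ true true 64 RtB16_7.Cx.right RtB16_7.CX RtB16_7.Ctp.right.right.left.right.left RtB16_7.Ce.right.right.left.right.left RtB16_7.CTp RtB16_7.CEr 0x5d14f26f8fd1d70bf5c8f870c7da8ee9f6b67c57cfd9f540d6fe9e6d88fd5b85d9c76c1dd21ecb8f8a13803658f677b537d3f9f550d46d0ce8a8fd377c2d718f8b631e47a59f530d3748332c6f8fd15452e068f8549bd69709f6a324849ad9f540d6792f8708fd3cb367576c55251f57f819012951a9f6664ba95979f550d5c6700898fd237cfa376c1374990d19f687a14ad169f540d374 = true := by decide +kernel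

theorem cB16_7_3_64 : chunkOkM (LB16_7.ctx true true 251 27 16 7 16 715 525 16 32) muQ true true 64 RtB16_7.Cx.right RtB16_7.CX RtB16_7.Ctp.right.right.left.right.right RtB16_7.Ce.right.right.left.right.left.left RtB16_7.CTp RtB16_7.CEr 0x70be18188fd5e845e67c203b091a8f83135bebec9f540d = true := by decide +kernel

theorem cB16_7_3_65 : chunkOkM (LB16_7.ctx true true 277 107 64 7 16 1417 1065 32 64) muQ true true 64 RtB16_7.Cx.right.left RtB16_7.CX RtB16_7.Ctp.right.right.left.right.right.left RtB16_7.Ce.right.right.left.right.left.right.left RtB16_7.CTp RtB16_7.CEr 0x446a4da28f06c7276d6138fd2442ab778f8645f8c2419f64f10f65a29f540d3fa6f8f28fdca4e09c76c7629b511d9f6562ebf6049f540d57c97112d68fd871f29076c9eb47617f868d6a78ca9f65b3702ed59f550d6 = true := by decide +kernel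

theorem cB16_7_3_66 : chunkOkM (LB16_7.ctx true true 281 107 64 7 16 2847 1075 32 64) muQ true true 64 RtB16_7.Cx.right.left RtB16_7.CX RtB16_7.Ctp.right.right.left.right.right.left RtB16_7.Ce.right.right.left.right.left.right.right RtB16_7.CTp RtB16_7.CEr 0x647eff828fd558bff676c229c34c18f8602bb8dc89f540d29aaf9c08fd24772ca48f828c7eb5ff9f65fa98d4729f540d96346e098fdbbf805776c3bb3ac40c9f66eeb742749f540d5bd56dfef8fd701d8fb76c48ca8a11b9f657f1920799f540d63bddf7e28fd5989fa0c8f83ae3af3139f66f30c1c929f540dc10de5ca8fdf02163676c248d2f07a9f6736586cfc9f540d537 = true := by decide +kernel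

theorem cB16_7_3_67 : chunkOkM (LB16_7.ctx true true 268 53 32 7 16 1443 535 32 64) muQ true true 64 RtB16_7.Cx.right.left RtB16_7.CX RtB16_7.Ctp.right.right.left.right.right.right RtB16_7.Ce.right.right.left.right.left.right RtB16_7.CTp RtB16_7.CEr 0x439d08c58f06c10aa6bc2c9fde3620367ca0eb806aa9f640d87659f9f540d5a64582bc8fd684eb6c76cc65fe54629f62a023a3019f540d6 = true := by decide +kernel

theorem cB16_7_3_68 : chunkOkM (LB16_7.ctx true true 257 55 32 7 16 715 535 16 32) muQ true true 64 RtB16_7.Cx.right.right RtB16_7.CX RtB16_7.Ctp.right.right.left.right.right RtB16_7.Ce.right.right.left.right.left.right RtB16_7.CTp RtB16_7.CEr 0x2f8e26e48f06c = true := by decide +kernel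

theorem cB16_7_3_69 : chunkOkM (LB16_7.ctx true true 310 831 512 7 16 5759 4325 32 64) muQ true true 64 RtB16_7.Cx.left RtB16_7.CX RtB16_7.Ctp.right.right.left.right RtB16_7.Ce.right.right.left.right.right RtB16_7.CTp RtB16_7.CEr 0x59697e32a6388fd5f470b66c1d765a873baf630d1097379139fd128e7b9c86c25e19ea1acaf630dcaa4097c8fdc49716b76c2f9d0c7de8af630d6696920c408c886c26083c5986af620dd25019598fdbf35fdc76c5c1eb23085af630d6697469769343569746975932174593 = true := by decide +kernel

theorem cB16_7_3_70 : chunkOkM (LB16_7.ctx true true 248 27 16 7 16 689 275 16 32) muQ true true 64 RtB16_7.Cx.right RtB16_7.CX RtB16_7.Ctp.right.right.left.right.left RtB16_7.Ce.right.right.left.right.right RtB16_7.CTp RtB16_7.CEr 0x41b0ec7a8fd236635f38f8361c97bd09f6b14c2fde49f540d = true := by decide +kernel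

theorem cB16_7_3_71 : chunkOkM (LB16_7.ctx true true 307 419 256 7 16 11427 4325 32 64) muQ true true 64 RtB16_7.Cx.right.left.left RtB16_7.CX RtB16_7.Ctp.right.right.left.right.right.left RtB16_7.Ce.right.right.left.right.right.left.left RtB16_7.CTp RtB16_7.CEr 0x45a79f818fd23383bc38f86f44c9d629f64bddd52c69f540daa2f70a68fdbaab3ea76c948520e6c9f530da13900558fdc49a3b176c6f6f6212c9f530d591d15447386c8c65a29f49f520dd01869868fd876722676c6895de05c9f530d65934597593745593 = true := by decide +kernel

theorem cB16_7_3_72 : chunkOkM (LB16_7.ctx true true 277 107 64 7 16 2847 1085 16 64) muQ true true 64 RtB16_7.Cx.right.left.right RtB16_7.CX RtB16_7.Ctp.right.right.left.right.right.left RtB16_7.Ce.right.right.left.right.right.left.left RtB16_7.CTp RtB16_7.CEr 0x667cbad98fd6bd47f476c3602ca9269f669e9c87869f540d952df5fc8fd31d86da76c6025b21d39f530d6601ac0eb8fd42e355c76c1da4203d8f8260f6d91e9f6784c205c49f550d3 = true := by decide +kernel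

theorem cB16_7_3_73 : chunkOkM (LB16_7.ctx true true 264 53 32 7 16 1417 1095 16 32) muQ true true 64 RtB16_7.Cx.right.left RtB16_7.CX RtB16_7.Ctp.right.right.left.right.right.left RtB16_7.Ce.right.right.left.right.right.left.right RtB16_7.CTp RtB16_7.CEr 0x68bbb6cb8fd3b71de476c2ce3fb96d9f685fb7c9559f540d = true := by decide +kernel

end Vale.Agent.helper4.Q4
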