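import Vale.Agent.helper4.Q4TreeM
import Vale.Agent.helper4.Q4G.PB16_7

/-!
Checks for pairs of intervals of second moments.
-/

set_option maxRecDepth 100000
set_option linter.unusedVariables false

namespace Vale.Agent.helper4.Q4

theorem cB16_7_3_74 : chunkOkM (LB16_7.ctx true true 281 107 64 7 16 2899 1085 32 64) muQ true true 64 RtB16_7.Cx.right.left RtB16_7.CX RtB16_7.Ctp.right.right.left.right.right.right RtB16_7.Ce.right.right.left.right.right.left.left RtB16_7.CTp RtB16_7.CEr 0x5ebc6a918fd7f00a5076ca59c0e97f8404181dc99f540d852aa0628fd47210f676c213d4a538f816614f3889f6489090aef9f550d64f040d398fda31ace2eb9f61f63602019f530da2114eab8fd103fff0b86cf44ab59d19f62828f98dd9f540d5209d681d79fd478c470c79f65e61d4c4a9f530d1397624019fdd337dbb76c20691ee096af630d18e44237e9fdf7ee90b76cca5bd3c649f64b22cb6679f540d3567 = true := by decide +kernel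

theorem cB16_7_3_75 : chunkOkM (LB16_7.ctx true true 352 6783 4096 7 16 92339 35045 32 64) muQ true true 64 RtB16_7.Cx.right.left.left RtB16_7.CX RtB16_7.Ctp.right.right.left.right.right.right.left RtB16_7.Ce.right.right.left.right.right.left.right RtB16_7.CTp RtB16_7.CEr 0x595959596279f5b98fd9e1277176c1367cb2a8f85effa85e99f540da910036d8fd5a5ef7e76c6c7798d909f530d6597593459759345975934597593459759346bc3e7b8fd2df4ae648f85d57f13ea9f6579ac11479f540dbe893af58fdbb0cf1576c67406674f9f656f7b54ad9f540d116ebb2ee9fdb0e307176c3010f5d429f668e0affd29f540d654697 = true := by decide +kernel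

theorem cB16_7_3_76 : chunkOkM (LB16_7.ctx true true 290 211 128 7 16 2899 2195 32 64) muQ true true 64 RtB16_7.Cx.right.left.left RtB16_7.CX RtB16_7.Ctp.right.right.left.right.right.right.right RtB16_7.Ce.right.right.left.right.right.left.right RtB16_7.CTp RtB16_7.CEr 0x5ef8279d8fd29d5525f8f824ae55ec00af630d1bb70167c9fd180f6ffa86c29e1949d1eaf630db77bce728fd9e2b65576c145f5e4263af63af9633459f540d66977865953c8fd1149535086cea7ba0a489f6456568aa99f540da58ac9d08fd8035dfc76c26e89b76f3af630d645 = true := by decide +kernel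

theorem cB16_7_3_77 : chunkOkM (LB16_7.ctx true true 281 107 64 7 16 2899 1095 32 64) muQ true true 64 RtB16_7.Cx.right.left.right RtB16_7.CX RtB16_7.Ctp.right.right.left.right.right.right RtB16_7.Ce.right.right.left.right.right.left.right RtB16_7.CTp RtB16_7.CEr 0x46da46c88fd105c5b1a8f8a446b10c19f64c7968df99f540d4a898a218fddaec01976cc2467c7319f654e025c339f540d594660c328fd7d3e42f76c420d1bd829f65ca9482cd9f540d3c15487b48fd75247ad76c575aedc3a9f655e521a969f540d6 = true := by decide +kernel

theorem cB16_7_3_78 : chunkOkM (LB16_7.ctx true true 261 55 32 7 16 1443 545 16 32) muQ true true 64 RtB16_7.Cx.right.right RtB16_7.CX RtB16_7.Ctp.right.right.left.right.right RtB16_7.Ce.right.right.left.right.right.left RtB16_7.CTp RtB16_7.CEr 0x5b3b0f2a8fdf4e0c57c4216cabc39f530d5689c0e28fdeae0f366c41661caaf9f674f7bae1e9f540d3 = true := by decide +kernel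

theorem cB16_7_3_79 : chunkOkM (LB16_7.ctx true true 107 1 1 1 1 1 1 1 1) muQ true true 64 RtB16_7.Cx.right.left RtB16_7.CX RtB16_7.Ctp.right.right.left.right.right.left RtB16_7.Ce.right.right.left.right.right.right RtB16_7.CTp RtB16_7.CEr 0x59 = true := by decide +kernel

theorem cB16_7_3_80 : chunkOkM (LB16_7.ctx true true 306 847 512 7 16 5811 4405 16 64) muQ true true 64 RtB16_7.Cx.right.left.left RtB16_7.CX RtB16_7.Ctp.right.right.left.right.right.right RtB16_7.Ce.right.right.left.right.right.right.left RtB16_7.CTp RtB16_7.CEr 0x59699e54e1a08fd8a7261876c364d2ebb0caf630da6dacd928fd74b9d7176c84f7d9d7f84862b83befaf640d669746975934597593 = true := by decide +kernel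

theorem cB16_7_3_81 : chunkOkM (LB16_7.ctx true true 281 107 64 7 16 2873 2215 32 32) muQ true true 64 RtB16_7.Cx.right.left.right RtB16_7.CX RtB16_7.Ctp.right.right.left.right.right.right.left RtB16_7.Ce.right.right.left.right.right.right.left RtB16_7.CTp RtB16_7.CEr 0x617de1598fd201c27476cac7bf201b9f530d3f48bdd98fd435a72c58f82414898289f6676388be99f540da1625d458fdb6c6f8f76c2f0b43b749f6806521f9c9f540d54 = true := by decide +kernel

theorem cB16_7_3_82 : chunkOkM (LB16_7.ctx true true 284 107 64 7 16 2899 2215 32 64) muQ true true 64 RtB16_7.Cx.right.left.right RtB16_7.CX RtB16_7.Ctp.right.right.left.right.right.right.right RtB16_7.Ce.right.right.left.right.right.right.left RtB16_7.CTp RtB16_7.CEr 0x3c9d1e068fdd50db0a7f848b482fba9f6587e454aa9f540d8b23d2f18fdec6462376c7a479705a9f664f72a9b09f540d57a0da98b8fd2af8ffb48f85a20092a19f530d66deffe78fdda37cca76c776e5f9a09f66da74c0669f540d54ae7e27d18fd71b09a776c78093d2ab9f6531dbfcd89f540d6 = true := by decide +kernel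

theorem cB16_7_3_83 : chunkOkM (LB16_7.ctx true true 290 215 128 7 16 5811 2225 16 64) muQ true true 64 RtB16_7.Cx.right.left RtB16_7.CX RtB16_7.Ctp.right.right.left.right.right.right RtB16_7.Ce.right.right.left.right.right.right.right RtB16_7.CTp RtB16_7.CEr 0x59677a31b38fd89720e076c1939ca55a9f66b1be06dc9f540d9abd93a78fd6f1a93a76c208d0be88f81a422c0e89f672492418e9f550d65934597593597 = true := by decide +kernel

theorem cB16_7_3_84 : chunkOkM (LB16_7.ctx true true 261 55 32 7 16 1417 555 16 32) muQ true true 64 RtB16_7.Cx.right.right RtB16_7.CX RtB16_7.Ctp.right.right.left.right.right.left RtB16_7.Ce.right.right.left.right.right.right RtB16_7.CTp RtB16_7.CEr 0x51fb223f8fd266415f8573ae4e88f687f991ee49f540d = true := by decide +kernel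

theorem cB16_7_3_85 : chunkOkM (LB16_7.ctx true true 277 111 64 7 16 2899 1105 16 64) muQ true true 64 RtB16_7.Cx.right.right RtB16_7.CX RtB16_7.Ctp.right.right.left.right.right.right RtB16_7.Ce.right.right.left.right.right.right.left RtB16_7.CTp RtB16_7.CEr 0x460514668f06c58a0663d8fd5a8301b76c4f598e2c69f530d952902f78fd2947dba76c17c9c56149f66935d18369f540d6618849df8fd1dbcb1b76c6c47894eb9f530d37 = true := by decide +kernel

end Vale.Agent.helper4.Q4
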