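import Vale.Agent.helper4.Q4TreeM
import Vale.Agent.helper4.Q4G.PB16_7

/-!
Checks for pairs of intervals of second moments.
-/

set_option maxRecDepth 100000
set_option linter.unusedVariables false

namespace Vale.Agent.helper4.Q4

theorem cB16_7_3_86 : chunkOkM (LB16_7.ctx true true 277 111 64 7 16 2899 1115 16 64) muQ true true 64 RtB16_7.Cx.right.right RtB16_7.CX RtB16_7.Ctp.right.right.left.right.right.right RtB16_7.Ce.right.right.left.right.right.right.right RtB16_7.CTp RtB16_7.CEr 0x5304cbc28fd2f19c4376c2475d5818f839b3083ae9f6712d5051a9f550d86f4866f8fd75703f276c8570f2798f669e2fac879f540d8eb55cec8fd34e0fe176c6da544b1e9f530d65db1da018fd2f391a176c33738e06e9f6766ec4b8d9f540d37 = true := by decide +kernel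

theorem cB16_7_3_87 : chunkOkM (LB16_7.ctx true true 286 195 128 7 16 2925 1035 32 64) muQ true true 64 RtB16_7.Cx RtB16_7.CX RtB16_7.Ctp.right.right.right.left RtB16_7.Ce.right.right.left.left RtB16_7.CTp RtB16_7.CEr 0x1111116224d8428fd2f60426b39f650adce85c9f230d11110121d05c36edd742d9fd23a3354f86c2310fee799f6526cf9b5b9f240d61143017771145114733 = true := by decide +kernel

theorem cB16_7_3_88 : chunkOkM (LB16_7.ctx true true 287 195 128 7 16 2925 1055 32 64) muQ true true 64 RtB16_7.Cx.left.left RtB16_7.CX RtB16_7.Ctp.right.right.right.left.left.left RtB16_7.Ce.right.right.left.right.left.left RtB16_7.CTp RtB16_7.CEr 0x5659aa658fd17b1ec876c7900083149f635bb88f5d9f240d1fda687839fd22d5d11f86cb042d71909f6ea558d708f240d1687beea09fd16e41db086c11c242f30aaf620fcba65a9f240d27ae4d5059fd1dc5078786c12a96b53a4af61f96be34a9f240d4621011b1c0e3839fd1cb0bd1c86c22cb731399f654770ca269f240d12493acf79fd15f0549e86c1729302e7baf63162d9f3c9f240d63017475 = true := by decide +kernel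

theorem cB16_7_3_89 : chunkOkM (LB16_7.ctx true true 283 199 128 7 16 1469 1065 32 64) muQ true true 64 RtB16_7.Cx.left.left RtB16_7.CX RtB16_7.Ctp.right.right.right.left.left.left RtB16_7.Ce.right.right.left.right.left.right RtB16_7.CTp RtB16_7.CEr 0x214cd880878fdaaf7e9f8d9f6f13f4c3c8f230d1c18971f99fd1d8dace086cbc35e44da9f634ae34f089f240d1d36f10499fd188eed9786c14af07df80af62c2bed3b39f240d652174217 = true := by decide +kernel

theorem cB16_7_3_90 : chunkOkM (LB16_7.ctx true true 107 1 1 1 1 1 1 1 1) muQ true true 64 RtB16_7.Cx.left.left RtB16_7.CX RtB16_7.Ctp.right.right.right.left.left.right RtB16_7.Ce.right.right.left.right.left RtB16_7.CTp RtB16_7.CEr 0x01 = true := by decide +kernel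

theorem cB16_7_3_91 : chunkOkM (LB16_7.ctx true true 272 51 32 7 16 2925 525 32 64) muQ true true 64 RtB16_7.Cx.left.right RtB16_7.CX RtB16_7.Ctp.right.right.right.left.left RtB16_7.Ce.right.right.left.right.left.left RtB16_7.CTp RtB16_7.CEr 0x3fdf2f548f06c111121d05c11a12dc749fd146858177c2478f6a253af630d6335 = true := by decide +kernel

theorem cB16_7_3_92 : chunkOkM (LB16_7.ctx true true 277 103 64 7 16 1495 1075 32 64) muQ true true 64 RtB16_7.Cx.left.right RtB16_7.CX RtB16_7.Ctp.right.right.right.left.left RtB16_7.Ce.right.right.left.right.left.right RtB16_7.CTp RtB16_7.CEr 0x52c91f058fd985a2ca7f887e285d829f641aced498f240d111409d7f079fd163f474a86c13de13c977af630d224c099b39fd18dce2777c1ba47574f7af630d63d9e3f8268fd1b22aecd86c9c0adfa249f660ccfc868f240d2044a25b09fd1a05c30286cc37880f399f641bf148309f240d1dd8d0c6e9fd17eb796e86c16ad01cf92af6149f6921a9f240d31b25ccf719fd17ddb36886ce3d6e52819f6de1695d78f240d4675 = true := by decide +kernel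

theorem cB16_7_3_93 : chunkOkM (LB16_7.ctx true true 107 1 1 1 1 1 1 1 1) muQ true true 64 RtB16_7.Cx.left.left RtB16_7.CX RtB16_7.Ctp.right.right.right.left.left RtB16_7.Ce.right.right.left.right.right RtB16_7.CTp RtB16_7.CEr 0x21 = true := by decide +kernel

theorem cB16_7_3_94 : chunkOkM (LB16_7.ctx true true 296 407 256 7 16 2951 2165 32 64) muQ true true 64 RtB16_7.Cx.left.right RtB16_7.CX RtB16_7.Ctp.right.right.right.left.left.left RtB16_7.Ce.right.right.left.right.right.left.left RtB16_7.CTp RtB16_7.CEr 0x5b4e3aea8fde7a4381a89f620d19ea2a4f19fd1963727586c158392d692af630de06d68b38fdff643f476c1892a2b645af630d6569479ca5c58fd5613bc66c1c39ad6396af630d2f04e82b86c295926acb9af620d2170c56ff9fd1954531786c23a5c74c4aaf630d6569746932177 = true := by decide +kernel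

theorem cB16_7_3_95 : chunkOkM (LB16_7.ctx true true 277 103 64 7 16 1469 1095 32 64) muQ true true 64 RtB16_7.Cx.left.right RtB16_7.CX RtB16_7.Ctp.right.right.right.left.left.left RtB16_7.Ce.right.right.left.right.right.left.right RtB16_7.CTp RtB16_7.CEr 0x564096988fdfa43d466c263a457b29af630d18f9037539fd19a9301886c1876a81304af630d217fcbde59fd1792d9a786c230208a8f3af630d65217 = true := by decide +kernel

theorem cB16_7_3_96 : chunkOkM (LB16_7.ctx true true 287 203 128 7 16 2977 1095 32 64) muQ true true 64 RtB16_7.Cx.left.right RtB16_7.CX RtB16_7.Ctp.right.right.right.left.left.right RtB16_7.Ce.right.right.left.right.right.left RtB16_7.CTp RtB16_7.CEr 0x5204025b8fd87ea4c47f8b89a872e39f622b77501e9f240d28b7e28c59fd251442a786cfd83cd7e69f630d1ac150a4d9fd165249ad86c14a95bd1ddaf61ac0129ca9f240d11f60866d9fd15afe23686c1e26d75543af6c72a266f240d4621011caaec7e19fd1db14e7f86c19eab5ca4faf61e10281dd9f240d2323994b19fd1993afa786c93cfc2a219f649db11eff9f240d63217475 = true := by decide +kernel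

end Vale.Agent.helper4.Q4
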