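import Vale.Agent.helper4.Q4TreeM
import Vale.Agent.helper4.Q4G.PB16_7

/-!
Checks for pairs of intervals of second moments.
-/

set_option maxRecDepth 100000
set_option linter.unusedVariables false

namespace Vale.Agent.helper4.Q4

theorem cB16_7_3_97 : chunkOkM (LB16_7.ctx true true 283 207 128 7 16 1495 1105 32 64) muQ true true 64 RtB16_7.Cx.left.right RtB16_7.CX RtB16_7.Ctp.right.right.right.left.left RtB16_7.Ce.right.right.left.right.right.right RtB16_7.CTp RtB16_7.CEr 0x21512a65468fd2c296a57f8e961b9df59f630d2a8598c999fd2427da1386c148c1f9fa1af630d1af869b7f9fd1682698486c161ad326d5af61298024df9f240d652174217693 = true := by decide +kernel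

theorem cB16_7_3_98 : chunkOkM (LB16_7.ctx true true 107 1 1 1 1 1 1 1 1) muQ true true 64 RtB16_7.Cx.left RtB16_7.CX RtB16_7.Ctp.right.right.right.left.right RtB16_7.Ce.right.right.left.right RtB16_7.CTp RtB16_7.CEr 0x01 = true := by decide +kernel

theorem cB16_7_3_99 : chunkOkM (LB16_7.ctx true true 107 1 1 1 1 1 1 1 1) muQ true true 64 RtB16_7.Cx.right RtB16_7.CX RtB16_7.Ctp.right.right.right.left RtB16_7.Ce.right.right.left.right.left RtB16_7.CTp RtB16_7.CEr 0x69 = true := by decide +kernel

theorem cB16_7_3_100 : chunkOkM (LB16_7.ctx true true 278 107 64 7 16 1495 1095 32 64) muQ true true 64 RtB16_7.Cx.right RtB16_7.CX RtB16_7.Ctp.right.right.right.left.left RtB16_7.Ce.right.right.left.right.right.left RtB16_7.CTp RtB16_7.CEr 0x695064ef468fd163b495c8f810cb71b3eaaf630dc349b2578fdfa7a40976c20ddce58b138fd15c0180f86c2bbb8350e4af630d147ae44c79fd1485c1a486c147388aca7af630d147a94ad09fd1115e6a986c293169ab91af630d637132c05cd6375c838fdddcb1867c2465d5939eaf630d6457 = true := by decide +kernel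

theorem cB16_7_3_101 : chunkOkM (LB16_7.ctx true true 295 211 128 7 16 5863 2215 32 64) muQ true true 64 RtB16_7.Cx.right.left.left RtB16_7.CX RtB16_7.Ctp.right.right.right.left.left.left RtB16_7.Ce.right.right.left.right.right.right.left RtB16_7.CTp RtB16_7.CEr 0x4922736d8fd134bd2918f83080da076aaf630d17b2a47829fd141443b086c1ce0881d5faf630dd4ec56f18fde06dd1476c222d1802f1af630d6c481783a8fd10c7644986c421a288573af630d693237befd786c2b7cfc7e81af620da71b6f858fd9bea31c76c2e64444e51af630d6469735 = true := by decide +kernel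

theorem cB16_7_3_102 : chunkOkM (LB16_7.ctx true true 278 107 64 7 16 1469 1105 32 64) muQ true true 64 RtB16_7.Cx.right.left.right RtB16_7.CX RtB16_7.Ctp.right.right.right.left.left.left RtB16_7.Ce.right.right.left.right.right.right.left RtB16_7.CTp RtB16_7.CEr 0x4e88bffe8fd5659f187f81c6abe09d5af630d12a952ef49fd103bf7ab86c1d0a9e56deaf630d52626fb1a59fd28b06e1113af620d10eeed7549fdaf7531176c18fe2e3e7faf61557e9f5b9f540d56 = true := by decide +kernel

theorem cB16_7_3_103 : chunkOkM (LB16_7.ctx true true 298 423 256 7 16 5915 2225 32 32) muQ true true 64 RtB16_7.Cx.right.left.left RtB16_7.CX RtB16_7.Ctp.right.right.right.left.left.left RtB16_7.Ce.right.right.left.right.right.right.right RtB16_7.CTp RtB16_7.CEr 0x694281d1ef8fdd79812e7f82538f51c89af630dcc1e31758fd125ed4f586c4695e93c7daf630d56976934697693 = true := by decide +kernel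

theorem cB16_7_3_104 : chunkOkM (LB16_7.ctx true true 290 215 128 7 16 2925 2235 32 64) muQ true true 64 RtB16_7.Cx.right.left.right RtB16_7.CX RtB16_7.Ctp.right.right.right.left.left.left.left RtB16_7.Ce.right.right.left.right.right.right.right RtB16_7.CTp RtB16_7.CEr 0x70ee20de8fd179b156150af620dcbb719e28fdcaf9c3476c202a7cfd85af630d5697411ebf688fd96eee907f82994fff6d9f65852d991d9f540d5dc6d9d78fd10c87a7386c965db8b829f660ee288529f540d54b06965f28fd769b6f776cd9cc116539f644abc25849f540d6971d0378eb59f821e6879a48af620d1293bcbbc9fdd23dd6d76c116c4fa87aaf6425b0f45f9f540d546 = true := by decide +kernel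

theorem cB16_7_3_105 : chunkOkM (LB16_7.ctx true true 281 107 64 7 16 2951 1115 32 64) muQ true true 64 RtB16_7.Cx.right.left.right RtB16_7.CX RtB16_7.Ctp.right.right.right.left.left.left.right RtB16_7.Ce.right.right.left.right.right.right.right RtB16_7.CTp RtB16_7.CEr 0x4071d35b8fddfb32667f81086e4a2e2af630d109b644379fdff54de576cda6a5394d9f630d51f3482cf89f81802d33993af620db283211c8fd99860ca76c15ed1c232daf630d56 = true := by decide +kernel

theorem cB16_7_3_106 : chunkOkM (LB16_7.ctx true true 277 105 64 7 16 1495 1115 32 64) muQ true true 64 RtB16_7.Cx.right.left.left RtB16_7.CX RtB16_7.Ctp.right.right.right.left.left.right RtB16_7.Ce.right.right.left.right.right.right RtB16_7.CTp RtB16_7.CEr 0x530d150e8fd1bf957276c13741c9934af630d16ad54e589fd16dae7d286c17ea53bcf0af630d1b0e5d6f59fd1510516f86c1da14adda8af6981afe37f240d655f66475c8fd1a2e93a76c1d5d4faf12af630d1b15d70449fd1957f9a486c13f14d47feaf630d1be65d9339fd1545018b86c13ff652f99af630d654 = true := by decide +kernel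

theorem cB16_7_3_107 : chunkOkM (LB16_7.ctx true true 275 107 64 7 16 1495 555 32 64) muQ true true 64 RtB16_7.Cx.right.left.right RtB16_7.CX RtB16_7.Ctp.right.right.right.left.left.right RtB16_7.Ce.right.right.left.right.right.right RtB16_7.CTp RtB16_7.CEr 0x55fedeaf8fd258cd8a7f81e11c3d9d5af630d16b15ac049fd146a1c2186c1a4ab9002baf630d10187c81d9fdf4e5ab67c1a23236d21af630d65 = true := by decide +kernel

end Vale.Agent.helper4.Q4
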