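import Vale.Agent.helper4.Q4TreeM
import Vale.Agent.helper4.Q4G.PB16_7

/-!
Checks for pairs of intervals of second moments.
-/

set_option maxRecDepth 100000
set_option linter.unusedVariables false

namespace Vale.Agent.helper4.Q4

theorem cB16_7_3_108 : chunkOkM (LB16_7.ctx true true 267 55 32 7 16 1469 1115 16 64) muQ true true 64 RtB16_7.Cx.right.right RtB16_7.CX RtB16_7.Ctp.right.right.right.left.left RtB16_7.Ce.right.right.left.right.right.right RtB16_7.CTp RtB16_7.CEr 0x69916a03fd8fd778b50476c808e58cc39f648d240c7e9f540d8d69be328fd57df57376c14c451648f887789e7c29f64b29de4a69f550d650757bac8f06c43 = true := by decide +kernel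

theorem cB16_7_3_109 : chunkOkM (LB16_7.ctx true true 268 53 32 7 16 1521 555 32 64) muQ true true 64 RtB16_7.Cx.right RtB16_7.CX RtB16_7.Ctp.right.right.right.left.right RtB16_7.Ce.right.right.left.right.right RtB16_7.CTp RtB16_7.CEr 0x11576b4e558fdb8aea55389f6225b8c5d39f230d111c6f269f29fd15caf8f186c1163439459f64ac2542249f240d17fb344b09fd159ee1277c8860664959f63ce20349d9f240d6751143 = true := by decide +kernel

theorem cB16_7_3_110 : chunkOkM (LB16_7.ctx true true 232 13 8 7 16 403 65 16 32) muQ true true 64 RtB16_7.Cx RtB16_7.CX RtB16_7.Ctp.right.right.right.right RtB16_7.Ce.right.right.left RtB16_7.CTp RtB16_7.CEr 0xad0ba8ed8fdc6c2d467cbcb539928f1c6b30c5d49f040d = true := by decide +kernel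

theorem cB16_7_3_111 : chunkOkM (LB16_7.ctx true true 107 1 1 1 1 1 1 1 1) muQ true true 64 RtB16_7.Cx.left RtB16_7.CX RtB16_7.Ctp.right.right RtB16_7.Ce.right.right.right.left RtB16_7.CTp RtB16_7.CEr 0x21 = true := by decide +kernel

theorem cB16_7_3_112 : chunkOkM (LB16_7.ctx true true 257 55 32 7 16 715 565 16 32) muQ true true 64 RtB16_7.Cx.right RtB16_7.CX RtB16_7.Ctp.right.right.left RtB16_7.Ce.right.right.right.left RtB16_7.CTp RtB16_7.CEr 0x59595bdbfef48fd32bf5767c1009a03e8f83d8b959c89f68b4e716989f550d59745934593 = true := by decide +kernel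

theorem cB16_7_3_113 : chunkOkM (LB16_7.ctx true true 107 1 1 1 1 1 1 1 1) muQ true true 64 RtB16_7.Cx.right.left.left RtB16_7.CX RtB16_7.Ctp.right.right.right.left.left.left RtB16_7.Ce.right.right.right.left.left.left RtB16_7.CTp RtB16_7.CEr 0x69 = true := by decide +kernel

theorem cB16_7_3_114 : chunkOkM (LB16_7.ctx true true 299 431 256 7 16 5863 4485 16 64) muQ true true 64 RtB16_7.Cx.right.left.right RtB16_7.CX RtB16_7.Ctp.right.right.right.left.left.left.left RtB16_7.Ce.right.right.right.left.left.left.left RtB16_7.CTp RtB16_7.CEr 0x59699727b05b8fd822b27576c19ceb9217eaf6391155eba9f540db5f5e4b98fd62e48ef76cd735a8d429f6427cde7ff9f540d646975934597 = true := by decide +kernel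

theorem cB16_7_3_115 : chunkOkM (LB16_7.ctx true true 297 431 256 7 16 2951 2255 32 64) muQ true true 64 RtB16_7.Cx.right.left.right RtB16_7.CX RtB16_7.Ctp.right.right.right.left.left.left.right RtB16_7.Ce.right.right.right.left.left.left.left RtB16_7.CTp RtB16_7.CEr 0x4dd2728a8fd1fc476808f81aa37b49c3af6161f853b69f540d233ff20499fd12950b0586c22df519e58af630d8dc5b7608fd82edbed76c50b0d1889eaf630d669769720d01f7b86c25ee4d2f3caf620ded68764c8fdbee1fe576c3493b190bcaf630d6bfa41d2d8fd108bb9f186c69376d553eaf630d745 = true := by decide +kernel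

theorem cB16_7_3_116 : chunkOkM (LB16_7.ctx true true 107 1 1 1 1 1 1 1 1) muQ true true 64 RtB16_7.Cx.right.left.right RtB16_7.CX RtB16_7.Ctp.right.right.right.left.left.left RtB16_7.Ce.right.right.right.left.left.left.right RtB16_7.CTp RtB16_7.CEr 0x69 = true := by decide +kernel

theorem cB16_7_3_117 : chunkOkM (LB16_7.ctx true true 291 211 128 7 16 3003 2245 32 64) muQ true true 64 RtB16_7.Cx.right.left RtB16_7.CX RtB16_7.Ctp.right.right.right.left.left.right RtB16_7.Ce.right.right.right.left.left.left.left RtB16_7.CTp RtB16_7.CEr 0x4ebb5fa88fd20386f66c15417e171aaf630d17b63967a9fd15c70c4286c11f4bda643af630d12849d9c79fdf67c6b676c1fed1f9bebaf630d65694bb811618fd64cfea2060af620d2b4f0ed786c237a04cbd4af620d2fbac25819fd1c2a235686c25c63b00a3af630d6542176937 = true := by decide +kernel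

theorem cB16_7_3_118 : chunkOkM (LB16_7.ctx true true 305 431 256 7 16 6019 4525 32 64) muQ true true 64 RtB16_7.Cx.right.left RtB16_7.CX RtB16_7.Ctp.right.right.right.left.left.right RtB16_7.Ce.right.right.right.left.left.left.right RtB16_7.CTp RtB16_7.CEr 0x4dae5d538fd304d7c7211af620d2758baaf86c201da40a5caf620dd341a85e8fdddad53376c24e5fd0375af630d66969d190a88e8fd1407e53086c8ae0522759af630d469369747569460ebefa8fd9d3d4f47f82e2371cab9af630d2179ed6f86c225de0ca46af620d1c373cd239fd10e01c5586c4339580f0eaf630d6569746973697 = true := by decide +kernel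

theorem cB16_7_3_119 : chunkOkM (LB16_7.ctx true true 281 111 64 7 16 2951 1125 32 64) muQ true true 64 RtB16_7.Cx.right.right RtB16_7.CX RtB16_7.Ctp.right.right.right.left.left.left RtB16_7.Ce.right.right.right.left.left.left.left RtB16_7.CTp RtB16_7.CEr 0x59fbdcc88fd322f82076c1fd9288f8f84d58ced1b9f64e5725ea69f550d4334c34d8fd38e41827f874ac1f2039f651f1b542f9f540db86b57f58fdf69ff0876cb5ec955799f64d5a275fb9f540d52f5931d489fd82fc37c129f65c5ececb99f530d108e5efe49fdb81a19776c1154c41a5daf62edb5847b9f540d569472d83b8fd7cf10f376c58a0497ab9f658bc51f089f540dbfb9a1718fd712a0a876c3a1e94e199f663bac60d89f540d637 = true := by decide +kernel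

theorem cB16_7_3_120 : chunkOkM (LB16_7.ctx true true 290 219 128 7 16 5863 2265 16 64) muQ true true 64 RtB16_7.Cx.right.right.left RtB16_7.CX RtB16_7.Ctp.right.right.right.left.left.left.left RtB16_7.Ce.right.right.right.left.left.left.right RtB16_7.CTp RtB16_7.CEr 0x595f2319228fd72612f576c6e74909ae9f530d94de659c8fd73621b876c37b0f8358f87ed1d04379f540d65934597 = true := by decide +kernel

end Vale.Agent.helper4.Q4
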