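import Vale.Agent.helper4.Q4TreeM
import Vale.Agent.helper4.Q4G.PB16_7_0
import Vale.Agent.helper4.Q4G.PB16_7_1
import Vale.Agent.helper4.Q4G.PB16_7_2
import Vale.Agent.helper4.Q4G.PB16_7_3
import Vale.Agent.helper4.Q4G.PB16_7_4
import Vale.Agent.helper4.Q4G.PB16_7_5
import Vale.Agent.helper4.Q4G.PB16_7_6
import Vale.Agent.helper4.Q4G.PB16_7_7
import Vale.Agent.helper4.Q4G.PB16_7_8
import Vale.Agent.helper4.Q4G.PB16_7_9
import Vale.Agent.helper4.Q4G.PB16_7_10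
import Vale.Agent.helper4.Q4G.PB16_7_11
import Vale.Agent.helper4.Q4G.PB16_7_12
import Vale.Agent.helper4.Q4G.PB16_7_13
import Vale.Agent.helper4.Q4G.PB16_7_14
import Vale.Agent.helper4.Q4G.PB16_7_15

/-!
Checks for pairs of intervals of second moments.
-/

set_option maxRecDepth 100000
set_option linter.unusedVariables false

namespace Vale.Agent.helper4.Q4

theorem covB16_7 : LB16_7.Full muQ.val RtB16_7 := ⟨(LitT.Cov.split_t (LitT.cov_of_chunkM cB16_7_3_0) (LitT.Cov.split_e (LitT.cov_of_chunkM cB16_7_3_1) (LitT.Cov.split_e (LitT.Cov.split_t (LitT.Cov.split_e (LitT.cov_of_chunkM cB16_7_3_2) (LitT.Cov.split_t (LitT.cov_of_chunkM cB16_7_3_3) (LitT.Cov.split_e (LitT.cov_of_chunkM cB16_7_3_4) (LitT.cov_of_chunkM cB16_7_3_5)))) (LitT.Cov.split_t (LitT.Cov.split_e (LitT.cov_of_chunkM cB16_7_3_6) (LitT.Cov.split_e (LitT.cov_of_chunkM cB16_7_3_7) (LitT.Cov.split_t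 (LitT.Cov.split_e (LitT.cov_of_chunkM cB16_7_3_8) (LitT.cov_of_chunkM cB16_7_3_9)) (LitT.cov_of_chunkM cB16_7_3_10)))) (LitT.cov_of_chunkM cB16_7_3_11))) (LitT.Cov.split_t (LitT.cov_of_chunkM cB16_7_3_12) (LitT.Cov.split_e (LitT.Cov.split_t (LitT.Cov.split_e (LitT.Cov.split_t (LitT.Cov.split_e (LitT.Cov.split_x (LitT.Cov.split_t (LitT.cov_of_chunkM cB16_7_3_13) (LitT.Cov.split_e (LitT.Cov.split_x (LitT.cov_of_chunkM cB16_7_3_14) (LitT.cov_of_chunkM cB16_7_3_15)) (LitT.Cov.split_x (LitT.Cov.split_t (LitT.cov_of_chunkM cB16_7_3_16) (LitT.Cov.split_e (LitT.cov_of_chunkM cB16_7_3_17) (LitT.cov_of_chunkM cB16_7_3_18))) (LitT.cov_of_chunkM cB16_7_3_19)))) (LitT.cov_of_chunkM cB16_7_3_20)) (LitT.Cov.split_t (LitT.cov_of_chunkM cB16_7_3_21) (LitT.cov_of_chunkM cB16_7_3_22))) (LitT.Cov.split_e (LitT.Cov.split_x (LitT.Cov.split_t (LitT.Cov.split_e (LitT.cov_of_chunkM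 cB16_7_3_23) (LitT.Cov.split_x (LitT.cov_of_chunkM cB16_7_3_24) (LitT.cov_of_chunkM cB16_7_3_25))) (LitT.cov_of_chunkM cB16_7_3_26)) (LitT.cov_of_chunkM cB16_7_3_27)) (LitT.Cov.split_x (LitT.Cov.split_t (LitT.Cov.split_e (LitT.Cov.split_x (LitT.Cov.split_t (LitT.Cov.split_e (LitT.cov_of_chunkM cB16_7_3_28) (LitT.cov_of_chunkM cB16_7_3_29)) (LitT.cov_of_chunkM cB16_7_3_30)) (LitT.cov_of_chunkM cB16_7_3_31)) (LitT.Cov.split_x (LitT.Cov.split_t (LitT.cov_of_chunkM cB16_7_3_32) (LitT.Cov.split_e (LitT.cov_of_chunkM cB16_7_3_33) (LitT.cov_of_chunkM cB16_7_3_34))) (LitT.Cov.split_t (LitT.cov_of_chunkM cB16_7_3_35) (LitT.Cov.split_e (LitT.cov_of_chunkM cB16_7_3_36) (LitT.cov_of_chunkM cB16_7_3_37))))) (LitT.Cov.split_e (LitT.cov_of_chunkM cB16_7_3_38) (LitT.Cov.split_x (LitT.Cov.split_T (LitT.Cov.split_x (LitT.cov_of_chunkM cB16_7_3_39) (LitT.cov_of_chunkM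 cB16_7_3_40)) (LitT.cov_of_chunkM cB16_7_3_41)) (LitT.cov_of_chunkM cB16_7_3_42)))) (LitT.cov_of_chunkM cB16_7_3_43)))) (LitT.Cov.split_t (LitT.cov_of_chunkM cB16_7_3_44) (LitT.Cov.split_e (LitT.Cov.split_x (LitT.Cov.split_t (LitT.Cov.split_e (LitT.Cov.split_x (LitT.cov_of_chunkM cB16_7_3_45) (LitT.Cov.split_t (LitT.cov_of_chunkM cB16_7_3_46) (LitT.Cov.split_e (LitT.Cov.split_x (LitT.cov_of_chunkM cB16_7_3_47) (LitT.cov_of_chunkM cB16_7_3_48)) (LitT.cov_of_chunkM cB16_7_3_49)))) (LitT.cov_of_chunkM cB16_7_3_50)) (LitT.Cov.split_e (LitT.Cov.split_x (LitT.Cov.split_t (LitT.cov_of_chunkM cB16_7_3_51) (LitT.cov_of_chunkM cB16_7_3_52)) (LitT.Cov.split_t (LitT.Cov.split_e (LitT.cov_of_chunkM cB16_7_3_53) (LitT.Cov.split_x (LitT.cov_of_chunkM cB16_7_3_54) (LitT.cov_of_chunkM cB16_7_3_55))) (LitT.cov_of_chunkM cB16_7_3_56))) (LitT.Cov.split_x (LitT.cov_of_chunkM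 cB16_7_3_57) (LitT.Cov.split_t (LitT.Cov.split_e (LitT.Cov.split_x (LitT.cov_of_chunkM cB16_7_3_58) (LitT.cov_of_chunkM cB16_7_3_59)) (LitT.cov_of_chunkM cB16_7_3_60)) (LitT.Cov.split_e (LitT.cov_of_chunkM cB16_7_3_61) (LitT.cov_of_chunkM cB16_7_3_62)))))) (LitT.Cov.split_t (LitT.cov_of_chunkM cB16_7_3_63) (LitT.Cov.split_e (LitT.cov_of_chunkM cB16_7_3_64) (LitT.Cov.split_x (LitT.Cov.split_t (LitT.Cov.split_e (LitT.cov_of_chunkM cB16_7_3_65) (LitT.cov_of_chunkM cB16_7_3_66)) (LitT.cov_of_chunkM cB16_7_3_67)) (LitT.cov_of_chunkM cB16_7_3_68))))) (LitT.Cov.split_x (LitT.cov_of_chunkM cB16_7_3_69) (LitT.Cov.split_t (LitT.cov_of_chunkM cB16_7_3_70) (LitT.Cov.split_e (LitT.Cov.split_x (LitT.Cov.split_t (LitT.Cov.split_e (LitT.Cov.split_x (LitT.cov_of_chunkM cB16_7_3_71) (LitT.cov_of_chunkM cB16_7_3_72)) (LitT.cov_of_chunkM cB16_7_3_73)) (LitT.Cov.split_e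 (LitT.cov_of_chunkM cB16_7_3_74) (LitT.Cov.split_x (LitT.Cov.split_t (LitT.cov_of_chunkM cB16_7_3_75) (LitT.cov_of_chunkM cB16_7_3_76)) (LitT.cov_of_chunkM cB16_7_3_77)))) (LitT.cov_of_chunkM cB16_7_3_78)) (LitT.Cov.split_x (LitT.Cov.split_t (LitT.cov_of_chunkM cB16_7_3_79) (LitT.Cov.split_e (LitT.Cov.split_x (LitT.cov_of_chunkM cB16_7_3_80) (LitT.Cov.split_t (LitT.cov_of_chunkM cB16_7_3_81) (LitT.cov_of_chunkM cB16_7_3_82))) (LitT.cov_of_chunkM cB16_7_3_83))) (LitT.Cov.split_t (LitT.cov_of_chunkM cB16_7_3_84) (LitT.Cov.split_e (LitT.cov_of_chunkM cB16_7_3_85) (LitT.cov_of_chunkM cB16_7_3_86)))))))))) (LitT.Cov.split_t (LitT.Cov.split_e (LitT.cov_of_chunkM cB16_7_3_87) (LitT.Cov.split_x (LitT.Cov.split_t (LitT.Cov.split_e (LitT.Cov.split_x (LitT.Cov.split_t (LitT.Cov.split_e (LitT.cov_of_chunkM cB16_7_3_88) (LitT.cov_of_chunkM cB16_7_3_89)) (LitT.cov_of_chunkM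 cB16_7_3_90)) (LitT.Cov.split_e (LitT.cov_of_chunkM cB16_7_3_91) (LitT.cov_of_chunkM cB16_7_3_92))) (LitT.Cov.split_x (LitT.cov_of_chunkM cB16_7_3_93) (LitT.Cov.split_e (LitT.Cov.split_t (LitT.Cov.split_e (LitT.cov_of_chunkM cB16_7_3_94) (LitT.cov_of_chunkM cB16_7_3_95)) (LitT.cov_of_chunkM cB16_7_3_96)) (LitT.cov_of_chunkM cB16_7_3_97)))) (LitT.cov_of_chunkM cB16_7_3_98)) (LitT.Cov.split_e (LitT.cov_of_chunkM cB16_7_3_99) (LitT.Cov.split_t (LitT.Cov.split_e (LitT.cov_of_chunkM cB16_7_3_100) (LitT.Cov.split_x (LitT.Cov.split_t (LitT.Cov.split_e (LitT.Cov.split_x (LitT.cov_of_chunkM cB16_7_3_101) (LitT.cov_of_chunkM cB16_7_3_102)) (LitT.Cov.split_x (LitT.cov_of_chunkM cB16_7_3_103) (LitT.Cov.split_t (LitT.cov_of_chunkM cB16_7_3_104) (LitT.cov_of_chunkM cB16_7_3_105)))) (LitT.Cov.split_x (LitT.cov_of_chunkM cB16_7_3_106) (LitT.cov_of_chunkM cB16_7_3_107)))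 (LitT.cov_of_chunkM cB16_7_3_108))) (LitT.cov_of_chunkM cB16_7_3_109))))) (LitT.cov_of_chunkM cB16_7_3_110))) (LitT.Cov.split_e (LitT.Cov.split_x (LitT.cov_of_chunkM cB16_7_3_111) (LitT.Cov.split_t (LitT.cov_of_chunkM cB16_7_3_112) (LitT.Cov.split_t (LitT.Cov.split_e (LitT.Cov.split_t (LitT.Cov.split_e (LitT.Cov.split_x (LitT.Cov.split_t (LitT.Cov.split_x (LitT.cov_of_chunkM cB16_7_3_113) (LitT.Cov.split_e (LitT.Cov.split_t (LitT.cov_of_chunkM cB16_7_3_114) (LitT.cov_of_chunkM cB16_7_3_115)) (LitT.cov_of_chunkM cB16_7_3_116))) (LitT.Cov.split_e (LitT.cov_of_chunkM cB16_7_3_117) (LitT.cov_of_chunkM cB16_7_3_118))) (LitT.Cov.split_t (LitT.Cov.split_e (LitT.cov_of_chunkM cB16_7_3_119) (LitT.Cov.split_x (LitT.Cov.split_t (LitT.cov_of_chunkM cB16_7_3_120) (LitT.cov_of_chunkM cB16_7_3_121)) (LitT.cov_of_chunkM cB16_7_3_122))) (LitT.Cov.split_e (LitT.cov_of_chunkM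 cB16_7_3_123) (LitT.cov_of_chunkM cB16_7_3_124)))) (LitT.Cov.split_x (LitT.cov_of_chunkM cB16_7_3_125) (LitT.Cov.split_t (LitT.Cov.split_e (LitT.Cov.split_x (LitT.cov_of_chunkM cB16_7_3_126) (LitT.cov_of_chunkM cB16_7_3_127)) (LitT.cov_of_chunkM cB16_7_3_128)) (LitT.Cov.split_e (LitT.Cov.split_x (LitT.Cov.split_t (LitT.cov_of_chunkM cB16_7_3_129) (LitT.cov_of_chunkM cB16_7_3_130)) (LitT.cov_of_chunkM cB16_7_3_131)) (LitT.Cov.split_x (LitT.cov_of_chunkM cB16_7_3_132) (LitT.Cov.split_t (LitT.cov_of_chunkM cB16_7_3_133) (LitT.cov_of_chunkM cB16_7_3_134))))))) (LitT.Cov.split_x (LitT.Cov.split_e (LitT.Cov.split_T (LitT.Cov.split_x (LitT.cov_of_chunkM cB16_7_3_135) (LitT.cov_of_chunkM cB16_7_3_136)) (LitT.cov_of_chunkM cB16_7_3_137)) (LitT.Cov.split_x (LitT.cov_of_chunkM cB16_7_3_138) (LitT.Cov.split_t (LitT.Cov.split_e (LitT.cov_of_chunkM cB16_7_3_139) (LitT.cov_of_chunkM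 cB16_7_3_140)) (LitT.cov_of_chunkM cB16_7_3_141)))) (LitT.Cov.split_e (LitT.cov_of_chunkM cB16_7_3_142) (LitT.Cov.split_t (LitT.Cov.split_e (LitT.cov_of_chunkM cB16_7_3_143) (LitT.Cov.split_x (LitT.Cov.split_T (LitT.cov_of_chunkM cB16_7_3_144) (LitT.cov_of_chunkM cB16_7_3_145)) (LitT.cov_of_chunkM cB16_7_3_146))) (LitT.cov_of_chunkM cB16_7_3_147))))) (LitT.Cov.split_x (LitT.cov_of_chunkM cB16_7_3_148) (LitT.Cov.split_t (LitT.Cov.split_e (LitT.Cov.split_t (LitT.cov_of_chunkM cB16_7_3_149) (LitT.Cov.split_x (LitT.cov_of_chunkM cB16_7_3_150) (LitT.Cov.split_e (LitT.Cov.split_t (LitT.cov_of_chunkM cB16_7_3_151) (LitT.cov_of_chunkM cB16_7_3_152)) (LitT.cov_of_chunkM cB16_7_3_153)))) (LitT.cov_of_chunkM cB16_7_3_154)) (LitT.Cov.split_e (LitT.Cov.split_t (LitT.Cov.split_e (LitT.Cov.split_x (LitT.cov_of_chunkM cB16_7_3_155) (LitT.cov_of_chunkM cB16_7_3_156))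 (LitT.Cov.split_x (LitT.cov_of_chunkM cB16_7_3_157) (LitT.Cov.split_t (LitT.cov_of_chunkM cB16_7_3_158) (LitT.cov_of_chunkM cB16_7_3_159)))) (LitT.Cov.split_x (LitT.cov_of_chunkM cB16_7_3_160) (LitT.cov_of_chunkM cB16_7_3_161))) (LitT.Cov.split_x (LitT.cov_of_chunkM cB16_7_3_162) (LitT.Cov.split_t (LitT.cov_of_chunkM cB16_7_3_163) (LitT.Cov.split_e (LitT.Cov.split_T (LitT.cov_of_chunkM cB16_7_3_164) (LitT.cov_of_chunkM cB16_7_3_165)) (LitT.cov_of_chunkM cB16_7_3_166)))))))) (LitT.cov_of_chunkM cB16_7_3_167)))) (LitT.cov_of_chunkM cB16_7_3_168))))))), (LitT.Cov.split_t (LitT.cov_of_chunkM cB16_7_1_0) (LitT.Cov.split_T (LitT.Cov.split_T (LitT.Cov.split_T (LitT.Cov.split_E (LitT.Cov.split_E (LitT.Cov.split_E (LitT.Cov.split_E (LitT.Cov.split_e (LitT.cov_of_chunkM cB16_7_1_1) (LitT.Cov.split_e (LitT.Cov.split_t (LitT.Cov.split_e (LitT.cov_of_chunkM cB16_7_1_2)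 (LitT.cov_of_chunkM cB16_7_1_3)) (LitT.cov_of_chunkM cB16_7_1_4)) (LitT.Cov.split_t (LitT.cov_of_chunkM cB16_7_1_5) (LitT.Cov.split_e (LitT.Cov.split_t (LitT.Cov.split_e (LitT.Cov.split_t (LitT.cov_of_chunkM cB16_7_1_6) (LitT.Cov.split_e (LitT.cov_of_chunkM cB16_7_1_7) (LitT.Cov.split_x (LitT.cov_of_chunkM cB16_7_1_8) (LitT.cov_of_chunkM cB16_7_1_9)))) (LitT.Cov.split_t (LitT.cov_of_chunkM cB16_7_1_10) (LitT.Cov.split_e (LitT.cov_of_chunkM cB16_7_1_11) (LitT.cov_of_chunkM cB16_7_1_12)))) (LitT.Cov.split_t (LitT.Cov.split_e (LitT.cov_of_chunkM cB16_7_1_13) (LitT.Cov.split_x (LitT.Cov.split_t (LitT.Cov.split_e (LitT.cov_of_chunkM cB16_7_1_14) (LitT.cov_of_chunkM cB16_7_1_15)) (LitT.cov_of_chunkM cB16_7_1_16)) (LitT.cov_of_chunkM cB16_7_1_17))) (LitT.cov_of_chunkM cB16_7_1_18))) (LitT.Cov.split_e (LitT.Cov.split_x (LitT.cov_of_chunkM cB16_7_1_19) (LitT.Cov.split_t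 (LitT.cov_of_chunkM cB16_7_1_20) (LitT.Cov.split_t (LitT.Cov.split_e (LitT.Cov.split_t (LitT.Cov.split_e (LitT.cov_of_chunkM cB16_7_1_21) (LitT.cov_of_chunkM cB16_7_1_22)) (LitT.Cov.split_x (LitT.cov_of_chunkM cB16_7_1_23) (LitT.cov_of_chunkM cB16_7_1_24))) (LitT.Cov.split_x (LitT.cov_of_chunkM cB16_7_1_25) (LitT.Cov.split_t (LitT.cov_of_chunkM cB16_7_1_26) (LitT.Cov.split_e (LitT.cov_of_chunkM cB16_7_1_27) (LitT.cov_of_chunkM cB16_7_1_28))))) (LitT.cov_of_chunkM cB16_7_1_29)))) (LitT.cov_of_chunkM cB16_7_1_30)))))) (LitT.cov_of_chunkM cB16_7_1_31)) (LitT.cov_of_chunkM cB16_7_1_32)) (LitT.cov_of_chunkM cB16_7_1_33)) (LitT.cov_of_chunkM cB16_7_1_34)) (LitT.cov_of_chunkM cB16_7_1_35)) (LitT.cov_of_chunkM cB16_7_1_36)) (LitT.cov_of_chunkM cB16_7_1_37))), (LitT.cov_of_chunkM cB16_7_2_0), (LitT.cov_of_chunkM cB16_7_0_0)⟩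

end Vale.Agent.helper4.Q4
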