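import Vale.Agent.helper4.Q4TreeM
import Vale.Agent.helper4.Q4G.PB16_8

/-!
Checks for pairs of intervals of second moments.
-/

set_option maxRecDepth 100000
set_option linter.unusedVariables false

namespace Vale.Agent.helper4.Q4

theorem cB16_8_3_7 : chunkOkM (LB16_8.ctx true true 228 25 16 9 16 299 215 4 32) muQ true true 64 RtB16_8.Cx RtB16_8.CX RtB16_8.Ctp.right.left.right.right RtB16_8.Ce.right.left.right.left RtB16_8.CTp RtB16_8.CEr 0x138a9157fd18767e07f85356e1d7f619a5e94c8f540d69111f0aae8fd1037e2e485c196872048f62fc8e3de8f540da6541d87fd7b0e02375c4bd9be68b2f64da5f8f63cb2dc058f550d675694 = true := by decide +kernel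

theorem cB16_8_3_8 : chunkOkM (LB16_8.ctx true true 214 13 8 9 16 273 115 2 16) muQ true true 64 RtB16_8.Cx RtB16_8.CX RtB16_8.Ctp.right.left.right.left RtB16_8.Ce.right.left.right.right RtB16_8.CTp RtB16_8.CEr 0x16fcc407fd387b35e75c1e249ba879f6c5dfc08f69f5f8550d3309f450d = true := by decide +kernel

theorem cB16_8_3_9 : chunkOkM (LB16_8.ctx true true 240 27 16 9 16 1183 455 4 32) muQ true true 64 RtB16_8.Cx RtB16_8.CX RtB16_8.Ctp.right.left.right.right.left RtB16_8.Ce.right.left.right.right.left RtB16_8.CTp RtB16_8.CEr 0xd0ba0c6fd1e699d47f811348137f75c4e530b8f6830bee488f527c0c6618f460d557d4887fd5ecdb3a75ce5c0cce7f635fc81948f5d6702c47f450d5694493eac49e97ed203619b7f87cb753c7f6323a57418f540d44378fa7fd636e69e75cb06dc337f63735947c8f540d51276a60d8ed184fcb57f8862fc7b7f62e80efc98f540d440cf257fd8e1e42575c3981c5f623331e7a8f540d215707c18f05b6547 = true := by decide +kernel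

theorem cB16_8_3_10 : chunkOkM (LB16_8.ctx true true 232 25 16 9 16 611 225 4 32) muQ true true 64 RtB16_8.Cx RtB16_8.CX RtB16_8.Ctp.right.left.right.right.right RtB16_8.Ce.right.left.right.right.left RtB16_8.CTp RtB16_8.CEr 0x6917b1b3b98ededa9296f896aa3e47f61f9e2ad38f540dc0e3ac77fdcd3765c75c9c3ade17f61fb2e1528f540d7a7bfda7fd9ca9f6c75c110826d08f623b213cd8f540d657 = true := by decide +kernel

theorem cB16_8_3_11 : chunkOkM (LB16_8.ctx true true 262 209 128 9 16 2379 925 4 16) muQ true true 64 RtB16_8.Cx RtB16_8.CX RtB16_8.Ctp.right.left.right.right.left RtB16_8.Ce.right.left.right.right.right RtB16_8.CTp RtB16_8.CEr 0x41495949599eb5ec77ed22529077f8ed59d267f637871a698f57679fe47f450d2e6aa5c7fd309e79075ce3c6ee828f6129359f499f540d5593474774931fe84d27fd315312175c17f9d5d7f822a85a07f63f40342d8f550d7 = true := by decide +kernel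

theorem cB16_8_3_12 : chunkOkM (LB16_8.ctx true true 246 51 32 9 16 1235 475 4 32) muQ true true 64 RtB16_8.Cx.left RtB16_8.CX RtB16_8.Ctp.right.left.right.right.right RtB16_8.Ce.right.left.right.right.right RtB16_8.CTp RtB16_8.CEr 0xeb2693c7ed23771f27f81a9c66fd8f6370035cc8f540d34e19097fd5de5cbc75c20747b248f63b308c988f540d559759313f308b38ed12e84a07f87214ca27f627df214d8f540d2bc20267fd99cf7ef75c20f0459b8f530d6d23af57fd8fbcf0b75ccba9ed27f630c40e288f540d654 = true := by decide +kernel

theorem cB16_8_3_13 : chunkOkM (LB16_8.ctx true true 239 53 32 9 16 611 475 4 16) muQ true true 64 RtB16_8.Cx.right RtB16_8.CX RtB16_8.Ctp.right.left.right.right.right RtB16_8.Ce.right.left.right.right.right RtB16_8.CTp RtB16_8.CEr 0x49daad5157ed196723d7f82eb0c9b68f6563fe4188f540d31984617fd4d4d0fc75c12d4907d8f63faaaba28f5f064326f450d589f4a127ed1f174a27f81ed01f538f64170f80f8f540d2de84e27fd2994e2b75c20d71afe8f64272c0f68f540d547 = true := by decide +kernel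

end Vale.Agent.helper4.Q4
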