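import Vale.Agent.helper4.Q4TreeM
import Vale.Agent.helper4.Q4G.PB16_8

/-!
Checks for pairs of intervals of second moments.
-/

set_option maxRecDepth 100000
set_option linter.unusedVariables false

namespace Vale.Agent.helper4.Q4

theorem cB16_8_3_21 : chunkOkM (LB16_8.ctx true true 243 53 32 9 16 1235 485 4 16) muQ true true 64 RtB16_8.Cx RtB16_8.CX RtB16_8.Ctp.right.left RtB16_8.Ce.right.right RtB16_8.CTp RtB16_8.CEr 0x5959594959a98bd897ed223d9927f81040165d8f6369920038f540d33322b97fd3a18d7e75c1367dd0a8f63f58f6e38f540d559345937597445934593 = true := by decide +kernel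

theorem cB16_8_3_22 : chunkOkM (LB16_8.ctx true true 255 103 64 9 16 1287 985 4 32) muQ true true 64 RtB16_8.Cx.left RtB16_8.CX RtB16_8.Ctp.right.right.left.left.left RtB16_8.Ce.right.right.left.left.left RtB16_8.CTp RtB16_8.CEr 0x5910b06eec8ed1b728397f816b66e17f61f0b79ba8f540d48425597fd8302d4d75c216950518f530d55974597593168e961f8eddd0a426f84a6338b7f620c0e3678f540d963fd337fdca63bb075cda4e906f61e3e285c8f540da7849e97fda81363375c4fbd14d7f621079d818f540d654 = true := by decide +kernel

theorem cB16_8_3_23 : chunkOkM (LB16_8.ctx true true 249 51 32 9 16 663 485 8 64) muQ true true 64 RtB16_8.Cx.left RtB16_8.CX RtB16_8.Ctp.right.right.left.left.right RtB16_8.Ce.right.right.left.left.left.left RtB16_8.CTp.left RtB16_8.CEr.left 0x960bf097fdaef0b4775c17a8ee968f61cae9ea78f540d62063bc7fd5e397f675cd84a2677f6116893388f540dd39c6bb7fd103a175b85c99986668bda0a8157f6125e41b18f550d42f0cba7fd304bec178bff4d85b7f611996a7c8f540d657 = true := by decide +kernel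

theorem cB16_8_3_24 : chunkOkM (LB16_8.ctx true true 253 51 32 9 16 1339 495 8 64) muQ true true 64 RtB16_8.Cx.left RtB16_8.CX RtB16_8.Ctp.right.right.left.left.right RtB16_8.Ce.right.right.left.left.left.right RtB16_8.CTp.left RtB16_8.CEr.left 0xc97926c7fdb33730f75cb2b66ab7f618c803038f540d6f381437fd62080c475cd5f33137f61161cf7f8f540d135d65e58fd140bec8685c130aa1db8f530dbc034a87fd5d72ed775c1e9c76078be4211417f6f14390d7f550d65a81e1e97fda5ba55e75c1e1e729b8f530d37 = true := by decide +kernel

theorem cB16_8_3_25 : chunkOkM (LB16_8.ctx true true 233 25 16 9 16 663 245 4 32) muQ true true 64 RtB16_8.Cx.left RtB16_8.CX RtB16_8.Ctp.right.right.left.left.right RtB16_8.Ce.right.right.left.left.left RtB16_8.CTp.left RtB16_8.CEr.right 0xb4c37407fdf34ac6d75cd46d55a7f615172ff48f540d = true := by decide +kernel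

theorem cB16_8_3_26 : chunkOkM (LB16_8.ctx true true 236 25 16 9 16 663 495 4 32) muQ true true 64 RtB16_8.Cx.left RtB16_8.CX RtB16_8.Ctp.right.right.left.left.right RtB16_8.Ce.right.right.left.left.left RtB16_8.CTp.right RtB16_8.CEr 0x1dd79a77fd63ad0065c2efee597f6151437ff8f540d1dc80397fd42e36f65c967b44d7f6110a060b8f540d46a6 = true := by decide +kernel

theorem cB16_8_3_27 : chunkOkM (LB16_8.ctx true true 239 55 32 9 16 637 495 4 16) muQ true true 64 RtB16_8.Cx.right RtB16_8.CX RtB16_8.Ctp.right.right.left.left.left RtB16_8.Ce.right.right.left.left.left RtB16_8.CTp RtB16_8.CEr 0xc5cea7d7ed175f33c7f889ed62f7f62d0cebea8f540d2dc11447fd3b4e70575c1ef210c18f63d606ab68f5e1f71ce7f450d3d579917fd694922f75cef8810e7f6310691778f540d75b7102407ed1bccbf37f811ae8f468f62946b9cc8f540d46088027fd6bf552d75ccbc8ebd7f6269d52c48f540d54 = true := by decide +kernel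

theorem cB16_8_3_28 : chunkOkM (LB16_8.ctx true true 234 27 16 9 16 663 245 4 32) muQ true true 64 RtB16_8.Cx.right RtB16_8.CX RtB16_8.Ctp.right.right.left.left.right RtB16_8.Ce.right.right.left.left.left RtB16_8.CTp RtB16_8.CEr 0xfb86cb6fd18942e57f8246d8d368f62cf0ba4f8f540da1b05cadf0d627fda49547475c1080aca68f624862c5a8f540d65 = true := by decide +kernel

theorem cB16_8_3_29 : chunkOkM (LB16_8.ctx true true 254 107 64 9 16 1287 515 4 16) muQ true true 64 RtB16_8.Cx RtB16_8.CX RtB16_8.Ctp.right.right.left.left.left RtB16_8.Ce.right.right.left.left.right RtB16_8.CTp RtB16_8.CEr 0x73bfa047ed22664717f8208ecaf58f6441947d98f59ae9e7e7f450d1e124327fd109cd6e75cb1141ea7f633d7cb648f540d5597593e90bf0d7ed15a30207f815bcc5508f639475fdd8f540d245e3767fd19a10f875c6a0dd2a7f62d7667cd8f540d5a3237327ed1c54e347f81323b6e48f62dedb8e58f540d28ba57a7fd313265d75c630dcc57f626f91f108f540d559771fa7ab87ed168c29675c73685d6f879bb4a2499f63ccdcd58ffaf5672e535e61af460d34597 = true := by decide +kernel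

theorem cB16_8_3_30 : chunkOkM (LB16_8.ctx true true 273 207 128 9 16 2691 2045 8 32) muQ true true 64 RtB16_8.Cx.left RtB16_8.CX RtB16_8.Ctp.right.right.left.left.right RtB16_8.Ce.right.right.left.left.right RtB16_8.CTp RtB16_8.CEr 0x160132c7fd3afc5a6f8abc6fcc7f61df11dc68f540d6a6595949dcc4f7fd89340cd75c1babcf0e8f530d8422c79e8ed89dc93275c18465aad8f530d645975934597593597779d6267fdd4a278c75c4a68736f61bbc15f38f540dc3a61617fdace99e175c19ddc4e7f61bf99b928f540d595dea8d738ed5ad17d375c1c9033bb8f530df00076c7fdcc9580975c530a6568b1a5defc68f540d559359745937645 = true := by decide +kernel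

theorem cB16_8_3_31 : chunkOkM (LB16_8.ctx true true 237 27 16 9 16 663 505 4 32) muQ true true 64 RtB16_8.Cx.right RtB16_8.CX RtB16_8.Ctp.right.right.left.left.right RtB16_8.Ce.right.right.left.left.right.left RtB16_8.CTp RtB16_8.CEr 0x11d881188eddb91cd6f861d6e1a7f61d77838f8f540d9edb11e7fda3f4bac75c1a13681d8f6279627a58f540dd5da0577fd9ec5ccb75ccfe91d37f61e44666c8f540d65 = true := by decide +kernel

theorem cB16_8_3_32 : chunkOkM (LB16_8.ctx true true 247 53 32 9 16 1339 515 4 32) muQ true true 64 RtB16_8.Cx.right.left RtB16_8.CX RtB16_8.Ctp.right.right.left.left.right RtB16_8.Ce.right.right.left.left.right.right RtB16_8.CTp RtB16_8.CEr 0x15833b588eddb78ae6f8d1d58317f627e1a6f18f540d48a916d7fd840c22c75cd0365b6f61ee568d18f540d65d35247fd7d801df75ca9920477f62905b3d98f540d6293350c7fd3723b0475c49033768b2139c68f8f6412d203e8f550d35 = true := by decide +kernel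

end Vale.Agent.helper4.Q4
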