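import Vale.Agent.helper4.Q4TreeM
import Vale.Agent.helper4.Q4G.PB16_8

/-!
Checks for pairs of intervals of second moments.
-/

set_option maxRecDepth 100000
set_option linter.unusedVariables false

namespace Vale.Agent.helper4.Q4

theorem cB16_8_3_139 : chunkOkM (LB16_8.ctx true true 268 107 64 9 16 2951 1105 8 64) muQ true true 64 RtB16_8.Cx.right.left RtB16_8.CX RtB16_8.Ctp.right.right.right.left.left.left RtB16_8.Ce.right.right.left.right.right.right.left RtB16_8.CTp.left RtB16_8.CEr.left 0x66b08387fd4dc23af75c65c766c28f630da59733d7fdbd225af75c62f46468b7e974a818f640d535ea907fd1cbd1a475c177f44a78b625fab118f640d654c1afb67fd5baeca775c7846a63a8f630d6a6b5597ed7fdd63c49175c6aa762358f630d7454fad7fd345b24a75c1f609af78b69f78bee8f640d76cddd77fd36fdacd75c1a2902578b88694cd68f640d3657 = true := by decide +kernel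

theorem cB16_8_3_140 : chunkOkM (LB16_8.ctx true true 287 423 256 9 16 5915 2225 8 64) muQ true true 64 RtB16_8.Cx.right.left.left RtB16_8.CX RtB16_8.Ctp.right.right.right.left.left.left RtB16_8.Ce.right.right.left.right.right.right.right RtB16_8.CTp.left RtB16_8.CEr.left 0x696ef57f4f8ed60c8475784c1913e7e929f630dafa3f377fde269e6a75c217f00aa8f630d7d7fd667fd3daddf075c1d0eeeb187bc6d88a4d8f640d656936974697693 = true := by decide +kernel

theorem cB16_8_3_141 : chunkOkM (LB16_8.ctx true true 271 107 64 9 16 2951 2235 8 64) muQ true true 64 RtB16_8.Cx.right.left.right RtB16_8.CX RtB16_8.Ctp.right.right.right.left.left.left RtB16_8.Ce.right.right.left.right.right.right.right RtB16_8.CTp.left RtB16_8.CEr.left 0x49d5dd87fd5226f6275c51a113a18f677d29bc7f540d6a6ed52e7d7fdfef233575c1c149fed8f6bda56be7f540d55d4cc77fd1f83e9775c195852b78b6086b7298f640d6f4d07d7fd26190d675c1966a84387b5353a4e38f6785d0877f550d6f5dc627fd2984aab75c19993fea87b5f4df29b8f689787e57f550d4365 = true := by decide +kernel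

theorem cB16_8_3_142 : chunkOkM (LB16_8.ctx true true 268 105 64 9 16 1495 1105 16 64) muQ true true 64 RtB16_8.Cx.right.left.left RtB16_8.CX RtB16_8.Ctp.right.right.right.left.left.right RtB16_8.Ce.right.right.left.right.right.right.left RtB16_8.CTp.left.left RtB16_8.CEr.left.left 0x9033a3c7fd4bad36275c17d9e1578b4244657c8f640d13361b875c20d458b78b5474cb018f630d5 = true := by decide +kernel

theorem cB16_8_3_143 : chunkOkM (LB16_8.ctx true true 282 211 128 9 16 3003 2235 16 64) muQ true true 64 RtB16_8.Cx.right.left.left RtB16_8.CX RtB16_8.Ctp.right.right.right.left.left.right RtB16_8.Ce.right.right.left.right.right.right.right RtB16_8.CTp.left.left RtB16_8.CEr.left.left 0x791d18d7fd3d897be75c23eada7587bad482fdc8f640d66075f17fd29a1dfd75c241a857a87ba135ed1c8f640d35e1937c7fd2dae09a75c2180069487b7768e1b38f640d460a6cf47fd3249ac575c23decab487b14fc136d19f61c2fb1a7f250d69386b16847fd50754ed75c14578d2f87b8e155d518f61beca4a7f250defc66d65c22b3e0d687bc0ee2ae38f635719b47f240d55cb9dd97fd2a0dd5875c232b328687b194b7a8f19f640d347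 = true := by decide +kernel

theorem cB16_8_3_144 : chunkOkM (LB16_8.ctx true true 261 107 64 9 16 1495 555 8 64) muQ true true 64 RtB16_8.Cx.right.left.right RtB16_8.CX RtB16_8.Ctp.right.right.right.left.left.right RtB16_8.Ce.right.right.left.right.right.right RtB16_8.CTp.left.left RtB16_8.CEr.left.left 0x68212e67fd2ea4fc875c1ce851e78b469f87d18f640d = true := by decide +kernel

theorem cB16_8_3_145 : chunkOkM (LB16_8.ctx true true 262 53 32 9 16 1495 555 16 128) muQ true true 64 RtB16_8.Cx.right.left RtB16_8.CX RtB16_8.Ctp.right.right.right.left.left.right RtB16_8.Ce.right.right.left.right.right.right RtB16_8.CTp.left.left RtB16_8.CEr.left.right 0x5a856e6757fdb881fd375c2ae3ae68b334409c68f6712af46f250d65a5 = true := by decide +kernel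

theorem cB16_8_3_146 : chunkOkM (LB16_8.ctx true true 264 107 64 9 16 1495 1115 8 64) muQ true true 64 RtB16_8.Cx.right.left RtB16_8.CX RtB16_8.Ctp.right.right.right.left.left.right RtB16_8.Ce.right.right.left.right.right.right RtB16_8.CTp.left.right RtB16_8.CEr.left 0x24031317fd37b196975ca947f6858f630d594abb37fd788c70b75c6a19d2658f630d741c7bbe7fd5cd792275c5b5300e98f630d46a6 = true := by decide +kernel

theorem cB16_8_3_147 : chunkOkM (LB16_8.ctx true true 265 105 64 9 16 1521 555 16 64) muQ true true 64 RtB16_8.Cx.right.left RtB16_8.CX RtB16_8.Ctp.right.right.right.left.right RtB16_8.Ce.right.right.left.right.right.right RtB16_8.CTp.left RtB16_8.CEr.left 0x114ef8b347fd737753b75c258a9417f61352124b8f240d6a611b47022f7fddc9bdfc75c97fca768b13fdd0828f6118eb50e8f250d46d4ad27fd203739b75c174a99278b160753c68f613aaa3d78f250d168a6c675c225b39078b15243a988f614431eca8f240d56753 = true := by decide +kernel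

theorem cB16_8_3_148 : chunkOkM (LB16_8.ctx true true 255 55 32 9 16 1469 555 8 64) muQ true true 64 RtB16_8.Cx.right.right RtB16_8.CX RtB16_8.Ctp.right.right.right.left RtB16_8.Ce.right.right.left.right.right RtB16_8.CTp.left RtB16_8.CEr.left 0x116955a7ed27fd415d45c75c31416bf58f6d1f77df7f540dcbc1b1f7fdd0a027175c164b60798f6123138e58f540d63e65b77fd179db1c75c1b988f078b387c19498f6d5191547f550d6536943 = true := by decide +kernel

theorem cB16_8_3_149 : chunkOkM (LB16_8.ctx true true 266 55 32 9 16 1495 555 32 128) muQ true true 64 RtB16_8.Cx.right RtB16_8.CX RtB16_8.Ctp.right.right.right.left RtB16_8.Ce.right.right.left.right.right RtB16_8.CTp.left RtB16_8.CEr.right 0x5a5a7e3b8fb7fd6a25dd66c4d2b5867f614cad8d28f240d1502e3b7f05b40cde617fd530ed0f75c21b15e9e8f630d1dbe386fd1612d9375c25fab3e58f66981eee7f540d371eaa68a68f06b435a565a565a5 = true := by decide +kernel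

theorem cB16_8_3_150 : chunkOkM (LB16_8.ctx true true 101 1 1 1 1 1 1 1 1) muQ true true 64 RtB16_8.Cx.right RtB16_8.CX RtB16_8.Ctp.right.right.right.left RtB16_8.Ce.right.right.left.right.right RtB16_8.CTp.right RtB16_8.CEr.left 0x6a = true := by decide +kernel

theorem cB16_8_3_151 : chunkOkM (LB16_8.ctx true true 244 53 32 9 16 741 545 4 32) muQ true true 64 RtB16_8.Cx.right RtB16_8.CX RtB16_8.Ctp.right.right.right.left.left RtB16_8.Ce.right.right.left.right.right.left RtB16_8.CTp.right RtB16_8.CEr.right 0x691a1589898edd729a065c30ea925c8f630d7 = true := by decide +kernel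

end Vale.Agent.helper4.Q4
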