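import Vale.Agent.helper4.Q4TreeM
import Vale.Agent.helper4.Q4G.PB16_8

/-!
Checks for pairs of intervals of second moments.
-/

set_option maxRecDepth 100000
set_option linter.unusedVariables false

namespace Vale.Agent.helper4.Q4

theorem cB16_8_3_152 : chunkOkM (LB16_8.ctx true true 257 107 64 9 16 1495 1115 4 32) muQ true true 64 RtB16_8.Cx.right.left RtB16_8.CX RtB16_8.Ctp.right.right.right.left.left RtB16_8.Ce.right.right.left.right.right.right RtB16_8.CTp.right RtB16_8.CEr.right 0x177e3c6d8ed95169f65c5e643d698f630d1dd4e8ab8ed18c590b75c45adb5938f614e52a6f240d71b4475858ed118cf1875c4a05e9b98f630d41831e9558ed88362765c460baf2f8f65dee2e27f540d16bc95ef8ed3c3e3465c79664b668f630d7177aacd88ed85758165c51fe627e8f633db6e67f540d18aa87aa8edd3889165c72d274838f630d743 = true := by decide +kernel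

theorem cB16_8_3_153 : chunkOkM (LB16_8.ctx true true 244 55 32 9 16 741 555 4 32) muQ true true 64 RtB16_8.Cx.right.right RtB16_8.CX RtB16_8.Ctp.right.right.right.left.left RtB16_8.Ce.right.right.left.right.right.right RtB16_8.CTp.right RtB16_8.CEr.right 0x15338e17fd600d35f822ef0be18f6bedc00c7f540d = true := by decide +kernel

theorem cB16_8_3_154 : chunkOkM (LB16_8.ctx true true 235 27 16 9 16 767 275 4 32) muQ true true 64 RtB16_8.Cx.right RtB16_8.CX RtB16_8.Ctp.right.right.right.left.right RtB16_8.Ce.right.right.left.right.right RtB16_8.CTp.right RtB16_8.CEr.right 0x1bd64d17fd14fde0175c98f24407f6db013f67f240d = true := by decide +kernel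

theorem cB16_8_3_155 : chunkOkM (LB16_8.ctx true true 212 13 8 9 16 403 65 2 16) muQ true true 64 RtB16_8.Cx RtB16_8.CX RtB16_8.Ctp.right.right.right.right RtB16_8.Ce.right.right.left RtB16_8.CTp RtB16_8.CEr 0x2e2080d7fdb89e1ad75c726f03f7f1597c3b718f040d = true := by decide +kernel

theorem cB16_8_3_156 : chunkOkM (LB16_8.ctx true true 101 1 1 1 1 1 1 1 1) muQ true true 64 RtB16_8.Cx.left RtB16_8.CX RtB16_8.Ctp.right.right RtB16_8.Ce.right.right.right.left RtB16_8.CTp RtB16_8.CEr 0x21 = true := by decide +kernel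

theorem cB16_8_3_157 : chunkOkM (LB16_8.ctx true true 248 55 32 9 16 1443 565 4 32) muQ true true 64 RtB16_8.Cx.right RtB16_8.CX RtB16_8.Ctp.right.right.left RtB16_8.Ce.right.right.right.left RtB16_8.CTp RtB16_8.CEr 0x5959168a10e88edae8e356f8492106c7f61c6ca8f48f540da270b0e7fda7ae96275c104fcf648f61af7b23b8f540d8dedbf17fd7464de375c2abd1468b1fe166728f540d6559359745934593 = true := by decide +kernel

theorem cB16_8_3_158 : chunkOkM (LB16_8.ctx true true 290 431 256 9 16 5863 4485 8 64) muQ true true 64 RtB16_8.Cx.right.left RtB16_8.CX RtB16_8.Ctp.right.right.right.left.left.left RtB16_8.Ce.right.right.right.left.left.left RtB16_8.CTp.left RtB16_8.CEr.left 0x6945b3d757fd4e8fd0b75c589b5f2b8f689e88f17f540d6a6d04e9a77fde0c3e5075c4d152dc48f630d535ef697fd1d1601a75c18905a478b8ca46bc38f640d659698fee0be7fdac764ea75c7709e3c98f630d5d182117fd202d10375c170aa61487b483d5bac8f6a6d42267f550d646975934597354697 = true := by decide +kernel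

theorem cB16_8_3_159 : chunkOkM (LB16_8.ctx true true 277 211 128 9 16 3003 2245 8 64) muQ true true 64 RtB16_8.Cx.right.left.left RtB16_8.CX RtB16_8.Ctp.right.right.right.left.left.right RtB16_8.Ce.right.right.right.left.left.left RtB16_8.CTp.left RtB16_8.CEr.left 0x6969781ae4728ed7379b3575c25a58068baefa2ab78f640da5b9b887fde6ca0d675c5cf81d898f630d5f2fa977fd32ae99175c2123ff0787ba73773a58f640d6546932174 = true := by decide +kernel

theorem cB16_8_3_160 : chunkOkM (LB16_8.ctx true true 273 215 128 9 16 1495 2255 8 64) muQ true true 64 RtB16_8.Cx.right.left.right RtB16_8.CX RtB16_8.Ctp.right.right.right.left.left.right RtB16_8.Ce.right.right.right.left.left.left.left RtB16_8.CTp.left RtB16_8.CEr.left 0x58349107fd65cb18775c422843198f630d6a6b115ff77fdd09628175c232d4d68b59810bfa8f640d4df0c2e7fd1cb0e9a75c1d1d5c578b685b68b88f640d722495a7fd34fb68b75c1fcb2b2887b8e994b158f640d714d1b37fd342592675c1f9fee1987b57be47cd8f640d4765 = true := by decide +kernel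

theorem cB16_8_3_161 : chunkOkM (LB16_8.ctx true true 274 215 128 9 16 3003 1135 8 64) muQ true true 64 RtB16_8.Cx.right.left.right RtB16_8.CX RtB16_8.Ctp.right.right.right.left.left.right RtB16_8.Ce.right.right.right.left.left.left.right RtB16_8.CTp.left RtB16_8.CEr.left 0x4e4c9637fd60d8f6d75c855a50a48f630d6a6af3f4ae7fdcd7f92875c21b85868b7263311b8f640d6d7d66b7fd321cf1775c1e14038e87b82db0c8f8f640d43c9a207fd191b78075c2198f6278bd92061af8f640d754122097fd20317f575c1ba0b3578ba3e51e2b8f640d365 = true := by decide +kernel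

theorem cB16_8_3_162 : chunkOkM (LB16_8.ctx true true 101 1 1 1 1 1 1 1 1) muQ true true 64 RtB16_8.Cx.right.left RtB16_8.CX RtB16_8.Ctp.right.right.right.left.left RtB16_8.Ce.right.right.right.left.left.right RtB16_8.CTp.left RtB16_8.CEr.left 0x69 = true := by decide +kernel

theorem cB16_8_3_163 : chunkOkM (LB16_8.ctx true true 307 1695 1024 17 32 1521 9045 16 64) muQ true true 64 RtB16_8.Cx.right.left.left RtB16_8.CX RtB16_8.Ctp.right.right.right.left.right RtB16_8.Ce.right.right.right.left.left.left RtB16_8.CTp.left.left RtB16_8.CEr.left 0x01212121d29cfa27fdf328f2175c7742649a8f630d4d92b937fd2ae0b6475c13e874f387b7534cf6b8f612e4869d8f250d13e6a1275c1ff3b97887b519341568f677092827f240d56217421742174217c3e8bce7fded07a7175c67c07e68b3cd7b84b8f69eb6a4d7f250d7f47756fdc5a29668b328ac4058f6d572e087f240d4233aadfe75c4f8d5268b3cd281c08f6c554d9b7f240d85217643 = true := by decide +kernel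

theorem cB16_8_3_164 : chunkOkM (LB16_8.ctx true true 268 107 64 9 16 3029 1125 8 64) muQ true true 64 RtB16_8.Cx.right.left.right RtB16_8.CX RtB16_8.Ctp.right.right.right.left.right RtB16_8.Ce.right.right.right.left.left.left.left RtB16_8.CTp.left.left RtB16_8.CEr.left.left 0x11115c70f217fd2d8b39b75c22261b478b63ff4b7d8f640d33 = true := by decide +kernel

end Vale.Agent.helper4.Q4
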