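import Vale.Agent.helper4.Q4TreeM
import Vale.Agent.helper4.Q4G.PB16_8

/-!
Checks for pairs of intervals of second moments.
-/

set_option maxRecDepth 100000
set_option linter.unusedVariables false

namespace Vale.Agent.helper4.Q4

theorem cB16_8_3_165 : chunkOkM (LB16_8.ctx true true 283 215 128 17 32 1547 2275 16 64) muQ true true 64 RtB16_8.Cx.right.left.right RtB16_8.CX RtB16_8.Ctp.right.right.right.left.right RtB16_8.Ce.right.right.right.left.left.left.right RtB16_8.CTp.left.left RtB16_8.CEr.left.left 0x22bbc4c78b43475b228f020d4bf690d7fd2b1cb9775c103583178b63e8b2af8f640de148c965c214239d78b6179337f8f630d517fb9667fd11d314af87b698a406d8f6a8c7c197f240d4233ca86875c5ac95168b65ba35638f683417147f240d851bde6257fd365fab65c117c1cc78b3b17986f8f68f370bb7f250d107e64c75c205548ca87b602e5d3c8f68f3df987f240d5473 = true := by decide +kernel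

theorem cB16_8_3_166 : chunkOkM (LB16_8.ctx true true 257 107 64 9 16 767 565 8 64) muQ true true 64 RtB16_8.Cx.right.left.right RtB16_8.CX RtB16_8.Ctp.right.right.right.left.right RtB16_8.Ce.right.right.right.left.left.left RtB16_8.CTp.left.left RtB16_8.CEr.left.right 0xb146b3c7fddf942d575c364df768b2605eea28f682d87d07f250d = true := by decide +kernel

theorem cB16_8_3_167 : chunkOkM (LB16_8.ctx true true 264 107 64 9 16 1547 1135 8 64) muQ true true 64 RtB16_8.Cx.right.left RtB16_8.CX RtB16_8.Ctp.right.right.right.left.right RtB16_8.Ce.right.right.right.left.left.left RtB16_8.CTp.left.right RtB16_8.CEr.left 0xd65fc207f00b5e2e3167fd78a5ee175c3874b7a58f652a0ca77f240d359cbda37fd81d699575c547e3c678f630d4015762efc7fd77966f175c61faa2688f6be441387f240d5507eff7fd74af9b375c2d22e30b8f6a8510f57f240d4376a6 = true := by decide +kernel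

theorem cB16_8_3_168 : chunkOkM (LB16_8.ctx true true 101 1 1 1 1 1 1 1 1) muQ true true 64 RtB16_8.Cx.right.left.left RtB16_8.CX RtB16_8.Ctp.right.right.right.left.right RtB16_8.Ce.right.right.right.left.left.right RtB16_8.CTp.left RtB16_8.CEr.left 0x21 = true := by decide +kernel

theorem cB16_8_3_169 : chunkOkM (LB16_8.ctx true true 287 215 128 17 32 3055 2295 16 64) muQ true true 64 RtB16_8.Cx.right.left.right RtB16_8.CX RtB16_8.Ctp.right.right.right.left.right RtB16_8.Ce.right.right.right.left.left.right.left RtB16_8.CTp.left.left RtB16_8.CEr.left 0x848bf907fdb3d356475c4b051268b3a3d7ef78f6a2380ce7f250d5a556ecc457fd287b91c75c24b23c178b85e82707f615ffc0f68f230064f060d1824fbb7fd110da97387b31d9c6ab8f6c88fc227f240d132978875c1fc7189587bc00d7b068f67b6c27c7f240d56934b7072e7fd22ae09875c11e5cc278b5452824c8f66afb2697f250d422f7dbd475c6be8d268b6864c9068f648ddda77f240d8545ab987c7fd2d143ec75c22c49d278b774af6358f613cf26798f250d693736 = true := by decide +kernel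

theorem cB16_8_3_170 : chunkOkM (LB16_8.ctx true true 304 863 512 9 16 12285 9205 8 64) muQ true true 64 RtB16_8.Cx.right.left.right RtB16_8.CX RtB16_8.Ctp.right.right.right.left.right RtB16_8.Ce.right.right.right.left.left.right.right RtB16_8.CTp.left.left RtB16_8.CEr.left 0x2121010101b7f11897fdd4612ed75c911fcc68b9e13e4418f61044bdc88f250d661192f7fd31ae79c75c23ac144687ba3bf49958f612d5bd258f250d6333699b7dd647fdbf5d23a75ca3ae9e68b2732491a99f640d6ffac117fd3c4b44775c2217a71487b331d92d2e9f640d66934693693321742174217 = true := by decide +kernel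

theorem cB16_8_3_171 : chunkOkM (LB16_8.ctx true true 288 863 512 9 16 1547 4605 8 64) muQ true true 64 RtB16_8.Cx.right.left.right RtB16_8.CX RtB16_8.Ctp.right.right.right.left.right RtB16_8.Ce.right.right.right.left.left.right RtB16_8.CTp.left.right RtB16_8.CEr.left 0x2121506690c78ed769d88a75c85c5f15a8f612a664c88f240d495a624c8ed6b6b99a75ca042d9ac8f630d32174217421751c5c307fd78e4a6575c84c4d787f61485993e8f240d61b4b6f7fd7e750f575c4dbde0b38f65672e7a7f240d346a6 = true := by decide +kernel

theorem cB16_8_3_172 : chunkOkM (LB16_8.ctx true true 272 107 64 9 16 1495 575 32 128) muQ true true 64 RtB16_8.Cx.right.left RtB16_8.CX RtB16_8.Ctp.right.right.right.left RtB16_8.Ce.right.right.right.left.left RtB16_8.CTp.left RtB16_8.CEr.right 0x5a5a28332447fd30294d675c25ccfd1e8f687123027f240d2db27ff7fd3c5558475c1cc33b2d8f6a6eb5d07f240d4692b6e4fa7fd349194575c39b5996d8f630d52ff5107fd5d11cf175c3c5ec8b78f67aed826f240d711bc95375c3222ac018f6a44eaeb7f530d3435a565a565a5 = true := by decide +kernel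

theorem cB16_8_3_173 : chunkOkM (LB16_8.ctx true true 264 111 64 9 16 1469 1125 8 64) muQ true true 64 RtB16_8.Cx.right.right RtB16_8.CX RtB16_8.Ctp.right.right.right.left.left.left RtB16_8.Ce.right.right.right.left.left.left.left RtB16_8.CTp.left RtB16_8.CEr.left 0x395ac527fd1e3d52175c393dbead8f61338b11f8f540d9b7ca897fd7ce490d75cfdccc468b16e341298f61779baaf8f550d55f9c9f97fd6e9b08b75c17ada73c8f612433a9c8f540d6a6b8bea807fdc61b66d75c8bc7b58b385737d78f6ddc20dc7f550d5dd97fd7fd22816e275c194ec2e78b2cbdf5308f6ece63ae7f550d657 = true := by decide +kernel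

theorem cB16_8_3_174 : chunkOkM (LB16_8.ctx true true 281 219 128 9 16 5863 2265 8 64) muQ true true 64 RtB16_8.Cx.right.right.left RtB16_8.CX RtB16_8.Ctp.right.right.right.left.left.left RtB16_8.Ce.right.right.right.left.left.left.right RtB16_8.CTp.left RtB16_8.CEr.left 0x47a66d77fd460c7c475c23b3dd068f6f1c82257f540d6a61051cf97fd736d36775c203374428f61514098f8f540d501edb67fd18cb02c75c1729b6578b3f030e568f6ccea1417f550d6559550419fc8ed542748b75c1e173b3d8f530da5ffe667fd7ff754e75c89d50f68b1fed31d38f540d559345973 = true := by decide +kernel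

end Vale.Agent.helper4.Q4
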