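import Vale.Agent.helper4.Q4TreeM
import Vale.Agent.helper4.Q4G.PB16_8

/-!
Checks for pairs of intervals of second moments.
-/

set_option maxRecDepth 100000
set_option linter.unusedVariables false

namespace Vale.Agent.helper4.Q4

theorem cB16_8_3_175 : chunkOkM (LB16_8.ctx true true 268 111 64 9 16 2951 1135 8 64) muQ true true 64 RtB16_8.Cx.right.right.right RtB16_8.CX RtB16_8.Ctp.right.right.right.left.left.left RtB16_8.Ce.right.right.right.left.left.left.right RtB16_8.CTp.left RtB16_8.CEr.left 0x5f7f0fe7fd4aac7c675c126887328f6157e3f388f540d776c4557fd96125bb75c2a82cca98f6140c16248f540d4d92e927fde4bd9665c159e25078b1719dc5a8f6160a1b0f8f550d684d71d57fd619aad575c1213fdd78b1a29f2a48f540d35 = true := by decide +kernel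

theorem cB16_8_3_176 : chunkOkM (LB16_8.ctx true true 271 111 64 9 16 3003 2275 8 64) muQ true true 64 RtB16_8.Cx.right.right RtB16_8.CX RtB16_8.Ctp.right.right.right.left.left.right RtB16_8.Ce.right.right.right.left.left.left RtB16_8.CTp.left.left RtB16_8.CEr.left 0xb3ba1a87fd98341eb75c20dabea6dc7fdc86a3a075c3c7109c18f6685d5747f540d6964cd17fd2ccb74d75c1bde5ba78b7abb1e798f640d4ed41a17fd1cc39f775c149677b78b71c041e28f640d7c634cb7fd28988e675c1ab90f778b918e832a8f640d4352239417fd1ba531675c1a6964678b8014edc38f640d467 = true := by decide +kernel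

theorem cB16_8_3_177 : chunkOkM (LB16_8.ctx true true 258 55 32 9 16 1495 1135 8 64) muQ true true 64 RtB16_8.Cx.right.right RtB16_8.CX RtB16_8.Ctp.right.right.right.left.left.right RtB16_8.Ce.right.right.right.left.left.left RtB16_8.CTp.left.right RtB16_8.CEr.left 0x3d46ce57fd3ca908775c3cf426d18f62c9a7d47f540d2c421e338f06b46a6 = true := by decide +kernel

theorem cB16_8_3_178 : chunkOkM (LB16_8.ctx true true 255 55 32 9 16 741 565 16 64) muQ true true 64 RtB16_8.Cx.right.right RtB16_8.CX RtB16_8.Ctp.right.right.right.left.left RtB16_8.Ce.right.right.right.left.left.left RtB16_8.CTp.left RtB16_8.CEr.right 0x5a2427ecd7fd37fb83c75c22e1612b8f6d47e8407f540d5a565a5 = true := by decide +kernel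

theorem cB16_8_3_179 : chunkOkM (LB16_8.ctx true true 294 439 256 9 16 11843 4565 8 64) muQ true true 64 RtB16_8.Cx.right.right.left RtB16_8.CX RtB16_8.Ctp.right.right.right.left.left.left RtB16_8.Ce.right.right.right.left.left.right.left RtB16_8.CTp.left RtB16_8.CEr.left 0x59595a3cc4f38ed44bc498c84c97ac4487f618f6dea48f540d7a8e53a7fd966756c75c34cf428d8f6108813518f540d666b7777fd262378775c14b51d6e87b2e2aa83b8f612c9644b8f550d6559345975934597593 = true := by decide +kernel

theorem cB16_8_3_180 : chunkOkM (LB16_8.ctx true true 290 443 256 9 16 5915 4585 8 64) muQ true true 64 RtB16_8.Cx.right.right.right RtB16_8.CX RtB16_8.Ctp.right.right.right.left.left.left RtB16_8.Ce.right.right.right.left.left.right.left RtB16_8.CTp.left RtB16_8.CEr.left 0x46ea19af8ed405c89175c692daa97f61bb077a98f540d9aea8427fd7826b5675ca05b7f68b1bd1ac468f540d598761cad7fd940527a75c1f9fe0ee8f530d50047af7fd1588ffb75c14cfc34387b1aa10e2e8f540d645975937d5a925a7fdbee7c2975c15d879698f61991b3438f540d7aa82dc7fd3bb65a875ccf001168b1208d9b28f61c4d62438f550d6459fa15e67fd752a9c875c20cbf09c8f530d3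 = true := by decide +kernel

theorem cB16_8_3_181 : chunkOkM (LB16_8.ctx true true 280 447 256 9 16 5915 2305 4 32) muQ true true 64 RtB16_8.Cx.right.right RtB16_8.CX RtB16_8.Ctp.right.right.right.left.left.left RtB16_8.Ce.right.right.right.left.left.right.right RtB16_8.CTp.left RtB16_8.CEr.left 0x599189d1d18ed727dc3275c1f35bd258f530d5975934597593597 = true := by decide +kernel

theorem cB16_8_3_182 : chunkOkM (LB16_8.ctx true true 272 109 64 9 16 3003 2295 8 64) muQ true true 64 RtB16_8.Cx.right.right.left RtB16_8.CX RtB16_8.Ctp.right.right.right.left.left.right RtB16_8.Ce.right.right.right.left.left.right.left RtB16_8.CTp.left RtB16_8.CEr.left 0x4609ffe7fd4b9120a75c5ed0a3ea8f6325a0df7f540d6a6b0e77a67fdcddda2475c50eae2818f64b65a957f540d668be8c7fd2950d3875c1ad014be87b9ede08d58f640d603c3ff7fd21e824575c1a2a00d78b7448ac178f640d45eb19bd7fd1bf826075c19b615578b10b52ffb99f640d4f7e18c7fd1674b9775c191ccaba87b78a6f69e8f63e763ab7f550d4365 = true := by decide +kernel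

theorem cB16_8_3_183 : chunkOkM (LB16_8.ctx true true 264 111 64 9 16 1495 1145 8 64) muQ true true 64 RtB16_8.Cx.right.right.right RtB16_8.CX RtB16_8.Ctp.right.right.right.left.left.right RtB16_8.Ce.right.right.right.left.left.right.left RtB16_8.CTp.left RtB16_8.CEr.left 0x53922b17fd5ac8dfa75c2b69460a8f6e7d5d407f540d6a6757fe1f7fda195dec75c4c801f9f8f6d94cfd37f540d53aa7f17fd198e5fe75c17a949e78b38d5c14b8f6b5d0bed7f550d65 = true := by decide +kernel

theorem cB16_8_3_184 : chunkOkM (LB16_8.ctx true true 277 219 128 9 16 3003 2305 8 64) muQ true true 64 RtB16_8.Cx.right.right.left RtB16_8.CX RtB16_8.Ctp.right.right.right.left.left.right RtB16_8.Ce.right.right.right.left.left.right.right RtB16_8.CTp.left RtB16_8.CEr.left 0x696a49cc9b8ed55f2aa875c9ec2ecbf8f630dca7ab877fdcb8c8bf75c7e1afa3f8f630d911720f7fd4ecbb1875cd49bc9f77ba278a1c08f640d654697693 = true := by decide +kernel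

theorem cB16_8_3_185 : chunkOkM (LB16_8.ctx true true 307 887 512 9 16 23907 9245 8 64) muQ true true 64 RtB16_8.Cx.right.right.right RtB16_8.CX RtB16_8.Ctp.right.right.right.left.left.right.left RtB16_8.Ce.right.right.right.left.left.right.right RtB16_8.CTp.left.left RtB16_8.CEr.left 0x3f858fd7fd717a0af75c218289268f615ca7a7a8f540d59b95ea7fd1a713bd75c1854e5ec87b16ad829d8f616ef5d8f8f550d6595961b05c57a44517fd1eb376d484c1413235387b6ae55cc98f6b4b240d7f550d65934593597459759378f907967fdaa8e25375c3f3e2c68b9aea9a6f6151295588f550d51ab7e87fd21933bc75c13fdbb678b2dc2f21a8f611a0c0a98f550d64 = true := by decide +kernel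

end Vale.Agent.helper4.Q4
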