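import Vale.Agent.helper4.Q4TreeM
import Vale.Agent.helper4.Q4G.PB16_8

/-!
Checks for pairs of intervals of second moments.
-/

set_option maxRecDepth 100000
set_option linter.unusedVariables false

namespace Vale.Agent.helper4.Q4

theorem cB16_8_3_186 : chunkOkM (LB16_8.ctx true true 278 223 128 9 16 3003 2315 8 64) muQ true true 64 RtB16_8.Cx.right.right.right RtB16_8.CX RtB16_8.Ctp.right.right.right.left.left.right.right RtB16_8.Ce.right.right.right.left.left.right.right RtB16_8.CTp.left.left RtB16_8.CEr.left 0x88237267fda5db01275c442c752d8f6680f6c27f540d43fed4c7fda39f4665c1b8846f78b631373a78f6a994da77f550d82abf917fd3c2130875c14d44b3287b103ada5a99f640d76d1b2737fd21a83d075c165f39778b7e34a0668f640d46 = true := by decide +kernel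

theorem cB16_8_3_187 : chunkOkM (LB16_8.ctx true true 264 111 64 9 16 1495 1155 8 64) muQ true true 64 RtB16_8.Cx.right.right.right RtB16_8.CX RtB16_8.Ctp.right.right.right.left.left.right RtB16_8.Ce.right.right.right.left.left.right.right RtB16_8.CTp.left.right RtB16_8.CEr.left 0x4bb76087fd527e77675c2a34561e8f6def538b7f540d6a6 = true := by decide +kernel

theorem cB16_8_3_188 : chunkOkM (LB16_8.ctx true true 269 55 32 9 16 1495 1155 32 128) muQ true true 64 RtB16_8.Cx.right.right RtB16_8.CX RtB16_8.Ctp.right.right.right.left.left RtB16_8.Ce.right.right.right.left.left.right RtB16_8.CTp.left RtB16_8.CEr.right 0x5a5ab4f7b165c2558da5e8f6d3835907f530d8382c965c266e30168f689e56267f530d41af09b358f05b35a565a565a5 = true := by decide +kernel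

theorem cB16_8_3_189 : chunkOkM (LB16_8.ctx true true 270 55 32 9 16 6045 2275 8 64) muQ true true 64 RtB16_8.Cx.right.right RtB16_8.CX RtB16_8.Ctp.right.right.right.left.right RtB16_8.Ce.right.right.right.left.left.left RtB16_8.CTp.left RtB16_8.CEr.left 0x11116956d62e37fd5f2d9d575c11f2210799f630d81b05c162d04c66941145333 = true := by decide +kernel

theorem cB16_8_3_190 : chunkOkM (LB16_8.ctx true true 277 219 128 9 16 1521 2295 16 64) muQ true true 64 RtB16_8.Cx.right.right.left RtB16_8.CX RtB16_8.Ctp.right.right.right.left.right RtB16_8.Ce.right.right.right.left.left.right.left RtB16_8.CTp.left.left RtB16_8.CEr.left.left 0x115de83ad7fd2977c4875c1c1f66878b7ee0708f8f640d78234e57fd3caa88775c13ecaf678b537788d28f640dcde33b65c1ea3df4487b5de1bc948f630d5894ce1a7fd379f92475c215dd2978b68b17e148f640d473 = true := by decide +kernel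

theorem cB16_8_3_191 : chunkOkM (LB16_8.ctx true true 278 219 128 9 16 3055 2315 8 64) muQ true true 64 RtB16_8.Cx.right.right.left RtB16_8.CX RtB16_8.Ctp.right.right.right.left.right.left RtB16_8.Ce.right.right.right.left.left.right.right RtB16_8.CTp.left.left RtB16_8.CEr.left.left 0x54a26fa7fd216e4d675c228d7eae87ba19fa6778f640d566dc6c7fd24ffe3c75c1ce35e9887bea9693728f640d36da4e1e7fd35ddbba75c1b9b5c578b86f313658f640d4591573f7fd286677875c215c4ad687bc5e1949d8f640d693574d3d97fd2a21bcd75c21294e2d87befb627368f640d514f17d7fd1e58a6d75c202e9c4387b15c8cb66a9f640d347 = true := by decide +kernel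

theorem cB16_8_3_192 : chunkOkM (LB16_8.ctx true true 272 109 64 9 16 3081 1155 16 64) muQ true true 64 RtB16_8.Cx.right.right.left RtB16_8.CX RtB16_8.Ctp.right.right.right.left.right.right RtB16_8.Ce.right.right.right.left.left.right.right RtB16_8.CTp.left.left RtB16_8.CEr.left.left 0x111cd5ea67fd14fd43778b4dc048838f6aa0d2bf7f240d133211075c1bc78c078b1a8703488f6161bedf28f240d53 = true := by decide +kernel

theorem cB16_8_3_193 : chunkOkM (LB16_8.ctx true true 274 109 64 9 16 767 1155 32 256) muQ true true 64 RtB16_8.Cx.right.right.left RtB16_8.CX RtB16_8.Ctp.right.right.right.left.right RtB16_8.Ce.right.right.right.left.left.right RtB16_8.CTp.left.left RtB16_8.CEr.left.right 0x5a5a2d90ae875c641d3d68b390905818f62ab20027f240d356d1f37fd5339dd175cf5349368b3e2f42908f640d465a565a5 = true := by decide +kernel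

theorem cB16_8_3_194 : chunkOkM (LB16_8.ctx true true 264 111 64 9 16 1521 1155 8 64) muQ true true 64 RtB16_8.Cx.right.right.right RtB16_8.CX RtB16_8.Ctp.right.right.right.left.right RtB16_8.Ce.right.right.right.left.left.right RtB16_8.CTp.left.left RtB16_8.CEr.left 0x119463bbe7fdae745c175c66ce26ea8f630d5e043127fd29fff4475c199538878b8eda2b788f640d66943 = true := by decide +kernel

theorem cB16_8_3_195 : chunkOkM (LB16_8.ctx true true 265 111 64 9 16 1547 1155 8 64) muQ true true 64 RtB16_8.Cx.right.right RtB16_8.CX RtB16_8.Ctp.right.right.right.left.right RtB16_8.Ce.right.right.right.left.left.right RtB16_8.CTp.left.right RtB16_8.CEr.left 0x4c527ec7fd6b307a975c7341aee7f614a47c658f240d3ce28db7fd480d13a75c875861398f630d567dcf87fd6a7a4fc75c5dc94d358f630d734a3e4e07fd5c4f9db75c448ca65f8f630d46a6 = true := by decide +kernel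

theorem cB16_8_3_196 : chunkOkM (LB16_8.ctx true true 262 55 32 9 16 767 575 32 128) muQ true true 64 RtB16_8.Cx.right.right RtB16_8.CX RtB16_8.Ctp.right.right.right.left.right RtB16_8.Ce.right.right.right.left.left RtB16_8.CTp.left RtB16_8.CEr.right 0x5a5a23f0cd57fd2e21b1375c33a1da898f630d045a565a565a5 = true := by decide +kernel

theorem cB16_8_3_197 : chunkOkM (LB16_8.ctx true true 101 1 1 1 1 1 1 1 1) muQ true true 64 RtB16_8.Cx.right RtB16_8.CX RtB16_8.Ctp.right.right.right.left RtB16_8.Ce.right.right.right.left.left RtB16_8.CTp.right RtB16_8.CEr.left 0x6a = true := by decide +kernel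

theorem cB16_8_3_198 : chunkOkM (LB16_8.ctx true true 257 107 64 9 16 1495 1135 4 32) muQ true true 64 RtB16_8.Cx.right.left RtB16_8.CX RtB16_8.Ctp.right.right.right.left.left RtB16_8.Ce.right.right.right.left.left.left RtB16_8.CTp.right RtB16_8.CEr.right 0x1863b5238edd7f3df65c76f4d22b8f630d6971ae7b62a8ed108801c75c51c5d4158f630d1efafc278ed1a12ca175c5cde234f8f630d7469199cf09e8edbf460d65c2f5731948f6a4dd3567f540d46973 = true := by decide +kernel

theorem cB16_8_3_199 : chunkOkM (LB16_8.ctx true true 257 111 64 9 16 1495 1135 4 32) muQ true true 64 RtB16_8.Cx.right.right RtB16_8.CX RtB16_8.Ctp.right.right.right.left.left RtB16_8.Ce.right.right.right.left.left.left RtB16_8.CTp.right RtB16_8.CEr.right 0xeee26e6f06c17d448238ed7f030365c492e693d8f630d7142c3a27f06c4162c73f98ed54673265c1eeaba8d8f61140a6388f540d160111138ed6d499265c14b513a68f6f709bda7f540d43 = true := by decide +kernel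

end Vale.Agent.helper4.Q4
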