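import Vale.Agent.helper4.Q4TreeM
import Vale.Agent.helper4.Q4G.PB16_8

/-!
Checks for pairs of intervals of second moments.
-/

set_option maxRecDepth 100000
set_option linter.unusedVariables false

namespace Vale.Agent.helper4.Q4

theorem cB16_8_3_200 : chunkOkM (LB16_8.ctx true true 257 111 64 9 16 1495 1155 4 32) muQ true true 64 RtB16_8.Cx.right RtB16_8.CX RtB16_8.Ctp.right.right.right.left.left RtB16_8.Ce.right.right.right.left.left.right RtB16_8.CTp.right RtB16_8.CEr.right 0x17160fcf8ed97f38a65c3495eff88f6b7034527f540d16ca864a8edb583b065c87627cde8f630d7135f5fd48ed17ec436f837ce0ef78f6b5227857f540d1822a2908ed9dc3ed65c49b6b03d8f64220fdf7f540d7416000c47fd8eae9f65c1181f87f8f6179153848f540d3697 = true := by decide +kernel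

theorem cB16_8_3_201 : chunkOkM (LB16_8.ctx true true 260 107 64 9 16 1521 1135 4 64) muQ true true 64 RtB16_8.Cx.right.left RtB16_8.CX RtB16_8.Ctp.right.right.right.left.right RtB16_8.Ce.right.right.right.left.left.left RtB16_8.CTp.right RtB16_8.CEr.right 0x23ddf467fd1a14e0275c208fdaf38f689907017f240d35073d7d8ed1bb8dd775c222b28318f686cb6727f240d601184e59c08edc37ace65c6021e0298f614fb292d8f240d1e7adfb28ed193a70675c2c6e221d8f68fb7c007f240d437 = true := by decide +kernel

theorem cB16_8_3_202 : chunkOkM (LB16_8.ctx true true 260 107 64 9 16 1547 1155 4 64) muQ true true 64 RtB16_8.Cx.right.left RtB16_8.CX RtB16_8.Ctp.right.right.right.left.right RtB16_8.Ce.right.right.right.left.left.right RtB16_8.CTp.right RtB16_8.CEr.right 0x1944b2168edccbe8865c1ade7ff38f6183d187c8f240d1c09e2ae8ed17158d775c61d0cecc8f630d30395f0c8ed1a2a4c275c457316c48f61c2d4e47f240d25d82cbb8ed1f69e5c75c47c35e788f630d643217 = true := by decide +kernel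

theorem cB16_8_3_203 : chunkOkM (LB16_8.ctx true true 257 111 64 9 16 1547 1155 4 32) muQ true true 64 RtB16_8.Cx.right.right RtB16_8.CX RtB16_8.Ctp.right.right.right.left.right RtB16_8.Ce.right.right.right.left.left RtB16_8.CTp.right RtB16_8.CEr.right 0x188025628edc6ea7365c1d4fda378f6fd687da7f240d15ebf40c8ed74838265c76bda9128f630d1ae4c75d8ed12f838975c527f72648f630d717e4c7908ed9f3a8b65c4859dcc78f630d4310d481c7f06c4 = true := by decide +kernel

theorem cB16_8_3_204 : chunkOkM (LB16_8.ctx true true 101 1 1 1 1 1 1 1 1) muQ true true 64 RtB16_8.Cx.right.left RtB16_8.CX RtB16_8.Ctp.right.right.right.left RtB16_8.Ce.right.right.right.left.right RtB16_8.CTp RtB16_8.CEr 0x21 = true := by decide +kernel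

theorem cB16_8_3_205 : chunkOkM (LB16_8.ctx true true 101 1 1 1 1 1 1 1 1) muQ true true 64 RtB16_8.Cx.right.right RtB16_8.CX RtB16_8.Ctp.right.right.right.left.left.left RtB16_8.Ce.right.right.right.left.right.left RtB16_8.CTp RtB16_8.CEr 0x59 = true := by decide +kernel

theorem cB16_8_3_206 : chunkOkM (LB16_8.ctx true true 101 1 1 1 1 1 1 1 1) muQ true true 64 RtB16_8.Cx.right.right.left RtB16_8.CX RtB16_8.Ctp.right.right.right.left.left.right RtB16_8.Ce.right.right.right.left.right.left RtB16_8.CTp RtB16_8.CEr 0x59 = true := by decide +kernel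

theorem cB16_8_3_207 : chunkOkM (LB16_8.ctx true true 303 895 512 9 16 11947 9285 8 64) muQ true true 64 RtB16_8.Cx.right.right.right RtB16_8.CX RtB16_8.Ctp.right.right.right.left.left.right.left RtB16_8.Ce.right.right.right.left.right.left.left RtB16_8.CTp.left RtB16_8.CEr.left 0x595959627703c48ed4b71d45c84cd62eaaf7f530d61b05cc8234367fd764f35175c950de9577b1dd0cecd8f540d65459759345975934597 = true := by decide +kernel

theorem cB16_8_3_208 : chunkOkM (LB16_8.ctx true true 297 887 512 9 16 6019 4645 8 64) muQ true true 64 RtB16_8.Cx.right.right.right RtB16_8.CX RtB16_8.Ctp.right.right.right.left.left.right.right RtB16_8.Ce.right.right.right.left.right.left.left RtB16_8.CTp.left RtB16_8.CEr.left 0x37eb9ec7fd406acd475c4022a9008f6d8ca6f97f540d6a651343c37fd79f700675c6488c7bb8f630d51325197fd185816c75c1637d0f887b53c4616a8f6ce692747f550d65978a2e6887fd9e4033475c43f9060b8f6f36e9a97f540d582b7457fd1e1001775c15af444487b5dab9ffa8f6b1fd4807f550d6697c3eb517fd9bd7e8575c97fdc79a8f630d5c7765c7fd2173537484c174c117487b10a9c809b9f640d66974693697745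 = true := by decide +kernel

theorem cB16_8_3_209 : chunkOkM (LB16_8.ctx true true 257 111 64 9 16 1495 1165 4 32) muQ true true 64 RtB16_8.Cx.right.right.right RtB16_8.CX RtB16_8.Ctp.right.right.right.left.left.right RtB16_8.Ce.right.right.right.left.right.left.left RtB16_8.CTp.left RtB16_8.CEr.right 0x5f7cd0c7fd93a30a175c1bea70048f612f39acf8f540d = true := by decide +kernel

theorem cB16_8_3_210 : chunkOkM (LB16_8.ctx true true 257 111 64 9 16 1495 1165 4 32) muQ true true 64 RtB16_8.Cx.right.right.right RtB16_8.CX RtB16_8.Ctp.right.right.right.left.left.right RtB16_8.Ce.right.right.right.left.right.left.left RtB16_8.CTp.right RtB16_8.CEr 0x16ce7e098ed79a82765c37a122a28f6d04d6137f540d6a6 = true := by decide +kernel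

theorem cB16_8_3_211 : chunkOkM (LB16_8.ctx true true 101 1 1 1 1 1 1 1 1) muQ true true 64 RtB16_8.Cx.right.right.right RtB16_8.CX RtB16_8.Ctp.right.right.right.left.left.right RtB16_8.Ce.right.right.right.left.right.left.right RtB16_8.CTp RtB16_8.CEr 0x59 = true := by decide +kernel

theorem cB16_8_3_212 : chunkOkM (LB16_8.ctx true true 101 1 1 1 1 1 1 1 1) muQ true true 64 RtB16_8.Cx.right.right RtB16_8.CX RtB16_8.Ctp.right.right.right.left.left RtB16_8.Ce.right.right.right.left.right.right RtB16_8.CTp RtB16_8.CEr 0x59 = true := by decide +kernel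

theorem cB16_8_3_213 : chunkOkM (LB16_8.ctx true true 278 219 128 9 16 3055 2335 8 64) muQ true true 64 RtB16_8.Cx.right.right.left RtB16_8.CX RtB16_8.Ctp.right.right.right.left.right.left RtB16_8.Ce.right.right.right.left.right.left RtB16_8.CTp.left RtB16_8.CEr.left 0x69456c04aa8ed639387e75c9f50c9e38f630d6a68f660327fdb0a1b4f75ca639eb68b679bd5ef8f640d501e5407fd23d284c75c1e19f53987b1a38a171f9f640d714d4787fd3bc8a5575c1e252f0d87bf16b17038f640d4656936974 = true := by decide +kernel

theorem cB16_8_3_214 : chunkOkM (LB16_8.ctx true true 293 435 256 17 32 3081 2335 16 64) muQ true true 64 RtB16_8.Cx.right.right.left RtB16_8.CX RtB16_8.Ctp.right.right.right.left.right.right RtB16_8.Ce.right.right.right.left.right.left.left RtB16_8.CTp.left RtB16_8.CEr.left 0x530dbbf7fd7314fb475c5203b6328f6876b66b7f240d6a6a34bea77fdc670e8575c99275e68b6527470f8f6ed399237f250d1d6677b7fd60ba8665c102b53f78b5b8196868f6a6d66b77f250d422cf0cf975c68d89568b6fdae79c8f6b0753ef7f240d23e10b575c11c69d878bab5763dd8f6d0dbc4e7f240d485210154f2fac7fd28b228375c208056c887b94b603a58f6ed5d5607f250d32174765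 = true := by decide +kernel

theorem cB16_8_3_215 : chunkOkM (LB16_8.ctx true true 284 439 256 9 16 3107 2345 8 64) muQ true true 64 RtB16_8.Cx.right.right.left RtB16_8.CX RtB16_8.Ctp.right.right.right.left.right.right RtB16_8.Ce.right.right.right.left.right.left.right RtB16_8.CTp.left RtB16_8.CEr.left 0x2156ea81138ed744f0bb75c6fdb966b8f6ca7c3637f240d6a69218b0f7fdb2ce7b275cc29a5068b76b4f8d88f655d14e47f250d40e05de7fd1958bf075c2199cc7f87b6fc7bb598f6145ee8f38f250d4fb99dd7fd20977d375c227a7ed087bef4fa5af8f640d3652174217 = true := by decide +kernel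

end Vale.Agent.helper4.Q4
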