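import Vale.Agent.helper4.Q4TreeM
import Vale.Agent.helper4.Q4G.PB16_8

/-!
Checks for pairs of intervals of second moments.
-/

set_option maxRecDepth 100000
set_option linter.unusedVariables false

namespace Vale.Agent.helper4.Q4

theorem cB16_8_3_216 : chunkOkM (LB16_8.ctx true true 272 111 64 9 16 3055 2335 8 64) muQ true true 64 RtB16_8.Cx.right.right.right RtB16_8.CX RtB16_8.Ctp.right.right.right.left.right.left RtB16_8.Ce.right.right.right.left.right.left.left RtB16_8.CTp.left RtB16_8.CEr.left 0x42aebe27fd4ba6bea75c672f97548f630d6a67b7a2037fdafa23fd75c4d3864688f630d55b19d27fd218612075c1d689b678bbd2bd1f18f640d4b7f6757fd139a06375c206e4d778b9ee8fadc8f640d45f6226d7fd246de2075c185a0dad87ba8088ce48f640d541b7357fd1d1823175c1964e8d78ba4a3cbb18f640d4365 = true := by decide +kernel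

theorem cB16_8_3_217 : chunkOkM (LB16_8.ctx true true 278 223 128 9 16 3055 2345 8 64) muQ true true 64 RtB16_8.Cx.right.right.right RtB16_8.CX RtB16_8.Ctp.right.right.right.left.right.left RtB16_8.Ce.right.right.right.left.right.left.right RtB16_8.CTp.left RtB16_8.CEr.left 0x41a94267fd4acef0a75c69fc293e8f630d6a68377d5c7fd9f9d70c75cb1326c68b96ca2ce38f640d48f13317fd18dbf1475c1a8848e287bab6ed9e58f640d4d4c3bc7fd1d7298175c1c356d678b9b9d6de48f640d7669cd478757fdc1b921775c7f8ab60e8f630d473cd9d7fd138fffc75c1767b61f87bd02ebf8f8f640d6469735 = true := by decide +kernel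

theorem cB16_8_3_218 : chunkOkM (LB16_8.ctx true true 289 223 128 9 16 3107 2355 32 128) muQ true true 64 RtB16_8.Cx.right.right.right RtB16_8.CX RtB16_8.Ctp.right.right.right.left.right.right RtB16_8.Ce.right.right.right.left.right.left RtB16_8.CTp.left.left RtB16_8.CEr.left 0x5a2f417e275c47912768b37b810488f630d5a565a5506523e7fd21880ba75c1e2b60f78b8e33664b8f640d4e28b8c7fd22216aa75c201bfabc87b6c1623b18f6b68f5b67f250d5f9d1a57fd31909f275c1d4fde7687ba38b66108f640d321a65a27fde171a765cfdb2ed68b72eee0d98f640d10a535375c1c222d6f87b7eed33988f630d5474f893857fd221b7d275c206044278b7fe4dcb38f640d46 = true := by decide +kernel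

theorem cB16_8_3_219 : chunkOkM (LB16_8.ctx true true 265 111 64 9 16 1547 1175 8 64) muQ true true 64 RtB16_8.Cx.right.right.right RtB16_8.CX RtB16_8.Ctp.right.right.right.left.right.right RtB16_8.Ce.right.right.right.left.right.left RtB16_8.CTp.left.right RtB16_8.CEr.left 0x65d84c47fd81f579d75c5a8a73888f619d9aa17f240d4fef42c7fd6da915675c7991501d8f630d46a6 = true := by decide +kernel

theorem cB16_8_3_220 : chunkOkM (LB16_8.ctx true true 272 111 64 9 16 1547 585 32 128) muQ true true 64 RtB16_8.Cx.right.right RtB16_8.CX RtB16_8.Ctp.right.right.right.left.right RtB16_8.Ce.right.right.right.left.right.left RtB16_8.CTp.left RtB16_8.CEr.right 0x5a5a19d75887fd268b4d975c2f237f198f630d32a53007fd3c71cfd75c34f046578f69d22a4d7f240d71d2e3957fd24da64875c3c8f916c8f643c67b07f540d3d23d207fd45c502275c41da6fef8f630d735a565a565a5 = true := by decide +kernel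

theorem cB16_8_3_221 : chunkOkM (LB16_8.ctx true true 101 1 1 1 1 1 1 1 1) muQ true true 64 RtB16_8.Cx.right.right.left RtB16_8.CX RtB16_8.Ctp.right.right.right.left.right RtB16_8.Ce.right.right.right.left.right.right RtB16_8.CTp.left RtB16_8.CEr 0x21 = true := by decide +kernel

theorem cB16_8_3_222 : chunkOkM (LB16_8.ctx true true 317 1791 1024 9 16 24531 18885 8 64) muQ true true 64 RtB16_8.Cx.right.right.right RtB16_8.CX RtB16_8.Ctp.right.right.right.left.right.left RtB16_8.Ce.right.right.right.left.right.right RtB16_8.CTp.left RtB16_8.CEr.left 0x596969696946c41fbe8ed50f60ffa84c12e9de3689f630d71b05c1173c04c6546936974693697469369746975934 = true := by decide +kernel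

theorem cB16_8_3_223 : chunkOkM (LB16_8.ctx true true 278 223 128 9 16 3107 2375 8 64) muQ true true 64 RtB16_8.Cx.right.right.right RtB16_8.CX RtB16_8.Ctp.right.right.right.left.right.right RtB16_8.Ce.right.right.right.left.right.right.left RtB16_8.CTp.left.left RtB16_8.CEr.left 0xa0ecc1d7fdbeb787375c66bf6468b5db083d38f660ffd817f250d4f283b47fd23ebcc775c1ef695d087ba074d4668f639e3c247f250d1a0be9d7fd1fbcf1ea87b17b43216f9f630d35cfe32c7fd2afc04775c208cadc687bbb73d2828f640d5e769f87fd2a2d73175c1d504f3887bd1255f728f640d3421540c63d7fd26fadc675c202d6d8087b86a6dae18f68d2d7b17f250d469376 = true := by decide +kernel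

theorem cB16_8_3_224 : chunkOkM (LB16_8.ctx true true 269 111 64 9 16 3107 1185 8 64) muQ true true 64 RtB16_8.Cx.right.right.right RtB16_8.CX RtB16_8.Ctp.right.right.right.left.right.right RtB16_8.Ce.right.right.right.left.right.right.left RtB16_8.CTp.left.right RtB16_8.CEr.left 0x48003d07fd600b9f875c4b9c14fb8f6c302b027f240d4ab68d27fd6476c8575cab36b67b8f630d36a6 = true := by decide +kernel

theorem cB16_8_3_225 : chunkOkM (LB16_8.ctx true true 288 447 256 9 16 6227 2385 8 64) muQ true true 64 RtB16_8.Cx.right.right.right RtB16_8.CX RtB16_8.Ctp.right.right.right.left.right.right RtB16_8.Ce.right.right.right.left.right.right.right RtB16_8.CTp.left RtB16_8.CEr.left 0x2161c98bb78ed594239ba84c74be8a777b1b7ac67a99f640d7bf06577fdac7c9b675c52450068b6655784f8f640d5e9c5247fd2b0461475c20906e7187b13914c5819f61e834037f250d656932174693217 = true := by decide +kernel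

theorem cB16_8_3_226 : chunkOkM (LB16_8.ctx true true 276 111 64 9 16 1547 1195 32 128) muQ true true 64 RtB16_8.Cx.right.right.right RtB16_8.CX RtB16_8.Ctp.right.right.right.left.right RtB16_8.Ce.right.right.right.left.right.right RtB16_8.CTp.left RtB16_8.CEr.right 0x5a5a4ffdab848f06b71810367fd633230175c408aa0198f6698dc867f240d44b8d84f28f06b35a565a565a5 = true := by decide +kernel

theorem cB16_8_3_227 : chunkOkM (LB16_8.ctx true true 101 1 1 1 1 1 1 1 1) muQ true true 64 RtB16_8.Cx.right.right RtB16_8.CX RtB16_8.Ctp.right.right.right.left.right RtB16_8.Ce.right.right.right.left.right RtB16_8.CTp.right RtB16_8.CEr.left 0x6a = true := by decide +kernel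

end Vale.Agent.helper4.Q4
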