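import Vale.Agent.helper4.Q4TreeM
import Vale.Agent.helper4.Q4G.PB16_8

/-!
Checks for pairs of intervals of second moments.
-/

set_option maxRecDepth 100000
set_option linter.unusedVariables false

namespace Vale.Agent.helper4.Q4

theorem cB16_8_3_228 : chunkOkM (LB16_8.ctx true true 258 111 64 9 16 1547 1175 4 32) muQ true true 64 RtB16_8.Cx.right.right RtB16_8.CX RtB16_8.Ctp.right.right.right.left.right RtB16_8.Ce.right.right.right.left.right.left RtB16_8.CTp.right RtB16_8.CEr.right 0x1a7ba3468ed142d49575c42d482018f6c78de76f240d1658010e8ed7c006a65c9caf03d98f630d41b457a218ed13ab4d075c7eefe2558f6f3b2df47f240d192ea93d8ed11dd25f75c4ea87b038f682e7a917f240d4716ffadfd8ed9e4bc265c5bec0e228f630d69716cb19328ed9b800765c6040b9828f630d1ab27f188ed130f4b175c5a002f298f630d743 = true := by decide +kernel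

theorem cB16_8_3_229 : chunkOkM (LB16_8.ctx true true 263 111 64 9 16 3107 1195 4 32) muQ true true 64 RtB16_8.Cx.right.right RtB16_8.CX RtB16_8.Ctp.right.right.right.left.right RtB16_8.Ce.right.right.right.left.right.right RtB16_8.CTp.right RtB16_8.CEr.right 0x18430bce8ed10780bd75c68c0f3928f63e2fe417f240d19a258918ed122004975c3b985c8c8f65e291907f240d1915d9b08ed11750f375c5e4fce808f630d3416c48077fd1e6b4e65c3ef6854da9f630d3217 = true := by decide +kernel

theorem cB16_8_3_230 : chunkOkM (LB16_8.ctx true true 101 1 1 1 1 1 1 1 1) muQ true true 64 RtB16_8.Cx.right.left RtB16_8.CX RtB16_8.Ctp.right.right.right.right RtB16_8.Ce.right.right.right.left RtB16_8.CTp RtB16_8.CEr 0x01 = true := by decide +kernel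

theorem cB16_8_3_231 : chunkOkM (LB16_8.ctx true true 101 1 1 1 1 1 1 1 1) muQ true true 64 RtB16_8.Cx.right.right.left RtB16_8.CX RtB16_8.Ctp.right.right.right.right RtB16_8.Ce.right.right.right.left RtB16_8.CTp RtB16_8.CEr 0x01 = true := by decide +kernel

theorem cB16_8_3_232 : chunkOkM (LB16_8.ctx true true 101 1 1 1 1 1 1 1 1) muQ true true 64 RtB16_8.Cx.right.right.right.left RtB16_8.CX RtB16_8.Ctp.right.right.right.right.left RtB16_8.Ce.right.right.right.left RtB16_8.CTp RtB16_8.CEr 0x01 = true := by decide +kernel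

theorem cB16_8_3_233 : chunkOkM (LB16_8.ctx true true 101 1 1 1 1 1 1 1 1) muQ true true 64 RtB16_8.Cx.right.right.right.right RtB16_8.CX RtB16_8.Ctp.right.right.right.right.left.left.left.left RtB16_8.Ce.right.right.right.left.left RtB16_8.CTp RtB16_8.CEr 0x11 = true := by decide +kernel

theorem cB16_8_3_234 : chunkOkM (LB16_8.ctx true true 101 1 1 1 1 1 1 1 1) muQ true true 64 RtB16_8.Cx.right.right.right.right RtB16_8.CX RtB16_8.Ctp.right.right.right.right.left.left.left.left RtB16_8.Ce.right.right.right.left.right.left RtB16_8.CTp RtB16_8.CEr 0x11 = true := by decide +kernel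

theorem cB16_8_3_235 : chunkOkM (LB16_8.ctx true true 288 447 256 9 16 6253 2385 8 64) muQ true true 64 RtB16_8.Cx.right.right.right.right RtB16_8.CX RtB16_8.Ctp.right.right.right.right.left.left.left.left RtB16_8.Ce.right.right.right.left.right.right RtB16_8.CTp.left RtB16_8.CEr 0x7ae41397fda43f38b75c4dc842c7f61a73d84a8f240d2155402d5f8ed53d6f42a84c2b14ee577bda5a2a648f68feb44e7f250d555d6757fdafb6faf75cbf7cc2df8f630d531f73f7fd26c3d6075c1da4c4c987b928a0dc98f6151600e18f250d6521746c3c9b398ed65bde4775c537fce277b17fc59578f6162b0f868f250d919d4cc7fda977d2b75cb9743e68b26d2a6c98f615dbab628f250d3353ac97fd12f3fba75c217d73f787b43f825208f6189916998f250d6511446 = true := by decide +kernel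

theorem cB16_8_3_236 : chunkOkM (LB16_8.ctx true true 268 223 128 9 16 6253 595 4 32) muQ true true 64 RtB16_8.Cx.right.right.right.right RtB16_8.CX RtB16_8.Ctp.right.right.right.right.left.left.left.left RtB16_8.Ce.right.right.right.left.right.right RtB16_8.CTp.right RtB16_8.CEr 0x18243d6d8ed2bb668175cd1633e27e81534e5f68f240d6a6 = true := by decide +kernel

theorem cB16_8_3_237 : chunkOkM (LB16_8.ctx true true 101 1 1 1 1 1 1 1 1) muQ true true 64 RtB16_8.Cx.right.right.right.right RtB16_8.CX RtB16_8.Ctp.right.right.right.right.left.left.left.right RtB16_8.Ce.right.right.right.left RtB16_8.CTp RtB16_8.CEr 0x01 = true := by decide +kernel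

theorem cB16_8_3_238 : chunkOkM (LB16_8.ctx true true 101 1 1 1 1 1 1 1 1) muQ true true 64 RtB16_8.Cx.right.right.right.right RtB16_8.CX RtB16_8.Ctp.right.right.right.right.left.left.right RtB16_8.Ce.right.right.right.left RtB16_8.CTp RtB16_8.CEr 0x01 = true := by decide +kernel

theorem cB16_8_3_239 : chunkOkM (LB16_8.ctx true true 101 1 1 1 1 1 1 1 1) muQ true true 64 RtB16_8.Cx.right.right.right.right RtB16_8.CX RtB16_8.Ctp.right.right.right.right.left.right RtB16_8.Ce.right.right.right.left RtB16_8.CTp RtB16_8.CEr 0x01 = true := by decide +kernel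

theorem cB16_8_3_240 : chunkOkM (LB16_8.ctx true true 101 1 1 1 1 1 1 1 1) muQ true true 64 RtB16_8.Cx.right.right.right RtB16_8.CX RtB16_8.Ctp.right.right.right.right.right RtB16_8.Ce.right.right.right.left RtB16_8.CTp RtB16_8.CEr 0x01 = true := by decide +kernel

theorem cB16_8_3_241 : chunkOkM (LB16_8.ctx true true 101 1 1 1 1 1 1 1 1) muQ true true 64 RtB16_8.Cx RtB16_8.CX RtB16_8.Ctp.right.right RtB16_8.Ce.right.right.right.right RtB16_8.CTp RtB16_8.CEr 0x21 = true := by decide +kernel

theorem cB16_8_2_0 : chunkOkM (LB16_8.ctx false true 101 1 1 1 1 1 1 1 1) muQ false true 64 RtB16_8.Cx RtB16_8.CX RtB16_8.Ctn RtB16_8.Ce RtB16_8.CTp RtB16_8.CEr 0x49 = true := by decide +kernel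

theorem cB16_8_1_0 : chunkOkM (LB16_8.ctx true false 101 1 1 1 1 1 1 1 1) muQ true false 64 RtB16_8.Cx RtB16_8.CX RtB16_8.Ctp.left RtB16_8.Ce RtB16_8.CTn RtB16_8.CEr 0x41 = true := by decide +kernel

theorem cB16_8_1_1 : chunkOkM (LB16_8.ctx true false 313 13 8 513 1024 39 8 16384 65536) muQ true false 64 RtB16_8.Cx RtB16_8.CX.left.left.left.left.left.left RtB16_8.Ctp.right RtB16_8.Ce.left RtB16_8.CTn.left.left.left.left.left.left.left.left.left.left.left.left RtB16_8.CEr.left.left.left.left.left.left.left.left.left.left.left.left 0x82a95ac7f06b = true := by decide +kernel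

theorem cB16_8_1_2 : chunkOkM (LB16_8.ctx true false 328 13 8 513 1024 143 45 16384 65536) muQ true false 64 RtB16_8.Cx RtB16_8.CX.left.left.left.left.left.left RtB16_8.Ctp.right.left RtB16_8.Ce.right.left.left RtB16_8.CTn.left.left.left.left.left.left.left.left.left.left.left.left RtB16_8.CEr.left.left.left.left.left.left.left.left.left.left.left.left 0x07dc40187f632f83c7a8f5704135ea8f430d3 = true := by decide +kernel

theorem cB16_8_1_3 : chunkOkM (LB16_8.ctx true false 341 13 8 513 1024 299 235 16384 65536) muQ true false 64 RtB16_8.Cx RtB16_8.CX.left.left.left.left.left.left RtB16_8.Ctp.right.left RtB16_8.Ce.right.left.right RtB16_8.CTn.left.left.left.left.left.left.left.left.left.left.left.left RtB16_8.CEr.left.left.left.left.left.left.left.left.left.left.left.left 0x2e634d258f05b1acf13428f05b4139dbd8d89f628adf78199f5106f9c2af9f430d3437380c7f05be9678a67f63574065f8f51f8bc0068f430d342420c1ece9f55443b9a859f420d3 = true := by decide +kernel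

theorem cB16_8_1_4 : chunkOkM (LB16_8.ctx true false 325 13 8 513 1024 91 25 16384 65536) muQ true false 64 RtB16_8.Cx RtB16_8.CX.left.left.left.left.left.left RtB16_8.Ctp.right.right RtB16_8.Ce.right.left RtB16_8.CTn.left.left.left.left.left.left.left.left.left.left.left.left RtB16_8.CEr.left.left.left.left.left.left.left.left.left.left.left.left 0x1025d72da4afd56d39c122a0fbd8f61132df8b8f540d = true := by decide +kernel

theorem cB16_8_1_5 : chunkOkM (LB16_8.ctx true false 323 13 8 513 1024 65 35 16384 65536) muQ true false 64 RtB16_8.Cx RtB16_8.CX.left.left.left.left.left.left RtB16_8.Ctp.right.left RtB16_8.Ce.right.right RtB16_8.CTn.left.left.left.left.left.left.left.left.left.left.left.left RtB16_8.CEr.left.left.left.left.left.left.left.left.left.left.left.left 0x2c07310d8f6831e29dd8f52262a9b98f430d = true := by decide +kernel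

theorem cB16_8_1_6 : chunkOkM (LB16_8.ctx true false 340 13 8 513 1024 325 255 16384 65536) muQ true false 64 RtB16_8.Cx RtB16_8.CX.left.left.left.left.left.left RtB16_8.Ctp.right.right.left.left RtB16_8.Ce.right.right.left.left RtB16_8.CTn.left.left.left.left.left.left.left.left.left.left.left.left RtB16_8.CEr.left.left.left.left.left.left.left.left.left.left.left.left 0x253ff95a8f05b1a30987a8f05b4 = true := by decide +kernel

theorem cB16_8_1_7 : chunkOkM (LB16_8.ctx true false 354 27 16 513 1024 715 515 16384 65536) muQ true false 64 RtB16_8.Cx RtB16_8.CX.left.left.left.left.left.left RtB16_8.Ctp.right.right.left.right RtB16_8.Ce.right.right.left.left RtB16_8.CTn.left.left.left.left.left.left.left.left.left.left.left.left RtB16_8.CEr.left.left.left.left.left.left.left.left.left.left.left.left 0x18115ff7f05b232bf8ca8f06b991c0947f06b477738c19482f408f6f380e647f530d188b48cca0f7d97f6ac8db637f530d43713c2f7838f06b4 = true := by decide +kernel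

theorem cB16_8_1_8 : chunkOkM (LB16_8.ctx true false 337 13 8 513 1024 325 135 16384 65536) muQ true false 64 RtB16_8.Cx RtB16_8.CX.left.left.left.left.left.left RtB16_8.Ctp.right.right.left.left RtB16_8.Ce.right.right.left.right RtB16_8.CTn.left.left.left.left.left.left.left.left.left.left.left.left RtB16_8.CEr.left.left.left.left.left.left.left.left.left.left.left.left 0x377308d38f05b = true := by decide +kernel

end Vale.Agent.helper4.Q4
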