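import Vale.Agent.helper4.Q4TreeM
import Vale.Agent.helper4.Q4G.PB16_8

/-!
Checks for pairs of intervals of second moments.
-/

set_option maxRecDepth 100000
set_option linter.unusedVariables false

namespace Vale.Agent.helper4.Q4

theorem cB16_8_1_9 : chunkOkM (LB16_8.ctx true false 360 51 32 513 1024 715 535 16384 65536) muQ true false 64 RtB16_8.Cx RtB16_8.CX.left.left.left.left.left.left RtB16_8.Ctp.right.right.left.right RtB16_8.Ce.right.right.left.right.left RtB16_8.CTn.left.left.left.left.left.left.left.left.left.left.left.left RtB16_8.CEr.left.left.left.left.left.left.left.left.left.left.left.left 0x1258ef738f6167f5a138f520dede31d9b8fd1b4348c3865a08a8f63125f3e7f540d697293341af8f06b33ed68628f06b741c5c08908f05b37 = true := by decide +kernel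

theorem cB16_8_1_10 : chunkOkM (LB16_8.ctx true false 360 51 32 513 1024 715 545 16384 65536) muQ true false 64 RtB16_8.Cx RtB16_8.CX.left.left.left.left.left.left RtB16_8.Ctp.right.right.left.right RtB16_8.Ce.right.right.left.right.right RtB16_8.CTn.left.left.left.left.left.left.left.left.left.left.left.left RtB16_8.CEr.left.left.left.left.left.left.left.left.left.left.left.left 0xaf838c40004abf1371db7f614e5eb598f540d23f54ecf8f05b3593b70e00a8f06b21745937 = true := by decide +kernel

theorem cB16_8_1_11 : chunkOkM (LB16_8.ctx true false 339 13 8 513 1024 377 125 16384 65536) muQ true false 64 RtB16_8.Cx RtB16_8.CX.left.left.left.left.left.left RtB16_8.Ctp.right.right.right.left RtB16_8.Ce.right.right.left.left RtB16_8.CTn.left.left.left.left.left.left.left.left.left.left.left.left RtB16_8.CEr.left.left.left.left.left.left.left.left.left.left.left.left 0x68fa6972f9fd3ac848c561d86388e6e5829e87f240d = true := by decide +kernel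

theorem cB16_8_1_12 : chunkOkM (LB16_8.ctx true false 372 103 64 513 1024 1495 555 16384 65536) muQ true false 64 RtB16_8.Cx.left RtB16_8.CX.left.left.left.left.left.left RtB16_8.Ctp.right.right.right.left RtB16_8.Ce.right.right.left.right RtB16_8.CTn.left.left.left.left.left.left.left.left.left.left.left.left RtB16_8.CEr.left.left.left.left.left.left.left.left.left.left.left.left 0x0113f5157c6b21f59b2a16bfa98f6d6e7c1c7f240d693217ef2347c48d3e59b2ace6c968f63b35b177f240d1726c57c35e6f9508f69f044467f230d742177fd8d8d5e9fd385b057c3107afe08f6588f88a7f240d042dc469d559fd23c6757c19f9759b4a0b4d67f619f1315f8f250d743 = true := by decide +kernel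

theorem cB16_8_1_13 : chunkOkM (LB16_8.ctx true false 368 55 32 513 1024 1495 1115 16384 65536) muQ true false 64 RtB16_8.Cx.right RtB16_8.CX.left.left.left.left.left.left RtB16_8.Ctp.right.right.right.left RtB16_8.Ce.right.right.left.right RtB16_8.CTn.left.left.left.left.left.left.left.left.left.left.left.left RtB16_8.CEr.left.left.left.left.left.left.left.left.left.left.left.left 0xbb6bdf97f02b02e91c7cf8f06b424704348f06b318a072f8f06b4373229982168f06b4694 = true := by decide +kernel

theorem cB16_8_1_14 : chunkOkM (LB16_8.ctx true false 335 13 8 513 1024 403 65 16384 65536) muQ true false 64 RtB16_8.Cx RtB16_8.CX.left.left.left.left.left.left RtB16_8.Ctp.right.right.right.right RtB16_8.Ce.right.right.left RtB16_8.CTn.left.left.left.left.left.left.left.left.left.left.left.left RtB16_8.CEr.left.left.left.left.left.left.left.left.left.left.left.left 0x3a0eab47f1396328478f020d = true := by decide +kernel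

theorem cB16_8_1_15 : chunkOkM (LB16_8.ctx true false 101 1 1 1 1 1 1 1 1) muQ true false 64 RtB16_8.Cx.left RtB16_8.CX.left.left.left.left.left.left RtB16_8.Ctp.right.right RtB16_8.Ce.right.right.right.left RtB16_8.CTn.left.left.left.left.left.left.left.left.left.left.left.left RtB16_8.CEr.left.left.left.left.left.left.left.left.left.left.left.left 0x21 = true := by decide +kernel

theorem cB16_8_1_16 : chunkOkM (LB16_8.ctx true false 340 27 16 513 1024 169 145 16384 65536) muQ true false 64 RtB16_8.Cx.right RtB16_8.CX.left.left.left.left.left.left RtB16_8.Ctp.right.right.left RtB16_8.Ce.right.right.right.left RtB16_8.CTn.left.left.left.left.left.left.left.left.left.left.left.left RtB16_8.CEr.left.left.left.left.left.left.left.left.left.left.left.left 0x1f1a8a6b8f624bccb698f520d = true := by decide +kernel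

theorem cB16_8_1_17 : chunkOkM (LB16_8.ctx true false 374 107 64 513 1024 1495 1155 16384 65536) muQ true false 64 RtB16_8.Cx.right RtB16_8.CX.left.left.left.left.left.left RtB16_8.Ctp.right.right.right.left.left RtB16_8.Ce.right.right.right.left.left RtB16_8.CTn.left.left.left.left.left.left.left.left.left.left.left.left RtB16_8.CEr.left.left.left.left.left.left.left.left.left.left.left.left 0x219152bf99fdcb1747c47ae45c08f6a428f127f540d12ab1d5f19fdabca47c416ea0fd8f68d85bba7f540d41c7f78c38f05b369716a948c237a1bc18f6b3c96627f530d3c06cfbd8f06b46e033a38f06b72100d85869fdfd038c2a8670288f6a5914f17f540d374 = true := by decide +kernel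

end Vale.Agent.helper4.Q4
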