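import Vale.Agent.helper4.Q4TreeM
import Vale.Agent.helper4.Q4G.PB16_8

/-!
Checks for pairs of intervals of second moments.
-/

set_option maxRecDepth 100000
set_option linter.unusedVariables false

namespace Vale.Agent.helper4.Q4

theorem cB16_8_3_33 : chunkOkM (LB16_8.ctx true true 244 55 32 9 16 1339 515 4 16) muQ true true 64 RtB16_8.Cx.right.right RtB16_8.CX RtB16_8.Ctp.right.right.left.left.right RtB16_8.Ce.right.right.left.left.right.right RtB16_8.CTp RtB16_8.CEr 0xeb3f1067ed1455e267f89c5093e7f6223e09368f540d37ccdc27fd56aef7d75cdf71ccc7f62603aa788f540d5ea6cf307ed19cca287f8407184d7f6243e80a48f540d257fe6d7fd28ceccb75c934359b7f62d76786c8f540d53 = true := by decide +kernel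

theorem cB16_8_3_34 : chunkOkM (LB16_8.ctx true true 257 51 32 9 16 1391 995 8 64) muQ true true 64 RtB16_8.Cx.left RtB16_8.CX RtB16_8.Ctp.right.right.left.right.left RtB16_8.Ce.right.right.left.left.left RtB16_8.CTp.left RtB16_8.CEr.left 0x4428d397fd473ebdc75c12d604348f658df4247f540d6a6e28a3547fd11a18c8785c1ce1623d8f686ca0c67f540d078075b67fd38ca39575c242be0678b43a19b0f8f640d7fa170e7fd3e2fedd75c200469378b24fb5cba8f690f46607f550d3a00f91c7fd55ea32a75c1a3c37e78b31c6806b8f640d4771d04c465 = true := by decide +kernel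

theorem cB16_8_3_35 : chunkOkM (LB16_8.ctx true true 233 25 16 9 16 689 245 4 32) muQ true true 64 RtB16_8.Cx.left RtB16_8.CX RtB16_8.Ctp.right.right.left.right.left RtB16_8.Ce.right.right.left.left.left RtB16_8.CTp.left RtB16_8.CEr.right 0x8b42d857fdf0e3c6875c1957fab28f6a00a2557f540d = true := by decide +kernel

theorem cB16_8_3_36 : chunkOkM (LB16_8.ctx true true 101 1 1 1 1 1 1 1 1) muQ true true 64 RtB16_8.Cx.left RtB16_8.CX RtB16_8.Ctp.right.right.left.right.right RtB16_8.Ce.right.right.left.left.left RtB16_8.CTp.left RtB16_8.CEr 0x69 = true := by decide +kernel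

theorem cB16_8_3_37 : chunkOkM (LB16_8.ctx true true 263 99 64 9 16 1391 1015 8 64) muQ true true 64 RtB16_8.Cx.left.left RtB16_8.CX RtB16_8.Ctp.right.right.left.right.left RtB16_8.Ce.right.right.left.left.right.left RtB16_8.CTp.left.left RtB16_8.CEr.left 0xfb3c8377fd1326594885c29298d538f666daac87f540d6a757a47fd25cb62375c1fc66ac78b3cb79f9b8f640d96ccc2f7fd46fe67675c2686dce78b67990e198f640d7a0ff7247fd5a9076c75c1dd0b7578b52fe80908f640d460eede97fd299ebe075c1d6682878b278cf8c38f6b468f4d7f550d81cbf4d7fd41ddc2975c1ea1c7b78b231581858f6ac6d2e37f550d436 = true := by decide +kernel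

theorem cB16_8_3_38 : chunkOkM (LB16_8.ctx true true 254 49 32 9 16 1391 505 8 64) muQ true true 64 RtB16_8.Cx.left.left RtB16_8.CX RtB16_8.Ctp.right.right.left.right.left RtB16_8.Ce.right.right.left.left.right.left RtB16_8.CTp.left.right RtB16_8.CEr.left 0x4776b5e7fd5263f3c75c31a422668f630d57072837fd676bb4175c1a3137648f6dba067e7f540d36a6 = true := by decide +kernel

theorem cB16_8_3_39 : chunkOkM (LB16_8.ctx true true 250 51 32 9 16 689 505 8 64) muQ true true 64 RtB16_8.Cx.left.right RtB16_8.CX RtB16_8.Ctp.right.right.left.right.left RtB16_8.Ce.right.right.left.left.right.left RtB16_8.CTp.left RtB16_8.CEr.left 0x646e4aa7fd56beecf75c201654478f6fb3da1f7f540da39b2f57fddeb0bee75c1db4f5d08f611738e848f540d76b785c7fd226014475c2ae72fe78b209d68ff8f611a29c528f550d65 = true := by decide +kernel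

theorem cB16_8_3_40 : chunkOkM (LB16_8.ctx true true 289 399 256 9 16 5499 4085 8 64) muQ true true 64 RtB16_8.Cx.left.left RtB16_8.CX RtB16_8.Ctp.right.right.left.right.left.left RtB16_8.Ce.right.right.left.left.right.right RtB16_8.CTp.left RtB16_8.CEr.left 0x595959626eb8df8ed546178d284c1246e76c8f530da1b05c7fde9157fd28fc9c675c21f6bbda87b1e7e4d908f540d65459759345975935974 = true := by decide +kernel

theorem cB16_8_3_41 : chunkOkM (LB16_8.ctx true true 269 199 128 9 16 1391 1035 8 64) muQ true true 64 RtB16_8.Cx.left.left RtB16_8.CX RtB16_8.Ctp.right.right.left.right.left.right RtB16_8.Ce.right.right.left.left.right.right RtB16_8.CTp.left RtB16_8.CEr.left 0x64c076a7fd6b30e7575c6bacf3f38f630d565c0477fd69abeea75c349bbeef8f6697f32f7f540d46a6a086e0c75c48f4d5d48f620d699e5fc7fd2be574275c1c1f57e78ba7e569348f640d66976971216d33f8fd1268387c85c3847ac1c8f645b17947f540daa66a207fd527015375c1e7374078b56baed958f63bdde0d7f550d97e8a0d7fd5740e8f75c1ee061478bc94e44268f640d7645 = true := by decide +kernel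

theorem cB16_8_3_42 : chunkOkM (LB16_8.ctx true true 286 407 256 9 16 5499 2065 8 64) muQ true true 64 RtB16_8.Cx.left.right RtB16_8.CX RtB16_8.Ctp.right.right.left.right.left.left RtB16_8.Ce.right.right.left.left.right.right RtB16_8.CTp.left RtB16_8.CEr.left 0xbab4cef7fda11f67575c19adf03a8f530d59bd9582488eda4196e075c1e4fb8068f530d5975934597593744097327fd45040e775cb4734657f617a006468f540dabeec237fd8c4350475cfdcf0f68be3027f67f617baf72c8f550d11d118948fdfca183d75cfa0b5287f6158f39df8f540d40580147fd261c39b78bbaf310f7f6165cce1d8f540d6754 = true := by decide +kernel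

theorem cB16_8_3_43 : chunkOkM (LB16_8.ctx true true 254 51 32 9 16 1391 515 8 64) muQ true true 64 RtB16_8.Cx.left.right RtB16_8.CX RtB16_8.Ctp.right.right.left.right.left.right RtB16_8.Ce.right.right.left.left.right.right RtB16_8.CTp.left RtB16_8.CEr.left 0x72fe15b7fd634127175c124c96038f6ed3b50d7f540dfa5b2937fd1042df5b85c1a55ae848f6108d7e0f8f540d7d983e27fd3ae990a75c1e50b2778b20a5a2838f6da37ec27f550d65 = true := by decide +kernel

theorem cB16_8_3_44 : chunkOkM (LB16_8.ctx true true 254 49 32 9 16 715 505 16 64) muQ true true 64 RtB16_8.Cx.left.left RtB16_8.CX RtB16_8.Ctp.right.right.left.right.right RtB16_8.Ce.right.right.left.left.right.left RtB16_8.CTp.left.left RtB16_8.CEr.left 0xd7105bd7fd1184823a85c978e1b68b3986db6b8f640d15dcecb7fd133773278b30e4a59f8f630d1f2d7cb75c277d5a178b2a990b7a8f630d56 = true := by decide +kernel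

end Vale.Agent.helper4.Q4
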