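import Vale.Agent.helper4.Q4TreeM
import Vale.Agent.helper4.Q4G.PB16_8

/-!
Checks for pairs of intervals of second moments.
-/

set_option maxRecDepth 100000
set_option linter.unusedVariables false

namespace Vale.Agent.helper4.Q4

theorem cB16_8_3_45 : chunkOkM (LB16_8.ctx true true 280 195 128 17 32 1443 1035 16 64) muQ true true 64 RtB16_8.Cx.left.left.left RtB16_8.CX RtB16_8.Ctp.right.right.left.right.right RtB16_8.Ce.right.right.left.left.right.right RtB16_8.CTp.left.left RtB16_8.CEr.left.left 0x868ad9a7fd51c6d0d75c163aedd78b35c06dc58f6809a9627f250d424b910ec75c41ca3668b427b096d8f649a89d07f240d493456f75c67da7768b3e652d7d8f6cb27b467f240d78573d7c877fd3b24ec075c270171078b3539fd8a69f640d351cac907fd2d99f7b75c141adcb78b31a2001a8f64aab98a7f250d4250e754d75c51c90168b391d51418f663a5b137f240d38ab64775c1edb6bb78b671dde028f630d3854 = true := by decide +kernel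

theorem cB16_8_3_46 : chunkOkM (LB16_8.ctx true true 263 99 64 9 16 1443 1035 8 64) muQ true true 64 RtB16_8.Cx.left.left.right RtB16_8.CX RtB16_8.Ctp.right.right.left.right.right RtB16_8.Ce.right.right.left.left.right.right RtB16_8.CTp.left.left RtB16_8.CEr.left.left 0x708aab97fd408f69d75c2775f5d78b56b4758a8f640d90e7ea57fd3ea433775c296ae3378b509985888f640d364e6a027fd28d93e675c2acacd178b4807cb3f8f640d4 = true := by decide +kernel

theorem cB16_8_3_47 : chunkOkM (LB16_8.ctx true true 250 49 32 9 16 715 515 8 64) muQ true true 64 RtB16_8.Cx.left.left RtB16_8.CX RtB16_8.Ctp.right.right.left.right.right RtB16_8.Ce.right.right.left.left.right.right RtB16_8.CTp.left.left RtB16_8.CEr.left.right 0xdcc5d2e7fd12ac7cef85c63ae1d68b26e0422d8f610005e67f250d = true := by decide +kernel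

theorem cB16_8_3_48 : chunkOkM (LB16_8.ctx true true 259 99 64 9 16 715 1035 8 64) muQ true true 64 RtB16_8.Cx.left.left RtB16_8.CX RtB16_8.Ctp.right.right.left.right.right RtB16_8.Ce.right.right.left.left.right RtB16_8.CTp.left.right RtB16_8.CEr.left 0x63bbf0f7fd820b16d75c3a3576818f630d6a3eaff7fd955fc3875c3864ea0f8f620ff8217f240d76bb19917fd954d7e075c2f8ff52c8f630d465faf617fd8c7ee6a75c2eae4c1d8f630d46a6 = true := by decide +kernel

theorem cB16_8_3_49 : chunkOkM (LB16_8.ctx true true 251 51 32 9 16 1417 255 8 64) muQ true true 64 RtB16_8.Cx.left.right RtB16_8.CX RtB16_8.Ctp.right.right.left.right.right RtB16_8.Ce.right.right.left.left.right RtB16_8.CTp.left RtB16_8.CEr.left 0x69574a8447fd500151675c39c8fe1b8f630da1b05c7d629b87fd3fa595875c1a7b00278b46367b6e8f640d653 = true := by decide +kernel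

theorem cB16_8_3_50 : chunkOkM (LB16_8.ctx true true 255 25 16 9 16 715 515 32 128) muQ true true 64 RtB16_8.Cx.left RtB16_8.CX RtB16_8.Ctp.right.right.left.right RtB16_8.Ce.right.right.left.left.right RtB16_8.CTp.left RtB16_8.CEr.right 0x5a5a1781ec375c22bbd4fc8f620de9bb7df7f06b4219ec527fd33b7c2075c1139d2018f6f1041227f540d128f1597fd302ab5a75c11bf16cf8f6b42cc3d7f540d435a565a565a5 = true := by decide +kernel

theorem cB16_8_3_51 : chunkOkM (LB16_8.ctx true true 101 1 1 1 1 1 1 1 1) muQ true true 64 RtB16_8.Cx.left RtB16_8.CX RtB16_8.Ctp.right.right.left.right RtB16_8.Ce.right.right.left.left RtB16_8.CTp.right RtB16_8.CEr.left 0x6a = true := by decide +kernel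

theorem cB16_8_3_52 : chunkOkM (LB16_8.ctx true true 246 51 32 9 16 689 495 4 64) muQ true true 64 RtB16_8.Cx.left RtB16_8.CX RtB16_8.Ctp.right.right.left.right RtB16_8.Ce.right.right.left.left.left RtB16_8.CTp.right RtB16_8.CEr.right 0x699f2c736f06c2bd761b7fd801d8865c19b5754a8f655057167f540d136cba6b8ed403f2c6f82568c6058f64228cf77f540d67f4aceb6f06c43 = true := by decide +kernel

theorem cB16_8_3_53 : chunkOkM (LB16_8.ctx true true 259 99 64 9 16 1391 1015 4 64) muQ true true 64 RtB16_8.Cx.left RtB16_8.CX RtB16_8.Ctp.right.right.left.right.left RtB16_8.Ce.right.right.left.left.right.left RtB16_8.CTp.right RtB16_8.CEr.right 0x15c5c077fd2da43065c1a7a01f98f6107bc5748f540d1ec810e7fd11ee87475c2ade40bb8f630d1a2a87e28ed42833565c2456380c8f617b4fe37f540d61d29834d8eddcad6c65c1413ecad8f6fbc49337f540d1b72ef718eda1d4cc65c129a6a4e8f6cfd588f7f540d1c3d6e788edf19ba365c2ca9db058f6805b07c7f540d7437 = true := by decide +kernel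

theorem cB16_8_3_54 : chunkOkM (LB16_8.ctx true true 256 99 64 9 16 1391 1035 4 32) muQ true true 64 RtB16_8.Cx.left RtB16_8.CX RtB16_8.Ctp.right.right.left.right.left RtB16_8.Ce.right.right.left.left.right.right RtB16_8.CTp.right RtB16_8.CEr.right 0x197e19c28ed93afae65cb73a0117f6e65b85a7f540d1980cb038ed5bd0bf65c4d0d3f37f6155e6f358f540d31ea338cf8edb8bc2f65c598432368f630d1bfca0e98ed6688f865c3db725f94eb123538f636f51ed7f550d1ce0b6d18edf1667b65c7f8fbdb98f630d741937e137fd50510e65c119b30038f615aad2138f540d37 = true := by decide +kernel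

theorem cB16_8_3_55 : chunkOkM (LB16_8.ctx true true 253 51 32 9 16 1443 1035 4 64) muQ true true 64 RtB16_8.Cx.left RtB16_8.CX RtB16_8.Ctp.right.right.left.right.right RtB16_8.Ce.right.right.left.left.right RtB16_8.CTp.right RtB16_8.CEr.right 0x1aeae0b7fdb19c7865c3010e7bd8f630d22bec847fd1ed276375c328ca92a8f630d2a8c32d7fd292bde075c29f64b218f630d42ef040e68ed193db4775c1f96c2868f6634d7267f240d1dd845f38ed11ce87275c382549968f630d3671de92d27fd15a9b6375c1e0f829b8f630d4 = true := by decide +kernel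

theorem cB16_8_3_56 : chunkOkM (LB16_8.ctx true true 237 27 16 9 16 689 515 4 32) muQ true true 64 RtB16_8.Cx.right RtB16_8.CX RtB16_8.Ctp.right.right.left.right RtB16_8.Ce.right.right.left.left RtB16_8.CTp RtB16_8.CEr 0x69163384ea8ed84cd596f8aaa9c267f617475f4b8f540d9d464e27fdb5b722b75c11e47f9f8f618c9913d8f540dac825e77fd9b794ce75c47e0a668b1117d1fa8f619c44bda8f550d656943694 = true := by decide +kernel

theorem cB16_8_3_57 : chunkOkM (LB16_8.ctx true true 101 1 1 1 1 1 1 1 1) muQ true true 64 RtB16_8.Cx RtB16_8.CX RtB16_8.Ctp.right.right.left.left.left RtB16_8.Ce.right.right.left.right.left RtB16_8.CTp RtB16_8.CEr 0x59 = true := by decide +kernel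

theorem cB16_8_3_58 : chunkOkM (LB16_8.ctx true true 101 1 1 1 1 1 1 1 1) muQ true true 64 RtB16_8.Cx.left RtB16_8.CX RtB16_8.Ctp.right.right.left.left.right RtB16_8.Ce.right.right.left.right.left RtB16_8.CTp RtB16_8.CEr 0x59 = true := by decide +kernel

end Vale.Agent.helper4.Q4
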