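import Vale.Agent.helper4.Q4TreeM
import Vale.Agent.helper4.Q4G.PB16_8

/-!
Checks for pairs of intervals of second moments.
-/

set_option maxRecDepth 100000
set_option linter.unusedVariables false

namespace Vale.Agent.helper4.Q4

theorem cB16_8_3_59 : chunkOkM (LB16_8.ctx true true 266 215 128 9 16 2691 2085 4 16) muQ true true 64 RtB16_8.Cx.right RtB16_8.CX RtB16_8.Ctp.right.right.left.left.right RtB16_8.Ce.right.right.left.right.left.left RtB16_8.CTp RtB16_8.CEr 0x103d78f68ed1aa774a7f833f33ecd8f647d106598f540d302777a7fd4d806f175c9aad42b7f62b77ee4d8f540d55959ee5f87e7ed1997fb57f81ee967b68f530d3bf69cf7fd61e9c7175c216ba52e8f530d5459759359747599b62c847ed20e75007f82bbae9bf8f6422c2c748f540d2c74a577fd2df87de75c21d973918f645c3179f8f540d559359745973 = true := by decide +kernel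

theorem cB16_8_3_60 : chunkOkM (LB16_8.ctx true true 257 111 64 9 16 2691 1065 4 16) muQ true true 64 RtB16_8.Cx.right RtB16_8.CX RtB16_8.Ctp.right.right.left.left.right RtB16_8.Ce.right.right.left.right.left.right RtB16_8.CTp RtB16_8.CEr 0x5986911eb7ed1a33f7c7f8116895be8f62f9eb20a8f540d34cccb77fd40dc51975c2ad25a778f530d55935974597593 = true := by decide +kernel

theorem cB16_8_3_61 : chunkOkM (LB16_8.ctx true true 101 1 1 1 1 1 1 1 1) muQ true true 64 RtB16_8.Cx RtB16_8.CX RtB16_8.Ctp.right.right.left.left RtB16_8.Ce.right.right.left.right.right RtB16_8.CTp RtB16_8.CEr 0x59 = true := by decide +kernel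

theorem cB16_8_3_62 : chunkOkM (LB16_8.ctx true true 101 1 1 1 1 1 1 1 1) muQ true true 64 RtB16_8.Cx.left.left RtB16_8.CX RtB16_8.Ctp.right.right.left.right.left RtB16_8.Ce.right.right.left.right.left RtB16_8.CTp.left RtB16_8.CEr 0x59 = true := by decide +kernel

theorem cB16_8_3_63 : chunkOkM (LB16_8.ctx true true 247 51 32 9 16 1365 525 4 32) muQ true true 64 RtB16_8.Cx.left.right RtB16_8.CX RtB16_8.Ctp.right.right.left.right.left.left RtB16_8.Ce.right.right.left.right.left.left RtB16_8.CTp.left RtB16_8.CEr.left 0x92c31807fd8b20d1e75c1fbbb9488f530d = true := by decide +kernel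

theorem cB16_8_3_64 : chunkOkM (LB16_8.ctx true true 263 103 64 9 16 1391 1045 8 64) muQ true true 64 RtB16_8.Cx.left.right RtB16_8.CX RtB16_8.Ctp.right.right.left.right.left.right RtB16_8.Ce.right.right.left.right.left.left.left RtB16_8.CTp.left RtB16_8.CEr.left 0x5cd87c278ed4dcd5da75c6023cb68ba3fbb877f6175f586d8f550dc769e0e7fdbdd8de275c11c18d678b18cb03ed8f618b460d88f550d5ff73de7fdf2913365c25ec54278b21eb4cf28f611544bba8f550d65785cb647fd63c46f575c2a47e0c28f6e0ec9fe7f540dd5edb077fdeaac42075c416f1af28f6cc5df067f540d6a6471d7fd29a84a775c1b08a1478b34313bc48f6b37b5847f550d657 = true := by decide +kernel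

theorem cB16_8_3_65 : chunkOkM (LB16_8.ctx true true 263 103 64 9 16 1391 1055 8 64) muQ true true 64 RtB16_8.Cx.left.right RtB16_8.CX RtB16_8.Ctp.right.right.left.right.left.right RtB16_8.Ce.right.right.left.right.left.left.right RtB16_8.CTp.left RtB16_8.CEr.left 0x60937527fd4af501875c1b541fcb8f530d86176f87fdb5f4ba375c1e611af98f530d3d836e57fd1f42e165c21c344278ba6423d27f61690e0608f550d65597 = true := by decide +kernel

theorem cB16_8_3_66 : chunkOkM (LB16_8.ctx true true 243 51 32 9 16 689 525 4 32) muQ true true 64 RtB16_8.Cx.left.right RtB16_8.CX RtB16_8.Ctp.right.right.left.right.left RtB16_8.Ce.right.right.left.right.left.left RtB16_8.CTp.left RtB16_8.CEr.right 0x93fcd937fdd46b06775c12be8ac58f61666130c8f540d = true := by decide +kernel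

theorem cB16_8_3_67 : chunkOkM (LB16_8.ctx true true 101 1 1 1 1 1 1 1 1) muQ true true 64 RtB16_8.Cx.left.right RtB16_8.CX RtB16_8.Ctp.right.right.left.right.left RtB16_8.Ce.right.right.left.right.left.right RtB16_8.CTp.left RtB16_8.CEr 0x59 = true := by decide +kernel

theorem cB16_8_3_68 : chunkOkM (LB16_8.ctx true true 289 391 256 9 16 2899 4165 16 64) muQ true true 64 RtB16_8.Cx.left.left RtB16_8.CX RtB16_8.Ctp.right.right.left.right.right RtB16_8.Ce.right.right.left.right.left.left RtB16_8.CTp.left.left RtB16_8.CEr.left 0xb01714a7fdf569b6075c2ce79068b2a59bf8c8f61bc54f27f250d5a570eb9267fd3e13efa75c25f7cc378b6f50761b8f640d6976939192156fd115290a78b2c13b3c48f630d1d03a6175c25484dfe87b648ac6018f630d556b8b807fd263fcb075c23f314278b62df8be48f640d34216969775b9a57fd4693c0475c29edb78f87bcfc1f4038f640d42176934217469376 = true := by decide +kernel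

theorem cB16_8_3_69 : chunkOkM (LB16_8.ctx true true 260 99 64 9 16 1443 525 8 64) muQ true true 64 RtB16_8.Cx.left.left RtB16_8.CX RtB16_8.Ctp.right.right.left.right.right RtB16_8.Ce.right.right.left.right.left.left RtB16_8.CTp.left.right RtB16_8.CEr.left 0x6746ecf7fd8ad8b6d75c34f64b5e8f63f9f696f240d40aee3c7fd5ce609075c576b1bdc8f630d35dc77d47fd8a09de775c468759508f67dd96447f240d76a6 = true := by decide +kernel

theorem cB16_8_3_70 : chunkOkM (LB16_8.ctx true true 263 103 64 9 16 1443 1055 8 64) muQ true true 64 RtB16_8.Cx.left.right RtB16_8.CX RtB16_8.Ctp.right.right.left.right.right RtB16_8.Ce.right.right.left.right.left.left RtB16_8.CTp.left.left RtB16_8.CEr.left.left 0x11e04c66205b77fd336cf5b75c23a141f78b4fc8bbc18f640d76fa977f7fd2e7998775c1f280d778b28a68cdc8f6c37c0117f550d89216e27fd4249e8975c1b0955578b711523ae8f640d736f51fac7fd387222e75c21ee19978b54823d0b8f640d11e04c76aeaf67fd27c906b75c1f86a1078b4ba1a1938f640d734 = true := by decide +kernel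

theorem cB16_8_3_71 : chunkOkM (LB16_8.ctx true true 250 51 32 9 16 715 525 8 64) muQ true true 64 RtB16_8.Cx.left.right RtB16_8.CX RtB16_8.Ctp.right.right.left.right.right RtB16_8.Ce.right.right.left.right.left.left RtB16_8.CTp.left.left RtB16_8.CEr.left.right 0xc1d5f9f7fd10294ae085c2cb3cd558f64f491067f540d = true := by decide +kernel

theorem cB16_8_3_72 : chunkOkM (LB16_8.ctx true true 257 51 32 9 16 1443 1055 8 64) muQ true true 64 RtB16_8.Cx.left.right RtB16_8.CX RtB16_8.Ctp.right.right.left.right.right RtB16_8.Ce.right.right.left.right.left.left RtB16_8.CTp.left.right RtB16_8.CEr.left 0x50379277fd68c615875c2ac3452a8f630d5443e857fd64dc76b75c2a919d918f6a031ac27f540d44dfcfc7fd4a21c6d75c3d4faba18f634da8a47f540d436a6 = true := by decide +kernel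

theorem cB16_8_3_73 : chunkOkM (LB16_8.ctx true true 101 1 1 1 1 1 1 1 1) muQ true true 64 RtB16_8.Cx.left.left RtB16_8.CX RtB16_8.Ctp.right.right.left.right.right RtB16_8.Ce.right.right.left.right.left.right RtB16_8.CTp.left RtB16_8.CEr.left 0x69 = true := by decide +kernel

theorem cB16_8_3_74 : chunkOkM (LB16_8.ctx true true 302 815 512 9 16 11427 8485 8 64) muQ true true 64 RtB16_8.Cx.left.right RtB16_8.CX RtB16_8.Ctp.right.right.left.right.right.left RtB16_8.Ce.right.right.left.right.left.right.left RtB16_8.CTp.left RtB16_8.CEr.left 0x493f93b7fd54ecd5f75c2b4a3db38f6cc637cf7f540d6a6f356c4a7fdfa16eed75c25a89268b1086ee8f8f6f1ecc4f7f550d6fcf9c77fd30f52ec75c1c0fde978b37aa78cb8f6bb4839d7f550d6569696949f538fe8ed511a6be684c76dcadad8f630d91b05c78911b17fd382b60e75c1d24104987b8a718a2b8f640d654693697469369746975937 = true := by decide +kernel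

end Vale.Agent.helper4.Q4
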