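import Vale.Agent.helper4.Q4TreeM
import Vale.Agent.helper4.Q4G.PB16_8

/-!
Checks for pairs of intervals of second moments.
-/

set_option maxRecDepth 100000
set_option linter.unusedVariables false

namespace Vale.Agent.helper4.Q4

theorem cB16_8_3_75 : chunkOkM (LB16_8.ctx true true 273 207 128 9 16 2847 1075 8 64) muQ true true 64 RtB16_8.Cx.left.right RtB16_8.CX RtB16_8.Ctp.right.right.left.right.right.left RtB16_8.Ce.right.right.left.right.left.right.right RtB16_8.CTp.left RtB16_8.CEr.left 0x65207ed08ed536297e75c34b4d4078f6df41f2b7f540dfb94a3b7fdf6bbee475c4460a7118f630d693ade17fd29fdd8975c186c2aa787b3d3118b58f6a3e296c7f550d65697593597 = true := by decide +kernel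

theorem cB16_8_3_76 : chunkOkM (LB16_8.ctx true true 296 815 512 9 16 5811 4285 8 64) muQ true true 64 RtB16_8.Cx.left.right RtB16_8.CX RtB16_8.Ctp.right.right.left.right.right.right RtB16_8.Ce.right.right.left.right.left.right RtB16_8.CTp.left.left RtB16_8.CEr.left 0xadecfcb7fde5c3f0375c340187e48f630d66a99bc7fd2c0c8d775c1cf06d178b696057598f640da5d79677fd3ea15b775c22440f078b511a0e6a8f640d466969a1b05c8706d7a7fd493e92675c20f7ff8287b13906b5c99f640d669769346974693697d84f0407fd1097fecd85c2692ea68b246bfed38f640d6cbad1d7fd36dfd2675c22c5c5d78b6c41d2a18f640d647 = true := by decide +kernel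

theorem cB16_8_3_77 : chunkOkM (LB16_8.ctx true true 257 51 32 9 16 1443 1075 8 64) muQ true true 64 RtB16_8.Cx.left.right RtB16_8.CX RtB16_8.Ctp.right.right.left.right.right.right RtB16_8.Ce.right.right.left.right.left.right RtB16_8.CTp.left.right RtB16_8.CEr.left 0x4f2b2a87fd5e4dd3a75c4df829be8f630d4d871b27fd5cc469e75c41ce6d7f8f630d46a6 = true := by decide +kernel

theorem cB16_8_3_78 : chunkOkM (LB16_8.ctx true true 265 51 32 9 16 1443 535 32 128) muQ true true 64 RtB16_8.Cx.left RtB16_8.CX RtB16_8.Ctp.right.right.left.right.right RtB16_8.Ce.right.right.left.right.left RtB16_8.CTp.left RtB16_8.CEr.right 0x5a5a283702658f06b337c33775c9100ec77f6102f53fd8f530d36972e3d456b8f06b3f482587fd57dfd0975c2e0234b38f680d7196f240d745a565a565a5 = true := by decide +kernel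

theorem cB16_8_3_79 : chunkOkM (LB16_8.ctx true true 101 1 1 1 1 1 1 1 1) muQ true true 64 RtB16_8.Cx.left RtB16_8.CX RtB16_8.Ctp.right.right.left.right RtB16_8.Ce.right.right.left.right.left RtB16_8.CTp.right RtB16_8.CEr.left 0x6a = true := by decide +kernel

theorem cB16_8_3_80 : chunkOkM (LB16_8.ctx true true 243 51 32 9 16 689 525 4 32) muQ true true 64 RtB16_8.Cx.left RtB16_8.CX RtB16_8.Ctp.right.right.left.right.left RtB16_8.Ce.right.right.left.right.left RtB16_8.CTp.right RtB16_8.CEr.right 0x591a35cf47fd67779465cfa9ad7b7f614cf6dbf8f540d5974 = true := by decide +kernel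

theorem cB16_8_3_81 : chunkOkM (LB16_8.ctx true true 256 99 64 9 16 1443 1055 4 32) muQ true true 64 RtB16_8.Cx.left.left RtB16_8.CX RtB16_8.Ctp.right.right.left.right.right RtB16_8.Ce.right.right.left.right.left.left RtB16_8.CTp.right RtB16_8.CEr.right 0x1d11db108ed18b7c0c75c30167ec88f630d217218150af8ed1f5d27f75c2c6c41d88f630d1f902e668ed1c2031f75c385c735f8f66a536d97f240d741db9c47f8ed151d69575c3712787f8f630d3 = true := by decide +kernel

theorem cB16_8_3_82 : chunkOkM (LB16_8.ctx true true 256 103 64 9 16 1443 1055 4 32) muQ true true 64 RtB16_8.Cx.left.right RtB16_8.CX RtB16_8.Ctp.right.right.left.right.right RtB16_8.Ce.right.right.left.right.left.left RtB16_8.CTp.right RtB16_8.CEr.right 0x1bd0b03f8ede6380465c3389b2068f630d17a571f88ed74477965c25ae842b8f6bd36e027f540d19fa876d8ed955ecc65c5598bc848f624bc7dc7f540d71ad6e0ac8ed72c90265c30d3a26f8f6337b6797f540d43 = true := by decide +kernel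

theorem cB16_8_3_83 : chunkOkM (LB16_8.ctx true true 257 103 64 9 16 1443 1075 4 32) muQ true true 64 RtB16_8.Cx.left RtB16_8.CX RtB16_8.Ctp.right.right.left.right.right RtB16_8.Ce.right.right.left.right.left.right RtB16_8.CTp.right RtB16_8.CEr.right 0x1b24022a8ed73b87f65c2660216f96f8de5998f640d17c15bae8eda6fb1565c854932aa8f630d71c326a238ed108a68d75c3a77691a8f630d41ca0ba5d8edb77c9f65c1a4f17ea8f6db347087f540d1a931d978edbaa18365c3045c9df8f6bfb79de7f540d1a2268f28ed909a7065ca05ba1b78f630d743697 = true := by decide +kernel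

theorem cB16_8_3_84 : chunkOkM (LB16_8.ctx true true 254 55 32 9 16 1391 1055 8 32) muQ true true 64 RtB16_8.Cx.right RtB16_8.CX RtB16_8.Ctp.right.right.left.right.left RtB16_8.Ce.right.right.left.right.left.left RtB16_8.CTp.left RtB16_8.CEr 0x91887307fd8c36ca675c187dc10b8f624fcd33c8f540d7688eb67fd6e2425875c28c0667a8f62b1ea1bd8f540d683a9ed27fda76f5ea75cc7292367f61977d6568f540d6364d3f7fd60ca4a275cb26fcae7f619d974d48f540db96dc5e7fd9f428c275c85e8ff68bc5bbbbb7f6178f16c28f550d5b37b9f37fd9c65b8175c107e1368bcc737597f6170469d38f550d4bd714067fd9cb7f2575c1ef2ea018f530d367 = true := by decide +kernel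

theorem cB16_8_3_85 : chunkOkM (LB16_8.ctx true true 237 27 16 9 16 689 525 4 32) muQ true true 64 RtB16_8.Cx.right RtB16_8.CX RtB16_8.Ctp.right.right.left.right.left RtB16_8.Ce.right.right.left.right.left.left RtB16_8.CTp.right RtB16_8.CEr 0x1380da77fd205ef86f8875aa017f61784ed388f540d6a6 = true := by decide +kernel

theorem cB16_8_3_86 : chunkOkM (LB16_8.ctx true true 247 53 32 9 16 1391 535 4 32) muQ true true 64 RtB16_8.Cx.right.left RtB16_8.CX RtB16_8.Ctp.right.right.left.right.left RtB16_8.Ce.right.right.left.right.left.right RtB16_8.CTp RtB16_8.CEr 0x171f9e8a8edb4f8286f881134547f61e0f0da58f540daa36f337fdb8be59575c2ded47da8f6291cd6ab8f540db08bab27fd947920575c85fcb58b1e0738878f540d63cae0497fd6721d2875c28b75c318f530d35 = true := by decide +kernel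

theorem cB16_8_3_87 : chunkOkM (LB16_8.ctx true true 247 55 32 9 16 1391 535 4 32) muQ true true 64 RtB16_8.Cx.right.right RtB16_8.CX RtB16_8.Ctp.right.right.left.right.left RtB16_8.Ce.right.right.left.right.left.right RtB16_8.CTp RtB16_8.CEr 0x11b52c348edb014ac6f8108817848f6232843988f540d80a0f4a7fd84c03b175ce714e8b7f61f1bd7b88f540d758853c7fd71b25d475c1ac72a088f623bba1538f540d6345995c7fd5af6f1a75c7e835317f626bb0b5a8f540d35 = true := by decide +kernel

end Vale.Agent.helper4.Q4
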