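import Vale.Agent.helper4.Q4TreeM
import Vale.Agent.helper4.Q4G.PB16_8

/-!
Checks for pairs of intervals of second moments.
-/

set_option maxRecDepth 100000
set_option linter.unusedVariables false

namespace Vale.Agent.helper4.Q4

theorem cB16_8_3_88 : chunkOkM (LB16_8.ctx true true 241 27 16 9 16 715 525 8 32) muQ true true 64 RtB16_8.Cx.right RtB16_8.CX RtB16_8.Ctp.right.right.left.right.right RtB16_8.Ce.right.right.left.right.left.left RtB16_8.CTp.left RtB16_8.CEr.left 0x12dcc137f06cc1f9cf37fdae0eec575c68a49a97f530d5 = true := by decide +kernel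

theorem cB16_8_3_89 : chunkOkM (LB16_8.ctx true true 257 53 32 9 16 1417 1065 8 64) muQ true true 64 RtB16_8.Cx.right.left RtB16_8.CX RtB16_8.Ctp.right.right.left.right.right.left RtB16_8.Ce.right.right.left.right.left.right.left RtB16_8.CTp.left RtB16_8.CEr.left 0x5ba21e97fd53d3f5275c136aee628f612ae66ca8f540d740d6ae7fdbc070bc75c309c51238f6144001108f540d601d2a57fd14e038d75c1e2d2e078b268390878f6125bd96e8f550d65 = true := by decide +kernel

theorem cB16_8_3_90 : chunkOkM (LB16_8.ctx true true 263 107 64 9 16 1417 1075 8 64) muQ true true 64 RtB16_8.Cx.right.left RtB16_8.CX RtB16_8.Ctp.right.right.left.right.right.left RtB16_8.Ce.right.right.left.right.left.right.right RtB16_8.CTp.left RtB16_8.CEr.left 0x5987b507fd505ff3575cf69e5db7f6178a79318f540db7488507fd923a43e75cf5a03368b12bd37678f617b1e0628f550d54d207b8e8ed39ea7b775c1c93af338f6fd19ee37f540df95c6bc7fdee8c32175c13daf9498f530d647d4627fd2fc738a75c172298278bed16b847f613ec87308f550d657 = true := by decide +kernel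

theorem cB16_8_3_91 : chunkOkM (LB16_8.ctx true true 254 53 32 9 16 1443 535 8 64) muQ true true 64 RtB16_8.Cx.right.left RtB16_8.CX RtB16_8.Ctp.right.right.left.right.right.right RtB16_8.Ce.right.right.left.right.left.right RtB16_8.CTp.left RtB16_8.CEr.left 0x4c3584e7fd3cdd86875c39bc63028f643139db7f540d81b05c79d14467fd36ac4e275c18c79ea78b364a904d8f680233247f550d65 = true := by decide +kernel

theorem cB16_8_3_92 : chunkOkM (LB16_8.ctx true true 243 55 32 9 16 715 535 4 32) muQ true true 64 RtB16_8.Cx.right.right RtB16_8.CX RtB16_8.Ctp.right.right.left.right.right RtB16_8.Ce.right.right.left.right.left.right RtB16_8.CTp.left RtB16_8.CEr.left 0x6a9140c7fd710437a75caae9e5d7f530d = true := by decide +kernel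

theorem cB16_8_3_93 : chunkOkM (LB16_8.ctx true true 234 27 16 9 16 715 265 4 32) muQ true true 64 RtB16_8.Cx.right RtB16_8.CX RtB16_8.Ctp.right.right.left.right.right RtB16_8.Ce.right.right.left.right.left RtB16_8.CTp.left RtB16_8.CEr.right 0x9cbbcb17fdca3bfa875c18e25ead8f6110c13c28f540d = true := by decide +kernel

theorem cB16_8_3_94 : chunkOkM (LB16_8.ctx true true 248 55 32 9 16 1443 535 4 32) muQ true true 64 RtB16_8.Cx.right RtB16_8.CX RtB16_8.Ctp.right.right.left.right.right RtB16_8.Ce.right.right.left.right.left RtB16_8.CTp.right RtB16_8.CEr 0xb720266f06c18113fe7fd4da12965c22b148d58f68e936777f540d17d559398ed46b63665cb0e5c247f611eeb95c8f540d3710f989f7f06c46a6 = true := by decide +kernel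

theorem cB16_8_3_95 : chunkOkM (LB16_8.ctx true true 270 207 128 9 16 1443 1085 8 64) muQ true true 64 RtB16_8.Cx.left RtB16_8.CX RtB16_8.Ctp.right.right.left.right RtB16_8.Ce.right.right.left.right.right RtB16_8.CTp RtB16_8.CEr 0x5969191bc9578ed7c057665c58818d8b8f630d6a68744f367fdc6936d175c4542b9758f630d5d42d5c38ed5057fed75c73fe84098f630da893ac77fdcfc7e4e75c146a5668b39fdc0108f640d7b4db5b7fd3ab325575c19f183a78b6e7345248f640d656569746975932174593 = true := by decide +kernel

theorem cB16_8_3_96 : chunkOkM (LB16_8.ctx true true 309 1791 1024 9 16 22451 17605 4 32) muQ true true 64 RtB16_8.Cx.right RtB16_8.CX RtB16_8.Ctp.right.right.left.right.left RtB16_8.Ce.right.right.left.right.right RtB16_8.CTp RtB16_8.CEr 0x59595959591030f727f06c331015388ed4abce2575c22cbcfac8f530d545975934597593459759345975935974593109f52808edba5e876f85302daf7f622c1ee578f540d8a6211a7fd5e3b11a75cbbdd5577f6248ed90d8f540d7a86a5f7fd657fb7b75c36c8e177f6235337ae8f540d655959b8b02d87ed1a3d0b858e822ca5cc48f530d2d55b55f8ed3d17ec275c250430998f530d55934597593597434597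 = true := by decide +kernel

theorem cB16_8_3_97 : chunkOkM (LB16_8.ctx true true 267 107 64 9 16 2847 1095 8 64) muQ true true 64 RtB16_8.Cx.right.left RtB16_8.CX RtB16_8.Ctp.right.right.left.right.right.left RtB16_8.Ce.right.right.left.right.right.left RtB16_8.CTp.left RtB16_8.CEr.left 0x9f42edb7fd855c94975c20b04be7f620fa51d78f540d409f5337fd3b569da75c1ce044488f6178cd2058f540db812e0e7fd93e72c275c98145d68ba27db067f61783317d8f550d53c723e87fd37a7a2875c66749757f61a3cedb18f540daecb4a27fdb9adf5375c50500768b1532a0e98f61796a8cb8f550dff7c9a47fd990c48375cd7254368b294e0697f61c9ce6a38f550d6559374 = true := by decide +kernel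

theorem cB16_8_3_98 : chunkOkM (LB16_8.ctx true true 268 107 64 9 16 2899 1085 8 64) muQ true true 64 RtB16_8.Cx.right.left RtB16_8.CX RtB16_8.Ctp.right.right.left.right.right.right RtB16_8.Ce.right.right.left.right.right.left.left RtB16_8.CTp.left RtB16_8.CEr.left 0x5229f007fd605f57075c25d1cca18f6dc3df4c7f540d6a6e2418547fded77da875c23bd3fed8f6bbfeaac7f540d119445fa8fdaf7920c75c7bfef268b2251ff098f612012e2d8f550d917669b7fd3481b4b75c1cc5fa078b6a3fc54c8f640d71084e27fd2d2371975c1845ad978b325f0c8c8f6b5037197f550d3765 = true := by decide +kernel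

end Vale.Agent.helper4.Q4
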