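import Vale.Agent.helper4.Q4TreeM
import Vale.Agent.helper4.Q4G.PB16_8

/-!
Checks for pairs of intervals of second moments.
-/

set_option maxRecDepth 100000
set_option linter.unusedVariables false

namespace Vale.Agent.helper4.Q4

theorem cB16_8_3_99 : chunkOkM (LB16_8.ctx true true 268 107 64 9 16 2899 1095 8 64) muQ true true 64 RtB16_8.Cx.right.left RtB16_8.CX RtB16_8.Ctp.right.right.left.right.right.right RtB16_8.Ce.right.right.left.right.right.left.right RtB16_8.CTp.left RtB16_8.CEr.left 0x6bd09017fd579d6ee75c218053f68f610b8cd808f540d85445d87fd9f2872a75cd355b968b5a3989248f6e7903757f550d777f2e97fd2bd388375c1952bb978b22c849618f6ee4eaba7f550d653f6e64a7fd4fdae1d75c2e624eb58f6c6212057f540d6a6d54fd727fde7c231975c16fb4a728f611399a448f540d5ed56757fd242cb1b75c1aadc5a987b57d152c58f6630d92a7f550d91516767fd33acff075c1a65b7b78b390140598f6e8a1aaf7f550d3657 = true := by decide +kernel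

theorem cB16_8_3_100 : chunkOkM (LB16_8.ctx true true 247 53 32 9 16 715 545 8 32) muQ true true 64 RtB16_8.Cx.right.left RtB16_8.CX RtB16_8.Ctp.right.right.left.right.right RtB16_8.Ce.right.right.left.right.right.left RtB16_8.CTp.left RtB16_8.CEr.right 0x4536a277fd65d33ba75c197476dd8f610cd80728f540d5a5 = true := by decide +kernel

theorem cB16_8_3_101 : chunkOkM (LB16_8.ctx true true 248 55 32 9 16 1443 545 4 32) muQ true true 64 RtB16_8.Cx.right.right RtB16_8.CX RtB16_8.Ctp.right.right.left.right.right RtB16_8.Ce.right.right.left.right.right.left RtB16_8.CTp.left RtB16_8.CEr 0x67b61317fd96edcae75c255218ee8f61b8c92398f540d964ba8c7fd75e155f75cb6ad7187f530d810232d7fd78185dc75c19f65f708f61cf478a78f540d36 = true := by decide +kernel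

theorem cB16_8_3_102 : chunkOkM (LB16_8.ctx true true 257 107 64 9 16 1443 1095 4 32) muQ true true 64 RtB16_8.Cx.right RtB16_8.CX RtB16_8.Ctp.right.right.left.right.right RtB16_8.Ce.right.right.left.right.right.left RtB16_8.CTp.right RtB16_8.CEr 0x133d1467fd29d5da6f917779a278f617d8c5bd8f540d152dac038ed10624365c23c26ca98f6c99979e7f540d1a91bacc8edcb424365c367d98bb8f6a881d387f540d714b7b6c7f06c192263af8ed90f60465c2e4ded7a8f682326087f540d7418aee6bb8ed138b2465c5e88e907f6169056e88f540d376a6 = true := by decide +kernel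

theorem cB16_8_3_103 : chunkOkM (LB16_8.ctx true true 101 1 1 1 1 1 1 1 1) muQ true true 64 RtB16_8.Cx.right.left RtB16_8.CX RtB16_8.Ctp.right.right.left.right.right.left RtB16_8.Ce.right.right.left.right.right.right RtB16_8.CTp RtB16_8.CEr 0x59 = true := by decide +kernel

theorem cB16_8_3_104 : chunkOkM (LB16_8.ctx true true 296 847 512 9 16 5811 4405 8 64) muQ true true 64 RtB16_8.Cx.right.left RtB16_8.CX RtB16_8.Ctp.right.right.left.right.right.right RtB16_8.Ce.right.right.left.right.right.right.left RtB16_8.CTp.left RtB16_8.CEr.left 0x67929297fd5125be075c2609973f8f610c021978f540db2f7ba87fdc0063cc75ce5ce9607f6176502808f540d7832c487fd2a41d2475c191b74a78b3f56d31c8f6bdc3d0c7f550d6aa3199c7fd8bcfaf875c7cae1c68b1f0a25298f540d35596947ea883a8ed3e76b56384c7033e9198f630dc5f69977fdcb326b975c8cd5f0898f630d51ddffd7fd15c461975c1bbb789387b94e4dee88f640d65697469759345975937 = true := by decide +kernel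

theorem cB16_8_3_105 : chunkOkM (LB16_8.ctx true true 281 215 128 9 16 5811 2225 8 64) muQ true true 64 RtB16_8.Cx.right.left RtB16_8.CX RtB16_8.Ctp.right.right.left.right.right.right RtB16_8.Ce.right.right.left.right.right.right.right RtB16_8.CTp.left RtB16_8.CEr.left 0x593b73a8288ed34bb0c775c1bc8c13e8f530d6f7e9d07fd9f9fc8b75c801dc40e8f630d86d95897fd400534d75c13a5dab187b1a8954a88f540d655934597593597 = true := by decide +kernel

theorem cB16_8_3_106 : chunkOkM (LB16_8.ctx true true 247 53 32 9 16 1443 555 4 32) muQ true true 64 RtB16_8.Cx.right.left RtB16_8.CX RtB16_8.Ctp.right.right.left.right.right.right RtB16_8.Ce.right.right.left.right.right.right RtB16_8.CTp.left RtB16_8.CEr.right 0xa112de67fdc8194c675cac215b47f61671638a8f540d = true := by decide +kernel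

theorem cB16_8_3_107 : chunkOkM (LB16_8.ctx true true 247 53 32 9 16 1443 555 4 32) muQ true true 64 RtB16_8.Cx.right.left RtB16_8.CX RtB16_8.Ctp.right.right.left.right.right.right RtB16_8.Ce.right.right.left.right.right.right RtB16_8.CTp.right RtB16_8.CEr 0x187e2957fd8cf45c65c105ddf9b8f611f79f148f540d6a6 = true := by decide +kernel

theorem cB16_8_3_108 : chunkOkM (LB16_8.ctx true true 248 55 32 9 16 1417 555 4 32) muQ true true 64 RtB16_8.Cx.right.right RtB16_8.CX RtB16_8.Ctp.right.right.left.right.right.left RtB16_8.Ce.right.right.left.right.right.right RtB16_8.CTp.left RtB16_8.CEr 0x488a8507fd78beb3b75c182922a48f6237f377f8f540d6d4776b7fd69084e975cd514d58b1e05ed67f6208839088f550d6 = true := by decide +kernel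

theorem cB16_8_3_109 : chunkOkM (LB16_8.ctx true true 261 111 64 9 16 1443 1105 8 32) muQ true true 64 RtB16_8.Cx.right.right RtB16_8.CX RtB16_8.Ctp.right.right.left.right.right.right RtB16_8.Ce.right.right.left.right.right.right.left RtB16_8.CTp.left RtB16_8.CEr.left 0x6417c1c7fd67a926675cf91c5527f530d47229777fd38988f775c22897d458f615f77ac78f540dad503647fd888344175caf4db268b14685a178f615df8f398f550d57 = true := by decide +kernel

theorem cB16_8_3_110 : chunkOkM (LB16_8.ctx true true 268 111 64 9 16 2899 1115 8 64) muQ true true 64 RtB16_8.Cx.right.right RtB16_8.CX RtB16_8.Ctp.right.right.left.right.right.right RtB16_8.Ce.right.right.left.right.right.right.right RtB16_8.CTp.left RtB16_8.CEr.left 0x9586b8f7fd79f3e9075c12f2a1b58f61acec8ce8f540d592ab4688ed4bf87ec75c19cf63218f530d1081d9dd8fddc80c7175c17bae6cd8f530ddd7732e7fd7e4352075cf00d9168b19fbca3e8f6196860eb8f550d65ae28a8b7fd80fabba75c200709598f530d37 = true := by decide +kernel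

theorem cB16_8_3_111 : chunkOkM (LB16_8.ctx true true 248 55 32 9 16 1443 555 4 32) muQ true true 64 RtB16_8.Cx.right.right RtB16_8.CX RtB16_8.Ctp.right.right.left.right.right.right RtB16_8.Ce.right.right.left.right.right.right RtB16_8.CTp.left RtB16_8.CEr.right 0x72eacf67fd95b3ed375c102840e48f6170ce6d48f540d = true := by decide +kernel

theorem cB16_8_3_112 : chunkOkM (LB16_8.ctx true true 244 55 32 9 16 715 555 4 32) muQ true true 64 RtB16_8.Cx.right.right RtB16_8.CX RtB16_8.Ctp.right.right.left.right.right RtB16_8.Ce.right.right.left.right.right.right RtB16_8.CTp.right RtB16_8.CEr 0x16467957fd1fd3ad6f811ecb8158f61993c1918f540d6a6 = true := by decide +kernel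

end Vale.Agent.helper4.Q4
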