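import Vale.Agent.helper4.Q4TreeM
import Vale.Agent.helper4.Q4G.PB16_8

/-!
Checks for pairs of intervals of second moments.
-/

set_option maxRecDepth 100000
set_option linter.unusedVariables false

namespace Vale.Agent.helper4.Q4

theorem cB16_8_3_127 : chunkOkM (LB16_8.ctx true true 268 103 64 9 16 1495 1085 16 64) muQ true true 64 RtB16_8.Cx.left.right.right RtB16_8.CX RtB16_8.Ctp.right.right.right.left.left RtB16_8.Ce.right.right.left.right.right.left.left RtB16_8.CTp.left.left RtB16_8.CEr.left.left 0x220ee777fd1ac65bf78b5c9ff7338f65f600f27f240d15599a175c25d429c78b51856be98f666af4db7f240d5874f8647fd4ce939375c134d26678b63847e178f640d13166da75c21cc42c78b562278358f630d53 = true := by decide +kernel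

theorem cB16_8_3_128 : chunkOkM (LB16_8.ctx true true 285 207 128 17 32 1495 2195 16 64) muQ true true 64 RtB16_8.Cx.left.right.right RtB16_8.CX RtB16_8.Ctp.right.right.right.left.left RtB16_8.Ce.right.right.left.right.right.left.right RtB16_8.CTp.left.left RtB16_8.CEr.left.left 0x39ab0457fd179421075c1380b4478b3fa1c8058f68e117bc7f250d42242993f75c1a1438278b4e6ed4b18f630d36efead75c94108968b63679c598f6e4549cc7f240d3d86fbb75c7efc3f68b59f7819a8f6904fc657f240d4785650ac647fd30b47c575c21dd7ba78b667a297a8f640d906e5077fd52151c075c205c51978ba93bb67fb9f640d73 = true := by decide +kernel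

theorem cB16_8_3_129 : chunkOkM (LB16_8.ctx true true 270 103 64 9 16 741 545 32 256) muQ true true 64 RtB16_8.Cx.left.right.right RtB16_8.CX RtB16_8.Ctp.right.right.right.left.left RtB16_8.Ce.right.right.left.right.right.left RtB16_8.CTp.left.left RtB16_8.CEr.left.right 0x5a5a3d9033775c64b07968b2d1a22ec8f61d96c4b7f240d65a565a5 = true := by decide +kernel

theorem cB16_8_3_130 : chunkOkM (LB16_8.ctx true true 270 203 128 9 16 1495 1095 8 64) muQ true true 64 RtB16_8.Cx.left.right RtB16_8.CX RtB16_8.Ctp.right.right.right.left.left RtB16_8.Ce.right.right.left.right.right.left RtB16_8.CTp.left.right RtB16_8.CEr.left 0x5aec7117fd807c33175c447deb878f64d832657f240d43ed7427fd66fbd2e75c61aa809a8f630d366bc9a87fd85f20b275c35ed9d748f630d42148db95818ed6dca97675c1d95d8648f6f6463c47f240d477ebdf7fd66741ef75c61a959c28f630d3217476a6 = true := by decide +kernel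

theorem cB16_8_3_131 : chunkOkM (LB16_8.ctx true true 287 415 256 9 16 3003 2215 16 64) muQ true true 64 RtB16_8.Cx.left.right RtB16_8.CX RtB16_8.Ctp.right.right.right.left.left RtB16_8.Ce.right.right.left.right.right.right RtB16_8.CTp.left RtB16_8.CEr.left 0x216b1142c38ed8979ea975c5e7f25e08f682c4dbd7f240d6a6ab528c97fde52ee5175c52564f68b45982a478f68a707dd7f250d64835677fd310c25675c1667e3f987be5c0183a8f640d145dbd375c228073b487b38c1e05f8f6e2e14cc7f240d5217693f673496fd1046cf2687b37ec1cb68f67df49e77f240d1585aaa75c22da0bc787b572f2f368f666cff9a7f240d54652174693217 = true := by decide +kernel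

theorem cB16_8_3_132 : chunkOkM (LB16_8.ctx true true 262 51 32 9 16 741 555 32 128) muQ true true 64 RtB16_8.Cx.left.right RtB16_8.CX RtB16_8.Ctp.right.right.right.left.left RtB16_8.Ce.right.right.left.right.right RtB16_8.CTp.left RtB16_8.CEr.right 0x5a5a33cc0e67fd425d07575c2d4c2aea8f676150937f240d214de777fd384045c75c2a0f09fe8f6447440e7f240d45a565a565a5 = true := by decide +kernel

theorem cB16_8_3_133 : chunkOkM (LB16_8.ctx true true 101 1 1 1 1 1 1 1 1) muQ true true 64 RtB16_8.Cx.left RtB16_8.CX RtB16_8.Ctp.right.right.right.left.left RtB16_8.Ce.right.right.left.right RtB16_8.CTp.right RtB16_8.CEr.left 0x6a = true := by decide +kernel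

theorem cB16_8_3_134 : chunkOkM (LB16_8.ctx true true 259 99 64 9 16 1469 1065 4 64) muQ true true 64 RtB16_8.Cx.left RtB16_8.CX RtB16_8.Ctp.right.right.right.left.left RtB16_8.Ce.right.right.left.right.left RtB16_8.CTp.right RtB16_8.CEr.right 0x28763bd7fd19f6ffd75c1dec72c78f62fbd0397f240d2fc47c958ed1604e2d75c1bd1b5fb8f63e9eadc7f240d61dcd07a68ed137c8fd75c5bbf640e8f630d401211e55642c8ed19348f475c236a5ab68f684153557f240d421725b77cf58ed174a11675cb4614dc7f6b6cbddf7f240d477edb908ed271e8b275c1357625c8f6c88cc6c7f240d6437 = true := by decide +kernel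

theorem cB16_8_3_135 : chunkOkM (LB16_8.ctx true true 260 103 64 9 16 1495 1105 4 64) muQ true true 64 RtB16_8.Cx.left RtB16_8.CX RtB16_8.Ctp.right.right.right.left.left RtB16_8.Ce.right.right.left.right.right RtB16_8.CTp.right RtB16_8.CEr.right 0x211da291d38ed186c12675c389dd19b8f66351a0c7f240d421769324c6852c8ed213e46575c1bd59c148f657dbebc7f240d2e8fc22b8ed1afee9575c272f7c8d8f68fef8b07f240d61e12ac448ed18d025575cc3abbd67f61161c26c8f240d71a59f94e8ed12c501575c5d4888f48f630d217189d037a8edfff08465c36bfdd078f630d1c25d88d8ed16b7c0b75c4995cda38f630d7434217 = true := by decide +kernel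

theorem cB16_8_3_136 : chunkOkM (LB16_8.ctx true true 101 1 1 1 1 1 1 1 1) muQ true true 64 RtB16_8.Cx.left RtB16_8.CX RtB16_8.Ctp.right.right.right.left.right RtB16_8.Ce.right.right.left.right RtB16_8.CTp RtB16_8.CEr 0x01 = true := by decide +kernel

theorem cB16_8_3_137 : chunkOkM (LB16_8.ctx true true 101 1 1 1 1 1 1 1 1) muQ true true 64 RtB16_8.Cx.right RtB16_8.CX RtB16_8.Ctp.right.right.right.left RtB16_8.Ce.right.right.left.right.left RtB16_8.CTp RtB16_8.CEr 0x69 = true := by decide +kernel

theorem cB16_8_3_138 : chunkOkM (LB16_8.ctx true true 264 107 64 9 16 1495 1095 8 64) muQ true true 64 RtB16_8.Cx.right.left RtB16_8.CX RtB16_8.Ctp.right.right.right.left RtB16_8.Ce.right.right.left.right.right.left RtB16_8.CTp.left RtB16_8.CEr.left 0x1163df1d17fd6ca749a75c38e5c4d28f630d6a6b3238787fddca003275c4262b2c18f630d91d04c9f89fb17fd5e2b24875c1c9263178b3ef9baa08f640d61ae8e07fd2993b0c75c1e410e778b57fb76238f640d3763952407fd294403c75c2167c0278b6589e7728f640d4653 = true := by decide +kernel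

end Vale.Agent.helper4.Q4
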