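import Vale.Agent.helper4.Q4TreeM
import Vale.Agent.helper4.Q4G.PB16_8_0_0
import Vale.Agent.helper4.Q4G.PB16_8_0_1
import Vale.Agent.helper4.Q4G.PB16_8_0_2
import Vale.Agent.helper4.Q4G.PB16_8_1
import Vale.Agent.helper4.Q4G.PB16_8_2
import Vale.Agent.helper4.Q4G.PB16_8_3
import Vale.Agent.helper4.Q4G.PB16_8_4
import Vale.Agent.helper4.Q4G.PB16_8_5
import Vale.Agent.helper4.Q4G.PB16_8_6
import Vale.Agent.helper4.Q4G.PB16_8_7
import Vale.Agent.helper4.Q4G.PB16_8_8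
import Vale.Agent.helper4.Q4G.PB16_8_9
import Vale.Agent.helper4.Q4G.PB16_8_10
import Vale.Agent.helper4.Q4G.PB16_8_11
import Vale.Agent.helper4.Q4G.PB16_8_12
import Vale.Agent.helper4.Q4G.PB16_8_13
import Vale.Agent.helper4.Q4G.PB16_8_14
import Vale.Agent.helper4.Q4G.PB16_8_15
import Vale.Agent.helper4.Q4G.PB16_8_16
import Vale.Agent.helper4.Q4G.PB16_8_17
import Vale.Agent.helper4.Q4G.PB16_8_18
import Vale.Agent.helper4.Q4G.PB16_8_19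

/-!
Checks for pairs of intervals of second moments.
-/

set_option maxRecDepth 100000
set_option linter.unusedVariables false

namespace Vale.Agent.helper4.Q4

theorem covB16_8 : LB16_8.Full muQ.val RtB16_8 := ⟨(LitT.Cov.split_t (LitT.cov_of_chunkM cB16_8_3_0) (LitT.Cov.split_e (LitT.cov_of_chunkM cB16_8_3_1) (LitT.Cov.split_e (LitT.Cov.split_t (LitT.Cov.split_e (LitT.cov_of_chunkM cB16_8_3_2) (LitT.Cov.split_t (LitT.cov_of_chunkM cB16_8_3_3) (LitT.Cov.split_e (LitT.Cov.split_t (LitT.Cov.split_x (LitT.Cov.split_e (LitT.cov_of_chunkM cB16_8_3_4) (LitT.cov_of_chunkM cB16_8_3_5)) (LitT.cov_of_chunkM cB16_8_3_6)) (LitT.cov_of_chunkM cB16_8_3_7)) (LitT.Cov.split_t (LitT.cov_of_chunkM cB16_8_3_8) (LitT.Cov.split_e (LitT.Cov.split_t (LitT.cov_of_chunkM cB16_8_3_9) (LitT.cov_of_chunkM cB16_8_3_10)) (LitT.Cov.split_t (LitT.cov_of_chunkM cB16_8_3_11) (LitT.Cov.split_x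 (LitT.cov_of_chunkM cB16_8_3_12) (LitT.cov_of_chunkM cB16_8_3_13)))))))) (LitT.Cov.split_t (LitT.Cov.split_e (LitT.cov_of_chunkM cB16_8_3_14) (LitT.Cov.split_t (LitT.Cov.split_e (LitT.cov_of_chunkM cB16_8_3_15) (LitT.Cov.split_e (LitT.cov_of_chunkM cB16_8_3_16) (LitT.Cov.split_x (LitT.cov_of_chunkM cB16_8_3_17) (LitT.cov_of_chunkM cB16_8_3_18)))) (LitT.cov_of_chunkM cB16_8_3_19))) (LitT.cov_of_chunkM cB16_8_3_20))) (LitT.Cov.split_t (LitT.cov_of_chunkM cB16_8_3_21) (LitT.Cov.split_e (LitT.Cov.split_t (LitT.Cov.split_e (LitT.Cov.split_t (LitT.Cov.split_e (LitT.Cov.split_x (LitT.Cov.split_t (LitT.cov_of_chunkM cB16_8_3_22) (LitT.Cov.split_T (LitT.Cov.split_E (LitT.Cov.split_e (LitT.cov_of_chunkM cB16_8_3_23) (LitT.cov_of_chunkM cB16_8_3_24)) (LitT.cov_of_chunkM cB16_8_3_25)) (LitT.cov_of_chunkM cB16_8_3_26))) (LitT.Cov.split_t (LitT.cov_of_chunkM cB16_8_3_27)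 (LitT.cov_of_chunkM cB16_8_3_28))) (LitT.Cov.split_t (LitT.cov_of_chunkM cB16_8_3_29) (LitT.Cov.split_x (LitT.cov_of_chunkM cB16_8_3_30) (LitT.Cov.split_e (LitT.cov_of_chunkM cB16_8_3_31) (LitT.Cov.split_x (LitT.cov_of_chunkM cB16_8_3_32) (LitT.cov_of_chunkM cB16_8_3_33)))))) (LitT.Cov.split_x (LitT.Cov.split_T (LitT.Cov.split_e (LitT.Cov.split_t (LitT.Cov.split_E (LitT.cov_of_chunkM cB16_8_3_34) (LitT.cov_of_chunkM cB16_8_3_35)) (LitT.cov_of_chunkM cB16_8_3_36)) (LitT.Cov.split_E (LitT.Cov.split_t (LitT.Cov.split_e (LitT.Cov.split_x (LitT.Cov.split_T (LitT.cov_of_chunkM cB16_8_3_37) (LitT.cov_of_chunkM cB16_8_3_38)) (LitT.cov_of_chunkM cB16_8_3_39)) (LitT.Cov.split_x (LitT.Cov.split_t (LitT.cov_of_chunkM cB16_8_3_40) (LitT.cov_of_chunkM cB16_8_3_41)) (LitT.Cov.split_t (LitT.cov_of_chunkM cB16_8_3_42) (LitT.cov_of_chunkM cB16_8_3_43)))) (LitT.Cov.split_x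 (LitT.Cov.split_T (LitT.Cov.split_e (LitT.cov_of_chunkM cB16_8_3_44) (LitT.Cov.split_E (LitT.Cov.split_x (LitT.cov_of_chunkM cB16_8_3_45) (LitT.cov_of_chunkM cB16_8_3_46)) (LitT.cov_of_chunkM cB16_8_3_47))) (LitT.cov_of_chunkM cB16_8_3_48)) (LitT.cov_of_chunkM cB16_8_3_49))) (LitT.cov_of_chunkM cB16_8_3_50))) (LitT.Cov.split_E (LitT.cov_of_chunkM cB16_8_3_51) (LitT.Cov.split_e (LitT.cov_of_chunkM cB16_8_3_52) (LitT.Cov.split_t (LitT.Cov.split_e (LitT.cov_of_chunkM cB16_8_3_53) (LitT.cov_of_chunkM cB16_8_3_54)) (LitT.cov_of_chunkM cB16_8_3_55))))) (LitT.cov_of_chunkM cB16_8_3_56))) (LitT.Cov.split_t (LitT.Cov.split_e (LitT.Cov.split_t (LitT.cov_of_chunkM cB16_8_3_57) (LitT.Cov.split_x (LitT.cov_of_chunkM cB16_8_3_58) (LitT.Cov.split_e (LitT.cov_of_chunkM cB16_8_3_59) (LitT.cov_of_chunkM cB16_8_3_60)))) (LitT.cov_of_chunkM cB16_8_3_61)) (LitT.Cov.split_e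 (LitT.Cov.split_x (LitT.Cov.split_T (LitT.Cov.split_t (LitT.Cov.split_x (LitT.cov_of_chunkM cB16_8_3_62) (LitT.Cov.split_e (LitT.Cov.split_E (LitT.Cov.split_t (LitT.cov_of_chunkM cB16_8_3_63) (LitT.Cov.split_e (LitT.cov_of_chunkM cB16_8_3_64) (LitT.cov_of_chunkM cB16_8_3_65))) (LitT.cov_of_chunkM cB16_8_3_66)) (LitT.cov_of_chunkM cB16_8_3_67))) (LitT.Cov.split_E (LitT.Cov.split_e (LitT.Cov.split_x (LitT.Cov.split_T (LitT.cov_of_chunkM cB16_8_3_68) (LitT.cov_of_chunkM cB16_8_3_69)) (LitT.Cov.split_T (LitT.Cov.split_E (LitT.cov_of_chunkM cB16_8_3_70) (LitT.cov_of_chunkM cB16_8_3_71)) (LitT.cov_of_chunkM cB16_8_3_72))) (LitT.Cov.split_x (LitT.cov_of_chunkM cB16_8_3_73) (LitT.Cov.split_t (LitT.Cov.split_e (LitT.cov_of_chunkM cB16_8_3_74) (LitT.cov_of_chunkM cB16_8_3_75)) (LitT.Cov.split_T (LitT.cov_of_chunkM cB16_8_3_76) (LitT.cov_of_chunkM cB16_8_3_77)))))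 (LitT.cov_of_chunkM cB16_8_3_78))) (LitT.Cov.split_E (LitT.cov_of_chunkM cB16_8_3_79) (LitT.Cov.split_t (LitT.cov_of_chunkM cB16_8_3_80) (LitT.Cov.split_e (LitT.Cov.split_x (LitT.cov_of_chunkM cB16_8_3_81) (LitT.cov_of_chunkM cB16_8_3_82)) (LitT.cov_of_chunkM cB16_8_3_83))))) (LitT.Cov.split_t (LitT.Cov.split_e (LitT.Cov.split_T (LitT.cov_of_chunkM cB16_8_3_84) (LitT.cov_of_chunkM cB16_8_3_85)) (LitT.Cov.split_x (LitT.cov_of_chunkM cB16_8_3_86) (LitT.cov_of_chunkM cB16_8_3_87))) (LitT.Cov.split_T (LitT.Cov.split_E (LitT.Cov.split_e (LitT.cov_of_chunkM cB16_8_3_88) (LitT.Cov.split_x (LitT.Cov.split_t (LitT.Cov.split_e (LitT.cov_of_chunkM cB16_8_3_89) (LitT.cov_of_chunkM cB16_8_3_90)) (LitT.cov_of_chunkM cB16_8_3_91)) (LitT.cov_of_chunkM cB16_8_3_92))) (LitT.cov_of_chunkM cB16_8_3_93)) (LitT.cov_of_chunkM cB16_8_3_94)))) (LitT.Cov.split_x (LitT.cov_of_chunkM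 cB16_8_3_95) (LitT.Cov.split_t (LitT.cov_of_chunkM cB16_8_3_96) (LitT.Cov.split_e (LitT.Cov.split_T (LitT.Cov.split_x (LitT.Cov.split_E (LitT.Cov.split_t (LitT.cov_of_chunkM cB16_8_3_97) (LitT.Cov.split_e (LitT.cov_of_chunkM cB16_8_3_98) (LitT.cov_of_chunkM cB16_8_3_99))) (LitT.cov_of_chunkM cB16_8_3_100)) (LitT.cov_of_chunkM cB16_8_3_101)) (LitT.cov_of_chunkM cB16_8_3_102)) (LitT.Cov.split_x (LitT.Cov.split_t (LitT.cov_of_chunkM cB16_8_3_103) (LitT.Cov.split_T (LitT.Cov.split_E (LitT.Cov.split_e (LitT.cov_of_chunkM cB16_8_3_104) (LitT.cov_of_chunkM cB16_8_3_105)) (LitT.cov_of_chunkM cB16_8_3_106)) (LitT.cov_of_chunkM cB16_8_3_107))) (LitT.Cov.split_T (LitT.Cov.split_t (LitT.cov_of_chunkM cB16_8_3_108) (LitT.Cov.split_E (LitT.Cov.split_e (LitT.cov_of_chunkM cB16_8_3_109) (LitT.cov_of_chunkM cB16_8_3_110)) (LitT.cov_of_chunkM cB16_8_3_111))) (LitT.cov_of_chunkM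 cB16_8_3_112))))))))) (LitT.Cov.split_t (LitT.Cov.split_e (LitT.cov_of_chunkM cB16_8_3_113) (LitT.Cov.split_x (LitT.Cov.split_t (LitT.Cov.split_T (LitT.Cov.split_e (LitT.Cov.split_E (LitT.Cov.split_x (LitT.Cov.split_t (LitT.Cov.split_e (LitT.Cov.split_T (LitT.cov_of_chunkM cB16_8_3_114) (LitT.cov_of_chunkM cB16_8_3_115)) (LitT.cov_of_chunkM cB16_8_3_116)) (LitT.cov_of_chunkM cB16_8_3_117)) (LitT.Cov.split_T (LitT.Cov.split_E (LitT.Cov.split_e (LitT.cov_of_chunkM cB16_8_3_118) (LitT.Cov.split_x (LitT.Cov.split_e (LitT.cov_of_chunkM cB16_8_3_119) (LitT.cov_of_chunkM cB16_8_3_120)) (LitT.cov_of_chunkM cB16_8_3_121))) (LitT.cov_of_chunkM cB16_8_3_122)) (LitT.cov_of_chunkM cB16_8_3_123))) (LitT.cov_of_chunkM cB16_8_3_124)) (LitT.Cov.split_x (LitT.cov_of_chunkM cB16_8_3_125) (LitT.Cov.split_E (LitT.Cov.split_e (LitT.Cov.split_T (LitT.Cov.split_x (LitT.cov_of_chunkM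 cB16_8_3_126) (LitT.Cov.split_E (LitT.Cov.split_e (LitT.cov_of_chunkM cB16_8_3_127) (LitT.cov_of_chunkM cB16_8_3_128)) (LitT.cov_of_chunkM cB16_8_3_129))) (LitT.cov_of_chunkM cB16_8_3_130)) (LitT.cov_of_chunkM cB16_8_3_131)) (LitT.cov_of_chunkM cB16_8_3_132)))) (LitT.Cov.split_E (LitT.cov_of_chunkM cB16_8_3_133) (LitT.Cov.split_e (LitT.cov_of_chunkM cB16_8_3_134) (LitT.cov_of_chunkM cB16_8_3_135)))) (LitT.cov_of_chunkM cB16_8_3_136)) (LitT.Cov.split_e (LitT.cov_of_chunkM cB16_8_3_137) (LitT.Cov.split_T (LitT.Cov.split_E (LitT.Cov.split_x (LitT.Cov.split_e (LitT.cov_of_chunkM cB16_8_3_138) (LitT.Cov.split_t (LitT.Cov.split_t (LitT.Cov.split_e (LitT.cov_of_chunkM cB16_8_3_139) (LitT.Cov.split_x (LitT.cov_of_chunkM cB16_8_3_140) (LitT.cov_of_chunkM cB16_8_3_141))) (LitT.Cov.split_T (LitT.Cov.split_E (LitT.Cov.split_x (LitT.Cov.split_e (LitT.cov_of_chunkM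 cB16_8_3_142) (LitT.cov_of_chunkM cB16_8_3_143)) (LitT.cov_of_chunkM cB16_8_3_144)) (LitT.cov_of_chunkM cB16_8_3_145)) (LitT.cov_of_chunkM cB16_8_3_146))) (LitT.cov_of_chunkM cB16_8_3_147))) (LitT.cov_of_chunkM cB16_8_3_148)) (LitT.cov_of_chunkM cB16_8_3_149)) (LitT.Cov.split_E (LitT.cov_of_chunkM cB16_8_3_150) (LitT.Cov.split_t (LitT.Cov.split_e (LitT.cov_of_chunkM cB16_8_3_151) (LitT.Cov.split_x (LitT.cov_of_chunkM cB16_8_3_152) (LitT.cov_of_chunkM cB16_8_3_153))) (LitT.cov_of_chunkM cB16_8_3_154))))))) (LitT.cov_of_chunkM cB16_8_3_155))) (LitT.Cov.split_e (LitT.Cov.split_x (LitT.cov_of_chunkM cB16_8_3_156) (LitT.Cov.split_t (LitT.cov_of_chunkM cB16_8_3_157) (LitT.Cov.split_t (LitT.Cov.split_e (LitT.Cov.split_T (LitT.Cov.split_x (LitT.Cov.split_E (LitT.Cov.split_t (LitT.Cov.split_e (LitT.Cov.split_t (LitT.cov_of_chunkM cB16_8_3_158) (LitT.Cov.split_x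 (LitT.cov_of_chunkM cB16_8_3_159) (LitT.Cov.split_e (LitT.cov_of_chunkM cB16_8_3_160) (LitT.cov_of_chunkM cB16_8_3_161)))) (LitT.cov_of_chunkM cB16_8_3_162)) (LitT.Cov.split_e (LitT.Cov.split_T (LitT.Cov.split_x (LitT.cov_of_chunkM cB16_8_3_163) (LitT.Cov.split_E (LitT.Cov.split_e (LitT.cov_of_chunkM cB16_8_3_164) (LitT.cov_of_chunkM cB16_8_3_165)) (LitT.cov_of_chunkM cB16_8_3_166))) (LitT.cov_of_chunkM cB16_8_3_167)) (LitT.Cov.split_x (LitT.cov_of_chunkM cB16_8_3_168) (LitT.Cov.split_T (LitT.Cov.split_e (LitT.cov_of_chunkM cB16_8_3_169) (LitT.cov_of_chunkM cB16_8_3_170)) (LitT.cov_of_chunkM cB16_8_3_171))))) (LitT.cov_of_chunkM cB16_8_3_172)) (LitT.Cov.split_t (LitT.Cov.split_e (LitT.Cov.split_E (LitT.Cov.split_t (LitT.Cov.split_e (LitT.cov_of_chunkM cB16_8_3_173) (LitT.Cov.split_x (LitT.cov_of_chunkM cB16_8_3_174) (LitT.cov_of_chunkM cB16_8_3_175)))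 (LitT.Cov.split_T (LitT.cov_of_chunkM cB16_8_3_176) (LitT.cov_of_chunkM cB16_8_3_177))) (LitT.cov_of_chunkM cB16_8_3_178)) (LitT.Cov.split_E (LitT.Cov.split_t (LitT.Cov.split_e (LitT.Cov.split_x (LitT.cov_of_chunkM cB16_8_3_179) (LitT.cov_of_chunkM cB16_8_3_180)) (LitT.cov_of_chunkM cB16_8_3_181)) (LitT.Cov.split_e (LitT.Cov.split_x (LitT.cov_of_chunkM cB16_8_3_182) (LitT.cov_of_chunkM cB16_8_3_183)) (LitT.Cov.split_x (LitT.cov_of_chunkM cB16_8_3_184) (LitT.Cov.split_T (LitT.Cov.split_t (LitT.cov_of_chunkM cB16_8_3_185) (LitT.cov_of_chunkM cB16_8_3_186)) (LitT.cov_of_chunkM cB16_8_3_187))))) (LitT.cov_of_chunkM cB16_8_3_188))) (LitT.Cov.split_E (LitT.Cov.split_e (LitT.cov_of_chunkM cB16_8_3_189) (LitT.Cov.split_T (LitT.Cov.split_x (LitT.Cov.split_E (LitT.Cov.split_e (LitT.cov_of_chunkM cB16_8_3_190) (LitT.Cov.split_t (LitT.cov_of_chunkM cB16_8_3_191)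 (LitT.cov_of_chunkM cB16_8_3_192))) (LitT.cov_of_chunkM cB16_8_3_193)) (LitT.cov_of_chunkM cB16_8_3_194)) (LitT.cov_of_chunkM cB16_8_3_195))) (LitT.cov_of_chunkM cB16_8_3_196)))) (LitT.Cov.split_E (LitT.cov_of_chunkM cB16_8_3_197) (LitT.Cov.split_t (LitT.Cov.split_e (LitT.Cov.split_x (LitT.cov_of_chunkM cB16_8_3_198) (LitT.cov_of_chunkM cB16_8_3_199)) (LitT.cov_of_chunkM cB16_8_3_200)) (LitT.Cov.split_x (LitT.Cov.split_e (LitT.cov_of_chunkM cB16_8_3_201) (LitT.cov_of_chunkM cB16_8_3_202)) (LitT.cov_of_chunkM cB16_8_3_203))))) (LitT.Cov.split_x (LitT.cov_of_chunkM cB16_8_3_204) (LitT.Cov.split_t (LitT.Cov.split_e (LitT.Cov.split_t (LitT.cov_of_chunkM cB16_8_3_205) (LitT.Cov.split_x (LitT.cov_of_chunkM cB16_8_3_206) (LitT.Cov.split_e (LitT.Cov.split_T (LitT.Cov.split_E (LitT.Cov.split_t (LitT.cov_of_chunkM cB16_8_3_207) (LitT.cov_of_chunkM cB16_8_3_208))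 (LitT.cov_of_chunkM cB16_8_3_209)) (LitT.cov_of_chunkM cB16_8_3_210)) (LitT.cov_of_chunkM cB16_8_3_211)))) (LitT.cov_of_chunkM cB16_8_3_212)) (LitT.Cov.split_T (LitT.Cov.split_e (LitT.Cov.split_E (LitT.Cov.split_x (LitT.Cov.split_t (LitT.cov_of_chunkM cB16_8_3_213) (LitT.Cov.split_e (LitT.cov_of_chunkM cB16_8_3_214) (LitT.cov_of_chunkM cB16_8_3_215))) (LitT.Cov.split_t (LitT.Cov.split_e (LitT.cov_of_chunkM cB16_8_3_216) (LitT.cov_of_chunkM cB16_8_3_217)) (LitT.Cov.split_T (LitT.cov_of_chunkM cB16_8_3_218) (LitT.cov_of_chunkM cB16_8_3_219)))) (LitT.cov_of_chunkM cB16_8_3_220)) (LitT.Cov.split_x (LitT.cov_of_chunkM cB16_8_3_221) (LitT.Cov.split_E (LitT.Cov.split_t (LitT.cov_of_chunkM cB16_8_3_222) (LitT.Cov.split_e (LitT.Cov.split_T (LitT.cov_of_chunkM cB16_8_3_223) (LitT.cov_of_chunkM cB16_8_3_224)) (LitT.cov_of_chunkM cB16_8_3_225))) (LitT.cov_of_chunkM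 cB16_8_3_226)))) (LitT.Cov.split_E (LitT.cov_of_chunkM cB16_8_3_227) (LitT.Cov.split_e (LitT.cov_of_chunkM cB16_8_3_228) (LitT.cov_of_chunkM cB16_8_3_229))))))) (LitT.Cov.split_x (LitT.cov_of_chunkM cB16_8_3_230) (LitT.Cov.split_x (LitT.cov_of_chunkM cB16_8_3_231) (LitT.Cov.split_t (LitT.Cov.split_x (LitT.cov_of_chunkM cB16_8_3_232) (LitT.Cov.split_t (LitT.Cov.split_t (LitT.Cov.split_t (LitT.Cov.split_e (LitT.cov_of_chunkM cB16_8_3_233) (LitT.Cov.split_e (LitT.cov_of_chunkM cB16_8_3_234) (LitT.Cov.split_T (LitT.cov_of_chunkM cB16_8_3_235) (LitT.cov_of_chunkM cB16_8_3_236)))) (LitT.cov_of_chunkM cB16_8_3_237)) (LitT.cov_of_chunkM cB16_8_3_238)) (LitT.cov_of_chunkM cB16_8_3_239))) (LitT.cov_of_chunkM cB16_8_3_240))))))) (LitT.cov_of_chunkM cB16_8_3_241))))))), (LitT.Cov.split_t (LitT.cov_of_chunkM cB16_8_1_0) (LitT.Cov.split_T (LitT.Cov.split_T (LitT.Cov.split_T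 (LitT.Cov.split_T (LitT.Cov.split_T (LitT.Cov.split_T (LitT.Cov.split_X (LitT.Cov.split_X (LitT.Cov.split_T (LitT.Cov.split_T (LitT.Cov.split_X (LitT.Cov.split_T (LitT.Cov.split_T (LitT.Cov.split_X (LitT.Cov.split_T (LitT.Cov.split_T (LitT.Cov.split_X (LitT.Cov.split_X (LitT.Cov.split_E (LitT.Cov.split_E (LitT.Cov.split_E (LitT.Cov.split_E (LitT.Cov.split_E (LitT.Cov.split_E (LitT.Cov.split_E (LitT.Cov.split_E (LitT.Cov.split_E (LitT.Cov.split_E (LitT.Cov.split_E (LitT.Cov.split_E (LitT.Cov.split_e (LitT.cov_of_chunkM cB16_8_1_1) (LitT.Cov.split_e (LitT.Cov.split_t (LitT.Cov.split_e (LitT.cov_of_chunkM cB16_8_1_2) (LitT.cov_of_chunkM cB16_8_1_3)) (LitT.cov_of_chunkM cB16_8_1_4)) (LitT.Cov.split_t (LitT.cov_of_chunkM cB16_8_1_5) (LitT.Cov.split_e (LitT.Cov.split_t (LitT.Cov.split_e (LitT.Cov.split_t (LitT.cov_of_chunkM cB16_8_1_6) (LitT.cov_of_chunkM cB16_8_1_7))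 (LitT.Cov.split_t (LitT.cov_of_chunkM cB16_8_1_8) (LitT.Cov.split_e (LitT.cov_of_chunkM cB16_8_1_9) (LitT.cov_of_chunkM cB16_8_1_10)))) (LitT.Cov.split_t (LitT.Cov.split_e (LitT.cov_of_chunkM cB16_8_1_11) (LitT.Cov.split_x (LitT.cov_of_chunkM cB16_8_1_12) (LitT.cov_of_chunkM cB16_8_1_13))) (LitT.cov_of_chunkM cB16_8_1_14))) (LitT.Cov.split_e (LitT.Cov.split_x (LitT.cov_of_chunkM cB16_8_1_15) (LitT.Cov.split_t (LitT.cov_of_chunkM cB16_8_1_16) (LitT.Cov.split_t (LitT.Cov.split_e (LitT.Cov.split_t (LitT.cov_of_chunkM cB16_8_1_17) (LitT.Cov.split_x (LitT.cov_of_chunkM cB16_8_1_18) (LitT.cov_of_chunkM cB16_8_1_19))) (LitT.Cov.split_x (LitT.cov_of_chunkM cB16_8_1_20) (LitT.Cov.split_t (LitT.cov_of_chunkM cB16_8_1_21) (LitT.Cov.split_e (LitT.cov_of_chunkM cB16_8_1_22) (LitT.cov_of_chunkM cB16_8_1_23))))) (LitT.cov_of_chunkM cB16_8_1_24)))) (LitT.cov_of_chunkM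 cB16_8_1_25)))))) (LitT.cov_of_chunkM cB16_8_1_26)) (LitT.cov_of_chunkM cB16_8_1_27)) (LitT.cov_of_chunkM cB16_8_1_28)) (LitT.cov_of_chunkM cB16_8_1_29)) (LitT.cov_of_chunkM cB16_8_1_30)) (LitT.cov_of_chunkM cB16_8_1_31)) (LitT.cov_of_chunkM cB16_8_1_32)) (LitT.cov_of_chunkM cB16_8_1_33)) (LitT.cov_of_chunkM cB16_8_1_34)) (LitT.cov_of_chunkM cB16_8_1_35)) (LitT.cov_of_chunkM cB16_8_1_36)) (LitT.cov_of_chunkM cB16_8_1_37)) (LitT.cov_of_chunkM cB16_8_1_38)) (LitT.cov_of_chunkM cB16_8_1_39)) (LitT.cov_of_chunkM cB16_8_1_40)) (LitT.cov_of_chunkM cB16_8_1_41)) (LitT.cov_of_chunkM cB16_8_1_42)) (LitT.cov_of_chunkM cB16_8_1_43)) (LitT.cov_of_chunkM cB16_8_1_44)) (LitT.cov_of_chunkM cB16_8_1_45)) (LitT.cov_of_chunkM cB16_8_1_46)) (LitT.cov_of_chunkM cB16_8_1_47)) (LitT.cov_of_chunkM cB16_8_1_48)) (LitT.cov_of_chunkM cB16_8_1_49)) (LitT.cov_of_chunkM cB16_8_1_50))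 (LitT.cov_of_chunkM cB16_8_1_51)) (LitT.cov_of_chunkM cB16_8_1_52)) (LitT.cov_of_chunkM cB16_8_1_53)) (LitT.cov_of_chunkM cB16_8_1_54)) (LitT.cov_of_chunkM cB16_8_1_55))), (LitT.cov_of_chunkM cB16_8_2_0), (LitT.cov_of_chunkM cB16_8_0_0)⟩

end Vale.Agent.helper4.Q4
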