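import Vale.Agent.helper4.Q4TreeM
import Vale.Agent.helper4.Q4G.PB16_9

/-!
Checks for pairs of intervals of second moments.
-/

set_option maxRecDepth 100000
set_option linter.unusedVariables false

namespace Vale.Agent.helper4.Q4

theorem cB16_9_3_0 : chunkOkM (LB16_9.ctx true true 99 1 1 1 1 1 1 1 1) muQ true true 64 RtB16_9.Cx RtB16_9.CX RtB16_9.Ctp.left RtB16_9.Ce RtB16_9.CTp RtB16_9.CEr 0x41 = true := by decide +kernel

theorem cB16_9_3_1 : chunkOkM (LB16_9.ctx true true 204 13 8 11 16 39 8 32 32) muQ true true 64 RtB16_9.Cx RtB16_9.CX RtB16_9.Ctp.right RtB16_9.Ce.left RtB16_9.CTp RtB16_9.CEr 0x1fc47ff7fd6d87de69bd4707095a9f4162d235539f140d = true := by decide +kernel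

theorem cB16_9_3_2 : chunkOkM (LB16_9.ctx true true 271 193 128 11 16 1027 195 128 64) muQ true true 64 RtB16_9.Cx RtB16_9.CX RtB16_9.Ctp.right.left RtB16_9.Ce.right.left.left RtB16_9.CTp RtB16_9.CEr 0x116914627017fd21788c6f8335bbeb7f61322f83a8f540d2a4d5807f06c622b59807fd1d130fa75c2244aff78b3e09e3f7f6147e9f1e8f53594a2f7f460d42556941143341414149186e6a4a8ed1187b767f83f9f1de7f617839ed38f564b1e237f450d2259d327fd1a5696075c1ed774878ba12c9097f621b5e46c8f560c56117f460d425577776946944934934933 = true := by decide +kernel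

theorem cB16_9_3_3 : chunkOkM (LB16_9.ctx true true 220 13 8 11 16 128 55 32 32) muQ true true 64 RtB16_9.Cx RtB16_9.CX RtB16_9.Ctp.right.left.left RtB16_9.Ce.right.left.right RtB16_9.CTp RtB16_9.CEr 0xaf9add87fd1cb48e87f9c0306b47f8457cb49149f56a83b5cbb9f450d = true := by decide +kernel

theorem cB16_9_3_4 : chunkOkM (LB16_9.ctx true true 256 25 16 21 32 559 215 256 32) muQ true true 64 RtB16_9.Cx.left RtB16_9.CX RtB16_9.Ctp.right.left.right.left RtB16_9.Ce.right.left.right.left RtB16_9.CTp.left RtB16_9.CEr 0x4a175583ad8ede84a7368b4aab056f84419aa17f61a2549308f550dc14f056fd4e379c65cdbad67968f510f5256629f440d31700b297fdd297055ce5f40ed7f61e3aaa158f540d16bb1a57fdc1e22168b5839c16f811e2d97a8f59b9d6177f450d3484a5425 = true := by decide +kernel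

theorem cB16_9_3_5 : chunkOkM (LB16_9.ctx true true 246 25 16 11 16 559 215 64 64) muQ true true 64 RtB16_9.Cx.left RtB16_9.CX RtB16_9.Ctp.right.left.right.left RtB16_9.Ce.right.left.right.left RtB16_9.CTp.right RtB16_9.CEr 0x1ab34e808ed33eb9d6f94b6d0b6f868fde857f61c726d338f51cb6e1e7f460d14767027fd28b83c6f8c54a6f238f5feb0169f8f440d3142b18d7fd1881a965c11147fe58f620d883a38f540d17f4b3388ed35394f85310f26f71092f61b8f5a680c617f450d342de5efdf8ed86432b37f620c832cb8f530d6 = true := by decide +kernel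

theorem cB16_9_3_6 : chunkOkM (LB16_9.ctx true true 99 1 1 1 1 1 1 1 1) muQ true true 64 RtB16_9.Cx.right RtB16_9.CX RtB16_9.Ctp.right.left.right.left RtB16_9.Ce.right.left.right.left RtB16_9.CTp RtB16_9.CEr 0x49 = true := by decide +kernel

theorem cB16_9_3_7 : chunkOkM (LB16_9.ctx true true 249 13 8 21 32 299 215 256 64) muQ true true 64 RtB16_9.Cx RtB16_9.CX RtB16_9.Ctp.right.left.right.right RtB16_9.Ce.right.left.right.left RtB16_9.CTp RtB16_9.CEr 0x15fbdcc7fd80c80a65c8d37386f934d414f7f6c5e89037f550d5d46149e8ed83d75d97f6146204788f530d64a15acf067fd1082a965c18dd19978b4b7a7f97f6e5d7bbf7f550d84a54255694 = true := by decide +kernel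

theorem cB16_9_3_8 : chunkOkM (LB16_9.ctx true true 229 13 8 11 16 273 115 32 32) muQ true true 64 RtB16_9.Cx RtB16_9.CX RtB16_9.Ctp.right.left.right.left RtB16_9.Ce.right.left.right.right RtB16_9.CTp RtB16_9.CEr 0xf41f63775c1b58b0b0e9f696ca693819f5ba03e48c89f440d = true := by decide +kernel

theorem cB16_9_3_9 : chunkOkM (LB16_9.ctx true true 260 27 16 21 32 611 235 256 64) muQ true true 64 RtB16_9.Cx RtB16_9.CX RtB16_9.Ctp.right.left.right.right RtB16_9.Ce.right.left.right.right RtB16_9.CTp.left RtB16_9.CEr 0x4a128c5a87fdcbab8a68b6132206f83c92db27f613dc14138f55ef803d7f460d1613fe67fda7cf9865ccfe7fc68b1bdab027f6125309a98f550d71640fee7fd25196827f61b1528348f5acc3a4d7f440d32bdcbe77fd30690ba75ce1fc0ef7f530d2a856687fda5075d65c16545a278be8c0a207f540d6484a5425 = true := by decide +kernel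

theorem cB16_9_3_10 : chunkOkM (LB16_9.ctx true true 247 27 16 11 16 611 225 64 64) muQ true true 64 RtB16_9.Cx RtB16_9.CX RtB16_9.Ctp.right.left.right.right RtB16_9.Ce.right.left.right.right.left RtB16_9.CTp.right RtB16_9.CEr 0x15fcf647fdb3c57665c9038276f93610dfc7f6c87c3837f550dfbad026fd2f62b96f94a6b546f796bc6237f61bacca5a8f58613e687f460d15c34a438ed1022dee7f91096056f78a19d9a7f61b14daa98f550d7348be06278ed10c822c7f6f379cef7f530d6 = true := by decide +kernel

theorem cB16_9_3_11 : chunkOkM (LB16_9.ctx true true 247 27 16 11 16 611 235 64 64) muQ true true 64 RtB16_9.Cx RtB16_9.CX RtB16_9.Ctp.right.left.right.right RtB16_9.Ce.right.left.right.right.right RtB16_9.CTp.right RtB16_9.CEr 0x14d135a7fd31aff66f955ffd46f78cec57b7f617e87f648f54edce4e7f460d193ec5bb8ed31059f375c9d29ab6f9122716b7f85fdc7177f6140a2f9f8f560d7588b98238ed99aa756f611c38e578f530d6126bb907fd8db1c46f93523ea6f829cd366f750a30777f61dc2be198f5b6b2bb17f470d23e5bcf68eda5f3e565c1717bd958f5a21a5dc7f440d63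 = true := by decide +kernel

theorem cB16_9_3_12 : chunkOkM (LB16_9.ctx true true 264 53 32 11 16 1235 485 128 64) muQ true true 64 RtB16_9.Cx RtB16_9.CX RtB16_9.Ctp.right.left RtB16_9.Ce.right.right RtB16_9.CTp RtB16_9.CEr 0x59595949591055c5ef8ed5c90d167e71390eb928f628144b4e8f540d49da07d38ed4f3fa3a75c237e28948f63926f7e68f540d61c766d5d8ed1cc0fab75c11a0b8978b6083f5b7f619715b018f550d425559345937597445934593 = true := by decide +kernel

theorem cB16_9_3_13 : chunkOkM (LB16_9.ctx true true 99 1 1 1 1 1 1 1 1) muQ true true 64 RtB16_9.Cx RtB16_9.CX RtB16_9.Ctp.right.right.left RtB16_9.Ce.right.left.left RtB16_9.CTp RtB16_9.CEr 0x11 = true := by decide +kernel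

theorem cB16_9_3_14 : chunkOkM (LB16_9.ctx true true 99 1 1 1 1 1 1 1 1) muQ true true 64 RtB16_9.Cx RtB16_9.CX RtB16_9.Ctp.right.right.left.left RtB16_9.Ce.right.left.right.left RtB16_9.CTp RtB16_9.CEr 0x11 = true := by decide +kernel

theorem cB16_9_3_15 : chunkOkM (LB16_9.ctx true true 247 13 8 21 32 325 115 256 64) muQ true true 64 RtB16_9.Cx RtB16_9.CX RtB16_9.Ctp.right.right.left.left RtB16_9.Ce.right.left.right.right RtB16_9.CTp.left RtB16_9.CEr 0x4a2d93a4e7fd5a412d675c7bda3b1a8e6a967a247f540d2cdd7167fd1a1e3a075c9f354068b69f10fcd8e6a3c54c57f550d684a5425 = true := by decide +kernel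

theorem cB16_9_3_16 : chunkOkM (LB16_9.ctx true true 234 13 8 11 16 325 115 64 64) muQ true true 64 RtB16_9.Cx RtB16_9.CX RtB16_9.Ctp.right.right.left.left RtB16_9.Ce.right.left.right.right RtB16_9.CTp.right RtB16_9.CEr.left 0x3454a7e98ed52285ca68e6abb66637f530d = true := by decide +kernel

theorem cB16_9_3_17 : chunkOkM (LB16_9.ctx true true 253 27 16 11 16 663 475 64 128) muQ true true 64 RtB16_9.Cx RtB16_9.CX RtB16_9.Ctp.right.right.left.left RtB16_9.Ce.right.left.right.right RtB16_9.CTp.right RtB16_9.CEr.right 0xaf16be6f06c203b43498ed1d1ab0875c105a676f7461d5807f540d11c305eb8ed105dfc575c2a912f6f645d964d7f540d63e9f03268ed138476775c9293336f6b1b708d7f540d167ecfdc8ed13daf2e75cb8d1036f6b2b439a7f540d61ca426358ed1de51be75caea59267f6be78cb37f540d176313008ed149b08875c335ce7e7f6a31d49d7f540d64371621e047fd1279afd75c8b9b706f92506cf97f540d4 = true := by decide +kernel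

theorem cB16_9_3_18 : chunkOkM (LB16_9.ctx true true 99 1 1 1 1 1 1 1 1) muQ true true 64 RtB16_9.Cx RtB16_9.CX RtB16_9.Ctp.right.right.left.right RtB16_9.Ce.right.left.right RtB16_9.CTp RtB16_9.CEr 0x69 = true := by decide +kernel

theorem cB16_9_3_19 : chunkOkM (LB16_9.ctx true true 99 1 1 1 1 1 1 1 1) muQ true true 64 RtB16_9.Cx RtB16_9.CX RtB16_9.Ctp.right.right.right RtB16_9.Ce.right.left RtB16_9.CTp RtB16_9.CEr 0x11 = true := by decide +kernel

theorem cB16_9_3_20 : chunkOkM (LB16_9.ctx true true 99 1 1 1 1 1 1 1 1) muQ true true 64 RtB16_9.Cx RtB16_9.CX RtB16_9.Ctp.right.right.left RtB16_9.Ce.right.right.left.left RtB16_9.CTp.left.left RtB16_9.CEr 0x42 = true := by decide +kernel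

theorem cB16_9_3_21 : chunkOkM (LB16_9.ctx true true 99 1 1 1 1 1 1 1 1) muQ true true 64 RtB16_9.Cx RtB16_9.CX RtB16_9.Ctp.right.right.left RtB16_9.Ce.right.right.left.left RtB16_9.CTp.left.right.left RtB16_9.CEr 0x4a = true := by decide +kernel

theorem cB16_9_3_22 : chunkOkM (LB16_9.ctx true true 280 27 16 21 32 663 245 1024 1024) muQ true true 64 RtB16_9.Cx RtB16_9.CX.left RtB16_9.Ctp.right.right.left.left RtB16_9.Ce.right.right.left.left.left RtB16_9.CTp.left.right.right RtB16_9.CEr 0x525a5a5ab4543eb7f05b40258a07fd5694da66ca6647ae7f6d171deb7f540d765a565a566199934e7fd7990d137f610d49a068f530d4d5d2dd7fd6a626c675c275f1668b45e1abc7f685dd6b87f550dd995dfe7f05b376a61266 = true := by decide +kernel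

theorem cB16_9_3_23 : chunkOkM (LB16_9.ctx true true 261 27 16 21 32 663 255 256 64) muQ true true 64 RtB16_9.Cx RtB16_9.CX.left RtB16_9.Ctp.right.right.left.left RtB16_9.Ce.right.right.left.left.right RtB16_9.CTp.left.right.right RtB16_9.CEr 0x2f4f5f5c8ed3466a1075c701365a7f6110c71888f540d1d133f77fd7a281c47f61197b2ef8f530d646441737fd5ddb9f675c108c2dc78beb5a426f6ca09ad27f550d2cbc7b47fd254f04975c3949a268bd457fb6f6e53baf87f550d6711ebc127fd2033af6f8750f3547f61ab65b308f540d3 = true := by decide +kernel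

theorem cB16_9_3_24 : chunkOkM (LB16_9.ctx true true 99 1 1 1 1 1 1 1 1) muQ true true 64 RtB16_9.Cx RtB16_9.CX.left RtB16_9.Ctp.right.right.left.right RtB16_9.Ce.right.right.left.left RtB16_9.CTp.left.right.right RtB16_9.CEr.left.left 0x12 = true := by decide +kernel

theorem cB16_9_3_25 : chunkOkM (LB16_9.ctx true true 99 1 1 1 1 1 1 1 1) muQ true true 64 RtB16_9.Cx RtB16_9.CX.left RtB16_9.Ctp.right.right.left.right RtB16_9.Ce.right.right.left.left RtB16_9.CTp.left.right.right RtB16_9.CEr.left.right.left 0x6a = true := by decide +kernel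

theorem cB16_9_3_26 : chunkOkM (LB16_9.ctx true true 257 13 8 21 32 351 245 256 256) muQ true true 64 RtB16_9.Cx RtB16_9.CX.left RtB16_9.Ctp.right.right.left.right RtB16_9.Ce.right.right.left.left.left RtB16_9.CTp.left.right.right RtB16_9.CEr.left.right.right 0x42b4ef37fd52b53b175c13c60768b9055d14c8e62ed66047f550d = true := by decide +kernel

end Vale.Agent.helper4.Q4
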