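import Vale.Agent.helper4.Q4TreeM
import Vale.Agent.helper4.Q4G.PB16_9

/-!
Checks for pairs of intervals of second moments.
-/

set_option maxRecDepth 100000
set_option linter.unusedVariables false

namespace Vale.Agent.helper4.Q4

theorem cB16_9_3_27 : chunkOkM (LB16_9.ctx true true 282 99 64 21 32 715 515 256 256) muQ true true 64 RtB16_9.Cx.left RtB16_9.CX.left RtB16_9.Ctp.right.right.left.right RtB16_9.Ce.right.right.left.left.right RtB16_9.CTp.left.right.right RtB16_9.CEr.left.right.right 0x965c0457f06b522d3397fd54643f275cc8994b68b10d257be8f640d41ea3a87fd56b494d75c853e7668b1162dab98f61fc3db57f250d7748ffe707fd6847beb75ce820c7b7f630d45735bd47fd6c55d7275c49d54207f680075447f540d6db27d97fd87df32d75c1cda7c898f6206116a7f540d75069bc07f05b4ecfdc07fd6c912ce75cfdd49b07f634874ce7f540d743 = true := by decide +kernel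

theorem cB16_9_3_28 : chunkOkM (LB16_9.ctx true true 263 27 16 21 32 351 255 256 256) muQ true true 64 RtB16_9.Cx.right RtB16_9.CX.left RtB16_9.Ctp.right.right.left.right RtB16_9.Ce.right.right.left.left.right RtB16_9.CTp.left.right.right RtB16_9.CEr.left.right.right 0x37d31f27f05b = true := by decide +kernel

theorem cB16_9_3_29 : chunkOkM (LB16_9.ctx true true 284 27 16 21 32 715 515 1024 1024) muQ true true 64 RtB16_9.Cx RtB16_9.CX.left RtB16_9.Ctp.right.right.left.right RtB16_9.Ce.right.right.left.left RtB16_9.CTp.left.right.right RtB16_9.CEr.right 0x525a5a5a17674d17f05b1032cf258fd12422dee85c12e216cb8f630d73705307f06b4178b4ab75cc59d0107f65f53c567f530df179e5fd17ede8c75c642d31e7f652dfb797f540d437aec839a7f06b465a565a566 = true := by decide +kernel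

theorem cB16_9_3_30 : chunkOkM (LB16_9.ctx true true 99 1 1 1 1 1 1 1 1) muQ true true 64 RtB16_9.Cx RtB16_9.CX.right RtB16_9.Ctp.right.right.left RtB16_9.Ce.right.right.left.left RtB16_9.CTp.left.right.right RtB16_9.CEr 0x4a = true := by decide +kernel

theorem cB16_9_3_31 : chunkOkM (LB16_9.ctx true true 293 13 8 41 64 663 245 4096 4096) muQ true true 64 RtB16_9.Cx RtB16_9.CX RtB16_9.Ctp.right.right.left.left RtB16_9.Ce.right.right.left.left.left RtB16_9.CTp.right RtB16_9.CEr.left 0x1212126a6a6a4a6a94773867f05bcfa5feb7f05b3886a66a6556a65126512655126 = true := by decide +kernel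

theorem cB16_9_3_32 : chunkOkM (LB16_9.ctx true true 254 25 16 11 16 1287 495 64 64) muQ true true 64 RtB16_9.Cx.left RtB16_9.CX RtB16_9.Ctp.right.right.left.left.left RtB16_9.Ce.right.right.left.left.left RtB16_9.CTp.right RtB16_9.CEr.right 0x13e6b7df8ed11e359875c5141d307f611fd8adb8f540d1ad8dc868ed593e3b175c6f41bb6f91e62343d8e883181d6f6c39957b7f560d1301ec278ed14b63f875cca5d73f7f6151f7ded8f540d34 = true := by decide +kernel

theorem cB16_9_3_33 : chunkOkM (LB16_9.ctx true true 257 25 16 11 16 663 485 128 128) muQ true true 64 RtB16_9.Cx.left RtB16_9.CX RtB16_9.Ctp.right.right.left.left.right RtB16_9.Ce.right.right.left.left.left.left RtB16_9.CTp.right RtB16_9.CEr.right 0xb0aa056fd67f05387f678455317f530d5847583f8ed4a6ce0a75c8e912ca7f675a1d797f540d5eca9f257ed58207b17f68370efa7f530d2c7a68f7fd318352675c63126c37f67ad77c57f540d56 = true := by decide +kernel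

theorem cB16_9_3_34 : chunkOkM (LB16_9.ctx true true 263 51 32 11 16 663 495 128 128) muQ true true 64 RtB16_9.Cx.left RtB16_9.CX RtB16_9.Ctp.right.right.left.left.right RtB16_9.Ce.right.right.left.left.left.right RtB16_9.CTp.right RtB16_9.CEr.right 0x1f02799c8ed17108bd75c47db3b47f69c398c87f540d172749db8ed531cb965cd7ee85b7f6a04217f7f540d5c4545d08ed44d476675c7e6c9c17f66b37f6a7f540d5719075ec78ed136137875c4152f827f6b1340457f540d310cf7038ed3ae0ac87f69d9056a7f530d26db2d868ed2c1024d75c44506837f69183bae7f540d576 = true := by decide +kernel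

theorem cB16_9_3_35 : chunkOkM (LB16_9.ctx true true 251 27 16 11 16 663 495 64 64) muQ true true 64 RtB16_9.Cx.right RtB16_9.CX RtB16_9.Ctp.right.right.left.left RtB16_9.Ce.right.right.left.left.left RtB16_9.CTp.right RtB16_9.CEr.right 0x112aaae78edb3434b65cfc7a2fc7f6114d7ec28f540d1267745b8edb36dde6f91eca326f84626a967f61385088f8f550defe0e227ed6b7c5665c9e0530d7f613d408018f540d43 = true := by decide +kernel

theorem cB16_9_3_36 : chunkOkM (LB16_9.ctx true true 237 13 8 11 16 325 255 64 64) muQ true true 64 RtB16_9.Cx RtB16_9.CX RtB16_9.Ctp.right.right.left.left RtB16_9.Ce.right.right.left.left.right RtB16_9.CTp.right RtB16_9.CEr.left 0x4ee9b0b88ed2ec51277f613bc9a368f530d = true := by decide +kernel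

theorem cB16_9_3_37 : chunkOkM (LB16_9.ctx true true 241 13 8 11 16 637 255 64 64) muQ true true 64 RtB16_9.Cx RtB16_9.CX RtB16_9.Ctp.right.right.left.left.left RtB16_9.Ce.right.right.left.left.right RtB16_9.CTp.right RtB16_9.CEr.right 0x134a1307fd3b37f36f95eba476f86b240167f61a12f35e8f550d = true := by decide +kernel

theorem cB16_9_3_38 : chunkOkM (LB16_9.ctx true true 276 99 64 11 16 2691 1005 64 128) muQ true true 64 RtB16_9.Cx.left RtB16_9.CX RtB16_9.Ctp.right.right.left.left.right RtB16_9.Ce.right.right.left.left.right RtB16_9.CTp.right RtB16_9.CEr.right 0x135be3268ed14b278675c75d11317f6100dab548f540d1b6003228ed1a62ccb75cf8ad286f6aec65f57f540d26b0aa7b8ed1970c2375c4b13e557f6d7ae4917f540d6140927ac8ed14f762475c42daaa07f6fa21df17f540d3591eb70b708ed1d1c35775cc4661987f530d12a255fd8ed115f00e584cac1d8a27f530d6593597459374 = true := by decide +kernel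

theorem cB16_9_3_39 : chunkOkM (LB16_9.ctx true true 257 55 32 11 16 663 515 64 64) muQ true true 64 RtB16_9.Cx.right RtB16_9.CX RtB16_9.Ctp.right.right.left.left.right RtB16_9.Ce.right.right.left.left.right RtB16_9.CTp.right RtB16_9.CEr.right 0xf392ee67ed8bb64e6f91772376f762c75d77f61128c4bc8f550d15c5ca5c8ed38f2faa75c20604f6f91526fee18e890a3e0d7f61266a8c98f560d71237aa938ed6f6fa965c7224a76f93511df37f6c8b8fe47f550d4 = true := by decide +kernel

theorem cB16_9_3_40 : chunkOkM (LB16_9.ctx true true 303 27 16 41 64 715 515 4096 4096) muQ true true 64 RtB16_9.Cx RtB16_9.CX RtB16_9.Ctp.right.right.left.right RtB16_9.Ce.right.right.left.left RtB16_9.CTp.right RtB16_9.CEr.left 0x1212126a6a6a4a6a1985a7e7f05bec46c607f06b297f7907f06b4b9e6ed97f666f300f7f520d834eb56c58079a87f65af884d7f530d43790df48d7f06b488556a66a66a65126512655126 = true := by decide +kernel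

theorem cB16_9_3_41 : chunkOkM (LB16_9.ctx true true 264 51 32 11 16 689 495 128 128) muQ true true 64 RtB16_9.Cx.left RtB16_9.CX RtB16_9.Ctp.right.right.left.right RtB16_9.Ce.right.right.left.left.left RtB16_9.CTp.right RtB16_9.CEr.right 0x6913e12ab7fdf36c0ba7f63199be67f530d45a654908ed495b6d875cac5113c7f6464eef17f540d51f5adbcf8ed3e50bb65c6dd264c7f64f1b9ed7f540d02727e0c58ed2e1632f75c115679298f62a19ae87f540d726147c97fd2bcefe375c20d4563 = true := by decide +kernel

end Vale.Agent.helper4.Q4
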