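import Vale.Agent.helper4.Q4TreeM
import Vale.Agent.helper4.Q4G.PB16_9

/-!
Checks for pairs of intervals of second moments.
-/

set_option maxRecDepth 100000
set_option linter.unusedVariables false

namespace Vale.Agent.helper4.Q4

theorem cB16_9_3_42 : chunkOkM (LB16_9.ctx true true 271 51 32 11 16 1391 1015 128 128) muQ true true 64 RtB16_9.Cx.left RtB16_9.CX RtB16_9.Ctp.right.right.left.right.left RtB16_9.Ce.right.right.left.left.right.left RtB16_9.CTp.right RtB16_9.CEr.right.left 0x247642408ed9c3adaa7f65b7fb5c7f530d203571c7fd2a76eed75c944ffbe7f677c148e7f540d246c8edb8ed29eba7175c1c1d1ade8f630d291f4a0c8ed31aed3975c19a0bba78f630d42682e10e8ed2dfa5a975ca64ccd67f65b77f637f540d375 = true := by decide +kernel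

theorem cB16_9_3_43 : chunkOkM (LB16_9.ctx true true 271 51 32 11 16 1391 1035 128 128) muQ true true 64 RtB16_9.Cx.left RtB16_9.CX RtB16_9.Ctp.right.right.left.right.left RtB16_9.Ce.right.right.left.left.right.right RtB16_9.CTp.right RtB16_9.CEr.right.left 0x172ed47a8ed6e481607f67b7fde17f530d20a7d7ba8ed288f2d275c59b900d7f6837fcba7f540d511e741d88ed1ae941f7e8fb3edba7f64c5146f7f540d1f7ffd668ed267ab2575c20a3e5718f630d254210688ed2b3a2f775c1c15d83e8f6150fd6e7f540d41a238487fd247c0f675ccb9bf9e7f530d357 = true := by decide +kernel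

theorem cB16_9_3_44 : chunkOkM (LB16_9.ctx true true 261 25 16 11 16 715 505 128 256) muQ true true 64 RtB16_9.Cx.left RtB16_9.CX RtB16_9.Ctp.right.right.left.right.right RtB16_9.Ce.right.right.left.left.right.left RtB16_9.CTp.right.left RtB16_9.CEr.right.left 0x1f7e1617fd390bab975cc59d7df7f630d21489c07fd2849f8175cd4bf33f7f630d6 = true := by decide +kernel

theorem cB16_9_3_45 : chunkOkM (LB16_9.ctx true true 285 99 64 11 16 1443 1035 256 256) muQ true true 64 RtB16_9.Cx.left RtB16_9.CX RtB16_9.Ctp.right.right.left.right.right RtB16_9.Ce.right.right.left.left.right.right RtB16_9.CTp.right.left RtB16_9.CEr.right.left 0x1bd19e938ed27574f875c1a64f1538f630d2b3454c7fd3a7a56775c1d0576f38f630d2feb7e9c8ed39b78ac75c145d4b338f630d6168437918ed22d3afd784c24a4eb5e8f630d426cade28ed65199fb75c1cf848cd8f6275dc8f7f240d5215b33308ed328b82e75c17586c0539f630d31437b9008edc05a64074caff214c7f619aca017f240d3fdbdeee8ed5f9fc3375c12e9414d8f61ba9cb57f240d5477 = true := by decide +kernel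

theorem cB16_9_3_46 : chunkOkM (LB16_9.ctx true true 255 25 16 11 16 715 255 128 128) muQ true true 64 RtB16_9.Cx.left RtB16_9.CX RtB16_9.Ctp.right.right.left.right.right RtB16_9.Ce.right.right.left.left.right RtB16_9.CTp.right.right RtB16_9.CEr.right.left 0xfa423627edca16c66e8b471c3f7f6e6554f6f540d = true := by decide +kernel

theorem cB16_9_3_47 : chunkOkM (LB16_9.ctx true true 269 25 16 11 16 715 255 512 512) muQ true true 64 RtB16_9.Cx.left RtB16_9.CX RtB16_9.Ctp.right.right.left.right RtB16_9.Ce.right.right.left.left.right RtB16_9.CTp.right.left RtB16_9.CEr.right.right 0x5a5a10d848875cb023f6a7f620d472a33c7fd297a3de75c5e378567f65e797077f540d365a565a5 = true := by decide +kernel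

theorem cB16_9_3_48 : chunkOkM (LB16_9.ctx true true 264 51 32 11 16 715 515 128 128) muQ true true 64 RtB16_9.Cx.left RtB16_9.CX RtB16_9.Ctp.right.right.left.right RtB16_9.Ce.right.right.left.left.right RtB16_9.CTp.right.right RtB16_9.CEr.right.right 0xc776f16f06c120f5d198ed8d2a4865c1027cd5a8f68c13336f240d714d06557fd93fb6465c17e085a28f630d4100bc3908ed1f24396e87c45d747f67b620047f540d110591928ed33ff0e65c150c3c6f9f7b7d397f64191fdd7f550d7136a4c788edbc162507f6818f9487f530d129eddea8ed52d68e65ce54f8e97f63b569727f540d743 = true := by decide +kernel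

theorem cB16_9_3_49 : chunkOkM (LB16_9.ctx true true 254 27 16 11 16 689 515 64 128) muQ true true 64 RtB16_9.Cx.right RtB16_9.CX RtB16_9.Ctp.right.right.left.right RtB16_9.Ce.right.right.left.left RtB16_9.CTp.right RtB16_9.CEr.right 0x6916535887fd164c3be75c63bbf8a7f6aa8d4fe7f540dc5e37477ed28429165ca78a9fb7f694f5a4c7f540d66943694 = true := by decide +kernel

theorem cB16_9_3_50 : chunkOkM (LB16_9.ctx true true 261 27 16 21 32 663 265 256 64) muQ true true 64 RtB16_9.Cx RtB16_9.CX RtB16_9.Ctp.right.right.left.left RtB16_9.Ce.right.right.left.right RtB16_9.CTp RtB16_9.CEr 0x591505f9978ed34844d6f86c6b39a7f6163006218f540d350209dc8ed672130f7f616240ffc8f530d64a10d4cf87fde6152368ba4ec85f85496e417f616057a418f550d84a542555975934 = true := by decide +kernel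

theorem cB16_9_3_51 : chunkOkM (LB16_9.ctx true true 99 1 1 1 1 1 1 1 1) muQ true true 64 RtB16_9.Cx RtB16_9.CX RtB16_9.Ctp.right.right.left.right RtB16_9.Ce.right.right.left.right RtB16_9.CTp.left.left RtB16_9.CEr 0x42 = true := by decide +kernel

theorem cB16_9_3_52 : chunkOkM (LB16_9.ctx true true 99 1 1 1 1 1 1 1 1) muQ true true 64 RtB16_9.Cx RtB16_9.CX RtB16_9.Ctp.right.right.left.right RtB16_9.Ce.right.right.left.right RtB16_9.CTp.left.right.left RtB16_9.CEr 0x4a = true := by decide +kernel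

theorem cB16_9_3_53 : chunkOkM (LB16_9.ctx true true 286 99 64 21 32 1443 535 256 256) muQ true true 64 RtB16_9.Cx RtB16_9.CX.left RtB16_9.Ctp.right.right.left.right RtB16_9.Ce.right.right.left.right.left RtB16_9.CTp.left.right.right RtB16_9.CEr.left 0x2e744827fd3a605cd75c65471268bd4eebd37f66400e897f550dc7511a77f05b33888b227fd463b71675c4555eb68b1e4467758f640d64b4e407fd79f2e6775c1284f89a8f640dd6517f540d369745647b17fd57515ef75c1618301c8f6113fda27f540d379bb747fd4d5244575c5d9f4768b18ca95f38f640d3ba55927fd54ba2b975c5e8b1c68b1ce525238f641b96227f250d7743ee1b787fd53ee80275c1b9c8847f6bdd490a7f540d376a6126 = true := by decide +kernel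

theorem cB16_9_3_54 : chunkOkM (LB16_9.ctx true true 290 51 32 21 32 715 535 1024 1024) muQ true true 64 RtB16_9.Cx RtB16_9.CX.left RtB16_9.Ctp.right.right.left.right RtB16_9.Ce.right.right.left.right.left RtB16_9.CTp.left.right.right RtB16_9.CEr.right 0x525a5a5a87bfa7e7fd87c35666c78959768bc34c9547f670079397f550dc295e877f05b3203b17075c1f3a3fc68f614b67207f530d6971517e5088f06b1cdd5bc98fd2165396885c2083c58b1742e5058f6211ff3e7f250d74ccf26cf7f05b3765a565a566 = true := by decide +kernel

end Vale.Agent.helper4.Q4
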