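import Vale.Agent.helper4.Q4TreeM
import Vale.Agent.helper4.Q4G.PB16_9

/-!
Checks for pairs of intervals of second moments.
-/

set_option maxRecDepth 100000
set_option linter.unusedVariables false

namespace Vale.Agent.helper4.Q4

theorem cB16_9_3_55 : chunkOkM (LB16_9.ctx true true 310 207 128 21 32 1443 1085 1024 1024) muQ true true 64 RtB16_9.Cx RtB16_9.CX.left RtB16_9.Ctp.right.right.left.right RtB16_9.Ce.right.right.left.right.right RtB16_9.CTp.left.right.right RtB16_9.CEr 0x525a5a5a1c2bc827fd20f4abe75c31fad968b74ef6637f69ab34937f550d106992908f05b365a565a56645eba477fd573267f75c18f1eb77f6bda81de7f540d3192df67fd3c5f89175c483e5c68b6a308947f6881b3067f550d410eead938f05b36a612665969120283ef8ed2e14c5a75cdf4f8f68b227584008f640d26d2aa808ed151a56fe84c1626b5178b56bd79ef8f640d6697469759321745937 = true := by decide +kernel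

theorem cB16_9_3_56 : chunkOkM (LB16_9.ctx true true 99 1 1 1 1 1 1 1 1) muQ true true 64 RtB16_9.Cx RtB16_9.CX.right RtB16_9.Ctp.right.right.left.right RtB16_9.Ce.right.right.left.right RtB16_9.CTp.left.right.right RtB16_9.CEr 0x4a = true := by decide +kernel

theorem cB16_9_3_57 : chunkOkM (LB16_9.ctx true true 99 1 1 1 1 1 1 1 1) muQ true true 64 RtB16_9.Cx RtB16_9.CX RtB16_9.Ctp.right.right.left.right RtB16_9.Ce.right.right.left.right RtB16_9.CTp.right RtB16_9.CEr.left.left 0x12 = true := by decide +kernel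

theorem cB16_9_3_58 : chunkOkM (LB16_9.ctx true true 99 1 1 1 1 1 1 1 1) muQ true true 64 RtB16_9.Cx RtB16_9.CX RtB16_9.Ctp.right.right.left.right RtB16_9.Ce.right.right.left.right RtB16_9.CTp.right.left.left RtB16_9.CEr.left.right.left 0x12 = true := by decide +kernel

theorem cB16_9_3_59 : chunkOkM (LB16_9.ctx true true 99 1 1 1 1 1 1 1 1) muQ true true 64 RtB16_9.Cx RtB16_9.CX RtB16_9.Ctp.right.right.left.right RtB16_9.Ce.right.right.left.right RtB16_9.CTp.right.left.left.left RtB16_9.CEr.left.right.right.left 0x12 = true := by decide +kernel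

theorem cB16_9_3_60 : chunkOkM (LB16_9.ctx true true 99 1 1 1 1 1 1 1 1) muQ true true 64 RtB16_9.Cx RtB16_9.CX RtB16_9.Ctp.right.right.left.right RtB16_9.Ce.right.right.left.right RtB16_9.CTp.right.left.left.left.left RtB16_9.CEr.left.right.right.right.left 0x6a = true := by decide +kernel

theorem cB16_9_3_61 : chunkOkM (LB16_9.ctx true true 99 1 1 1 1 1 1 1 1) muQ true true 64 RtB16_9.Cx RtB16_9.CX RtB16_9.Ctp.right.right.left.right RtB16_9.Ce.right.right.left.right RtB16_9.CTp.right.left.left.left.left RtB16_9.CEr.left.right.right.right.right.left 0x6a = true := by decide +kernel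

theorem cB16_9_3_62 : chunkOkM (LB16_9.ctx true true 99 1 1 1 1 1 1 1 1) muQ true true 64 RtB16_9.Cx RtB16_9.CX RtB16_9.Ctp.right.right.left.right RtB16_9.Ce.right.right.left.right RtB16_9.CTp.right.left.left.left.left RtB16_9.CEr.left.right.right.right.right.right.left 0x6a = true := by decide +kernel

theorem cB16_9_3_63 : chunkOkM (LB16_9.ctx true true 309 51 32 41 64 715 535 4096 4096) muQ true true 64 RtB16_9.Cx RtB16_9.CX.left.left RtB16_9.Ctp.right.right.left.right RtB16_9.Ce.right.right.left.right.left RtB16_9.CTp.right.left.left.left.left.left.left RtB16_9.CEr.left.right.right.right.right.right.right 0x72cf7ee7f05bc31fb0a7f05b3120ce4958f6232b8817f520d69711b918e28f06be4dd7c77f06b74cb119d97f05b37 = true := by decide +kernel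

theorem cB16_9_3_64 : chunkOkM (LB16_9.ctx true true 303 27 16 41 64 715 545 4096 4096) muQ true true 64 RtB16_9.Cx RtB16_9.CX.left.left RtB16_9.Ctp.right.right.left.right RtB16_9.Ce.right.right.left.right.right RtB16_9.CTp.right.left.left.left.left.left.left RtB16_9.CEr.left.right.right.right.right.right.right 0xd0972b6fd754fb7d7f69a553267f530d1086897b8f05b359274d2a228f06b45937 = true := by decide +kernel

theorem cB16_9_3_65 : chunkOkM (LB16_9.ctx true true 99 1 1 1 1 1 1 1 1) muQ true true 64 RtB16_9.Cx RtB16_9.CX.left.right RtB16_9.Ctp.right.right.left.right RtB16_9.Ce.right.right.left.right RtB16_9.CTp.right.left.left.left.left.left.left RtB16_9.CEr.left.right.right.right.right.right.right 0x6a = true := by decide +kernel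

theorem cB16_9_3_66 : chunkOkM (LB16_9.ctx true true 99 1 1 1 1 1 1 1 1) muQ true true 64 RtB16_9.Cx RtB16_9.CX.right RtB16_9.Ctp.right.right.left.right RtB16_9.Ce.right.right.left.right RtB16_9.CTp.right.left.left.left.left.left.left RtB16_9.CEr.left.right.right.right.right.right.right 0x4a = true := by decide +kernel

theorem cB16_9_3_67 : chunkOkM (LB16_9.ctx true true 99 1 1 1 1 1 1 1 1) muQ true true 64 RtB16_9.Cx RtB16_9.CX RtB16_9.Ctp.right.right.left.right RtB16_9.Ce.right.right.left.right RtB16_9.CTp.right.left.left.left.left.left.right RtB16_9.CEr.left.right.right.right.right.right.right 0x6a = true := by decide +kernel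

theorem cB16_9_3_68 : chunkOkM (LB16_9.ctx true true 99 1 1 1 1 1 1 1 1) muQ true true 64 RtB16_9.Cx RtB16_9.CX RtB16_9.Ctp.right.right.left.right RtB16_9.Ce.right.right.left.right RtB16_9.CTp.right.left.left.left.left.right RtB16_9.CEr.left.right.right.right.right.right.right 0x6a = true := by decide +kernel

theorem cB16_9_3_69 : chunkOkM (LB16_9.ctx true true 99 1 1 1 1 1 1 1 1) muQ true true 64 RtB16_9.Cx RtB16_9.CX RtB16_9.Ctp.right.right.left.right RtB16_9.Ce.right.right.left.right RtB16_9.CTp.right.left.left.left.right RtB16_9.CEr.left.right.right.right 0x6a = true := by decide +kernel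

theorem cB16_9_3_70 : chunkOkM (LB16_9.ctx true true 99 1 1 1 1 1 1 1 1) muQ true true 64 RtB16_9.Cx RtB16_9.CX RtB16_9.Ctp.right.right.left.right RtB16_9.Ce.right.right.left.right RtB16_9.CTp.right.left.left.right RtB16_9.CEr.left.right.right 0x12 = true := by decide +kernel

theorem cB16_9_3_71 : chunkOkM (LB16_9.ctx true true 99 1 1 1 1 1 1 1 1) muQ true true 64 RtB16_9.Cx RtB16_9.CX RtB16_9.Ctp.right.right.left.right RtB16_9.Ce.right.right.left.right RtB16_9.CTp.right.left.right RtB16_9.CEr.left.right 0x12 = true := by decide +kernel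

theorem cB16_9_3_72 : chunkOkM (LB16_9.ctx true true 99 1 1 1 1 1 1 1 1) muQ true true 64 RtB16_9.Cx RtB16_9.CX RtB16_9.Ctp.right.right.left.right RtB16_9.Ce.right.right.left.right RtB16_9.CTp.right.right RtB16_9.CEr.left.right 0x12 = true := by decide +kernel

theorem cB16_9_3_73 : chunkOkM (LB16_9.ctx true true 268 51 32 11 16 1391 525 128 128) muQ true true 64 RtB16_9.Cx.left RtB16_9.CX RtB16_9.Ctp.right.right.left.right.left RtB16_9.Ce.right.right.left.right.left RtB16_9.CTp.right RtB16_9.CEr.right 0x5910f75ce28ed6b75c5f99a4e0d6e7c6135e47f6740f1247f550d33860bd58ed2f4fea175ccdeb3e57f63df03417f540d5172ccaef8ed1567a9275c4930e36f910f16bde8f540d310f1704e8ed4b8a6465c470ca427f69b7e9ae7f540d22198f008ed266c8e375c84d6b1b7f68657aea7f540d510ddc1238edb7a0b965cd1863b87f530d365974 = true := by decide +kernel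

theorem cB16_9_3_74 : chunkOkM (LB16_9.ctx true true 290 195 128 11 16 1443 2085 256 128) muQ true true 64 RtB16_9.Cx.left.left RtB16_9.CX RtB16_9.Ctp.right.right.left.right.right RtB16_9.Ce.right.right.left.right.left.left RtB16_9.CTp.right RtB16_9.CEr.right.left 0xd1a45627ed30854907e8122e83b68f614fbfc6f240d1fd303ce8ed32485f275c227386978f630d693217171b2a608ed3421eeb74c28e220418f630d3bbbc2038ed5834e9575c1a701bba8f630d52122f62b8ed2744f9375c247010608f630d3691fcbd6338ed3596f1f184c49112faa8f630d4217693745 = true := by decide +kernel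

theorem cB16_9_3_75 : chunkOkM (LB16_9.ctx true true 277 103 64 11 16 1443 1055 128 128) muQ true true 64 RtB16_9.Cx.left.right RtB16_9.CX RtB16_9.Ctp.right.right.left.right.right RtB16_9.Ce.right.right.left.right.left.left RtB16_9.CTp.right RtB16_9.CEr.right.left 0x77c1b577eda1bac027e8155253928f61edab147f540d214c44228ed2b8ffb275c1548e2ac8f630d1eb8a7228ed224e09675c11bbb7ed8f64e0836f7f540d22ab92ae8ed22fc58d884c37cfdbfb8f630d720f6fad18ed247cb5875c1ceb70728f6eaed276f540d435 = true := by decide +kernel

theorem cB16_9_3_76 : chunkOkM (LB16_9.ctx true true 264 51 32 11 16 715 525 128 128) muQ true true 64 RtB16_9.Cx.left RtB16_9.CX RtB16_9.Ctp.right.right.left.right.right RtB16_9.Ce.right.right.left.right.left.left RtB16_9.CTp.right RtB16_9.CEr.right.right 0x1023690e8ed10ead965c1f43426f9111374178f61b237af7f550d3bd0d0ac8ed41bd15375c121b1cbe8f61998dc77f540d5119d0d238ed73628265c130204628f6107b6e27f240d3a61741f8ed4eec37875c10c633738f630d57 = true := by decide +kernel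

theorem cB16_9_3_77 : chunkOkM (LB16_9.ctx true true 99 1 1 1 1 1 1 1 1) muQ true true 64 RtB16_9.Cx.left.left RtB16_9.CX RtB16_9.Ctp.right.right.left.right.right RtB16_9.Ce.right.right.left.right.left.right RtB16_9.CTp.right RtB16_9.CEr.right 0x69 = true := by decide +kernel

theorem cB16_9_3_78 : chunkOkM (LB16_9.ctx true true 278 103 64 11 16 1443 1075 128 128) muQ true true 64 RtB16_9.Cx.left.right RtB16_9.CX RtB16_9.Ctp.right.right.left.right.right RtB16_9.Ce.right.right.left.right.left.right RtB16_9.CTp.right RtB16_9.CEr.right.left 0xc1de2037ed345d8177e81b4356e48f623e93887f540d200bd6458ed25ada8ee84c2ffc941a8f630d201ba9068ed2dad6f075c36fb24a38f630d71943bf238ed28ffa6275c26e4cf088f630d248a21598ed3031eca584c1b506f348f630d741fc097b38ed235d43475c19eb18cc8f670c8a367f540d1f971d6a8ed2666632884c1459da968f65ef90187f540d219cef698ed27bf01875c580ef2868f630d7435 = true := by decide +kernel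

theorem cB16_9_3_79 : chunkOkM (LB16_9.ctx true true 268 51 32 11 16 1443 535 128 128) muQ true true 64 RtB16_9.Cx.left.right RtB16_9.CX RtB16_9.Ctp.right.right.left.right.right RtB16_9.Ce.right.right.left.right.left.right RtB16_9.CTp.right RtB16_9.CEr.right.right 0xe82ca297ed409ed565c1caa406f91cabce138f640d130a16c18ed234c8e65c9dbcc96f9886e1e27f6752f5be7f550d3442ef5888ed3f509f175c15ba372b8f62094d697f540d5 = true := by decide +kernel

theorem cB16_9_3_80 : chunkOkM (LB16_9.ctx true true 264 55 32 11 16 1391 525 64 128) muQ true true 64 RtB16_9.Cx.right RtB16_9.CX RtB16_9.Ctp.right.right.left.right.left RtB16_9.Ce.right.right.left.right.left.left RtB16_9.CTp.right RtB16_9.CEr.right 0xebff4ce7edb3bb6f65cffa7e187f612611b4c8f540d1fbe0fdb8ed163e1a075c4bdd0dc7f6973cfcc7f540d15045fac8ed1107ee475c5ffe0f17f6a777bf87f540d6155a08528ed3e9c5fb75c3fc45c6f9159a53d98e8337e9967f6d38cb287f560d37 = true := by decide +kernel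

end Vale.Agent.helper4.Q4
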