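import Vale.Agent.helper4.Q4TreeM
import Vale.Agent.helper4.Q4G.PB16_9

/-!
Checks for pairs of intervals of second moments.
-/

set_option maxRecDepth 100000
set_option linter.unusedVariables false

namespace Vale.Agent.helper4.Q4

theorem cB16_9_3_81 : chunkOkM (LB16_9.ctx true true 264 55 32 11 16 1391 535 64 128) muQ true true 64 RtB16_9.Cx.right RtB16_9.CX RtB16_9.Ctp.right.right.left.right.left RtB16_9.Ce.right.right.left.right.left.right RtB16_9.CTp.right RtB16_9.CEr.right 0x11f580378ed244d41175cc96754e7e8674dcf37f6d57ad0a7f550d159a1e698ed215854b7e8a1810327f6149861d48f540d32ca4a4b78ed1205d4f75c5d0f5977f6b84a9f37f540d17396c298ed13006b175cbd107cb7f530d6103fccd38edce2b2965c20ee1a67f6e26ee3a7f540d37 = true := by decide +kernel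

theorem cB16_9_3_82 : chunkOkM (LB16_9.ctx true true 268 55 32 11 16 1443 535 128 128) muQ true true 64 RtB16_9.Cx.right RtB16_9.CX RtB16_9.Ctp.right.right.left.right.right RtB16_9.Ce.right.right.left.right.left RtB16_9.CTp.right RtB16_9.CEr.right.left 0x830aad6f06c2cfb82ed8eda76df227f67b23a337f530d1ac85f428ed22495ee75c13a3b7288f6472c6347f540d1bd1569b8ed274b9d075c638c35b7f6958fa5a7f540d357107644268ede8a0d265c42ccf3b7f530d4 = true := by decide +kernel

theorem cB16_9_3_83 : chunkOkM (LB16_9.ctx true true 264 55 32 11 16 715 535 128 128) muQ true true 64 RtB16_9.Cx.right RtB16_9.CX RtB16_9.Ctp.right.right.left.right.right RtB16_9.Ce.right.right.left.right.left RtB16_9.CTp.right RtB16_9.CEr.right.right 0x18439a87f06c1028506e8edd9c0a1f7f663d5adc7f530d3f1369618ed390d53775cd9760e57f66007a667f540d5178423608ed1a887da75c37886797f530d47 = true := by decide +kernel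

theorem cB16_9_3_84 : chunkOkM (LB16_9.ctx true true 284 207 128 11 16 1443 1085 128 128) muQ true true 64 RtB16_9.Cx.left RtB16_9.CX RtB16_9.Ctp.right.right.left.right RtB16_9.Ce.right.right.left.right.right RtB16_9.CTp.right RtB16_9.CEr.right 0x5969fcbe7037ede61fe437e92a198a0b8f630d1a4803d28ed22c6e6e75c3fde0d988f630d52a385b508ed7a026b588f620d202956a58ed2659133a84c2c9050658f630d5669746975932174593 = true := by decide +kernel

theorem cB16_9_3_85 : chunkOkM (LB16_9.ctx true true 248 27 16 11 16 689 275 64 64) muQ true true 64 RtB16_9.Cx.right RtB16_9.CX RtB16_9.Ctp.right.right.left.right.left RtB16_9.Ce.right.right.left.right.right RtB16_9.CTp.right RtB16_9.CEr.right 0x147cf50c8ed190678175c915b126f8531eac77f6113f1b618f550d = true := by decide +kernel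

theorem cB16_9_3_86 : chunkOkM (LB16_9.ctx true true 278 107 64 11 16 1443 1095 128 128) muQ true true 64 RtB16_9.Cx.right.left RtB16_9.CX RtB16_9.Ctp.right.right.left.right.right RtB16_9.Ce.right.right.left.right.right.left RtB16_9.CTp.right RtB16_9.CEr.right.left 0x102861e28edb0d222d7f668e5f9c7f530d1a58dc528ed228b20b75ccb015287f67d850a37f540d1ef345bd8ed232ef4875c21a4607b8f647a756b7f540d71835addf8ed1c60f2275c1138b4968f6818630b7f540d1f73fe7c8ed224780975c1c2aa3488f63565d5e7f540d7451040ddbb8edcf2bf065c843af16f6d858a477f540de9f8a767ed59181127f6b7eb7357f530d1cd3ce178ed256e88d75c65e5ae57f6af4392d7f540d543 = true := by decide +kernel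

theorem cB16_9_3_87 : chunkOkM (LB16_9.ctx true true 271 53 32 11 16 1443 1095 128 128) muQ true true 64 RtB16_9.Cx.right.left RtB16_9.CX RtB16_9.Ctp.right.right.left.right.right RtB16_9.Ce.right.right.left.right.right.left RtB16_9.CTp.right RtB16_9.CEr.right.right 0xe33906d7ed16b21e65c2aa6de6f9d5e2f197f651507e57f550d1f1cfe228ed38ba58975c59a71817f66d22d487f540d51684291a8ed1a6403f75c6b276697f6bbe73477f540d115545308ed1a108765c72422237f6b4723ca7f540d2b18ab6f8ed2721aff75cadf452b7f530d543 = true := by decide +kernel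

theorem cB16_9_3_88 : chunkOkM (LB16_9.ctx true true 260 55 32 11 16 715 545 64 128) muQ true true 64 RtB16_9.Cx.right.right RtB16_9.CX RtB16_9.Ctp.right.right.left.right.right RtB16_9.Ce.right.right.left.right.right.left RtB16_9.CTp.right RtB16_9.CEr.right 0x160ecdb88ed129d9c475c8402efd7f69fcf9147f540d15709a288ed11721b175c6f8c40f7f6ae15d167f540d6 = true := by decide +kernel

theorem cB16_9_3_89 : chunkOkM (LB16_9.ctx true true 295 215 128 11 16 5811 2225 128 128) muQ true true 64 RtB16_9.Cx.right.left RtB16_9.CX RtB16_9.Ctp.right.right.left.right.right RtB16_9.Ce.right.right.left.right.right.right RtB16_9.CTp.right RtB16_9.CEr.right 0x591e3b99f58ed341750274c8c173d87f530d1db993a58ed193d78f75caf9e4d47f530d55934597593597171c40fd8ed253b3e6f93aff2f47f68913ba47f540d2afc34628ed2792e7e75cec377887f6508a95c7f540d5459eb0c1d87eda9b73e6f6b2cb8157f530d132e44448ed1978150084c269a2a37f6a771f6a7f540d5593459759359776a91b47ed7bbab467e853c0ad77f69e41ae77f540d1db2658c8ed20e098975cde871287f66faf3937f540d546593 = true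 := by decide +kernel

theorem cB16_9_3_90 : chunkOkM (LB16_9.ctx true true 265 55 32 11 16 1443 555 64 128) muQ true true 64 RtB16_9.Cx.right.right RtB16_9.CX RtB16_9.Ctp.right.right.left.right.right RtB16_9.Ce.right.right.left.right.right.right RtB16_9.CTp.right RtB16_9.CEr.right 0x16e75ebe8ed13cddcd75c5ac1ba47f69b4c13c7f540d12dfe97a8ed10421aa75c52d4f337f6a796db47f540d613375e318ed16c7e7275c5519b077e840c82b47f6dbc4ef97f550d3 = true := by decide +kernel

theorem cB16_9_3_91 : chunkOkM (LB16_9.ctx true true 99 1 1 1 1 1 1 1 1) muQ true true 64 RtB16_9.Cx RtB16_9.CX RtB16_9.Ctp.right.right.right RtB16_9.Ce.right.right.left RtB16_9.CTp.left.left RtB16_9.CEr 0x42 = true := by decide +kernel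

theorem cB16_9_3_92 : chunkOkM (LB16_9.ctx true true 99 1 1 1 1 1 1 1 1) muQ true true 64 RtB16_9.Cx RtB16_9.CX RtB16_9.Ctp.right.right.right RtB16_9.Ce.right.right.left RtB16_9.CTp.left.right.left RtB16_9.CEr 0x4a = true := by decide +kernel

theorem cB16_9_3_93 : chunkOkM (LB16_9.ctx true true 99 1 1 1 1 1 1 1 1) muQ true true 64 RtB16_9.Cx RtB16_9.CX.left RtB16_9.Ctp.right.right.right.left RtB16_9.Ce.right.right.left RtB16_9.CTp.left.right.right RtB16_9.CEr.left.left 0x12 = true := by decide +kernel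

theorem cB16_9_3_94 : chunkOkM (LB16_9.ctx true true 99 1 1 1 1 1 1 1 1) muQ true true 64 RtB16_9.Cx RtB16_9.CX.left RtB16_9.Ctp.right.right.right.left RtB16_9.Ce.right.right.left RtB16_9.CTp.left.right.right RtB16_9.CEr.left.right.left 0x6a = true := by decide +kernel

theorem cB16_9_3_95 : chunkOkM (LB16_9.ctx true true 254 13 8 21 32 377 125 256 256) muQ true true 64 RtB16_9.Cx RtB16_9.CX.left RtB16_9.Ctp.right.right.right.left RtB16_9.Ce.right.right.left.left RtB16_9.CTp.left.right.right RtB16_9.CEr.left.right.right 0x3460d5a7fd489ce9a75c7ded3868b242c67868e6497edca7f21440a027f060d = true := by decide +kernel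

theorem cB16_9_3_96 : chunkOkM (LB16_9.ctx true true 289 103 64 21 32 1469 1075 256 256) muQ true true 64 RtB16_9.Cx.left RtB16_9.CX.left RtB16_9.Ctp.right.right.right.left.left RtB16_9.Ce.right.right.left.right.left RtB16_9.CTp.left.right.right RtB16_9.CEr.left.right.right 0x420ade97fd56e0ab575c1ee545048f630d35d2c0408ed49b8e7475c7d8abe577b14bbcb7c8f6304b55b7f250d74caf81a7fd4ff21bb75cceb82868b10cedf968f61baa6437f250d471d04c4013589e917fd56bbc7475c124df44b8f6745d6ce7f240d3b71d207fd4ec957875c667d2668b9a43ef17f66276ab37f250d437 = true := by decide +kernel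

end Vale.Agent.helper4.Q4
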