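import Vale.Agent.helper4.Q4TreeM
import Vale.Agent.helper4.Q4G.PB16_9

/-!
Checks for pairs of intervals of second moments.
-/

set_option maxRecDepth 100000
set_option linter.unusedVariables false

namespace Vale.Agent.helper4.Q4

theorem cB16_9_3_97 : chunkOkM (LB16_9.ctx true true 290 103 64 21 32 1495 1105 256 256) muQ true true 64 RtB16_9.Cx.left RtB16_9.CX.left RtB16_9.Ctp.right.right.right.left.left RtB16_9.Ce.right.right.left.right.right RtB16_9.CTp.left.right.right RtB16_9.CEr.left.right.right 0x2133bdf2b88ed42c9b4175c89141668b1ea8beb28f637f292e7f250d469321736733307fd454de0675c7429d968b1720250d8f61c7c2987f250d25647727fd2f6c44275c9c8ca068b107e2b438f640d42134f66767fd481257175c6b217b68b13c84ed58f63d1d62e7f250d474217 = true := by decide +kernel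

theorem cB16_9_3_98 : chunkOkM (LB16_9.ctx true true 99 1 1 1 1 1 1 1 1) muQ true true 64 RtB16_9.Cx.left RtB16_9.CX.left RtB16_9.Ctp.right.right.right.left.right RtB16_9.Ce.right.right.left.right RtB16_9.CTp.left.right.right RtB16_9.CEr.left.right.right 0x01 = true := by decide +kernel

theorem cB16_9_3_99 : chunkOkM (LB16_9.ctx true true 284 55 32 21 32 1495 1115 256 256) muQ true true 64 RtB16_9.Cx.right RtB16_9.CX.left RtB16_9.Ctp.right.right.right.left RtB16_9.Ce.right.right.left.right RtB16_9.CTp.left.right.right RtB16_9.CEr.left.right.right 0x2482f077fd3aba9d775c31655f68b1dc4e657f69193a897f250d3c989347f05b2b318247fd30839d075c977ef868b1f2436c78f640d41c8c8b7fd5b274b475c2d8da3b58f630d42ecb55f7fd3a42a2a75c336aa168b234f87868f616327917f550d37c23857fd3d4892975c5c9cd568b20302bb48f6f689296f550d43733484bdb7fd3f9a5ce75c20fc4f68b11e67e6549e640d4694 = true := by decide +kernel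

theorem cB16_9_3_100 : chunkOkM (LB16_9.ctx true true 99 1 1 1 1 1 1 1 1) muQ true true 64 RtB16_9.Cx RtB16_9.CX.left RtB16_9.Ctp.right.right.right.left RtB16_9.Ce.right.right.left RtB16_9.CTp.left.right.right.left RtB16_9.CEr.right.left.left 0x5a = true := by decide +kernel

theorem cB16_9_3_101 : chunkOkM (LB16_9.ctx true true 99 1 1 1 1 1 1 1 1) muQ true true 64 RtB16_9.Cx RtB16_9.CX.left RtB16_9.Ctp.right.right.right.left RtB16_9.Ce.right.right.left RtB16_9.CTp.left.right.right.right.left RtB16_9.CEr.right.left.left.left 0x5a = true := by decide +kernel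

theorem cB16_9_3_102 : chunkOkM (LB16_9.ctx true true 268 13 8 21 32 377 125 1024 1024) muQ true true 64 RtB16_9.Cx RtB16_9.CX.left RtB16_9.Ctp.right.right.right.left RtB16_9.Ce.right.right.left.left RtB16_9.CTp.left.right.right.right.right RtB16_9.CEr.right.left.left.left.left 0x12f496268fd10d02fb76c31f6e7a78e6552c8ea7f2e679e36f050d = true := by decide +kernel

theorem cB16_9_3_103 : chunkOkM (LB16_9.ctx true true 290 51 32 21 32 741 555 1024 1024) muQ true true 64 RtB16_9.Cx.left RtB16_9.CX.left RtB16_9.Ctp.right.right.right.left RtB16_9.Ce.right.right.left.right RtB16_9.CTp.left.right.right.right.right RtB16_9.CEr.right.left.left.left.left 0x0176c05d37fd8cb31de75c1327e4978f63e924ad7f240d1a2e69875c1256f7968f62bb42997f230d421713afe5275ca12a9587f6215ad707f230d1c5c6c675c9efc1f77f650ea6ce7f230d743 = true := by decide +kernel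

theorem cB16_9_3_104 : chunkOkM (LB16_9.ctx true true 295 55 32 21 32 1495 555 1024 1024) muQ true true 64 RtB16_9.Cx.right RtB16_9.CX.left RtB16_9.Ctp.right.right.right.left RtB16_9.Ce.right.right.left.right RtB16_9.CTp.left.right.right.right.right RtB16_9.CEr.right.left.left.left.left 0x57847557f02b0a0fbe687fdc876ce775c19ce1b158f630d30e4b667fd3b2388a75cddf42597f6311d9bb7f540d373fb4c6a47f06b4694 = true := by decide +kernel

theorem cB16_9_3_105 : chunkOkM (LB16_9.ctx true true 99 1 1 1 1 1 1 1 1) muQ true true 64 RtB16_9.Cx RtB16_9.CX.left RtB16_9.Ctp.right.right.right.left RtB16_9.Ce.right.right.left RtB16_9.CTp.left.right.right.right.right RtB16_9.CEr.right.left.left.left.right 0x5a = true := by decide +kernel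

theorem cB16_9_3_106 : chunkOkM (LB16_9.ctx true true 99 1 1 1 1 1 1 1 1) muQ true true 64 RtB16_9.Cx RtB16_9.CX.left RtB16_9.Ctp.right.right.right.left RtB16_9.Ce.right.right.left RtB16_9.CTp.left.right.right.right RtB16_9.CEr.right.left.left.right 0x5a = true := by decide +kernel

theorem cB16_9_3_107 : chunkOkM (LB16_9.ctx true true 99 1 1 1 1 1 1 1 1) muQ true true 64 RtB16_9.Cx RtB16_9.CX.left RtB16_9.Ctp.right.right.right.left RtB16_9.Ce.right.right.left RtB16_9.CTp.left.right.right RtB16_9.CEr.right.left.right 0x5a = true := by decide +kernel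

theorem cB16_9_3_108 : chunkOkM (LB16_9.ctx true true 99 1 1 1 1 1 1 1 1) muQ true true 64 RtB16_9.Cx RtB16_9.CX.left RtB16_9.Ctp.right.right.right.left RtB16_9.Ce.right.right.left RtB16_9.CTp.left.right.right RtB16_9.CEr.right.right 0x52 = true := by decide +kernel

theorem cB16_9_3_109 : chunkOkM (LB16_9.ctx true true 243 13 8 21 32 403 65 256 32) muQ true true 64 RtB16_9.Cx RtB16_9.CX.left RtB16_9.Ctp.right.right.right.right RtB16_9.Ce.right.right.left RtB16_9.CTp.left.right.right RtB16_9.CEr 0x1afde8a7fd1ffb11878bb49b92d28e127c5aae88f040d = true := by decide +kernel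

theorem cB16_9_3_110 : chunkOkM (LB16_9.ctx true true 99 1 1 1 1 1 1 1 1) muQ true true 64 RtB16_9.Cx RtB16_9.CX.right RtB16_9.Ctp.right.right.right RtB16_9.Ce.right.right.left RtB16_9.CTp.left.right.right RtB16_9.CEr 0x4a = true := by decide +kernel

theorem cB16_9_3_111 : chunkOkM (LB16_9.ctx true true 99 1 1 1 1 1 1 1 1) muQ true true 64 RtB16_9.Cx RtB16_9.CX RtB16_9.Ctp.right.right.right.left RtB16_9.Ce.right.right.left RtB16_9.CTp.right RtB16_9.CEr.left.left 0x12 = true := by decide +kernel

theorem cB16_9_3_112 : chunkOkM (LB16_9.ctx true true 99 1 1 1 1 1 1 1 1) muQ true true 64 RtB16_9.Cx RtB16_9.CX RtB16_9.Ctp.right.right.right.left RtB16_9.Ce.right.right.left RtB16_9.CTp.right.left RtB16_9.CEr.left.right.left 0x12 = true := by decide +kernel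

theorem cB16_9_3_113 : chunkOkM (LB16_9.ctx true true 99 1 1 1 1 1 1 1 1) muQ true true 64 RtB16_9.Cx RtB16_9.CX.left RtB16_9.Ctp.right.right.right.left RtB16_9.Ce.right.right.left RtB16_9.CTp.right.left.left RtB16_9.CEr.left.right.right.left 0x12 = true := by decide +kernel

theorem cB16_9_3_114 : chunkOkM (LB16_9.ctx true true 99 1 1 1 1 1 1 1 1) muQ true true 64 RtB16_9.Cx RtB16_9.CX.left.left RtB16_9.Ctp.right.right.right.left RtB16_9.Ce.right.right.left RtB16_9.CTp.right.left.left RtB16_9.CEr.left.right.right.right.left 0x6a = true := by decide +kernel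

theorem cB16_9_3_115 : chunkOkM (LB16_9.ctx true true 99 1 1 1 1 1 1 1 1) muQ true true 64 RtB16_9.Cx RtB16_9.CX.left.left RtB16_9.Ctp.right.right.right.left RtB16_9.Ce.right.right.left RtB16_9.CTp.right.left.left RtB16_9.CEr.left.right.right.right.right.left 0x6a = true := by decide +kernel

theorem cB16_9_3_116 : chunkOkM (LB16_9.ctx true true 99 1 1 1 1 1 1 1 1) muQ true true 64 RtB16_9.Cx RtB16_9.CX.left.left RtB16_9.Ctp.right.right.right.left RtB16_9.Ce.right.right.left RtB16_9.CTp.right.left.left RtB16_9.CEr.left.right.right.right.right.right.left 0x6a = true := by decide +kernel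

theorem cB16_9_3_117 : chunkOkM (LB16_9.ctx true true 287 13 8 41 64 377 125 4096 4096) muQ true true 64 RtB16_9.Cx RtB16_9.CX.left.left RtB16_9.Ctp.right.right.right.left RtB16_9.Ce.right.right.left.left RtB16_9.CTp.right.left.left.left.left.left.left RtB16_9.CEr.left.right.right.right.right.right.right 0x6daf6867f06b = true := by decide +kernel

theorem cB16_9_3_118 : chunkOkM (LB16_9.ctx true true 310 55 32 41 64 767 555 4096 4096) muQ true true 64 RtB16_9.Cx RtB16_9.CX.left.left RtB16_9.Ctp.right.right.right.left RtB16_9.Ce.right.right.left.right RtB16_9.CTp.right.left.left.left.left.left.left RtB16_9.CEr.left.right.right.right.right.right.right 0x2a44ea27f02b03285c06fd153d52648f6152fe8f7f530d73d29d6b77f06b469401538d356c1730a4ca8f6580a5957f230daa776165c1370aa768f62a5404a7f230d4217b0e3f797f06b88e35347f6611bc857f220d7437 = true := by decide +kernel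

theorem cB16_9_3_119 : chunkOkM (LB16_9.ctx true true 99 1 1 1 1 1 1 1 1) muQ true true 64 RtB16_9.Cx RtB16_9.CX.left.left RtB16_9.Ctp.right.right.right.left RtB16_9.Ce.right.right.left RtB16_9.CTp.right.left.left.left.left.left.right RtB16_9.CEr.left.right.right.right.right.right.right 0x6a = true := by decide +kernel

theorem cB16_9_3_120 : chunkOkM (LB16_9.ctx true true 99 1 1 1 1 1 1 1 1) muQ true true 64 RtB16_9.Cx RtB16_9.CX.left.left RtB16_9.Ctp.right.right.right.left RtB16_9.Ce.right.right.left RtB16_9.CTp.right.left.left.left.left.right RtB16_9.CEr.left.right.right.right.right.right.right 0x6a = true := by decide +kernel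

theorem cB16_9_3_121 : chunkOkM (LB16_9.ctx true true 99 1 1 1 1 1 1 1 1) muQ true true 64 RtB16_9.Cx RtB16_9.CX.left.left RtB16_9.Ctp.right.right.right.left RtB16_9.Ce.right.right.left RtB16_9.CTp.right.left.left.left.right RtB16_9.CEr.left.right.right.right.right.right.right 0x6a = true := by decide +kernel

theorem cB16_9_3_122 : chunkOkM (LB16_9.ctx true true 99 1 1 1 1 1 1 1 1) muQ true true 64 RtB16_9.Cx RtB16_9.CX.left.left RtB16_9.Ctp.right.right.right.left RtB16_9.Ce.right.right.left RtB16_9.CTp.right.left.left.right RtB16_9.CEr.left.right.right.right.right.right.right 0x12 = true := by decide +kernel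

theorem cB16_9_3_123 : chunkOkM (LB16_9.ctx true true 99 1 1 1 1 1 1 1 1) muQ true true 64 RtB16_9.Cx RtB16_9.CX.left.right RtB16_9.Ctp.right.right.right.left RtB16_9.Ce.right.right.left RtB16_9.CTp.right.left.left RtB16_9.CEr.left.right.right.right 0x6a = true := by decide +kernel

theorem cB16_9_3_124 : chunkOkM (LB16_9.ctx true true 99 1 1 1 1 1 1 1 1) muQ true true 64 RtB16_9.Cx RtB16_9.CX.right RtB16_9.Ctp.right.right.right.left RtB16_9.Ce.right.right.left RtB16_9.CTp.right.left.left RtB16_9.CEr.left.right.right 0x6a = true := by decide +kernel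

theorem cB16_9_3_125 : chunkOkM (LB16_9.ctx true true 99 1 1 1 1 1 1 1 1) muQ true true 64 RtB16_9.Cx RtB16_9.CX RtB16_9.Ctp.right.right.right.left RtB16_9.Ce.right.right.left RtB16_9.CTp.right.left.right RtB16_9.CEr.left.right.right 0x12 = true := by decide +kernel

theorem cB16_9_3_126 : chunkOkM (LB16_9.ctx true true 99 1 1 1 1 1 1 1 1) muQ true true 64 RtB16_9.Cx RtB16_9.CX RtB16_9.Ctp.right.right.right.left RtB16_9.Ce.right.right.left RtB16_9.CTp.right.right RtB16_9.CEr.left.right 0x12 = true := by decide +kernel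

theorem cB16_9_3_127 : chunkOkM (LB16_9.ctx true true 287 195 128 11 16 2925 1035 128 128) muQ true true 64 RtB16_9.Cx RtB16_9.CX RtB16_9.Ctp.right.right.right.left RtB16_9.Ce.right.right.left.left RtB16_9.CTp.right RtB16_9.CEr.right 0x1111111111011306271e8edb6b50c97f6510cf737f230d3919cbe78ed3acb59a75c6d921827f65cbf6f27f240d1ee1b34e8ed368c2ac384ca80e5937f66a8f6d07f240d65114301777711411433 = true := by decide +kernel

theorem cB16_9_3_128 : chunkOkM (LB16_9.ctx true true 287 199 128 11 16 1469 1065 256 128) muQ true true 64 RtB16_9.Cx.left.left RtB16_9.CX RtB16_9.Ctp.right.right.right.left.left RtB16_9.Ce.right.right.left.right.left RtB16_9.CTp.right.left RtB16_9.CEr.right.left 0x0121192fe3838ed2479439584c2c9396b18f630d1bf4c8d78ed366ce1575c2487d3a77b1762f03a8f6424a9987f250d52174217150701fa8ed1a91a95e84c9576be67f652ae8567f240d42b8a0928ed5ebf53975cb43abbf7f65306f237f240d5211f1913b18ed347e675f84cbbd0f857f67028fb07f240d4743 = true := by decide +kernel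

theorem cB16_9_3_129 : chunkOkM (LB16_9.ctx true true 280 103 64 11 16 741 1075 256 256) muQ true true 64 RtB16_9.Cx.left.right RtB16_9.CX RtB16_9.Ctp.right.right.right.left.left RtB16_9.Ce.right.right.left.right.left RtB16_9.CTp.right.left RtB16_9.CEr.right.left 0x142594b68ed119260575cc145ff97f62bc76687f240d3fba8c07fd620505c75c27060668bf3df6817f6248b9267f250de12fa5b7f06b328cf9a58ed46b923f75c142ef2468f6402ae827f240d71d73bb77fd379bc7d75c1704fb858f6167b6987f240d46525ebaef58ed33deb8c75c24a91b708f630d4 = true := by decide +kernel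

theorem cB16_9_3_130 : chunkOkM (LB16_9.ctx true true 275 51 32 11 16 741 265 512 512) muQ true true 64 RtB16_9.Cx.left RtB16_9.CX RtB16_9.Ctp.right.right.right.left.left RtB16_9.Ce.right.right.left.right.left RtB16_9.CTp.right.right RtB16_9.CEr.right.left 0x126adf93b36fd6f144bf7f6647e75c7f230d696dcda7fd5a9dc1b7f684b9d847f230d756a65126 = true := by decide +kernel

theorem cB16_9_3_131 : chunkOkM (LB16_9.ctx true true 278 51 32 11 16 741 535 512 512) muQ true true 64 RtB16_9.Cx.left RtB16_9.CX RtB16_9.Ctp.right.right.right.left.left RtB16_9.Ce.right.right.left.right.left RtB16_9.CTp.right RtB16_9.CEr.right.right 0xf98263e7ed63012065c20cf096f9be8599f7f61fdfab47f250dca18f86f06c411f709d18ed69b4b665c1c41076f95237fd37f65aedec47f250d75a5a3f154d97fd2a7d16f75c939a3c57f638f394d7f240da7f95177fd6430bf875c3b055a17f673247b07f240d765a565a55 = true := by decide +kernel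

theorem cB16_9_3_132 : chunkOkM (LB16_9.ctx true true 99 1 1 1 1 1 1 1 1) muQ true true 64 RtB16_9.Cx.left.left RtB16_9.CX RtB16_9.Ctp.right.right.right.left.left RtB16_9.Ce.right.right.left.right.right RtB16_9.CTp.right RtB16_9.CEr.right 0x21 = true := by decide +kernel

end Vale.Agent.helper4.Q4
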