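import Vale.Agent.helper4.Q4TreeM
import Vale.Agent.helper4.Q4G.PB16_9

/-!
Checks for pairs of intervals of second moments.
-/

set_option maxRecDepth 100000
set_option linter.unusedVariables false

namespace Vale.Agent.helper4.Q4

theorem cB16_9_3_133 : chunkOkM (LB16_9.ctx true true 292 203 128 11 16 2977 1085 256 128) muQ true true 64 RtB16_9.Cx.left.right.left RtB16_9.CX RtB16_9.Ctp.right.right.right.left.left RtB16_9.Ce.right.right.left.right.right.left RtB16_9.CTp.right.left RtB16_9.CEr.right.left 0x2101118b48288ed1428f75d84c58959f07f671a51b07f240d2d226a568ed49b9931784c185bba958f65c859b87f240d531c7e66f58ed2ec8b69184c3c1639a88f630d69332174 = true := by decide +kernel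

theorem cB16_9_3_134 : chunkOkM (LB16_9.ctx true true 285 103 64 11 16 1495 1095 256 256) muQ true true 64 RtB16_9.Cx.left.right.right RtB16_9.CX RtB16_9.Ctp.right.right.right.left.left RtB16_9.Ce.right.right.left.right.right.left RtB16_9.CTp.right.left RtB16_9.CEr.right.left 0x145167728ed1943043c84c19476b078f6414d0727f240d36c23a498ed4f4df3c75c16f15c5d8f64385c0a7f240d51ca54c018ed2b8bc9475c29de26498f630d31fffb967fd272a56175c12fb16538f630d1762c547fd305138c75c861ea2f77bfdf8e527f640d51f0388918ed313e6dd584c190b28ab8f61644cc77f240d386e07928ed403bb62a84c3240e0908f630d364 = true := by decide +kernel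

theorem cB16_9_3_135 : chunkOkM (LB16_9.ctx true true 264 51 32 11 16 741 545 128 128) muQ true true 64 RtB16_9.Cx.left.right RtB16_9.CX RtB16_9.Ctp.right.right.right.left.left RtB16_9.Ce.right.right.left.right.right.left RtB16_9.CTp.right.right RtB16_9.CEr.right.left 0x185c15488ed8bcaf66e814bbe6cb8f628bce8c7f240d = true := by decide +kernel

theorem cB16_9_3_136 : chunkOkM (LB16_9.ctx true true 270 103 64 11 16 741 545 128 128) muQ true true 64 RtB16_9.Cx.left.right RtB16_9.CX RtB16_9.Ctp.right.right.right.left.left RtB16_9.Ce.right.right.left.right.right.left RtB16_9.CTp.right RtB16_9.CEr.right.right 0x104b5efb8ed792ff3f74c11aed2d88f6f82b9e6f240dfc125557ed7604a165cc3f750b7f63dceaea7f240d7461d39bd8ed444d1c775c11fbf44a8f625bd34d7f240d5 = true := by decide +kernel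

theorem cB16_9_3_137 : chunkOkM (LB16_9.ctx true true 288 207 128 11 16 1495 1105 256 128) muQ true true 64 RtB16_9.Cx.left.right RtB16_9.CX RtB16_9.Ctp.right.right.right.left.left RtB16_9.Ce.right.right.left.right.right.right RtB16_9.CTp.right RtB16_9.CEr.right 0x21ee98adf7ed97d715674c17d60c9b8f61c9b0947f240d26e12c218ed439cdb075c356fdbbb8f630d51758b2d68ed113ee7c984c1f675a398f610c953b7f240d15cada878ed1cf5d40d84c403687e08f630d2d9d32898ed477798475c20a1b49f8f62f40a167f240d5562174693217 = true := by decide +kernel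

theorem cB16_9_3_138 : chunkOkM (LB16_9.ctx true true 99 1 1 1 1 1 1 1 1) muQ true true 64 RtB16_9.Cx.left RtB16_9.CX RtB16_9.Ctp.right.right.right.left.right RtB16_9.Ce.right.right.left.right RtB16_9.CTp.right RtB16_9.CEr.right 0x01 = true := by decide +kernel

theorem cB16_9_3_139 : chunkOkM (LB16_9.ctx true true 99 1 1 1 1 1 1 1 1) muQ true true 64 RtB16_9.Cx.right RtB16_9.CX RtB16_9.Ctp.right.right.right.left RtB16_9.Ce.right.right.left.right.left RtB16_9.CTp.right RtB16_9.CEr.right 0x69 = true := by decide +kernel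

theorem cB16_9_3_140 : chunkOkM (LB16_9.ctx true true 278 107 64 11 16 1495 1095 128 128) muQ true true 64 RtB16_9.Cx.right RtB16_9.CX RtB16_9.Ctp.right.right.right.left RtB16_9.Ce.right.right.left.right.right.left RtB16_9.CTp.right.left RtB16_9.CEr.right.left 0x11691662aa8f8ed1fe817a75c20d1f7a3c3c8ed2bcbc5675c3bc32a4d8f630d1bb5b7e58ed262723b75c237b74a18f630d371a1814d78ed276ee6375c297880448f630d473 = true := by decide +kernel

theorem cB16_9_3_141 : chunkOkM (LB16_9.ctx true true 282 107 64 11 16 2951 1115 128 128) muQ true true 64 RtB16_9.Cx.right.left RtB16_9.CX RtB16_9.Ctp.right.right.right.left.left.left RtB16_9.Ce.right.right.left.right.right.right RtB16_9.CTp.right.left RtB16_9.CEr.right.left 0x17b4f6b78ed1d97909e84c27392d2a8f630d1d4edd2a8ed20f5107384c131cf7e98f66c848c57f540d3194b9b9e8ed24257c075c66b77f6e8f630d71dc3d3d78ed1f7696d75c29c7d3478f6100abb57f540d1d6c05d48ed25f05dd284c33de40ff8f630d74 = true := by decide +kernel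

theorem cB16_9_3_142 : chunkOkM (LB16_9.ctx true true 285 107 64 11 16 1495 1115 256 256) muQ true true 64 RtB16_9.Cx.right.left RtB16_9.CX RtB16_9.Ctp.right.right.right.left.left.right RtB16_9.Ce.right.right.left.right.right.right RtB16_9.CTp.right.left RtB16_9.CEr.right.left 0x18f3846a8ed279f22275c35d05dff8f630d2832bed7fd36722f575c2ad6b7c98f6cecafe6f240d34c7f3cc8ed3e58557984c2b73f57f8f6eadd126f240d67d4729057ed6c3a9665c251c3b838f630d2252b447fd386b7c375c1a3355a78f630d54 = true := by decide +kernel

theorem cB16_9_3_143 : chunkOkM (LB16_9.ctx true true 265 55 32 11 16 741 555 128 128) muQ true true 64 RtB16_9.Cx.right.right RtB16_9.CX RtB16_9.Ctp.right.right.right.left.left RtB16_9.Ce.right.right.left.right.right.right RtB16_9.CTp.right.left RtB16_9.CEr.right.left 0x17e7c197fd1d3ccfc75c118a0c368f66af52317f540d = true := by decide +kernel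

theorem cB16_9_3_144 : chunkOkM (LB16_9.ctx true true 269 53 32 11 16 1521 555 128 128) muQ true true 64 RtB16_9.Cx.right RtB16_9.CX RtB16_9.Ctp.right.right.right.left.right RtB16_9.Ce.right.right.left.right.right.right RtB16_9.CTp.right.left RtB16_9.CEr.right.left 0x11111bb5f3948ed2bf81f075c9746086f6800ff857f240d73 = true := by decide +kernel

theorem cB16_9_3_145 : chunkOkM (LB16_9.ctx true true 279 55 32 11 16 767 555 512 512) muQ true true 64 RtB16_9.Cx.right RtB16_9.CX RtB16_9.Ctp.right.right.right.left RtB16_9.Ce.right.right.left.right.right RtB16_9.CTp.right.left RtB16_9.CEr.right.right 0x5a5a55db6107f02bfbb72b6f05b1d2f77e7fd1a17ee575cf89596b7f6159140b7f540d73102c55aa8f06b465a565a5 = true := by decide +kernel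

theorem cB16_9_3_146 : chunkOkM (LB16_9.ctx true true 279 55 32 11 16 767 555 512 512) muQ true true 64 RtB16_9.Cx.right RtB16_9.CX RtB16_9.Ctp.right.right.right.left RtB16_9.Ce.right.right.left.right.right RtB16_9.CTp.right.right RtB16_9.CEr.right.left 0x126aefd2576fde9367207e66af4c6b7f230d2443d117f05bc517dd6fd15be99f58f6179f9767f530d7c7ce0977f06b4356a65126 = true := by decide +kernel

theorem cB16_9_3_147 : chunkOkM (LB16_9.ctx true true 272 55 32 11 16 1495 1115 128 128) muQ true true 64 RtB16_9.Cx.right RtB16_9.CX RtB16_9.Ctp.right.right.right.left RtB16_9.Ce.right.right.left.right.right RtB16_9.CTp.right.right RtB16_9.CEr.right.right 0x1392a837fd29ecc465c343cd9d88e66ae81cf7f240d10f7cbe7fd1e7530d7e8ba27aec7f662604d57f540dec55e237ed5e287c65c119e1cb58f630dce42d877ed22869465c1e5f95628f61acaa467f540ddf436a07ed4208ae65cb26475f9192ebd3f8f61dd7bca7f550d43710713b47fd63b6c86f9b6b7b617f6213cf357f540d43 = true := by decide +kernel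

theorem cB16_9_3_148 : chunkOkM (LB16_9.ctx true true 230 13 8 11 16 403 65 64 32) muQ true true 64 RtB16_9.Cx RtB16_9.CX RtB16_9.Ctp.right.right.right.right RtB16_9.Ce.right.right.left RtB16_9.CTp.right RtB16_9.CEr 0x139655d48ed1c014f65c2b1a1fe7f133777ac28f040d = true := by decide +kernel

theorem cB16_9_3_149 : chunkOkM (LB16_9.ctx true true 99 1 1 1 1 1 1 1 1) muQ true true 64 RtB16_9.Cx.left RtB16_9.CX RtB16_9.Ctp.right.right RtB16_9.Ce.right.right.right.left RtB16_9.CTp RtB16_9.CEr 0x21 = true := by decide +kernel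

end Vale.Agent.helper4.Q4
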