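import Vale.Agent.helper4.Q4TreeM
import Vale.Agent.helper4.Q4G.PB16_9

/-!
Checks for pairs of intervals of second moments.
-/

set_option maxRecDepth 100000
set_option linter.unusedVariables false

namespace Vale.Agent.helper4.Q4

theorem cB16_9_3_150 : chunkOkM (LB16_9.ctx true true 281 55 32 21 32 1443 1135 256 128) muQ true true 64 RtB16_9.Cx.right RtB16_9.CX RtB16_9.Ctp.right.right.left RtB16_9.Ce.right.right.right.left RtB16_9.CTp RtB16_9.CEr 0x5959127f36128ed1abd5ca75c1c174b6f975a96257e85a1a2427f6ec85ed47f560d1370f1878ed173db5575c2c448aa7f6b8c497f7f540df7b944a7edef03b465c328747d7f6c771e027f540d6426459b3f8ed3be80c07f6d125b0d7f530d64a22d795ea8ed2a1364775ca2226768b25eed457f6c5e1bc67f550d396a38888ed2a8047b75c3ee0ce77f6de0b99f7f540d684a5425559359745934593 = true := by decide +kernel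

theorem cB16_9_3_151 : chunkOkM (LB16_9.ctx true true 99 1 1 1 1 1 1 1 1) muQ true true 64 RtB16_9.Cx.right RtB16_9.CX RtB16_9.Ctp.right.right.right RtB16_9.Ce.right.right.right.left RtB16_9.CTp.left.left RtB16_9.CEr 0x42 = true := by decide +kernel

theorem cB16_9_3_152 : chunkOkM (LB16_9.ctx true true 99 1 1 1 1 1 1 1 1) muQ true true 64 RtB16_9.Cx.right RtB16_9.CX RtB16_9.Ctp.right.right.right RtB16_9.Ce.right.right.right.left RtB16_9.CTp.left.right.left RtB16_9.CEr 0x4a = true := by decide +kernel

theorem cB16_9_3_153 : chunkOkM (LB16_9.ctx true true 99 1 1 1 1 1 1 1 1) muQ true true 64 RtB16_9.Cx.right RtB16_9.CX.left RtB16_9.Ctp.right.right.right.left RtB16_9.Ce.right.right.right.left RtB16_9.CTp.left.right.right RtB16_9.CEr.left.left 0x12 = true := by decide +kernel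

theorem cB16_9_3_154 : chunkOkM (LB16_9.ctx true true 99 1 1 1 1 1 1 1 1) muQ true true 64 RtB16_9.Cx.right RtB16_9.CX.left RtB16_9.Ctp.right.right.right.left RtB16_9.Ce.right.right.right.left RtB16_9.CTp.left.right.right RtB16_9.CEr.left.right.left 0x6a = true := by decide +kernel

theorem cB16_9_3_155 : chunkOkM (LB16_9.ctx true true 290 107 64 21 32 1495 1135 256 256) muQ true true 64 RtB16_9.Cx.right RtB16_9.CX.left RtB16_9.Ctp.right.right.right.left.left RtB16_9.Ce.right.right.right.left.left.left RtB16_9.CTp.left.right.right RtB16_9.CEr.left.right.right 0x34d68e27fd447830a75c1c81868a8f625f5a027f540d44735ef7fd4e0d4f275c783a2068b6f5f2d97f69b192467f550d3505684f7fd68f822d75c23908b468f630d5f15e677fd5aaba0775cc3aa7a68b37747b748f640d4691a060f07fd1c7debe75cb32d9568b42cef4278f640d47207939d7fd235159875c4cbc5768b1cbb65dc8f638443ea7f550d69737 = true := by decide +kernel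

theorem cB16_9_3_156 : chunkOkM (LB16_9.ctx true true 290 111 64 21 32 1495 1155 256 256) muQ true true 64 RtB16_9.Cx.right RtB16_9.CX.left RtB16_9.Ctp.right.right.right.left.left RtB16_9.Ce.right.right.right.left.left.right RtB16_9.CTp.left.right.right RtB16_9.CEr.left.right.right 0x22ec1ae7fd2500fb775c3d68ab68b15f788678f64f305ac7f550d2dca1b87fd3a6f6eb75c2a1d40298f630d71ed5056fd2f29d065c23008e998f64b55da47f540d36eec257fd44e36bf75c2a602ec98f692717b6f540d74cfdc2517f05b3697 = true := by decide +kernel

theorem cB16_9_3_157 : chunkOkM (LB16_9.ctx true true 290 107 64 21 32 1547 1155 256 256) muQ true true 64 RtB16_9.Cx.right.left RtB16_9.CX.left RtB16_9.Ctp.right.right.right.left.right RtB16_9.Ce.right.right.right.left.left RtB16_9.CTp.left.right.right RtB16_9.CEr.left.right.right 0x2bc6b787fd35d4e2475c6689f468b1ab62c9d8f669e40b97f250d2405fd3b8ed2c0242d75c9984cfb77ba7bb29a7f240d2e5614a7fd3a459ec75c6cc6cd68b2310149c8f63668b7d7f250d342173bcbb457fd4c25e0975c61f21f68b1d94ab968f64288b787f250d3d2c2047fd55326d975c38191168b22b348858f640d428cdb7b7fd362532f75c6707be68b13e2d28d8f66d56f887f250d74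 = true := by decide +kernel

theorem cB16_9_3_158 : chunkOkM (LB16_9.ctx true true 290 111 64 21 32 1547 1155 256 256) muQ true true 64 RtB16_9.Cx.right.right RtB16_9.CX.left RtB16_9.Ctp.right.right.right.left.right RtB16_9.Ce.right.right.right.left.left RtB16_9.CTp.left.right.right RtB16_9.CEr.left.right.right 0x17803db7fd18aa28c75c9e6a0a68b67cb0bd7f69aec5397f250d291218f08f06b2fcf2847fd3e9934475c51d55968b23a05f378f640d732fa32957fd3da0b4c75c4b11dd68b1c8c8cd68f640d404 = true := by decide +kernel

theorem cB16_9_3_159 : chunkOkM (LB16_9.ctx true true 99 1 1 1 1 1 1 1 1) muQ true true 64 RtB16_9.Cx.right.left RtB16_9.CX.left RtB16_9.Ctp.right.right.right.left RtB16_9.Ce.right.right.right.left.right RtB16_9.CTp.left.right.right RtB16_9.CEr.left.right.right 0x21 = true := by decide +kernel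

theorem cB16_9_3_160 : chunkOkM (LB16_9.ctx true true 274 55 32 21 32 741 295 256 256) muQ true true 64 RtB16_9.Cx.right.right RtB16_9.CX.left RtB16_9.Ctp.right.right.right.left.left RtB16_9.Ce.right.right.right.left.right RtB16_9.CTp.left.right.right RtB16_9.CEr.left.right.right 0x1c23b397fd1b6a3b675c73796e68bc52400c7f6ab600b67f550d = true := by decide +kernel

theorem cB16_9_3_161 : chunkOkM (LB16_9.ctx true true 290 111 64 21 32 1547 1175 256 256) muQ true true 64 RtB16_9.Cx.right.right RtB16_9.CX.left RtB16_9.Ctp.right.right.right.left.right RtB16_9.Ce.right.right.right.left.right.left RtB16_9.CTp.left.right.right RtB16_9.CEr.left.right.right 0x2c4cf1d7fd33d33cb75c95a7d968b24d5f9118f640d31648487fd427b8c475c40c3e868b350af7418f640d434e6a627fd4508cbe75c311ef4eb8f630d41e2de07fd4d61ba875c341d5668b2e2e681c8f640d4329f2cc77fd300a89675c8a62eb68b33c4ad198f67518c407f250d693254b71ae8ed366eff475c479027b77b21c05aa68f651c2e4d7f250d2c7c5f77fd39aea5f75c45ee5268b3c4030f18f640d347 = true := by decide +kernel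

theorem cB16_9_3_162 : chunkOkM (LB16_9.ctx true true 297 223 128 21 32 1547 1195 256 256) muQ true true 64 RtB16_9.Cx.right.right RtB16_9.CX.left RtB16_9.Ctp.right.right.right.left.right RtB16_9.Ce.right.right.right.left.right.right RtB16_9.CTp.left.right.right RtB16_9.CEr.left.right.right 0x23362aa7fd2f9f4cd75c696c4668b41e963938f62d69bc97f250d30c341128ed3dabca075c5a68bd177b27d949fe8f640d45c2ed27fd58ae3fb75c58110968b2e5dfc3a8f62f4fc267f250d7412140e6639f06b3217 = true := by decide +kernel

theorem cB16_9_3_163 : chunkOkM (LB16_9.ctx true true 99 1 1 1 1 1 1 1 1) muQ true true 64 RtB16_9.Cx.right RtB16_9.CX.left RtB16_9.Ctp.right.right.right.left RtB16_9.Ce.right.right.right.left RtB16_9.CTp.left.right.right.left RtB16_9.CEr.right.left.left 0x5a = true := by decide +kernel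

theorem cB16_9_3_164 : chunkOkM (LB16_9.ctx true true 99 1 1 1 1 1 1 1 1) muQ true true 64 RtB16_9.Cx.right RtB16_9.CX.left RtB16_9.Ctp.right.right.right.left RtB16_9.Ce.right.right.right.left RtB16_9.CTp.left.right.right.right.left RtB16_9.CEr.right.left.left.left 0x5a = true := by decide +kernel

theorem cB16_9_3_165 : chunkOkM (LB16_9.ctx true true 301 107 64 21 32 1495 575 1024 1024) muQ true true 64 RtB16_9.Cx.right RtB16_9.CX.left RtB16_9.Ctp.right.right.right.left.left RtB16_9.Ce.right.right.right.left.left RtB16_9.CTp.left.right.right.right.right RtB16_9.CEr.right.left.left.left.left 0xc220f365c6686658b117d8aa48f645506ca7f540dcb38ddc7f05b369716e8e3248fd169521f685c3a2ec668bc92b7787f65cedd047f550d195b9a7b8f06b13ee3b278fd1591912385c226abdd88f614fe7237f240d72ee8b1df8f06b374 = true := by decide +kernel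

theorem cB16_9_3_166 : chunkOkM (LB16_9.ctx true true 300 107 64 21 32 767 1155 1024 1024) muQ true true 64 RtB16_9.Cx.right RtB16_9.CX.left RtB16_9.Ctp.right.right.right.left.right RtB16_9.Ce.right.right.right.left.left RtB16_9.CTp.left.right.right.right.right RtB16_9.CEr.right.left.left.left.left 0x53b245fdeb7bb765c3cb33468b1bf82a838f62f5ed5f250d118d33c88f06b40410a8a9375c1d9d9568b1485c1d38f63e7e66b7f240d21715e52a6fd10c3c5475c21774a68bc503d537f66058d557f250d47 = true := by decide +kernel

theorem cB16_9_3_167 : chunkOkM (LB16_9.ctx true true 99 1 1 1 1 1 1 1 1) muQ true true 64 RtB16_9.Cx.right.left RtB16_9.CX.left RtB16_9.Ctp.right.right.right.left RtB16_9.Ce.right.right.right.left.right RtB16_9.CTp.left.right.right.right.right RtB16_9.CEr.right.left.left.left.left 0x21 = true := by decide +kernel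

theorem cB16_9_3_168 : chunkOkM (LB16_9.ctx true true 288 55 32 21 32 741 295 1024 1024) muQ true true 64 RtB16_9.Cx.right.right RtB16_9.CX.left RtB16_9.Ctp.right.right.right.left.left RtB16_9.Ce.right.right.right.left.right RtB16_9.CTp.left.right.right.right.right RtB16_9.CEr.right.left.left.left.left 0x120092468fd122470a76c918b43f7f6888762b7f540d = true := by decide +kernel

end Vale.Agent.helper4.Q4
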