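import Vale.Agent.helper4.Q4TreeM
import Vale.Agent.helper4.Q4G.PB16_9

/-!
Checks for pairs of intervals of second moments.
-/

set_option maxRecDepth 100000
set_option linter.unusedVariables false

namespace Vale.Agent.helper4.Q4

theorem cB16_9_3_169 : chunkOkM (LB16_9.ctx true true 304 111 64 21 32 1547 1195 1024 1024) muQ true true 64 RtB16_9.Cx.right.right RtB16_9.CX.left RtB16_9.Ctp.right.right.right.left.right RtB16_9.Ce.right.right.right.left.right RtB16_9.CTp.left.right.right.right.right RtB16_9.CEr.right.left.left.left.left 0x380e46808f06b23444a175c2aa8c5848f6c6dad76f230d429554ce88f06b321710f109a75c35198468b1d08c0ff8f630d1f7ef3828f06b1a410cd28f06b434463c487fd54d910975c27b3e468b18401b098f62385f397f250dcd715665c3004c468b1a7c96f08f6255cb967f240d474 = true := by decide +kernel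

theorem cB16_9_3_170 : chunkOkM (LB16_9.ctx true true 99 1 1 1 1 1 1 1 1) muQ true true 64 RtB16_9.Cx.right RtB16_9.CX.left RtB16_9.Ctp.right.right.right.left RtB16_9.Ce.right.right.right.left RtB16_9.CTp.left.right.right.right.right RtB16_9.CEr.right.left.left.left.right 0x5a = true := by decide +kernel

theorem cB16_9_3_171 : chunkOkM (LB16_9.ctx true true 99 1 1 1 1 1 1 1 1) muQ true true 64 RtB16_9.Cx.right RtB16_9.CX.left RtB16_9.Ctp.right.right.right.left RtB16_9.Ce.right.right.right.left RtB16_9.CTp.left.right.right.right RtB16_9.CEr.right.left.left.right 0x5a = true := by decide +kernel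

theorem cB16_9_3_172 : chunkOkM (LB16_9.ctx true true 99 1 1 1 1 1 1 1 1) muQ true true 64 RtB16_9.Cx.right RtB16_9.CX.left RtB16_9.Ctp.right.right.right.left RtB16_9.Ce.right.right.right.left RtB16_9.CTp.left.right.right RtB16_9.CEr.right.left.right 0x5a = true := by decide +kernel

theorem cB16_9_3_173 : chunkOkM (LB16_9.ctx true true 99 1 1 1 1 1 1 1 1) muQ true true 64 RtB16_9.Cx.right RtB16_9.CX.left RtB16_9.Ctp.right.right.right.left RtB16_9.Ce.right.right.right.left RtB16_9.CTp.left.right.right RtB16_9.CEr.right.right 0x52 = true := by decide +kernel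

theorem cB16_9_3_174 : chunkOkM (LB16_9.ctx true true 295 223 128 21 32 6253 595 256 64) muQ true true 64 RtB16_9.Cx.right RtB16_9.CX.left RtB16_9.Ctp.right.right.right.right RtB16_9.Ce.right.right.right.left RtB16_9.CTp.left.right.right RtB16_9.CEr 0x010101012516343e8ed30f835675c93789168b15b2f707f6d792fb77f250d22e0ef8b8ed1630ad3384c13fc04378b541601a7f6fc15e317f250d61141143330170173017 = true := by decide +kernel

theorem cB16_9_3_175 : chunkOkM (LB16_9.ctx true true 99 1 1 1 1 1 1 1 1) muQ true true 64 RtB16_9.Cx.right RtB16_9.CX.right RtB16_9.Ctp.right.right.right RtB16_9.Ce.right.right.right.left RtB16_9.CTp.left.right.right RtB16_9.CEr 0x4a = true := by decide +kernel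

theorem cB16_9_3_176 : chunkOkM (LB16_9.ctx true true 99 1 1 1 1 1 1 1 1) muQ true true 64 RtB16_9.Cx.right RtB16_9.CX RtB16_9.Ctp.right.right.right.left RtB16_9.Ce.right.right.right.left RtB16_9.CTp.right RtB16_9.CEr.left.left 0x12 = true := by decide +kernel

theorem cB16_9_3_177 : chunkOkM (LB16_9.ctx true true 99 1 1 1 1 1 1 1 1) muQ true true 64 RtB16_9.Cx.right RtB16_9.CX RtB16_9.Ctp.right.right.right.left RtB16_9.Ce.right.right.right.left RtB16_9.CTp.right.left RtB16_9.CEr.left.right.left 0x12 = true := by decide +kernel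

theorem cB16_9_3_178 : chunkOkM (LB16_9.ctx true true 99 1 1 1 1 1 1 1 1) muQ true true 64 RtB16_9.Cx.right RtB16_9.CX RtB16_9.Ctp.right.right.right.left RtB16_9.Ce.right.right.right.left RtB16_9.CTp.right.left.left RtB16_9.CEr.left.right.right.left 0x12 = true := by decide +kernel

theorem cB16_9_3_179 : chunkOkM (LB16_9.ctx true true 99 1 1 1 1 1 1 1 1) muQ true true 64 RtB16_9.Cx.right RtB16_9.CX RtB16_9.Ctp.right.right.right.left RtB16_9.Ce.right.right.right.left RtB16_9.CTp.right.left.left.left RtB16_9.CEr.left.right.right.right.left 0x6a = true := by decide +kernel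

theorem cB16_9_3_180 : chunkOkM (LB16_9.ctx true true 99 1 1 1 1 1 1 1 1) muQ true true 64 RtB16_9.Cx.right RtB16_9.CX RtB16_9.Ctp.right.right.right.left RtB16_9.Ce.right.right.right.left RtB16_9.CTp.right.left.left.left RtB16_9.CEr.left.right.right.right.right.left 0x6a = true := by decide +kernel

theorem cB16_9_3_181 : chunkOkM (LB16_9.ctx true true 99 1 1 1 1 1 1 1 1) muQ true true 64 RtB16_9.Cx.right RtB16_9.CX RtB16_9.Ctp.right.right.right.left RtB16_9.Ce.right.right.right.left RtB16_9.CTp.right.left.left.left RtB16_9.CEr.left.right.right.right.right.right.left 0x6a = true := by decide +kernel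

theorem cB16_9_3_182 : chunkOkM (LB16_9.ctx true true 320 107 64 41 64 1495 575 4096 4096) muQ true true 64 RtB16_9.Cx.right RtB16_9.CX.left.left RtB16_9.Ctp.right.right.right.left.left RtB16_9.Ce.right.right.right.left.left RtB16_9.CTp.right.left.left.left.left.left.left RtB16_9.CEr.left.right.right.right.right.right.right 0x2f7f7f6fd110831348f646e2be27f530dcb12bdc7f05b369718dd156c924ad357f66cf843e7f530d166f0b0c8f06b133f740e8f06b723f9484f8f06b374 = true := by decide +kernel

theorem cB16_9_3_183 : chunkOkM (LB16_9.ctx true true 310 55 32 41 64 767 575 4096 4096) muQ true true 64 RtB16_9.Cx.right RtB16_9.CX.left.left RtB16_9.Ctp.right.right.right.left.right RtB16_9.Ce.right.right.right.left.left RtB16_9.CTp.right.left.left.left.left.left.left RtB16_9.CEr.left.right.right.right.right.right.right 0x1731b0bf8f06b042f7f7f6fd137018058f639ee65a7f230de0fbddd7f664e20887f220d47 = true := by decide +kernel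

theorem cB16_9_3_184 : chunkOkM (LB16_9.ctx true true 323 111 64 41 64 1547 1195 4096 4096) muQ true true 64 RtB16_9.Cx.right RtB16_9.CX.left.left RtB16_9.Ctp.right.right.right.left RtB16_9.Ce.right.right.right.left.right RtB16_9.CTp.right.left.left.left.left.left.left RtB16_9.CEr.left.right.right.right.right.right.right 0x1acc83158f06b182762548f06b422b31a9d8f06b3217142a3c108f06b1abfcf65c1308a96b8f6a10dec17f230d7789dbf6fd1a5382148f61f87f197f530d1b4d91668f06b734e9549a97f05b3217 = true := by decide +kernel

theorem cB16_9_3_185 : chunkOkM (LB16_9.ctx true true 99 1 1 1 1 1 1 1 1) muQ true true 64 RtB16_9.Cx.right RtB16_9.CX.left.right RtB16_9.Ctp.right.right.right.left RtB16_9.Ce.right.right.right.left RtB16_9.CTp.right.left.left.left.left.left.left RtB16_9.CEr.left.right.right.right.right.right.right 0x6a = true := by decide +kernel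

theorem cB16_9_3_186 : chunkOkM (LB16_9.ctx true true 99 1 1 1 1 1 1 1 1) muQ true true 64 RtB16_9.Cx.right RtB16_9.CX.right RtB16_9.Ctp.right.right.right.left RtB16_9.Ce.right.right.right.left RtB16_9.CTp.right.left.left.left.left.left.left RtB16_9.CEr.left.right.right.right.right.right.right 0x4a = true := by decide +kernel

theorem cB16_9_3_187 : chunkOkM (LB16_9.ctx true true 99 1 1 1 1 1 1 1 1) muQ true true 64 RtB16_9.Cx.right RtB16_9.CX RtB16_9.Ctp.right.right.right.left RtB16_9.Ce.right.right.right.left RtB16_9.CTp.right.left.left.left.left.left.right RtB16_9.CEr.left.right.right.right.right.right.right 0x6a = true := by decide +kernel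

theorem cB16_9_3_188 : chunkOkM (LB16_9.ctx true true 99 1 1 1 1 1 1 1 1) muQ true true 64 RtB16_9.Cx.right RtB16_9.CX RtB16_9.Ctp.right.right.right.left RtB16_9.Ce.right.right.right.left RtB16_9.CTp.right.left.left.left.left.right RtB16_9.CEr.left.right.right.right.right.right.right 0x6a = true := by decide +kernel

theorem cB16_9_3_189 : chunkOkM (LB16_9.ctx true true 99 1 1 1 1 1 1 1 1) muQ true true 64 RtB16_9.Cx.right RtB16_9.CX RtB16_9.Ctp.right.right.right.left RtB16_9.Ce.right.right.right.left RtB16_9.CTp.right.left.left.left.right RtB16_9.CEr.left.right.right.right.right.right.right 0x6a = true := by decide +kernel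

theorem cB16_9_3_190 : chunkOkM (LB16_9.ctx true true 99 1 1 1 1 1 1 1 1) muQ true true 64 RtB16_9.Cx.right RtB16_9.CX RtB16_9.Ctp.right.right.right.left RtB16_9.Ce.right.right.right.left RtB16_9.CTp.right.left.left.right RtB16_9.CEr.left.right.right.right 0x12 = true := by decide +kernel

theorem cB16_9_3_191 : chunkOkM (LB16_9.ctx true true 99 1 1 1 1 1 1 1 1) muQ true true 64 RtB16_9.Cx.right RtB16_9.CX RtB16_9.Ctp.right.right.right.left RtB16_9.Ce.right.right.right.left RtB16_9.CTp.right.left.right RtB16_9.CEr.left.right.right 0x12 = true := by decide +kernel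

theorem cB16_9_3_192 : chunkOkM (LB16_9.ctx true true 99 1 1 1 1 1 1 1 1) muQ true true 64 RtB16_9.Cx.right RtB16_9.CX RtB16_9.Ctp.right.right.right.left RtB16_9.Ce.right.right.right.left RtB16_9.CTp.right.right RtB16_9.CEr.left.right 0x12 = true := by decide +kernel

theorem cB16_9_3_193 : chunkOkM (LB16_9.ctx true true 288 211 128 11 16 3003 1135 128 128) muQ true true 64 RtB16_9.Cx.right.left RtB16_9.CX RtB16_9.Ctp.right.right.right.left.left RtB16_9.Ce.right.right.right.left.left.left RtB16_9.CTp.right RtB16_9.CEr.right.left 0xa8e4c167ed2238b667e81bb03e978f630d18cd3ff98ed261e186684c35a3bb168f630d15aa52dc8ed1e0031075c63ae68688f630d31a844f3e8ed25085dd584c27ac74718f630d46919dfdd3f8ed2880afb384c384dab848f630d217475691310962b8ed51ae28218f620d1c89534e8ed1f2c18775c31025b778f61c1055e7f540d546973 = true := by decide +kernel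

theorem cB16_9_3_194 : chunkOkM (LB16_9.ctx true true 289 107 64 11 16 1495 565 512 512) muQ true true 64 RtB16_9.Cx.right.left RtB16_9.CX RtB16_9.Ctp.right.right.right.left.left RtB16_9.Ce.right.right.right.left.left.left RtB16_9.CTp.right RtB16_9.CEr.right.right 0xe104e547ed4127a465c1948d5e38f630df2ad2a37ed5f9ca065c18bd51c58f62e8be1a7f240d7fd481d67ed9ebca55c152c8bc58f6394621e7f540d35a5a10c1d167fd13babad75c1b4d61578f6ecc7796f240d7e9cf26fdbb85f565cf6ef9127f662a1e397f540d365a565a55 = true := by decide +kernel

theorem cB16_9_3_195 : chunkOkM (LB16_9.ctx true true 278 111 64 11 16 1469 1135 128 128) muQ true true 64 RtB16_9.Cx.right.right RtB16_9.CX RtB16_9.Ctp.right.right.right.left.left.left RtB16_9.Ce.right.right.right.left.left.left RtB16_9.CTp.right RtB16_9.CEr.right.left 0xd1751717edd6c927c7f690f67fb7f530d199d14fd8ed1c23ddc75c99ba9257f699141117f540d5a817aff7ed216f6117e86704a4f7f694c424c7f540d1adb6d178ed1de8f2775c15cc15028f66a1baa87f540d5735303f938ed1148e8d884cd0a2c4b7f68215d467f540d171fb4368ed1e2626375c7f78a577f6811a5a67f540d54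 = true := by decide +kernel

theorem cB16_9_3_196 : chunkOkM (LB16_9.ctx true true 278 111 64 11 16 1495 1135 128 128) muQ true true 64 RtB16_9.Cx.right.right RtB16_9.CX RtB16_9.Ctp.right.right.right.left.left.right RtB16_9.Ce.right.right.right.left.left.left RtB16_9.CTp.right RtB16_9.CEr.right.left 0x12e312ea8ed64cbf265c10aff4468f64bd4ee27f540d1364ab408ed19ae9bf75c20d1d23024a8ed1ecfe2275c28bf22918f630d716ff9dcc8ed1f33d7775c3428b6048f630d45 = true := by decide +kernel

end Vale.Agent.helper4.Q4
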