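import Vale.Agent.helper4.Q4TreeM
import Vale.Agent.helper4.Q4G.PB16_9

/-!
Checks for pairs of intervals of second moments.
-/

set_option maxRecDepth 100000
set_option linter.unusedVariables false

namespace Vale.Agent.helper4.Q4

theorem cB16_9_3_197 : chunkOkM (LB16_9.ctx true true 269 55 32 11 16 1495 565 128 128) muQ true true 64 RtB16_9.Cx.right.right RtB16_9.CX RtB16_9.Ctp.right.right.right.left.left RtB16_9.Ce.right.right.right.left.left.left RtB16_9.CTp.right RtB16_9.CEr.right.right 0xdeac4347edafe7d55c11466d728f6289a2497f540d10d0eb368ed9babd497f673dbdcc7f530d33d9ec2198ed337b46a75ca496c1e7f652ab6587f540d5 = true := by decide +kernel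

theorem cB16_9_3_198 : chunkOkM (LB16_9.ctx true true 99 1 1 1 1 1 1 1 1) muQ true true 64 RtB16_9.Cx.right.left RtB16_9.CX RtB16_9.Ctp.right.right.right.left.left RtB16_9.Ce.right.right.right.left.left.right RtB16_9.CTp.right RtB16_9.CEr.right 0x69 = true := by decide +kernel

theorem cB16_9_3_199 : chunkOkM (LB16_9.ctx true true 308 439 256 11 16 11843 4565 128 128) muQ true true 64 RtB16_9.Cx.right.right RtB16_9.CX RtB16_9.Ctp.right.right.right.left.left.left RtB16_9.Ce.right.right.right.left.left.right.left RtB16_9.CTp.right RtB16_9.CEr.right 0x10e27c4e8ed1a0aa66f951aa036e7c87bca77f6b29945d7f550d241424648ed1e6c65475c248ff0e7f6919c52c7f540d559591b42e8ae8ed2005af64c1649b25f8f530d1ca3511f8ed17ffdcbf84cb14d7377f530d5593459759345975937186200618ed859c6f87e87f5c5a67f6ad923a27f540d1d87d5108ed15d098875c100d2ee18f6b48f8507f540d5595921659d8b8ed1f771eca8f6513258e7f530d138d96988ed19c9289d84c3e7119a78f62e48f657f540d55934597593459759376 = true := by decide +kernel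

theorem cB16_9_3_200 : chunkOkM (LB16_9.ctx true true 297 447 256 11 16 5915 2305 64 128) muQ true true 64 RtB16_9.Cx.right.right RtB16_9.CX RtB16_9.Ctp.right.right.right.left.left.left RtB16_9.Ce.right.right.right.left.left.right.right RtB16_9.CTp.right RtB16_9.CEr.right 0x591295428a8ed117949d784ca87974e7f530d1186a83e8edbc2420574cc4fbf997f530d65975934597593597 = true := by decide +kernel

theorem cB16_9_3_201 : chunkOkM (LB16_9.ctx true true 282 111 64 11 16 3003 1145 128 128) muQ true true 64 RtB16_9.Cx.right.right RtB16_9.CX RtB16_9.Ctp.right.right.right.left.left.right RtB16_9.Ce.right.right.right.left.left.right.left RtB16_9.CTp.right RtB16_9.CEr.right.left 0x15ff0d1c8ed30e50e974cb6a78357f669a29327f540d14215ed78ed17a943375c1b1e05048f643267717f540d18c942958ed1fab177a84c3e96bae98f630d199e22f28ed1dbbd3cc84c2ae3213f8f630d21517f540d375 = true := by decide +kernel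

theorem cB16_9_3_202 : chunkOkM (LB16_9.ctx true true 291 219 128 11 16 3003 2305 128 128) muQ true true 64 RtB16_9.Cx.right.right RtB16_9.CX RtB16_9.Ctp.right.right.right.left.left.right RtB16_9.Ce.right.right.right.left.left.right.right RtB16_9.CTp.right RtB16_9.CEr.right.left 0x128956718ed2ae53667e81565f1f98f670a16287f540d197431d68ed1c1b50675c27e344a28f6303848f7f540d18e664888ed207855f384cf7a21377f69d78c527f540d3569a48942f7ed20f1f517e880a521718f630d1277da098ed1738313284c4e7e4ed28f630d546976937 = true := by decide +kernel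

theorem cB16_9_3_203 : chunkOkM (LB16_9.ctx true true 272 55 32 11 16 1495 1155 128 128) muQ true true 64 RtB16_9.Cx.right.right RtB16_9.CX RtB16_9.Ctp.right.right.right.left.left.right RtB16_9.Ce.right.right.right.left.left.right RtB16_9.CTp.right RtB16_9.CEr.right.right 0xce0bcb17ed1cae8a65c14900ce28f6435505d7f540dd46f9e77ed1a806165c165def6f91322b6a18f63a4d8eb7f550d430dd91988ed2e7815c75c11f5023d8f6424c5427f540d5 = true := by decide +kernel

theorem cB16_9_3_204 : chunkOkM (LB16_9.ctx true true 285 107 64 11 16 1521 1135 256 256) muQ true true 64 RtB16_9.Cx.right.left RtB16_9.CX RtB16_9.Ctp.right.right.right.left.right RtB16_9.Ce.right.right.right.left.left.left RtB16_9.CTp.right RtB16_9.CEr.right.left 0xdf7d50f7ed30d45bf74cd8205967f6209ebf97f240df59f6047ed11c46ed884c14313cd68f635286d07f240d1d17a4f7fd3d399cd75c4616d4977b188bf51e8f634691b77f250d29af9ff88ed3846d1475c139269f28f64372c337f240d6519e10b498ed279e5d475c13e9af1d8f630d4011d0a7a9b8ed2ce259e75c216d5af08f6857cbe97f240d1c2e6e9a8ed1cc97e7384c6f836477f658d40017f240d188084fc8ed28a4dc475c24cd54477b118d8eb88f668adc1e7f250d54375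 = true := by decide +kernel

theorem cB16_9_3_205 : chunkOkM (LB16_9.ctx true true 310 863 512 11 16 3055 4605 256 128) muQ true true 64 RtB16_9.Cx.right.left RtB16_9.CX RtB16_9.Ctp.right.right.right.left.right RtB16_9.Ce.right.right.right.left.left.right RtB16_9.CTp.right RtB16_9.CEr.right.left 0xd7017a87ed14222f188f61cddd1a7f230d212118849ea08ed2ab0642b84c6dbef25a8f6990fcd17f240d18caf1068ed2861d2c384c46f7fd538f630d32174217421717a6f06b8ed29346e9b84c7f200c6f6886c49d7f240dfd4ad6c7ed129f389184c1e6b832f8f62a431d37f240d26cfa1fd8ed3ee2e2975c1f04457b267dfd908f61afa8e27f250d5179931fe8ed2865cb6784c3ba6e7828f696db3a67f240d6937345217 = true := by decide +kernel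

theorem cB16_9_3_206 : chunkOkM (LB16_9.ctx true true 288 107 64 11 16 767 1155 512 512) muQ true true 64 RtB16_9.Cx.right.left RtB16_9.CX RtB16_9.Ctp.right.right.right.left.right RtB16_9.Ce.right.right.right.left.left RtB16_9.CTp.right RtB16_9.CEr.right.right 0x11937d628ed176dd05b8f66f9cf7b7f230d10be8c648ed3d997c874c165fb5028f63207ecb7f240d4217f35b8947ed60532d65ccf2ce567f61937ea77f240d10303acf8ed49636665cff5ae277f64bb5cb67f240d745a5a14ac4587fd170978c75c10fdbf698f6373f60b7f240d12adb897fd1999d8275cfa458fa7f63cd392c7f240d465a565a55 = true := by decide +kernel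

end Vale.Agent.helper4.Q4
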