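import Vale.Agent.helper4.Q4TreeM
import Vale.Agent.helper4.Q4G.PB16_9_0
import Vale.Agent.helper4.Q4G.PB16_9_1
import Vale.Agent.helper4.Q4G.PB16_9_2
import Vale.Agent.helper4.Q4G.PB16_9_3
import Vale.Agent.helper4.Q4G.PB16_9_4
import Vale.Agent.helper4.Q4G.PB16_9_5
import Vale.Agent.helper4.Q4G.PB16_9_6
import Vale.Agent.helper4.Q4G.PB16_9_7
import Vale.Agent.helper4.Q4G.PB16_9_8
import Vale.Agent.helper4.Q4G.PB16_9_9
import Vale.Agent.helper4.Q4G.PB16_9_10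
import Vale.Agent.helper4.Q4G.PB16_9_11

/-!
Checks for pairs of intervals of second moments.
-/

set_option maxRecDepth 100000
set_option linter.unusedVariables false

namespace Vale.Agent.helper4.Q4

theorem covB16_9 : LB16_9.Full muQ.val RtB16_9 := ⟨(LitT.Cov.split_t (LitT.cov_of_chunkM cB16_9_3_0) (LitT.Cov.split_e (LitT.cov_of_chunkM cB16_9_3_1) (LitT.Cov.split_t (LitT.Cov.split_e (LitT.Cov.split_e (LitT.cov_of_chunkM cB16_9_3_2) (LitT.Cov.split_t (LitT.cov_of_chunkM cB16_9_3_3) (LitT.Cov.split_e (LitT.Cov.split_t (LitT.Cov.split_x (LitT.Cov.split_T (LitT.cov_of_chunkM cB16_9_3_4) (LitT.cov_of_chunkM cB16_9_3_5)) (LitT.cov_of_chunkM cB16_9_3_6)) (LitT.cov_of_chunkM cB16_9_3_7)) (LitT.Cov.split_t (LitT.cov_of_chunkM cB16_9_3_8) (LitT.Cov.split_T (LitT.cov_of_chunkM cB16_9_3_9) (LitT.Cov.split_e (LitT.cov_of_chunkM cB16_9_3_10) (LitT.cov_of_chunkM cB16_9_3_11)))))))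 (LitT.cov_of_chunkM cB16_9_3_12)) (LitT.Cov.split_e (LitT.Cov.split_t (LitT.Cov.split_e (LitT.cov_of_chunkM cB16_9_3_13) (LitT.Cov.split_t (LitT.Cov.split_e (LitT.cov_of_chunkM cB16_9_3_14) (LitT.Cov.split_T (LitT.cov_of_chunkM cB16_9_3_15) (LitT.Cov.split_E (LitT.cov_of_chunkM cB16_9_3_16) (LitT.cov_of_chunkM cB16_9_3_17)))) (LitT.cov_of_chunkM cB16_9_3_18))) (LitT.cov_of_chunkM cB16_9_3_19)) (LitT.Cov.split_e (LitT.Cov.split_t (LitT.Cov.split_e (LitT.Cov.split_T (LitT.Cov.split_T (LitT.cov_of_chunkM cB16_9_3_20) (LitT.Cov.split_T (LitT.cov_of_chunkM cB16_9_3_21) (LitT.Cov.split_X (LitT.Cov.split_t (LitT.Cov.split_e (LitT.cov_of_chunkM cB16_9_3_22) (LitT.cov_of_chunkM cB16_9_3_23)) (LitT.Cov.split_E (LitT.Cov.split_E (LitT.cov_of_chunkM cB16_9_3_24) (LitT.Cov.split_E (LitT.cov_of_chunkM cB16_9_3_25) (LitT.Cov.split_e (LitT.cov_of_chunkM cB16_9_3_26) (LitT.Cov.split_x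 (LitT.cov_of_chunkM cB16_9_3_27) (LitT.cov_of_chunkM cB16_9_3_28))))) (LitT.cov_of_chunkM cB16_9_3_29))) (LitT.cov_of_chunkM cB16_9_3_30)))) (LitT.Cov.split_t (LitT.Cov.split_e (LitT.Cov.split_E (LitT.cov_of_chunkM cB16_9_3_31) (LitT.Cov.split_x (LitT.Cov.split_t (LitT.cov_of_chunkM cB16_9_3_32) (LitT.Cov.split_e (LitT.cov_of_chunkM cB16_9_3_33) (LitT.cov_of_chunkM cB16_9_3_34))) (LitT.cov_of_chunkM cB16_9_3_35))) (LitT.Cov.split_E (LitT.cov_of_chunkM cB16_9_3_36) (LitT.Cov.split_t (LitT.cov_of_chunkM cB16_9_3_37) (LitT.Cov.split_x (LitT.cov_of_chunkM cB16_9_3_38) (LitT.cov_of_chunkM cB16_9_3_39))))) (LitT.Cov.split_E (LitT.cov_of_chunkM cB16_9_3_40) (LitT.Cov.split_x (LitT.Cov.split_e (LitT.cov_of_chunkM cB16_9_3_41) (LitT.Cov.split_E (LitT.Cov.split_t (LitT.Cov.split_e (LitT.cov_of_chunkM cB16_9_3_42) (LitT.cov_of_chunkM cB16_9_3_43)) (LitT.Cov.split_T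 (LitT.Cov.split_e (LitT.cov_of_chunkM cB16_9_3_44) (LitT.cov_of_chunkM cB16_9_3_45)) (LitT.cov_of_chunkM cB16_9_3_46))) (LitT.Cov.split_T (LitT.cov_of_chunkM cB16_9_3_47) (LitT.cov_of_chunkM cB16_9_3_48)))) (LitT.cov_of_chunkM cB16_9_3_49))))) (LitT.Cov.split_t (LitT.cov_of_chunkM cB16_9_3_50) (LitT.Cov.split_T (LitT.Cov.split_T (LitT.cov_of_chunkM cB16_9_3_51) (LitT.Cov.split_T (LitT.cov_of_chunkM cB16_9_3_52) (LitT.Cov.split_X (LitT.Cov.split_e (LitT.Cov.split_E (LitT.cov_of_chunkM cB16_9_3_53) (LitT.cov_of_chunkM cB16_9_3_54)) (LitT.cov_of_chunkM cB16_9_3_55)) (LitT.cov_of_chunkM cB16_9_3_56)))) (LitT.Cov.split_E (LitT.Cov.split_E (LitT.cov_of_chunkM cB16_9_3_57) (LitT.Cov.split_T (LitT.Cov.split_T (LitT.Cov.split_E (LitT.cov_of_chunkM cB16_9_3_58) (LitT.Cov.split_T (LitT.Cov.split_E (LitT.cov_of_chunkM cB16_9_3_59) (LitT.Cov.split_T (LitT.Cov.split_E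 (LitT.cov_of_chunkM cB16_9_3_60) (LitT.Cov.split_E (LitT.cov_of_chunkM cB16_9_3_61) (LitT.Cov.split_E (LitT.cov_of_chunkM cB16_9_3_62) (LitT.Cov.split_T (LitT.Cov.split_T (LitT.Cov.split_X (LitT.Cov.split_X (LitT.Cov.split_e (LitT.cov_of_chunkM cB16_9_3_63) (LitT.cov_of_chunkM cB16_9_3_64)) (LitT.cov_of_chunkM cB16_9_3_65)) (LitT.cov_of_chunkM cB16_9_3_66)) (LitT.cov_of_chunkM cB16_9_3_67)) (LitT.cov_of_chunkM cB16_9_3_68))))) (LitT.cov_of_chunkM cB16_9_3_69))) (LitT.cov_of_chunkM cB16_9_3_70))) (LitT.cov_of_chunkM cB16_9_3_71)) (LitT.cov_of_chunkM cB16_9_3_72))) (LitT.Cov.split_e (LitT.Cov.split_x (LitT.Cov.split_t (LitT.cov_of_chunkM cB16_9_3_73) (LitT.Cov.split_e (LitT.Cov.split_E (LitT.Cov.split_x (LitT.cov_of_chunkM cB16_9_3_74) (LitT.cov_of_chunkM cB16_9_3_75)) (LitT.cov_of_chunkM cB16_9_3_76)) (LitT.Cov.split_x (LitT.cov_of_chunkM cB16_9_3_77) (LitT.Cov.split_E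 (LitT.cov_of_chunkM cB16_9_3_78) (LitT.cov_of_chunkM cB16_9_3_79))))) (LitT.Cov.split_t (LitT.Cov.split_e (LitT.cov_of_chunkM cB16_9_3_80) (LitT.cov_of_chunkM cB16_9_3_81)) (LitT.Cov.split_E (LitT.cov_of_chunkM cB16_9_3_82) (LitT.cov_of_chunkM cB16_9_3_83)))) (LitT.Cov.split_x (LitT.cov_of_chunkM cB16_9_3_84) (LitT.Cov.split_t (LitT.cov_of_chunkM cB16_9_3_85) (LitT.Cov.split_e (LitT.Cov.split_x (LitT.Cov.split_E (LitT.cov_of_chunkM cB16_9_3_86) (LitT.cov_of_chunkM cB16_9_3_87)) (LitT.cov_of_chunkM cB16_9_3_88)) (LitT.Cov.split_x (LitT.cov_of_chunkM cB16_9_3_89) (LitT.cov_of_chunkM cB16_9_3_90)))))))))) (LitT.Cov.split_T (LitT.Cov.split_T (LitT.cov_of_chunkM cB16_9_3_91) (LitT.Cov.split_T (LitT.cov_of_chunkM cB16_9_3_92) (LitT.Cov.split_X (LitT.Cov.split_t (LitT.Cov.split_E (LitT.Cov.split_E (LitT.cov_of_chunkM cB16_9_3_93) (LitT.Cov.split_E (LitT.cov_of_chunkM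 cB16_9_3_94) (LitT.Cov.split_e (LitT.cov_of_chunkM cB16_9_3_95) (LitT.Cov.split_x (LitT.Cov.split_t (LitT.Cov.split_e (LitT.cov_of_chunkM cB16_9_3_96) (LitT.cov_of_chunkM cB16_9_3_97)) (LitT.cov_of_chunkM cB16_9_3_98)) (LitT.cov_of_chunkM cB16_9_3_99))))) (LitT.Cov.split_E (LitT.Cov.split_E (LitT.Cov.split_T (LitT.cov_of_chunkM cB16_9_3_100) (LitT.Cov.split_E (LitT.Cov.split_T (LitT.cov_of_chunkM cB16_9_3_101) (LitT.Cov.split_E (LitT.Cov.split_e (LitT.cov_of_chunkM cB16_9_3_102) (LitT.Cov.split_x (LitT.cov_of_chunkM cB16_9_3_103) (LitT.cov_of_chunkM cB16_9_3_104))) (LitT.cov_of_chunkM cB16_9_3_105))) (LitT.cov_of_chunkM cB16_9_3_106))) (LitT.cov_of_chunkM cB16_9_3_107)) (LitT.cov_of_chunkM cB16_9_3_108))) (LitT.cov_of_chunkM cB16_9_3_109)) (LitT.cov_of_chunkM cB16_9_3_110)))) (LitT.Cov.split_t (LitT.Cov.split_E (LitT.Cov.split_E (LitT.cov_of_chunkM cB16_9_3_111)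 (LitT.Cov.split_T (LitT.Cov.split_E (LitT.cov_of_chunkM cB16_9_3_112) (LitT.Cov.split_T (LitT.Cov.split_X (LitT.Cov.split_E (LitT.cov_of_chunkM cB16_9_3_113) (LitT.Cov.split_X (LitT.Cov.split_E (LitT.cov_of_chunkM cB16_9_3_114) (LitT.Cov.split_E (LitT.cov_of_chunkM cB16_9_3_115) (LitT.Cov.split_E (LitT.cov_of_chunkM cB16_9_3_116) (LitT.Cov.split_T (LitT.Cov.split_T (LitT.Cov.split_T (LitT.Cov.split_T (LitT.Cov.split_e (LitT.cov_of_chunkM cB16_9_3_117) (LitT.cov_of_chunkM cB16_9_3_118)) (LitT.cov_of_chunkM cB16_9_3_119)) (LitT.cov_of_chunkM cB16_9_3_120)) (LitT.cov_of_chunkM cB16_9_3_121)) (LitT.cov_of_chunkM cB16_9_3_122))))) (LitT.cov_of_chunkM cB16_9_3_123))) (LitT.cov_of_chunkM cB16_9_3_124)) (LitT.cov_of_chunkM cB16_9_3_125))) (LitT.cov_of_chunkM cB16_9_3_126))) (LitT.Cov.split_e (LitT.cov_of_chunkM cB16_9_3_127) (LitT.Cov.split_x (LitT.Cov.split_t (LitT.Cov.split_e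 (LitT.Cov.split_E (LitT.Cov.split_T (LitT.Cov.split_x (LitT.cov_of_chunkM cB16_9_3_128) (LitT.cov_of_chunkM cB16_9_3_129)) (LitT.cov_of_chunkM cB16_9_3_130)) (LitT.cov_of_chunkM cB16_9_3_131)) (LitT.Cov.split_x (LitT.cov_of_chunkM cB16_9_3_132) (LitT.Cov.split_e (LitT.Cov.split_E (LitT.Cov.split_T (LitT.Cov.split_x (LitT.cov_of_chunkM cB16_9_3_133) (LitT.cov_of_chunkM cB16_9_3_134)) (LitT.cov_of_chunkM cB16_9_3_135)) (LitT.cov_of_chunkM cB16_9_3_136)) (LitT.cov_of_chunkM cB16_9_3_137)))) (LitT.cov_of_chunkM cB16_9_3_138)) (LitT.Cov.split_e (LitT.cov_of_chunkM cB16_9_3_139) (LitT.Cov.split_T (LitT.Cov.split_E (LitT.Cov.split_e (LitT.cov_of_chunkM cB16_9_3_140) (LitT.Cov.split_t (LitT.Cov.split_x (LitT.Cov.split_t (LitT.cov_of_chunkM cB16_9_3_141) (LitT.cov_of_chunkM cB16_9_3_142)) (LitT.cov_of_chunkM cB16_9_3_143)) (LitT.cov_of_chunkM cB16_9_3_144))) (LitT.cov_of_chunkM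 cB16_9_3_145)) (LitT.Cov.split_E (LitT.cov_of_chunkM cB16_9_3_146) (LitT.cov_of_chunkM cB16_9_3_147))))))) (LitT.cov_of_chunkM cB16_9_3_148)))) (LitT.Cov.split_e (LitT.Cov.split_x (LitT.cov_of_chunkM cB16_9_3_149) (LitT.Cov.split_t (LitT.cov_of_chunkM cB16_9_3_150) (LitT.Cov.split_T (LitT.Cov.split_T (LitT.cov_of_chunkM cB16_9_3_151) (LitT.Cov.split_T (LitT.cov_of_chunkM cB16_9_3_152) (LitT.Cov.split_X (LitT.Cov.split_t (LitT.Cov.split_E (LitT.Cov.split_E (LitT.cov_of_chunkM cB16_9_3_153) (LitT.Cov.split_E (LitT.cov_of_chunkM cB16_9_3_154) (LitT.Cov.split_e (LitT.Cov.split_t (LitT.Cov.split_e (LitT.cov_of_chunkM cB16_9_3_155) (LitT.cov_of_chunkM cB16_9_3_156)) (LitT.Cov.split_x (LitT.cov_of_chunkM cB16_9_3_157) (LitT.cov_of_chunkM cB16_9_3_158))) (LitT.Cov.split_x (LitT.cov_of_chunkM cB16_9_3_159) (LitT.Cov.split_t (LitT.cov_of_chunkM cB16_9_3_160) (LitT.Cov.split_e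 (LitT.cov_of_chunkM cB16_9_3_161) (LitT.cov_of_chunkM cB16_9_3_162))))))) (LitT.Cov.split_E (LitT.Cov.split_E (LitT.Cov.split_T (LitT.cov_of_chunkM cB16_9_3_163) (LitT.Cov.split_E (LitT.Cov.split_T (LitT.cov_of_chunkM cB16_9_3_164) (LitT.Cov.split_E (LitT.Cov.split_e (LitT.Cov.split_t (LitT.cov_of_chunkM cB16_9_3_165) (LitT.cov_of_chunkM cB16_9_3_166)) (LitT.Cov.split_x (LitT.cov_of_chunkM cB16_9_3_167) (LitT.Cov.split_t (LitT.cov_of_chunkM cB16_9_3_168) (LitT.cov_of_chunkM cB16_9_3_169)))) (LitT.cov_of_chunkM cB16_9_3_170))) (LitT.cov_of_chunkM cB16_9_3_171))) (LitT.cov_of_chunkM cB16_9_3_172)) (LitT.cov_of_chunkM cB16_9_3_173))) (LitT.cov_of_chunkM cB16_9_3_174)) (LitT.cov_of_chunkM cB16_9_3_175)))) (LitT.Cov.split_t (LitT.Cov.split_E (LitT.Cov.split_E (LitT.cov_of_chunkM cB16_9_3_176) (LitT.Cov.split_T (LitT.Cov.split_E (LitT.cov_of_chunkM cB16_9_3_177)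 (LitT.Cov.split_T (LitT.Cov.split_E (LitT.cov_of_chunkM cB16_9_3_178) (LitT.Cov.split_T (LitT.Cov.split_E (LitT.cov_of_chunkM cB16_9_3_179) (LitT.Cov.split_E (LitT.cov_of_chunkM cB16_9_3_180) (LitT.Cov.split_E (LitT.cov_of_chunkM cB16_9_3_181) (LitT.Cov.split_T (LitT.Cov.split_T (LitT.Cov.split_T (LitT.Cov.split_X (LitT.Cov.split_X (LitT.Cov.split_e (LitT.Cov.split_t (LitT.cov_of_chunkM cB16_9_3_182) (LitT.cov_of_chunkM cB16_9_3_183)) (LitT.cov_of_chunkM cB16_9_3_184)) (LitT.cov_of_chunkM cB16_9_3_185)) (LitT.cov_of_chunkM cB16_9_3_186)) (LitT.cov_of_chunkM cB16_9_3_187)) (LitT.cov_of_chunkM cB16_9_3_188)) (LitT.cov_of_chunkM cB16_9_3_189))))) (LitT.cov_of_chunkM cB16_9_3_190))) (LitT.cov_of_chunkM cB16_9_3_191))) (LitT.cov_of_chunkM cB16_9_3_192))) (LitT.Cov.split_e (LitT.Cov.split_t (LitT.Cov.split_e (LitT.Cov.split_x (LitT.Cov.split_E (LitT.cov_of_chunkM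 cB16_9_3_193) (LitT.cov_of_chunkM cB16_9_3_194)) (LitT.Cov.split_E (LitT.Cov.split_t (LitT.cov_of_chunkM cB16_9_3_195) (LitT.cov_of_chunkM cB16_9_3_196)) (LitT.cov_of_chunkM cB16_9_3_197))) (LitT.Cov.split_x (LitT.cov_of_chunkM cB16_9_3_198) (LitT.Cov.split_t (LitT.Cov.split_e (LitT.cov_of_chunkM cB16_9_3_199) (LitT.cov_of_chunkM cB16_9_3_200)) (LitT.Cov.split_E (LitT.Cov.split_e (LitT.cov_of_chunkM cB16_9_3_201) (LitT.cov_of_chunkM cB16_9_3_202)) (LitT.cov_of_chunkM cB16_9_3_203))))) (LitT.Cov.split_x (LitT.Cov.split_E (LitT.Cov.split_e (LitT.cov_of_chunkM cB16_9_3_204) (LitT.cov_of_chunkM cB16_9_3_205)) (LitT.cov_of_chunkM cB16_9_3_206)) (LitT.Cov.split_E (LitT.cov_of_chunkM cB16_9_3_207) (LitT.cov_of_chunkM cB16_9_3_208)))) (LitT.Cov.split_x (LitT.cov_of_chunkM cB16_9_3_209) (LitT.Cov.split_t (LitT.cov_of_chunkM cB16_9_3_210) (LitT.Cov.split_e (LitT.Cov.split_E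 (LitT.Cov.split_T (LitT.Cov.split_x (LitT.cov_of_chunkM cB16_9_3_211) (LitT.Cov.split_t (LitT.cov_of_chunkM cB16_9_3_212) (LitT.cov_of_chunkM cB16_9_3_213))) (LitT.cov_of_chunkM cB16_9_3_214)) (LitT.cov_of_chunkM cB16_9_3_215)) (LitT.Cov.split_x (LitT.cov_of_chunkM cB16_9_3_216) (LitT.Cov.split_t (LitT.cov_of_chunkM cB16_9_3_217) (LitT.Cov.split_E (LitT.cov_of_chunkM cB16_9_3_218) (LitT.cov_of_chunkM cB16_9_3_219))))))))) (LitT.cov_of_chunkM cB16_9_3_220))))) (LitT.cov_of_chunkM cB16_9_3_221))))))), (LitT.cov_of_chunkM cB16_9_1_0), (LitT.cov_of_chunkM cB16_9_2_0), (LitT.cov_of_chunkM cB16_9_0_0)⟩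

end Vale.Agent.helper4.Q4
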