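import Vale.Agent.helper4.Q4TreeM
import Vale.Agent.helper4.Q4G.PB17_10

/-!
Checks for pairs of intervals of second moments.
-/

set_option maxRecDepth 100000
set_option linter.unusedVariables false

namespace Vale.Agent.helper4.Q4

theorem cB17_10_3_0 : chunkOkM (LB17_10.ctx true true 97 1 1 1 1 1 1 1 1) muQ true true 64 RtB17_10.Cx RtB17_10.CX RtB17_10.Ctp.left RtB17_10.Ce RtB17_10.CTp RtB17_10.CEr 0x41 = true := by decide +kernel

theorem cB17_10_3_1 : chunkOkM (LB17_10.ctx true true 97 1 1 1 1 1 1 1 1) muQ true true 64 RtB17_10.Cx RtB17_10.CX RtB17_10.Ctp.right RtB17_10.Ce.left RtB17_10.CTp RtB17_10.CEr 0x69 = true := by decide +kernel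

theorem cB17_10_3_2 : chunkOkM (LB17_10.ctx true true 97 1 1 1 1 1 1 1 1) muQ true true 64 RtB17_10.Cx RtB17_10.CX RtB17_10.Ctp.right RtB17_10.Ce.right RtB17_10.CTp.left RtB17_10.CEr 0x42 = true := by decide +kernel

theorem cB17_10_3_3 : chunkOkM (LB17_10.ctx true true 262 113 64 13 16 665 2145 32 35) muQ true true 64 RtB17_10.Cx RtB17_10.CX RtB17_10.Ctp.right.left RtB17_10.Ce.right RtB17_10.CTp.right RtB17_10.CEr 0x4949492151595958c88ee7ed180347de84c8e037ab7e888be3267f6b93d20a7f5ce04666f460d55251677ed1128ce1184c51aeb107e836b5f2a7f679b6cc37f557bd636f460d41a7ccdf588bfe9ea1f98e838b0a2828f61bb5e2db8f540d64444607de757ed52a3ba874c3dca8947f670375017f5601bcb6f450d488f3037ed1c252da74c77d7cf67f6989ecab7f540d611c4fb2c88bac4f438c8e8455978a7f530d66946941141144777493493493413 = true := by decide +kernel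

theorem cB17_10_3_4 : chunkOkM (LB17_10.ctx true true 97 1 1 1 1 1 1 1 1) muQ true true 64 RtB17_10.Cx RtB17_10.CX RtB17_10.Ctp.right.right RtB17_10.Ce.right.left RtB17_10.CTp.right RtB17_10.CEr 0x69 = true := by decide +kernel

theorem cB17_10_3_5 : chunkOkM (LB17_10.ctx true true 226 15 8 13 16 175 539 32 16) muQ true true 64 RtB17_10.Cx RtB17_10.CX RtB17_10.Ctp.right.right.left.left RtB17_10.Ce.right.right.left.left.left RtB17_10.CTp.right RtB17_10.CEr.left 0x20f213e188b163984d509e820d = true := by decide +kernel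

theorem cB17_10_3_6 : chunkOkM (LB17_10.ctx true true 256 57 32 13 16 693 2189 32 35) muQ true true 64 RtB17_10.Cx.left RtB17_10.CX RtB17_10.Ctp.right.right.left.left.left RtB17_10.Ce.right.right.left.left.left RtB17_10.CTp.right RtB17_10.CEr.right 0x67a2d5d7ed7fa3fbf74c18d8821e8e6473eb427f540d53745467ed598fc6e74c1e037d058e647863387f540d6494efd1207ed1138a84c84c570edb07e839906337f67aa10ef7f544bf7f6f460d6988b537edf05278874c2fb92e47e84631c6e7f540d5a3e3bd7ed4c7188874c35dd1e6f64d885ec7f574a5a06f450d647369726c8c07ed85e369474c22ca68f58e659405257f540d5d40a187ed1aba1a877b2ff41d6e822d96c0b8e65308d797f550d634 = true := by decide +kernel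

theorem cB17_10_3_7 : chunkOkM (LB17_10.ctx true true 252 29 16 13 16 2807 539 32 35) muQ true true 64 RtB17_10.Cx.left RtB17_10.CX RtB17_10.Ctp.right.right.left.left.right RtB17_10.Ce.right.right.left.left.left RtB17_10.CTp.right RtB17_10.CEr.right 0x696969a3924ee7edcae50f374c171fbde18e637da7f47f540d884a1b47ed27d1c0e74c263397577bab578f37e62de77fb7f550d6333 = true := by decide +kernel

theorem cB17_10_3_8 : chunkOkM (LB17_10.ctx true true 97 1 1 1 1 1 1 1 1) muQ true true 64 RtB17_10.Cx.right RtB17_10.CX RtB17_10.Ctp.right.right.left.left RtB17_10.Ce.right.right.left.left.left RtB17_10.CTp.right RtB17_10.CEr.right 0x69 = true := by decide +kernel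

theorem cB17_10_3_9 : chunkOkM (LB17_10.ctx true true 227 15 8 13 16 175 561 32 16) muQ true true 64 RtB17_10.Cx RtB17_10.CX RtB17_10.Ctp.right.right.left.left RtB17_10.Ce.right.right.left.left.right RtB17_10.CTp.right RtB17_10.CEr.left 0x2ae0c28f88b1a540e55a9e82897bbc7f5d00ecdb7f440d = true := by decide +kernel

theorem cB17_10_3_10 : chunkOkM (LB17_10.ctx true true 261 117 64 13 16 693 1133 32 35) muQ true true 64 RtB17_10.Cx RtB17_10.CX RtB17_10.Ctp.right.right.left.left.left RtB17_10.Ce.right.right.left.left.right RtB17_10.CTp.right RtB17_10.CEr.right 0x4949eaed37ed120d3b0e84c61725377e8346b3c07f67330a877f51fe35ca7f460d493597495149a507ed4f0dd0c74c3107fcc7f65cc1af97f5524def6f450d3f416de7ed3abd3e774c3f9c0157f66dea59b7f519d9e827f450d67618d2b87ed6a7608c74c1ea64117f6552ea8c7f540d78101e17ed4c510ce74c12ef97377b4e2f6577f67603c647f550d6726654f97ed18ddbb17e842714e978f623c96f4819f549d8b4f469f450d347 = true := by decide +kernel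

theorem cB17_10_3_11 : chunkOkM (LB17_10.ctx true true 257 59 32 13 16 721 1111 64 35) muQ true true 64 RtB17_10.Cx.left RtB17_10.CX RtB17_10.Ctp.right.right.left.left.right RtB17_10.Ce.right.right.left.left.right.left RtB17_10.CTp.right RtB17_10.CEr.right 0x4cfcc8c7ed1427da6f97e90016e72e95c0298e63adaffb38e550dd71c2c87e94c3aa91bce297b20d53b6e0447ed2d6636574cd602914d8e6b6ed701c8e540d317e686f06c8caa8e67edd9cd0bd74c2a0f636c8e63ab203018e540d5394984a7eda549f86e81af56787f640e41827f540d92182367ede1f686374c11b08d87f64333d8f7f540d5376 = true := by decide +kernel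

theorem cB17_10_3_12 : chunkOkM (LB17_10.ctx true true 257 57 32 13 16 721 1133 64 35) muQ true true 64 RtB17_10.Cx.left.left RtB17_10.CX RtB17_10.Ctp.right.right.left.left.right RtB17_10.Ce.right.right.left.left.right.right RtB17_10.CTp.right RtB17_10.CEr.right 0x369a8587ed1aebaa64c3c083827f632cd4987f540db5ad4315094c32edb79b797b35f94e27f530d533ea6567ed344f316e81d26b3b7f63a438f17f540d839a2247eddd209cd74c23760627f63a288617f540d566dc41737ed992f79574c292de577f6516c0627f540d4c174937ed690c27b74c1abd4907f64f16efa7f540d63 = true := by decide +kernel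

theorem cB17_10_3_13 : chunkOkM (LB17_10.ctx true true 253 59 32 13 16 721 1133 32 35) muQ true true 64 RtB17_10.Cx.left.right RtB17_10.CX RtB17_10.Ctp.right.right.left.left.right RtB17_10.Ce.right.right.left.left.right.right RtB17_10.CTp.right RtB17_10.CEr.right 0x5639ec17ed6c47fc074c357cb6728e64b57c617f540d4ce3a537ed4f6b7a974c6e301afc8e666460a07f540d65721a017edd9b3b7974c26f44b77e8fc2bed6f648fbbd47f550d3f0e0147ed40f77c874c49102647f6698d72a7f540d63 = true := by decide +kernel

theorem cB17_10_3_14 : chunkOkM (LB17_10.ctx true true 237 31 16 13 16 357 561 32 16) muQ true true 64 RtB17_10.Cx.right RtB17_10.CX RtB17_10.Ctp.right.right.left.left.right RtB17_10.Ce.right.right.left.left.right RtB17_10.CTp.right RtB17_10.CEr.right 0x48d90477ed5de38665c1826bb7fe9e66df00ac68f440d = true := by decide +kernel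

theorem cB17_10_3_15 : chunkOkM (LB17_10.ctx true true 251 29 16 13 16 735 1133 64 35) muQ true true 64 RtB17_10.Cx RtB17_10.CX RtB17_10.Ctp.right.right.left.right RtB17_10.Ce.right.right.left.left RtB17_10.CTp.right RtB17_10.CEr 0x116911441653d7ed5014a364c15d70e27e925017ee78e625155eb38e550db81f09caf94c33c91aaf297be309a857e6244d62178e540d5575d8a27ed1069d36e817f432498e62d276df38e540d7bc82b97edb5b6ae174c1c3dc3a77b2af8f5be8e62d93cf388e550d567148075b188bc53b390d8e820d669411433 = true := by decide +kernel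

theorem cB17_10_3_16 : chunkOkM (LB17_10.ctx true true 228 15 8 13 16 343 583 32 8) muQ true true 64 RtB17_10.Cx RtB17_10.CX RtB17_10.Ctp.right.right.left.left.left RtB17_10.Ce.right.right.left.right.left RtB17_10.CTp.right RtB17_10.CEr 0x4a5ac86ed5e38d265cbc4f3f97f65b0c92c78f5c7b2603a8f450d = true := by decide +kernel

theorem cB17_10_3_17 : chunkOkM (LB17_10.ctx true true 237 29 16 13 16 357 583 32 16) muQ true true 64 RtB17_10.Cx.left RtB17_10.CX RtB17_10.Ctp.right.right.left.left.right RtB17_10.Ce.right.right.left.right.left RtB17_10.CTp.right RtB17_10.CEr.left 0x2d723cbf88b1e6c975e19e8cc3e04a7f5e10ffd6f440d = true := by decide +kernel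

theorem cB17_10_3_18 : chunkOkM (LB17_10.ctx true true 256 59 32 13 16 721 2321 32 35) muQ true true 64 RtB17_10.Cx.left RtB17_10.CX RtB17_10.Ctp.right.right.left.left.right RtB17_10.Ce.right.right.left.right.left.left RtB17_10.CTp.right RtB17_10.CEr.right 0x672b5147edc3a4ecb74c21e41037e83f1da747f65a104697f550d466da8d7ed6272af374c49776367f661bf5e37f540d673a302d7ed10a5902784c376b94f7e81c1cbcb7f643fa3e47f550d55586757ed76302f974c14655447f644d940c7f540d67408628d7edeea74cd74c4e94fe27e86ff99377f6933c9567f56852236f460d668f5887ed361b41774c2670f737f667c08b37f540d3539f677ed2ac8c8074c3e1da4f7f678d0b0d7f540d645973 = true := by decide +kernel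

theorem cB17_10_3_19 : chunkOkM (LB17_10.ctx true true 256 59 32 13 16 721 2365 32 35) muQ true true 64 RtB17_10.Cx.left RtB17_10.CX RtB17_10.Ctp.right.right.left.left.right RtB17_10.Ce.right.right.left.right.left.right RtB17_10.CTp.right RtB17_10.CEr.right 0x42183637ed10b5642b84c5723ca67e81584da6e74b679cd7f66d19fa17f560d58e091d7eda4906be74c221b4a97e8306fe337f65ea3da77f550d44508fd7ed478f7fe74c2c4c4dd7f65c3b2d27f540d64597593 = true := by decide +kernel

end Vale.Agent.helper4.Q4
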