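import Vale.Agent.helper4.Q4TreeM
import Vale.Agent.helper4.Q4G.PB17_10

/-!
Checks for pairs of intervals of second moments.
-/

set_option maxRecDepth 100000
set_option linter.unusedVariables false

namespace Vale.Agent.helper4.Q4

theorem cB17_10_3_20 : chunkOkM (LB17_10.ctx true true 268 121 64 13 16 1449 2365 32 35) muQ true true 64 RtB17_10.Cx.right RtB17_10.CX RtB17_10.Ctp.right.right.left.left.right RtB17_10.Ce.right.right.left.right.left RtB17_10.CTp.right RtB17_10.CEr 0x49493fa1b487edfec3cab74c54c28ea7e83fee8bb7f66b27f447f510595357f460d45790f67ed9e316ba74cf25ec4af8f698722a108f533d201738f450d345353077ed5955cb074c43e613d7f6616567e7f51aaea6e7f450d53aa22a7ed4f9f19a74c5698def7f676e3dde7f52a4f0bc7f450d6440d6c467ed1214d65584c697a9117e875e62e27f681e56de7f51f62ee97f460d41160a804697b9b83d2308e8120711ff8f6142843408f540d677493 = true := by decide +kernel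

theorem cB17_10_3_21 : chunkOkM (LB17_10.ctx true true 276 243 128 13 16 2905 4763 32 16) muQ true true 64 RtB17_10.Cx RtB17_10.CX RtB17_10.Ctp.right.right.left.left RtB17_10.Ce.right.right.left.right.right RtB17_10.CTp.right RtB17_10.CEr 0x49594959593a3b0dbc8dd987b8a774c26b3ca27e8e0ee946e710afa23a8f6d806b767f5197dd137f470da3248b9687b62babb7f8e851064ea7f518943f77f440d659359745934747493493597 = true := by decide +kernel

theorem cB17_10_3_22 : chunkOkM (LB17_10.ctx true true 224 15 8 13 16 189 297 32 16) muQ true true 64 RtB17_10.Cx RtB17_10.CX RtB17_10.Ctp.right.right.left.right RtB17_10.Ce.right.right.left.right RtB17_10.CTp.right RtB17_10.CEr.left 0x223ab17588b14a2844bb9e8320d2a508e639a9cd07f540d = true := by decide +kernel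

theorem cB17_10_3_23 : chunkOkM (LB17_10.ctx true true 262 59 32 13 16 749 1155 128 35) muQ true true 64 RtB17_10.Cx.left RtB17_10.CX RtB17_10.Ctp.right.right.left.right.left RtB17_10.Ce.right.right.left.right.left.left RtB17_10.CTp.right RtB17_10.CEr.right 0x2ecc4147ed41bf5d64c55ed24348e6512878548e540d438abbb7ed21a039e74c3aa88c0a8e61db5fb448e540d47cf99f7ed259ea864c18b954e7e9161e7cd7f62c61d9a7f550d37d72a7685494c3c9a5c2bc97b369e55198e627fa77628e540d5694ec2ff47ed7453e5974c2c387b158e63e52b8b68e540d32a1955b7eda451ba6e840bf26b7f62c0a4c108e540d5a3283c7ed560e50b74c1224e1077b2e61e4d48e62095df3c8e550d2cfc7397ed18988e274c1c8384777b2547d697f63164e76c8e550d34a5576 = true := by decide +kernel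

theorem cB17_10_3_24 : chunkOkM (LB17_10.ctx true true 271 115 64 13 16 749 2365 128 35) muQ true true 64 RtB17_10.Cx.left.left RtB17_10.CX RtB17_10.Ctp.right.right.left.right.left RtB17_10.Ce.right.right.left.right.left.right RtB17_10.CTp.right RtB17_10.CEr.right 0x4fac3287ed12bb90374ccb04636f62a5d55f7f540d4733b987ed211912774c240cce47f621fd60248e540d42db34ae7ed3bbfb764c2f8e26b7f63815b9d7f540d311656e21a6a4c4e52865c797b1caec637f62a8f2867f540d5386ee0e7ede88b9964c2192ca57f626ef94c7f540d410aafc7ed217d96d74c203e2cf77b1cb88547f627efd13c8e550d4a555932cfe0d7ed1617e2d74c140fc757f63a923bf7f540d73ca4607edbaadbdb74cd266a96f63b4480c7f540d5597436 = true := by decide +kernel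

theorem cB17_10_3_25 : chunkOkM (LB17_10.ctx true true 261 59 32 13 16 749 2365 64 35) muQ true true 64 RtB17_10.Cx.left.right RtB17_10.CX RtB17_10.Ctp.right.right.left.right.left RtB17_10.Ce.right.right.left.right.left.right RtB17_10.CTp.right RtB17_10.CEr.right 0x2f5284b7ed11c65f274c926fc16e925fd0e958e6393748498e550db8cecd65094c33ee36f8497bfcd1626f637342c77f540d53687c917ed2177d5888e633f73a578e530d662f2937eda1ad8b674c123e2ee77b467315228e6378bc1218e550d55af74767ed68eb83f74c99f2f46f643b89687f540d55f08477ed2664be37f640d28d57f530d67bdc517edad1fcda74c48141cb7f6426d6bd7f540d5436 = true := by decide +kernel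

theorem cB17_10_3_26 : chunkOkM (LB17_10.ctx true true 280 115 64 13 16 1533 2365 128 128) muQ true true 64 RtB17_10.Cx.left.left RtB17_10.CX RtB17_10.Ctp.right.right.left.right.right RtB17_10.Ce.right.right.left.right.left RtB17_10.CTp.right RtB17_10.CEr.right.left 0x1250ed0797ede3396264c4394abf28e6112c735e8e540d046a651263fc43277ed32fc6f774c21295de77bb0d3dd0f8e640d38ebf1d7ed1c438a674c1c3a4d977b5b2fed27f61cb13c618e550d410398a7ed2dcda7e74c18a562c77b9079d317f640d3f928ef7ed2b077a574c1b0a85177b71907847f613c55dbf8e550d3740398567ed2a2386674c13ba55677b63b80c078e6991d5567e550d4321efb5f01c44a55 = true := by decide +kernel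

theorem cB17_10_3_27 : chunkOkM (LB17_10.ctx true true 251 57 32 13 16 385 583 64 35) muQ true true 64 RtB17_10.Cx.left.left RtB17_10.CX RtB17_10.Ctp.right.right.left.right.right RtB17_10.Ce.right.right.left.right.left RtB17_10.CTp.right.left RtB17_10.CEr.right.right 0xc5d41b56294c377d2ecfc97b44b4e8798e6db7d20e7e540d = true := by decide +kernel

theorem cB17_10_3_28 : chunkOkM (LB17_10.ctx true true 274 115 64 13 16 1533 2365 64 75) muQ true true 64 RtB17_10.Cx.left.left RtB17_10.CX RtB17_10.Ctp.right.right.left.right.right RtB17_10.Ce.right.right.left.right.left RtB17_10.CTp.right.right RtB17_10.CEr.right.right 0x5387a347ed2d033d774c9d7f2e648e630d3bf52867ed21dfc3474ccabc1a6e958612777f61c707b268e550d629745a7ed20f960774c598cb16e969fd3227f6b64f7dc7e550d50533267ed157fc7974c7b7ddd77f630d51f55437ed1db43a974c63844547f61313ebac8e540d3673695bc5c707ed2a3cf5374c5a4b2b798e6fb6fbb27e540d396fd647ed1905bcb74c5b8738c98e6eb937e27e540d6343ec0106f06c4 = true := by decide +kernel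

theorem cB17_10_3_29 : chunkOkM (LB17_10.ctx true true 97 1 1 1 1 1 1 1 1) muQ true true 64 RtB17_10.Cx.left.right RtB17_10.CX RtB17_10.Ctp.right.right.left.right.right RtB17_10.Ce.right.right.left.right.left RtB17_10.CTp.right RtB17_10.CEr.right 0x69 = true := by decide +kernel

theorem cB17_10_3_30 : chunkOkM (LB17_10.ctx true true 248 31 16 13 16 1463 1177 32 16) muQ true true 64 RtB17_10.Cx.right RtB17_10.CX RtB17_10.Ctp.right.right.left.right RtB17_10.Ce.right.right.left.right.left RtB17_10.CTp.right RtB17_10.CEr.right 0x11696940368297ed1106283b84c5bb10bf7e81084e5c08e642e280b7f550d336943 = true := by decide +kernel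

theorem cB17_10_3_31 : chunkOkM (LB17_10.ctx true true 271 115 64 13 16 1505 2387 64 35) muQ true true 64 RtB17_10.Cx.left.left RtB17_10.CX RtB17_10.Ctp.right.right.left.right.left RtB17_10.Ce.right.right.left.right.right.left RtB17_10.CTp.right RtB17_10.CEr.right 0x593575f307ed144cca574c14644557e914e0aab7f62bec1c27f550dc060b3f9394c363a5c22197b16c3eb17f62ffb34c7f540d5400ac677edf6e94d64c8a5f6e6f631e63c57f540d6a7a3b27ed9f9ae2474c13013da77bfdcd4f6364314f7f550d565935974593 = true := by decide +kernel

theorem cB17_10_3_32 : chunkOkM (LB17_10.ctx true true 263 119 64 13 16 735 2387 32 35) muQ true true 64 RtB17_10.Cx.left.right RtB17_10.CX RtB17_10.Ctp.right.right.left.right.left.left RtB17_10.Ce.right.right.left.right.right.left RtB17_10.CTp.right RtB17_10.CEr.right 0x59685d0f97ed9e8407f74c1f5f4ee7e82ed64ed7f652373307f550d7f74eb87ed4b5434574c156b14277b5b33e217f6698350c7f550d65974 = true := by decide +kernel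

end Vale.Agent.helper4.Q4
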