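import Vale.Agent.helper4.Q4TreeM
import Vale.Agent.helper4.Q4G.PB17_10

/-!
Checks for pairs of intervals of second moments.
-/

set_option maxRecDepth 100000
set_option linter.unusedVariables false

namespace Vale.Agent.helper4.Q4

theorem cB17_10_3_168 : chunkOkM (LB17_10.ctx true true 280 255 128 13 16 1617 5269 64 32) muQ true true 64 RtB17_10.Cx.right.right.right RtB17_10.CX RtB17_10.Ctp.right.right.right.left.left.right RtB17_10.Ce.right.right.right.left.right.right.right RtB17_10.CTp.right RtB17_10.CEr.right.left 0x1347036f06c3d552a07ed7ac115e74ccb2a6c67b2cda94b7f62fa1cdaa8e550d5302ac29a8dd582ae1374c67ab4a07f63d036a07f540d31014ba58dd1b5f42d74c14c53947f6382de367f540d4a2d2257ed8e3414374c3994c4e7f63bae43f7f540d5726c0bc038dd23789cd74c37c99c07f6345569e7f540d3e166997ed784041274c8bf70647f63ff54f07f540d543 = true := by decide +kernel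

theorem cB17_10_3_169 : chunkOkM (LB17_10.ctx true true 275 127 64 13 16 1617 5269 64 35) muQ true true 64 RtB17_10.Cx.right.right RtB17_10.CX RtB17_10.Ctp.right.right.right.left.left.right RtB17_10.Ce.right.right.right.left.right.right RtB17_10.CTp.right RtB17_10.CEr.right.right 0x212f5ba7ed31e761874c572d2cb7f63077dd6d8e540d2cea24c7ed295227974c8ee9b3b7f61d0f79e7f540d2c766067ed2ab52f374c99791867f61bc6086a8e540d42d5d9f47ed360f06c74c2c1f1767f6317bf947f540d3729bc9657ed2a9e6f274c4b1d2e87f624ab2edd8e540d4a65eab35a94c2e99be4bf97b1f48a26f635219d87f540d5 = true := by decide +kernel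

theorem cB17_10_3_170 : chunkOkM (LB17_10.ctx true true 262 61 32 13 16 819 1287 128 32) muQ true true 64 RtB17_10.Cx.right.left RtB17_10.CX RtB17_10.Ctp.right.right.right.left.right.left RtB17_10.Ce.right.right.right.left.right.left RtB17_10.CTp.right RtB17_10.CEr.right.left 0x32a9c6eb8dd1a1533d74c19a846b58e631525c47f240d3083a987ed30d9a4474c1af2c5377b9de88507e62f21bff7f250d4a55 = true := by decide +kernel

theorem cB17_10_3_171 : chunkOkM (LB17_10.ctx true true 285 247 128 13 16 1645 5269 128 32) muQ true true 64 RtB17_10.Cx.right.left RtB17_10.CX RtB17_10.Ctp.right.right.right.left.right.left RtB17_10.Ce.right.right.right.left.right.right RtB17_10.CTp.right.left RtB17_10.CEr.right.left 0x37554687ed59102cb74cb6065867b115586a7f638de30c7f250d2d4325e7ed3933e5374c1851d6577b1b666b538f628b29d6f250d39bfe4e78dd4240c1b74c1489e7577bfd6c4de7f640d3596e9d7ed3ea61bc74c1e0c11e77b1d269dfa8f640d7432172194bcd7ed3b62edc74c173421177ba4d4c447f615cd33bc89e13b06d9368f060d2d48b087ed37eb8fc74c160006e77b10d6c4cd8f640d2b151bb7ed2e1440174c19e528877b11dbabd78f640d432f454937ed376098b74c1579af777bad99c567f62faf36f7f250d744a5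 = true := by decide +kernel

theorem cB17_10_3_172 : chunkOkM (LB17_10.ctx true true 285 123 64 13 16 1645 5269 128 128) muQ true true 64 RtB17_10.Cx.right.left RtB17_10.CX RtB17_10.Ctp.right.right.right.left.right.left RtB17_10.Ce.right.right.right.left.right.right RtB17_10.CTp.right.right RtB17_10.CEr.right.left 0x1212ee8e77ed1042f8728f611a404d7f230d384ddef7ed38119a474c21acbf1c8f630d3307a277ed243445974c122df24b8f630d432172ae381e7ed1f7af2474cb10eb097f664badf6f240d96e10df7ed4d6177f74c888f53d7f6ba4aa6c7e240d746a65126 = true := by decide +kernel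

theorem cB17_10_3_173 : chunkOkM (LB17_10.ctx true true 97 1 1 1 1 1 1 1 1) muQ true true 64 RtB17_10.Cx.right.left RtB17_10.CX RtB17_10.Ctp.right.right.right.left.right.right RtB17_10.Ce.right.right.right.left.right RtB17_10.CTp.right RtB17_10.CEr.right.left 0x01 = true := by decide +kernel

theorem cB17_10_3_174 : chunkOkM (LB17_10.ctx true true 279 125 64 13 16 1645 5269 128 32) muQ true true 64 RtB17_10.Cx.right.right RtB17_10.CX RtB17_10.Ctp.right.right.right.left.right RtB17_10.Ce.right.right.right.left.right RtB17_10.CTp.right RtB17_10.CEr.right.left 0x11283d3cf08dd19470ac74c65f625328e614c3fd1f8e540d69277e6cb7ed38db71674c1bab1c777b30f1a7f08f640d2d3152f7ed33bb2b674c143996d77b1ac6f3e98f640d27893607ed2ffbb7b74c14dab2577b16f6c8a88f640d4374a556943114 = true := by decide +kernel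

theorem cB17_10_3_175 : chunkOkM (LB17_10.ctx true true 246 31 16 13 16 413 649 64 35) muQ true true 64 RtB17_10.Cx.right RtB17_10.CX RtB17_10.Ctp.right.right.right.left.right RtB17_10.Ce.right.right.right.left.right RtB17_10.CTp.right.left RtB17_10.CEr.right.right 0xe173b67ce94c3f8acdf9c97be49ab3c7e61a5338ff8e5ef9ff56f250d = true := by decide +kernel

theorem cB17_10_3_176 : chunkOkM (LB17_10.ctx true true 275 123 64 13 16 1631 2585 64 75) muQ true true 64 RtB17_10.Cx.right RtB17_10.CX RtB17_10.Ctp.right.right.right.left.right RtB17_10.Ce.right.right.right.left.right.left RtB17_10.CTp.right.right RtB17_10.CEr.right.right 0x11113fa228a7ed1a5aae074c2fee70cdc9e630d0159b47297ed37168c074c6b1b1307f614fa5757f240d37bc17c7ed2fd4f5974c58bb3d87f62b23ad77f240d635b0f3a7ed39f8d4274c342c7f37f61d13ed3ba9e14bed62748f050d43773 = true := by decide +kernel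

theorem cB17_10_3_177 : chunkOkM (LB17_10.ctx true true 277 243 128 13 16 819 5203 64 35) muQ true true 64 RtB17_10.Cx.right.left.left RtB17_10.CX RtB17_10.Ctp.right.right.right.left.right.left RtB17_10.Ce.right.right.right.left.right.right RtB17_10.CTp.right.right RtB17_10.CEr.right.right 0x21213e223317ed2e63e6774cbb0247d7f618641757f240d42174 = true := by decide +kernel

theorem cB17_10_3_178 : chunkOkM (LB17_10.ctx true true 289 247 128 13 16 1645 5225 135 75) muQ true true 64 RtB17_10.Cx.right.left.right RtB17_10.CX RtB17_10.Ctp.right.right.right.left.right.left RtB17_10.Ce.right.right.right.left.right.right.left RtB17_10.CTp.right.right RtB17_10.CEr.right.right 0x3b1957e7ed1daaad474ce709ae6e9b81a86b7f646b6906f250d5a542e740c7ed3233e4c74c14e7424e19e13878d6e58f040d3f9e3457ed229dd6674c179130d18f630d3666f847ed315715874c1478e8898f6a105ce6f240d73383bf07ed38461b774c14c0a78f8f630d436 = true := by decide +kernel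

theorem cB17_10_3_179 : chunkOkM (LB17_10.ctx true true 281 247 128 13 16 1645 5269 64 35) muQ true true 64 RtB17_10.Cx.right.left.right RtB17_10.CX RtB17_10.Ctp.right.right.right.left.right.left RtB17_10.Ce.right.right.right.left.right.right.right RtB17_10.CTp.right.right RtB17_10.CEr.right.right 0x36bb9d27ed30249d274c5c900ca7f62c3c0b77f240d35e51177ed2f3be5674c1975a64d8f630d2173512f9c7ed2e51e3674c132a64548f630d3a3d2e77ed305173874c12ac2c828f6cb60156f240d743 = true := by decide +kernel

theorem cB17_10_3_180 : chunkOkM (LB17_10.ctx true true 97 1 1 1 1 1 1 1 1) muQ true true 64 RtB17_10.Cx.right.left RtB17_10.CX RtB17_10.Ctp.right.right.right.left.right.right RtB17_10.Ce.right.right.right.left.right.right RtB17_10.CTp.right.right RtB17_10.CEr.right.right 0x01 = true := by decide +kernel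

theorem cB17_10_3_181 : chunkOkM (LB17_10.ctx true true 278 125 64 13 16 1645 5269 64 75) muQ true true 64 RtB17_10.Cx.right.right RtB17_10.CX RtB17_10.Ctp.right.right.right.left.right RtB17_10.Ce.right.right.right.left.right.right RtB17_10.CTp.right.right RtB17_10.CEr.right.right 0x116937b3a457ed2c77e9074ce9355047f630d4491c86f06c3208dcd7ed25cf83174c1378b3278f630d2fc99b37ed2766db674c176e47908f630d43673694 = true := by decide +kernel

theorem cB17_10_3_182 : chunkOkM (LB17_10.ctx true true 97 1 1 1 1 1 1 1 1) muQ true true 64 RtB17_10.Cx.left RtB17_10.CX RtB17_10.Ctp.right.right.right.left RtB17_10.Ce.right.right.right.right RtB17_10.CTp.right RtB17_10.CEr 0x21 = true := by decide +kernel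

theorem cB17_10_3_183 : chunkOkM (LB17_10.ctx true true 232 31 16 13 16 203 341 32 16) muQ true true 64 RtB17_10.Cx.right RtB17_10.CX RtB17_10.Ctp.right.right.right.left RtB17_10.Ce.right.right.right.right RtB17_10.CTp.right RtB17_10.CEr.left 0x48195b6888b36b721afd9e87502b237f530d = true := by decide +kernel

theorem cB17_10_3_184 : chunkOkM (LB17_10.ctx true true 97 1 1 1 1 1 1 1 1) muQ true true 64 RtB17_10.Cx.right.left RtB17_10.CX RtB17_10.Ctp.right.right.right.left.left RtB17_10.Ce.right.right.right.right.left.left RtB17_10.CTp.right RtB17_10.CEr.right 0x59 = true := by decide +kernel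

theorem cB17_10_3_185 : chunkOkM (LB17_10.ctx true true 251 63 32 13 16 791 1331 32 16) muQ true true 64 RtB17_10.Cx.right.right RtB17_10.CX RtB17_10.Ctp.right.right.right.left.left.left RtB17_10.Ce.right.right.right.right.left.left RtB17_10.CTp.right RtB17_10.CEr.right 0x2d41ccb7ed999ae3274c224e0c97e8572c9a57f540d = true := by decide +kernel

end Vale.Agent.helper4.Q4
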