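import Vale.Agent.helper4.Q4TreeM
import Vale.Agent.helper4.Q4G.PB17_10

/-!
Checks for pairs of intervals of second moments.
-/

set_option maxRecDepth 100000
set_option linter.unusedVariables false

namespace Vale.Agent.helper4.Q4

theorem cB17_10_3_186 : chunkOkM (LB17_10.ctx true true 311 1007 512 13 16 6489 21219 128 35) muQ true true 64 RtB17_10.Cx.right.right.left RtB17_10.CX RtB17_10.Ctp.right.right.right.left.left.right RtB17_10.Ce.right.right.right.right.left.left.left RtB17_10.CTp.right RtB17_10.CEr.right 0x253a5267ed2e6fa2774c174149a7f62eda12a7f540d9aa5b99d194c2b94d0cdf97b803a9a87f6e710b56f540d559594d9f0f678dd4f8e1ff74c3294c5458f630d3f136ec78dd7b8ce8c74c783fde67b2d1d2e078f6822db36f550d545975934597593414be9d58dd2c3fb8974c544804a7f62c7872e7f540d2f7d94f7ed30c6b6e74c17b99f377b31f02437f6344ded608e550d4a5546697593 = true := by decide +kernel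

theorem cB17_10_3_187 : chunkOkM (LB17_10.ctx true true 280 255 128 13 16 1617 5313 64 32) muQ true true 64 RtB17_10.Cx.right.right.right RtB17_10.CX RtB17_10.Ctp.right.right.right.left.left.right RtB17_10.Ce.right.right.right.right.left.left.left RtB17_10.CTp.right RtB17_10.CEr.right.left 0x1fea5dd38dd18f8f2274c3bec4b97f634cda927f540d4d74b637ed841a6f674c524ae067b6f2a2657f636b90277f550d527615aa88dd2bda02174c290067b7f6307347b7f540d4374acd7ed7bc377274c9c0f8967b24319d47f633af1807f550d57315d1bd68dd1f4333374c257fa5c7f632ae5d57f540d3da71e27ed678791e74c17bbf7a77b56764b47f6303096f7f550d544218dd568dd5ac8c9174c133ddc37f63d988707f540d3 = true := by decide +kernel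

theorem cB17_10_3_188 : chunkOkM (LB17_10.ctx true true 268 127 64 13 16 805 2651 64 35) muQ true true 64 RtB17_10.Cx.right.right.right RtB17_10.CX RtB17_10.Ctp.right.right.right.left.left.right RtB17_10.Ce.right.right.right.right.left.left.left RtB17_10.CTp.right RtB17_10.CEr.right.right 0x22755297ed1e7db7674c1084e527e9272cf587f6329286b7f550d9877b1bc094c2b03494c197b839d496f630b92347f540d5 = true := by decide +kernel

theorem cB17_10_3_189 : chunkOkM (LB17_10.ctx true true 97 1 1 1 1 1 1 1 1) muQ true true 64 RtB17_10.Cx.right.right.left RtB17_10.CX RtB17_10.Ctp.right.right.right.left.left.right RtB17_10.Ce.right.right.right.right.left.left.right RtB17_10.CTp.right RtB17_10.CEr.right 0x59 = true := by decide +kernel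

theorem cB17_10_3_190 : chunkOkM (LB17_10.ctx true true 97 1 1 1 1 1 1 1 1) muQ true true 64 RtB17_10.Cx.right.right.right RtB17_10.CX RtB17_10.Ctp.right.right.right.left.left.right.left RtB17_10.Ce.right.right.right.right.left.left.right RtB17_10.CTp.right RtB17_10.CEr.right 0x59 = true := by decide +kernel

theorem cB17_10_3_191 : chunkOkM (LB17_10.ctx true true 298 511 256 13 16 6489 10659 64 32) muQ true true 64 RtB17_10.Cx.right.right.right RtB17_10.CX RtB17_10.Ctp.right.right.right.left.left.right.right RtB17_10.Ce.right.right.right.right.left.left.right RtB17_10.CTp.right RtB17_10.CEr.right.left 0x3f55e7028dd59d6fa174c6475006f63bc21707f540d5975935972d2b93918dd1e5894874c10527107f6375f2f77f540d3a1a6b4d8dd6e7806274cba649a67b3cd8076f637d4b2f7f550d54ed60a9a8dd400312c74ce5655267b3e78c917f540d3591866ab1e8dd1a7a11b74ca246f527f62a5d42b7f540d34ca0bb18dd6e7479f74cba4f6c67b3c0e75c7f540d5593459759374 = true := by decide +kernel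

theorem cB17_10_3_192 : chunkOkM (LB17_10.ctx true true 275 127 64 13 16 1617 5357 64 35) muQ true true 64 RtB17_10.Cx.right.right.right RtB17_10.CX RtB17_10.Ctp.right.right.right.left.left.right.right RtB17_10.Ce.right.right.right.right.left.left.right RtB17_10.CTp.right RtB17_10.CEr.right.right 0x42f4a837ed5fb97d174c13411f77f63c069857f540d27931df7ed378de1d74c3503ce77f630992347f540d91ba7fcac94c2904cf38497b34277457f530d54 = true := by decide +kernel

theorem cB17_10_3_193 : chunkOkM (LB17_10.ctx true true 97 1 1 1 1 1 1 1 1) muQ true true 64 RtB17_10.Cx.right RtB17_10.CX RtB17_10.Ctp.right.right.right.left.left RtB17_10.Ce.right.right.right.right.left.right RtB17_10.CTp.right RtB17_10.CEr.right 0x59 = true := by decide +kernel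

theorem cB17_10_3_194 : chunkOkM (LB17_10.ctx true true 294 495 256 13 16 1645 10571 128 35) muQ true true 64 RtB17_10.Cx.right.left RtB17_10.CX RtB17_10.Ctp.right.right.right.left.right RtB17_10.Ce.right.right.right.right.left.left RtB17_10.CTp.right RtB17_10.CEr.right 0x212121012bef5627ed361b9e474cb6cb2ae7f614944787f240d866d3e50694c25e49ba0497b13bfcc998f684e4006f240d52aacc5ec8dd1b225a674c1505b2e58f622859f17f240d260ee6d78dd399b87674c1b6eb4f77b3147df448f640d4a5566933421742174217 = true := by decide +kernel

theorem cB17_10_3_195 : chunkOkM (LB17_10.ctx true true 285 251 128 13 16 1645 5313 128 32) muQ true true 64 RtB17_10.Cx.right.right.left RtB17_10.CX RtB17_10.Ctp.right.right.right.left.right.left RtB17_10.Ce.right.right.right.right.left.left.left RtB17_10.CTp.right.left RtB17_10.CEr.right.left 0x34960c97ed39a399c74c24129b877b2a0e4af18f640d29d0df808dd3a9512474c164165d77b178b5f448f68072d76f250d72bdadba7ed35f49cd74c192b3c877b16111b1a8f6942e85f250d4322880138dd3c8266674c10f6af877bbe8ee527f611519be48e550d2f7f2aa7ed45bcd9774c2d705b998f630d72c281287ed47c99df74c182c35468f630d291f65e48dd32b478274c1361a3f77b1c41f57e8f640d7434a5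 = true := by decide +kernel

theorem cB17_10_3_196 : chunkOkM (LB17_10.ctx true true 285 125 64 13 16 1645 5313 128 128) muQ true true 64 RtB17_10.Cx.right.right.left RtB17_10.CX RtB17_10.Ctp.right.right.right.left.right.left RtB17_10.Ce.right.right.right.right.left.left.left RtB17_10.CTp.right.right RtB17_10.CEr.right.left 0x1220999517ed208597274cfbf76947f630dc5ea5337f06b439863727ed293b3c574cfeb3bfe7f642ab8dd7e540d39fbe737ed24d672174cc691b857f61247b2358e540d436a65126 = true := by decide +kernel

theorem cB17_10_3_197 : chunkOkM (LB17_10.ctx true true 276 127 64 13 16 1631 2651 128 32) muQ true true 64 RtB17_10.Cx.right.right.right RtB17_10.CX RtB17_10.Ctp.right.right.right.left.right.left RtB17_10.Ce.right.right.right.right.left.left.left RtB17_10.CTp.right RtB17_10.CEr.right.left 0x69321446b08dd2b7623274c29984fc7f62c060be98e540d236aee57ed25d99bc74c10d4e3b77b831f06f7f61e2731a48e550d4a553 = true := by decide +kernel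

theorem cB17_10_3_198 : chunkOkM (LB17_10.ctx true true 304 503 256 13 16 3269 10659 128 128) muQ true true 64 RtB17_10.Cx.right.right.left RtB17_10.CX RtB17_10.Ctp.right.right.right.left.right.left RtB17_10.Ce.right.right.right.right.left.left.right RtB17_10.CTp.right RtB17_10.CEr.right.left 0x1214f71d118f06b65e80887ed48b196e74c10d9cd058f614c6276f240d46a651262a58bde7ed3bf75b274c1520eb777b1b6ec6b18f625ab646f250d2681b01d8dd317dbb474c134880277b14a33d538f640d24e8c2f7ed30fccc374c2058bce77b1bc6a34b8f640d744a5559693477153f8dd325780e74c321d27f48f630d47842a97ed7ca1c3874c12a91a577b374002668f640d5469769345973 = true := by decide +kernel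

end Vale.Agent.helper4.Q4
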