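import Vale.Agent.helper4.Q4TreeM
import Vale.Agent.helper4.Q4G.PB17_10

/-!
Checks for pairs of intervals of second moments.
-/

set_option maxRecDepth 100000
set_option linter.unusedVariables false

namespace Vale.Agent.helper4.Q4

theorem cB17_10_3_199 : chunkOkM (LB17_10.ctx true true 285 255 128 13 16 1631 5357 128 32) muQ true true 64 RtB17_10.Cx.right.right.right RtB17_10.CX RtB17_10.Ctp.right.right.right.left.right.left.left RtB17_10.Ce.right.right.right.right.left.left.right RtB17_10.CTp.right RtB17_10.CEr.right.left 0x4d72f1578dd2715fc974c5cd0aea7f628c23227f540d42fd0ba7ed704dcb374ceda82367b71b266e7f628989e87f550d520f536d78dd2b1591d74cfd7ecf47f61bc96d17f540d21c361e7ed36342e674c105efa277bd1f5bd97f61f3992fe8e550d4a5576b0706f48dd3401b8c74c3527e807f62b0a2c518e540d254268a7ed2bd60dd74c1873eb377b7a664eb7f6286d03808e550d4a554 = true := by decide +kernel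

theorem cB17_10_3_200 : chunkOkM (LB17_10.ctx true true 279 127 64 13 16 1645 5357 128 32) muQ true true 64 RtB17_10.Cx.right.right.right RtB17_10.CX RtB17_10.Ctp.right.right.right.left.right.left.right RtB17_10.Ce.right.right.right.right.left.left.right RtB17_10.CTp.right RtB17_10.CEr.right.left 0x2bd21ea28dd28067c474c772ccdf7f61710cb478e540d26b24a87ed339dca474cf3854b67b10129e728f6b13f2e07e550d27885d67ed39fc2ea74ca83f6367b1763a5ac8f640d44a55 = true := by decide +kernel

theorem cB17_10_3_201 : chunkOkM (LB17_10.ctx true true 263 63 32 13 16 833 1331 128 32) muQ true true 64 RtB17_10.Cx.right.right RtB17_10.CX RtB17_10.Ctp.right.right.right.left.right.right RtB17_10.Ce.right.right.right.right.left.left RtB17_10.CTp.right RtB17_10.CEr.right.left 0x35018e688dd38075df74cab877397e634d85767f240d293def27ed392f61b74c15233b377bd3b77737e6375e9457f250d4a55 = true := by decide +kernel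

theorem cB17_10_3_202 : chunkOkM (LB17_10.ctx true true 255 63 32 13 16 413 1331 64 35) muQ true true 64 RtB17_10.Cx.right.right RtB17_10.CX RtB17_10.Ctp.right.right.right.left.right RtB17_10.Ce.right.right.right.right.left.left RtB17_10.CTp.right.left RtB17_10.CEr.right.right 0xc419f7f8b94c374e937b797b29f27b27f617c607b7f5c953766f250d = true := by decide +kernel

theorem cB17_10_3_203 : chunkOkM (LB17_10.ctx true true 289 251 128 13 16 1645 5313 135 75) muQ true true 64 RtB17_10.Cx.right.right.left RtB17_10.CX RtB17_10.Ctp.right.right.right.left.right.left RtB17_10.Ce.right.right.right.right.left.left.left RtB17_10.CTp.right.right RtB17_10.CEr.right.right 0x34988027ed230858474c71e7126e9c4804437f6e7d7b5f250d5a541df9a87ed21ba84374c16609fc08f630d38f3b857ed37efa6a74c11e74bea8f61752406f240d729ff1467ed319544874c15285bea8f630d462bf737a7ed29ffc6674c138dccd18f6bb78356f540d379fe2f7ed208ce6e74c8cc990e58f630d72f39d8cd8dd2415bce74c77582b6e9e3044c17f6db8cd9f7e550d2fe13147ed29fa3b974c17caeff88f630d743 = true := by decide +kernel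

theorem cB17_10_3_204 : chunkOkM (LB17_10.ctx true true 268 127 64 13 16 819 2651 64 35) muQ true true 64 RtB17_10.Cx.right.right.right RtB17_10.CX RtB17_10.Ctp.right.right.right.left.right.left RtB17_10.Ce.right.right.right.right.left.left.left RtB17_10.CTp.right.right RtB17_10.CEr.right.right 0x28aa39c7ed2bf598974ccccb0f67f61f8c2bcc8e540d = true := by decide +kernel

theorem cB17_10_3_205 : chunkOkM (LB17_10.ctx true true 281 255 128 13 16 1645 5357 64 35) muQ true true 64 RtB17_10.Cx.right.right RtB17_10.CX RtB17_10.Ctp.right.right.right.left.right.left RtB17_10.Ce.right.right.right.right.left.left.right RtB17_10.CTp.right.right RtB17_10.CEr.right.right 0x2521a0c7ed334adfc74c3f08685f8f630d2ab6b737ed2eee02d74c1ab5ba698f630d7285d8857ed388af8174c212c28bd8f630d42ad09bf7ed2c15e4c74c414875c7f6266abcb7f540d32fcf5df7ed35c060074c1e2c825c8f630d2172f26fdc7ed2e3e4a474c1c6db7f78f630d3207c747ed2dcc16974c188212b88f61934a2b7f240d74592b656da7ed2eff76974c16ce90a58f630d459737 = true := by decide +kernel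

theorem cB17_10_3_206 : chunkOkM (LB17_10.ctx true true 268 127 64 13 16 833 2673 64 35) muQ true true 64 RtB17_10.Cx.right.right RtB17_10.CX RtB17_10.Ctp.right.right.right.left.right.right RtB17_10.Ce.right.right.right.right.left.left RtB17_10.CTp.right.right RtB17_10.CEr.right.right 0x2d6f2cb7ed394ab3674c334deb2539e630d26e56ff7ed3a8c71974c62e9a9e7f6300feac7f240d72edd27f7ed39cb13074c6f2e106e91cab86be8e61a201b1349e14719f7538f060d4 = true := by decide +kernel

theorem cB17_10_3_207 : chunkOkM (LB17_10.ctx true true 97 1 1 1 1 1 1 1 1) muQ true true 64 RtB17_10.Cx.right.left RtB17_10.CX RtB17_10.Ctp.right.right.right.left.right RtB17_10.Ce.right.right.right.right.left.right RtB17_10.CTp.right RtB17_10.CEr.right 0x21 = true := by decide +kernel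

theorem cB17_10_3_208 : chunkOkM (LB17_10.ctx true true 97 1 1 1 1 1 1 1 1) muQ true true 64 RtB17_10.Cx.right.right.left RtB17_10.CX RtB17_10.Ctp.right.right.right.left.right.left RtB17_10.Ce.right.right.right.right.left.right RtB17_10.CTp.right RtB17_10.CEr.right 0x69 = true := by decide +kernel

theorem cB17_10_3_209 : chunkOkM (LB17_10.ctx true true 324 2047 1024 13 16 26201 43131 64 32) muQ true true 64 RtB17_10.Cx.right.right.right RtB17_10.CX RtB17_10.Ctp.right.right.right.left.right.left.left RtB17_10.Ce.right.right.right.right.left.right.left RtB17_10.CTp.right RtB17_10.CEr.right.left 0x595959d598a5f06c3e6f95fe8dd6bee7e274ca8be2267b13d09a5a8f62619ea67f550d55934597593459759345975933b308a368dd2d351f874c56c0c4a7f62788e347f540d4507e1b7ed6af170974cfd30db67b9f9ef4d7f62747c5e7f550d54697 = true := by decide +kernel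

theorem cB17_10_3_210 : chunkOkM (LB17_10.ctx true true 348 8127 4096 13 16 52857 86251 128 32) muQ true true 64 RtB17_10.Cx.right.right.right RtB17_10.CX RtB17_10.Ctp.right.right.right.left.right.left.right RtB17_10.Ce.right.right.right.right.left.right.left RtB17_10.CTp.right RtB17_10.CEr.right.left 0xf65a0fa7dd236eba5b8f63a3a5a6f530d2551dff98dd33af4e274cf8882067b10ade3968f6131596b18e550d4a556969696915001d6f01c2beef9cc8dd41a5d5374c30520c277b7d3a8e758f640d5693697469369746936974697693469759372628f7e18dd283a7a474cb309d367f6117910c7f540d259b7ba7ed27a843274cfed26467b159b8b7c8f640d2408f8988dd35a5f8274cfecbf967b1abf063e8f640d74a554 = true := by decide +kernel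

theorem cB17_10_3_211 : chunkOkM (LB17_10.ctx true true 283 255 128 13 16 1645 5401 64 35) muQ true true 64 RtB17_10.Cx.right.right.right RtB17_10.CX RtB17_10.Ctp.right.right.right.left.right.left RtB17_10.Ce.right.right.right.right.left.right.left RtB17_10.CTp.right RtB17_10.CEr.right.right 0x29418ea7ed311b39f74cf72b07c7f61811e0d7f540d2ccaeb97ed1310b4174c17b7460049f630d722956ca7ed36b080074cd3373b97f612e91b3e8e540d2b22d947ed2cf047f74c18ce460a8f630d7424e47a57ed367456e74c5e1d4ba7f62d4d9427f540d3b3c783a5994c329ecc2c297b32d8db77f61e92f987f540d5 = true := by decide +kernel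

end Vale.Agent.helper4.Q4
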