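import Vale.Agent.helper4.Q4TreeM
import Vale.Agent.helper4.Q4G.PB17_10

/-!
Checks for pairs of intervals of second moments.
-/

set_option maxRecDepth 100000
set_option linter.unusedVariables false

namespace Vale.Agent.helper4.Q4

theorem cB17_10_3_212 : chunkOkM (LB17_10.ctx true true 294 511 256 13 16 3297 10835 64 35) muQ true true 64 RtB17_10.Cx.right.right.right RtB17_10.CX RtB17_10.Ctp.right.right.right.left.right.left RtB17_10.Ce.right.right.right.right.left.right.right RtB17_10.CTp.right RtB17_10.CEr.right 0x59691d3ac5c7ed43807d874c19de4ba28f630d71b994f6394c200b9a4f497b2787b5978f630d520faf3688dd2a8495c74c3292169b8f630d3c98011b8dd6fc58ce74c124298577b2fb9a1378f640d5646975934597593 = true := by decide +kernel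

theorem cB17_10_3_213 : chunkOkM (LB17_10.ctx true true 296 1007 512 13 16 1659 10747 64 32) muQ true true 64 RtB17_10.Cx.right.right.left RtB17_10.CX RtB17_10.Ctp.right.right.right.left.right.right RtB17_10.Ce.right.right.right.right.left.right RtB17_10.CTp.right RtB17_10.CEr.right.left 0x212121012fe8e3b28dd2fd0dea74c1e34a2ad8f611bca477f240d4f23772e8dd81c7c1174c17b805377b1cf6eea88f613d70ba7f250d53217421742174 = true := by decide +kernel

theorem cB17_10_3_214 : chunkOkM (LB17_10.ctx true true 291 255 128 13 16 1673 5401 128 128) muQ true true 64 RtB17_10.Cx.right.right.right RtB17_10.CX RtB17_10.Ctp.right.right.right.left.right.right RtB17_10.Ce.right.right.right.right.left.right.left RtB17_10.CTp.right RtB17_10.CEr.right.left 0x12ee09776f00b4fef4da7ed3faf2c974c130c5fc08f630dc67c6837f06b436a651262e5642a7f00b25a9dd17ed43d391274c1033cac77b1bfb5e1d8f640d28ba81ab8dd41c514074c112e60577b17f5fb7f8f66b500e6f250d7252f6ff7ed3427e9474c136fb3277bfef53957f640d434a55 = true := by decide +kernel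

theorem cB17_10_3_215 : chunkOkM (LB17_10.ctx true true 291 255 128 13 16 1673 5445 128 128) muQ true true 64 RtB17_10.Cx.right.right.right RtB17_10.CX RtB17_10.Ctp.right.right.right.left.right.right RtB17_10.Ce.right.right.right.right.left.right.right RtB17_10.CTp.right RtB17_10.CEr.right.left 0x123c7d7c17f02b192a02a68f06b25f65a67ed2fe43dc74c111a5aba8f666e0b5f240d436a6512622d85b67ed3d9343c74c11cdecf77b68b30607f634b52a67f250d27adfc87ed3ec3ffd74c11f871d77b1b0d7a3a8f6154ffd6f250d3e2621bc8dd48097d074c107d52577b16c889b58f640d2ce82ac7ed45aa84b74c161b39c77b1b2be4cc8f6106555f250d7434a55 = true := by decide +kernel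

theorem cB17_10_3_216 : chunkOkM (LB17_10.ctx true true 259 63 32 13 16 833 1353 64 35) muQ true true 64 RtB17_10.Cx.right.right RtB17_10.CX RtB17_10.Ctp.right.right.right.left.right.right RtB17_10.Ce.right.right.right.right.left.right RtB17_10.CTp.right.left RtB17_10.CEr.right.right 0xd9e30e9da94c3d752f91997b1b994d27f6198a3ab7f5182fbaf7f250d = true := by decide +kernel

theorem cB17_10_3_217 : chunkOkM (LB17_10.ctx true true 282 255 128 13 16 1673 5401 64 35) muQ true true 64 RtB17_10.Cx.right.right RtB17_10.CX RtB17_10.Ctp.right.right.right.left.right.right RtB17_10.Ce.right.right.right.right.left.right.left RtB17_10.CTp.right.right RtB17_10.CEr.right.right 0x66512047ed1193c7474c44d467bf8f6543600e08e11251c1f48f050d275ab477ed3b0bbe874c1693eb728f630d2de34ff7ed31e947174c17527a838f6e516ac6f240d72d6ea7a7ed33253c974c16194f698f630d432b0fe767ed355ebfd74cd7362be7f638216ba7f240d7 = true := by decide +kernel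

theorem cB17_10_3_218 : chunkOkM (LB17_10.ctx true true 281 255 128 13 16 1673 5445 64 35) muQ true true 64 RtB17_10.Cx.right.right RtB17_10.CX RtB17_10.Ctp.right.right.right.left.right.right RtB17_10.Ce.right.right.right.right.left.right.right RtB17_10.CTp.right.right RtB17_10.CEr.right.right 0x23d8e3c7ed3a811cc74c2758276e985f6e8c7f6280e2c27f250d22b4d3f7ed3df4fb474c140d32068f630d2172a5bf9e7ed32a2c9774c1b82206f8f630d2b628487ed336c5a374c1395d5068f618651cd7f240d743217 = true := by decide +kernel

theorem cB17_10_3_219 : chunkOkM (LB17_10.ctx true true 308 1023 512 13 16 6685 21835 64 35) muQ true true 64 RtB17_10.Cx.right RtB17_10.CX RtB17_10.Ctp.right.right.right.left RtB17_10.Ce.right.right.right.right.right RtB17_10.CTp.right RtB17_10.CEr.right 0x21212121210121aea6918dd3b48fa074c292b024e8f630d6961ca9ef94c1dacc7bef97b76ca4cf78f630d5e0b0e5f06c3d9548998dd82b197074c10fc40877b23bb71598f61f38f867f250d56693342174217401769342175932174593 = true := by decide +kernel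

theorem cB17_10_3_220 : chunkOkM (LB17_10.ctx true true 97 1 1 1 1 1 1 1 1) muQ true true 64 RtB17_10.Cx RtB17_10.CX RtB17_10.Ctp.right.right.right.right RtB17_10.Ce.right.right.right RtB17_10.CTp.right RtB17_10.CEr 0x01 = true := by decide +kernel

theorem cB17_10_2_0 : chunkOkM (LB17_10.ctx false true 97 1 1 1 1 1 1 1 1) muQ false true 64 RtB17_10.Cx RtB17_10.CX RtB17_10.Ctn RtB17_10.Ce RtB17_10.CTp RtB17_10.CEr 0x49 = true := by decide +kernel

theorem cB17_10_1_0 : chunkOkM (LB17_10.ctx true false 97 1 1 1 1 1 1 1 1) muQ true false 64 RtB17_10.Cx RtB17_10.CX RtB17_10.Ctp RtB17_10.Ce RtB17_10.CTn RtB17_10.CEr 0x4a = true := by decide +kernel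

theorem cB17_10_0_0 : chunkOkM (LB17_10.ctx false false 97 1 1 1 1 1 1 1 1) muQ false false 64 RtB17_10.Cx RtB17_10.CX RtB17_10.Ctn RtB17_10.Ce RtB17_10.CTn RtB17_10.CEr 0x49 = true := by decide +kernel

end Vale.Agent.helper4.Q4
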