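import Vale.Agent.helper4.Q4TreeM
import Vale.Agent.helper4.Q4G.PB17_10

/-!
Checks for pairs of intervals of second moments.
-/

set_option maxRecDepth 100000
set_option linter.unusedVariables false

namespace Vale.Agent.helper4.Q4

theorem cB17_10_3_33 : chunkOkM (LB17_10.ctx true true 271 119 64 13 16 1505 2409 64 35) muQ true true 64 RtB17_10.Cx.left.right RtB17_10.CX RtB17_10.Ctp.right.right.left.right.left.right RtB17_10.Ce.right.right.left.right.right.left RtB17_10.CTp.right RtB17_10.CEr.right 0x37a2e747ed2047ffd74c371d0d57f63bc68167f540dc9f2aa8af94c38ef992e197b161d6f17f63052b387f540d57213854a8dd58aff2574c193a83d7f64723afe7f540d58501387ed4dd60ba74c3d82e5a77b1c7b43d7f6454a6467f550d53874ca77ed4ffa8264cfe4e0c6f636dc7237f540d65549db7edae5d5fa74cb256886f63aaa9797f540d5593764697b418dd190d66c74c12a82f47f6357c51b7f540d6ea51697ed9526c1474c177faa977bce82976f634926887f550d546 = true := by decide +kernel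

theorem cB17_10_3_34 : chunkOkM (LB17_10.ctx true true 267 119 64 13 16 1505 2431 32 35) muQ true true 64 RtB17_10.Cx.left RtB17_10.CX RtB17_10.Ctp.right.right.left.right.left RtB17_10.Ce.right.right.left.right.right.right RtB17_10.CTp.right RtB17_10.CEr.right 0x59512a8f57ed830acc374c38cecbc7f6454d9887f540d4b0767128dd5c9d8ff74c36dd7467b46b2fa17f64a862647f550d65935974597593 = true := by decide +kernel

theorem cB17_10_3_35 : chunkOkM (LB17_10.ctx true true 97 1 1 1 1 1 1 1 1) muQ true true 64 RtB17_10.Cx.left.left RtB17_10.CX RtB17_10.Ctp.right.right.left.right.right RtB17_10.Ce.right.right.left.right.right.left RtB17_10.CTp.right.left.left RtB17_10.CEr.right.left 0x4a = true := by decide +kernel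

theorem cB17_10_3_36 : chunkOkM (LB17_10.ctx true true 277 115 64 13 16 1533 2409 128 64) muQ true true 64 RtB17_10.Cx.left.left RtB17_10.CX RtB17_10.Ctp.right.right.left.right.right.left RtB17_10.Ce.right.right.left.right.right.left RtB17_10.CTp.right.left.right RtB17_10.CEr.right.left 0x3b0fdde7ed292121074c18ba79b77b5beee337f61cbb639f8e550d6973ba31bb7ed2160a8874c1f7dced77b49b30307f61b85a8e58e550d8f8a6c67ed83e18b274c83788067bc74cc627f640d2e75d737ed1c804bb77bc872fb07f666c1c287e540d63c2d2977ed2779d4174c1862fae77b5a8254c7f61fc04ce58e550d374 = true := by decide +kernel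

theorem cB17_10_3_37 : chunkOkM (LB17_10.ctx true true 278 115 64 13 16 1561 2409 128 64) muQ true true 64 RtB17_10.Cx.left.left RtB17_10.CX RtB17_10.Ctp.right.right.left.right.right.right RtB17_10.Ce.right.right.left.right.right.left RtB17_10.CTp.right.left.right RtB17_10.CEr.right.left 0x3a615387ed2fc31e974c1dd330977bb7022027f640d38ced397ed269bf9b74c16f7ea477baaa2a867f640d37ed9f447ed9d10d6774c57d03667ba9dcbd47f64c67426f250d79843a67ed921583874c1f7ced67bbcd21617f640d34c6eb527ed4af094d74c95b7f667b95ff8f87f640d6739ef5327ed2a2f56e74c1b19d7c77b1a2dccc549e640d8643e7b7ed9d12b0774c41351467b820f1fe7f640d2f33b3d7ed217673277b99bfc767f630d674 = true := by decide +kernel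

theorem cB17_10_3_38 : chunkOkM (LB17_10.ctx true true 276 115 64 13 16 777 2409 128 128) muQ true true 64 RtB17_10.Cx.left.left RtB17_10.CX RtB17_10.Ctp.right.right.left.right.right RtB17_10.Ce.right.right.left.right.right.left RtB17_10.CTp.right.right RtB17_10.CEr.right.left 0x1236eb1957ed1c2cc8b74cbaa31607f630db8aff617ed82a3b547f620d72261ed67edb7626d4d8e620d4853a0867ed24a55ff74c39f3c7d78e61b75fba08e540d63acf1f7edec8c8464c57ed31d7f617b7ec158e540d436a65126 = true := by decide +kernel

theorem cB17_10_3_39 : chunkOkM (LB17_10.ctx true true 257 59 32 13 16 385 1199 128 32) muQ true true 64 RtB17_10.Cx.left.right RtB17_10.CX RtB17_10.Ctp.right.right.left.right.right RtB17_10.Ce.right.right.left.right.right.left RtB17_10.CTp.right RtB17_10.CEr.right.left 0x61b650e7ed1eb9a6774c3d7cf0868e624b840fa8e540d325f8c97ed11d882974c24e541f77b45d50c948e623ccc19b8e550d4a55 = true := by decide +kernel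

theorem cB17_10_3_40 : chunkOkM (LB17_10.ctx true true 248 29 16 13 16 385 1199 64 35) muQ true true 64 RtB17_10.Cx.left RtB17_10.CX RtB17_10.Ctp.right.right.left.right.right RtB17_10.Ce.right.right.left.right.right.left RtB17_10.CTp.right.left RtB17_10.CEr.right.right 0xfebcfff8b94c470afad7797b3026a06f62cc571a7f540d = true := by decide +kernel

theorem cB17_10_3_41 : chunkOkM (LB17_10.ctx true true 280 227 128 13 16 1533 2387 64 75) muQ true true 64 RtB17_10.Cx.left.left RtB17_10.CX RtB17_10.Ctp.right.right.left.right.right.left RtB17_10.Ce.right.right.left.right.right.left.left RtB17_10.CTp.right.right RtB17_10.CEr.right.right 0x57fa6057ed29c416374c511a7ba7f6142740ca8e540d55814cf7ed21ec12774cbb5e2367f6b05a0cb7e540d6473cb9b7ed215264e74c22cfc097f6205ba7b7f540d3645d8437ed1ceb65274c3f2aa76e9b7a82c47f640d4e8286a7ed1c592ed74cba1519b7f630d64491abe7ed1feee5874c680eb5e7f61a22e337f540d59737 = true := by decide +kernel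

theorem cB17_10_3_42 : chunkOkM (LB17_10.ctx true true 274 115 64 13 16 1533 2409 64 75) muQ true true 64 RtB17_10.Cx.left.left RtB17_10.CX RtB17_10.Ctp.right.right.left.right.right.left RtB17_10.Ce.right.right.left.right.right.left.right RtB17_10.CTp.right.right RtB17_10.CEr.right.right 0x530deb67ed26a9e1874c2d8d6a6e99288a2e7f6143c3047f550d476395b7ed1c55f2574c58dd72b7f61474accd8e540d641c05ba7ed247d66374c20b34a37e934cb7f6f62f5c9207f550d3697 = true := by decide +kernel

theorem cB17_10_3_43 : chunkOkM (LB17_10.ctx true true 274 115 64 13 16 777 2387 135 75) muQ true true 64 RtB17_10.Cx.left.left RtB17_10.CX RtB17_10.Ctp.right.right.left.right.right.right RtB17_10.Ce.right.right.left.right.right.left.left RtB17_10.CTp.right.right RtB17_10.CEr.right.right 0x3c0d2907ed18f954d7e977dae0f58e630d5a527e7c16f06c3bdc9037ed52341464c7dfddbf7f630d4c60a037ed4bfc15574c67c02917f630d576 = true := by decide +kernel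

theorem cB17_10_3_44 : chunkOkM (LB17_10.ctx true true 281 115 64 13 16 1561 4829 135 75) muQ true true 64 RtB17_10.Cx.left.left RtB17_10.CX RtB17_10.Ctp.right.right.left.right.right.right RtB17_10.Ce.right.right.left.right.right.left.right RtB17_10.CTp.right.right RtB17_10.CEr.right.right 0x5b51fd17ed1f1ee1074c750c3c6e994f4e197f6213d9807e550d4ae948f7ed1c32fb474c9c4a0e27f630d641b3cd77ed61f39364cb9c4216e98ee60f97f635a7456f250d5a559084ff7ed29783ce74c85f79ba7f683f0ad6f240d632c9e37ed2b52f8474cab9b5487f66645786f240d4576a8b57ed2572a0174cddd06177f630d367 = true := by decide +kernel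

theorem cB17_10_3_45 : chunkOkM (LB17_10.ctx true true 254 59 32 13 16 385 1199 64 35) muQ true true 64 RtB17_10.Cx.left.right RtB17_10.CX RtB17_10.Ctp.right.right.left.right.right RtB17_10.Ce.right.right.left.right.right.left RtB17_10.CTp.right.right RtB17_10.CEr.right.right 0x3553a887ed1f8ddd374c68907e6e939fff1178e620b66e8f8e550d = true := by decide +kernel

end Vale.Agent.helper4.Q4
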