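import Vale.Agent.helper4.Q4TreeM
import Vale.Agent.helper4.Q4G.PB17_10

/-!
Checks for pairs of intervals of second moments.
-/

set_option maxRecDepth 100000
set_option linter.unusedVariables false

namespace Vale.Agent.helper4.Q4

theorem cB17_10_3_46 : chunkOkM (LB17_10.ctx true true 281 115 64 13 16 1561 4873 128 64) muQ true true 64 RtB17_10.Cx.left.left RtB17_10.CX RtB17_10.Ctp.right.right.left.right.right RtB17_10.Ce.right.right.left.right.right.right RtB17_10.CTp.right.left RtB17_10.CEr.right.left 0x39dd49d7ed313673474c1ba3c7977bfb3b4217f640d693217771a7007ed8f3966374cbd35ab87f630d40707c6a8dd3f9aea574cbfc10b87f630d639790257ed26d720074c1bf769577b1b6ab8378f640d37a6e757ed2499a0674c18d2af977bfc1873f7f640d433c2ccef7ed34a763674c207893a77b15ab54908f640d743a46f9a7ed275464274ce855df67b43a92d3a8e623bd19fb8e550d34a5 = true := by decide +kernel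

theorem cB17_10_3_47 : chunkOkM (LB17_10.ctx true true 277 115 64 13 16 777 2453 128 128) muQ true true 64 RtB17_10.Cx.left.left RtB17_10.CX RtB17_10.Ctp.right.right.left.right.right RtB17_10.Ce.right.right.left.right.right.right RtB17_10.CTp.right.right RtB17_10.CEr.right.left 0x12727c3057ed1a4d24674cda65fb978e630db709a927eda35194a7f620d46b66ac7ed3cb204d74c13a4b12f79e630d746b4c2a77ed13b5f6a74c9e42de97e631286c288e540d36a65126 = true := by decide +kernel

theorem cB17_10_3_48 : chunkOkM (LB17_10.ctx true true 254 57 32 13 16 385 1221 64 35) muQ true true 64 RtB17_10.Cx.left.left RtB17_10.CX RtB17_10.Ctp.right.right.left.right.right RtB17_10.Ce.right.right.left.right.right.right RtB17_10.CTp.right.left RtB17_10.CEr.right.right 0x13395ff44ca4c578d46f3497b77482267f630d = true := by decide +kernel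

theorem cB17_10_3_49 : chunkOkM (LB17_10.ctx true true 288 231 128 13 16 1561 4895 135 75) muQ true true 64 RtB17_10.Cx.left.left RtB17_10.CX RtB17_10.Ctp.right.right.left.right.right RtB17_10.Ce.right.right.left.right.right.right RtB17_10.CTp.right.right RtB17_10.CEr.right.right 0x694a9dbb87ed28231d574c1c2ce0a88f630d469769321740e19e17ed2bd70164cda75a76e9ae8a4327f624717d47e550d5a555a1dce7ed243263674c110a00088f630d7ea465c7ed236fe2874cbf9ef777f630d4363f1787ed24b876974c13d15caf8f630d48f66ef7ed1c25ad774cc9c3c957f630d436694944f2f7ed30c4c2274c246bcfcc8f630d42176937442815c57ed1ddb4bb74ccdad3ca7e62e414087f540d3 = true := by decide +kernel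

theorem cB17_10_3_50 : chunkOkM (LB17_10.ctx true true 264 59 32 13 16 763 2453 128 32) muQ true true 64 RtB17_10.Cx.left.right RtB17_10.CX RtB17_10.Ctp.right.right.left.right.right.left RtB17_10.Ce.right.right.left.right.right.right RtB17_10.CTp.right RtB17_10.CEr.right.left 0x34c2feb7ed91baa464c1200e76f6387c2327f540d66240b37ed8b33fbe74c158505d77b82ab736f6372312f7f550d559068bb7ed3acdfd674cd713fb6f6338ab9c7f540d36f13ec7ed1e6ee6074c1fbefec77b1ee4a7f7f62cf2869a8e550d4a554 = true := by decide +kernel

theorem cB17_10_3_51 : chunkOkM (LB17_10.ctx true true 278 119 64 13 16 1561 4917 128 32) muQ true true 64 RtB17_10.Cx.left.right RtB17_10.CX RtB17_10.Ctp.right.right.left.right.right.right RtB17_10.Ce.right.right.left.right.right.right RtB17_10.CTp.right RtB17_10.CEr.right.left 0x380ca1fa8dd1f1ee864c39fa2997f61a1e56508e540d300fc1c7ed147618e74c1b8651177b4af058c7f6242b85118e550d32dae4a7ed2011a2374c19f633f77be8ab2947f66f2e7a97e550d30739287ed24c950e74c169c39d77bdc8d8f77f640d435053fb7ed2507a1574c1716e5977b575068f7f61db507f78e550d37334908d7ed1bad13974c1b5307c77b49a794e18e617055c138e550d44a55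 = true := by decide +kernel

theorem cB17_10_3_52 : chunkOkM (LB17_10.ctx true true 254 59 32 13 16 385 1221 64 35) muQ true true 64 RtB17_10.Cx.left.right RtB17_10.CX RtB17_10.Ctp.right.right.left.right.right RtB17_10.Ce.right.right.left.right.right.right RtB17_10.CTp.right.left RtB17_10.CEr.right.right 0xe4051063394c3fdb180b097b23468e6f62e73fae7f540d = true := by decide +kernel

theorem cB17_10_3_53 : chunkOkM (LB17_10.ctx true true 258 59 32 13 16 763 1221 64 35) muQ true true 64 RtB17_10.Cx.left.right RtB17_10.CX RtB17_10.Ctp.right.right.left.right.right.left RtB17_10.Ce.right.right.left.right.right.right RtB17_10.CTp.right.right RtB17_10.CEr.right.right 0x3e2504d7ed1d3d0ed74c2ad63277f62d898dd7f540d = true := by decide +kernel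

theorem cB17_10_3_54 : chunkOkM (LB17_10.ctx true true 270 119 64 13 16 777 2431 64 75) muQ true true 64 RtB17_10.Cx.left.right RtB17_10.CX RtB17_10.Ctp.right.right.left.right.right.right RtB17_10.Ce.right.right.left.right.right.right.left RtB17_10.CTp.right.right RtB17_10.CEr.right.right 0x1fc7fe6f06c66cb1557ed2665c6074c13236607e94affe647f618e942ff8e550d53795dc7ed1f7014274c63573697f6173660228e540d67 = true := by decide +kernel

theorem cB17_10_3_55 : chunkOkM (LB17_10.ctx true true 277 119 64 13 16 1561 4917 64 75) muQ true true 64 RtB17_10.Cx.left.right RtB17_10.CX RtB17_10.Ctp.right.right.left.right.right.right RtB17_10.Ce.right.right.left.right.right.right.right RtB17_10.CTp.right.right RtB17_10.CEr.right.right 0x35392607ed1b6702874c140706b7e9550a36e7f624aa18328e550d56eb2977ed246431a74c76ab626e98dbbe5b7f6c88656a7e550d43464727ed1d8355474cc3d77817f691c0f627e540d534feb57ed1ccd6bc74c123a88ce8f630d4641133ff7ed1ee150d74c5c09f0a7f621d4ea07f540d4af5fac7ed1548c5d74c7eececa7f6174afc87f540d41b58fa7ed210d8cc74c57a7f4a7f6185337988e540d6437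 = true := by decide +kernel

theorem cB17_10_3_56 : chunkOkM (LB17_10.ctx true true 267 123 64 13 16 1477 2409 32 35) muQ true true 64 RtB17_10.Cx.right.left RtB17_10.CX RtB17_10.Ctp.right.right.left.right.left RtB17_10.Ce.right.right.left.right.right.left RtB17_10.CTp.right RtB17_10.CEr.right 0x47f70797ed6492eae74c6812a5ea8e65252abd7f540d363d6c97ed3b0fecb74c700552c08e6515de1f7f540d63829efd7edd9009ca74c44469477e8393e9697f6657465f7f550d397426b7edfa3373574c58ae34c7e841cf7467f66d5e9037f5173acfb7f460d33e6d1d27edfa9de5974c4b4d65d7e827693767f6558afde7f550d3911f7b7ed523d00674c16709e77e7489b4397f66cc29907f550d373ac09047ed580e8e674c2913fed7f6527fc9a7f540d3c0441c7ed4ecf34a74c3e8d3657f65f221b07f540d643 = true := by decide +kernel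

theorem cB17_10_3_57 : chunkOkM (LB17_10.ctx true true 247 63 32 13 16 371 1199 32 16) muQ true true 64 RtB17_10.Cx.right.right RtB17_10.CX RtB17_10.Ctp.right.right.left.right.left RtB17_10.Ce.right.right.left.right.right.left RtB17_10.CTp.right RtB17_10.CEr.right 0x3d1a1df7ed6b36ade74c19f6239699e65d4b717f8f440d = true := by decide +kernel

theorem cB17_10_3_58 : chunkOkM (LB17_10.ctx true true 261 123 64 13 16 735 2453 32 16) muQ true true 64 RtB17_10.Cx.right.left RtB17_10.CX RtB17_10.Ctp.right.right.left.right.left.left RtB17_10.Ce.right.right.left.right.right.right RtB17_10.CTp.right RtB17_10.CEr.right 0x36f4b927ed505129074c1f6fff97e71fe1c7f339f556afa9de19f450d36160607edcd0eb0274c40493487e84c83a5e7f674dc22d7f5c6159c6f460d4597 = true := by decide +kernel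

end Vale.Agent.helper4.Q4
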