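import Vale.Agent.helper4.Q4TreeM
import Vale.Agent.helper4.Q4G.PB17_10

/-!
Checks for pairs of intervals of second moments.
-/

set_option maxRecDepth 100000
set_option linter.unusedVariables false

namespace Vale.Agent.helper4.Q4

theorem cB17_10_3_59 : chunkOkM (LB17_10.ctx true true 267 123 64 13 16 1505 2453 32 35) muQ true true 64 RtB17_10.Cx.right.left RtB17_10.CX RtB17_10.Ctp.right.right.left.right.left.right RtB17_10.Ce.right.right.left.right.right.right RtB17_10.CTp.right RtB17_10.CEr.right 0x3bee7a67ed5bac2cb74c25f7fba7f6460b1e87f540d47a2d74a8dd57122b674c2427e0f7f6458a21b7f540d63501f2f7edbfa033c74c366b7297e85cd8ffc7f6715675d7f550d34385a777ed62e4e3374c168c4a57f642f56827f540d3c56daf58dd5e1125a74c682426a7f65c8b4237f540d659374cf93e67ede75050d74c35acc937e82f7cf3a7f64c1396c7f550d4ffc5027ed616016474c150a81a7f6494cb4e7f540d64 = true := by decide +kernel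

theorem cB17_10_3_60 : chunkOkM (LB17_10.ctx true true 263 125 64 13 16 749 2453 32 35) muQ true true 64 RtB17_10.Cx.right.right RtB17_10.CX RtB17_10.Ctp.right.right.left.right.left RtB17_10.Ce.right.right.left.right.right.right RtB17_10.CTp.right RtB17_10.CEr.right 0x693179fe97ed3bf836674c4d435ec7f66655d977f540d2e882ff7ed2ea4e0c74c85501457f67d719327f515b90357f450d67694493 = true := by decide +kernel

theorem cB17_10_3_61 : chunkOkM (LB17_10.ctx true true 267 123 64 13 16 763 2453 64 35) muQ true true 64 RtB17_10.Cx.right RtB17_10.CX RtB17_10.Ctp.right.right.left.right.right RtB17_10.Ce.right.right.left.right.right RtB17_10.CTp.right RtB17_10.CEr.right 0x6969292dad37ed73370964c32e0bda18e634b5f8bc8e540d877ae62fc94c2613e99a497b236895c38e6344370628e540d53626b3d7ed443bf7574c8e582c57f65bae54a7f540d3e32231b8dd26a30464c35d7d927f63aa583b7f540d6892b507edaf7206c74c347bd227f63dbf40f7f540d5746ef0d67ed5e4944f74c94df1d3e8e64c5d89928e540d4676943 = true := by decide +kernel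

theorem cB17_10_3_62 : chunkOkM (LB17_10.ctx true true 97 1 1 1 1 1 1 1 1) muQ true true 64 RtB17_10.Cx RtB17_10.CX RtB17_10.Ctp.right.right.right.left RtB17_10.Ce.right.right.left.left RtB17_10.CTp.right RtB17_10.CEr 0x11 = true := by decide +kernel

theorem cB17_10_3_63 : chunkOkM (LB17_10.ctx true true 97 1 1 1 1 1 1 1 1) muQ true true 64 RtB17_10.Cx RtB17_10.CX RtB17_10.Ctp.right.right.right.left.left RtB17_10.Ce.right.right.left.right.left RtB17_10.CTp.right RtB17_10.CEr 0x11 = true := by decide +kernel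

theorem cB17_10_3_64 : chunkOkM (LB17_10.ctx true true 232 15 8 13 16 399 605 32 16) muQ true true 64 RtB17_10.Cx RtB17_10.CX RtB17_10.Ctp.right.right.right.left.left RtB17_10.Ce.right.right.left.right.right RtB17_10.CTp.right RtB17_10.CEr.left 0x16b5a5bc88bf48ee3958e820d = true := by decide +kernel

theorem cB17_10_3_65 : chunkOkM (LB17_10.ctx true true 97 1 1 1 1 1 1 1 1) muQ true true 64 RtB17_10.Cx.left RtB17_10.CX RtB17_10.Ctp.right.right.right.left.left RtB17_10.Ce.right.right.left.right.right RtB17_10.CTp.right.left.left RtB17_10.CEr.right 0x4a = true := by decide +kernel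

theorem cB17_10_3_66 : chunkOkM (LB17_10.ctx true true 277 115 64 13 16 791 4917 128 64) muQ true true 64 RtB17_10.Cx.left RtB17_10.CX RtB17_10.Ctp.right.right.right.left.left RtB17_10.Ce.right.right.left.right.right RtB17_10.CTp.right.left.right RtB17_10.CEr.right.left 0x36ddf157ed2ab25d274c21ec7c077b9c0d15768e640d01720eee57ed8c6d23f74c74995667b9e32b4a7f6c461ee6f250d7648edc7ed927eca574c70a77f67b9a0ed4d7f6a99c036f250d4681fb2c7ed6a8d78d74ca800e237f6c3964c6f240d6693f5147ed98cc2d274c7e059a2f8e6874795d7e240d3f1a51a7ed45f533f74c96caaee48e61cf04007e240d64213c2ccef7ed34a763674c207893a77b793ccff7f61aa3ba97f250d47373d795fc7ed37cc21f74c1fec4e277bf2f59317e621796b6f8e250d4 = true := by decide +kernel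

theorem cB17_10_3_67 : chunkOkM (LB17_10.ctx true true 249 29 16 13 16 399 605 128 35) muQ true true 64 RtB17_10.Cx.left RtB17_10.CX RtB17_10.Ctp.right.right.right.left.left RtB17_10.Ce.right.right.left.right.right RtB17_10.CTp.right.left.right RtB17_10.CEr.right.right 0x9c3337d2d94c2cbd9656e97b15b305a08e230d = true := by decide +kernel

theorem cB17_10_3_68 : chunkOkM (LB17_10.ctx true true 277 115 64 13 16 791 2453 128 128) muQ true true 64 RtB17_10.Cx.left RtB17_10.CX RtB17_10.Ctp.right.right.right.left.left RtB17_10.Ce.right.right.left.right.right RtB17_10.CTp.right.right RtB17_10.CEr.right.left 0x124d96c027edb6daa4d08e620d017fc9e977ed18508aa74c9241ff87f69cfb946f240d23d68857edf636a54c8d11f42c8e630d45f485737ed29cdd6074c3a0770b38e61b71f2158e240d737534eac17ed1fa334474c9bedef47e621b659868e240d46a61265 = true := by decide +kernel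

theorem cB17_10_3_69 : chunkOkM (LB17_10.ctx true true 271 113 64 13 16 1575 1199 64 75) muQ true true 64 RtB17_10.Cx.left.left RtB17_10.CX RtB17_10.Ctp.right.right.right.left.left.left RtB17_10.Ce.right.right.left.right.right.left RtB17_10.CTp.right.right RtB17_10.CEr.right.right 0x69018dbaa087ed18a1a7974c2c59e2a7f61e822fa7f240d5ae13277ed2e9d00374c165d935d8e622744f118e240d637 = true := by decide +kernel

theorem cB17_10_3_70 : chunkOkM (LB17_10.ctx true true 280 227 128 13 16 1575 2431 64 75) muQ true true 64 RtB17_10.Cx.left.left.left RtB17_10.CX RtB17_10.Ctp.right.right.right.left.left.left RtB17_10.Ce.right.right.left.right.right.right RtB17_10.CTp.right.right RtB17_10.CEr.right.right 0x21019423de37ed14308ac74c92023577f6b2cb646f240d57fdcc27ed2614dac74c747ee277f6141fad77f240d632174 = true := by decide +kernel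

theorem cB17_10_3_71 : chunkOkM (LB17_10.ctx true true 288 231 128 13 16 1589 4917 135 75) muQ true true 64 RtB17_10.Cx.left.left.right RtB17_10.CX RtB17_10.Ctp.right.right.right.left.left.left RtB17_10.Ce.right.right.left.right.right.right RtB17_10.CTp.right.right RtB17_10.CEr.right.right 0x41686457ed4e52c464c62044f6e96ac0eff7f67f5dab6f250d5a569e7d317ed269e11074c2de724a7f626c55137f240d54b125d7ed2c9e37874cd9be00a7f626a51a6f240d367d91337ed33dbeee74ccca91c67f630d59ff4dc7ed2b4f59074cb6101ba7f6109a8b07f240d7466365dcb7ed26aa22574c6b1a0027f66816936f240d591c9eb7ed2a8dd3e74c77adafc18e657e8e957e240d64 = true := by decide +kernel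

theorem cB17_10_3_72 : chunkOkM (LB17_10.ctx true true 97 1 1 1 1 1 1 1 1) muQ true true 64 RtB17_10.Cx.left.left RtB17_10.CX RtB17_10.Ctp.right.right.right.left.left.right RtB17_10.Ce.right.right.left.right.right RtB17_10.CTp.right.right RtB17_10.CEr.right.right 0x01 = true := by decide +kernel

theorem cB17_10_3_73 : chunkOkM (LB17_10.ctx true true 264 59 32 13 16 791 2453 64 75) muQ true true 64 RtB17_10.Cx.left.right RtB17_10.CX RtB17_10.Ctp.right.right.right.left.left RtB17_10.Ce.right.right.left.right.right RtB17_10.CTp.right.right RtB17_10.CEr.right.right 0x11539da1b7ed2ff860f74c9f05a29b8e630d3f639047ed29ec31d74c906dc3ae8e630d66943114 = true := by decide +kernel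

theorem cB17_10_3_74 : chunkOkM (LB17_10.ctx true true 97 1 1 1 1 1 1 1 1) muQ true true 64 RtB17_10.Cx.right RtB17_10.CX RtB17_10.Ctp.right.right.right.left.left RtB17_10.Ce.right.right.left.right.right RtB17_10.CTp.right RtB17_10.CEr.right 0x11 = true := by decide +kernel

theorem cB17_10_3_75 : chunkOkM (LB17_10.ctx true true 97 1 1 1 1 1 1 1 1) muQ true true 64 RtB17_10.Cx RtB17_10.CX RtB17_10.Ctp.right.right.right.left.right RtB17_10.Ce.right.right.left.right RtB17_10.CTp.right RtB17_10.CEr 0x11 = true := by decide +kernel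

theorem cB17_10_3_76 : chunkOkM (LB17_10.ctx true true 97 1 1 1 1 1 1 1 1) muQ true true 64 RtB17_10.Cx RtB17_10.CX RtB17_10.Ctp.right.right.right.right RtB17_10.Ce.right.right.left RtB17_10.CTp.right RtB17_10.CEr 0x01 = true := by decide +kernel

theorem cB17_10_3_77 : chunkOkM (LB17_10.ctx true true 97 1 1 1 1 1 1 1 1) muQ true true 64 RtB17_10.Cx RtB17_10.CX RtB17_10.Ctp.right.right.left.left RtB17_10.Ce.right.right.right RtB17_10.CTp.right RtB17_10.CEr 0x59 = true := by decide +kernel

theorem cB17_10_3_78 : chunkOkM (LB17_10.ctx true true 97 1 1 1 1 1 1 1 1) muQ true true 64 RtB17_10.Cx.left RtB17_10.CX RtB17_10.Ctp.right.right.left.right.left RtB17_10.Ce.right.right.right.left.left RtB17_10.CTp.right RtB17_10.CEr 0x59 = true := by decide +kernel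

theorem cB17_10_3_79 : chunkOkM (LB17_10.ctx true true 241 31 16 13 16 371 1243 32 16) muQ true true 64 RtB17_10.Cx.right RtB17_10.CX RtB17_10.Ctp.right.right.left.right.left RtB17_10.Ce.right.right.right.left.left.left RtB17_10.CTp.right RtB17_10.CEr.left 0x1e85a42688b174a461729e85c13bd17f532a85177f440d = true := by decide +kernel

theorem cB17_10_3_80 : chunkOkM (LB17_10.ctx true true 264 127 64 13 16 1505 2497 32 16) muQ true true 64 RtB17_10.Cx.right RtB17_10.CX RtB17_10.Ctp.right.right.left.right.left RtB17_10.Ce.right.right.right.left.left.left RtB17_10.CTp.right RtB17_10.CEr.right 0x27820127ed7d3696874c24d84af7e8329a14b7f65d82a617f51fce6327f460d30356017edb151a6874c3806a027e853b5cd17f6745f6907f53eb7736f460d76938a9d7edd490ac674c4ad1d3b58f62fd61ff18f522510c488f450d32c7a1eb7ed41f0bb474c32b1cfa88f430d313fef7a8ddbe5d3b674c39875257e830646017f659c8eee7f576c1656f460d32ae3647edc1828e674c4149acf7e82b09bbe7f660ac5657f5186f8f47f460d37459370f6df7edd10987e74c3bd532e7e84df12f97f665b78d37f550d5974718d8f83f8ed34e46257e82af382eb8f5808a28eb8f440d3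 = true := by decide +kernel

theorem cB17_10_3_81 : chunkOkM (LB17_10.ctx true true 240 31 16 13 16 371 1265 32 8) muQ true true 64 RtB17_10.Cx.right RtB17_10.CX RtB17_10.Ctp.right.right.left.right.left RtB17_10.Ce.right.right.right.left.left.right RtB17_10.CTp.right RtB17_10.CEr 0x3b65a717ed45473268b343d726699f58ee30fa079f440d = true := by decide +kernel

theorem cB17_10_3_82 : chunkOkM (LB17_10.ctx true true 97 1 1 1 1 1 1 1 1) muQ true true 64 RtB17_10.Cx.left.left RtB17_10.CX RtB17_10.Ctp.right.right.left.right.right RtB17_10.Ce.right.right.right.left.left RtB17_10.CTp.right RtB17_10.CEr 0x59 = true := by decide +kernel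

theorem cB17_10_3_83 : chunkOkM (LB17_10.ctx true true 244 59 32 13 16 385 627 32 16) muQ true true 64 RtB17_10.Cx.left.right RtB17_10.CX RtB17_10.Ctp.right.right.left.right.right RtB17_10.Ce.right.right.right.left.left RtB17_10.CTp.right RtB17_10.CEr.left 0x1c75791888b10e6f66b79e85549e4d7f6586dddb7f540d = true := by decide +kernel

end Vale.Agent.helper4.Q4
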