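import Vale.Agent.helper4.Q4TreeM
import Vale.Agent.helper4.Q4G.PB17_10

/-!
Checks for pairs of intervals of second moments.
-/

set_option maxRecDepth 100000
set_option linter.unusedVariables false

namespace Vale.Agent.helper4.Q4

theorem cB17_10_3_84 : chunkOkM (LB17_10.ctx true true 284 239 128 13 16 3073 4939 64 35) muQ true true 64 RtB17_10.Cx.left.right RtB17_10.CX RtB17_10.Ctp.right.right.left.right.right.left RtB17_10.Ce.right.right.right.left.left.left RtB17_10.CTp.right RtB17_10.CEr.right 0x59598b5464d7ed2877fc974c358e6827f530d85703b1df94c259bbe9aa97b56c890b7f635d161d7f540d535dae6ad8dd1010d1374cbdd4a16f636507f87f540d53dfba57eda27835574c3a4df017f530d5659345975935974 = true := by decide +kernel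

theorem cB17_10_3_85 : chunkOkM (LB17_10.ctx true true 278 119 64 13 16 1561 4961 128 32) muQ true true 64 RtB17_10.Cx.left.right RtB17_10.CX RtB17_10.Ctp.right.right.left.right.right.right RtB17_10.Ce.right.right.right.left.left.left RtB17_10.CTp.right RtB17_10.CEr.right.left 0x35fe6587ed169212f74c42fcec37f6284fcd57f540d329ac8a7ed2874e5974c174b03677b6670f1d7f623dd43668e550d4a556974a9d0997ed112c73474c29dc1097f62474f0b7f540d3773c477ed29970b274c1daff0e77b417d7307f6253364f18e550d35a48657ed251f75a74c195dbf177b1661da218f640d33698567ed23d7bd174c1a11dc677be5e30737f6b7d73067e550d432be4d17ed294a6f874c915b406f632da91748e540d374a554 = true := by decide +kernel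

theorem cB17_10_3_86 : chunkOkM (LB17_10.ctx true true 258 59 32 13 16 777 1243 64 35) muQ true true 64 RtB17_10.Cx.left.right RtB17_10.CX RtB17_10.Ctp.right.right.left.right.right.right RtB17_10.Ce.right.right.right.left.left.left RtB17_10.CTp.right.left RtB17_10.CEr.right.right 0xf60861a3b94c456540e0697b5d626f27f630d = true := by decide +kernel

theorem cB17_10_3_87 : chunkOkM (LB17_10.ctx true true 278 119 64 13 16 1561 4961 64 75) muQ true true 64 RtB17_10.Cx.left.right RtB17_10.CX RtB17_10.Ctp.right.right.left.right.right.right RtB17_10.Ce.right.right.right.left.left.left.left RtB17_10.CTp.right.right RtB17_10.CEr.right.right 0x3e814cb7ed208b42f74c4ba0f057f61c1416e28e540d485dd7d7ed1b4811274c47137977f627836917f540d3416f0747ed20aea0f74c1b4a26c78f630d51971827ed23b6b7574c40cf306e9ab9fe7c7f65520af6f550d4cbdd607ed1de82ac74ce517c507f6d8525567e540d643af56e27ed1d5660574c168c5807f62f8b62c7f540d37 = true := by decide +kernel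

theorem cB17_10_3_88 : chunkOkM (LB17_10.ctx true true 274 119 64 13 16 1561 5005 64 35) muQ true true 64 RtB17_10.Cx.left.right RtB17_10.CX RtB17_10.Ctp.right.right.left.right.right.right RtB17_10.Ce.right.right.right.left.left.left.right RtB17_10.CTp.right.right RtB17_10.CEr.right.right 0x38077c57ed1e225e474c100eddb7e91a50c717f62eff9167f550d3f75f9d7ed1f013dd74c5d01dbf7f61be13147f540d4316b32a7ede1e17564c2212c297e9a073cf6f63265f117f550d3697 = true := by decide +kernel

theorem cB17_10_3_89 : chunkOkM (LB17_10.ctx true true 323 1919 1024 13 16 25081 40139 64 35) muQ true true 64 RtB17_10.Cx.left.right RtB17_10.CX RtB17_10.Ctp.right.right.left.right.right RtB17_10.Ce.right.right.right.left.left.right RtB17_10.CTp.right RtB17_10.CEr.right 0x5959595959363295448dd164c64f74c2e5d8cd7f530d152a05c5210f666f06c5f0b13528dd8aa451574cfc659867b33363267f540d5659345975934597593459759345975935974593 = true := by decide +kernel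

theorem cB17_10_3_90 : chunkOkM (LB17_10.ctx true true 238 31 16 13 16 385 627 32 16) muQ true true 64 RtB17_10.Cx.right RtB17_10.CX RtB17_10.Ctp.right.right.left.right.right RtB17_10.Ce.right.right.right.left.left RtB17_10.CTp.right RtB17_10.CEr.left 0x14f0c6dd88bc9911d998e8432cadc7f530d = true := by decide +kernel

theorem cB17_10_3_91 : chunkOkM (LB17_10.ctx true true 271 123 64 13 16 1533 2475 64 35) muQ true true 64 RtB17_10.Cx.right.left RtB17_10.CX RtB17_10.Ctp.right.right.left.right.right.left RtB17_10.Ce.right.right.right.left.left.left.left RtB17_10.CTp.right RtB17_10.CEr.right 0x37030a87ed38f9e54cc2c5806e973e48e6f63929e3a7f550da268b590194c2dba3d61097b203fe557f63823e807f540d5565f24ec8dd655ccc274c50348657f652c22527f540d3c2c741c8dd2fd87464c14d46587f639466f17f540d576466b7ed58b2b7674c2f95b4a77b2615b457f6484cc5d7f550d565b0d47c8dd734066d74c380ef787f652089307f540d376 = true := by decide +kernel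

theorem cB17_10_3_92 : chunkOkM (LB17_10.ctx true true 280 243 128 13 16 3073 4983 32 35) muQ true true 64 RtB17_10.Cx.right.left RtB17_10.CX RtB17_10.Ctp.right.right.left.right.right.left RtB17_10.Ce.right.right.right.left.left.left.right RtB17_10.CTp.right RtB17_10.CEr.right 0x5eac01d7ed8f90db074c15a59727e8409adf27f64d8ae017f550d4e6ff1f48dd3a8ec1b74ce168d767b1704ff17f6475b8cf7f550d6594f821887eda7e53cf74c1f90e097e86538846f6385f0b27f550d3aeaa6618dd567cbf974c783762e7f6444ad687f540d659345975937 = true := by decide +kernel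

theorem cB17_10_3_93 : chunkOkM (LB17_10.ctx true true 271 123 64 13 16 1547 2497 64 35) muQ true true 64 RtB17_10.Cx.right.left RtB17_10.CX RtB17_10.Ctp.right.right.left.right.right.right RtB17_10.Ce.right.right.right.left.left.left RtB17_10.CTp.right RtB17_10.CEr.right 0x25249287ed2341d5f74c2ddc0c47f62c45ea358e540d971f670be94c2a94dded697b3d5c9277f62e0a5de7f540d569417beb7b8dd62e43ad74c30258b37f63b9830b7f540d32712d21b8dd4ebd0c64c388703b7f62e102257f540d6379f5c7ed838a8d274c17d5dc577b3726d6a7f62e65b7308e550d573c9050d7ed5fc5a564c3760e3418e6303a2b938e540d53717d47ed78d3bb274c1260d8677b4c769ae7f62c4be7af8e550d546 = true := by decide +kernel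

theorem cB17_10_3_94 : chunkOkM (LB17_10.ctx true true 257 63 32 13 16 763 2497 32 35) muQ true true 64 RtB17_10.Cx.right.right RtB17_10.CX RtB17_10.Ctp.right.right.left.right.right RtB17_10.Ce.right.right.right.left.left.left RtB17_10.CTp.right RtB17_10.CEr.right 0x6932dfa4a7ed4f1e39f74c426caa37f6531111d7f540d2e9d9f17ed3fe5eed74c31b065d7f64cdd1717f540d631ad04d7eda375f7074c2a263697e82b69b46e7669ea227f65bf6be67f560d43 = true := by decide +kernel

theorem cB17_10_3_95 : chunkOkM (LB17_10.ctx true true 276 247 128 13 16 1533 5027 32 35) muQ true true 64 RtB17_10.Cx.right.left RtB17_10.CX RtB17_10.Ctp.right.right.left.right.right.left RtB17_10.Ce.right.right.right.left.left.right RtB17_10.CTp.right RtB17_10.CEr.right 0x595939f79277ed5b9a2cf74c14b25017f6414db117f540d39e8c9cf8dd554fded74c4cc22867f65b8091f7f540d645975935974 = true := by decide +kernel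

end Vale.Agent.helper4.Q4
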