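import Vale.Agent.helper4.Q4TreeM
import Vale.Agent.helper4.Q4G.PB17_10

/-!
Checks for pairs of intervals of second moments.
-/

set_option maxRecDepth 100000
set_option linter.unusedVariables false

namespace Vale.Agent.helper4.Q4

theorem cB17_10_3_96 : chunkOkM (LB17_10.ctx true true 271 123 64 13 16 1561 2519 64 35) muQ true true 64 RtB17_10.Cx.right.left RtB17_10.CX RtB17_10.Ctp.right.right.left.right.right.right RtB17_10.Ce.right.right.right.left.left.right.left RtB17_10.CTp.right RtB17_10.CEr.right 0x284bdcc7ed200f6f374c18b724b7f6336321e7f540db8a66ddb194c34137245c97b22486c6f631296967f540d554c11b8c8dd9f7c7564c244c87a7f6348d6677f540d566de157eda814a7474c2ad43557f63a19c007f540d54f0050268dd4d01c6c74caebe1467bb86f156f63ddae927f550d3998edc678dd841f3d64cf573fa6f630d30337f540d59599bb7ed92d2d2574cf9c1f767b24fc6087f6308f1847f550d54ab2c4a7ed6170e5b74c6765dc6f63dcd5557f540d376 = true := by decide +kernel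

theorem cB17_10_3_97 : chunkOkM (LB17_10.ctx true true 310 975 512 13 16 12537 20251 64 32) muQ true true 64 RtB17_10.Cx.right.left RtB17_10.CX RtB17_10.Ctp.right.right.left.right.right.right RtB17_10.Ce.right.right.right.left.left.right.right RtB17_10.CTp.right RtB17_10.CEr.right.left 0x30cec2f58ddce3fc664c6524c96f63a2b0a97f540d4fbd22c7ed8a17e9174c13a02c07f63b306e17f540d537039b77ed5b30a9674c158ed6a7f642af8437f540d35959591d176b6f06c62166cdc8dd9414dcd74c392b3907f530d55934597593459759345975937 = true := by decide +kernel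

theorem cB17_10_3_98 : chunkOkM (LB17_10.ctx true true 311 975 512 13 16 12537 20251 64 35) muQ true true 64 RtB17_10.Cx.right.left RtB17_10.CX RtB17_10.Ctp.right.right.left.right.right.right RtB17_10.Ce.right.right.right.left.left.right.right RtB17_10.CTp.right RtB17_10.CEr.right.right 0x22a2b1e7ed13f82bf74c205b8807f6356dc687f540d819ed89c994c26afdc0ff97b150d4ec08f630d53e47b147ed6f64c3974c35100897f643580367f540d35959592cecc6508dd12aa04474c28ced26e93300b757f540d132a05c55934597593459759345975937 = true := by decide +kernel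

theorem cB17_10_3_99 : chunkOkM (LB17_10.ctx true true 267 127 64 13 16 1533 2519 32 35) muQ true true 64 RtB17_10.Cx.right.right RtB17_10.CX RtB17_10.Ctp.right.right.left.right.right.left RtB17_10.Ce.right.right.right.left.left.right.left RtB17_10.CTp.right RtB17_10.CEr.right 0x2a562487ed60cc44574cdd97e26e87c24bc6e7343d5417f64f08aea7f560d2deba0a48dda28c5dc74c3388d557e82a3126a7f658719b27f5165bc347f460d333b0af97ed61ef7b374c3ac313e7f6561ee947f540d58a4e2618dd636042574c5362b487f662e1d7d7f540d6303d4ee7edafaa49074c32f25b07e84e5c7327f66879c897f550d37 = true := by decide +kernel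

theorem cB17_10_3_100 : chunkOkM (LB17_10.ctx true true 267 127 64 13 16 1533 2541 32 35) muQ true true 64 RtB17_10.Cx.right.right RtB17_10.CX RtB17_10.Ctp.right.right.left.right.right.left RtB17_10.Ce.right.right.right.left.left.right.right RtB17_10.CTp.right RtB17_10.CEr.right 0x25871e77ed4b2f1c074c31a7f9d7f6549a7a47f540d219f13278dd227257b74c2c5e3517f6569e9237f540d62ca51647eda648d9374c34ab0877e816c85e27f656299cf7f5205ca4d7f460d3344f3187edc423fbe74c3a11a3e7e867456ea7f665e99e87f550d7 = true := by decide +kernel

theorem cB17_10_3_101 : chunkOkM (LB17_10.ctx true true 267 127 64 13 16 1547 2541 32 35) muQ true true 64 RtB17_10.Cx.right.right RtB17_10.CX RtB17_10.Ctp.right.right.left.right.right.right RtB17_10.Ce.right.right.right.left.left.right RtB17_10.CTp.right RtB17_10.CEr.right 0x4d717d07ed7422f1774c7f8bf56e85bac8407f64c980ef7f550d21913da7ed18c7abe74ced05b937f67462ba67f540d48bea7c48dd5c9e32a74c625f4fa7f64ef83947f540d766943fb4ae7ed53e303c74cfe1add57f66dbe7ca7f540d2deef727ed3935c7874c58ee2d77f644d693e7f540d634 = true :=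 by decide +kernel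

theorem cB17_10_3_102 : chunkOkM (LB17_10.ctx true true 97 1 1 1 1 1 1 1 1) muQ true true 64 RtB17_10.Cx RtB17_10.CX RtB17_10.Ctp.right.right.left.right.left RtB17_10.Ce.right.right.right.left.right RtB17_10.CTp.right RtB17_10.CEr 0x59 = true := by decide +kernel

theorem cB17_10_3_103 : chunkOkM (LB17_10.ctx true true 97 1 1 1 1 1 1 1 1) muQ true true 64 RtB17_10.Cx.left RtB17_10.CX RtB17_10.Ctp.right.right.left.right.right RtB17_10.Ce.right.right.right.left.right RtB17_10.CTp.right RtB17_10.CEr 0x59 = true := by decide +kernel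

theorem cB17_10_3_104 : chunkOkM (LB17_10.ctx true true 238 31 16 13 16 385 649 32 16) muQ true true 64 RtB17_10.Cx.right RtB17_10.CX RtB17_10.Ctp.right.right.left.right.right RtB17_10.Ce.right.right.right.left.right RtB17_10.CTp.right RtB17_10.CEr.left 0x21690a8388b17b93761f9e8723ebc07f630d = true := by decide +kernel

theorem cB17_10_3_105 : chunkOkM (LB17_10.ctx true true 245 31 16 13 16 763 1287 32 16) muQ true true 64 RtB17_10.Cx.right RtB17_10.CX RtB17_10.Ctp.right.right.left.right.right.left RtB17_10.Ce.right.right.right.left.right.left RtB17_10.CTp.right RtB17_10.CEr.right 0x2aaa3337ed95f37e674c2b71ac07e843c7ea07f669b94867f550d = true := by decide +kernel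

theorem cB17_10_3_106 : chunkOkM (LB17_10.ctx true true 293 495 256 13 16 6265 10219 32 35) muQ true true 64 RtB17_10.Cx.right.left RtB17_10.CX RtB17_10.Ctp.right.right.left.right.right.right RtB17_10.Ce.right.right.right.left.right.left RtB17_10.CTp.right RtB17_10.CEr.right 0x5959593c739267ed7011d1374c34fa1cb7f530d3906e87b8dd6130b5d74c3a63f6e7f530d6593459759345975935974 = true := by decide +kernel

theorem cB17_10_3_107 : chunkOkM (LB17_10.ctx true true 267 127 64 13 16 1561 2563 32 35) muQ true true 64 RtB17_10.Cx.right.right RtB17_10.CX RtB17_10.Ctp.right.right.left.right.right.right RtB17_10.Ce.right.right.right.left.right.left.left RtB17_10.CTp.right RtB17_10.CEr.right 0x31f7a327ed5a8bf7874c3a16ac07f646aa4de7f540d297b40ab8dd46cc2e174c46758487f6500b5ca7f540d62a5d1e27ed50828f374c2abbc3e7f64a6f3b87f540d3cd7f7cd8dd44d2a3074c442519a7f530d634bd7ad57ed5cd314d74c2a920367f64151bd77f540d47fa667d8dd4d8a12d74c126bd857f64296c597f540d632c5c317edb8dff6974c2ec8a497e8393fcac7f650ad7d77f550d37 = true := by decide +kernel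

theorem cB17_10_3_108 : chunkOkM (LB17_10.ctx true true 286 503 256 13 16 3129 5159 32 35) muQ true true 64 RtB17_10.Cx.right.right RtB17_10.CX RtB17_10.Ctp.right.right.left.right.right.right RtB17_10.Ce.right.right.right.left.right.left.right RtB17_10.CTp.right RtB17_10.CEr.right 0x36e2cba7ed4dd1ab074c12bb95b7f646deab47f540d3617806c8dd4c1bf4d74c1e771227f649cba5f7f540d62d574317eda78dfcf74c3251f407e834ce2507f65b6c9457f550d35933cd39f38ddc0a03f674c31fe4aa7e8156e14a7f64160b907f550d59759345975937 = true := by decide +kernel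

theorem cB17_10_3_109 : chunkOkM (LB17_10.ctx true true 241 31 16 13 16 385 1309 32 16) muQ true true 64 RtB17_10.Cx.right RtB17_10.CX RtB17_10.Ctp.right.right.left.right.right RtB17_10.Ce.right.right.right.left.right.right RtB17_10.CTp.right RtB17_10.CEr.right 0x2d8ab9a7ed9e397065c26cdbce7e849595957f65bdef9d7f550d = true := by decide +kernel

theorem cB17_10_3_110 : chunkOkM (LB17_10.ctx true true 97 1 1 1 1 1 1 1 1) muQ true true 64 RtB17_10.Cx RtB17_10.CX RtB17_10.Ctp.right.right.left.right RtB17_10.Ce.right.right.right.right RtB17_10.CTp.right RtB17_10.CEr 0x59 = true := by decide +kernel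

theorem cB17_10_3_111 : chunkOkM (LB17_10.ctx true true 225 15 8 13 16 203 319 32 16) muQ true true 64 RtB17_10.Cx RtB17_10.CX RtB17_10.Ctp.right.right.right.left RtB17_10.Ce.right.right.right.left RtB17_10.CTp.right RtB17_10.CEr.left 0x28ee633988b17ce42bc19e887940597e61b6181f7f540d = true := by decide +kernel

theorem cB17_10_3_112 : chunkOkM (LB17_10.ctx true true 284 231 128 13 16 1589 4939 128 32) muQ true true 64 RtB17_10.Cx.left.left RtB17_10.CX RtB17_10.Ctp.right.right.right.left.left RtB17_10.Ce.right.right.right.left.left.left RtB17_10.CTp.right RtB17_10.CEr.right.left 0x21210139994dfb8dd120cc6174c9b56f147f66cc89b6f240d313234048dd2f133fd74c1ebb5a577be394e197f61b24f717f250d419ccbc7ed5067cdd74c5a750867b14f6a12d8f640d34a55342174217 = true := by decide +kernel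

theorem cB17_10_3_113 : chunkOkM (LB17_10.ctx true true 97 1 1 1 1 1 1 1 1) muQ true true 64 RtB17_10.Cx.left.right RtB17_10.CX RtB17_10.Ctp.right.right.right.left.left RtB17_10.Ce.right.right.right.left.left.left RtB17_10.CTp.right.left.left RtB17_10.CEr.right.left 0x4a = true := by decide +kernel

end Vale.Agent.helper4.Q4
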