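import Vale.Agent.helper4.Q4TreeM
import Vale.Agent.helper4.Q4G.PB17_10

/-!
Checks for pairs of intervals of second moments.
-/

set_option maxRecDepth 100000
set_option linter.unusedVariables false

namespace Vale.Agent.helper4.Q4

theorem cB17_10_3_114 : chunkOkM (LB17_10.ctx true true 281 119 64 13 16 1589 4961 128 64) muQ true true 64 RtB17_10.Cx.left.right RtB17_10.CX RtB17_10.Ctp.right.right.right.left.left.left RtB17_10.Ce.right.right.right.left.left.left.left RtB17_10.CTp.right.left.right RtB17_10.CEr.right.left 0x2de03ce7ed24c4e9d74c1300b4a77b17e8c9d28f640d79e41617eda1d2fcb74c429c4a67bcb94b567f640d1d14fd57eddfa31f64ca8f99867bc8a3e687f640d6353c25638dd298098674c1e340a677b1400253d8f640d366bf887ed293fa5174c1b2edbc77bfe4d1627f640d437 = true := by decide +kernel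

theorem cB17_10_3_115 : chunkOkM (LB17_10.ctx true true 278 119 64 13 16 1589 5005 128 32) muQ true true 64 RtB17_10.Cx.left.right RtB17_10.CX RtB17_10.Ctp.right.right.right.left.left.left RtB17_10.Ce.right.right.right.left.left.left.right RtB17_10.CTp.right.left.right RtB17_10.CEr.right.left 0x33e8c7f7ed2ebc90b74c18b52f877bd6012337f640d2ebf2a87ed2084e8474c1b6614b77bb49b5fe7f6117aa8988e550d343d3c87ed24b661874c199713d77b16d8eda28f61b6105d7e550d4344c903f7ed538caeb74c10c3b5877bc0359d37f64b95466f250d37dce2578dd35a12c574c1e1dc6077bd477eb67f6140c9d6f250d4357a06e7ed307ebb774c1880e3177b110f37cd8f640d37 = true := by decide +kernel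

theorem cB17_10_3_116 : chunkOkM (LB17_10.ctx true true 262 59 32 13 16 805 1243 128 32) muQ true true 64 RtB17_10.Cx.left.right RtB17_10.CX RtB17_10.Ctp.right.right.right.left.left.right RtB17_10.Ce.right.right.right.left.left.left RtB17_10.CTp.right.left.right RtB17_10.CEr.right.left 0x36666ea7ed304225f74c1fe952777b83e57957e629da4e9b8e250d = true := by decide +kernel

theorem cB17_10_3_117 : chunkOkM (LB17_10.ctx true true 277 119 64 13 16 805 2497 128 128) muQ true true 64 RtB17_10.Cx.left.right RtB17_10.CX RtB17_10.Ctp.right.right.right.left.left RtB17_10.Ce.right.right.right.left.left.left RtB17_10.CTp.right.right RtB17_10.CEr.right.left 0x1233f802e7ed1e6f9d608e62b833ae68e230d3112e477ed1decfd074c47eea3b7f615b3da1b8e540d4e7db357ed1c8128a74cb56b6217f630d7c01f55f01c3f5e4387ed29c45fd74c9216f1e7f630d7436a65126 = true := by decide +kernel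

theorem cB17_10_3_118 : chunkOkM (LB17_10.ctx true true 97 1 1 1 1 1 1 1 1) muQ true true 64 RtB17_10.Cx.left.left RtB17_10.CX RtB17_10.Ctp.right.right.right.left.left RtB17_10.Ce.right.right.right.left.left.right RtB17_10.CTp.right RtB17_10.CEr.right.left 0x21 = true := by decide +kernel

theorem cB17_10_3_119 : chunkOkM (LB17_10.ctx true true 97 1 1 1 1 1 1 1 1) muQ true true 64 RtB17_10.Cx.left.right RtB17_10.CX RtB17_10.Ctp.right.right.right.left.left RtB17_10.Ce.right.right.right.left.left.right RtB17_10.CTp.right.left.left RtB17_10.CEr.right.left 0x4a = true := by decide +kernel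

theorem cB17_10_3_120 : chunkOkM (LB17_10.ctx true true 284 239 128 13 16 1589 5049 128 32) muQ true true 64 RtB17_10.Cx.left.right RtB17_10.CX RtB17_10.Ctp.right.right.right.left.left.left RtB17_10.Ce.right.right.right.left.left.right RtB17_10.CTp.right.left.right RtB17_10.CEr.right.left 0x2d93c827ed24cd56974c187b98277b128b7fc88f640d6975933269fd07ed2f0167874c177d8a577b11d76c688f640d344b62a7ed2e6423674c15fc38d77bf507ce97f640d42af6bcc7ed2bdce7d74c14716d277b154ea9128f6d438b377e550d32589547ed29c1cb374c17fb0ff77baa23fdc7f613ec1cc68e550d434697 = true := by decide +kernel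

theorem cB17_10_3_121 : chunkOkM (LB17_10.ctx true true 281 119 64 13 16 1617 5093 128 64) muQ true true 64 RtB17_10.Cx.left.right RtB17_10.CX RtB17_10.Ctp.right.right.right.left.left.right RtB17_10.Ce.right.right.right.left.left.right RtB17_10.CTp.right.left.right RtB17_10.CEr.right.left 0x2f933b37ed371796f74c1b00f0e77b4a1e4ac7f624cabb77f250d32d3fb37ed33c43cd74c19fd79277b1059cffd8f694bcec6f250d33aea03c8dd32dab5e74c1ba2d8c77bd16c4f67f63b11ad6f250d436ac8f4b7ed8cbfa5774ca36fb267beeca3687f66e73736f250d842d0c37ed7600af474cd8d63b67bd3415997f640d6360b33c7ed35c640174c1fd6e5777bbb16a3f7f61d574f250d442135fd13f7ed3424eb074c1bbf0a177b7dce1657f6191f4a77f250d47 = true := by decide +kernel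

theorem cB17_10_3_122 : chunkOkM (LB17_10.ctx true true 281 119 64 13 16 1617 2541 128 128) muQ true true 64 RtB17_10.Cx.left.right RtB17_10.CX RtB17_10.Ctp.right.right.right.left.left RtB17_10.Ce.right.right.right.left.left.right RtB17_10.CTp.right.right RtB17_10.CEr.right.left 0x123e507db7edf05dfad7f615c5be97f230d44b6abb7ed207e5c874cd7a1e167f61274ee6f240d31740e0d7eda47c51b7f6e66e186f230d443d2fbd7ed20a765974c81192c548e63987992c8e240d7294713a7edbf8a0264c8b5cc3b7f6e2054407e540d258ef837ed11d4b3f74c895002e7f6e443a617e540d469736a65126 = true := by decide +kernel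

theorem cB17_10_3_123 : chunkOkM (LB17_10.ctx true true 245 29 16 13 16 399 627 64 35) muQ true true 64 RtB17_10.Cx.left RtB17_10.CX RtB17_10.Ctp.right.right.right.left.left RtB17_10.Ce.right.right.right.left.left RtB17_10.CTp.right.left RtB17_10.CEr.right.right 0x1653766d29a4c64945685d97b18133327f520ff33a7f240d = true := by decide +kernel

theorem cB17_10_3_124 : chunkOkM (LB17_10.ctx true true 283 231 128 13 16 1589 4939 64 75) muQ true true 64 RtB17_10.Cx.left.left RtB17_10.CX RtB17_10.Ctp.right.right.right.left.left RtB17_10.Ce.right.right.right.left.left.left RtB17_10.CTp.right.right RtB17_10.CEr.right.right 0x2121015b175b17ed298ea0474c96bce107f6abd3096f240d58c9a2878dd2e1d85374cf2edc867f6c7d4766f240d636e2c17ed2802e8874cc3337777f630d36342174217 = true := by decide +kernel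

theorem cB17_10_3_125 : chunkOkM (LB17_10.ctx true true 282 119 64 13 16 1589 4961 135 75) muQ true true 64 RtB17_10.Cx.left.right RtB17_10.CX RtB17_10.Ctp.right.right.right.left.left.left RtB17_10.Ce.right.right.right.left.left.left.left RtB17_10.CTp.right.right RtB17_10.CEr.right.right 0x393a7a27ed23026b574c106e225a8f630d3d64b827ed610e4864c83369e6e9853161a7f640d5a5563fc027ed2ae998174ce58213c7f630d3b078777ed2a7f56374c11f4bd8d8f630d45567f2c7ed22db54674c13cfa2608f630d429d03d7ed25616f674cda626487f630d4367 = true := by decide +kernel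

theorem cB17_10_3_126 : chunkOkM (LB17_10.ctx true true 288 235 128 13 16 1589 5005 135 75) muQ true true 64 RtB17_10.Cx.left.right.left RtB17_10.CX RtB17_10.Ctp.right.right.right.left.left.left RtB17_10.Ce.right.right.right.left.left.left.right RtB17_10.CTp.right.right RtB17_10.CEr.right.right 0x396623f7edbbe42064ca2a453f7f619c01b6f240d5a54f517c17ed2c0147874cee9fb277f61fc6086f240d4d9d2977ed28f759b74c1042f6e28f630d578270e7ed298095a74cb9816157f6c9f6c06f240d74669483c5887ed257f5e574ceb77c5a7f630d46973 = true := by decide +kernel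

theorem cB17_10_3_127 : chunkOkM (LB17_10.ctx true true 282 119 64 13 16 1589 5005 135 75) muQ true true 64 RtB17_10.Cx.left.right.right RtB17_10.CX RtB17_10.Ctp.right.right.right.left.left.left RtB17_10.Ce.right.right.right.left.left.left.right RtB17_10.CTp.right.right RtB17_10.CEr.right.right 0x32b64137edfb46c064c642cf56e950b83257f610f8ef178e550d5a5309495d7ed20c541f74c1068f9f18f630d41eced47ed2258aa674c9dcf4087f610e69fdc8e540d425fd167ed1f6b72574c1093d7d68f630d436 = true := by decide +kernel

end Vale.Agent.helper4.Q4
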