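import Vale.Agent.helper4.Q4TreeM
import Vale.Agent.helper4.Q4G.PB17_10

/-!
Checks for pairs of intervals of second moments.
-/

set_option maxRecDepth 100000
set_option linter.unusedVariables false

namespace Vale.Agent.helper4.Q4

theorem cB17_10_3_128 : chunkOkM (LB17_10.ctx true true 261 59 32 13 16 805 1243 64 75) muQ true true 64 RtB17_10.Cx.left.right RtB17_10.CX RtB17_10.Ctp.right.right.right.left.left.right RtB17_10.Ce.right.right.right.left.left.left RtB17_10.CTp.right.right RtB17_10.CEr.right.right 0x4c216787ed377230374c82e8f06e93f53cac7e62721589a8e250d4a8fe9f7ed2adf19674c40d37297e627f9823a8e240d6 = true := by decide +kernel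

theorem cB17_10_3_129 : chunkOkM (LB17_10.ctx true true 97 1 1 1 1 1 1 1 1) muQ true true 64 RtB17_10.Cx.left.left RtB17_10.CX RtB17_10.Ctp.right.right.right.left.left RtB17_10.Ce.right.right.right.left.left.right RtB17_10.CTp.right.right RtB17_10.CEr.right.right 0x21 = true := by decide +kernel

theorem cB17_10_3_130 : chunkOkM (LB17_10.ctx true true 289 239 128 13 16 1589 5071 135 75) muQ true true 64 RtB17_10.Cx.left.right RtB17_10.CX RtB17_10.Ctp.right.right.right.left.left.left RtB17_10.Ce.right.right.right.left.left.right RtB17_10.CTp.right.right RtB17_10.CEr.right.right 0x693beaad57ed259e29574c1384eea18f630d46975933f22dc77ed97ac2d64caada4f6e9d69cbfa7f640d5a53ef72d87ed244d6e374cf220f427f630d38877ef7ed25aeaa274ce5b9b247f630d463c635547ed20869eb74c155a7e928f65bab786f540d3b7a27f7ed217986374cc5d75787f6ff01aa6f540d35e7d217ed27a44ea74c11f3d1c7e969a0752f8f640d7434697 = true := by decide +kernel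

theorem cB17_10_3_131 : chunkOkM (LB17_10.ctx true true 290 471 256 13 16 1603 5027 64 75) muQ true true 64 RtB17_10.Cx.left.right.left RtB17_10.CX RtB17_10.Ctp.right.right.right.left.left.right RtB17_10.Ce.right.right.right.left.left.right RtB17_10.CTp.right.right RtB17_10.CEr.right.right 0x21210151465497ed304109674ca618da67f619c70e17f240d4b9e83e08dd2b27db174c154281c78f6280cab47f240d6321742174 = true := by decide +kernel

theorem cB17_10_3_132 : chunkOkM (LB17_10.ctx true true 282 119 64 13 16 1617 5049 135 75) muQ true true 64 RtB17_10.Cx.left.right.right RtB17_10.CX RtB17_10.Ctp.right.right.right.left.left.right RtB17_10.Ce.right.right.right.left.left.right.left RtB17_10.CTp.right.right RtB17_10.CEr.right.right 0x33cfa407edc0a57b64c9d5e806e998ad2c17f661571c6f250d5a5270a6d87ed152c86d74ccc622b67f61b1f2eea99e1463966c879e050d46c5b097ed2c7aaa874c107b8a858f630d34f45b427ed2d0e5f174cad47d4e7f63e20a5f240d46 = true := by decide +kernel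

theorem cB17_10_3_133 : chunkOkM (LB17_10.ctx true true 296 239 128 27 32 1617 5093 135 145) muQ true true 64 RtB17_10.Cx.left.right.right RtB17_10.CX RtB17_10.Ctp.right.right.right.left.left.right RtB17_10.Ce.right.right.right.left.left.right.right RtB17_10.CTp.right.right RtB17_10.CEr.right.right 0x22e9dacef7ed93991e64cae7a4b27f6206e3ea7f240d3bfaa167ed141fe2b74cd099f26e9ac0b5067f634e82f6f250d322865a543c2f097ed2c2ead674c54ba0737f61ffabb87f240d44486377ed2b0ba4474ce9804547f658a53d6f240d3df4a057ed2d832fa74cf3f2d247f630d4c40d307ed2ba76da74cf237aef7f6a4a1846f240d7436 = true := by decide +kernel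

theorem cB17_10_3_134 : chunkOkM (LB17_10.ctx true true 291 479 256 13 16 1617 5115 128 35) muQ true true 64 RtB17_10.Cx.left RtB17_10.CX RtB17_10.Ctp.right.right.right.left.left RtB17_10.Ce.right.right.right.left.right RtB17_10.CTp.right RtB17_10.CEr.right 0x21212146b1a097ed2db68ee74c1015fd3c8f6f4b7eb6f240d9bd613e5494c2bc2c27d497b40a73b998f630d538f5f3748dd16be5d274cddc1eb87f618340e27f240d54aebb218dd8439b2774c1b01c1988f630d4a556217421769342175932174 = true := by decide +kernel

theorem cB17_10_3_135 : chunkOkM (LB17_10.ctx true true 97 1 1 1 1 1 1 1 1) muQ true true 64 RtB17_10.Cx.left RtB17_10.CX RtB17_10.Ctp.right.right.right.left.right RtB17_10.Ce.right.right.right.left RtB17_10.CTp.right RtB17_10.CEr.right 0x01 = true := by decide +kernel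

theorem cB17_10_3_136 : chunkOkM (LB17_10.ctx true true 254 61 32 13 16 399 1243 64 32) muQ true true 64 RtB17_10.Cx.right.left RtB17_10.CX RtB17_10.Ctp.right.right.right.left.left RtB17_10.Ce.right.right.right.left.left.left RtB17_10.CTp.right RtB17_10.CEr.right.left 0x32a9ee6f01c5f160947ed8a5244074cfef84067b30d5 = true := by decide +kernel

theorem cB17_10_3_137 : chunkOkM (LB17_10.ctx true true 278 123 64 13 16 1589 5093 128 32) muQ true true 64 RtB17_10.Cx.right.left RtB17_10.CX RtB17_10.Ctp.right.right.right.left.left.left RtB17_10.Ce.right.right.right.left.left.right RtB17_10.CTp.right RtB17_10.CEr.right.left 0x4a2217318dd4e83e9b74c3a128da7f62a3305488e540d588da8e7ed844662474c1977f5977b40535aa7f62be6ec138e550d5677e3e8a8dd1a2a32974c569d0a47f6214d1947f540d2e262e57ed2a5177374c1768b1877b99646107f616ef630a8e550d2fbf7aa7ed2014be774c1e8df3e77bffe63917f6132f10e48e550d42f4b58e7ed2dc643974c1b1cbb877b194c7b67f630fc3d688e550d34a5573219c1cf8dd41fbc8b7f626577cc78e530d30b2cf37ed255160774c2091f1077b53e41977f6219d5e168e550d4a554 = true := by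 decide +kernel

theorem cB17_10_3_138 : chunkOkM (LB17_10.ctx true true 262 61 32 13 16 805 1265 128 32) muQ true true 64 RtB17_10.Cx.right.left RtB17_10.CX RtB17_10.Ctp.right.right.right.left.left.right RtB17_10.Ce.right.right.right.left.left.right RtB17_10.CTp.right RtB17_10.CEr.right.left 0x4f3c8e6c8dd346836874cb02519948e630d2f06bf37ed2609a4474c1999e4977b935400078e640d4a55 = true := by decide +kernel

theorem cB17_10_3_139 : chunkOkM (LB17_10.ctx true true 251 61 32 13 16 399 627 64 35) muQ true true 64 RtB17_10.Cx.right.left RtB17_10.CX RtB17_10.Ctp.right.right.right.left.left RtB17_10.Ce.right.right.right.left.left RtB17_10.CTp.right.left RtB17_10.CEr.right.right 0xb661ad81194c33306486097b25b0ff778e619d0d1b18e540d = true := by decide +kernel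

theorem cB17_10_3_140 : chunkOkM (LB17_10.ctx true true 254 61 32 13 16 399 1243 64 35) muQ true true 64 RtB17_10.Cx.right.left RtB17_10.CX RtB17_10.Ctp.right.right.right.left.left RtB17_10.Ce.right.right.right.left.left.left RtB17_10.CTp.right.right RtB17_10.CEr.right.right 0x3c23516f06c = true := by decide +kernel

theorem cB17_10_3_141 : chunkOkM (LB17_10.ctx true true 271 123 64 13 16 1589 2519 64 35) muQ true true 64 RtB17_10.Cx.right.left RtB17_10.CX RtB17_10.Ctp.right.right.right.left.left.left RtB17_10.Ce.right.right.right.left.left.right.left RtB17_10.CTp.right.right RtB17_10.CEr.right.right 0x1f854d6f06c393ea907ed1ac7a1274c1399bc6e911747db98f640d37215f27ed224d98674c359af9e7f62233a09a8e540d37 = true := by decide +kernel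

theorem cB17_10_3_142 : chunkOkM (LB17_10.ctx true true 284 243 128 13 16 1589 5093 64 75) muQ true true 64 RtB17_10.Cx.right.left RtB17_10.CX RtB17_10.Ctp.right.right.right.left.left.left RtB17_10.Ce.right.right.right.left.left.right.right RtB17_10.CTp.right.right RtB17_10.CEr.right.right 0x2a4ec697ed2a214c774c5c6b35b7f62a77d4798e540d31be14f68dd25a49ff74c793fa1d7f619125d8a8e540d383f7937ed21acacc74c157e7d048f62cc0ed6f540d73f4612b7ed28bc5bf74c65f6286e9914e5c27f6144e19648e550d3695fbb7ed2290e4074c9b811e77f613208ca68e540d643e2cd407ed1ece11b74c1aa9a6f7f62d493107f540d37 = true := by decide +kernel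

theorem cB17_10_3_143 : chunkOkM (LB17_10.ctx true true 271 121 64 13 16 805 2541 64 75) muQ true true 64 RtB17_10.Cx.right.left RtB17_10.CX RtB17_10.Ctp.right.right.right.left.left.right RtB17_10.Ce.right.right.right.left.left.right RtB17_10.CTp.right.right RtB17_10.CEr.right.right 0x69463bf267ed323f5ba74ce53ffb47f630d370e6537ed265787e74ce53ffb47f630d67694 = true := by decide +kernel

theorem cB17_10_3_144 : chunkOkM (LB17_10.ctx true true 97 1 1 1 1 1 1 1 1) muQ true true 64 RtB17_10.Cx.right.right RtB17_10.CX RtB17_10.Ctp.right.right.right.left.left RtB17_10.Ce.right.right.right.left.left RtB17_10.CTp.right RtB17_10.CEr.right 0x69 = true := by decide +kernel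

theorem cB17_10_3_145 : chunkOkM (LB17_10.ctx true true 97 1 1 1 1 1 1 1 1) muQ true true 64 RtB17_10.Cx.right RtB17_10.CX RtB17_10.Ctp.right.right.right.left.right RtB17_10.Ce.right.right.right.left.left RtB17_10.CTp.right RtB17_10.CEr.right 0x11 = true := by decide +kernel

end Vale.Agent.helper4.Q4
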