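import Vale.Agent.helper4.Q4TreeM
import Vale.Agent.helper4.Q4G.PB17_10

/-!
Checks for pairs of intervals of second moments.
-/

set_option maxRecDepth 100000
set_option linter.unusedVariables false

namespace Vale.Agent.helper4.Q4

theorem cB17_10_3_146 : chunkOkM (LB17_10.ctx true true 275 123 64 13 16 1589 2585 128 32) muQ true true 64 RtB17_10.Cx.right.left RtB17_10.CX RtB17_10.Ctp.right.right.right.left.left.left RtB17_10.Ce.right.right.right.left.right.left RtB17_10.CTp.right RtB17_10.CEr.right.left 0x331a44148dd19d244274c6fee15f638b32757f540d55a28667ed7e8403374c10dcf2977b1efb6357f632b4e907f550d55935971c55c70d8dd74eec067f6268c59f08e530d3a56d937ed2c8c88a74c105b2a677b37f2dca7f623fbc0628e550d4a554d1211458dd2824d6e74c265b39f7f63804fb67f540d4f7d6507ed863eb5d74cc65f8c67b1d67a927f634350eb7f550d532367306f8dd6f8b4cc7f62b6b75b7f530d2edc1397ed2c81bbb74c152cee377b4d33f477f6264f9a478e550d4a5559374 = true := by decide +kernel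

theorem cB17_10_3_147 : chunkOkM (LB17_10.ctx true true 284 123 64 13 16 1617 5137 128 128) muQ true true 64 RtB17_10.Cx.right.left RtB17_10.CX RtB17_10.Ctp.right.right.right.left.left.right RtB17_10.Ce.right.right.right.left.right.left.left RtB17_10.CTp.right RtB17_10.CEr.right.left 0x1258fc4567edc15c7077f6160930818e530d3d18f0c7ed311fab374cc062ef57f67a97a36f240d4edea1b7ed27545fc74cb6e3ca67f69c7c0717e540d376a651262a902937ed23aecb874c13b522077bee8e8d47f6409a1f17e550d30a3a837ed332407c74c1c7dd4777b117b4df88f640d26822b97ed3055ec474c1b8e17277b126c0f918f640d42c6ed9c7ed2687dcf74c1779c3a77b1092ec0f8f640d2fcbebd7ed2ef1c3274c16c6e4477b135007418f640d4374a55 = true := by decide +kernel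

theorem cB17_10_3_148 : chunkOkM (LB17_10.ctx true true 290 243 128 13 16 1617 5181 128 128) muQ true true 64 RtB17_10.Cx.right.left.left RtB17_10.CX RtB17_10.Ctp.right.right.right.left.left.right RtB17_10.Ce.right.right.right.left.right.left.right RtB17_10.CTp.right RtB17_10.CEr.right.left 0x122f50dcb7ed1f0dc9574cc5f960d7f640a01b6f240d2895d2b7ed102cd2fc8f620d36a651262fdc0bd7ed36fa91e74c17b80e977b134b05e88f66bec046f250d35a496828dd3b43a5774c18c31a277b15d645c08f640d39ffdf0b8dd3ed07de74c20ffbc277b1fc202e78f640d742d4c3247ed2ce1b4174c14287ce77b16b911388f6acf81f6e550d69734a55 = true := by decide +kernel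

theorem cB17_10_3_149 : chunkOkM (LB17_10.ctx true true 278 123 64 13 16 1617 5181 128 32) muQ true true 64 RtB17_10.Cx.right.left.right RtB17_10.CX RtB17_10.Ctp.right.right.right.left.left.right RtB17_10.Ce.right.right.right.left.right.left.right RtB17_10.CTp.right RtB17_10.CEr.right.left 0x1fd2a56f8dd58f53064c6c098d77f6160af9448e540d2dd24d97ed301e0a374c161b1b377b116303d18f640d287ee3f7ed241948974c183607177b81228307f61cc242598e550d25dab1f7ed1df500174c124b4d377bff14b1b7f6ac1f8f47e550d434a55 = true := by decide +kernel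

theorem cB17_10_3_150 : chunkOkM (LB17_10.ctx true true 255 61 32 13 16 399 1287 64 35) muQ true true 64 RtB17_10.Cx.right.left RtB17_10.CX RtB17_10.Ctp.right.right.right.left.left RtB17_10.Ce.right.right.right.left.right.left RtB17_10.CTp.right.left RtB17_10.CEr.right.right 0xfece9e68194c4819931e197b693a136f626967597f540d = true := by decide +kernel

theorem cB17_10_3_151 : chunkOkM (LB17_10.ctx true true 281 243 128 13 16 1589 5137 64 35) muQ true true 64 RtB17_10.Cx.right.left RtB17_10.CX RtB17_10.Ctp.right.right.right.left.left.left RtB17_10.Ce.right.right.right.left.right.left RtB17_10.CTp.right.right RtB17_10.CEr.right.right 0x327ae377ed216716374ce0cef76f63567a297f540d2ece57f7ed24acf9874c3cac3417f6298cbf47f540d31e73a97ed278fc5574cd0541007f61ddb1977f540d332c7167ed2210c2574c114f606b8f61413dad7f540d33f27e27ed217e22c74c1c2b9ca7e93e091af48f640d7459374 = true := by decide +kernel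

theorem cB17_10_3_152 : chunkOkM (LB17_10.ctx true true 289 243 128 13 16 1617 5137 135 75) muQ true true 64 RtB17_10.Cx.right.left RtB17_10.CX RtB17_10.Ctp.right.right.right.left.left.right RtB17_10.Ce.right.right.right.left.right.left.left RtB17_10.CTp.right.right RtB17_10.CEr.right.right 0x331666f7ed1ebf08574cedf9d2d7f64929aaa7e540d4c4a8e67ed1282b2474ceeeac277f630d5a5414c2cf7ed2d5d6fa74cd14a9d97f630d395f26e7ed2b6e14a74c10f6f8118f630d463b4f39a7ed2525c3474c1693c26b8f630d4add0457ed2a954ef74c3e33f9498f630d73b36e707ed31bcfe074c51eb696e910d5e07c8f640d37da9117ed26a537674c11f42f328f630d6437 = true := by decide +kernel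

theorem cB17_10_3_153 : chunkOkM (LB17_10.ctx true true 281 243 128 13 16 1617 5181 64 35) muQ true true 64 RtB17_10.Cx.right.left.left RtB17_10.CX RtB17_10.Ctp.right.right.right.left.left.right RtB17_10.Ce.right.right.right.left.right.left.right RtB17_10.CTp.right.right RtB17_10.CEr.right.right 0x3d7b59d7ed2d30b7774c15e31baa8f630d2173f52e807ed2c6a61374c146783a68f630d44eb6977ed2e2028374c169200f68f66d4a6f6f240d746933bc8157ed28a062374c1aaafb388f630d46973 = true := by decide +kernel

theorem cB17_10_3_154 : chunkOkM (LB17_10.ctx true true 284 247 128 13 16 1617 5181 64 75) muQ true true 64 RtB17_10.Cx.right.left.right RtB17_10.CX RtB17_10.Ctp.right.right.right.left.left.right RtB17_10.Ce.right.right.right.left.right.left.right RtB17_10.CTp.right.right RtB17_10.CEr.right.right 0x495147a7ed2da761074caf5fe747f630d343f39c7ed260ecc574cece1cbf7f630d62f476e77ed275c29e74cafc5e467f61dd7bb27f540d31d2c597ed25edfc474cee826907f6e3fefe6f540d752c68c67ed2749b8174c2f85fb6e95ace5b07f61f6bf4498e550d2d841d27ed27a082274c8ae98c07f6182e07548e540d643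 = true := by decide +kernel

end Vale.Agent.helper4.Q4
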