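import Vale.Agent.helper4.Q4TreeM
import Vale.Agent.helper4.Q4G.PB17_10_0
import Vale.Agent.helper4.Q4G.PB17_10_1
import Vale.Agent.helper4.Q4G.PB17_10_2
import Vale.Agent.helper4.Q4G.PB17_10_3
import Vale.Agent.helper4.Q4G.PB17_10_4
import Vale.Agent.helper4.Q4G.PB17_10_5
import Vale.Agent.helper4.Q4G.PB17_10_6
import Vale.Agent.helper4.Q4G.PB17_10_7
import Vale.Agent.helper4.Q4G.PB17_10_8
import Vale.Agent.helper4.Q4G.PB17_10_9
import Vale.Agent.helper4.Q4G.PB17_10_10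
import Vale.Agent.helper4.Q4G.PB17_10_11
import Vale.Agent.helper4.Q4G.PB17_10_12
import Vale.Agent.helper4.Q4G.PB17_10_13
import Vale.Agent.helper4.Q4G.PB17_10_14

/-!
Checks for pairs of intervals of second moments.
-/

set_option maxRecDepth 100000
set_option linter.unusedVariables false

namespace Vale.Agent.helper4.Q4

theorem covB17_10 : LB17_10.Full muQ.val RtB17_10 := ⟨(LitT.Cov.split_t (LitT.cov_of_chunkM cB17_10_3_0) (LitT.Cov.split_e (LitT.cov_of_chunkM cB17_10_3_1) (LitT.Cov.split_T (LitT.cov_of_chunkM cB17_10_3_2) (LitT.Cov.split_t (LitT.cov_of_chunkM cB17_10_3_3) (LitT.Cov.split_e (LitT.cov_of_chunkM cB17_10_3_4) (LitT.Cov.split_e (LitT.Cov.split_t (LitT.Cov.split_e (LitT.Cov.split_t (LitT.Cov.split_e (LitT.Cov.split_E (LitT.cov_of_chunkM cB17_10_3_5) (LitT.Cov.split_x (LitT.Cov.split_t (LitT.cov_of_chunkM cB17_10_3_6) (LitT.cov_of_chunkM cB17_10_3_7)) (LitT.cov_of_chunkM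 cB17_10_3_8))) (LitT.Cov.split_E (LitT.cov_of_chunkM cB17_10_3_9) (LitT.Cov.split_t (LitT.cov_of_chunkM cB17_10_3_10) (LitT.Cov.split_x (LitT.Cov.split_e (LitT.cov_of_chunkM cB17_10_3_11) (LitT.Cov.split_x (LitT.cov_of_chunkM cB17_10_3_12) (LitT.cov_of_chunkM cB17_10_3_13))) (LitT.cov_of_chunkM cB17_10_3_14))))) (LitT.cov_of_chunkM cB17_10_3_15)) (LitT.Cov.split_t (LitT.Cov.split_e (LitT.Cov.split_t (LitT.cov_of_chunkM cB17_10_3_16) (LitT.Cov.split_x (LitT.Cov.split_E (LitT.cov_of_chunkM cB17_10_3_17) (LitT.Cov.split_e (LitT.cov_of_chunkM cB17_10_3_18) (LitT.cov_of_chunkM cB17_10_3_19))) (LitT.cov_of_chunkM cB17_10_3_20))) (LitT.cov_of_chunkM cB17_10_3_21)) (LitT.Cov.split_E (LitT.cov_of_chunkM cB17_10_3_22) (LitT.Cov.split_e (LitT.Cov.split_x (LitT.Cov.split_t (LitT.Cov.split_e (LitT.cov_of_chunkM cB17_10_3_23) (LitT.Cov.split_x (LitT.cov_of_chunkM cB17_10_3_24) (LitT.cov_of_chunkM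 cB17_10_3_25))) (LitT.Cov.split_x (LitT.Cov.split_E (LitT.cov_of_chunkM cB17_10_3_26) (LitT.Cov.split_T (LitT.cov_of_chunkM cB17_10_3_27) (LitT.cov_of_chunkM cB17_10_3_28))) (LitT.cov_of_chunkM cB17_10_3_29))) (LitT.cov_of_chunkM cB17_10_3_30)) (LitT.Cov.split_x (LitT.Cov.split_t (LitT.Cov.split_e (LitT.Cov.split_x (LitT.cov_of_chunkM cB17_10_3_31) (LitT.Cov.split_t (LitT.cov_of_chunkM cB17_10_3_32) (LitT.cov_of_chunkM cB17_10_3_33))) (LitT.cov_of_chunkM cB17_10_3_34)) (LitT.Cov.split_e (LitT.Cov.split_E (LitT.Cov.split_x (LitT.Cov.split_T (LitT.Cov.split_T (LitT.cov_of_chunkM cB17_10_3_35) (LitT.Cov.split_t (LitT.cov_of_chunkM cB17_10_3_36) (LitT.cov_of_chunkM cB17_10_3_37))) (LitT.cov_of_chunkM cB17_10_3_38)) (LitT.cov_of_chunkM cB17_10_3_39)) (LitT.Cov.split_T (LitT.cov_of_chunkM cB17_10_3_40) (LitT.Cov.split_x (LitT.Cov.split_t (LitT.Cov.split_e (LitT.cov_of_chunkM cB17_10_3_41)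 (LitT.cov_of_chunkM cB17_10_3_42)) (LitT.Cov.split_e (LitT.cov_of_chunkM cB17_10_3_43) (LitT.cov_of_chunkM cB17_10_3_44))) (LitT.cov_of_chunkM cB17_10_3_45)))) (LitT.Cov.split_x (LitT.Cov.split_E (LitT.Cov.split_T (LitT.cov_of_chunkM cB17_10_3_46) (LitT.cov_of_chunkM cB17_10_3_47)) (LitT.Cov.split_T (LitT.cov_of_chunkM cB17_10_3_48) (LitT.cov_of_chunkM cB17_10_3_49))) (LitT.Cov.split_E (LitT.Cov.split_t (LitT.cov_of_chunkM cB17_10_3_50) (LitT.cov_of_chunkM cB17_10_3_51)) (LitT.Cov.split_T (LitT.cov_of_chunkM cB17_10_3_52) (LitT.Cov.split_t (LitT.cov_of_chunkM cB17_10_3_53) (LitT.Cov.split_e (LitT.cov_of_chunkM cB17_10_3_54) (LitT.cov_of_chunkM cB17_10_3_55)))))))) (LitT.Cov.split_t (LitT.Cov.split_e (LitT.Cov.split_x (LitT.cov_of_chunkM cB17_10_3_56) (LitT.cov_of_chunkM cB17_10_3_57)) (LitT.Cov.split_x (LitT.Cov.split_t (LitT.cov_of_chunkM cB17_10_3_58) (LitT.cov_of_chunkM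 cB17_10_3_59)) (LitT.cov_of_chunkM cB17_10_3_60))) (LitT.cov_of_chunkM cB17_10_3_61))))))) (LitT.Cov.split_t (LitT.Cov.split_e (LitT.cov_of_chunkM cB17_10_3_62) (LitT.Cov.split_t (LitT.Cov.split_e (LitT.cov_of_chunkM cB17_10_3_63) (LitT.Cov.split_E (LitT.cov_of_chunkM cB17_10_3_64) (LitT.Cov.split_x (LitT.Cov.split_T (LitT.Cov.split_T (LitT.cov_of_chunkM cB17_10_3_65) (LitT.Cov.split_E (LitT.cov_of_chunkM cB17_10_3_66) (LitT.cov_of_chunkM cB17_10_3_67))) (LitT.Cov.split_E (LitT.cov_of_chunkM cB17_10_3_68) (LitT.Cov.split_x (LitT.Cov.split_t (LitT.Cov.split_e (LitT.cov_of_chunkM cB17_10_3_69) (LitT.Cov.split_x (LitT.cov_of_chunkM cB17_10_3_70) (LitT.cov_of_chunkM cB17_10_3_71))) (LitT.cov_of_chunkM cB17_10_3_72)) (LitT.cov_of_chunkM cB17_10_3_73)))) (LitT.cov_of_chunkM cB17_10_3_74)))) (LitT.cov_of_chunkM cB17_10_3_75))) (LitT.cov_of_chunkM cB17_10_3_76))) (LitT.Cov.split_t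 (LitT.Cov.split_t (LitT.cov_of_chunkM cB17_10_3_77) (LitT.Cov.split_e (LitT.Cov.split_e (LitT.Cov.split_t (LitT.Cov.split_x (LitT.cov_of_chunkM cB17_10_3_78) (LitT.Cov.split_e (LitT.Cov.split_E (LitT.cov_of_chunkM cB17_10_3_79) (LitT.cov_of_chunkM cB17_10_3_80)) (LitT.cov_of_chunkM cB17_10_3_81))) (LitT.Cov.split_x (LitT.Cov.split_x (LitT.cov_of_chunkM cB17_10_3_82) (LitT.Cov.split_E (LitT.cov_of_chunkM cB17_10_3_83) (LitT.Cov.split_e (LitT.Cov.split_t (LitT.cov_of_chunkM cB17_10_3_84) (LitT.Cov.split_E (LitT.cov_of_chunkM cB17_10_3_85) (LitT.Cov.split_T (LitT.cov_of_chunkM cB17_10_3_86) (LitT.Cov.split_e (LitT.cov_of_chunkM cB17_10_3_87) (LitT.cov_of_chunkM cB17_10_3_88))))) (LitT.cov_of_chunkM cB17_10_3_89)))) (LitT.Cov.split_E (LitT.cov_of_chunkM cB17_10_3_90) (LitT.Cov.split_e (LitT.Cov.split_x (LitT.Cov.split_t (LitT.Cov.split_e (LitT.cov_of_chunkM cB17_10_3_91) (LitT.cov_of_chunkM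 cB17_10_3_92)) (LitT.cov_of_chunkM cB17_10_3_93)) (LitT.cov_of_chunkM cB17_10_3_94)) (LitT.Cov.split_x (LitT.Cov.split_t (LitT.cov_of_chunkM cB17_10_3_95) (LitT.Cov.split_e (LitT.cov_of_chunkM cB17_10_3_96) (LitT.Cov.split_E (LitT.cov_of_chunkM cB17_10_3_97) (LitT.cov_of_chunkM cB17_10_3_98)))) (LitT.Cov.split_t (LitT.Cov.split_e (LitT.cov_of_chunkM cB17_10_3_99) (LitT.cov_of_chunkM cB17_10_3_100)) (LitT.cov_of_chunkM cB17_10_3_101))))))) (LitT.Cov.split_t (LitT.cov_of_chunkM cB17_10_3_102) (LitT.Cov.split_x (LitT.cov_of_chunkM cB17_10_3_103) (LitT.Cov.split_E (LitT.cov_of_chunkM cB17_10_3_104) (LitT.Cov.split_e (LitT.Cov.split_t (LitT.cov_of_chunkM cB17_10_3_105) (LitT.Cov.split_x (LitT.cov_of_chunkM cB17_10_3_106) (LitT.Cov.split_e (LitT.cov_of_chunkM cB17_10_3_107) (LitT.cov_of_chunkM cB17_10_3_108)))) (LitT.cov_of_chunkM cB17_10_3_109)))))) (LitT.cov_of_chunkM cB17_10_3_110)))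 (LitT.Cov.split_t (LitT.Cov.split_e (LitT.Cov.split_E (LitT.cov_of_chunkM cB17_10_3_111) (LitT.Cov.split_x (LitT.Cov.split_t (LitT.Cov.split_e (LitT.Cov.split_E (LitT.Cov.split_e (LitT.Cov.split_x (LitT.cov_of_chunkM cB17_10_3_112) (LitT.Cov.split_T (LitT.Cov.split_T (LitT.cov_of_chunkM cB17_10_3_113) (LitT.Cov.split_t (LitT.Cov.split_e (LitT.cov_of_chunkM cB17_10_3_114) (LitT.cov_of_chunkM cB17_10_3_115)) (LitT.cov_of_chunkM cB17_10_3_116))) (LitT.cov_of_chunkM cB17_10_3_117))) (LitT.Cov.split_x (LitT.cov_of_chunkM cB17_10_3_118) (LitT.Cov.split_T (LitT.Cov.split_T (LitT.cov_of_chunkM cB17_10_3_119) (LitT.Cov.split_t (LitT.cov_of_chunkM cB17_10_3_120) (LitT.cov_of_chunkM cB17_10_3_121))) (LitT.cov_of_chunkM cB17_10_3_122)))) (LitT.Cov.split_T (LitT.cov_of_chunkM cB17_10_3_123) (LitT.Cov.split_e (LitT.Cov.split_x (LitT.cov_of_chunkM cB17_10_3_124) (LitT.Cov.split_t (LitT.Cov.split_e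 (LitT.cov_of_chunkM cB17_10_3_125) (LitT.Cov.split_x (LitT.cov_of_chunkM cB17_10_3_126) (LitT.cov_of_chunkM cB17_10_3_127))) (LitT.cov_of_chunkM cB17_10_3_128))) (LitT.Cov.split_x (LitT.cov_of_chunkM cB17_10_3_129) (LitT.Cov.split_t (LitT.cov_of_chunkM cB17_10_3_130) (LitT.Cov.split_x (LitT.cov_of_chunkM cB17_10_3_131) (LitT.Cov.split_e (LitT.cov_of_chunkM cB17_10_3_132) (LitT.cov_of_chunkM cB17_10_3_133)))))))) (LitT.cov_of_chunkM cB17_10_3_134)) (LitT.cov_of_chunkM cB17_10_3_135)) (LitT.Cov.split_e (LitT.Cov.split_t (LitT.Cov.split_x (LitT.Cov.split_E (LitT.Cov.split_e (LitT.cov_of_chunkM cB17_10_3_136) (LitT.Cov.split_t (LitT.cov_of_chunkM cB17_10_3_137) (LitT.cov_of_chunkM cB17_10_3_138))) (LitT.Cov.split_T (LitT.cov_of_chunkM cB17_10_3_139) (LitT.Cov.split_e (LitT.cov_of_chunkM cB17_10_3_140) (LitT.Cov.split_t (LitT.Cov.split_e (LitT.cov_of_chunkM cB17_10_3_141) (LitT.cov_of_chunkM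 cB17_10_3_142)) (LitT.cov_of_chunkM cB17_10_3_143))))) (LitT.cov_of_chunkM cB17_10_3_144)) (LitT.cov_of_chunkM cB17_10_3_145)) (LitT.Cov.split_t (LitT.Cov.split_e (LitT.Cov.split_x (LitT.Cov.split_E (LitT.Cov.split_t (LitT.cov_of_chunkM cB17_10_3_146) (LitT.Cov.split_e (LitT.cov_of_chunkM cB17_10_3_147) (LitT.Cov.split_x (LitT.cov_of_chunkM cB17_10_3_148) (LitT.cov_of_chunkM cB17_10_3_149)))) (LitT.Cov.split_T (LitT.cov_of_chunkM cB17_10_3_150) (LitT.Cov.split_t (LitT.cov_of_chunkM cB17_10_3_151) (LitT.Cov.split_e (LitT.cov_of_chunkM cB17_10_3_152) (LitT.Cov.split_x (LitT.cov_of_chunkM cB17_10_3_153) (LitT.cov_of_chunkM cB17_10_3_154)))))) (LitT.Cov.split_E (LitT.Cov.split_t (LitT.cov_of_chunkM cB17_10_3_155) (LitT.cov_of_chunkM cB17_10_3_156)) (LitT.cov_of_chunkM cB17_10_3_157))) (LitT.Cov.split_x (LitT.Cov.split_t (LitT.cov_of_chunkM cB17_10_3_158) (LitT.Cov.split_x (LitT.cov_of_chunkM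 cB17_10_3_159) (LitT.Cov.split_E (LitT.Cov.split_e (LitT.cov_of_chunkM cB17_10_3_160) (LitT.cov_of_chunkM cB17_10_3_161)) (LitT.cov_of_chunkM cB17_10_3_162)))) (LitT.Cov.split_t (LitT.Cov.split_e (LitT.Cov.split_x (LitT.cov_of_chunkM cB17_10_3_163) (LitT.cov_of_chunkM cB17_10_3_164)) (LitT.cov_of_chunkM cB17_10_3_165)) (LitT.Cov.split_E (LitT.Cov.split_e (LitT.cov_of_chunkM cB17_10_3_166) (LitT.Cov.split_x (LitT.cov_of_chunkM cB17_10_3_167) (LitT.cov_of_chunkM cB17_10_3_168))) (LitT.cov_of_chunkM cB17_10_3_169))))) (LitT.Cov.split_E (LitT.Cov.split_x (LitT.Cov.split_t (LitT.Cov.split_e (LitT.cov_of_chunkM cB17_10_3_170) (LitT.Cov.split_T (LitT.cov_of_chunkM cB17_10_3_171) (LitT.cov_of_chunkM cB17_10_3_172))) (LitT.cov_of_chunkM cB17_10_3_173)) (LitT.cov_of_chunkM cB17_10_3_174)) (LitT.Cov.split_T (LitT.cov_of_chunkM cB17_10_3_175) (LitT.Cov.split_e (LitT.cov_of_chunkM cB17_10_3_176)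 (LitT.Cov.split_x (LitT.Cov.split_t (LitT.Cov.split_x (LitT.cov_of_chunkM cB17_10_3_177) (LitT.Cov.split_e (LitT.cov_of_chunkM cB17_10_3_178) (LitT.cov_of_chunkM cB17_10_3_179))) (LitT.cov_of_chunkM cB17_10_3_180)) (LitT.cov_of_chunkM cB17_10_3_181))))))))) (LitT.Cov.split_x (LitT.cov_of_chunkM cB17_10_3_182) (LitT.Cov.split_E (LitT.cov_of_chunkM cB17_10_3_183) (LitT.Cov.split_e (LitT.Cov.split_t (LitT.Cov.split_e (LitT.Cov.split_x (LitT.cov_of_chunkM cB17_10_3_184) (LitT.Cov.split_t (LitT.cov_of_chunkM cB17_10_3_185) (LitT.Cov.split_e (LitT.Cov.split_x (LitT.cov_of_chunkM cB17_10_3_186) (LitT.Cov.split_E (LitT.cov_of_chunkM cB17_10_3_187) (LitT.cov_of_chunkM cB17_10_3_188))) (LitT.Cov.split_x (LitT.cov_of_chunkM cB17_10_3_189) (LitT.Cov.split_t (LitT.cov_of_chunkM cB17_10_3_190) (LitT.Cov.split_E (LitT.cov_of_chunkM cB17_10_3_191) (LitT.cov_of_chunkM cB17_10_3_192)))))))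 (LitT.cov_of_chunkM cB17_10_3_193)) (LitT.Cov.split_e (LitT.Cov.split_x (LitT.cov_of_chunkM cB17_10_3_194) (LitT.Cov.split_E (LitT.Cov.split_t (LitT.Cov.split_e (LitT.Cov.split_x (LitT.Cov.split_T (LitT.cov_of_chunkM cB17_10_3_195) (LitT.cov_of_chunkM cB17_10_3_196)) (LitT.cov_of_chunkM cB17_10_3_197)) (LitT.Cov.split_x (LitT.cov_of_chunkM cB17_10_3_198) (LitT.Cov.split_t (LitT.cov_of_chunkM cB17_10_3_199) (LitT.cov_of_chunkM cB17_10_3_200)))) (LitT.cov_of_chunkM cB17_10_3_201)) (LitT.Cov.split_T (LitT.cov_of_chunkM cB17_10_3_202) (LitT.Cov.split_t (LitT.Cov.split_e (LitT.Cov.split_x (LitT.cov_of_chunkM cB17_10_3_203) (LitT.cov_of_chunkM cB17_10_3_204)) (LitT.cov_of_chunkM cB17_10_3_205)) (LitT.cov_of_chunkM cB17_10_3_206))))) (LitT.Cov.split_x (LitT.cov_of_chunkM cB17_10_3_207) (LitT.Cov.split_t (LitT.Cov.split_x (LitT.cov_of_chunkM cB17_10_3_208) (LitT.Cov.split_e (LitT.Cov.split_E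 (LitT.Cov.split_t (LitT.cov_of_chunkM cB17_10_3_209) (LitT.cov_of_chunkM cB17_10_3_210)) (LitT.cov_of_chunkM cB17_10_3_211)) (LitT.cov_of_chunkM cB17_10_3_212))) (LitT.Cov.split_E (LitT.Cov.split_x (LitT.cov_of_chunkM cB17_10_3_213) (LitT.Cov.split_e (LitT.cov_of_chunkM cB17_10_3_214) (LitT.cov_of_chunkM cB17_10_3_215))) (LitT.Cov.split_T (LitT.cov_of_chunkM cB17_10_3_216) (LitT.Cov.split_e (LitT.cov_of_chunkM cB17_10_3_217) (LitT.cov_of_chunkM cB17_10_3_218)))))))) (LitT.cov_of_chunkM cB17_10_3_219))))) (LitT.cov_of_chunkM cB17_10_3_220))))))))), (LitT.cov_of_chunkM cB17_10_1_0), (LitT.cov_of_chunkM cB17_10_2_0), (LitT.cov_of_chunkM cB17_10_0_0)⟩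

end Vale.Agent.helper4.Q4
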