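import Vale.Agent.helper4.Q4TreeM
import Vale.Agent.helper4.Q4G.PB17_12

/-!
Checks for pairs of intervals of second moments.
-/

set_option maxRecDepth 100000
set_option linter.unusedVariables false

namespace Vale.Agent.helper4.Q4

theorem cB17_12_3_0 : chunkOkM (LB17_12.ctx true true 97 1 1 1 1 1 1 1 1) muQ true true 64 RtB17_12.Cx RtB17_12.CX RtB17_12.Ctp.left RtB17_12.Ce RtB17_12.CTp RtB17_12.CEr 0x41 = true := by decide +kernel

theorem cB17_12_3_1 : chunkOkM (LB17_12.ctx true true 97 1 1 1 1 1 1 1 1) muQ true true 64 RtB17_12.Cx RtB17_12.CX RtB17_12.Ctp.right RtB17_12.Ce.left RtB17_12.CTp RtB17_12.CEr 0x69 = true := by decide +kernel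

theorem cB17_12_3_2 : chunkOkM (LB17_12.ctx true true 97 1 1 1 1 1 1 1 1) muQ true true 64 RtB17_12.Cx RtB17_12.CX RtB17_12.Ctp.right RtB17_12.Ce.right RtB17_12.CTp.left RtB17_12.CEr 0x42 = true := by decide +kernel

theorem cB17_12_3_3 : chunkOkM (LB17_12.ctx true true 97 1 1 1 1 1 1 1 1) muQ true true 64 RtB17_12.Cx RtB17_12.CX RtB17_12.Ctp.right RtB17_12.Ce.right RtB17_12.CTp.right.left RtB17_12.CEr 0x42 = true := by decide +kernel

theorem cB17_12_3_4 : chunkOkM (LB17_12.ctx true true 97 1 1 1 1 1 1 1 1) muQ true true 64 RtB17_12.Cx RtB17_12.CX RtB17_12.Ctp.right RtB17_12.Ce.right RtB17_12.CTp.right.right RtB17_12.CEr.left 0x12 = true := by decide +kernel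

theorem cB17_12_3_5 : chunkOkM (LB17_12.ctx true true 248 113 64 17 16 665 77 35 39) muQ true true 64 RtB17_12.Cx RtB17_12.CX RtB17_12.Ctp.right.left RtB17_12.Ce.right RtB17_12.CTp.right.right RtB17_12.CEr.right 0x4949495a75476fdfa1ec565c3b60b16f82d64cffe8e6818b6887f550d56e30657edb0f74a65c1c05a447e83094d97a8e66d2b688c8e5207952a7f460d4774937493493413 = true := by decide +kernel

theorem cB17_12_3_6 : chunkOkM (LB17_12.ctx true true 97 1 1 1 1 1 1 1 1) muQ true true 64 RtB17_12.Cx RtB17_12.CX RtB17_12.Ctp.right.right RtB17_12.Ce.right.left RtB17_12.CTp.right.right RtB17_12.CEr.right 0x69 = true := by decide +kernel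

theorem cB17_12_3_7 : chunkOkM (LB17_12.ctx true true 248 29 16 17 16 357 1089 35 91) muQ true true 64 RtB17_12.Cx RtB17_12.CX RtB17_12.Ctp.right.right.left.left RtB17_12.Ce.right.right.left.left.left RtB17_12.CTp.right.right RtB17_12.CEr.right 0x6954299867ed1605cd2f84c4e42e0b7e84650acb88e64d58d5ec8e550d77a42247edab5a7f874c7c81057b9fe25387e6526736b7f53440dd6f460d64712847ed9a2376d74c365b558b15f733348e64513bab7f550d44f909bf588b24739ce059e82da71a558e6636ff617f540d637 = true := by decide +kernel

theorem cB17_12_3_8 : chunkOkM (LB17_12.ctx true true 259 59 32 17 16 693 1133 35 91) muQ true true 64 RtB17_12.Cx RtB17_12.CX RtB17_12.Ctp.right.right.left.left RtB17_12.Ce.right.right.left.left.right RtB17_12.CTp.right.right RtB17_12.CEr.right 0x2f9791b7ed7117f0574c1dd9ddeff9e69e17e8c98f440d5e567347ed98bf14d74c286bf767b4ef3dc268e670189707f550d6a16f287ed10f9978b84c1878eb27e8419c5647f6525fe807f550d772f590f7ed18a2c36d84c3f9b0857e824a566aa8e642334847f550d438735002298b1b21415327ae859fdd277e63e730fd7f540d67494694d9f7ed4c9b2d674c354a2db7f680c0e427f52503f537f450d4935976d98be27ed889ed1574cd5bfe96f663e20c17f518498907f450d521eb310398b2764c693f1ae81a0317c7f67805af27f540d6473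 = true := by decide +kernel

theorem cB17_12_3_9 : chunkOkM (LB17_12.ctx true true 242 15 8 17 16 735 275 35 91) muQ true true 64 RtB17_12.Cx RtB17_12.CX RtB17_12.Ctp.right.right.left.right RtB17_12.Ce.right.right.left.left RtB17_12.CTp.right.right RtB17_12.CEr.right 0x116961db9ff7ed196c65d75c3e0ad0e7e82ec9b86c8e6317d19438e550d62001bc6e98b2f09734235ae8162e74538e530d633 = true := by decide +kernel

theorem cB17_12_3_10 : chunkOkM (LB17_12.ctx true true 260 61 32 17 16 721 1177 35 91) muQ true true 64 RtB17_12.Cx RtB17_12.CX RtB17_12.Ctp.right.right.left.left RtB17_12.Ce.right.right.left.right RtB17_12.CTp.right.right RtB17_12.CEr.right 0x34130027ed4e6a2365ca95d5b6f69c975217f5bfb4e727f450d597493a5b47f7ed412c98b74c2b829fb7f666714027f5218a59d7f450d737ca7647ed426cc5774c587229f28e67d9ef5e7f51a5691f7f450d44933c5d0b97ed5d4b60274c15971007f660876487f540d5935ad19be7ed972cdbf74c39c565e818ffab47f65fc60197f550d4d06cc50198b24fb9a129bae8168139e7f660a25c67f540d64756465667ed52a59765c68f1b32c8f5f4fc4b8b8f440d34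 = true := by decide +kernel

theorem cB17_12_3_11 : chunkOkM (LB17_12.ctx true true 241 29 16 17 16 189 583 35 65) muQ true true 64 RtB17_12.Cx.left RtB17_12.CX RtB17_12.Ctp.right.right.left.right RtB17_12.Ce.right.right.left.right.left RtB17_12.CTp.right.right RtB17_12.CEr.right.left 0x38ce2e51d7a7b1b530b5286ae81698c0a58e6268fb1018e540d = true := by decide +kernel

theorem cB17_12_3_12 : chunkOkM (LB17_12.ctx true true 262 59 32 17 16 749 1155 35 195) muQ true true 64 RtB17_12.Cx.left RtB17_12.CX RtB17_12.Ctp.right.right.left.right.left RtB17_12.Ce.right.right.left.right.left.left RtB17_12.CTp.right.right RtB17_12.CEr.right.right 0xb99906f7ede32744474c25b658788e62f4c57ad8e540d77a434d7ed7ba711a74c53ee04718e64f1201fb8e540d6a5a6a17edbf5be8374c238afb67b3784075e8e61fd4d2478e550d62234177edbfaa7b274c2f3e9137f633aa4267f540d376 = true := by decide +kernel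

theorem cB17_12_3_13 : chunkOkM (LB17_12.ctx true true 269 59 32 17 16 749 2365 75 195) muQ true true 64 RtB17_12.Cx.left RtB17_12.CX RtB17_12.Ctp.right.right.left.right.left RtB17_12.Ce.right.right.left.right.left.right RtB17_12.CTp.right.right RtB17_12.CEr.right.right 0x57d186b7ede3c3b6774c11a50a77e82e41f647f64012fa37f550da8a269d7ed107d541484c18a825c7e81d8805e7f62b3f9ef7f550d7bb9faa7edac5293574c32144e6f634fc0507f540d2fd0d2d7ed4201e6e74c3966cdf7e92814ce27f627b405f7f550de52ef667ed6fcd01b74c3d0314d77b20f9e3e7f631b26437f550d54647d53e47ede4c0a7774c10e685f7e82b810d77f640be8b77f550d37 = true := by decide +kernel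

theorem cB17_12_3_14 : chunkOkM (LB17_12.ctx true true 259 57 32 17 16 385 583 75 195) muQ true true 64 RtB17_12.Cx.left RtB17_12.CX RtB17_12.Ctp.right.right.left.right.right RtB17_12.Ce.right.right.left.right.left RtB17_12.CTp.right.right RtB17_12.CEr.right.right 0x69c7759367ed1902a98f84c414f1ba7e831d1ecda8e61225b8208e550d43a6e7d7ed3994afd74c32945897e93df34fd18e6ffdb4187e550d6dd6e6b7edb18ff4774c334468377b32fbaeff8e613dacdb58e550d567 = true := by decide +kernel

theorem cB17_12_3_15 : chunkOkM (LB17_12.ctx true true 238 31 16 17 16 189 583 35 39) muQ true true 64 RtB17_12.Cx.right RtB17_12.CX RtB17_12.Ctp.right.right.left.right RtB17_12.Ce.right.right.left.right.left RtB17_12.CTp.right.right RtB17_12.CEr.right 0x3485d047ed50b6f0a74c42568b168e655a507958e540d = true := by decide +kernel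

theorem cB17_12_3_16 : chunkOkM (LB17_12.ctx true true 273 119 64 17 16 1505 2431 35 91) muQ true true 64 RtB17_12.Cx.left RtB17_12.CX RtB17_12.Ctp.right.right.left.right.left RtB17_12.Ce.right.right.left.right.right RtB17_12.CTp.right.right RtB17_12.CEr.right 0x59388ed9b7ed94a776374c1513c367b1cbdf637f64a791827f550d21d1fc24b97bf64e8bb38e84cfc316f642c45e27f540d659359745975934c88dc97ed1262521784c2606e767e83f064d6f63fa46947f550d3de7a297eddcf48ed74c1a7fc6c7e81634a997f65a6a2cf7f550d34a79438b198b23be2de6b4ae81dea5c27f64bb73f57f540d64 = true := by decide +kernel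

theorem cB17_12_3_17 : chunkOkM (LB17_12.ctx true true 245 29 16 17 16 385 605 35 65) muQ true true 64 RtB17_12.Cx.left RtB17_12.CX RtB17_12.Ctp.right.right.left.right.right RtB17_12.Ce.right.right.left.right.right RtB17_12.CTp.right.right RtB17_12.CEr.right.left 0x38e45c097da7b1b59b193c0ae823856e17f633321717f540d = true := by decide +kernel

theorem cB17_12_3_18 : chunkOkM (LB17_12.ctx true true 278 115 64 17 16 777 2409 135 169) muQ true true 64 RtB17_12.Cx.left RtB17_12.CX RtB17_12.Ctp.right.right.left.right.right RtB17_12.Ce.right.right.left.right.right.left RtB17_12.CTp.right.right RtB17_12.CEr.right.right.left 0x56a73bf7eda6e0b4474c46bc1c67b4f1ad7948e625ecbaa78e550d3702f877ed2f0df4374c2e7d5a67e9a490f387f6551a106e550d225b28d7ed46d405b74c21eac16e9831b90c7f640d4537a3bf7ed9cfea2474c5dc12147f668f75297e540d4a552678f757ed444d47474c318ca737e94c181e77f62502e2538e550d6d921cd7edb33b56f74c1286f8b77b5ae3a7e7f619f6e657f550d569734613b87ed203c45574c475f5be7e9254cb8c7f61b46efce8e550d61250917ed9c3996174c28a1a8d77b5f110927f61558a687f550d5437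 = true := by decide +kernel

theorem cB17_12_3_19 : chunkOkM (LB17_12.ctx true true 271 59 32 35 32 385 1199 75 377) muQ true true 64 RtB17_12.Cx.left RtB17_12.CX RtB17_12.Ctp.right.right.left.right.right RtB17_12.Ce.right.right.left.right.right.left RtB17_12.CTp.right.right RtB17_12.CEr.right.right.right 0x2245c35c57ed460eda774c2bf8496f94bed46cf8e6286240b18e550d617146c7ed75182ad74cc1b8b56e750358ab7f6ed81e677e550d722865a5 = true := by decide +kernel

end Vale.Agent.helper4.Q4
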