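import Vale.Agent.helper4.Q4TreeM
import Vale.Agent.helper4.Q4G.PB17_12

/-!
Checks for pairs of intervals of second moments.
-/

set_option maxRecDepth 100000
set_option linter.unusedVariables false

namespace Vale.Agent.helper4.Q4

theorem cB17_12_3_20 : chunkOkM (LB17_12.ctx true true 299 463 256 17 16 3073 4895 75 195) muQ true true 64 RtB17_12.Cx.left.left RtB17_12.CX RtB17_12.Ctp.right.right.left.right.right RtB17_12.Ce.right.right.left.right.right.right RtB17_12.CTp.right.right RtB17_12.CEr.right.right 0x8301eb97ed98b349c74c18851aa7e72bc99927f614b41457f54fdf8a6f260d5a569521c2747eda7d2ec474c1cc57b548f630d4697693217300245b7ed3b54e8474c1c707097e97da8cfbd8e6199fbda7e550d657852d7edab92d8d74c1c2a76977b80e24e77f62ed0b76f550d5465959934926d7eddec03ff74c11540057e710e5dec18f640d5782c957edb35f73f74cbc96476f6348aaf77f540d6697593459759359743 = true := by decide +kernel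

theorem cB17_12_3_21 : chunkOkM (LB17_12.ctx true true 270 59 32 17 16 777 2453 75 195) muQ true true 64 RtB17_12.Cx.left.right RtB17_12.CX RtB17_12.Ctp.right.right.left.right.right RtB17_12.Ce.right.right.left.right.right.right RtB17_12.CTp.right.right RtB17_12.CEr.right.right 0x563821d7ed64391c874c30f46027e93b12b047f6244b16b7f550d5a51e4eae27ed52c9b0774c6a572457f61d1ab90f8e540d53273397edac0758d74c14a33cc77b5cd2f327f61b1394908e550d529dfeb77ed4ccbc5774c2cc8bfb7e93e3aa137f620c8cd6a8e550db4061db7ed894f49d74c2caae2377b9c0f6567f616f5d9e08e550d5454271057eda69a6e174c32e5a247f632c55f17f540d36 = true := by decide +kernel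

theorem cB17_12_3_22 : chunkOkM (LB17_12.ctx true true 259 63 32 17 16 749 1221 35 91) muQ true true 64 RtB17_12.Cx.right RtB17_12.CX RtB17_12.Ctp.right.right.left.right.left RtB17_12.Ce.right.right.left.right.right RtB17_12.CTp.right.right RtB17_12.CEr.right 0x2cee4c27ed374e27774c322c02b7f6627171a7f54ee0416f450d4e1ff267ed8bf6d3c74c15f60a6e814c1a157f6508d6257f550d2fc6a0e6a97b15bff6ae49e85384df6f64b7c33c7f540d674932f9db07ed386278d74c428a4257f67e718177f51fe89e6f450d7332cbffc7ed6a8ed4274c1bef25648e644dfc217f540d49302877f7ed6c09d3a74c13f0057b61bed427f677acd377f550d331127d5597b17660619c9e87824eba7f66a2dbfb7f540d6734 = true := by decide +kernel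

theorem cB17_12_3_23 : chunkOkM (LB17_12.ctx true true 247 31 16 17 16 385 605 35 91) muQ true true 64 RtB17_12.Cx.right RtB17_12.CX RtB17_12.Ctp.right.right.left.right.right RtB17_12.Ce.right.right.left.right.right RtB17_12.CTp.right.right RtB17_12.CEr.right 0x47ba92a7ed10b6e09884c2b640c97e83228dd518e63406ee5e8e550d429dc312498b200b0113fcae820d6 = true := by decide +kernel

theorem cB17_12_3_24 : chunkOkM (LB17_12.ctx true true 97 1 1 1 1 1 1 1 1) muQ true true 64 RtB17_12.Cx RtB17_12.CX RtB17_12.Ctp.right.right.right.left RtB17_12.Ce.right.right.left.left RtB17_12.CTp.right.right RtB17_12.CEr.right 0x11 = true := by decide +kernel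

theorem cB17_12_3_25 : chunkOkM (LB17_12.ctx true true 97 1 1 1 1 1 1 1 1) muQ true true 64 RtB17_12.Cx RtB17_12.CX RtB17_12.Ctp.right.right.right.left.left RtB17_12.Ce.right.right.left.right.left RtB17_12.CTp.right.right RtB17_12.CEr.right 0x11 = true := by decide +kernel

theorem cB17_12_3_26 : chunkOkM (LB17_12.ctx true true 240 15 8 17 16 399 605 35 65) muQ true true 64 RtB17_12.Cx RtB17_12.CX RtB17_12.Ctp.right.right.right.left.left RtB17_12.Ce.right.right.left.right.right RtB17_12.CTp.right.right RtB17_12.CEr.right.left 0x442b6716c98b20b77bb9e6ae8351fadc7f230d = true := by decide +kernel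

theorem cB17_12_3_27 : chunkOkM (LB17_12.ctx true true 285 59 32 35 32 791 2453 275 377) muQ true true 64 RtB17_12.Cx RtB17_12.CX RtB17_12.Ctp.right.right.right.left.left RtB17_12.Ce.right.right.left.right.right RtB17_12.CTp.right.right RtB17_12.CEr.right.right 0x112291a05c6ce9a9a7ed81f999a74c151b4c67e724634c4d8e66cfd0477e51baea9648e260d722865a522324797ed564462974c1a903cd7e9966eec698e640d01293f7d07ed3ce0f4574c239d00e7e9808612698e61120a4a78e250d2c7a9947ed416fb9f74c1feb7247e92ec9896e73a12a217f6184745a7f260d43733242f07ed30cca4374c22670b67e92887bcc78e61b6e74478e250d44a81a05c2df81717ed6d4b22b74c25cddda08e677b028e7e51dc7a7b78e250d784a54a5567 = true := by decide +kernel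

theorem cB17_12_3_28 : chunkOkM (LB17_12.ctx true true 97 1 1 1 1 1 1 1 1) muQ true true 64 RtB17_12.Cx RtB17_12.CX RtB17_12.Ctp.right.right.right.left.right RtB17_12.Ce.right.right.left.right RtB17_12.CTp.right.right RtB17_12.CEr.right 0x11 = true := by decide +kernel

theorem cB17_12_3_29 : chunkOkM (LB17_12.ctx true true 97 1 1 1 1 1 1 1 1) muQ true true 64 RtB17_12.Cx RtB17_12.CX RtB17_12.Ctp.right.right.right.right RtB17_12.Ce.right.right.left RtB17_12.CTp.right.right RtB17_12.CEr.right 0x01 = true := by decide +kernel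

theorem cB17_12_3_30 : chunkOkM (LB17_12.ctx true true 97 1 1 1 1 1 1 1 1) muQ true true 64 RtB17_12.Cx RtB17_12.CX RtB17_12.Ctp.right.right.left.left RtB17_12.Ce.right.right.right RtB17_12.CTp.right.right RtB17_12.CEr.right 0x59 = true := by decide +kernel

theorem cB17_12_3_31 : chunkOkM (LB17_12.ctx true true 260 63 32 17 16 749 2497 35 39) muQ true true 64 RtB17_12.Cx RtB17_12.CX RtB17_12.Ctp.right.right.left.right.left RtB17_12.Ce.right.right.right.left.left RtB17_12.CTp.right.right RtB17_12.CEr.right 0x21a671c7ed174b26174c28d06eca8f61cd2dd7699f54f399fed89f450d29b56427ed26b2b6674ced096a67bc8c5f66f660176547f51bdebaf7f460d2bf234cf8dd34e791474c5dbbff67b2d46ac87f664ab4e67f517136f87f460d430b15dc7ed46edac074c2de06737f6605584a7f540d73780a157ed751eb264c31aa4368b3c42d0068f591df5af58f450d34597 = true := by decide +kernel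

theorem cB17_12_3_32 : chunkOkM (LB17_12.ctx true true 97 1 1 1 1 1 1 1 1) muQ true true 64 RtB17_12.Cx.left.left RtB17_12.CX RtB17_12.Ctp.right.right.left.right.right RtB17_12.Ce.right.right.right.left.left RtB17_12.CTp.right.right RtB17_12.CEr.right 0x59 = true := by decide +kernel

theorem cB17_12_3_33 : chunkOkM (LB17_12.ctx true true 255 59 32 17 16 385 1243 35 65) muQ true true 64 RtB17_12.Cx.left.right RtB17_12.CX RtB17_12.Ctp.right.right.left.right.right RtB17_12.Ce.right.right.right.left.left.left RtB17_12.CTp.right.right RtB17_12.CEr.right.left 0x388c7989e2a7b1b237f276aae83706a357f62c7cf417f540d = true := by decide +kernel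

theorem cB17_12_3_34 : chunkOkM (LB17_12.ctx true true 280 119 64 17 16 1561 2497 75 195) muQ true true 64 RtB17_12.Cx.left.right RtB17_12.CX RtB17_12.Ctp.right.right.left.right.right RtB17_12.Ce.right.right.right.left.left.left RtB17_12.CTp.right.right RtB17_12.CEr.right.right 0x7e34c147ed976560374c4508fc97e9201d47a7f634be1db7f550d4cefbf37ed95cd17b74c4e4e1ff7f6298a5a77f540d669773484897edc422da974c34919b07f6242fc2d7f540d540077b7ed9682f0c74c557658d7f6241fd8d7f540d203b96d7ed64ef87f74c57139747f6125a28468e540d345d4947edc7a4bbd74c88dccb67b8deb9eb7f61be63787f550d54d1b9037ed984973474c3a4ffe57f530d3764379adc37ed9e4ee6774c43948f47f6367f1657f540d3 = true := by decide +kernel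

theorem cB17_12_3_35 : chunkOkM (LB17_12.ctx true true 324 1919 1024 17 16 25081 40139 35 91) muQ true true 64 RtB17_12.Cx.left.right RtB17_12.CX RtB17_12.Ctp.right.right.left.right.right RtB17_12.Ce.right.right.right.left.left.right RtB17_12.CTp.right.right RtB17_12.CEr.right 0x595959595935b19bf7eda59ae7474c66d0726e9382ccef7f540d6407106f06c659345975934597593459759345975935974593 = true := by decide +kernel

theorem cB17_12_3_36 : chunkOkM (LB17_12.ctx true true 260 63 32 17 16 777 1243 35 91) muQ true true 64 RtB17_12.Cx.right RtB17_12.CX RtB17_12.Ctp.right.right.left.right.right RtB17_12.Ce.right.right.right.left.left.left RtB17_12.CTp.right.right RtB17_12.CEr.right 0x692a83ace7ed4bb93c874c42c9dff7f65cdaaf37f540d3390b20e7edae4b7b174c386f1eb7f630d24de7f540d3f10e167ed77d912874c14f8e3c7e93420a637f642327fc7f550d325addacb0fa7b121471cac3ae840cb2817f6435035e7f540d67 = true := by decide +kernel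

theorem cB17_12_3_37 : chunkOkM (LB17_12.ctx true true 259 61 32 17 16 777 1265 35 91) muQ true true 64 RtB17_12.Cx.right.left RtB17_12.CX RtB17_12.Ctp.right.right.left.right.right RtB17_12.Ce.right.right.right.left.left.right RtB17_12.CTp.right.right RtB17_12.CEr.right 0x412502b7edfd088b974c249fa507e8188469d7f63df167e7f550d2c9d225c997b145cd84879e81ca68c57f6442c1067f540d62783aad7ed5f33a4674c3befb847f661d2c737f540d3 = true := by decide +kernel

end Vale.Agent.helper4.Q4
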