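import Vale.Agent.helper4.Q4TreeM
import Vale.Agent.helper4.Q4G.PB17_12

/-!
Checks for pairs of intervals of second moments.
-/

set_option maxRecDepth 100000
set_option linter.unusedVariables false

namespace Vale.Agent.helper4.Q4

theorem cB17_12_3_38 : chunkOkM (LB17_12.ctx true true 263 63 32 17 16 777 2541 35 91) muQ true true 64 RtB17_12.Cx.right.right RtB17_12.CX RtB17_12.Ctp.right.right.left.right.right RtB17_12.Ce.right.right.right.left.left.right RtB17_12.CTp.right.right RtB17_12.CEr.right 0x28e6c797ed753d12c74c233ed707f6449c4237f540d38c46a1fe97b19db9df4a9e8302c00f7f64979dde7f540d6283a73d7ed59fd6b574c10cfb8e7e930e0c8a7f66c4d3da7f550d25661a2423a7b11f2cca4c9ae82d2e7667f66ae58c47f540d62f6a5947ed6026c3674c3821436e9740b746f64c8f3a97f550d2952b2f4297b12d19f60b9e83d2120d7f66342dbc7f540d643 = true := by decide +kernel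

theorem cB17_12_3_39 : chunkOkM (LB17_12.ctx true true 263 63 32 17 16 777 2585 35 91) muQ true true 64 RtB17_12.Cx RtB17_12.CX RtB17_12.Ctp.right.right.left.right RtB17_12.Ce.right.right.right.left.right RtB17_12.CTp.right.right RtB17_12.CEr.right 0x18f35937ed420e85a74cdf58058b4d285a87f67ace91b7f550d2cee0b17ed594e01e74c1c7c5907e9318dea37f65094e987f550d2d0ace76d97b147922ff59e811d2d4f7f652236af7f540d62c6fe5d7edcc2aaa074c1a67d7e7e8187d8177f64c081d37f550d28b7fe9eb97b1270cf1d19e8968ea447f67f22e477f540d6421807e97ed6edca5374c29e11057f65b644137f540d725f7b837ed1d24b6c74c2e7634b7f66d89cc27f540d34597593 = true := by decide +kernel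

theorem cB17_12_3_40 : chunkOkM (LB17_12.ctx true true 97 1 1 1 1 1 1 1 1) muQ true true 64 RtB17_12.Cx RtB17_12.CX RtB17_12.Ctp.right.right.left.right RtB17_12.Ce.right.right.right.right RtB17_12.CTp.right.right RtB17_12.CEr.right 0x59 = true := by decide +kernel

theorem cB17_12_3_41 : chunkOkM (LB17_12.ctx true true 246 29 16 17 16 399 627 35 65) muQ true true 64 RtB17_12.Cx.left RtB17_12.CX RtB17_12.Ctp.right.right.right.left.left RtB17_12.Ce.right.right.right.left.left RtB17_12.CTp.right.right RtB17_12.CEr.right.left 0x39ea954ce4a7b1bc13ef3e3ae8546f1cf48e61e5ba637f240d = true := by decide +kernel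

theorem cB17_12_3_42 : chunkOkM (LB17_12.ctx true true 285 231 128 17 16 791 4939 75 195) muQ true true 64 RtB17_12.Cx.left.left RtB17_12.CX RtB17_12.Ctp.right.right.right.left.left RtB17_12.Ce.right.right.right.left.left.left RtB17_12.CTp.right.right RtB17_12.CEr.right.right 0x2121019579ac07edcf94e9574ca3eead57f65fedcb6f240d382883828dd20657a874c4a865d07e9ef279307f6a220416f250d844b4a57ed828b42174c1fae3df77bb02af357f640d56342174217 = true := by decide +kernel

theorem cB17_12_3_43 : chunkOkM (LB17_12.ctx true true 292 119 64 35 32 805 2497 275 377) muQ true true 64 RtB17_12.Cx.left.right RtB17_12.CX RtB17_12.Ctp.right.right.right.left.left RtB17_12.Ce.right.right.right.left.left.left RtB17_12.CTp.right.right RtB17_12.CEr.right.right 0x224c4c8237ed579846274c1d232187e94bc93af68e6c2f30277e565d7a46f260d22865a535ef00f7ed696861f74c4d9608088e6194a5167f240d2363abd7ed3d8bee574c1dc87877e94a8f3c07f61834825d8e550d3e3259d7ed284944f74c357c25c7e9b88f9bc7f640d7358ad9d7ed44bfca974c19782a37e9bc7385f7f62ce59077e550d434a14f12c67ed7e12cde74c11fad368b8deee667e632ce1237f250d2030fc37ed673a77774c7f9ef5d7f69edc6527e540d35d3ff17ed68034f674c6d562bf7f630d4384a54a556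 = true := by decide +kernel

end Vale.Agent.helper4.Q4
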