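import Vale.Agent.helper4.Q4TreeM
import Vale.Agent.helper4.Q4G.PB17_12

/-!
Checks for pairs of intervals of second moments.
-/

set_option maxRecDepth 100000
set_option linter.unusedVariables false

namespace Vale.Agent.helper4.Q4

theorem cB17_12_3_56 : chunkOkM (LB17_12.ctx true true 286 243 128 17 16 1617 2585 75 169) muQ true true 64 RtB17_12.Cx.right.left RtB17_12.CX RtB17_12.Ctp.right.right.right.left.left.right RtB17_12.Ce.right.right.right.left.right.left RtB17_12.CTp.right.right RtB17_12.CEr.right.right.left 0x19ab0cb7ed3f4793e74c32705197e9498c8117f61ebc01df8e550d44452607ed744943c74c1a93ef277b5031e5e7f61cf74cb58e550d5228741b7ed2eb170874c31812ed7e9bb46b5f7f6450f286f250d407d24a7ed95d5e0f74c4b0b5d67bf0bd8a47f640d5413026d7ed7e394b174c1790fb2d8f630d697373b5799c7ed868930574c95242c47f61cb7fa718e540d145b9517ed49dae9474ce6c6886e9a543e297f64bcaf8a7e550d44570857ed91dcb5d74cb223d467bcc635ba7f6159ad567e550d574 = true := by decide +kernel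

theorem cB17_12_3_57 : chunkOkM (LB17_12.ctx true true 275 61 32 35 32 805 1287 75 377) muQ true true 64 RtB17_12.Cx.right.left RtB17_12.CX RtB17_12.Ctp.right.right.right.left.left.right RtB17_12.Ce.right.right.right.left.right.left RtB17_12.CTp.right.right RtB17_12.CEr.right.right.right 0x2238bb2b27ed53d6ce074c1092c707e9379741b7f618d8d2188e54000c96f260d22865a5 = true := by decide +kernel

theorem cB17_12_3_58 : chunkOkM (LB17_12.ctx true true 256 63 32 17 16 399 1287 35 91) muQ true true 64 RtB17_12.Cx.right.right RtB17_12.CX RtB17_12.Ctp.right.right.right.left.left RtB17_12.Ce.right.right.right.left.right.left RtB17_12.CTp.right.right RtB17_12.CEr.right 0x2eb4c3d7ed91adb7974c527ce5cf8e6360feb498e540d3b855b63797b1b1d305109e84dcf5c87f636a9eb37f540d6 = true := by decide +kernel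

theorem cB17_12_3_59 : chunkOkM (LB17_12.ctx true true 290 247 128 17 16 1617 5247 75 195) muQ true true 64 RtB17_12.Cx.right.left RtB17_12.CX RtB17_12.Ctp.right.right.right.left.left RtB17_12.Ce.right.right.right.left.right.right RtB17_12.CTp.right.right RtB17_12.CEr.right 0x6928ef5a07ede77707e74c1f6fadc7e82601be618f640d46975937fe6ba87ed72ea99374c153c2377e96895c667f61e1701f7f550df01cb96ed54a85e174c6ad00247f6152165b7f540d41889457ed93fdfcb74c9a399407f6131c7c07f540d53d1629a7ed75bdf6074c9723256f6352cd277f540d3641658287fdfa7bacfd9ecb99e8537bc1f7f630d6697593 = true := by decide +kernel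

theorem cB17_12_3_60 : chunkOkM (LB17_12.ctx true true 269 127 64 17 16 791 2629 35 91) muQ true true 64 RtB17_12.Cx.right.right RtB17_12.CX RtB17_12.Ctp.right.right.right.left.left.left RtB17_12.Ce.right.right.right.left.right.right RtB17_12.CTp.right.right RtB17_12.CEr.right 0x1eea8c27ed886332d74c10583a97e740022ac7f65086c0b7f550d1e5087b0f97bdc46e93e8e845080087f651c818c7f540d6597240496b7ed79c241e74c7ebfe76e914b7a5e7f63fe4f0b7f550d25a39bf3a97b111f78e6a9e8d55ce8b7f649a66a47f540d64 = true := by decide +kernel

theorem cB17_12_3_61 : chunkOkM (LB17_12.ctx true true 273 127 64 17 16 805 2629 35 195) muQ true true 64 RtB17_12.Cx.right.right RtB17_12.CX RtB17_12.Ctp.right.right.right.left.left.right RtB17_12.Ce.right.right.right.left.right.right RtB17_12.CTp.right.right RtB17_12.CEr.right 0x202526e7ed811969e74c4dd4f167b76eb5877f62ab53077f550d401ce927ed916050c74c237f7b77f6325a46a7f540d35406097ed7910de974c58d33867f628736547f540d672760bb57edb8df2bc74cfabb5f6e85ad31c37f62799cf67f550d4268c2152bba7b127e47406aae815fe6747f6312fc337f540d6 = true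 := by decide +kernel

theorem cB17_12_3_62 : chunkOkM (LB17_12.ctx true true 246 31 16 17 16 413 649 35 65) muQ true true 64 RtB17_12.Cx.right RtB17_12.CX RtB17_12.Ctp.right.right.right.left.right RtB17_12.Ce.right.right.right.left.right RtB17_12.CTp.right.right RtB17_12.CEr.right.left 0x326d41e5bea7b183f35f2d4ae8ee6deec7e530d = true := by decide +kernel

theorem cB17_12_3_63 : chunkOkM (LB17_12.ctx true true 277 123 64 17 16 819 2629 75 195) muQ true true 64 RtB17_12.Cx.right.left RtB17_12.CX RtB17_12.Ctp.right.right.right.left.right RtB17_12.Ce.right.right.right.left.right RtB17_12.CTp.right.right RtB17_12.CEr.right.right 0x01333cc897ed91b06b574c13515407e72911dfc7f6163a050e8e51735d4b7f260d5a516ac7397ed50e832774c76aa9d6e9b7184997f6806c1f6f250d36a9f967ed8bb72ee74c69bf5b67baf061307f67f8a176f5103ee0a7f260d52171877e917ed642daad74cb320d8e7f630d3ddadae7ed931aad174cb0be4f17f630d53ba01467ed898790a74cf3765217f63d755657f240d7466b347167edd6a674674c15fab5f7e7ee306c57e62fb73757f250d3b7efb37ed89290ec74c8ce71fd7e6336f2917f240d643 = true := by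 decide +kernel

theorem cB17_12_3_64 : chunkOkM (LB17_12.ctx true true 272 125 64 17 16 819 2629 35 195) muQ true true 64 RtB17_12.Cx.right.right RtB17_12.CX RtB17_12.Ctp.right.right.right.left.right RtB17_12.Ce.right.right.right.left.right RtB17_12.CTp.right.right RtB17_12.CEr.right.right 0x11693781f237ed77c8c1974cee21f6f7f630d37703d87ed73c056174cec854c67f620f40b6e540d676941143 = true := by decide +kernel

theorem cB17_12_3_65 : chunkOkM (LB17_12.ctx true true 97 1 1 1 1 1 1 1 1) muQ true true 64 RtB17_12.Cx.left RtB17_12.CX RtB17_12.Ctp.right.right.right.left RtB17_12.Ce.right.right.right.right RtB17_12.CTp.right.right RtB17_12.CEr.right 0x21 = true := by decide +kernel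

theorem cB17_12_3_66 : chunkOkM (LB17_12.ctx true true 273 127 64 17 16 1617 2673 35 91) muQ true true 64 RtB17_12.Cx.right RtB17_12.CX RtB17_12.Ctp.right.right.right.left.left RtB17_12.Ce.right.right.right.right.left RtB17_12.CTp.right.right RtB17_12.CEr.right 0x5916ee3777ed8ce077b74c164b9a6f6425d1d67f540d45099f77f05b659359724ca7327ed9b139ad74c4ac33f6e870db856e711d31d17f63bc8eae7f560d19fe1960eca7bc7948079d9e83a9e5f17f530d64199c72c7ed5417ce974c660ece87f530d35974 = true := by decide +kernel

theorem cB17_12_3_67 : chunkOkM (LB17_12.ctx true true 291 495 256 17 16 1645 10571 35 91) muQ true true 64 RtB17_12.Cx.right.left RtB17_12.CX RtB17_12.Ctp.right.right.right.left.right RtB17_12.Ce.right.right.right.right.left.left RtB17_12.CTp.right.right RtB17_12.CEr.right 0x212121012466ca17ed1251ef0184c32012d17e8fc31a697f622bd02d7f250dbdfc9e77d97b5b13fcd0c0ad81f7fcb418f616f08927f240d66933421742174217 = true := by decide +kernel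

theorem cB17_12_3_68 : chunkOkM (LB17_12.ctx true true 255 63 32 17 16 413 1331 35 65) muQ true true 64 RtB17_12.Cx.right.right RtB17_12.CX RtB17_12.Ctp.right.right.right.left.right RtB17_12.Ce.right.right.right.right.left.left RtB17_12.CTp.right.right RtB17_12.CEr.right.left 0x238dfb3101a7b111bddf410ae82d6b9707f633255fb7f540d = true := by decide +kernel

theorem cB17_12_3_69 : chunkOkM (LB17_12.ctx true true 283 127 64 17 16 1645 5313 75 169) muQ true true 64 RtB17_12.Cx.right.right RtB17_12.CX RtB17_12.Ctp.right.right.right.left.right.left RtB17_12.Ce.right.right.right.right.left.left.left RtB17_12.CTp.right.right RtB17_12.CEr.right.right.left 0x23215317ed70a4c4474cc27b2f97f6236195e48e540d2e0ed587ed31c200474c101a7377e9dddab7a7f640d22f82cb7ed744c7a874c104e8ac77be65a3ad7f640d533993ba7ed700e09d74c12aa66428f69be1f66f540d3a514007ed6d2631b74c10364eea8f6939d7f6f540d437 = true := by decide +kernel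

theorem cB17_12_3_70 : chunkOkM (LB17_12.ctx true true 279 127 64 17 16 1645 5357 35 169) muQ true true 64 RtB17_12.Cx.right.right RtB17_12.CX RtB17_12.Ctp.right.right.right.left.right.left RtB17_12.Ce.right.right.right.right.left.left.right RtB17_12.CTp.right.right RtB17_12.CEr.right.right.left 0x2c078607ed758322374c6e780347f621276587f540d2acc4c07ed7f7dbb374c125558128f69389a36f240d361e4de7ed72dc8b874c133a1ff08f62d9b4d6f240d430a95ac7ed71345d874c10f13fce8f629953797f540d37 = true := by decide +kernel

theorem cB17_12_3_71 : chunkOkM (LB17_12.ctx true true 263 63 32 17 16 833 1331 35 169) muQ true true 64 RtB17_12.Cx.right.right RtB17_12.CX RtB17_12.Ctp.right.right.right.left.right.right RtB17_12.Ce.right.right.right.right.left.left RtB17_12.CTp.right.right RtB17_12.CEr.right.right.left 0x2d4882d7ed7c6562774ceaee457b11c6d2b88e642a816d7f250d = true := by decide +kernel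

end Vale.Agent.helper4.Q4
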