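import Vale.Agent.helper4.Q4TreeM
import Vale.Agent.helper4.Q4G.PB17_12

/-!
Checks for pairs of intervals of second moments.
-/

set_option maxRecDepth 100000
set_option linter.unusedVariables false

namespace Vale.Agent.helper4.Q4

theorem cB17_12_3_72 : chunkOkM (LB17_12.ctx true true 279 63 32 35 32 833 2673 75 377) muQ true true 64 RtB17_12.Cx.right.right RtB17_12.CX RtB17_12.Ctp.right.right.right.left.right RtB17_12.Ce.right.right.right.right.left.left RtB17_12.CTp.right.right RtB17_12.CEr.right.right.right 0x2281b9faa7edac355df74c71920ba48e62bed4d67f240d1c4c09b7ed5c18dd574c1b366b6f9436137a7f6219def57f5744ecb6f260d626f1e17ed59a948d74c5b649847f6172c11908e540d4322865a5 = true := by decide +kernel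

theorem cB17_12_3_73 : chunkOkM (LB17_12.ctx true true 97 1 1 1 1 1 1 1 1) muQ true true 64 RtB17_12.Cx.right.left RtB17_12.CX RtB17_12.Ctp.right.right.right.left.right RtB17_12.Ce.right.right.right.right.left.right RtB17_12.CTp.right.right RtB17_12.CEr.right 0x21 = true := by decide +kernel

theorem cB17_12_3_74 : chunkOkM (LB17_12.ctx true true 299 511 256 17 16 3297 10835 35 195) muQ true true 64 RtB17_12.Cx.right.right RtB17_12.CX RtB17_12.Ctp.right.right.right.left.right.left RtB17_12.Ce.right.right.right.right.left.right RtB17_12.CTp.right.right RtB17_12.CEr.right 0x5969f7b58577dd87ddb6d74c3a898a348f630d2047d8f68f06b646975934597593236b8e87edb43efcb74cfcea5d6e878f39187f61b831137f550d22266197ed74bffa574cd16bb747f624280637f540d24debb17ed72a3e8a74c10bfe3938f61483cf67f540d4619acd967ed7d446ec74ce2de246e91dfa6157f63cf18ff7f550d316f38555aca7bb018d4ce19e828e3eb87f639709807f540d64697 = true := by decide +kernel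

theorem cB17_12_3_75 : chunkOkM (LB17_12.ctx true true 259 63 32 17 16 833 1353 35 65) muQ true true 64 RtB17_12.Cx.right.right RtB17_12.CX RtB17_12.Ctp.right.right.right.left.right.right RtB17_12.Ce.right.right.right.right.left.right RtB17_12.CTp.right.right RtB17_12.CEr.right.left 0x1f65ee565da7bf132273649e8e1451e6f61f19f157f51fb87c27f250d = true := by decide +kernel

theorem cB17_12_3_76 : chunkOkM (LB17_12.ctx true true 284 127 64 17 16 1673 5445 75 195) muQ true true 64 RtB17_12.Cx.right.right RtB17_12.CX RtB17_12.Ctp.right.right.right.left.right.right RtB17_12.Ce.right.right.right.right.left.right RtB17_12.CTp.right.right RtB17_12.CEr.right.right 0x45ec1ca7ed77d25c874ce2fe026e9884bc5e7a26103b7f61029dc47f5b9e0d16f270d1559b5c7ed88a0ce074c28e7936e787e277e7f636543297f250d214a3c57ed764afc174c40c84c6e715ebe00b8f640d23201e37ed70c6b0d74c140a899f8f63a3e316f240d43621737eab4a7ed6b6548b74c1f09eef7e946ce6c37f619f927578e51aaa9007f260d5a58536456ed572041b74c1780eb77e9fdc25077f640d249de967ed8351c7c74cdbd86827f635e1d86f240d51f7aaa27ed842d11374ce4e08f47f641269667f240d764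 = true := by decide +kernel

theorem cB17_12_3_77 : chunkOkM (LB17_12.ctx true true 310 1023 512 17 16 6685 21835 35 91) muQ true true 64 RtB17_12.Cx.right RtB17_12.CX RtB17_12.Ctp.right.right.right.left RtB17_12.Ce.right.right.right.right.right RtB17_12.CTp.right.right RtB17_12.CEr.right 0x2121212121011e31721c8dda36a15074c10f602628d829cf391d79f640d3f37bdc7f02b6693342174217401769342170175934593 = true := by decide +kernel

theorem cB17_12_3_78 : chunkOkM (LB17_12.ctx true true 97 1 1 1 1 1 1 1 1) muQ true true 64 RtB17_12.Cx RtB17_12.CX RtB17_12.Ctp.right.right.right.right RtB17_12.Ce.right.right.right RtB17_12.CTp.right.right RtB17_12.CEr.right 0x01 = true := by decide +kernel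

theorem cB17_12_2_0 : chunkOkM (LB17_12.ctx false true 97 1 1 1 1 1 1 1 1) muQ false true 64 RtB17_12.Cx RtB17_12.CX RtB17_12.Ctn RtB17_12.Ce RtB17_12.CTp RtB17_12.CEr 0x49 = true := by decide +kernel

theorem cB17_12_1_0 : chunkOkM (LB17_12.ctx true false 97 1 1 1 1 1 1 1 1) muQ true false 64 RtB17_12.Cx RtB17_12.CX RtB17_12.Ctp RtB17_12.Ce RtB17_12.CTn RtB17_12.CEr 0x4a = true := by decide +kernel

theorem cB17_12_0_0 : chunkOkM (LB17_12.ctx false false 97 1 1 1 1 1 1 1 1) muQ false false 64 RtB17_12.Cx RtB17_12.CX RtB17_12.Ctn RtB17_12.Ce RtB17_12.CTn RtB17_12.CEr 0x49 = true := by decide +kernel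

end Vale.Agent.helper4.Q4
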