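import Vale.Agent.helper4.Q4TreeM
import Vale.Agent.helper4.Q4G.PB17_12_0
import Vale.Agent.helper4.Q4G.PB17_12_1
import Vale.Agent.helper4.Q4G.PB17_12_2_0
import Vale.Agent.helper4.Q4G.PB17_12_2_1
import Vale.Agent.helper4.Q4G.PB17_12_2_2
import Vale.Agent.helper4.Q4G.PB17_12_3
import Vale.Agent.helper4.Q4G.PB17_12_4

/-!
Checks for pairs of intervals of second moments.
-/

set_option maxRecDepth 100000
set_option linter.unusedVariables false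

namespace Vale.Agent.helper4.Q4

theorem covB17_12 : LB17_12.Full muQ.val RtB17_12 := ⟨(LitT.Cov.split_t (LitT.cov_of_chunkM cB17_12_3_0) (LitT.Cov.split_e (LitT.cov_of_chunkM cB17_12_3_1) (LitT.Cov.split_T (LitT.cov_of_chunkM cB17_12_3_2) (LitT.Cov.split_T (LitT.cov_of_chunkM cB17_12_3_3) (LitT.Cov.split_E (LitT.cov_of_chunkM cB17_12_3_4) (LitT.Cov.split_t (LitT.cov_of_chunkM cB17_12_3_5) (LitT.Cov.split_e (LitT.cov_of_chunkM cB17_12_3_6) (LitT.Cov.split_e (LitT.Cov.split_t (LitT.Cov.split_e (LitT.Cov.split_t (LitT.Cov.split_e (LitT.cov_of_chunkM cB17_12_3_7) (LitT.cov_of_chunkM cB17_12_3_8)) (LitT.cov_of_chunkM cB17_12_3_9)) (LitT.Cov.split_t (LitT.cov_of_chunkM cB17_12_3_10) (LitT.Cov.split_e (LitT.Cov.split_x (LitT.Cov.split_E (LitT.cov_of_chunkM cB17_12_3_11) (LitT.Cov.split_t (LitT.Cov.split_e (LitT.cov_of_chunkM cB17_12_3_12) (LitT.cov_of_chunkM cB17_12_3_13))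 (LitT.cov_of_chunkM cB17_12_3_14))) (LitT.cov_of_chunkM cB17_12_3_15)) (LitT.Cov.split_x (LitT.Cov.split_t (LitT.cov_of_chunkM cB17_12_3_16) (LitT.Cov.split_E (LitT.cov_of_chunkM cB17_12_3_17) (LitT.Cov.split_e (LitT.Cov.split_E (LitT.cov_of_chunkM cB17_12_3_18) (LitT.cov_of_chunkM cB17_12_3_19)) (LitT.Cov.split_x (LitT.cov_of_chunkM cB17_12_3_20) (LitT.cov_of_chunkM cB17_12_3_21))))) (LitT.Cov.split_t (LitT.cov_of_chunkM cB17_12_3_22) (LitT.cov_of_chunkM cB17_12_3_23)))))) (LitT.Cov.split_t (LitT.Cov.split_e (LitT.cov_of_chunkM cB17_12_3_24) (LitT.Cov.split_t (LitT.Cov.split_e (LitT.cov_of_chunkM cB17_12_3_25) (LitT.Cov.split_E (LitT.cov_of_chunkM cB17_12_3_26) (LitT.cov_of_chunkM cB17_12_3_27))) (LitT.cov_of_chunkM cB17_12_3_28))) (LitT.cov_of_chunkM cB17_12_3_29))) (LitT.Cov.split_t (LitT.Cov.split_t (LitT.cov_of_chunkM cB17_12_3_30) (LitT.Cov.split_e (LitT.Cov.split_e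 (LitT.Cov.split_t (LitT.cov_of_chunkM cB17_12_3_31) (LitT.Cov.split_x (LitT.Cov.split_x (LitT.cov_of_chunkM cB17_12_3_32) (LitT.Cov.split_e (LitT.Cov.split_E (LitT.cov_of_chunkM cB17_12_3_33) (LitT.cov_of_chunkM cB17_12_3_34)) (LitT.cov_of_chunkM cB17_12_3_35))) (LitT.Cov.split_e (LitT.cov_of_chunkM cB17_12_3_36) (LitT.Cov.split_x (LitT.cov_of_chunkM cB17_12_3_37) (LitT.cov_of_chunkM cB17_12_3_38))))) (LitT.cov_of_chunkM cB17_12_3_39)) (LitT.cov_of_chunkM cB17_12_3_40))) (LitT.Cov.split_t (LitT.Cov.split_e (LitT.Cov.split_e (LitT.Cov.split_x (LitT.Cov.split_t (LitT.Cov.split_E (LitT.cov_of_chunkM cB17_12_3_41) (LitT.Cov.split_e (LitT.Cov.split_x (LitT.cov_of_chunkM cB17_12_3_42) (LitT.cov_of_chunkM cB17_12_3_43)) (LitT.Cov.split_x (LitT.cov_of_chunkM cB17_12_3_44) (LitT.Cov.split_E (LitT.cov_of_chunkM cB17_12_3_45) (LitT.cov_of_chunkM cB17_12_3_46))))) (LitT.cov_of_chunkM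 cB17_12_3_47)) (LitT.Cov.split_t (LitT.Cov.split_E (LitT.cov_of_chunkM cB17_12_3_48) (LitT.Cov.split_x (LitT.Cov.split_E (LitT.cov_of_chunkM cB17_12_3_49) (LitT.cov_of_chunkM cB17_12_3_50)) (LitT.cov_of_chunkM cB17_12_3_51))) (LitT.cov_of_chunkM cB17_12_3_52))) (LitT.Cov.split_x (LitT.cov_of_chunkM cB17_12_3_53) (LitT.Cov.split_t (LitT.Cov.split_e (LitT.Cov.split_x (LitT.Cov.split_E (LitT.cov_of_chunkM cB17_12_3_54) (LitT.Cov.split_t (LitT.cov_of_chunkM cB17_12_3_55) (LitT.Cov.split_E (LitT.cov_of_chunkM cB17_12_3_56) (LitT.cov_of_chunkM cB17_12_3_57)))) (LitT.cov_of_chunkM cB17_12_3_58)) (LitT.Cov.split_x (LitT.cov_of_chunkM cB17_12_3_59) (LitT.Cov.split_t (LitT.cov_of_chunkM cB17_12_3_60) (LitT.cov_of_chunkM cB17_12_3_61)))) (LitT.Cov.split_E (LitT.cov_of_chunkM cB17_12_3_62) (LitT.Cov.split_x (LitT.cov_of_chunkM cB17_12_3_63) (LitT.cov_of_chunkM cB17_12_3_64)))))) (LitT.Cov.split_x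 (LitT.cov_of_chunkM cB17_12_3_65) (LitT.Cov.split_e (LitT.Cov.split_t (LitT.cov_of_chunkM cB17_12_3_66) (LitT.Cov.split_e (LitT.Cov.split_x (LitT.cov_of_chunkM cB17_12_3_67) (LitT.Cov.split_E (LitT.cov_of_chunkM cB17_12_3_68) (LitT.Cov.split_E (LitT.Cov.split_t (LitT.Cov.split_e (LitT.cov_of_chunkM cB17_12_3_69) (LitT.cov_of_chunkM cB17_12_3_70)) (LitT.cov_of_chunkM cB17_12_3_71)) (LitT.cov_of_chunkM cB17_12_3_72)))) (LitT.Cov.split_x (LitT.cov_of_chunkM cB17_12_3_73) (LitT.Cov.split_t (LitT.cov_of_chunkM cB17_12_3_74) (LitT.Cov.split_E (LitT.cov_of_chunkM cB17_12_3_75) (LitT.cov_of_chunkM cB17_12_3_76)))))) (LitT.cov_of_chunkM cB17_12_3_77)))) (LitT.cov_of_chunkM cB17_12_3_78))))))))))), (LitT.cov_of_chunkM cB17_12_1_0), (LitT.cov_of_chunkM cB17_12_2_0), (LitT.cov_of_chunkM cB17_12_0_0)⟩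

end Vale.Agent.helper4.Q4
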