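import Vale.Agent.helper4.Q4TreeM
import Vale.Agent.helper4.Q4G.PB17_6

/-!
Checks for pairs of intervals of second moments.
-/

set_option maxRecDepth 100000
set_option linter.unusedVariables false

namespace Vale.Agent.helper4.Q4

theorem cB17_6_3_0 : chunkOkM (LB17_6.ctx true true 99 1 1 1 1 1 1 1 1) muQ true true 64 RtB17_6.Cx RtB17_6.CX RtB17_6.Ctp.left RtB17_6.Ce RtB17_6.CTp RtB17_6.CEr 0x41 = true := by decide +kernel

theorem cB17_6_3_1 : chunkOkM (LB17_6.ctx true true 99 1 1 1 1 1 1 1 1) muQ true true 64 RtB17_6.Cx RtB17_6.CX RtB17_6.Ctp.right RtB17_6.Ce.left RtB17_6.CTp RtB17_6.CEr 0x69 = true := by decide +kernel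

theorem cB17_6_3_2 : chunkOkM (LB17_6.ctx true true 244 113 64 5 16 665 121 8 64) muQ true true 64 RtB17_6.Cx RtB17_6.CX RtB17_6.Ctp.right.left RtB17_6.Ce.right RtB17_6.CTp RtB17_6.CEr 0x4949497c064e6fd151182b7f81b7e486f77b2e9f47f6203bccd48f599818eb7f460d6540b86fd12c017e7f828ddf86f78406c597f61a71a9368f577893a57f460d1144777493493493413 = true := by decide +kernel

theorem cB17_6_3_3 : chunkOkM (LB17_6.ctx true true 99 1 1 1 1 1 1 1 1) muQ true true 64 RtB17_6.Cx RtB17_6.CX RtB17_6.Ctp.right.right RtB17_6.Ce.right.left RtB17_6.CTp RtB17_6.CEr 0x69 = true := by decide +kernel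

theorem cB17_6_3_4 : chunkOkM (LB17_6.ctx true true 247 57 32 5 16 693 1089 8 64) muQ true true 64 RtB17_6.Cx RtB17_6.CX RtB17_6.Ctp.right.right.left.left RtB17_6.Ce.right.right.left.left.left RtB17_6.CTp RtB17_6.CEr 0x0497c64016fdf6b4ae6f81ec1836f757533e67f61685e3098f550d498c9dbd6fd11a958a7f88db215f797369a77f61e648cad8f573b79e87f460d7353ba4b6fde6e9df6f822c9746f759774a97f6176134e18f550d473 = true := by decide +kernel

theorem cB17_6_3_5 : chunkOkM (LB17_6.ctx true true 251 59 32 5 16 693 1133 8 64) muQ true true 64 RtB17_6.Cx RtB17_6.CX RtB17_6.Ctp.right.right.left.left.left RtB17_6.Ce.right.right.left.left.right RtB17_6.CTp RtB17_6.CEr 0x495c32206fddba1de6f8885225f744c70857f61e89f3fc8f51009bb198f460d73b3ec6fdfc80dc6f855ff75f7af1aed87f61d6a37d38f5b7eee5c7f460d7d7dbe6fd10ab05c7f8d7a30187f620fbe1fb8f540d7204caa57f8cf09b30e8f67daeb98a29f5105da4963caf440d347 = true := by decide +kernel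

theorem cB17_6_3_6 : chunkOkM (LB17_6.ctx true true 251 59 32 5 16 721 2277 8 64) muQ true true 64 RtB17_6.Cx RtB17_6.CX RtB17_6.Ctp.right.right.left.left.right RtB17_6.Ce.right.right.left.left.right RtB17_6.CTp RtB17_6.CEr 0x104d7cce8f04bac56936fdbd042b6f85f466ee7f612cc767d8f540d5eca4a6fdef2dd66f835f115f7795eaf67f61b613a4e8f548a15ef7f460d3dd3466fdb96a5f6f812b9776f768775dc7f6187ab3048f550d413f440f7f8fb811157f61dc52b658f530d7347797d6fdb6eba46f86b3b50e7f613c3f0a28f540d47 = true := by decide +kernel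

theorem cB17_6_3_7 : chunkOkM (LB17_6.ctx true true 222 15 8 5 16 189 275 8 64) muQ true true 64 RtB17_6.Cx RtB17_6.CX RtB17_6.Ctp.right.right.left.right RtB17_6.Ce.right.right.left.left RtB17_6.CTp RtB17_6.CEr 0x914a026fd105ed2a7f8b02c31198e6ed2b8947f540d = true := by decide +kernel

theorem cB17_6_3_8 : chunkOkM (LB17_6.ctx true true 255 121 64 5 16 721 1177 8 64) muQ true true 64 RtB17_6.Cx RtB17_6.CX RtB17_6.Ctp.right.right.left.left RtB17_6.Ce.right.right.left.right RtB17_6.CTp RtB17_6.CEr 0x40fae96fdad66e46f83bfa4f72ff70c77f623e9404e8f52439d6b58f460d5974949614d3a6fdfbd9e86f8da1693c7f61e6e1a168f5953d6377f450d7757dcf46fde3a3616f8a19115f71e94e9d28f625877f858f510b9b3a28f460d44937c568b6fd10fb6137f8101bfe188f6222b4e328f540d7b2ce46fd9994726f85a7ab9e7f6174edefd8f540d60fc086fddf72806f8a1c92287f61e8131188f56a940e17f450d347d24a0c6f84b1cd22e8f6788bd6ad8f581e62fd58f440d34 = true := by decide +kernel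

theorem cB17_6_3_9 : chunkOkM (LB17_6.ctx true true 248 59 32 5 16 749 1177 8 64) muQ true true 64 RtB17_6.Cx RtB17_6.CX RtB17_6.Ctp.right.right.left.right.left RtB17_6.Ce.right.right.left.right.left RtB17_6.CTp RtB17_6.CEr 0x26705b6fd12595f17f8942b5a37f6188366758f540dde41e077f05b105bc16fd8728cc6f83c7c11d7f614fd5b1d8f540d39966a76fd993add6f8eea2b957f6e1d40fa7f540d14220e798f05b37a32f496fd9afad06f87a1df967f6d11f2cf7f540db50e4c6fd10458a07f8366c2a37f6114424e78f540d347 = true := by decide +kernel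

theorem cB17_6_3_10 : chunkOkM (LB17_6.ctx true true 262 115 64 5 16 1533 2365 8 64) muQ true true 64 RtB17_6.Cx RtB17_6.CX RtB17_6.Ctp.right.right.left.right.right RtB17_6.Ce.right.right.left.right.left RtB17_6.CTp RtB17_6.CEr 0x11069cb528d6fd88b8226f8fc7dc9e7f6db2054c7f540d97a85937ed32b3c9d78f620dd7d24f57ed3bcc516f816c67f3e8f69d04ed37f540d37e890916fd182e766f810059db08f69d267487f540d473047 = true := by decide +kernel

theorem cB17_6_3_11 : chunkOkM (LB17_6.ctx true true 242 29 16 5 16 749 1221 8 64) muQ true true 64 RtB17_6.Cx.left RtB17_6.CX RtB17_6.Ctp.right.right.left.right.left RtB17_6.Ce.right.right.left.right.right RtB17_6.CTp RtB17_6.CEr 0xbac6ae6fde40e936f8cdcebb17f618ded7028f540d79b6d16fd112a1597f83afdc8e7f61330ab798f540d70f8a96fde658cd6f884eeaeb7f6192bce288f540d34 = true := by decide +kernel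

theorem cB17_6_3_12 : chunkOkM (LB17_6.ctx true true 262 115 64 5 16 1533 2409 8 64) muQ true true 64 RtB17_6.Cx.left.left RtB17_6.CX RtB17_6.Ctp.right.right.left.right.right RtB17_6.Ce.right.right.left.right.right.left RtB17_6.CTp RtB17_6.CEr 0xf8f0be07ed3f20e62b8f632e64367f530d6b9a36f7ed51d939a28f620d703315dfa48f06b74c58fa377ed3307596f81a849ac38f6b3fcea37f540d697b26efaa7ed7517756f81279e75c8f6aa9a84e7f540ddf089da7ed2d892f0f8f65e1c64a7f530dd326eb57ed89bdb86f8144dab748f6b1aad027f540d3743 = true := by decide +kernel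

theorem cB17_6_3_13 : chunkOkM (LB17_6.ctx true true 245 59 32 5 16 385 1199 8 64) muQ true true 64 RtB17_6.Cx.left.right RtB17_6.CX RtB17_6.Ctp.right.right.left.right.right RtB17_6.Ce.right.right.left.right.right.left RtB17_6.CTp RtB17_6.CEr 0x9fe8bb6fdb6c0cd6f810b13d358f6db4d95c7f540d = true := by decide +kernel

theorem cB17_6_3_14 : chunkOkM (LB17_6.ctx true true 262 115 64 5 16 1561 2453 8 64) muQ true true 64 RtB17_6.Cx.left.left RtB17_6.CX RtB17_6.Ctp.right.right.left.right.right RtB17_6.Ce.right.right.left.right.right.right RtB17_6.CTp RtB17_6.CEr 0x60e6ed57ed525e8d6f867c75fde8f630d217dc8b6e97ed4b3b98d68f620dd6d75ae7ed268e2c238f672f35f77f530d333ce722f8f06b74bede656fd153de4bc8f6c661bbe7f530d3 = true := by decide +kernel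

theorem cB17_6_3_15 : chunkOkM (LB17_6.ctx true true 258 119 64 5 16 777 2453 8 64) muQ true true 64 RtB17_6.Cx.left.right RtB17_6.CX RtB17_6.Ctp.right.right.left.right.right RtB17_6.Ce.right.right.left.right.right.right RtB17_6.CTp RtB17_6.CEr 0xd25d0877f05b92b85a67ed45a3cb6f8179be53f8f698cf1d67f540d7bafb4c6fdc17ca06f817cb907f8f6a7426b27f540d4200ce96fd8570086f845920767f611c9c55b8f540d3 = true := by decide +kernel

end Vale.Agent.helper4.Q4
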