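import Vale.Agent.helper4.Q4TreeM
import Vale.Agent.helper4.Q4G.PB17_6

/-!
Checks for pairs of intervals of second moments.
-/

set_option maxRecDepth 100000
set_option linter.unusedVariables false

namespace Vale.Agent.helper4.Q4

theorem cB17_6_3_16 : chunkOkM (LB17_6.ctx true true 256 63 32 5 16 1477 2409 8 64) muQ true true 64 RtB17_6.Cx.right RtB17_6.CX RtB17_6.Ctp.right.right.left.right RtB17_6.Ce.right.right.left.right.right RtB17_6.CTp RtB17_6.CEr 0x83df616fdf3e6ea6f8b75e7c17f612379cfd8f540d29aae46fd927a1b6f8d2c58c47f61c86331c8f521329e37f450d2ef4846fdb0c2ce6f8111a7d3c8f61c71c0248f540d7496ace636fd1066c9f7f8ed4cdce7f6209d2a3b8f56eaf7e67f450d731089b9348f05b4977a9b26fd323bf86f860021777f6174d1ee28f540d8c24a96fdc8934f6f88a865487f61d78fcca8f59da5ce77f450d338498d6fdac32646f8a2f34e17f61bf5c76f8f540d47343 = true := by decide +kernel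

theorem cB17_6_3_17 : chunkOkM (LB17_6.ctx true true 258 115 64 5 16 791 2453 8 64) muQ true true 64 RtB17_6.Cx RtB17_6.CX RtB17_6.Ctp.right.right.right RtB17_6.Ce.right.right.left RtB17_6.CTp RtB17_6.CEr 0x0111011f31016d8f06b0130387e348f06b21766253d17ed1d01be6f8f65ed54337f230d437b965bdb7f02b4371141143 = true := by decide +kernel

theorem cB17_6_3_18 : chunkOkM (LB17_6.ctx true true 99 1 1 1 1 1 1 1 1) muQ true true 64 RtB17_6.Cx RtB17_6.CX RtB17_6.Ctp.right.right.left.left RtB17_6.Ce.right.right.right RtB17_6.CTp RtB17_6.CEr 0x59 = true := by decide +kernel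

theorem cB17_6_3_19 : chunkOkM (LB17_6.ctx true true 259 63 32 5 16 1505 2497 8 64) muQ true true 64 RtB17_6.Cx RtB17_6.CX RtB17_6.Ctp.right.right.left.right.left RtB17_6.Ce.right.right.right.left.left RtB17_6.CTp RtB17_6.CEr 0x5164b56fdbfe7bf6f886cdb74f8f662df930f59f510f91a3bafaf450d19fd466fdb0c6be6f8e7d01507f61e4cc2e48f5c1a77257f450d2aa08c6fd9e55a16f883ad6487f6196b04cf8f567a67d57f450d5603036fdbe60cd6f8624bb277f61ac9e6008f5a983bd67f450d347d6ba26f818d698588f61fdae29a8f530d7bdaf076f8d2a743678f5200a368f19f430d34597 = true := by decide +kernel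

theorem cB17_6_3_20 : chunkOkM (LB17_6.ctx true true 258 119 64 5 16 777 2497 8 64) muQ true true 64 RtB17_6.Cx.left RtB17_6.CX RtB17_6.Ctp.right.right.left.right.right RtB17_6.Ce.right.right.right.left.left RtB17_6.CTp RtB17_6.CEr 0x1a47077d8f05be4de046fd3c08f96f87282bfb7f61032e94b8f540dfc326b57ed92ec886f8f4a77327f6db5a7c57f540dac735837ed163d476a8f6a36945b7f530d7415cc02328f05b34597 = true := by decide +kernel

theorem cB17_6_3_21 : chunkOkM (LB17_6.ctx true true 256 63 32 5 16 1533 2541 8 64) muQ true true 64 RtB17_6.Cx.right RtB17_6.CX RtB17_6.Ctp.right.right.left.right.right RtB17_6.Ce.right.right.right.left.left RtB17_6.CTp RtB17_6.CEr 0x9631d06fd737d0f6f8852d7537f6145c36738f540d13cd036fd7605e96f894dc6287f61a37ecd88f540d7598c66fdb026fc6f896b961b7f61bd6ddd88f5b7c701f7f450d328b3816fda601446f8d7936de7f61b6be2628f52dc57b67f450d418c0b19d8f05b73d178456fd628a926f864ca5217f611a503d48f540d2aefa76fd9cc6a06f8827a7a87f616f986f48f540d34 = true := by decide +kernel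

theorem cB17_6_3_22 : chunkOkM (LB17_6.ctx true true 243 31 16 5 16 777 1309 8 64) muQ true true 64 RtB17_6.Cx RtB17_6.CX RtB17_6.Ctp.right.right.left.right RtB17_6.Ce.right.right.right.left.right RtB17_6.CTp RtB17_6.CEr 0x1ec34a048f05b538fc06fdbe270b6f87fd82727f61810c97e8f540d43afbb6fdc71e766f8412745f71d51cfea8f6249c842d8f550d34597593 = true := by decide +kernel

theorem cB17_6_3_23 : chunkOkM (LB17_6.ctx true true 99 1 1 1 1 1 1 1 1) muQ true true 64 RtB17_6.Cx RtB17_6.CX RtB17_6.Ctp.right.right.left.right RtB17_6.Ce.right.right.right.right RtB17_6.CTp RtB17_6.CEr 0x59 = true := by decide +kernel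

theorem cB17_6_3_24 : chunkOkM (LB17_6.ctx true true 263 119 64 5 16 1589 2497 8 64) muQ true true 64 RtB17_6.Cx.left RtB17_6.CX RtB17_6.Ctp.right.right.right.left.left RtB17_6.Ce.right.right.right.left.left.left RtB17_6.CTp RtB17_6.CEr 0xd8296f67f02babede317ed1f34201b8f6862060f7f530d360d8ffb8f06b5a991cef8f06b3704f05b9f7ed3a82566f84267ef558f630d743216c0693c7ed56984f82e18ec288f68130ff57f240d42177 = true := by decide +kernel

theorem cB17_6_3_25 : chunkOkM (LB17_6.ctx true true 262 119 64 5 16 1589 2541 8 64) muQ true true 64 RtB17_6.Cx.left RtB17_6.CX RtB17_6.Ctp.right.right.right.left.left RtB17_6.Ce.right.right.right.left.left.right RtB17_6.CTp RtB17_6.CEr 0x37f7fc4c8f06b217251e494a8f06b166fe52d8f02b743216646fd3be8616f82ed916bb8f67df9b397f540d3942f4f7ed444e2f6f83932ad0a8f64856e0a7f540dad19fca7ed181e29c38f6ad276bf7f530d346973217 = true := by decide +kernel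

theorem cB17_6_3_26 : chunkOkM (LB17_6.ctx true true 99 1 1 1 1 1 1 1 1) muQ true true 64 RtB17_6.Cx.left RtB17_6.CX RtB17_6.Ctp.right.right.right.left.right RtB17_6.Ce.right.right.right.left.left RtB17_6.CTp RtB17_6.CEr 0x01 = true := by decide +kernel

theorem cB17_6_3_27 : chunkOkM (LB17_6.ctx true true 252 61 32 5 16 805 2541 8 64) muQ true true 64 RtB17_6.Cx.right RtB17_6.CX RtB17_6.Ctp.right.right.right.left RtB17_6.Ce.right.right.right.left.left RtB17_6.CTp RtB17_6.CEr 0x112abe1ab08f06b696f0db86fd49b1b76f8a085cc37f6dcb80f57f540d763f716fd367cb16f894db8d57f6e1e48bc7f540d473043 = true := by decide +kernel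

theorem cB17_6_3_28 : chunkOkM (LB17_6.ctx true true 273 479 256 5 16 805 5115 8 64) muQ true true 64 RtB17_6.Cx.left RtB17_6.CX RtB17_6.Ctp.right.right.right.left RtB17_6.Ce.right.right.right.left.right RtB17_6.CTp RtB17_6.CEr 0x2121210132a5fd178f06b5933217217421742174 = true := by decide +kernel

theorem cB17_6_3_29 : chunkOkM (LB17_6.ctx true true 263 123 64 5 16 1617 2585 8 64) muQ true true 64 RtB17_6.Cx.right RtB17_6.CX RtB17_6.Ctp.right.right.right.left.left RtB17_6.Ce.right.right.right.left.right.left RtB17_6.CTp RtB17_6.CEr 0x7591cf6fd5d82ed6f8d84082e7f6112975648f540d4280476fd2a23556f815ac679f8f6b9c87257f540d418f34788f06b72f2a1898f06b37a0d61617f05b290676c68f06b22b7aba7ed2d60a36f826f1957c8f675919787f540d3743e42326fd6497616f8d9b244c7f6fa790e87f540d37 = true := by decide +kernel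

end Vale.Agent.helper4.Q4
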