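import Vale.Agent.helper4.Q4TreeM
import Vale.Agent.helper4.Q4G.PB17_6

/-!
Checks for pairs of intervals of second moments.
-/

set_option maxRecDepth 100000
set_option linter.unusedVariables false

namespace Vale.Agent.helper4.Q4

theorem cB17_6_3_30 : chunkOkM (LB17_6.ctx true true 258 123 64 5 16 805 2629 8 64) muQ true true 64 RtB17_6.Cx.right RtB17_6.CX RtB17_6.Ctp.right.right.right.left.left RtB17_6.Ce.right.right.right.left.right.right RtB17_6.CTp RtB17_6.CEr 0x6f72ce6fde3d42177f6f1010cf7f530dd35d496fd4a0fb16f86785a8e7f61554b6c18f540d3417ecf6f816caae2f8f6e80c6e07f530d673deec7ed1787d4388f6a7e47477f530d46975937 = true := by decide +kernel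

theorem cB17_6_3_31 : chunkOkM (LB17_6.ctx true true 263 123 64 5 16 1645 2629 8 64) muQ true true 64 RtB17_6.Cx.right RtB17_6.CX RtB17_6.Ctp.right.right.right.left.right RtB17_6.Ce.right.right.right.left.right RtB17_6.CTp RtB17_6.CEr 0x8d7295fd1093416f8cce1b2f7f6c39ad797f540d011128bd0f8f02b464203f58f06b32172cd2590d8f06b19a0c58f8f02b7437efd50c57f02b4 = true := by decide +kernel

theorem cB17_6_3_32 : chunkOkM (LB17_6.ctx true true 99 1 1 1 1 1 1 1 1) muQ true true 64 RtB17_6.Cx.left RtB17_6.CX RtB17_6.Ctp.right.right.right.left RtB17_6.Ce.right.right.right.right RtB17_6.CTp RtB17_6.CEr 0x21 = true := by decide +kernel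

theorem cB17_6_3_33 : chunkOkM (LB17_6.ctx true true 246 63 32 5 16 399 1331 8 64) muQ true true 64 RtB17_6.Cx.right RtB17_6.CX RtB17_6.Ctp.right.right.right.left.left RtB17_6.Ce.right.right.right.right.left RtB17_6.CTp RtB17_6.CEr 0x595451a06f81261c4b38f6142275308f530d5974 = true := by decide +kernel

theorem cB17_6_3_34 : chunkOkM (LB17_6.ctx true true 259 127 64 5 16 833 2673 8 64) muQ true true 64 RtB17_6.Cx.right RtB17_6.CX RtB17_6.Ctp.right.right.right.left.right RtB17_6.Ce.right.right.right.right.left.left RtB17_6.CTp RtB17_6.CEr 0x10c6d5268f02b3623ce6fd29bd566f8251d42fe8f6c8b97577f540d2d257a37ed170f466f8166a6ac48f6b364b0f7f524e96db7f250d7adfedb97f05bbaf09e6eda54a75f818b379c48f6a31e2907f510d545b7f250d7432128738247ed141945dc8f69fccce97f570b6ec17f240d42177 = true := by decide +kernel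

theorem cB17_6_3_35 : chunkOkM (LB17_6.ctx true true 259 127 64 5 16 833 2717 8 64) muQ true true 64 RtB17_6.Cx.right RtB17_6.CX RtB17_6.Ctp.right.right.right.left.right RtB17_6.Ce.right.right.right.right.left.right RtB17_6.CTp RtB17_6.CEr 0x15737537ed1c3236e28f6a4ea9c47f538bfbc57f240d217236a0b6fd7855aa97f6b3a93907f55e4fc737f240d49c628117f610130ecf8f520d6973217 = true := by decide +kernel

theorem cB17_6_3_36 : chunkOkM (LB17_6.ctx true true 233 31 16 5 16 203 693 8 64) muQ true true 64 RtB17_6.Cx.right RtB17_6.CX RtB17_6.Ctp.right.right.right.left RtB17_6.Ce.right.right.right.right.right RtB17_6.CTp RtB17_6.CEr 0x115fa46fdff465c27f6e466e797f588e36fa7f240d = true := by decide +kernel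

theorem cB17_6_3_37 : chunkOkM (LB17_6.ctx true true 99 1 1 1 1 1 1 1 1) muQ true true 64 RtB17_6.Cx RtB17_6.CX RtB17_6.Ctp.right.right.right.right RtB17_6.Ce.right.right.right RtB17_6.CTp RtB17_6.CEr 0x01 = true := by decide +kernel

theorem cB17_6_2_0 : chunkOkM (LB17_6.ctx false true 99 1 1 1 1 1 1 1 1) muQ false true 64 RtB17_6.Cx RtB17_6.CX RtB17_6.Ctn RtB17_6.Ce RtB17_6.CTp RtB17_6.CEr 0x49 = true := by decide +kernel

theorem cB17_6_1_0 : chunkOkM (LB17_6.ctx true false 99 1 1 1 1 1 1 1 1) muQ true false 64 RtB17_6.Cx RtB17_6.CX RtB17_6.Ctp.left RtB17_6.Ce RtB17_6.CTn RtB17_6.CEr 0x41 = true := by decide +kernel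

theorem cB17_6_1_1 : chunkOkM (LB17_6.ctx true false 99 1 1 1 1 1 1 1 1) muQ true false 64 RtB17_6.Cx RtB17_6.CX RtB17_6.Ctp.right RtB17_6.Ce.left RtB17_6.CTn RtB17_6.CEr 0x69 = true := by decide +kernel

theorem cB17_6_1_2 : chunkOkM (LB17_6.ctx true false 241 113 64 5 16 665 77 4 128) muQ true false 64 RtB17_6.Cx RtB17_6.CX RtB17_6.Ctp.right.left RtB17_6.Ce.right RtB17_6.CTn RtB17_6.CEr.left 0x4949497b4b0117f6215bf17f8f554a57f57f430d78fe95088e61b1535858f547d04577f430d4777493493493413 = true := by decide +kernel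

theorem cB17_6_1_3 : chunkOkM (LB17_6.ctx true false 99 1 1 1 1 1 1 1 1) muQ true false 64 RtB17_6.Cx RtB17_6.CX RtB17_6.Ctp.right.right RtB17_6.Ce.right.left RtB17_6.CTn RtB17_6.CEr.left 0x69 = true := by decide +kernel

theorem cB17_6_1_4 : chunkOkM (LB17_6.ctx true false 234 31 16 5 16 357 561 4 128) muQ true false 64 RtB17_6.Cx RtB17_6.CX RtB17_6.Ctp.right.right.left RtB17_6.Ce.right.right.left.left RtB17_6.CTn RtB17_6.CEr.left 0x2d8d5a87fdebf8886f8d59d0d07f61037407c8f540d07fea3647f6175bdc628f520d7498bec2c47f62184d20b8f57f847817f430d7304976c48397f61b3944ba8f52c653b67f430d7343 = true := by decide +kernel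

theorem cB17_6_1_5 : chunkOkM (LB17_6.ctx true false 235 31 16 5 16 357 605 4 128) muQ true false 64 RtB17_6.Cx RtB17_6.CX RtB17_6.Ctp.right.right.left.left RtB17_6.Ce.right.right.left.right RtB17_6.CTn RtB17_6.CEr.left 0xf320266f624a676298f521f06e188f430d8803a667f61d03f04d8f511a0c1d88f430d9f8b5df7f61e55c8298f520d74c0487af8f670d625a28f5665a43bf8f430d34 = true := by decide +kernel

theorem cB17_6_1_6 : chunkOkM (LB17_6.ctx true false 247 59 32 5 16 749 1177 4 128) muQ true false 64 RtB17_6.Cx.left RtB17_6.CX RtB17_6.Ctp.right.right.left.right.left RtB17_6.Ce.right.right.left.right.left RtB17_6.CTn RtB17_6.CEr.left 0x1183146f884249897f613e36c408f530d2de63aa7fdf6175965c4d2a7027f61141965b8f540d15c956788f05b378db37e87f05b26785d87fd72f97465cc43b2a6f8c3e824e7f6fe927937f550d74 = true := by decide +kernel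

theorem cB17_6_1_7 : chunkOkM (LB17_6.ctx true false 257 115 64 5 16 777 2365 4 128) muQ true false 64 RtB17_6.Cx.left RtB17_6.CX RtB17_6.Ctp.right.right.left.right.right RtB17_6.Ce.right.right.left.right.left RtB17_6.CTn RtB17_6.CEr.left 0x6921b05c52ca0757fd2d9cfe65c14bc608b8f6c1d09a17f540d26386677fd10693be75c10a85db7f82db2899c8f67f93eab7f550d73e1b1ca7fdbaa3bc65c49e01d6f81ba018a78f68a9e5d07f550d43704 = true := by decide +kernel

theorem cB17_6_1_8 : chunkOkM (LB17_6.ctx true false 231 31 16 5 16 189 583 4 128) muQ true false 64 RtB17_6.Cx.right RtB17_6.CX RtB17_6.Ctp.right.right.left.right RtB17_6.Ce.right.right.left.right.left RtB17_6.CTn RtB17_6.CEr.left 0xead21ce7f61cc2a28a8f520d = true := by decide +kernel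

theorem cB17_6_1_9 : chunkOkM (LB17_6.ctx true false 234 29 16 5 16 371 605 4 128) muQ true false 64 RtB17_6.Cx.left RtB17_6.CX RtB17_6.Ctp.right.right.left.right.left RtB17_6.Ce.right.right.left.right.right RtB17_6.CTn RtB17_6.CEr.left 0xfde8c76f899ffd1c7f6176c54d58f530d = true := by decide +kernel

theorem cB17_6_1_10 : chunkOkM (LB17_6.ctx true false 257 115 64 5 16 777 2409 4 128) muQ true false 64 RtB17_6.Cx.left RtB17_6.CX RtB17_6.Ctp.right.right.left.right.right RtB17_6.Ce.right.right.left.right.right.left RtB17_6.CTn RtB17_6.CEr.left 0x2fc3a417fdaaa60a65c123267b7f810e91ad28f6f4f06ef7f550d107805c75c19c32277f85b403bb38f630d48c348a7fd14a71e275c504dc0048f630d72a373977fd10a50b975c10bc4587f8370e590d8f640d429ed67c7fded6f8865ce5c1276f811979ef28f6ca285b77f550d159e16f7fda8530965c1e0472a7f819653beb8f6be6cf0d7f550d2a152567fdf7642a65ce814276f8312b069c8f6713fdaa7f550d7437 = true := by decide +kernel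

theorem cB17_6_1_11 : chunkOkM (LB17_6.ctx true false 257 115 64 5 16 777 2453 4 128) muQ true false 64 RtB17_6.Cx.left RtB17_6.CX RtB17_6.Ctp.right.right.left.right.right RtB17_6.Ce.right.right.left.right.right.right RtB17_6.CTn RtB17_6.CEr.left 0x246d1477fdd66db265cd864336f81455082d8f6bc7b4047f550d23ed3d37fdc1ad6065cd930d46f820d0511d8f6bd9dffb7f550d41ac23aa7fd943a2f65c447b76c7f6124852118f540d32471fd77fd10e2dae75cf5d7646f8569b70d28f640d28841517fdefdb6565ceb57536f83957fcf58f636eb44a7f550d553914e7fd125900e75c331ec3338f630d7412836c775c1b024d418f6d686c527f530d37 = true := by decide +kernel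

end Vale.Agent.helper4.Q4
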