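import Vale.Agent.helper4.Q4TreeM
import Vale.Agent.helper4.Q4G.PB17_6

/-!
Checks for pairs of intervals of second moments.
-/

set_option maxRecDepth 100000
set_option linter.unusedVariables false

namespace Vale.Agent.helper4.Q4

theorem cB17_6_1_12 : chunkOkM (LB17_6.ctx true false 242 31 16 5 16 749 1221 4 128) muQ true false 64 RtB17_6.Cx.right RtB17_6.CX RtB17_6.Ctp.right.right.left.right RtB17_6.Ce.right.right.left.right.right RtB17_6.CTn RtB17_6.CEr.left 0xcc8a50f7f6140687918f520d15cbd6008f05b54cd7ed7f61cf688448f5c0b65557f430d38e936c47f619f5db628f51fc648f7f430d43 = true := by decide +kernel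

theorem cB17_6_1_13 : chunkOkM (LB17_6.ctx true false 257 115 64 5 16 791 2453 4 128) muQ true false 64 RtB17_6.Cx RtB17_6.CX RtB17_6.Ctp.right.right.right RtB17_6.Ce.right.right.left RtB17_6.CTn RtB17_6.CEr.left 0x01110146824dc7fde3b5c665c3d3fd53c8f630d01430cb437fd16ab18375c46e861698f61e46b7f7f240d2172c1a8637fd143288875c108235e7f819f818e08f6731a52b7f250d43756b09e37fd183316775c1a1c5877f6f83794d7f240d4371141143 = true := by decide +kernel

theorem cB17_6_1_14 : chunkOkM (LB17_6.ctx true false 99 1 1 1 1 1 1 1 1) muQ true false 64 RtB17_6.Cx RtB17_6.CX RtB17_6.Ctp.right.right.left.left RtB17_6.Ce.right.right.right RtB17_6.CTn RtB17_6.CEr.left 0x59 = true := by decide +kernel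

theorem cB17_6_1_15 : chunkOkM (LB17_6.ctx true false 251 59 32 5 16 777 2497 4 128) muQ true false 64 RtB17_6.Cx.left RtB17_6.CX RtB17_6.Ctp.right.right.left.right RtB17_6.Ce.right.right.right.left.left RtB17_6.CTn RtB17_6.CEr.left 0x18f4396d8f05b18097447fde5f1dc65c65542ac7f6109d0f058f540d2589c207fdd2e3d365ce3db996f810c242aa8f6d6cfe407f550d418757e2d8f05b34597593 = true := by decide +kernel

theorem cB17_6_1_16 : chunkOkM (LB17_6.ctx true false 251 63 32 5 16 777 1265 4 128) muQ true false 64 RtB17_6.Cx.right RtB17_6.CX RtB17_6.Ctp.right.right.left.right RtB17_6.Ce.right.right.right.left.left RtB17_6.CTn RtB17_6.CEr.left 0x1290ebf88f05b69796997f61bc0ce628f5296364f7f430d35960f66f87a5fab27f6171f51768f530d7d28da477f6192c6a028f520d17e601b7fd131a6465c9207f26f81164a17c8f61515b9d78f550d74a56be5bfa9f51c234c8637af420d3d7d3b47f61c2693638f5596a70d7f430dce393f3d8f51ee02c0ed9f420d343 = true := by decide +kernel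

theorem cB17_6_1_17 : chunkOkM (LB17_6.ctx true false 238 31 16 5 16 385 1309 4 128) muQ true false 64 RtB17_6.Cx RtB17_6.CX RtB17_6.Ctp.right.right.left.right RtB17_6.Ce.right.right.right.left.right RtB17_6.CTn RtB17_6.CEr.left 0x20a481f18f05ba43cd0a7f61c67929a8f520d4597593 = true := by decide +kernel

theorem cB17_6_1_18 : chunkOkM (LB17_6.ctx true false 99 1 1 1 1 1 1 1 1) muQ true false 64 RtB17_6.Cx RtB17_6.CX RtB17_6.Ctp.right.right.left.right RtB17_6.Ce.right.right.right.right RtB17_6.CTn RtB17_6.CEr.left 0x59 = true := by decide +kernel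

theorem cB17_6_1_19 : chunkOkM (LB17_6.ctx true false 258 119 64 5 16 805 2497 4 128) muQ true false 64 RtB17_6.Cx.left RtB17_6.CX RtB17_6.Ctp.right.right.right.left.left RtB17_6.Ce.right.right.right.left.left.left RtB17_6.CTn RtB17_6.CEr.left 0x2109fec75cd0c54ef7f6121893e68f230d1d084f6fd114693375c1c30c707f8275e7f9c8f69bdd5717f550d2308fe57fd1080b9e75ceb1edb6f83d01e6c78f640d711b05c12db9e17fd12c316075c166b5297f84d59fbce8f640d7432126c6f877fd12234dc75cf2c6546f82c447aa98f6868787f7f250d42177 = true := by decide +kernel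

theorem cB17_6_1_20 : chunkOkM (LB17_6.ctx true false 258 119 64 5 16 805 2541 4 128) muQ true false 64 RtB17_6.Cx.left RtB17_6.CX RtB17_6.Ctp.right.right.right.left.left RtB17_6.Ce.right.right.right.left.left.right RtB17_6.CTn RtB17_6.CEr.left 0x1f0ccc37fd173a4d875c1462bd67f849e022c38f640d21727738ef7fd125849b75c10dcfee7f84ccb18118f640d5a8763f7fdcbfac065cb36c116f829c476a68f6c3e58207f250d7423271a37fdc809a665ce6b3a16f83534c96a8f66153f147f550d216f3257fdf42e9965cf2ecd06f825ae12208f682c81c07f550d46973217 = true := by decide +kernel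

theorem cB17_6_1_21 : chunkOkM (LB17_6.ctx true false 99 1 1 1 1 1 1 1 1) muQ true false 64 RtB17_6.Cx.left RtB17_6.CX RtB17_6.Ctp.right.right.right.left.right RtB17_6.Ce.right.right.right.left.left RtB17_6.CTn RtB17_6.CEr.left 0x01 = true := by decide +kernel

theorem cB17_6_1_22 : chunkOkM (LB17_6.ctx true false 248 61 32 5 16 805 1265 4 128) muQ true false 64 RtB17_6.Cx.right RtB17_6.CX RtB17_6.Ctp.right.right.right.left RtB17_6.Ce.right.right.right.left.left RtB17_6.CTn RtB17_6.CEr.left 0x1169ee10916fdd8928265c174f86f7f832885a2a8f640d1cf17527fd9fdbd165cbf32f66f89659fe17f6ea0374a7f550d37043 = true := by decide +kernel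

theorem cB17_6_1_23 : chunkOkM (LB17_6.ctx true false 273 479 256 5 16 805 5115 4 128) muQ true false 64 RtB17_6.Cx.left RtB17_6.CX RtB17_6.Ctp.right.right.right.left RtB17_6.Ce.right.right.right.left.right RtB17_6.CTn RtB17_6.CEr.left 0x2121210147576927fdc39cbd174c40f41eba8f630d5933217421742174217 = true := by decide +kernel

theorem cB17_6_1_24 : chunkOkM (LB17_6.ctx true false 262 123 64 5 16 1617 2585 4 128) muQ true false 64 RtB17_6.Cx.right RtB17_6.CX RtB17_6.Ctp.right.right.right.left.left RtB17_6.Ce.right.right.right.left.right.left RtB17_6.CTn RtB17_6.CEr.left 0xd95b5a6fd1ab7c765c817f8a6f8fc9b5f47f611a063888f550d3162a3f7fdc5212c65c53eb606f823dcfb648f6af0cf5a7f550d1f4902c75c4d8c783d8f620dee484665c73b491938f64a542c27f530d378e66b765c12974ed7f8432fe8448f67b2ef5e7f540d2014dd37fde8d45965cda74056f833ba47a58f63d204a77f550d743508b5e7fde07fcf65c64ceec67f61311a5a88f540d37 = true := by decide +kernel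

theorem cB17_6_1_25 : chunkOkM (LB17_6.ctx true false 258 123 64 5 16 805 2629 4 128) muQ true false 64 RtB17_6.Cx.right RtB17_6.CX RtB17_6.Ctp.right.right.right.left.left RtB17_6.Ce.right.right.right.left.right.right RtB17_6.CTn RtB17_6.CEr.left 0x18bac3d7fd7f671b65ccc453c6f8918f3be7f61058dc4f8f550d518a9437f6164da4948f520d321ab4d37fdca4c0065cf2c76a6f814424d298f6de35d327f550d11fc9f37fdf6e47d65ce332f66f82b03ee0c8f6a39fae47f550d46975937 = true := by decide +kernel

theorem cB17_6_1_26 : chunkOkM (LB17_6.ctx true false 258 123 64 5 16 819 2629 4 128) muQ true false 64 RtB17_6.Cx.right RtB17_6.CX RtB17_6.Ctp.right.right.right.left.right RtB17_6.Ce.right.right.right.left.right RtB17_6.CTn RtB17_6.CEr.left 0x13f374c7fdf1d20e65c29145c6f8371ba9998f640d011cd164d7fde557a665ce141aa6f82ec3c3fa8f64d9f1517f543880487f260d21732d12857fde64f7665cedfec56f82ff3f6398f640d14892dc75ce102706f874f364ea8f6d5847407f240d74375a62ed6fd1855e8875cf8de7f6f815d7d7c7f6128ea2de8f250d4 = true := by decide +kernel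

theorem cB17_6_1_27 : chunkOkM (LB17_6.ctx true false 99 1 1 1 1 1 1 1 1) muQ true false 64 RtB17_6.Cx.left RtB17_6.CX RtB17_6.Ctp.right.right.right.left RtB17_6.Ce.right.right.right.right RtB17_6.CTn RtB17_6.CEr.left 0x21 = true := by decide +kernel

theorem cB17_6_1_28 : chunkOkM (LB17_6.ctx true false 245 63 32 5 16 399 1331 4 128) muQ true false 64 RtB17_6.Cx.right RtB17_6.CX RtB17_6.Ctp.right.right.right.left.left RtB17_6.Ce.right.right.right.right.left RtB17_6.CTn RtB17_6.CEr.left 0x592d6ed057fd25a34165c10972c658f614a3d6608f540d5974 = true := by decide +kernel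

theorem cB17_6_1_29 : chunkOkM (LB17_6.ctx true false 258 127 64 5 16 833 2673 4 128) muQ true false 64 RtB17_6.Cx.right RtB17_6.CX RtB17_6.Ctp.right.right.right.left.right RtB17_6.Ce.right.right.right.right.left.left RtB17_6.CTn RtB17_6.CEr.left 0x3dd7a347fd162acd975cd7d3b947f615bdea168f240d1077a5b7fd12a7c0375c1ccd4d3a8f6be822287f540d17e8d037fdec7f1365cdc2b7e6f81d38f64e8f6afaf9fb7f52c9070f7f260d7128dd6c75c3b4f6c5d8f6c353e897f530d1a3694e7fde82f6465ccdeca06f821bd01c58f6833dae97f5827f1e6f260d743211ff59097fd105320a75cf4bc9f6f81686e3448f694143df7f5897cde77f260d42177 = true := by decide +kernel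

end Vale.Agent.helper4.Q4
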