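import Vale.Agent.helper4.Q4TreeM
import Vale.Agent.helper4.Q4G.PB17_6_0
import Vale.Agent.helper4.Q4G.PB17_6_1
import Vale.Agent.helper4.Q4G.PB17_6_2
import Vale.Agent.helper4.Q4G.PB17_6_3
import Vale.Agent.helper4.Q4G.PB17_6_4

/-!
Checks for pairs of intervals of second moments.
-/

set_option maxRecDepth 100000
set_option linter.unusedVariables false

namespace Vale.Agent.helper4.Q4

theorem covB17_6 : LB17_6.Full muQ.val RtB17_6 := ⟨(LitT.Cov.split_t (LitT.cov_of_chunkM cB17_6_3_0) (LitT.Cov.split_e (LitT.cov_of_chunkM cB17_6_3_1) (LitT.Cov.split_t (LitT.cov_of_chunkM cB17_6_3_2) (LitT.Cov.split_e (LitT.cov_of_chunkM cB17_6_3_3) (LitT.Cov.split_e (LitT.Cov.split_t (LitT.Cov.split_e (LitT.Cov.split_t (LitT.Cov.split_e (LitT.cov_of_chunkM cB17_6_3_4) (LitT.Cov.split_t (LitT.cov_of_chunkM cB17_6_3_5) (LitT.cov_of_chunkM cB17_6_3_6))) (LitT.cov_of_chunkM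 cB17_6_3_7)) (LitT.Cov.split_t (LitT.cov_of_chunkM cB17_6_3_8) (LitT.Cov.split_e (LitT.Cov.split_t (LitT.cov_of_chunkM cB17_6_3_9) (LitT.cov_of_chunkM cB17_6_3_10)) (LitT.Cov.split_x (LitT.Cov.split_t (LitT.cov_of_chunkM cB17_6_3_11) (LitT.Cov.split_e (LitT.Cov.split_x (LitT.cov_of_chunkM cB17_6_3_12) (LitT.cov_of_chunkM cB17_6_3_13)) (LitT.Cov.split_x (LitT.cov_of_chunkM cB17_6_3_14) (LitT.cov_of_chunkM cB17_6_3_15)))) (LitT.cov_of_chunkM cB17_6_3_16))))) (LitT.cov_of_chunkM cB17_6_3_17)) (LitT.Cov.split_t (LitT.Cov.split_t (LitT.cov_of_chunkM cB17_6_3_18) (LitT.Cov.split_e (LitT.Cov.split_e (LitT.Cov.split_t (LitT.cov_of_chunkM cB17_6_3_19) (LitT.Cov.split_x (LitT.cov_of_chunkM cB17_6_3_20) (LitT.cov_of_chunkM cB17_6_3_21))) (LitT.cov_of_chunkM cB17_6_3_22)) (LitT.cov_of_chunkM cB17_6_3_23))) (LitT.Cov.split_t (LitT.Cov.split_e (LitT.Cov.split_e (LitT.Cov.split_x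 (LitT.Cov.split_t (LitT.Cov.split_e (LitT.cov_of_chunkM cB17_6_3_24) (LitT.cov_of_chunkM cB17_6_3_25)) (LitT.cov_of_chunkM cB17_6_3_26)) (LitT.cov_of_chunkM cB17_6_3_27)) (LitT.Cov.split_x (LitT.cov_of_chunkM cB17_6_3_28) (LitT.Cov.split_t (LitT.Cov.split_e (LitT.cov_of_chunkM cB17_6_3_29) (LitT.cov_of_chunkM cB17_6_3_30)) (LitT.cov_of_chunkM cB17_6_3_31)))) (LitT.Cov.split_x (LitT.cov_of_chunkM cB17_6_3_32) (LitT.Cov.split_e (LitT.Cov.split_t (LitT.cov_of_chunkM cB17_6_3_33) (LitT.Cov.split_e (LitT.cov_of_chunkM cB17_6_3_34) (LitT.cov_of_chunkM cB17_6_3_35))) (LitT.cov_of_chunkM cB17_6_3_36)))) (LitT.cov_of_chunkM cB17_6_3_37)))))))), (LitT.Cov.split_t (LitT.cov_of_chunkM cB17_6_1_0) (LitT.Cov.split_e (LitT.cov_of_chunkM cB17_6_1_1) (LitT.Cov.split_E (LitT.Cov.split_t (LitT.cov_of_chunkM cB17_6_1_2) (LitT.Cov.split_e (LitT.cov_of_chunkM cB17_6_1_3)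 (LitT.Cov.split_e (LitT.Cov.split_t (LitT.Cov.split_e (LitT.cov_of_chunkM cB17_6_1_4) (LitT.Cov.split_t (LitT.cov_of_chunkM cB17_6_1_5) (LitT.Cov.split_e (LitT.Cov.split_x (LitT.Cov.split_t (LitT.cov_of_chunkM cB17_6_1_6) (LitT.cov_of_chunkM cB17_6_1_7)) (LitT.cov_of_chunkM cB17_6_1_8)) (LitT.Cov.split_x (LitT.Cov.split_t (LitT.cov_of_chunkM cB17_6_1_9) (LitT.Cov.split_e (LitT.cov_of_chunkM cB17_6_1_10) (LitT.cov_of_chunkM cB17_6_1_11))) (LitT.cov_of_chunkM cB17_6_1_12))))) (LitT.cov_of_chunkM cB17_6_1_13)) (LitT.Cov.split_t (LitT.Cov.split_t (LitT.cov_of_chunkM cB17_6_1_14) (LitT.Cov.split_e (LitT.Cov.split_e (LitT.Cov.split_x (LitT.cov_of_chunkM cB17_6_1_15) (LitT.cov_of_chunkM cB17_6_1_16)) (LitT.cov_of_chunkM cB17_6_1_17)) (LitT.cov_of_chunkM cB17_6_1_18))) (LitT.Cov.split_t (LitT.Cov.split_e (LitT.Cov.split_e (LitT.Cov.split_x (LitT.Cov.split_t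 (LitT.Cov.split_e (LitT.cov_of_chunkM cB17_6_1_19) (LitT.cov_of_chunkM cB17_6_1_20)) (LitT.cov_of_chunkM cB17_6_1_21)) (LitT.cov_of_chunkM cB17_6_1_22)) (LitT.Cov.split_x (LitT.cov_of_chunkM cB17_6_1_23) (LitT.Cov.split_t (LitT.Cov.split_e (LitT.cov_of_chunkM cB17_6_1_24) (LitT.cov_of_chunkM cB17_6_1_25)) (LitT.cov_of_chunkM cB17_6_1_26)))) (LitT.Cov.split_x (LitT.cov_of_chunkM cB17_6_1_27) (LitT.Cov.split_e (LitT.Cov.split_t (LitT.cov_of_chunkM cB17_6_1_28) (LitT.Cov.split_e (LitT.cov_of_chunkM cB17_6_1_29) (LitT.cov_of_chunkM cB17_6_1_30))) (LitT.cov_of_chunkM cB17_6_1_31)))) (LitT.cov_of_chunkM cB17_6_1_32)))))) (LitT.cov_of_chunkM cB17_6_1_33)))), (LitT.cov_of_chunkM cB17_6_2_0), (LitT.cov_of_chunkM cB17_6_0_0)⟩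

end Vale.Agent.helper4.Q4
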