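import Vale.Agent.helper4.Q4TreeM
import Vale.Agent.helper4.Q4G.PB17_7

/-!
Checks for pairs of intervals of second moments.
-/

set_option maxRecDepth 100000
set_option linter.unusedVariables false

namespace Vale.Agent.helper4.Q4

theorem cB17_7_3_0 : chunkOkM (LB17_7.ctx true true 92 1 1 1 1 1 1 1 1) muQ true true 64 RtB17_7.Cx RtB17_7.CX RtB17_7.Ctp.left RtB17_7.Ce RtB17_7.CTp RtB17_7.CEr 0x41 = true := by decide +kernel

theorem cB17_7_3_1 : chunkOkM (LB17_7.ctx true true 92 1 1 1 1 1 1 1 1) muQ true true 64 RtB17_7.Cx RtB17_7.CX RtB17_7.Ctp.right RtB17_7.Ce.left RtB17_7.CTp RtB17_7.CEr 0x69 = true := by decide +kernel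

theorem cB17_7_3_2 : chunkOkM (LB17_7.ctx true true 238 113 64 7 16 665 121 16 32) muQ true true 64 RtB17_7.Cx RtB17_7.CX RtB17_7.Ctp.right.left RtB17_7.Ce.right RtB17_7.CTp RtB17_7.CEr 0x4949499fcda5ed171c056e8de850587d6345e1a07e56c78f5f450d6466596dd110d9037d811111f6d7e9754f57d62a6b1f2f8d5ceccf5f460d1144777493493493413 = true := by decide +kernel

theorem cB17_7_3_3 : chunkOkM (LB17_7.ctx true true 92 1 1 1 1 1 1 1 1) muQ true true 64 RtB17_7.Cx RtB17_7.CX RtB17_7.Ctp.right.right RtB17_7.Ce.right.left RtB17_7.CTp RtB17_7.CEr 0x69 = true := by decide +kernel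

theorem cB17_7_3_4 : chunkOkM (LB17_7.ctx true true 245 57 32 7 16 693 2189 16 32) muQ true true 64 RtB17_7.Cx RtB17_7.CX RtB17_7.Ctp.right.right.left.left RtB17_7.Ce.right.right.left.left.left RtB17_7.CTp RtB17_7.CEr 0xab6cab6dde6bea46d813d86fd98d62005bc718d540d496dc7956dd13423d77d83d9a68d7d61ff280ac8d540d4994544c97cd17e6cfa7d82883fd6e62824ee6e8d5e24a3f6e450da7102c6dd18cfd857d86b560057d6293cd7a98d598cb0a6e450d473696c51746dd11b91e77d813b0c96d724a4ba47d620d22ce18d550d3473 = true := by decide +kernel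

theorem cB17_7_3_5 : chunkOkM (LB17_7.ctx true true 248 59 32 7 16 693 2233 16 32) muQ true true 64 RtB17_7.Cx RtB17_7.CX RtB17_7.Ctp.right.right.left.left.left RtB17_7.Ce.right.right.left.left.right RtB17_7.CTp RtB17_7.CEr 0x4968ccf56dd1297f767d8f370a86e6325ad7cc8d51199c387e450d493597935aae6dd1951fa67d8cb080987d62bc3650c8d510a3fa37e450d59e94c6dd1144bdb7d8b21ef5d7341f48258d641d8019b8d5d843256e460d4743bb56dd1594cfc7d8127adb07e62f895b088d540d71d88bd67d8155d3d178e6cd800df759d51abfb4f119e440d347 = true := by decide +kernel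

theorem cB17_7_3_6 : chunkOkM (LB17_7.ctx true true 242 59 32 7 16 721 1111 16 32) muQ true true 64 RtB17_7.Cx.left RtB17_7.CX RtB17_7.Ctp.right.right.left.left.right RtB17_7.Ce.right.right.left.left.right.left RtB17_7.CTp RtB17_7.CEr 0xc0e60a6dd5d27516d81455febd8d530d54e8aa6dd10c5c247d8c9ccf087d626a5a8f48d540d84e2e96dda377b16d875c5d637d61eea12e88d540d73 = true := by decide +kernel

theorem cB17_7_3_7 : chunkOkM (LB17_7.ctx true true 249 59 32 7 16 1421 2277 16 32) muQ true true 64 RtB17_7.Cx.left RtB17_7.CX RtB17_7.Ctp.right.right.left.left.right.left RtB17_7.Ce.right.right.left.left.right.right RtB17_7.CTp RtB17_7.CEr 0x37bc956ddf5152b6d88d278087d627bdf0138d540d79c8e977cd14029ce7d82e76796e6270f65208d5b122356e450d34cd4ac6dde5cc4c6d8c6d365c7d626f2b2bf8d540d4d05cc66dddfff026d814e90e77e62b12397b8d540d7 = true := by decide +kernel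

theorem cB17_7_3_8 : chunkOkM (LB17_7.ctx true true 255 115 64 7 16 1449 2277 16 32) muQ true true 64 RtB17_7.Cx.left RtB17_7.CX RtB17_7.Ctp.right.right.left.left.right.right RtB17_7.Ce.right.right.left.left.right.right RtB17_7.CTp RtB17_7.CEr 0x5da1486dd132c4eb7d8b864e317d6220911448d540d8e3a24e7cd3ebe9d6d8154b7a27e6227ce2f28d540dd07829c7cd24bbd5d81d3b326e61ad7eb558d540dc9b25a67cd4cf3476d89523736e620a12d958d540d37d12d116dd575535d83658e727d618a206ff8d540d9643b287cd16c815d85d23ba6e61d78a6508d540d347 = true := by decide +kernel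

theorem cB17_7_3_9 : chunkOkM (LB17_7.ctx true true 229 31 16 7 16 357 561 16 32) muQ true true 64 RtB17_7.Cx.right RtB17_7.CX RtB17_7.Ctp.right.right.left.left.right RtB17_7.Ce.right.right.left.left.right RtB17_7.CTp RtB17_7.CEr 0x1cebe16f04b = true := by decide +kernel

theorem cB17_7_3_10 : chunkOkM (LB17_7.ctx true true 259 113 64 7 16 1477 2277 32 32) muQ true true 64 RtB17_7.Cx RtB17_7.CX RtB17_7.Ctp.right.right.left.right RtB17_7.Ce.right.right.left.left RtB17_7.CTp RtB17_7.CEr 0x1111696910af4c37dd39847263c20d698f1979e7cd17b31487d81836e1ee8d530d14ca64e7ddaf6d7c63c1840d0b7e61b8782918d540d57317514f06c47369473114 = true := by decide +kernel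

theorem cB17_7_3_11 : chunkOkM (LB17_7.ctx true true 224 15 8 7 16 343 583 16 32) muQ true true 64 RtB17_7.Cx RtB17_7.CX RtB17_7.Ctp.right.right.left.left.left RtB17_7.Ce.right.right.left.right.left RtB17_7.CTp RtB17_7.CEr 0xf61ec96d878feecaf8d6c29b6bfb8d5cfc16207e440d = true := by decide +kernel

theorem cB17_7_3_12 : chunkOkM (LB17_7.ctx true true 252 59 32 7 16 1421 2321 16 32) muQ true true 64 RtB17_7.Cx.left RtB17_7.CX RtB17_7.Ctp.right.right.left.left.right RtB17_7.Ce.right.right.left.right.left RtB17_7.CTp RtB17_7.CEr 0x7146836dd18000907d8d3456417d62c013c198d540d59348d8b5b7cd1084ffe7d86b47a06e624ab27cd8d540d48ee996dded63dc6d8bfb13477d622aba3658d540d4c166486dd596b466d8e7dbc76e62390e58b8d540d7540f5e6dd10c35977d8b9647e6e62e667f008d5db6a916e450d97c685e7cd1a062dc7d86744fc6e628e5f3508d5a298296e450d1c4a73f7d818d294e78e6f64830d479d522dfe09ff9e440d3459734 = true := by decide +kernel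

theorem cB17_7_3_13 : chunkOkM (LB17_7.ctx true true 252 121 64 7 16 721 2365 16 32) muQ true true 64 RtB17_7.Cx.right RtB17_7.CX RtB17_7.Ctp.right.right.left.left.right RtB17_7.Ce.right.right.left.right.left RtB17_7.CTp RtB17_7.CEr 0x4949757363f7cd16e724b7d8113897a7e6301f44ff8d5c593596e450d7a1ae46dd18c3d787d81b1758e7e631eb3b6c8d5ebdc636e450d477617fb66dd1498c377d82f69bdc78d63b871f728d517cce0d7e450d4493 = true := by decide +kernel

theorem cB17_7_3_14 : chunkOkM (LB17_7.ctx true true 225 31 16 7 16 175 605 16 32) muQ true true 64 RtB17_7.Cx RtB17_7.CX RtB17_7.Ctp.right.right.left.left RtB17_7.Ce.right.right.left.right.right RtB17_7.CTp RtB17_7.CEr 0x3fa1386dd10647797d847251e6e639e1fd478d53af472c7e450d597 = true := by decide +kernel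

theorem cB17_7_3_15 : chunkOkM (LB17_7.ctx true true 262 115 64 7 16 1477 4609 32 32) muQ true true 64 RtB17_7.Cx.left.left RtB17_7.CX RtB17_7.Ctp.right.right.left.right.left.left RtB17_7.Ce.right.right.left.right.left.left.left RtB17_7.CTp RtB17_7.CEr 0xc4a9a787cdf62e05d8de5cbd07d61abaf34b8d540d9979d597cd16d8db07d83282826e61823fa9c8d540d1516f617dde17c7763cd0b4bd6e6188a4f108d540d51bad8c6f05b1ddc74c7dd1f385de98d520d550e49ab7cd16f4b5c7d89be2a36e61c2562b98d540d17ce9a07dd103f9cd73ce40b4d6e61cf6d7a28d540d5437 = true := by decide +kernel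

theorem cB17_7_3_16 : chunkOkM (LB17_7.ctx true true 272 227 128 7 16 2961 4653 32 32) muQ true true 64 RtB17_7.Cx.left.left.left RtB17_7.CX RtB17_7.Ctp.right.right.left.right.left.left RtB17_7.Ce.right.right.left.right.left.left.right RtB17_7.CTp RtB17_7.CEr 0x67cd2947cd177bfa7d8c867b8bc6e61ae19e948d540d18b8dac28cd62efc963c1f1f3497e61eecfadf8d540d5593597b02d9687cd1b9a87748c81c23c7708d530d13ae9217ddff18dc63c11dae6d7e61a750ff28d540d54dc85f647cd32bd996d82430ee6d8d530d3 = true := by decide +kernel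

theorem cB17_7_3_17 : chunkOkM (LB17_7.ctx true true 262 115 64 7 16 1477 4653 32 32) muQ true true 64 RtB17_7.Cx.left.left.right RtB17_7.CX RtB17_7.Ctp.right.right.left.right.left.left RtB17_7.Ce.right.right.left.right.left.left.right RtB17_7.CTp RtB17_7.CEr 0x18462e6f05b15c17e27dd44b71163c118fae67e61dcea80e8d540d5d60719a7cd5b4695d816560d198d530d4b3603617cd1322c96d8a47e796e61e2a95a18d540d3 = true := by decide +kernel

theorem cB17_7_3_18 : chunkOkM (LB17_7.ctx true true 249 57 32 7 16 749 2299 32 32) muQ true true 64 RtB17_7.Cx.left.left RtB17_7.CX RtB17_7.Ctp.right.right.left.right.left.right RtB17_7.Ce.right.right.left.right.left.left.left RtB17_7.CTp RtB17_7.CEr 0x124605f01c173d54f7dde5d90a63ce64ffc77d530d5 = true := by decide +kernel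

end Vale.Agent.helper4.Q4
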