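import Vale.Agent.helper4.Q4TreeM
import Vale.Agent.helper4.Q4G.PB17_7

/-!
Checks for pairs of intervals of second moments.
-/

set_option maxRecDepth 100000
set_option linter.unusedVariables false

namespace Vale.Agent.helper4.Q4

theorem cB17_7_3_139 : chunkOkM (LB17_7.ctx true true 286 483 256 7 16 6237 10043 32 32) muQ true true 64 RtB17_7.Cx.right.left.left RtB17_7.CX RtB17_7.Ctp.right.right.left.right.right.right.right RtB17_7.Ce.right.right.right.left.left.right.left.left RtB17_7.CTp RtB17_7.CEr 0x1510aa6f05b15b42607ddfe398663c13b985d7e61cf6c77d8d540d5198cdc6f05b117879f7ddc7e04d63c23c7e917e61df504b18d540d535226f4d7cd100ef4a88c8136f5877e61a2e50628d540d108f31da8cdac2ab163c1aa755018d530d55919a4466f05b1178d64f8cd76176bc72c1b816de68d530d5593459737 = true := by decide +kernel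

theorem cB17_7_3_140 : chunkOkM (LB17_7.ctx true true 305 1935 1024 7 16 12537 20163 32 32) muQ true true 64 RtB17_7.Cx.right.left.left RtB17_7.CX RtB17_7.Ctp.right.right.left.right.right.right.right RtB17_7.Ce.right.right.right.left.left.right.left.right RtB17_7.CTp RtB17_7.CEr 0x19dc616f05bdab69037cd9865a563c218d5467e61b6364ce8d540d5c6c9ec07cd135702072c1d0c603a8d530d359591677a16f05b109592338cd87de75472c19676997e530d5597593459759345975937 = true := by decide +kernel

theorem cB17_7_3_141 : chunkOkM (LB17_7.ctx true true 256 123 64 7 16 1561 2519 16 32) muQ true true 64 RtB17_7.Cx.right.left.right RtB17_7.CX RtB17_7.Ctp.right.right.left.right.right.right RtB17_7.Ce.right.right.right.left.left.right.left RtB17_7.CTp RtB17_7.CEr 0x8d0e3307cdfb6ad53cc6c5eb6e61aaee21b8d540d9f6446d7cd3f55a26d8a951bc6e61ee85f478d540d3 = true := by decide +kernel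

theorem cB17_7_3_142 : chunkOkM (LB17_7.ctx true true 256 123 64 7 16 1561 2541 16 32) muQ true true 64 RtB17_7.Cx.right.left RtB17_7.CX RtB17_7.Ctp.right.right.left.right.right.right RtB17_7.Ce.right.right.right.left.left.right.right RtB17_7.CTp RtB17_7.CEr 0x945cd617cd2e1bf53cb5b88a6e61d4811268d540d8cf53af7cd72c1166d81ebb1477e6243af98b8d540d3a69a2c07cd9d0343c22f3a2608d530d7 = true := by decide +kernel

theorem cB17_7_3_143 : chunkOkM (LB17_7.ctx true true 250 63 32 7 16 1533 2541 16 32) muQ true true 64 RtB17_7.Cx.right.right RtB17_7.CX RtB17_7.Ctp.right.right.left.right.right RtB17_7.Ce.right.right.right.left.left.right RtB17_7.CTp RtB17_7.CEr 0x5365496dd6da1b96d8b4a120c7d620cabffb8d540d8462286ddd653a46d829bb6b528d6249714ec8d540d410cf5c07d814724ec7e62d456d648d530d2363886dd14827117d84dfc7b6e629c214a98d51030c607e450d34141b5ddfc7dfd6d8f1cfd86e62475d90a8d540d41e26d47cd1449af27d8b30edd6e629740c0f8d59846716e450d343 = true := by decide +kernel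

theorem cB17_7_3_144 : chunkOkM (LB17_7.ctx true true 252 127 64 7 16 777 2585 16 32) muQ true true 64 RtB17_7.Cx RtB17_7.CX RtB17_7.Ctp.right.right.left.right RtB17_7.Ce.right.right.right.left.right RtB17_7.CTp RtB17_7.CEr 0x7e00356dde010826d820b7b5928d62deeb1728d540d4820966ddcd1c656d817892957e62a7538c18d540d2086f377cdb92ed76d8161a6ce7e626a41cf78d540d6093f6a7cd66dc476d8129b6f77e624a356858d540d7499f1846dd4071c16d8a162f5b7d6224a55a58d540d737782b6dd1399a687d88a65e5d72661d2498d638110fd08d550d34597593 = true := by decide +kernel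

theorem cB17_7_3_145 : chunkOkM (LB17_7.ctx true true 92 1 1 1 1 1 1 1 1) muQ true true 64 RtB17_7.Cx RtB17_7.CX RtB17_7.Ctp.right.right.left.right RtB17_7.Ce.right.right.right.right RtB17_7.CTp RtB17_7.CEr 0x59 = true := by decide +kernel

theorem cB17_7_3_146 : chunkOkM (LB17_7.ctx true true 319 3711 2048 7 16 12649 39435 32 64) muQ true true 64 RtB17_7.Cx.left.left RtB17_7.CX RtB17_7.Ctp.right.right.right.left.left RtB17_7.Ce.right.right.right.left.left.left RtB17_7.CTp RtB17_7.CEr 0x21210153093817cd515e8237c8a088d247e64486b56e240d85238fc7dd57f760f73cc6833527e630d5422c187dd2bd5d4173cac674bb7e6b1389997d240d65696969012cf33cd8cd1a67b12082c40d3c017f630d56974693697469769342176933342174217 = true := by decide +kernel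

theorem cB17_7_3_147 : chunkOkM (LB17_7.ctx true true 273 235 128 7 16 1575 4939 32 64) muQ true true 64 RtB17_7.Cx.left.right.left RtB17_7.CX RtB17_7.Ctp.right.right.right.left.left.left.left RtB17_7.Ce.right.right.right.left.left.left.left.left RtB17_7.CTp RtB17_7.CEr 0x73be07c7cd75221c6d856261aa7e630d57dcd177dd36135a573ccbc4aa67e630d5d534c97dd2b0555e73ca28e8977e630d63c26ef958cd2cfd92a73cbe88f107e630d58bce987dd2a4121c73c8677c907e630d675 = true := by decide +kernel

theorem cB17_7_3_148 : chunkOkM (LB17_7.ctx true true 286 467 256 7 16 3157 9911 32 64) muQ true true 64 RtB17_7.Cx.left.right.left RtB17_7.CX RtB17_7.Ctp.right.right.right.left.left.left.left RtB17_7.Ce.right.right.right.left.left.left.left.right RtB17_7.CTp RtB17_7.CEr 0x761eb727cd9b03ef47c8894666d7e630d738044ec8cd3f9370573cbca66dc7e630d5c679b37dd26927c273ca543a137e630d6569a9fc866f06b1313fa538cd17827d9682c2352ba728e630d546976937 = true := by decide +kernel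

theorem cB17_7_3_149 : chunkOkM (LB17_7.ctx true true 273 235 128 7 16 1589 4961 32 64) muQ true true 64 RtB17_7.Cx.left.right.left RtB17_7.CX RtB17_7.Ctp.right.right.right.left.left.left.right RtB17_7.Ce.right.right.right.left.left.left.left RtB17_7.CTp RtB17_7.CEr 0x708aadd7cd6f500d6d860ca2ff7e630d41905c3f76bae7dd2b72dce73c165d9fee8e630d644498b398cd375869073c9846ee27e61b1fd96e240d4a574e47dd28eabc573cb05ee6b7e612acb56e240d674e1a8c87dd46a605473c1c4b23ba8e630d6249a8a7dd3046c4573cb1baef67e630d645 = true := by decide +kernel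

theorem cB17_7_3_150 : chunkOkM (LB17_7.ctx true true 260 119 64 7 16 791 2475 32 64) muQ true true 64 RtB17_7.Cx.left.right.right RtB17_7.CX RtB17_7.Ctp.right.right.right.left.left.left RtB17_7.Ce.right.right.right.left.left.left.left RtB17_7.CTp RtB17_7.CEr 0x40909497cd1030a407d8dee3e1cc8d630d292805c5f0ba807dd252d91673ca7bbfc5c8d630d65 = true := by decide +kernel

end Vale.Agent.helper4.Q4
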