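import Vale.Agent.helper4.Q4TreeM
import Vale.Agent.helper4.Q4G.PB17_7

/-!
Checks for pairs of intervals of second moments.
-/

set_option maxRecDepth 100000
set_option linter.unusedVariables false

namespace Vale.Agent.helper4.Q4

theorem cB17_7_3_151 : chunkOkM (LB17_7.ctx true true 286 471 256 7 16 3157 9977 32 64) muQ true true 64 RtB17_7.Cx.left.right.left RtB17_7.CX RtB17_7.Ctp.right.right.right.left.left.left.left RtB17_7.Ce.right.right.right.left.left.left.right RtB17_7.CTp RtB17_7.CEr 0x6999baa4a7cd9ce001d7c8b068bbf7e630d1254d52e8cd15aea2073c15a031448e630d66ad1b273cc1914797e620d743585698cd319044473c1175f11c8e630d64691237800a8cd1299c0a73c20cfbebd8e630d4697354697 = true := by decide +kernel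

theorem cB17_7_3_152 : chunkOkM (LB17_7.ctx true true 287 467 256 7 16 3185 4983 32 64) muQ true true 64 RtB17_7.Cx.left.right.left RtB17_7.CX RtB17_7.Ctp.right.right.right.left.left.left.right RtB17_7.Ce.right.right.right.left.left.left.right.left RtB17_7.CTp RtB17_7.CEr 0x7dcc2d17cde45c66c7c8892565b7e630d2de913d7dd2f0822373c732a13e7e630d5cfc4627dd299c5d473c87895c27e630d63b334d1f8cd36ef74873c119489bc8e630d37abb2158cd25b6e0c73cedab5627e630d6179aa4948cd1b6d8fc73c3285c5a8e9e630d321775 = true := by decide +kernel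

theorem cB17_7_3_153 : chunkOkM (LB17_7.ctx true true 286 471 256 7 16 3185 9999 32 64) muQ true true 64 RtB17_7.Cx.left.right.left RtB17_7.CX RtB17_7.Ctp.right.right.right.left.left.left.right RtB17_7.Ce.right.right.right.left.left.left.right.right RtB17_7.CTp RtB17_7.CEr 0xcd8111c7cd91afc927c81422e1e68e630d743d56273cb0eee067e620d5cfafdf7dd2e0053073cd95c6c17e630d669125550fe8cd168b233682c1d3836728e630d469735217 = true := by decide +kernel

theorem cB17_7_3_154 : chunkOkM (LB17_7.ctx true true 273 239 128 7 16 1575 4983 32 64) muQ true true 64 RtB17_7.Cx.left.right.right RtB17_7.CX RtB17_7.Ctp.right.right.right.left.left.left.left RtB17_7.Ce.right.right.right.left.left.left.right.left RtB17_7.CTp RtB17_7.CEr 0x8cbcfcf7cdaeec8f6d827989377e6105d6b128d540d31905c62ca4f06c61fd45527dd1a8a55873c810f01a7e630d455a0277dd1c23d2973cb639b8e7e630d675 = true := by decide +kernel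

theorem cB17_7_3_155 : chunkOkM (LB17_7.ctx true true 286 475 256 7 16 3157 10021 32 64) muQ true true 64 RtB17_7.Cx.left.right.right.left RtB17_7.CX RtB17_7.Ctp.right.right.right.left.left.left.left RtB17_7.Ce.right.right.right.left.left.left.right.right RtB17_7.CTp RtB17_7.CEr 0x859d65f7cd5e6c7b87c8105636d68e630d11c0de4c8cd1166d54f82c14c05fc68e630d697619c71073cf5adfaa7e620d31d682a7dd1c2b8cb73c8cf42327e630d64122645398cd10adb6173c129e726f8e630d52e44aaa8cd36e2bea782cd74f65c7e630d673913d7cd49e3ed62c1210ba728e630d6469735 = true := by decide +kernel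

theorem cB17_7_3_156 : chunkOkM (LB17_7.ctx true true 273 239 128 7 16 1575 5005 32 64) muQ true true 64 RtB17_7.Cx.left.right.right.right RtB17_7.CX RtB17_7.Ctp.right.right.right.left.left.left.left RtB17_7.Ce.right.right.right.left.left.left.right.right RtB17_7.CTp RtB17_7.CEr 0x73f30ca7cd9afc326d83b9e6a27e6f78bbb97d540d2eb2c537dd22c4b2673cab0360f7e630d40445af7dd1992e0573c6048f4a7e6b8ac0477d540d65 = true := by decide +kernel

theorem cB17_7_3_157 : chunkOkM (LB17_7.ctx true true 267 119 64 7 16 1589 5005 32 64) muQ true true 64 RtB17_7.Cx.left.right.right RtB17_7.CX RtB17_7.Ctp.right.right.right.left.left.left.right RtB17_7.Ce.right.right.right.left.left.left.right RtB17_7.CTp RtB17_7.CEr 0x975bad27cd6fc9256d87dba65a7e630d2cd711a7dd2805cce73c9277ee27e630d410e67a7dd1f914e173c83740ba7e630d611d67887dd14eab4473c110b14108e630d45 = true := by decide +kernel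

theorem cB17_7_3_158 : chunkOkM (LB17_7.ctx true true 275 235 128 7 16 1603 5005 32 64) muQ true true 64 RtB17_7.Cx.left.right RtB17_7.CX RtB17_7.Ctp.right.right.right.left.left.right RtB17_7.Ce.right.right.right.left.left.left RtB17_7.CTp RtB17_7.CEr 0x12d5c7098cd1281ff773c5ed8b14129d630d0163dcae57cddbb7576d8c433c96e6167733c7e240d7ab48587dd4d22ab373c7720c207e69e0e9a6e240d716570b7dd358612a73c81a2e2a7e68521476e240d62176e46fae7dd4b6eea473c34ea4967e6f6e68a6e240d4da5bc87dd2a142e973c7c76196e617d52347e240d64537ff8cbf27cd144db6da83ccfbff117d824a74984f9d15aeb220229d050d4 = true := by decide +kernel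

theorem cB17_7_3_159 : chunkOkM (LB17_7.ctx true true 92 1 1 1 1 1 1 1 1) muQ true true 64 RtB17_7.Cx.left.left RtB17_7.CX RtB17_7.Ctp.right.right.right.left.left RtB17_7.Ce.right.right.right.left.left.right RtB17_7.CTp RtB17_7.CEr 0x21 = true := by decide +kernel

theorem cB17_7_3_160 : chunkOkM (LB17_7.ctx true true 92 1 1 1 1 1 1 1 1) muQ true true 64 RtB17_7.Cx.left.right.left RtB17_7.CX RtB17_7.Ctp.right.right.right.left.left.left RtB17_7.Ce.right.right.right.left.left.right RtB17_7.CTp RtB17_7.CEr 0x69 = true := by decide +kernel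

theorem cB17_7_3_161 : chunkOkM (LB17_7.ctx true true 309 1903 1024 7 16 12649 40139 32 32) muQ true true 64 RtB17_7.Cx.left.right.right.left RtB17_7.CX RtB17_7.Ctp.right.right.right.left.left.left.left RtB17_7.Ce.right.right.right.left.left.right.left.left RtB17_7.CTp RtB17_7.CEr 0x69696999dd446f06b19876c908cd1e86e20382c20eed3a7f630d5469769346976934697593 = true := by decide +kernel

theorem cB17_7_3_162 : chunkOkM (LB17_7.ctx true true 290 479 256 7 16 6293 10065 32 64) muQ true true 64 RtB17_7.Cx.left.right.right.right RtB17_7.CX RtB17_7.Ctp.right.right.right.left.left.left.left RtB17_7.Ce.right.right.right.left.left.right.left.left RtB17_7.CTp.left RtB17_7.CEr 0x2df17e708cd1d0596cf82cff804157e630d3057decb8cd181fd5373c142d1da68e630d646547bef8cd1fe121b73cc4901e77e630d2fdef037dd169131673cab9678d7e630d643b3511ed8cd1c6abe6682cbd7f8987e630d2af73aa78cdf5a295d72cc5082297e630d65935972fd112198cd207261573c50fc3d87e614123d738d540d3f0d4b928cd17bae5773c9a3c6f07e6b9465b67d540d643 = true := by decide +kernel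

theorem cB17_7_3_163 : chunkOkM (LB17_7.ctx true true 269 239 128 7 16 1575 5027 32 32) muQ true true 64 RtB17_7.Cx.left.right.right.right RtB17_7.CX RtB17_7.Ctp.right.right.right.left.left.left.left RtB17_7.Ce.right.right.right.left.left.right.left.left RtB17_7.CTp.right RtB17_7.CEr 0x8ad1c767cd82f900c7c81ef81b67e6126bc3e98d540d = true := by decide +kernel

end Vale.Agent.helper4.Q4
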