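import Vale.Agent.helper4.Q4TreeM
import Vale.Agent.helper4.Q4G.PB17_7

/-!
Checks for pairs of intervals of second moments.
-/

set_option maxRecDepth 100000
set_option linter.unusedVariables false

namespace Vale.Agent.helper4.Q4

theorem cB17_7_3_164 : chunkOkM (LB17_7.ctx true true 286 479 256 7 16 3157 10087 32 64) muQ true true 64 RtB17_7.Cx.left.right.right RtB17_7.CX RtB17_7.Ctp.right.right.right.left.left.left.left RtB17_7.Ce.right.right.right.left.left.right.left.right RtB17_7.CTp RtB17_7.CEr 0x691e4e3367cd7a909ce7c8181aa06a8e630d7aca438c8cd45d8a43f82cddc191e7e630d560fa5478cd1d99f68982c1aa0b0a38e630d654697593597 = true := by decide +kernel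

theorem cB17_7_3_165 : chunkOkM (LB17_7.ctx true true 281 239 128 7 16 3185 10065 32 64) muQ true true 64 RtB17_7.Cx.left.right.right RtB17_7.CX RtB17_7.Ctp.right.right.right.left.left.left.right RtB17_7.Ce.right.right.right.left.left.right.left.left RtB17_7.CTp RtB17_7.CEr 0x6f82e4a7cd9d29176d887c1b027e630d86f18437dd44c85d473ce3a74727e630d3f1a3a07dd245343373cbc7866c7e630d66e8095b73cf3abdbe7e620d4bde2da7dd2487c9473c8d34c487e630d6115c71618cd13fec3073c2dbbaf928e630d64c42cc73cbb3867f7e620d12daee17f06b64375 = true := by decide +kernel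

theorem cB17_7_3_166 : chunkOkM (LB17_7.ctx true true 292 951 512 7 16 3185 10109 32 64) muQ true true 64 RtB17_7.Cx.left.right.right RtB17_7.CX RtB17_7.Ctp.right.right.right.left.left.left.right RtB17_7.Ce.right.right.right.left.left.right.left.right RtB17_7.CTp RtB17_7.CEr 0x70611147cd9f5f71c7c89e199557e630d4726f70a8cd2ede24073c8aedb647e630d66c19f37dd2ae88c173cd81f7947e630d610e834228cd1076e6d682c1536ad9e8e630d6975e4639a73cea2d4d07e620d35a342a7dd1dff6a673c13e7bdfa8e630d6435698da6c36f06b10a06a018cd158b17ca82c146ddd1d8e630d569746976937 = true := by decide +kernel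

theorem cB17_7_3_167 : chunkOkM (LB17_7.ctx true true 283 479 256 7 16 3185 10153 32 32) muQ true true 64 RtB17_7.Cx.left.right.right RtB17_7.CX RtB17_7.Ctp.right.right.right.left.left.left RtB17_7.Ce.right.right.right.left.left.right.right RtB17_7.CTp RtB17_7.CEr 0x6979f178b7cd7b7a8b97c8100a3b5b8e630d107903998cd13f1b66982c17bfc0a78e630d102f4cfe8cd122a0c1582c182c6ed68e630d411c3f4e18cd121613173c1563691e8e630d356974697593 = true := by decide +kernel

theorem cB17_7_3_168 : chunkOkM (LB17_7.ctx true true 279 471 256 7 16 1603 5027 32 64) muQ true true 64 RtB17_7.Cx.left.right.left RtB17_7.CX RtB17_7.Ctp.right.right.right.left.left.right RtB17_7.Ce.right.right.right.left.left.right.left RtB17_7.CTp RtB17_7.CEr 0x21fa096067cd5849b5a7c85d327777e614629807e240d012a776acd8cd3322bc373cfba6d427e630d3e669407dd263db4573c749d4507e678cb1a6e240d6352174217 = true := by decide +kernel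

theorem cB17_7_3_169 : chunkOkM (LB17_7.ctx true true 273 239 128 7 16 1617 5049 32 64) muQ true true 64 RtB17_7.Cx.left.right.right RtB17_7.CX RtB17_7.Ctp.right.right.right.left.left.right RtB17_7.Ce.right.right.right.left.left.right.left RtB17_7.CTp RtB17_7.CEr 0xb4e7cb67cd89cb156d844777f4b8d630d13051c37dd2016b3473c68307647e61811eb2669d13de4063069d050d11372627dd1679fb373cf46fafa7e630d413f8c0b8cd350fa3873ca9464907e615521c6e240d408452e7dd2477ad773c8a4c2717e61fdd1b6e240d6734939de57dd435f14f73c10b318a1c9d630d5196bac7dd2a3732b73c608bee8c8d630d645 = true := by decide +kernel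

theorem cB17_7_3_170 : chunkOkM (LB17_7.ctx true true 92 1 1 1 1 1 1 1 1) muQ true true 64 RtB17_7.Cx.left.right.left RtB17_7.CX RtB17_7.Ctp.right.right.right.left.left.right RtB17_7.Ce.right.right.right.left.left.right.right RtB17_7.CTp RtB17_7.CEr 0x21 = true := by decide +kernel

theorem cB17_7_3_171 : chunkOkM (LB17_7.ctx true true 284 475 256 7 16 3213 5071 32 64) muQ true true 64 RtB17_7.Cx.left.right.right RtB17_7.CX RtB17_7.Ctp.right.right.right.left.left.right.left RtB17_7.Ce.right.right.right.left.left.right.right.left RtB17_7.CTp RtB17_7.CEr 0xa472326f06b3357c8c7dd2d7e41273c6a7662b7e630d4c1597d7dd243f24173ca467efc7e630d6575f92e6f06b2eb3a07c8cd445804d73c3cf7614c8e630d4280471c8cd22fcd9273cb51ff6c7e630d652176937 = true := by decide +kernel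

theorem cB17_7_3_172 : chunkOkM (LB17_7.ctx true true 286 479 256 7 16 3213 10197 32 64) muQ true true 64 RtB17_7.Cx.left.right.right RtB17_7.CX RtB17_7.Ctp.right.right.right.left.left.right.left RtB17_7.Ce.right.right.right.left.left.right.right.right RtB17_7.CTp RtB17_7.CEr 0xabe7566f06b106086b58cd17c372673c1c45e3ba8e630d657529973ced934b47e620d5499c2f7dd29e7c7f73c119792218e630d6410972e138cd14f147473c158f39b28e630d69735217 = true := by decide +kernel

theorem cB17_7_3_173 : chunkOkM (LB17_7.ctx true true 277 239 128 7 16 1617 5093 64 64) muQ true true 64 RtB17_7.Cx.left.right.right RtB17_7.CX RtB17_7.Ctp.right.right.right.left.left.right.right RtB17_7.Ce.right.right.right.left.left.right.right RtB17_7.CTp RtB17_7.CEr 0xcae8a76cd5577286d812fb9577e61cc0de17e240d7a9b26a7dd4e5361a73c4d417527e6156aad57e240d55cfcf47dd271e47a73c9aed8cb7e6bfcff16e240d62171945646f02b11659437dd1fa973873c2affabf7e61143ba17e240d545 = true := by decide +kernel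

theorem cB17_7_3_174 : chunkOkM (LB17_7.ctx true true 92 1 1 1 1 1 1 1 1) muQ true true 64 RtB17_7.Cx.left RtB17_7.CX RtB17_7.Ctp.right.right.right.left.right RtB17_7.Ce.right.right.right.left.left RtB17_7.CTp RtB17_7.CEr 0x01 = true := by decide +kernel

theorem cB17_7_3_175 : chunkOkM (LB17_7.ctx true true 237 31 16 7 16 399 1243 32 32) muQ true true 64 RtB17_7.Cx.right RtB17_7.CX RtB17_7.Ctp.right.right.right.left.left RtB17_7.Ce.right.right.right.left.left.left RtB17_7.CTp RtB17_7.CEr 0x010b4be17ddae63ff63c20d5 = true := by decide +kernel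

theorem cB17_7_3_176 : chunkOkM (LB17_7.ctx true true 272 243 128 7 16 1575 5027 32 64) muQ true true 64 RtB17_7.Cx.right.left.left RtB17_7.CX RtB17_7.Ctp.right.right.right.left.left.left.left RtB17_7.Ce.right.right.right.left.left.right.left.left RtB17_7.CTp RtB17_7.CEr 0x6e961687cd8c0a696d81ca34607e616779d7a8d540df4fb4f06c24318a57dd16a3b9c73c2be27df7e6138bb38a8d540d28d7d667dddce43863c566d9b27e6f1cc07d7d540d675 = true := by decide +kernel

end Vale.Agent.helper4.Q4
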