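import Vale.Agent.helper4.Q4TreeM
import Vale.Agent.helper4.Q4G.PB17_7

/-!
Checks for pairs of intervals of second moments.
-/

set_option maxRecDepth 100000
set_option linter.unusedVariables false

namespace Vale.Agent.helper4.Q4

theorem cB17_7_3_177 : chunkOkM (LB17_7.ctx true true 279 241 128 7 16 3157 10109 32 64) muQ true true 64 RtB17_7.Cx.right.left.left.left RtB17_7.CX RtB17_7.Ctp.right.right.right.left.left.left.left RtB17_7.Ce.right.right.right.left.left.right.left.right RtB17_7.CTp RtB17_7.CEr 0x5dd6cad7cdc5f90377c83259bb47e6109dd6488d540d2b2414538cd1a0231673c10092b97e617edd2348d540d2abc35e7dd13a171673c48384327e610fb588c8d540d658b1b2287cdb07611a7c8990f736e61b2ccbc88d540d117962198cdc784e363cc2c9f36e61c04ec9e8d540d31e6260f8cd153aa98f82c1ff101b7e61786e4a88d540d4383f5538cd17394ca73c1f2446e7e618e2f0d58d540d6453 = true := by decide +kernel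

theorem cB17_7_3_178 : chunkOkM (LB17_7.ctx true true 269 243 128 7 16 1575 5049 32 32) muQ true true 64 RtB17_7.Cx.right.left.left.right RtB17_7.CX RtB17_7.Ctp.right.right.right.left.left.left.left RtB17_7.Ce.right.right.right.left.left.right.left.right RtB17_7.CTp RtB17_7.CEr 0x21d14097cd114f9ad7d848074607e6167cc9868d540d1002b8c7dd9edc0863c1496f4b7e615c6e3578d540d5 = true := by decide +kernel

theorem cB17_7_3_179 : chunkOkM (LB17_7.ctx true true 264 121 64 7 16 1589 2519 32 64) muQ true true 64 RtB17_7.Cx.right.left.left RtB17_7.CX RtB17_7.Ctp.right.right.right.left.left.left.right RtB17_7.Ce.right.right.right.left.left.right.left RtB17_7.CTp RtB17_7.CEr 0x4a19bd17cd1138eb67d89804ade7e630d4f26bf77dd2600d7073ca5dc2947e630d46ea2597dd1b90d4c73c96d69167e630d65 = true := by decide +kernel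

theorem cB17_7_3_180 : chunkOkM (LB17_7.ctx true true 252 123 64 7 16 791 2519 16 32) muQ true true 64 RtB17_7.Cx.right.left.right RtB17_7.CX RtB17_7.Ctp.right.right.right.left.left.left RtB17_7.Ce.right.right.right.left.left.right.left RtB17_7.CTp RtB17_7.CEr 0x2e9c4f06c = true := by decide +kernel

theorem cB17_7_3_181 : chunkOkM (LB17_7.ctx true true 305 1927 1024 7 16 6321 20251 32 64) muQ true true 64 RtB17_7.Cx.right.left.left.left RtB17_7.CX RtB17_7.Ctp.right.right.right.left.left.left.left RtB17_7.Ce.right.right.right.left.left.right.right.left RtB17_7.CTp RtB17_7.CEr 0x6473ffd7cdc3ee2da7c822fe6207e614c46ead8d540d482300fe82c1a37ea3a8d520d2ca4d9f88cd14bc088a82c1d4a1d3c8d530d6697593597f8653977cd23bcd86582c136d30078e630d2e5899ef8cd177f01f73c48b487e7e613933b898d540d6694ad67c428cd26421faf82ce52a4857e630d2c3236a88cd15617c8d82c1d2f8be38e630d66974697593745593 = true := by decide +kernel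

theorem cB17_7_3_182 : chunkOkM (LB17_7.ctx true true 276 243 128 7 16 3157 5071 32 64) muQ true true 64 RtB17_7.Cx.right.left.left.right RtB17_7.CX RtB17_7.Ctp.right.right.right.left.left.left.left RtB17_7.Ce.right.right.right.left.left.right.right.left RtB17_7.CTp RtB17_7.CEr 0x82d80697cd9e0901c7c8db709f6e6186c30c68d540d51a3ab37dd240954973c36dd38b7e616c1b91d8d540d40ad7d57dd1981eb573c95e5196e61b8c2e1d8d540d651a512f6f05bfe275247cde3c61b63c233baca7e618f0c6608d540d53 = true := by decide +kernel

theorem cB17_7_3_183 : chunkOkM (LB17_7.ctx true true 308 1951 1024 7 16 12593 40667 32 32) muQ true true 64 RtB17_7.Cx.right.left.left RtB17_7.CX RtB17_7.Ctp.right.right.right.left.left.left.left RtB17_7.Ce.right.right.right.left.left.right.right.right RtB17_7.CTp RtB17_7.CEr 0xad69b237c836110477e613b182a48d530d10309d648cdc3a06063c1b9b6ed58d530d55959591250296f05bf03af187cdad4b30272c1f0c7e47e530d54597593459759345973597 = true := by decide +kernel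

theorem cB17_7_3_184 : chunkOkM (LB17_7.ctx true true 280 241 128 7 16 3185 10153 32 64) muQ true true 64 RtB17_7.Cx.right.left.left.left RtB17_7.CX RtB17_7.Ctp.right.right.right.left.left.left.right RtB17_7.Ce.right.right.right.left.left.right.right.left RtB17_7.CTp RtB17_7.CEr 0x69b25f67cd8bd15197c8428a05a7e6b5948b87d540d49a8db37dd268331573caff7a757e630d38f3c5f7dd1ff162c73cc0350e67e630d6307bde278cd1ed4006082c873949b7e630d3f943b548cd184490e73cd6b136d7e630d6445108dc8cd218b19473c15080f628e630d2693b077dd12fdef273cb1ab4807e630d6435 = true := by decide +kernel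

theorem cB17_7_3_185 : chunkOkM (LB17_7.ctx true true 272 243 128 7 16 1589 5071 32 64) muQ true true 64 RtB17_7.Cx.right.left.left.right RtB17_7.CX RtB17_7.Ctp.right.right.right.left.left.left.right RtB17_7.Ce.right.right.right.left.left.right.right.left RtB17_7.CTp RtB17_7.CEr 0x6d8a01f7cdab5b816d84c3ab957e611eb9f938d540d31905c4421aaf7dd17e2c0873c261ca647e614914a5d8d540d65 = true := by decide +kernel

theorem cB17_7_3_186 : chunkOkM (LB17_7.ctx true true 286 483 256 7 16 3185 10197 32 64) muQ true true 64 RtB17_7.Cx.right.left.left.left RtB17_7.CX RtB17_7.Ctp.right.right.right.left.left.left.right RtB17_7.Ce.right.right.right.left.left.right.right.right RtB17_7.CTp RtB17_7.CEr 0x81abadd7cdbc0c1cb7c8161cf2058e630dfe4d5a07cdf168f1172c170d68768e630d6975b798b973ce5e8ee97e620df112036f06b6456937535027cd7887f9b7c81a948be28e630d747033fc8cd423019be82cd232a3b7e630d14653b848cd607b9d372c180f776c8e630d6546973 = true := by decide +kernel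

theorem cB17_7_3_187 : chunkOkM (LB17_7.ctx true true 280 243 128 7 16 3185 10197 32 64) muQ true true 64 RtB17_7.Cx.right.left.left.right RtB17_7.CX RtB17_7.Ctp.right.right.right.left.left.left.right RtB17_7.Ce.right.right.right.left.left.right.right.right RtB17_7.CTp RtB17_7.CEr 0x5664b227cdc64af36d834cbe6b7e610a3e6318d540d4b50c607dd2a5a70773cf5b49a27e630d4d31aee7dd1ce5ee673ce37d5927e630d62c977ace8cd1c2316c73c6077096e6173307a08d540d28e14ff7dd139266f73c4c5b9fc7e6107ab0228d540d62bfdb2668cd1d0ef6773c4520b527e6120e39cc8d540d308f11d7dd12c510b73ca0f708d7e665beaf47d540d6435 = true := by decide +kernel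

end Vale.Agent.helper4.Q4
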