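import Vale.Agent.helper4.Q4TreeM
import Vale.Agent.helper4.Q4G.PB17_7

/-!
Checks for pairs of intervals of second moments.
-/

set_option maxRecDepth 100000
set_option linter.unusedVariables false

namespace Vale.Agent.helper4.Q4

theorem cB17_7_3_188 : chunkOkM (LB17_7.ctx true true 274 247 128 7 16 3157 5093 32 32) muQ true true 64 RtB17_7.Cx.right.left.right RtB17_7.CX RtB17_7.Ctp.right.right.right.left.left.left.left RtB17_7.Ce.right.right.right.left.left.right.right RtB17_7.CTp RtB17_7.CEr 0xb58591c7cd27b17b6d8125a7367e618477cfd8d540d16820f6f05b14ec55f7dd10727c573c17fbbb57e61c9d77958d540d51a92f66f05bb7332ce7cd68cad063c2df3c237e61d5ca3548d540d5371494516f05b136ff917dd67188b63c58c48477e617f00dd38d540d54 = true := by decide +kernel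

theorem cB17_7_3_189 : chunkOkM (LB17_7.ctx true true 260 123 64 7 16 1589 2541 32 32) muQ true true 64 RtB17_7.Cx.right.left.right RtB17_7.CX RtB17_7.Ctp.right.right.right.left.left.left.right RtB17_7.Ce.right.right.right.left.left.right.right RtB17_7.CTp RtB17_7.CEr 0x617c65f05bf4d6986dd911ac163c1294f8638d530d5 = true := by decide +kernel

theorem cB17_7_3_190 : chunkOkM (LB17_7.ctx true true 274 243 128 7 16 1617 5093 32 64) muQ true true 64 RtB17_7.Cx.right.left RtB17_7.CX RtB17_7.Ctp.right.right.right.left.left.right RtB17_7.Ce.right.right.right.left.left.right RtB17_7.CTp RtB17_7.CEr 0x697a3ecdd7cdb114086d86bf146898d630d22cc34c7dd2f9a7a673c2ed3d30289d630d1e300a97dd247264f73c20d604364a7dd392ac9a73c978076e7e630d606acf77dd2abf0c773cf45d5c87e630d67107c6727dd13165c773ce30981e7e630d4357694 = true := by decide +kernel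

theorem cB17_7_3_191 : chunkOkM (LB17_7.ctx true true 92 1 1 1 1 1 1 1 1) muQ true true 64 RtB17_7.Cx.right.right RtB17_7.CX RtB17_7.Ctp.right.right.right.left.left RtB17_7.Ce.right.right.right.left.left.right RtB17_7.CTp RtB17_7.CEr 0x69 = true := by decide +kernel

theorem cB17_7_3_192 : chunkOkM (LB17_7.ctx true true 92 1 1 1 1 1 1 1 1) muQ true true 64 RtB17_7.Cx.right RtB17_7.CX RtB17_7.Ctp.right.right.right.left.right RtB17_7.Ce.right.right.right.left.left RtB17_7.CTp RtB17_7.CEr 0x11 = true := by decide +kernel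

theorem cB17_7_3_193 : chunkOkM (LB17_7.ctx true true 279 479 256 7 16 1617 5115 32 64) muQ true true 64 RtB17_7.Cx.left RtB17_7.CX RtB17_7.Ctp.right.right.right.left RtB17_7.Ce.right.right.right.left.right RtB17_7.CTp RtB17_7.CEr 0x21212101723f756f06b1715518c8cd26cd58f73c71980f37e610a05b97e240d56c2b817dd2b2fcc673cdd9daef7e6f726426e240d656935933217421742172174 = true := by decide +kernel

theorem cB17_7_3_194 : chunkOkM (LB17_7.ctx true true 92 1 1 1 1 1 1 1 1) muQ true true 64 RtB17_7.Cx.right.left.left RtB17_7.CX RtB17_7.Ctp.right.right.right.left.left.left.left RtB17_7.Ce.right.right.right.left.right.left.left RtB17_7.CTp RtB17_7.CEr 0x59 = true := by decide +kernel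

theorem cB17_7_3_195 : chunkOkM (LB17_7.ctx true true 310 1935 1024 7 16 12761 40843 32 32) muQ true true 64 RtB17_7.Cx.right.left.left.left RtB17_7.CX RtB17_7.Ctp.right.right.right.left.left.left.right RtB17_7.Ce.right.right.right.left.right.left.left.left RtB17_7.CTp RtB17_7.CEr 0x69696986e1336f06bfe9da777cd1027826d82c1e0b5767f630d5469769346976934597593 = true := by decide +kernel

theorem cB17_7_3_196 : chunkOkM (LB17_7.ctx true true 291 487 256 7 16 6349 10241 32 64) muQ true true 64 RtB17_7.Cx.right.left.left.right RtB17_7.CX RtB17_7.Ctp.right.right.right.left.left.left.right.left RtB17_7.Ce.right.right.right.left.right.left.left.left RtB17_7.CTp RtB17_7.CEr 0x76931947cda863a597c8d681d06e61927f4508d540dfe1cdf97cdc383c3972c2a294437e6195c48ac8d540d597236c4b8b82cbc3df5b7e677357397d530d2d2b78d28cd16951fd73c4c8c4367e613508df08d540d6fb4171f7cdc7470de72c1ddcafbc8e630d593745 = true := by decide +kernel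

theorem cB17_7_3_197 : chunkOkM (LB17_7.ctx true true 287 487 256 7 16 3185 10241 32 64) muQ true true 64 RtB17_7.Cx.right.left.left.right RtB17_7.CX RtB17_7.Ctp.right.right.right.left.left.left.right.right RtB17_7.Ce.right.right.right.left.right.left.left.left RtB17_7.CTp RtB17_7.CEr 0x6fc3dff7cd9321ea87c8424e8ba7e610b835238d540d2d112e3d8cd1cad42b382c54510b87e6f022d027d540d24f4f7ea8cd105c0a773cbd521e17e630d610d5a6378cdfe6982972c27bf118c8e630d72e7d0f238cd1e9b39c73c79008d97e6b0a1c997d540d4b08c067dd17e3e4673cc073bb07e630d645 = true := by decide +kernel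

theorem cB17_7_3_198 : chunkOkM (LB17_7.ctx true true 287 487 256 7 16 3185 10263 32 64) muQ true true 64 RtB17_7.Cx.right.left.left RtB17_7.CX RtB17_7.Ctp.right.right.right.left.left.left.right RtB17_7.Ce.right.right.right.left.right.left.left.right RtB17_7.CTp RtB17_7.CEr 0x6940ad8b97cd91a70ff7c81d4e05a48e630d47d2bc2c8cd1fe47f2f82cc1427a27e630d1473f62f8cd66d1d2972c16298bbd8e630d654697593597 = true := by decide +kernel

theorem cB17_7_3_199 : chunkOkM (LB17_7.ctx true true 273 247 128 7 16 3157 5137 32 32) muQ true true 64 RtB17_7.Cx.right.left.right RtB17_7.CX RtB17_7.Ctp.right.right.right.left.left.left.left RtB17_7.Ce.right.right.right.left.right.left.left RtB17_7.CTp RtB17_7.CEr 0xa0246637cd1a73bb63ca10a8f6e61c19295c8d540d597b3d303f7cdf4fa453c6833646e61861c5fd8d540daaf38377cd3c6aa53c13abd327e61be267c18d540d31ae1aa6f05bfdcdc987cd839a4163c13eb8297e61ae146f58d540d5b0c45c77cde3d8336c8233c8df88d530d374 = true := by decide +kernel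

theorem cB17_7_3_200 : chunkOkM (LB17_7.ctx true true 277 247 128 7 16 3185 5115 32 64) muQ true true 64 RtB17_7.Cx.right.left.right RtB17_7.CX RtB17_7.Ctp.right.right.right.left.left.left.right RtB17_7.Ce.right.right.right.left.right.left.left.left RtB17_7.CTp RtB17_7.CEr 0xadf2bab7cd180cd863c138683a78d530d623ed397cda73aeb6d827266e57e61586cf8f8d540d21905c226cebf7ddb89baa63c1010c5448e6a9ebf387d540d6f7a9b76ddb6e48363c18a211bd8d530d357 = true := by decide +kernel

theorem cB17_7_3_201 : chunkOkM (LB17_7.ctx true true 286 491 256 7 16 3185 10285 32 64) muQ true true 64 RtB17_7.Cx.right.left.right.left RtB17_7.CX RtB17_7.Ctp.right.right.right.left.left.left.right RtB17_7.Ce.right.right.right.left.right.left.left.right RtB17_7.CTp RtB17_7.CEr 0x68b76707cd7949a977c8164f0e27e618433b3e8d540deaa7eb97cdb970df63c37436037e612a354c78d540d201a015c82ce64b22e7e6250d9ba7d530daca86b37cdf1e09537e6704e89f7d530d672ed0ffc18cd1511d8b73c624b8967e6f0785db7d540d4d017187dd19db0dc73c47ee07f7e611d4a0ea8d540d6451b3c866f05b10b50f888cdb5dbc963c143af4f7e6195050748d540d53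 = true := by decide +kernel

end Vale.Agent.helper4.Q4
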