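import Vale.Agent.helper4.Q4TreeM
import Vale.Agent.helper4.Q4G.PB17_7

/-!
Checks for pairs of intervals of second moments.
-/

set_option maxRecDepth 100000
set_option linter.unusedVariables false

namespace Vale.Agent.helper4.Q4

theorem cB17_7_3_202 : chunkOkM (LB17_7.ctx true true 273 247 128 7 16 3185 5137 32 32) muQ true true 64 RtB17_7.Cx.right.left.right.right RtB17_7.CX RtB17_7.Ctp.right.right.right.left.left.left.right RtB17_7.Ce.right.right.right.left.right.left.left.right RtB17_7.CTp RtB17_7.CEr 0x8d4455f05be9a65c6dd83d0a763c13d52f1a8d530d517447a6f05b10da9377dd75a31163c2fd4256e61a1099608d540d53 = true := by decide +kernel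

theorem cB17_7_3_203 : chunkOkM (LB17_7.ctx true true 92 1 1 1 1 1 1 1 1) muQ true true 64 RtB17_7.Cx.right.left.left RtB17_7.CX RtB17_7.Ctp.right.right.right.left.left.left RtB17_7.Ce.right.right.right.left.right.left.right RtB17_7.CTp RtB17_7.CEr 0x59 = true := by decide +kernel

theorem cB17_7_3_204 : chunkOkM (LB17_7.ctx true true 92 1 1 1 1 1 1 1 1) muQ true true 64 RtB17_7.Cx.right.left.right RtB17_7.CX RtB17_7.Ctp.right.right.right.left.left.left.left RtB17_7.Ce.right.right.right.left.right.left.right RtB17_7.CTp RtB17_7.CEr 0x59 = true := by decide +kernel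

theorem cB17_7_3_205 : chunkOkM (LB17_7.ctx true true 284 491 256 7 16 3185 10329 32 32) muQ true true 64 RtB17_7.Cx.right.left.right RtB17_7.CX RtB17_7.Ctp.right.right.right.left.left.left.right RtB17_7.Ce.right.right.right.left.right.left.right.left RtB17_7.CTp RtB17_7.CEr 0x18260a6f05bef74cd6ddac3cd863c1de8e997e61666503b8d540d51b7f0d6f05bee1e8457cd6fed4963c14a5ddf7e61b62542f8d540d531bed3a6f05b107aa42b8cdc32a0963c1e6e19748d530def3270c7cdbda0e7b72c3e8f3e17e615244a498d540decd976a7cdbb850263c26275d578e630d7455937 = true := by decide +kernel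

theorem cB17_7_3_206 : chunkOkM (LB17_7.ctx true true 274 247 128 7 16 3185 5181 32 32) muQ true true 64 RtB17_7.Cx.right.left.right RtB17_7.CX RtB17_7.Ctp.right.right.right.left.left.left.right RtB17_7.Ce.right.right.right.left.right.left.right.right RtB17_7.CTp RtB17_7.CEr 0x1bd48f6f05be53e1f47cd81593863c31d4cbd7e61af87e308d540d5593597 = true := by decide +kernel

theorem cB17_7_3_207 : chunkOkM (LB17_7.ctx true true 287 483 256 7 16 3213 10241 32 64) muQ true true 64 RtB17_7.Cx.right.left.left RtB17_7.CX RtB17_7.Ctp.right.right.right.left.left.right.left RtB17_7.Ce.right.right.right.left.right.left.left.left RtB17_7.CTp RtB17_7.CEr 0x1f314c07cd1082ff37d8bca14a27e630d4382ab27dd2e4d63173cbffe5ee7e630d56a87977dd23165ff73cb3819147e630d6563df8047cdd130cf77c8ca93c2d7e630d69e3c8473cce0dc667e620d4be23b87dd22fd70073c9dbf6047e630d61674ce728cd1cfa113182c25af44768e630df8562f77cd1149ae3a82c153f2b878e630d4697357 = true := by decide +kernel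

theorem cB17_7_3_208 : chunkOkM (LB17_7.ctx true true 300 967 512 7 16 6433 20515 32 64) muQ true true 64 RtB17_7.Cx.right.left.left RtB17_7.CX RtB17_7.Ctp.right.right.right.left.left.right.left RtB17_7.Ce.right.right.right.left.right.left.left.right RtB17_7.CTp RtB17_7.CEr 0x65fd3897cd9e94f907c8cda6a0c7e630d5864cc338cd332502173ce8933aa7e630d4fc225b7dd246b83073c1658e8398e630d6f77edb77cdf72f5863c19e789168e630d5980a4ef82cd848dbb7e620df2f97c6f06b64356969103eb3578cde6f5e6772c2829b3d88e630d469769346976937 = true := by decide +kernel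

theorem cB17_7_3_209 : chunkOkM (LB17_7.ctx true true 267 121 64 7 16 1617 5115 32 64) muQ true true 64 RtB17_7.Cx.right.left.left RtB17_7.CX RtB17_7.Ctp.right.right.right.left.left.right.right RtB17_7.Ce.right.right.right.left.right.left.left.left RtB17_7.CTp RtB17_7.CEr 0x6569f96f06b632d9fc7dd3dd567c73cc2bd2eb7e630d27311047dd1ca41bc73ca0a16e87e630d65 = true := by decide +kernel

theorem cB17_7_3_210 : chunkOkM (LB17_7.ctx true true 285 243 128 7 16 3241 10285 64 64) muQ true true 64 RtB17_7.Cx.right.left.left RtB17_7.CX RtB17_7.Ctp.right.right.right.left.left.right.right RtB17_7.Ce.right.right.right.left.right.left.left.right RtB17_7.CTp RtB17_7.CEr 0x4a67e4d7cd51c80e6d860214127e630dfd90cf6dd14c3df373cd78b6387e630dc5b8286f06bf8663607cd1abd82c73ccaf3dd17e67f486e6e240d5138ae3418cd1bf001973c1d9de6eb8e630d62a35f773cf302c3b7e620d4ba3af67dd26be39a73cc12d99a7e630d64375 = true := by decide +kernel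

theorem cB17_7_3_211 : chunkOkM (LB17_7.ctx true true 267 123 64 7 16 1603 5137 32 64) muQ true true 64 RtB17_7.Cx.right.left.right RtB17_7.CX RtB17_7.Ctp.right.right.right.left.left.right RtB17_7.Ce.right.right.right.left.right.left.left RtB17_7.CTp RtB17_7.CEr 0x696308fa17cd939d516d8405150b7e6fc92a677d540d44c3f6d7dd22d070d73c4d5ed027e6fee46ad7d540d3d09a747dd1753d1873ce982c627e630d611905c453 = true := by decide +kernel

theorem cB17_7_3_212 : chunkOkM (LB17_7.ctx true true 284 487 256 7 16 3213 10329 32 32) muQ true true 64 RtB17_7.Cx.right.left.left RtB17_7.CX RtB17_7.Ctp.right.right.right.left.left.right.left RtB17_7.Ce.right.right.right.left.right.left.right RtB17_7.CTp RtB17_7.CEr 0x69acb13b6f06bea9923f7cd1335cfb73c207504e58e630de7d125a7cd10b9013882c10ddd0c38e630d456976934697 = true := by decide +kernel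

theorem cB17_7_3_213 : chunkOkM (LB17_7.ctx true true 286 483 256 7 16 3241 10329 32 64) muQ true true 64 RtB17_7.Cx.right.left.left RtB17_7.CX RtB17_7.Ctp.right.right.right.left.left.right.right RtB17_7.Ce.right.right.right.left.right.left.right.left RtB17_7.CTp RtB17_7.CEr 0x8a8af56f06b937e1207dd4f8dd0273cae221cf7e630d4a55cb47dd2b4791173c965a7967e630d6f98f9ba7cd147865c73cf8dd1d87e630df86f6cd7cd13dc00273c140762dd8e630d43569615f906f06bfbd46327cd17e3e66a82c1461efb88e64aba9d6e240d542176937 = true := by decide +kernel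

end Vale.Agent.helper4.Q4
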