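import Vale.Agent.helper4.Q4TreeM
import Vale.Agent.helper4.Q4G.PB17_7

/-!
Checks for pairs of intervals of second moments.
-/

set_option maxRecDepth 100000
set_option linter.unusedVariables false

namespace Vale.Agent.helper4.Q4

theorem cB17_7_3_228 : chunkOkM (LB17_7.ctx true true 286 495 256 7 16 3213 10417 32 64) muQ true true 64 RtB17_7.Cx.right.left.right.right RtB17_7.CX RtB17_7.Ctp.right.right.right.left.left.right.left.right RtB17_7.Ce.right.right.right.left.right.right.left.left RtB17_7.CTp RtB17_7.CEr 0x38d21307cd691e68a7c8229b1a87e61667ad828d540d4be2a2588cd27a4d7b782cd5e2fa37e630d2979b2478cd14a868773c7622db27e6c004d457d540d6f5f32097cde5f78963c163b6b7e8e630d7e2ec99e7cdbdd16e63c9d12bb87e6c8a74f07d540d1981d8f68cd186c03e382cdf91a667e630d13fc0047f06b6745 = true := by decide +kernel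

theorem cB17_7_3_229 : chunkOkM (LB17_7.ctx true true 294 991 512 7 16 6433 10439 32 32) muQ true true 64 RtB17_7.Cx.right.left.right.right RtB17_7.CX RtB17_7.Ctp.right.right.right.left.left.right.left RtB17_7.Ce.right.right.right.left.right.right.left.right RtB17_7.CTp RtB17_7.CEr 0x591821796f05be1dcfe27cdb9a59df72c226468a18e630d56975934597593 = true := by decide +kernel

theorem cB17_7_3_230 : chunkOkM (LB17_7.ctx true true 284 491 256 7 16 3241 10417 32 32) muQ true true 64 RtB17_7.Cx.right.left.right.left RtB17_7.CX RtB17_7.Ctp.right.right.right.left.left.right.right RtB17_7.Ce.right.right.right.left.right.right.left.left RtB17_7.CTp RtB17_7.CEr 0x8429c36f06be6a67e47cd12d57e273c1775450d8e630de303e457cd1287f4b73c1269121a8e630d45a625826f06bea7e9147cd103c22073c13d1bfc28e630d56973 = true := by decide +kernel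

theorem cB17_7_3_231 : chunkOkM (LB17_7.ctx true true 277 247 128 7 16 3241 5203 32 64) muQ true true 64 RtB17_7.Cx.right.left.right.right RtB17_7.CX RtB17_7.Ctp.right.right.right.left.left.right.right RtB17_7.Ce.right.right.right.left.right.right.left.left RtB17_7.CTp RtB17_7.CEr 0xc2669e6f06b143999d7dd1b38d5373cdca81ca7e630d4af55d27dd2bff29173cbabc1fc7e630d48c42ce7dd1db153c73ca6badec7e630d635 = true := by decide +kernel

theorem cB17_7_3_232 : chunkOkM (LB17_7.ctx true true 285 495 256 7 16 3241 10461 32 32) muQ true true 64 RtB17_7.Cx.right.left.right RtB17_7.CX RtB17_7.Ctp.right.right.right.left.left.right.right RtB17_7.Ce.right.right.right.left.right.right.left.right RtB17_7.CTp RtB17_7.CEr 0x98dc3f6f06bde7a9a77cdfe3a2163c142d4de68e630de4db1f97cd1082dde73c111720268e630d4549a46e87cd3ef3bab7c8bdbbf0d7e630dcb7d0a07cddbe33e63c1b4886098e630de1bfe2a7cdd0ca63572c14ccbda68e630dcd2da177cd137660bb82c222fed1e8e630d745369eff581c7cdd792e6772c44003ddc8e630d46976937 = true := by decide +kernel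

theorem cB17_7_3_233 : chunkOkM (LB17_7.ctx true true 283 495 256 7 16 3241 10483 32 32) muQ true true 64 RtB17_7.Cx.right.left.right RtB17_7.CX RtB17_7.Ctp.right.right.right.left.left.right RtB17_7.Ce.right.right.right.left.right.right.right RtB17_7.CTp RtB17_7.CEr 0x69698e37486f06bc0650167cd108e901d82cf4efab97e630d546976934697593 = true := by decide +kernel

theorem cB17_7_3_234 : chunkOkM (LB17_7.ctx true true 274 251 128 7 16 3185 5225 32 32) muQ true true 64 RtB17_7.Cx.right.right RtB17_7.CX RtB17_7.Ctp.right.right.right.left.left.left RtB17_7.Ce.right.right.right.left.right.right RtB17_7.CTp RtB17_7.CEr 0x6604e46dd494aba6d811c67af78d623a73e8e8d540d6a054ad7cd31a9fd6d8121c6a37e61df4d9d98d540d5f502847cd5a67856d821a79ae7e629e881848d540d39d21a507cd123a5363c1adaa777e61dd156d38d540d6ebbb447cd11a43863cbe968b6e61c4dcc628d540d1c2b016f05bd079fc97cd4de12a63c1a873147e61c55629d8d540d55937424c93a6f05b374 = true := by decide +kernel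

theorem cB17_7_3_235 : chunkOkM (LB17_7.ctx true true 274 251 128 7 16 3213 5203 32 32) muQ true true 64 RtB17_7.Cx.right.right.left RtB17_7.CX RtB17_7.Ctp.right.right.right.left.left.right.left RtB17_7.Ce.right.right.right.left.right.right.left.left RtB17_7.CTp RtB17_7.CEr 0x97af40e7cd6287b53c14b1f3bc8d530d12e2316f05bdd23b46ddbb7d6c63c1b5532f7e61640e4878d540d518b73d6f05bdccf676dd99aa0763c9eb5136e619875d3c8d540d537 = true := by decide +kernel

theorem cB17_7_3_236 : chunkOkM (LB17_7.ctx true true 274 251 128 7 16 3213 5225 32 32) muQ true true 64 RtB17_7.Cx.right.right.left RtB17_7.CX RtB17_7.Ctp.right.right.right.left.left.right.left RtB17_7.Ce.right.right.right.left.right.right.left.right RtB17_7.CTp RtB17_7.CEr 0xacbc35f05bd17f286ddb0527c63ccd34166e61caed4f38d540d5a2332137cd2b3d1d63cd5e48d6e6193d66f38d540d3193f086f05be07abb47cdbfa84263c1106ce57e6177819338d540d51c863a6f05bd217d757cd85eefd63c14d3d8d7e61a48aec38d540d537 = true := by decide +kernel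

theorem cB17_7_3_237 : chunkOkM (LB17_7.ctx true true 278 251 128 7 16 3241 5225 32 64) muQ true true 64 RtB17_7.Cx.right.right.left RtB17_7.CX RtB17_7.Ctp.right.right.right.left.left.right.right RtB17_7.Ce.right.right.right.left.right.right.left RtB17_7.CTp RtB17_7.CEr 0x9845df6d8782b7a77e6163553098d530d31805c198589e7dd1fa439d73c17220b7b8e630d34101f67dd1bb8eb273c348252c7e612d202f98d540d4c9a2b17dd202bbc173cabb56657e65d0b3c07d540d6375fe524f06c4 = true := by decide +kernel

theorem cB17_7_3_238 : chunkOkM (LB17_7.ctx true true 253 127 64 7 16 805 2607 16 32) muQ true true 64 RtB17_7.Cx.right.right.right RtB17_7.CX RtB17_7.Ctp.right.right.right.left.left.right RtB17_7.Ce.right.right.right.left.right.right.left RtB17_7.CTp RtB17_7.CEr 0x13c1766f05b = true := by decide +kernel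

end Vale.Agent.helper4.Q4
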