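import Vale.Agent.helper4.Q4TreeM
import Vale.Agent.helper4.Q4G.PB17_7

/-!
Checks for pairs of intervals of second moments.
-/

set_option maxRecDepth 100000
set_option linter.unusedVariables false

namespace Vale.Agent.helper4.Q4

theorem cB17_7_3_239 : chunkOkM (LB17_7.ctx true true 283 503 256 7 16 3213 10483 32 32) muQ true true 64 RtB17_7.Cx.right.right.left RtB17_7.CX RtB17_7.Ctp.right.right.right.left.left.right.left RtB17_7.Ce.right.right.right.left.right.right.right RtB17_7.CTp RtB17_7.CEr 0x9cd314e7cd373e0c772cbb9cd06e61afaccc08d540d597593597193ec76f05bc4bb616dd82db9c63cc954376e61a1aef4c8d540d59d64acb7cd2c132e472c9e65076e61b7890b88d540d3591a21916f05bd14ade87cd9cf673372c31afa027e617cd03f18d540d5459759374 = true := by decide +kernel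

theorem cB17_7_3_240 : chunkOkM (LB17_7.ctx true true 284 499 256 7 16 3241 10505 32 32) muQ true true 64 RtB17_7.Cx.right.right.left.left RtB17_7.CX RtB17_7.Ctp.right.right.right.left.left.right.right RtB17_7.Ce.right.right.right.left.right.right.right.left RtB17_7.CTp RtB17_7.CEr 0xb77bce6f06bd8d8f307cdd51aca63c12d3208e8e630dda2d846ddeac37363cd3669aa7e630d45314395f7cd59a86e47c8382a9087e61232033e8d540dd4e9ecc7cdc671fcd72c6001c017e610d626138d540dde3cb257cde3b69663c13e9dbfc8e630d7dc912437cdbbf01663c3ddf3927e6124d6ed88d540ddcdbdfa7cdbeea58472c10d5c2c78e6549b20c7d540d7453 = true := by decide +kernel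

theorem cB17_7_3_241 : chunkOkM (LB17_7.ctx true true 270 251 128 7 16 1617 5247 32 32) muQ true true 64 RtB17_7.Cx.right.right.left.right RtB17_7.CX RtB17_7.Ctp.right.right.right.left.left.right.right RtB17_7.Ce.right.right.right.left.right.right.right.left RtB17_7.CTp RtB17_7.CEr 0x11c8756f05bcc98b96dda6bd8163c26af3ec7e6147e7bba8d540d5 = true := by decide +kernel

theorem cB17_7_3_242 : chunkOkM (LB17_7.ctx true true 297 999 512 7 16 6461 21043 32 32) muQ true true 64 RtB17_7.Cx.right.right.left.left RtB17_7.CX RtB17_7.Ctp.right.right.right.left.left.right.right RtB17_7.Ce.right.right.right.left.right.right.right.right RtB17_7.CTp RtB17_7.CEr 0xfcfd546f06b1188fba18cd11a83b573c258b50578e630dd7615f17cdcfc45e272c14c957d98e630d45596916924a6f05bdb3275b7cdbbf0b5272c2ac0a3628e630d5469759345973 = true := by decide +kernel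

theorem cB17_7_3_243 : chunkOkM (LB17_7.ctx true true 277 251 128 7 16 3241 10549 32 32) muQ true true 64 RtB17_7.Cx.right.right.left.right RtB17_7.CX RtB17_7.Ctp.right.right.right.left.left.right.right RtB17_7.Ce.right.right.right.left.right.right.right.right RtB17_7.CTp RtB17_7.CEr 0x15babd6f05bd1d03a6ddc4590563c8c75fc87e6ecbd6587d540dce624a6ddbf089a63c257b77f7e611bb617d8d540d451a11d86f05bd59cc6b7cdaa96f3a72c1c82ad378d530d51781be6f05bd10d2b77cdb6984063c377c0dc7e6140137138d540d543 = true := by decide +kernel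

theorem cB17_7_3_244 : chunkOkM (LB17_7.ctx true true 257 127 64 7 16 1617 2629 16 32) muQ true true 64 RtB17_7.Cx.right.right.right RtB17_7.CX RtB17_7.Ctp.right.right.right.left.left.right RtB17_7.Ce.right.right.right.left.right.right.right RtB17_7.CTp RtB17_7.CEr 0xa237f437cd2850e463c1f427d47e61692f3558d540d76939607cd1a8f0c63c10470ea7e61bbdde068d540d3 = true := by decide +kernel

theorem cB17_7_3_245 : chunkOkM (LB17_7.ctx true true 275 243 128 7 16 1631 5181 64 32) muQ true true 64 RtB17_7.Cx.right RtB17_7.CX RtB17_7.Ctp.right.right.right.left.right RtB17_7.Ce.right.right.right.left.right.left RtB17_7.CTp RtB17_7.CEr 0x1101101caf858cd108b74873c1df648da59d630d011a060d6f02b5e15756dda59a5fb7e6275d8d6e230dede6c86dd198530d73c983d8ad7e6babc6c6e240d5521715884f6f02b119280d7dd19d87f873c49e7096e61aff0d77e240d54379d409d47cd1cd5d9a73c347d6cd38d626b4e207a9d1638ea924d9d050d437 = true := by decide +kernel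

theorem cB17_7_3_246 : chunkOkM (LB17_7.ctx true true 283 487 256 7 16 3269 10395 32 32) muQ true true 64 RtB17_7.Cx.right.left.left RtB17_7.CX RtB17_7.Ctp.right.right.right.left.right.left RtB17_7.Ce.right.right.right.left.right.right.left RtB17_7.CTp RtB17_7.CEr 0x210166d15c6f06b25357b7f8cd34e80cf73c862bdc6e626e369e7e240d69112a2fb38cd1978e4fd82c13a0b45f8e630d43532174217 = true := by decide +kernel

theorem cB17_7_3_247 : chunkOkM (LB17_7.ctx true true 271 123 64 7 16 1631 5203 64 64) muQ true true 64 RtB17_7.Cx.right.left.right RtB17_7.CX RtB17_7.Ctp.right.right.right.left.right.left.left RtB17_7.Ce.right.right.right.left.right.right.left.left RtB17_7.CTp RtB17_7.CEr 0x5fbe4e6f06b79d4c06f06b5a3b779ce7dd269077273c83e7bac7e630d655 = true := by decide +kernel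

theorem cB17_7_3_248 : chunkOkM (LB17_7.ctx true true 282 247 128 7 16 3269 10461 64 32) muQ true true 64 RtB17_7.Cx.right.left.right RtB17_7.CX RtB17_7.Ctp.right.right.right.left.right.left.left RtB17_7.Ce.right.right.right.left.right.right.left.right RtB17_7.CTp RtB17_7.CEr 0x5864e56f06be7ad546dd13516a273cc47fceb7e630d57287396f06b9c12da6f06be998dbb7cd196951973c8f2d0487e6754e766e240d5e1eaa147cd166373673c1d7163b98e630de93a3547cd154ebfb73c182259668e630d4357 = true := by decide +kernel

theorem cB17_7_3_249 : chunkOkM (LB17_7.ctx true true 257 123 64 7 16 1645 2607 16 32) muQ true true 64 RtB17_7.Cx.right.left.right RtB17_7.CX RtB17_7.Ctp.right.right.right.left.right.left.right RtB17_7.Ce.right.right.right.left.right.right.left RtB17_7.CTp RtB17_7.CEr 0x124c3dcf8cd22f247d73c802e3c6d81190143ae9d12f073009f9d050d = true := by decide +kernel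

theorem cB17_7_3_250 : chunkOkM (LB17_7.ctx true true 92 1 1 1 1 1 1 1 1) muQ true true 64 RtB17_7.Cx.right.left.left RtB17_7.CX RtB17_7.Ctp.right.right.right.left.right.left RtB17_7.Ce.right.right.right.left.right.right.right RtB17_7.CTp RtB17_7.CEr 0x21 = true := by decide +kernel

end Vale.Agent.helper4.Q4
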