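import Vale.Agent.helper4.Q4TreeM
import Vale.Agent.helper4.Q4G.PB17_7

/-!
Checks for pairs of intervals of second moments.
-/

set_option maxRecDepth 100000
set_option linter.unusedVariables false

namespace Vale.Agent.helper4.Q4

theorem cB17_7_3_251 : chunkOkM (LB17_7.ctx true true 284 491 256 7 16 3269 10505 32 32) muQ true true 64 RtB17_7.Cx.right.left.right RtB17_7.CX RtB17_7.Ctp.right.right.right.left.right.left.left RtB17_7.Ce.right.right.right.left.right.right.right.left RtB17_7.CTp RtB17_7.CEr 0x7e82e86f06be1d1cd6dd152625573cfe49e4c7e630ddef0bfb7cd1247bf973c17bf2e678e630dd37ebee7cd11f5cef73c147975a78e630d435695bb89e6f06bdac5b557cd14e8cb1682c19ab055b8e630d542176937 = true := by decide +kernel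

theorem cB17_7_3_252 : chunkOkM (LB17_7.ctx true true 285 495 256 7 16 3269 10549 32 32) muQ true true 64 RtB17_7.Cx.right.left.right RtB17_7.CX RtB17_7.Ctp.right.right.right.left.right.left.left RtB17_7.Ce.right.right.right.left.right.right.right.right RtB17_7.CTp RtB17_7.CEr 0x6f05af6f06beb4a8067cd14b513e73c13d815848e630dde3dfd87cd159b04873c118e68bf8e630d4569e18df5a7cdd357a0b72c3967f2228e630d46973217 = true := by decide +kernel

theorem cB17_7_3_253 : chunkOkM (LB17_7.ctx true true 274 247 128 7 16 1645 5269 64 32) muQ true true 64 RtB17_7.Cx.right.left.right RtB17_7.CX RtB17_7.Ctp.right.right.right.left.right.left.right RtB17_7.Ce.right.right.right.left.right.right.right RtB17_7.CTp RtB17_7.CEr 0x1a7d3e6f02b1e75386f02bf4a9696dd1815b4e73c6fbd4717e6a01dcc6e240d5521715adf76f02bfe12bf6dd1843bac73c552f9c6e61c622647e240d54 = true := by decide +kernel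

theorem cB17_7_3_254 : chunkOkM (LB17_7.ctx true true 92 1 1 1 1 1 1 1 1) muQ true true 64 RtB17_7.Cx.right.left RtB17_7.CX RtB17_7.Ctp.right.right.right.left.right.right RtB17_7.Ce.right.right.right.left.right.right RtB17_7.CTp RtB17_7.CEr 0x01 = true := by decide +kernel

theorem cB17_7_3_255 : chunkOkM (LB17_7.ctx true true 92 1 1 1 1 1 1 1 1) muQ true true 64 RtB17_7.Cx.right.right RtB17_7.CX RtB17_7.Ctp.right.right.right.left.right.left RtB17_7.Ce.right.right.right.left.right.right.left RtB17_7.CTp RtB17_7.CEr 0x69 = true := by decide +kernel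

theorem cB17_7_3_256 : chunkOkM (LB17_7.ctx true true 278 251 128 7 16 3269 10549 32 32) muQ true true 64 RtB17_7.Cx.right.right.left RtB17_7.CX RtB17_7.Ctp.right.right.right.left.right.left.left RtB17_7.Ce.right.right.right.left.right.right.right RtB17_7.CTp RtB17_7.CEr 0x018cef4b7dd1edda0c73c16bf40518e630d59205296f06be01fdf6dd1208d0773c13c451688e630dd21b9f87cdfd407c63c1cbd067b8e630dda381547cdfc3ad963c10f07f698e630d435716bef26f06bdd203b6dd101624d73cb910c677e630d54 = true := by decide +kernel

theorem cB17_7_3_257 : chunkOkM (LB17_7.ctx true true 258 125 64 7 16 1645 2629 16 32) muQ true true 64 RtB17_7.Cx.right.right.left RtB17_7.CX RtB17_7.Ctp.right.right.right.left.right.left.right RtB17_7.Ce.right.right.right.left.right.right.right RtB17_7.CTp RtB17_7.CEr 0xe8baf677cdfbb1df63c18d21068d9d630d = true := by decide +kernel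

theorem cB17_7_3_258 : chunkOkM (LB17_7.ctx true true 92 1 1 1 1 1 1 1 1) muQ true true 64 RtB17_7.Cx.right.right.right RtB17_7.CX RtB17_7.Ctp.right.right.right.left.right.left RtB17_7.Ce.right.right.right.left.right.right.right RtB17_7.CTp RtB17_7.CEr 0x69 = true := by decide +kernel

theorem cB17_7_3_259 : chunkOkM (LB17_7.ctx true true 92 1 1 1 1 1 1 1 1) muQ true true 64 RtB17_7.Cx.right.right RtB17_7.CX RtB17_7.Ctp.right.right.right.left.right.right RtB17_7.Ce.right.right.right.left.right.right RtB17_7.CTp RtB17_7.CEr 0x11 = true := by decide +kernel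

theorem cB17_7_3_260 : chunkOkM (LB17_7.ctx true true 92 1 1 1 1 1 1 1 1) muQ true true 64 RtB17_7.Cx.left RtB17_7.CX RtB17_7.Ctp.right.right.right.left RtB17_7.Ce.right.right.right.right RtB17_7.CTp RtB17_7.CEr 0x21 = true := by decide +kernel

theorem cB17_7_3_261 : chunkOkM (LB17_7.ctx true true 92 1 1 1 1 1 1 1 1) muQ true true 64 RtB17_7.Cx.right.left RtB17_7.CX RtB17_7.Ctp.right.right.right.left.left RtB17_7.Ce.right.right.right.right.left.left RtB17_7.CTp RtB17_7.CEr 0x59 = true := by decide +kernel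

theorem cB17_7_3_262 : chunkOkM (LB17_7.ctx true true 244 63 32 7 16 791 1331 16 32) muQ true true 64 RtB17_7.Cx.right.right RtB17_7.CX RtB17_7.Ctp.right.right.right.left.left.left RtB17_7.Ce.right.right.right.right.left.left RtB17_7.CTp RtB17_7.CEr 0x2df1cb6f05b = true := by decide +kernel

theorem cB17_7_3_263 : chunkOkM (LB17_7.ctx true true 297 1007 512 7 16 6489 21219 32 32) muQ true true 64 RtB17_7.Cx.right.right.left RtB17_7.CX RtB17_7.Ctp.right.right.right.left.left.right RtB17_7.Ce.right.right.right.right.left.left.left RtB17_7.CTp RtB17_7.CEr 0x5959161f136f05bc07cdbc7cdb19ad6f72c1a11e5168e6a1465ce7d540d5459759345975931aa6d46f05bd0ebaba7cdcf6fd463c50ed11c7e612fef26c8d540d51872d76f05bd2235487cdcfb99963c691d76a7e61154afbe8d540d5459193d326f05bda4ba017cda3025db72c159124e7e619a775c58d540d5593459734697593 = true := by decide +kernel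

theorem cB17_7_3_264 : chunkOkM (LB17_7.ctx true true 257 127 64 7 16 1603 2651 16 32) muQ true true 64 RtB17_7.Cx.right.right.right RtB17_7.CX RtB17_7.Ctp.right.right.right.left.left.right.left RtB17_7.Ce.right.right.right.right.left.left.left RtB17_7.CTp RtB17_7.CEr 0x6e41fe87cd2861c763cf5a7206e61f3b56d98d540d = true := by decide +kernel

theorem cB17_7_3_265 : chunkOkM (LB17_7.ctx true true 277 255 128 7 16 3241 10593 32 32) muQ true true 64 RtB17_7.Cx.right.right.right RtB17_7.CX RtB17_7.Ctp.right.right.right.left.left.right.right RtB17_7.Ce.right.right.right.right.left.left.left.left RtB17_7.CTp RtB17_7.CEr 0x929bf547cd4d16d53c271ac1e7e61b3481b18d540d12747a6f05bb6d8416ddbe919d63ce0c4ad6e619f1847a8d540d51a39416f05bbd9e8927cd79e09a63c8c3e2e6e61cd0af928d540d516e7126f05b134157c7dd14ff17573c5867bb37e61b1435888d540d5437 = true := by decide +kernel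

theorem cB17_7_3_266 : chunkOkM (LB17_7.ctx true true 277 255 128 7 16 3241 10637 32 32) muQ true true 64 RtB17_7.Cx.right.right.right RtB17_7.CX RtB17_7.Ctp.right.right.right.left.left.right.right RtB17_7.Ce.right.right.right.right.left.left.left.right RtB17_7.CTp RtB17_7.CEr 0x8186b637cd426db263c1967ef57e619f05aed8d540d1aaa446f05bd46fcee7cd9a2c02d72cc90cd36e61b8e3c318d540d518027d6f05bbad19e57cdce733d63c1b9aced7e61c40cdcb8d540d548c0b2da7cd39a2fb63c1e64ff57e61d8950768d540d37 = true := by decide +kernel

theorem cB17_7_3_267 : chunkOkM (LB17_7.ctx true true 287 507 256 7 16 6489 10659 32 32) muQ true true 64 RtB17_7.Cx.right.right RtB17_7.CX RtB17_7.Ctp.right.right.right.left.left.right RtB17_7.Ce.right.right.right.right.left.left.right RtB17_7.CTp RtB17_7.CEr 0x73f20db7cd3696a663c15d27877e61f132abb8d540d87f84ce7cd3dfe3763c10f6d2d7e61bb23b2b8d540d591a65f66f05bcf8de987cd974a03072c121ba527e61a4291a38d540d5593459759374593597 = true := by decide +kernel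

theorem cB17_7_3_268 : chunkOkM (LB17_7.ctx true true 92 1 1 1 1 1 1 1 1) muQ true true 64 RtB17_7.Cx.right RtB17_7.CX RtB17_7.Ctp.right.right.right.left.left RtB17_7.Ce.right.right.right.right.left.right RtB17_7.CTp RtB17_7.CEr 0x59 = true := by decide +kernel

theorem cB17_7_3_269 : chunkOkM (LB17_7.ctx true true 280 495 256 7 16 1645 10571 32 32) muQ true true 64 RtB17_7.Cx.right.left RtB17_7.CX RtB17_7.Ctp.right.right.right.left.right RtB17_7.Ce.right.right.right.right.left.left RtB17_7.CTp RtB17_7.CEr 0x212121015963776f06bf56f0807cd169583573c157b3d2b8e6e6dcfa6e240d56933421742174217 = true := by decide +kernel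

end Vale.Agent.helper4.Q4
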