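import Vale.Agent.helper4.Q4TreeM
import Vale.Agent.helper4.Q4G.PB17_7

/-!
Checks for pairs of intervals of second moments.
-/

set_option maxRecDepth 100000
set_option linter.unusedVariables false

namespace Vale.Agent.helper4.Q4

theorem cB17_7_3_32 : chunkOkM (LB17_7.ctx true true 249 59 32 7 16 1505 2365 16 32) muQ true true 64 RtB17_7.Cx.left.right RtB17_7.CX RtB17_7.Ctp.right.right.left.right.left RtB17_7.Ce.right.right.left.right.left.right RtB17_7.CTp RtB17_7.CEr 0xe687266dd18c4006d8149251618d530db29fbf57cd19015d6d85bc21457d61aadec648d540d3ed8bbb6dd6103fd6d8131c89e38d530d494c1b607cd8f06896d8cb65ad6e624aa01008d540da9562c6dd7a41b76d886c64ab7d61f23f6e38d540d43 = true := by decide +kernel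

theorem cB17_7_3_33 : chunkOkM (LB17_7.ctx true true 232 29 16 7 16 385 1155 16 32) muQ true true 64 RtB17_7.Cx.left RtB17_7.CX RtB17_7.Ctp.right.right.left.right.right RtB17_7.Ce.right.right.left.right.left.left RtB17_7.CTp RtB17_7.CEr 0x14cd2bf7ddd6e89a63c20d = true := by decide +kernel

theorem cB17_7_3_34 : chunkOkM (LB17_7.ctx true true 272 227 128 7 16 1533 4697 32 64) muQ true true 64 RtB17_7.Cx.left.left RtB17_7.CX RtB17_7.Ctp.right.right.left.right.right.left RtB17_7.Ce.right.right.left.right.left.right.left RtB17_7.CTp RtB17_7.CEr 0x8ac9cba7cdcc5c6b6d82a77d3c28d6b0d6bb17d540d691bd31427dd27a878c73c90e28a1f8d630dfb12586f06baead4f01c3bb64d47dd185213a73c97c91c87e630d7384e3a37dd1c6a0e573cb70f6947e630d43675 = true := by decide +kernel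

theorem cB17_7_3_35 : chunkOkM (LB17_7.ctx true true 279 227 128 7 16 3045 9449 32 64) muQ true true 64 RtB17_7.Cx.left.left.left RtB17_7.CX RtB17_7.Ctp.right.right.left.right.right.left.left RtB17_7.Ce.right.right.left.right.left.right.right.left RtB17_7.CTp RtB17_7.CEr 0x99bf2377cdce5ee9f7c84242d1d7e6bd69bba7d540d27159177dd2460cde73c4f5d15d7e6d6270077d540d331b8717dd15f89c873c1000a8748e630d2482ea87dd109fb6273c3cb32107e6edb17d27d540d36470e3c17dd2e64e5073cdd444ac7e66a03a447d540d29dc14d7dd142234273cb309bb67e630d2aa747ae8cd1404bc573ceaa92b57e630d2be265cb8cd12a494373cf8a47a87e61144e467d540d43675 = true := by decide +kernel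

theorem cB17_7_3_36 : chunkOkM (LB17_7.ctx true true 285 451 256 7 16 3045 9493 32 64) muQ true true 64 RtB17_7.Cx.left.left.left RtB17_7.CX RtB17_7.Ctp.right.right.left.right.right.left.left RtB17_7.Ce.right.right.left.right.left.right.right.right RtB17_7.CTp RtB17_7.CEr 0xa3c9a0e7cdbb62fa67c836661d17e6f7bfb847d540d2ef7ad2e8cd267a01c73c4bc1e0f7e6e66a1687d540d2ff6ade78cd13835ea73cb75f4ff7e6651be8e7d540d2d0cfac7dd11561ea73c95579707e630d43f3474388cd18a9aac73c35094ae7e6125079548d540d366944bd6ee98cd328010f73c98251957e630d2842005b8cd12ea18bb82cfc54a687e630d6469769375 = true := by decide +kernel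

theorem cB17_7_3_37 : chunkOkM (LB17_7.ctx true true 272 227 128 7 16 1533 4741 32 64) muQ true true 64 RtB17_7.Cx.left.left.left RtB17_7.CX RtB17_7.Ctp.right.right.left.right.right.left.right RtB17_7.Ce.right.right.left.right.left.right.right RtB17_7.CTp RtB17_7.CEr 0xb00f3177cdc88bb16d857757be7e630d4aecdd37dd2faf1cc73ccab608c7e630d3d0fcaa7dd211bd6873cb29de077e630d63f3666eb8cd2d0f87573c94647e67e630d36587907dd1ba3a0473c6bc542d7e630d675d8e0887dd38f38a273c87d97297e630d4b1af627dd28e39ab73c872d90d7e630d645 = true := by decide +kernel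

theorem cB17_7_3_38 : chunkOkM (LB17_7.ctx true true 263 115 64 7 16 1533 2365 32 64) muQ true true 64 RtB17_7.Cx.left.left.right RtB17_7.CX RtB17_7.Ctp.right.right.left.right.right.left RtB17_7.Ce.right.right.left.right.left.right.right RtB17_7.CTp RtB17_7.CEr 0x8650f2d7cda9cfba6d83f6d600c8d611e1f9d68d540d263b7cf7dd28c666a73c20d23cdee17dd1bfe20f73c2f0b90a7e6162dbc498d540d22fc6837dde897cb63c300c83a7e612442ebd8d540d635 = true := by decide +kernel

theorem cB17_7_3_39 : chunkOkM (LB17_7.ctx true true 250 57 32 7 16 777 1177 32 64) muQ true true 64 RtB17_7.Cx.left.left RtB17_7.CX RtB17_7.Ctp.right.right.left.right.right.right RtB17_7.Ce.right.right.left.right.left.right RtB17_7.CTp RtB17_7.CEr 0xaad28e37cd5868eb6d884ad091f8d630d7c6fa5d7dd40e83bc73c6ee4dc7b8d630d701f14e7dd3503e1473c5cbc37408d630d65 = true := by decide +kernel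

theorem cB17_7_3_40 : chunkOkM (LB17_7.ctx true true 92 1 1 1 1 1 1 1 1) muQ true true 64 RtB17_7.Cx.left.right RtB17_7.CX RtB17_7.Ctp.right.right.left.right.right RtB17_7.Ce.right.right.left.right.left.right RtB17_7.CTp RtB17_7.CEr 0x69 = true := by decide +kernel

theorem cB17_7_3_41 : chunkOkM (LB17_7.ctx true true 226 31 16 7 16 189 583 16 32) muQ true true 64 RtB17_7.Cx.right RtB17_7.CX RtB17_7.Ctp.right.right.left.right RtB17_7.Ce.right.right.left.right.left RtB17_7.CTp RtB17_7.CEr 0x3a5b3c6dd10159467d830f2d5d713d564658d62580e0bc8d550d = true := by decide +kernel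

theorem cB17_7_3_42 : chunkOkM (LB17_7.ctx true true 299 927 512 7 16 12089 19107 32 32) muQ true true 64 RtB17_7.Cx.left.left RtB17_7.CX RtB17_7.Ctp.right.right.left.right.left RtB17_7.Ce.right.right.left.right.right.left RtB17_7.CTp RtB17_7.CEr 0x5959597c7b1107cdfdf6ced7c81d2b1707e530d148208b98cd8d3728572c19e954b7e530d55934597593459759359765efca47cd130f80b08c818836bb7e619bca5328d540d1243856b8cda4011963c1a099067e6199c4f168d540d559597dfac5b7cdf169eb27c818e0a0c7e530d1588765a8cdbf6291972c1a63d027e530d559345975934597593745935974593 = true := by decide +kernel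

theorem cB17_7_3_43 : chunkOkM (LB17_7.ctx true true 242 59 32 7 16 735 1199 16 32) muQ true true 64 RtB17_7.Cx.left.right RtB17_7.CX RtB17_7.Ctp.right.right.left.right.left.left RtB17_7.Ce.right.right.left.right.right.left RtB17_7.CTp RtB17_7.CEr 0xaad4986dde6720c6d8e7adf66e627d4bac58d540d = true := by decide +kernel

theorem cB17_7_3_44 : chunkOkM (LB17_7.ctx true true 263 119 64 7 16 1505 4785 32 32) muQ true true 64 RtB17_7.Cx.left.right RtB17_7.CX RtB17_7.Ctp.right.right.left.right.left.right RtB17_7.Ce.right.right.left.right.right.left.left RtB17_7.CTp RtB17_7.CEr 0x960a2197cd5484826d8abc7c56e61d0098598d540d3da39907cd167676f7d8a1a51f6e61d2e96928d540d18b02817dd117dca373cd82b0f6e61da1ec218d540d5c757236d83e15e577e620f801308d530d117fd297dd53086063c9fc4e06e619d860168d540d54ba15d187cd2167e46d8a0ac446e61dcc36dc8d540d37 = true := by decide +kernel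

end Vale.Agent.helper4.Q4
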