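import Vale.Agent.helper4.Q4TreeM
import Vale.Agent.helper4.Q4G.PB17_7

/-!
Checks for pairs of intervals of second moments.
-/

set_option maxRecDepth 100000
set_option linter.unusedVariables false

namespace Vale.Agent.helper4.Q4

theorem cB17_7_3_270 : chunkOkM (LB17_7.ctx true true 284 499 256 7 16 3269 10593 32 32) muQ true true 64 RtB17_7.Cx.right.right.left.left RtB17_7.CX RtB17_7.Ctp.right.right.right.left.right.left.left RtB17_7.Ce.right.right.right.right.left.left.left.left RtB17_7.CTp RtB17_7.CEr 0x798c8f6f06bca594ff7cd15062e373c12f617b68e630dc91e2927cd11636e073c1337f38a8e630d45698acfe86f06bbb946c27cd10bbe3ec82c11adf0bd8e630d546973 = true := by decide +kernel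

theorem cB17_7_3_271 : chunkOkM (LB17_7.ctx true true 278 251 128 7 16 3269 10593 32 32) muQ true true 64 RtB17_7.Cx.right.right.left.right RtB17_7.CX RtB17_7.Ctp.right.right.right.left.right.left.left RtB17_7.Ce.right.right.right.right.left.left.left.left RtB17_7.CTp RtB17_7.CEr 0xaf36b36f06b11d1a417dd191199373cd002b7f7e630dcdeb53a7cdcafbf363c11e7704d8e630dcee7946dde015be63ccb504627e630d435 = true := by decide +kernel

theorem cB17_7_3_272 : chunkOkM (LB17_7.ctx true true 295 1007 512 7 16 6517 10637 32 32) muQ true true 64 RtB17_7.Cx.right.right.left RtB17_7.CX RtB17_7.Ctp.right.right.right.left.right.left.left RtB17_7.Ce.right.right.right.right.left.left.left.right RtB17_7.CTp RtB17_7.CEr 0x8be6ed6f06bbebf5b07cdf653f663c1a78fa018e630dcf6e9bd7cdeeb00a63c18d850208e630d4516173a6f05bc6cddf57cdc15340572c1e8cf7f78e630d5697693697bbd3ff6f06bcb45c947cdcadbd5772c164676308e630d54369beb2a5e7cdfc234b072c3822d9758e630d46975937 = true := by decide +kernel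

theorem cB17_7_3_273 : chunkOkM (LB17_7.ctx true true 274 251 128 7 16 1645 5291 64 32) muQ true true 64 RtB17_7.Cx.right.right.left RtB17_7.CX RtB17_7.Ctp.right.right.right.left.right.left.right RtB17_7.Ce.right.right.right.right.left.left.left.left RtB17_7.CTp RtB17_7.CEr 0x5aa6146f06b122805c732fbc6f06bca8f186dd1954de473cb193a817e630d575 = true := by decide +kernel

theorem cB17_7_3_274 : chunkOkM (LB17_7.ctx true true 274 251 128 7 16 3297 5313 32 32) muQ true true 64 RtB17_7.Cx.right.right.left RtB17_7.CX RtB17_7.Ctp.right.right.right.left.right.left.right RtB17_7.Ce.right.right.right.right.left.left.left.right RtB17_7.CTp RtB17_7.CEr 0x538e226f06b10ee08f7dd1518e1073cd4b08577e630d56bc9aa6f06bd4401e97cd14e7b2573ca4ce9687e6ab2e9a6e240dd5dc5c27cd14a0dbd73cf33169f7e630d357 = true := by decide +kernel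

theorem cB17_7_3_275 : chunkOkM (LB17_7.ctx true true 275 255 128 7 16 3269 5313 32 32) muQ true true 64 RtB17_7.Cx.right.right.right RtB17_7.CX RtB17_7.Ctp.right.right.right.left.right.left RtB17_7.Ce.right.right.right.right.left.left.left RtB17_7.CTp RtB17_7.CEr 0x69132705cb60ece97cd89794c63c13b9c0c08e630d1514c96f05bcbab366ddd4a70363c1c036e07e61671ad828d540d537e5534f06c43 = true := by decide +kernel

theorem cB17_7_3_276 : chunkOkM (LB17_7.ctx true true 284 503 256 7 16 3269 10659 32 32) muQ true true 64 RtB17_7.Cx.right.right.left RtB17_7.CX RtB17_7.Ctp.right.right.right.left.right.left.left RtB17_7.Ce.right.right.right.right.left.left.right RtB17_7.CTp RtB17_7.CEr 0x59698791c46f06b17735a848cd1d09ce6382c23b177c78e630d546976934597 = true := by decide +kernel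

theorem cB17_7_3_277 : chunkOkM (LB17_7.ctx true true 287 499 256 7 16 3297 10659 32 32) muQ true true 64 RtB17_7.Cx.right.right.left RtB17_7.CX RtB17_7.Ctp.right.right.right.left.right.left.right RtB17_7.Ce.right.right.right.right.left.left.right RtB17_7.CTp RtB17_7.CEr 0x68c1b56f06bca9e4047cd141b7fc73ced763567e630d5ca37dd17cdc2a85563c132d260fa9e630d32175838056f06b10470507dd16e389073c128a3f4d8e630d57623aa6f06bcaa76dd7cd116a4f473c110a51838e630d5321deb3c637cd105e996082c16bbdc588e6ac74f16e240d421769374 = true := by decide +kernel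

theorem cB17_7_3_278 : chunkOkM (LB17_7.ctx true true 284 507 256 7 16 3269 10681 32 32) muQ true true 64 RtB17_7.Cx.right.right.right.left RtB17_7.CX RtB17_7.Ctp.right.right.right.left.right.left.left RtB17_7.Ce.right.right.right.right.left.left.right.left RtB17_7.CTp RtB17_7.CEr 0x171df56f05bc30f0267cdc1a74d63c12e1d3e48e623a1f567d540dd107806ddbbfcc863c153a4ae08e630d45191f056f05bd00b4d67cdbc4c7de72c8fbe0b6e6193e52108d540d569718d4c56f05bc5fdf5f7cdcba5b563c5fb9d0f7e611ce454d8d540d543 = true := by decide +kernel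

theorem cB17_7_3_279 : chunkOkM (LB17_7.ctx true true 274 255 128 7 16 3269 5335 32 32) muQ true true 64 RtB17_7.Cx.right.right.right.right RtB17_7.CX RtB17_7.Ctp.right.right.right.left.right.left.left RtB17_7.Ce.right.right.right.right.left.left.right.left RtB17_7.CTp RtB17_7.CEr 0xbc54c6c7cd5a51e263c20d135a556f05bc1c66a6dd967b3263c31b5fb97e6157602638d540d53 = true := by decide +kernel

end Vale.Agent.helper4.Q4
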