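import Vale.Agent.helper4.Q4TreeM
import Vale.Agent.helper4.Q4G.PB17_7

/-!
Checks for pairs of intervals of second moments.
-/

set_option maxRecDepth 100000
set_option linter.unusedVariables false

namespace Vale.Agent.helper4.Q4

theorem cB17_7_3_280 : chunkOkM (LB17_7.ctx true true 307 2031 1024 7 16 13041 21395 32 32) muQ true true 64 RtB17_7.Cx.right.right.right.left RtB17_7.CX RtB17_7.Ctp.right.right.right.left.right.left.left RtB17_7.Ce.right.right.right.right.left.left.right.right RtB17_7.CTp RtB17_7.CEr 0x154e236f05bbba395f7cdb9934b672c1b6f77d38e630d569769359719a1086f05bc9030b37cdcb17d0f72cdc651ad7e650a33de7d540d545959df8485f05bbe036237cdba50be572c16add36d8e630d5697593459759345973 = true := by decide +kernel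

theorem cB17_7_3_281 : chunkOkM (LB17_7.ctx true true 277 255 128 7 16 3269 10725 32 32) muQ true true 64 RtB17_7.Cx.right.right.right.right RtB17_7.CX RtB17_7.Ctp.right.right.right.left.right.left.left RtB17_7.Ce.right.right.right.right.left.left.right.right RtB17_7.CTp RtB17_7.CEr 0x158caa6f05bd294ed6ddbdfeac63c257d6017e61466595f8d540d51b2bf96f05bb125c577cd7251fba72c1b698e97e61cc1e8628d540d518827e6f05bc31268e7cdd7651763c317733f7e61a5b87b38d540d543 = true := by decide +kernel

theorem cB17_7_3_282 : chunkOkM (LB17_7.ctx true true 278 255 128 7 16 3297 10725 32 32) muQ true true 64 RtB17_7.Cx.right.right.right RtB17_7.CX RtB17_7.Ctp.right.right.right.left.right.left.right RtB17_7.Ce.right.right.right.right.left.left.right RtB17_7.CTp RtB17_7.CEr 0xa958f877cd7fa6fc63c14c3324f8e630d50dd176f06bbfd8926dd12b25a473caa83fee7e630d58648f96f06bb08f3ab7cddbc3e963c135f52088e630dcc6ab9e7cdeb856163c1bb74ebb8e630d4537fb8525f05bc76a376ddee37ac63cb0e568c7e630d54 = true := by decide +kernel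

theorem cB17_7_3_283 : chunkOkM (LB17_7.ctx true true 271 251 128 7 16 1659 5357 32 32) muQ true true 64 RtB17_7.Cx.right.right RtB17_7.CX RtB17_7.Ctp.right.right.right.left.right.right RtB17_7.Ce.right.right.right.right.left.left RtB17_7.CTp RtB17_7.CEr 0xd3eebaf7cdf69bd263c15e3bb9539d630d011a460f6f02bc1969b6dd14022ca73caf4fe7a7e6c0504f6e240d5217e11a2f77cd1176ba873c143ac997e61d341337e240d437ec10596dd144847b73c13bb06ece9d1350776fc89d040d4 = true := by decide +kernel

theorem cB17_7_3_284 : chunkOkM (LB17_7.ctx true true 92 1 1 1 1 1 1 1 1) muQ true true 64 RtB17_7.Cx.right.left RtB17_7.CX RtB17_7.Ctp.right.right.right.left.right RtB17_7.Ce.right.right.right.right.left.right RtB17_7.CTp RtB17_7.CEr 0x21 = true := by decide +kernel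

theorem cB17_7_3_285 : chunkOkM (LB17_7.ctx true true 92 1 1 1 1 1 1 1 1) muQ true true 64 RtB17_7.Cx.right.right.left RtB17_7.CX RtB17_7.Ctp.right.right.right.left.right.left RtB17_7.Ce.right.right.right.right.left.right RtB17_7.CTp RtB17_7.CEr 0x69 = true := by decide +kernel

theorem cB17_7_3_286 : chunkOkM (LB17_7.ctx true true 314 2047 1024 7 16 26201 43131 32 32) muQ true true 64 RtB17_7.Cx.right.right.right RtB17_7.CX RtB17_7.Ctp.right.right.right.left.right.left.left RtB17_7.Ce.right.right.right.right.left.right.left RtB17_7.CTp RtB17_7.CEr 0x5959592d2865f05bb7526d07cd9c69c1272c1d21f907f630d559345975934597593459759319aeb66f05bcecff1f7cd7ac99a172c66b24477e614e370008d540d56971936576f05ba94e3d37cdd5b48f63cd4e40a6e61b7e62e98d540d548a0fd1f7cd5fcf0263c211118e7e61b5afa838d540d34697 = true := by decide +kernel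

theorem cB17_7_3_287 : chunkOkM (LB17_7.ctx true true 284 507 256 7 16 3297 10769 32 32) muQ true true 64 RtB17_7.Cx.right.right.right RtB17_7.CX RtB17_7.Ctp.right.right.right.left.right.left.right RtB17_7.Ce.right.right.right.right.left.right.left.left RtB17_7.CTp RtB17_7.CEr 0xa63c45f05bb6ad7f6dde5b9ab63c137ea7ea8e630d5170c0d6f05bbff3f147cdcb5c3d63cc8d35a07e6bc96c717d540db945e86ddbc8cf363cfe79cb97e630d45372f0e66f06bbd942a47cd11483e673c100864518e630d569b8d14917cd9ad671272c1bfd68148e630d469737 = true := by decide +kernel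

theorem cB17_7_3_288 : chunkOkM (LB17_7.ctx true true 290 511 256 7 16 6573 10813 32 32) muQ true true 64 RtB17_7.Cx.right.right.right RtB17_7.CX RtB17_7.Ctp.right.right.right.left.right.left.right RtB17_7.Ce.right.right.right.right.left.right.left.right RtB17_7.CTp RtB17_7.CEr 0x183c356f05ba5f16097cdd4b14363c129c7ca48e630d516287b6f05baf83ddb7cdd5639863c15d5a8708e630d54a7660207cd79e642a72c22a614c18e630d69359719cc1d6f05bc5e8a587cdc7f698372ca1404d87e692f95257d540d543be1c2fb7cdc6ff6563ceebc2d5b8e630d7 = true := by decide +kernel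

theorem cB17_7_3_289 : chunkOkM (LB17_7.ctx true true 280 511 256 7 16 3297 10835 16 32) muQ true true 64 RtB17_7.Cx.right.right.right RtB17_7.CX RtB17_7.Ctp.right.right.right.left.right.left RtB17_7.Ce.right.right.right.right.left.right.right RtB17_7.CTp RtB17_7.CEr 0x5969a79d7fa7cd913103f72c1a94a7728e630d46975934597593 = true := by decide +kernel

theorem cB17_7_3_290 : chunkOkM (LB17_7.ctx true true 281 1007 512 7 16 833 10747 32 32) muQ true true 64 RtB17_7.Cx.right.right.left RtB17_7.CX RtB17_7.Ctp.right.right.right.left.right.right RtB17_7.Ce.right.right.right.right.left.right.left RtB17_7.CTp RtB17_7.CEr 0x21211e1a606f02bc5c7686dd138f40e73c9caa0ed7e6146aa637e240d521742174217 = true := by decide +kernel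

end Vale.Agent.helper4.Q4
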