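import Vale.Agent.helper4.Q4TreeM
import Vale.Agent.helper4.Q4G.PB17_7

/-!
Checks for pairs of intervals of second moments.
-/

set_option maxRecDepth 100000
set_option linter.unusedVariables false

namespace Vale.Agent.helper4.Q4

theorem cB17_7_3_291 : chunkOkM (LB17_7.ctx true true 270 255 128 7 16 1659 5379 32 32) muQ true true 64 RtB17_7.Cx.right.right.right RtB17_7.CX RtB17_7.Ctp.right.right.right.left.right.right.left RtB17_7.Ce.right.right.right.right.left.right.left.left RtB17_7.CTp RtB17_7.CEr 0x55d2146f06b11905cc3a5ee6dd1441ffd73cbc0e5e37e68d1bd5e240d75 = true := by decide +kernel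

theorem cB17_7_3_292 : chunkOkM (LB17_7.ctx true true 275 255 128 7 16 3325 5401 32 32) muQ true true 64 RtB17_7.Cx.right.right.right RtB17_7.CX RtB17_7.Ctp.right.right.right.left.right.right.left RtB17_7.Ce.right.right.right.right.left.right.left.right RtB17_7.CTp RtB17_7.CEr 0x4dfa8b6f06bf1fd356dd1445a2173cc75f4b97e630d519a3f56f02bbf80b26dd1427cfc73c115581388e6b102f26e240d565dee56f06bbd2dc667cd13f4d8f73c11ea91998e630d537 = true := by decide +kernel

theorem cB17_7_3_293 : chunkOkM (LB17_7.ctx true true 257 127 64 7 16 1673 2695 16 32) muQ true true 64 RtB17_7.Cx.right.right.right RtB17_7.CX RtB17_7.Ctp.right.right.right.left.right.right.right RtB17_7.Ce.right.right.right.right.left.right.left RtB17_7.CTp RtB17_7.CEr 0xd49b41a7cd13e0cb473c8d1fc2938d11921797af9d040d = true := by decide +kernel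

theorem cB17_7_3_294 : chunkOkM (LB17_7.ctx true true 92 1 1 1 1 1 1 1 1) muQ true true 64 RtB17_7.Cx.right.right.left RtB17_7.CX RtB17_7.Ctp.right.right.right.left.right.right RtB17_7.Ce.right.right.right.right.left.right.right RtB17_7.CTp RtB17_7.CEr 0x21 = true := by decide +kernel

theorem cB17_7_3_295 : chunkOkM (LB17_7.ctx true true 283 511 256 7 16 3325 5445 32 32) muQ true true 64 RtB17_7.Cx.right.right.right RtB17_7.CX RtB17_7.Ctp.right.right.right.left.right.right.left RtB17_7.Ce.right.right.right.right.left.right.right RtB17_7.CTp RtB17_7.CEr 0x5e43936f06bbaabc2a7cd16e3ec473cfd753627e630d5b21ecfe7cdc536e8b72c8fd281568e630d3697217536bc36f06bb4f0216dd13296e973ce79c6257e630d56fe4616f06bb2777777cd10da31973cfb9740d7e630d53c09cf627cd100981b73c1265efc08e6142f624b8d240d69374 = true := by decide +kernel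

theorem cB17_7_3_296 : chunkOkM (LB17_7.ctx true true 275 255 128 7 16 3339 5445 32 32) muQ true true 64 RtB17_7.Cx.right.right.right RtB17_7.CX RtB17_7.Ctp.right.right.right.left.right.right.right RtB17_7.Ce.right.right.right.right.left.right.right RtB17_7.CTp RtB17_7.CEr 0x0118f0166f02bad4f686dd13693ff73cdef14b07e6e7be0f6e240d53c64d5b07cd11088a073cb04ad66e61eb11bb7e240d4017 = true := by decide +kernel

theorem cB17_7_3_297 : chunkOkM (LB17_7.ctx true true 267 255 128 7 16 1673 5467 16 32) muQ true true 64 RtB17_7.Cx.right RtB17_7.CX RtB17_7.Ctp.right.right.right.left RtB17_7.Ce.right.right.right.right.right RtB17_7.CTp RtB17_7.CEr 0x212121b4bad757cdff822563cc98e3be7e613e41d618d240d401769342175932174593 = true := by decide +kernel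

theorem cB17_7_3_298 : chunkOkM (LB17_7.ctx true true 92 1 1 1 1 1 1 1 1) muQ true true 64 RtB17_7.Cx RtB17_7.CX RtB17_7.Ctp.right.right.right.right RtB17_7.Ce.right.right.right RtB17_7.CTp RtB17_7.CEr 0x01 = true := by decide +kernel

theorem cB17_7_2_0 : chunkOkM (LB17_7.ctx false true 92 1 1 1 1 1 1 1 1) muQ false true 64 RtB17_7.Cx RtB17_7.CX RtB17_7.Ctn RtB17_7.Ce RtB17_7.CTp RtB17_7.CEr 0x49 = true := by decide +kernel

theorem cB17_7_1_0 : chunkOkM (LB17_7.ctx true false 92 1 1 1 1 1 1 1 1) muQ true false 64 RtB17_7.Cx RtB17_7.CX RtB17_7.Ctp.left RtB17_7.Ce RtB17_7.CTn RtB17_7.CEr 0x41 = true := by decide +kernel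

theorem cB17_7_1_1 : chunkOkM (LB17_7.ctx true false 92 1 1 1 1 1 1 1 1) muQ true false 64 RtB17_7.Cx RtB17_7.CX RtB17_7.Ctp.right RtB17_7.Ce.left RtB17_7.CTn RtB17_7.CEr 0x69 = true := by decide +kernel

theorem cB17_7_1_2 : chunkOkM (LB17_7.ctx true false 252 113 64 7 16 665 77 32 512) muQ true false 64 RtB17_7.Cx RtB17_7.CX RtB17_7.Ctp.right.left RtB17_7.Ce.right RtB17_7.CTn.left.left.left RtB17_7.CEr.left.left.left.left 0x4949497c7f79a7d62ecd1b57e5432105f430dd41ab8028c62ad5554e8d5438bd5f430d4777493493493413 = true := by decide +kernel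

theorem cB17_7_1_3 : chunkOkM (LB17_7.ctx true false 92 1 1 1 1 1 1 1 1) muQ true false 64 RtB17_7.Cx RtB17_7.CX RtB17_7.Ctp.right.right RtB17_7.Ce.right.left RtB17_7.CTn.left.left.left RtB17_7.CEr.left.left.left.left 0x69 = true := by decide +kernel

theorem cB17_7_1_4 : chunkOkM (LB17_7.ctx true false 245 31 16 7 16 357 561 32 512) muQ true false 64 RtB17_7.Cx RtB17_7.CX RtB17_7.Ctp.right.right.left RtB17_7.Ce.right.right.left.left RtB17_7.CTn.left.left.left RtB17_7.CEr.left.left.left.left 0x6d2f85fd169ddb728d618e3e44f8d530d084d688d7d61f992d3b8d520d755eda6b7d62e1fa5468d514982bd7e430d308c517ad7d6272db2ce8d5575f85e430d343 = true := by decide +kernel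

theorem cB17_7_1_5 : chunkOkM (LB17_7.ctx true false 246 31 16 7 16 357 605 32 512) muQ true false 64 RtB17_7.Cx RtB17_7.CX RtB17_7.Ctp.right.right.left.left RtB17_7.Ce.right.right.left.right RtB17_7.CTn.left.left.left RtB17_7.CEr.left.left.left.left 0xd68f3387d642ca288b8d5224ef527e430deacf8737d62e35356b8d5197d61d7e430de95b7837d630386e278d520d7782466498d6a2c35bb78d578f8a707e430d34 = true := by decide +kernel

theorem cB17_7_1_6 : chunkOkM (LB17_7.ctx true false 268 115 64 7 16 777 2365 32 512) muQ true false 64 RtB17_7.Cx.left RtB17_7.CX RtB17_7.Ctp.right.right.left.right RtB17_7.Ce.right.right.left.right.left RtB17_7.CTn.left.left.left RtB17_7.CEr.left.left.left.left 0x690a50a55f05b36ae246ed96f5a763c40344a57e69d66c3c7d540d74985956f06b4370434c777ef8d62ad273f28d520d2a3455fd1ad7554c13efb26d8d61a2073f88d540d7126705fdf6775787d6173165d38d530d43 = true := by decide +kernel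

theorem cB17_7_1_7 : chunkOkM (LB17_7.ctx true false 242 31 16 7 16 189 583 32 512) muQ true false 64 RtB17_7.Cx.right RtB17_7.CX RtB17_7.Ctp.right.right.left.right RtB17_7.Ce.right.right.left.right.left RtB17_7.CTn.left.left.left RtB17_7.CEr.left.left.left.left 0xb034e5f05b = true := by decide +kernel

theorem cB17_7_1_8 : chunkOkM (LB17_7.ctx true false 245 29 16 7 16 371 605 32 512) muQ true false 64 RtB17_7.Cx.left RtB17_7.CX RtB17_7.Ctp.right.right.left.right.left RtB17_7.Ce.right.right.left.right.right RtB17_7.CTn.left.left.left RtB17_7.CEr.left.left.left.left 0xc38c9167d6258b93a78d520d = true := by decide +kernel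

theorem cB17_7_1_9 : chunkOkM (LB17_7.ctx true false 268 115 64 7 16 777 2409 32 512) muQ true false 64 RtB17_7.Cx.left RtB17_7.CX RtB17_7.Ctp.right.right.left.right.right RtB17_7.Ce.right.right.left.right.right.left RtB17_7.CTn.left.left.left RtB17_7.CEr.left.left.left.left 0x3bf025fd1ea21d378d61684403a8d530d558a3f6f06b2b8be66ed124967c73c5378ccbb8d630d704cb0f5ed1c9169d73c5d713b17e630d74103fa36edcd11053c112d5ed08d6143fc8858d540d697af439c6ed2db58b17e6e539f1a7d530d40d8706edc325ae63c4cbcaa038d6a20bcf67d540d7437 = true := by decide +kernel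

theorem cB17_7_1_10 : chunkOkM (LB17_7.ctx true false 272 115 64 7 16 1561 2453 32 512) muQ true false 64 RtB17_7.Cx.left.left RtB17_7.CX RtB17_7.Ctp.right.right.left.right.right RtB17_7.Ce.right.right.left.right.right.right RtB17_7.CTn.left.left.left RtB17_7.CEr.left.left.left.left 0xf5b5b5ed91cede63c9c3dceeb8d630d21752184a6f06b9aaa746f06b3614e886f06b741ff7b96f05b3 = true := by decide +kernel

end Vale.Agent.helper4.Q4
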