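import Vale.Agent.helper4.Q4TreeM
import Vale.Agent.helper4.Q4G.PB17_7

/-!
Checks for pairs of intervals of second moments.
-/

set_option maxRecDepth 100000
set_option linter.unusedVariables false

namespace Vale.Agent.helper4.Q4

theorem cB17_7_1_11 : chunkOkM (LB17_7.ctx true false 268 119 64 7 16 777 2453 32 512) muQ true false 64 RtB17_7.Cx.left.right RtB17_7.CX RtB17_7.Ctp.right.right.left.right.right RtB17_7.Ce.right.right.left.right.right.right RtB17_7.CTn.left.left.left RtB17_7.CEr.left.left.left.left 0x1181bf6f05b1d4fc06ed87786163c47cfcac7e6cce1d1b7d540d733cfd56ed402a254c44095cb98d61083e38f8d540d49429ffe7d61a8857998d520d3 = true := by decide +kernel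

theorem cB17_7_1_12 : chunkOkM (LB17_7.ctx true false 253 31 16 7 16 749 1221 32 512) muQ true false 64 RtB17_7.Cx.right RtB17_7.CX RtB17_7.Ctp.right.right.left.right RtB17_7.Ce.right.right.left.right.right RtB17_7.CTn.left.left.left RtB17_7.CEr.left.left.left.left 0x16205a178d61ebf4fe78d520d2154f76f05b7a2531e7d62d74ddaf8d510043227e430d39d3202f7d62526afa78d520d43 = true := by decide +kernel

theorem cB17_7_1_13 : chunkOkM (LB17_7.ctx true false 272 115 64 7 16 1589 2453 32 512) muQ true false 64 RtB17_7.Cx RtB17_7.CX RtB17_7.Ctp.right.right.right RtB17_7.Ce.right.right.left RtB17_7.CTn.left.left.left RtB17_7.CEr.left.left.left.left 0x0111012fef8f6f06b0115aea56f02b75f035ed254ef7973c7a33983d8d630d321746b2866f06b1eb09247ed17b918c73c5f57068b8d6d5899497d240d7437132ac66f02b4371141143 = true := by decide +kernel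

theorem cB17_7_1_14 : chunkOkM (LB17_7.ctx true false 92 1 1 1 1 1 1 1 1) muQ true false 64 RtB17_7.Cx RtB17_7.CX RtB17_7.Ctp.right.right.left.left RtB17_7.Ce.right.right.right RtB17_7.CTn.left.left.left RtB17_7.CEr.left.left.left.left 0x59 = true := by decide +kernel

theorem cB17_7_1_15 : chunkOkM (LB17_7.ctx true false 268 119 64 7 16 777 2497 32 512) muQ true false 64 RtB17_7.Cx.left RtB17_7.CX RtB17_7.Ctp.right.right.left.right RtB17_7.Ce.right.right.right.left.left RtB17_7.CTn.left.left.left RtB17_7.CEr.left.left.left.left 0x2919f66f05b100c06a98d619e1142b8d520d186fae6ed33d6a663c2f0f1a97e61475ccd68d540d1409bf973c4da63c058d6dc714ca7d530d7424f47d6f05b34597593 = true := by decide +kernel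

theorem cB17_7_1_16 : chunkOkM (LB17_7.ctx true false 255 63 32 7 16 385 1265 32 512) muQ true false 64 RtB17_7.Cx.right RtB17_7.CX RtB17_7.Ctp.right.right.left.right RtB17_7.Ce.right.right.right.left.left RtB17_7.CTn.left.left.left RtB17_7.CEr.left.left.left.left 0x24f02eeb8d62d315ca28d520dc5dbdd27d6239e538c8d520d71a03c16f05b1b4bfa4e8d61ebb8c838d520d7412999a758d635388b228d5bc0d306e430d3 = true := by decide +kernel

theorem cB17_7_1_17 : chunkOkM (LB17_7.ctx true false 246 31 16 7 16 385 649 32 512) muQ true false 64 RtB17_7.Cx RtB17_7.CX RtB17_7.Ctp.right.right.left.right RtB17_7.Ce.right.right.right.left.right RtB17_7.CTn.left.left.left RtB17_7.CEr.left.left.left.left 0x13c192548d62d3144088d520d597593 = true := by decide +kernel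

theorem cB17_7_1_18 : chunkOkM (LB17_7.ctx true false 92 1 1 1 1 1 1 1 1) muQ true false 64 RtB17_7.Cx RtB17_7.CX RtB17_7.Ctp.right.right.left.right RtB17_7.Ce.right.right.right.right RtB17_7.CTn.left.left.left RtB17_7.CEr.left.left.left.left 0x59 = true := by decide +kernel

theorem cB17_7_1_19 : chunkOkM (LB17_7.ctx true false 278 231 128 7 16 791 4939 32 512) muQ true false 64 RtB17_7.Cx.left.left RtB17_7.CX RtB17_7.Ctp.right.right.right.left.left RtB17_7.Ce.right.right.right.left.left.left RtB17_7.CTn.left.left.left RtB17_7.CEr.left.left.left.left 0x2121014e774b6ed4cebb5a73cccd6876b8d630d342174217 = true := by decide +kernel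

theorem cB17_7_1_20 : chunkOkM (LB17_7.ctx true false 272 119 64 7 16 1589 2497 32 512) muQ true false 64 RtB17_7.Cx.left.right RtB17_7.CX RtB17_7.Ctp.right.right.right.left.left RtB17_7.Ce.right.right.right.left.left.left RtB17_7.CTn.left.left.left RtB17_7.CEr.left.left.left.left 0x16953e6f02b3fae0c6f06b17d0cc6ed74747163c632ea5b7e6a5cc6247d540d315cf9fd73c5c10609f8d622e74697d230d70ee736f06b3704eead46f06b6f0acd6f06b3743 = true := by decide +kernel

theorem cB17_7_1_21 : chunkOkM (LB17_7.ctx true false 92 1 1 1 1 1 1 1 1) muQ true false 64 RtB17_7.Cx.left.left RtB17_7.CX RtB17_7.Ctp.right.right.right.left.left RtB17_7.Ce.right.right.right.left.left.right RtB17_7.CTn.left.left.left RtB17_7.CEr.left.left.left.left 0x21 = true := by decide +kernel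

theorem cB17_7_1_22 : chunkOkM (LB17_7.ctx true false 275 119 64 7 16 1589 5049 32 512) muQ true false 64 RtB17_7.Cx.left.right RtB17_7.CX RtB17_7.Ctp.right.right.right.left.left.left RtB17_7.Ce.right.right.right.left.left.right RtB17_7.CTn.left.left.left RtB17_7.CEr.left.left.left.left 0x1c86cb6ed8131b54c6ef109968d67ac46667d540d6813e36f06b586b526f06b49506b5ed11026163c1f7a17fc8d613f787da8d540d34697 = true := by decide +kernel

theorem cB17_7_1_23 : chunkOkM (LB17_7.ctx true false 276 119 64 7 16 1617 5093 32 512) muQ true false 64 RtB17_7.Cx.left.right RtB17_7.CX RtB17_7.Ctp.right.right.right.left.left.right RtB17_7.Ce.right.right.right.left.left.right RtB17_7.CTn.left.left.left RtB17_7.CEr.left.left.left.left 0x18d0236f02b71de7b6f06b69d2906f06b43217274c8f773c53515cad8d620fff6f7d230d58c5e36ed54a20f63c5041b0798d61020e5ba8d240d74 = true := by decide +kernel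

theorem cB17_7_1_24 : chunkOkM (LB17_7.ctx true false 92 1 1 1 1 1 1 1 1) muQ true false 64 RtB17_7.Cx.left RtB17_7.CX RtB17_7.Ctp.right.right.right.left.right RtB17_7.Ce.right.right.right.left.left RtB17_7.CTn.left.left.left RtB17_7.CEr.left.left.left.left 0x01 = true := by decide +kernel

theorem cB17_7_1_25 : chunkOkM (LB17_7.ctx true false 269 123 64 7 16 805 2541 32 512) muQ true false 64 RtB17_7.Cx.right RtB17_7.CX RtB17_7.Ctp.right.right.right.left RtB17_7.Ce.right.right.right.left.left RtB17_7.CTn.left.left.left RtB17_7.CEr.left.left.left.left 0x11694666e56f06b15a3826f05b1f46556ed5b40a763c31d164c7e6110ad4098d540d712fdad6ed61bfb54c31d613218d6106413978d540d437043 = true := by decide +kernel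

theorem cB17_7_1_26 : chunkOkM (LB17_7.ctx true false 284 479 256 7 16 805 5115 32 512) muQ true false 64 RtB17_7.Cx.left RtB17_7.CX RtB17_7.Ctp.right.right.right.left RtB17_7.Ce.right.right.right.left.right RtB17_7.CTn.left.left.left RtB17_7.CEr.left.left.left.left 0x212121012c1171773c704cde998d620d5933217421742174217 = true := by decide +kernel

theorem cB17_7_1_27 : chunkOkM (LB17_7.ctx true false 259 61 32 7 16 791 1287 32 512) muQ true false 64 RtB17_7.Cx.right.left RtB17_7.CX RtB17_7.Ctp.right.right.right.left.left.left RtB17_7.Ce.right.right.right.left.right.left RtB17_7.CTn.left.left.left RtB17_7.CEr.left.left.left.left 0x92a3a5ed25bd254c141fbb038d618bbcbd88d540d = true := by decide +kernel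

theorem cB17_7_1_28 : chunkOkM (LB17_7.ctx true false 276 123 64 7 16 1617 5137 32 512) muQ true false 64 RtB17_7.Cx.right.left RtB17_7.CX RtB17_7.Ctp.right.right.right.left.left.right RtB17_7.Ce.right.right.right.left.right.left.left RtB17_7.CTn.left.left.left RtB17_7.CEr.left.left.left.left 0x941085f05b4c758f473c5cd8f727e620d7adf266f06b65afc36f06b437 = true := by decide +kernel

end Vale.Agent.helper4.Q4
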