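import Vale.Agent.helper4.Q4TreeM
import Vale.Agent.helper4.Q4G.PB17_7

/-!
Checks for pairs of intervals of second moments.
-/

set_option maxRecDepth 100000
set_option linter.unusedVariables false

namespace Vale.Agent.helper4.Q4

theorem cB17_7_1_29 : chunkOkM (LB17_7.ctx true false 276 123 64 7 16 1617 5181 32 512) muQ true false 64 RtB17_7.Cx.right.left RtB17_7.CX RtB17_7.Ctp.right.right.right.left.left.right RtB17_7.Ce.right.right.right.left.right.left.right RtB17_7.CTn.left.left.left RtB17_7.CEr.left.left.left.left 0x5788c56f06b1aa90f6ed51473d63c506c3757e6dfd144c7d540d37bb3ac6f06b7b47546f06b4aa78576f06b37 = true := by decide +kernel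

theorem cB17_7_1_30 : chunkOkM (LB17_7.ctx true false 256 63 32 7 16 399 1287 32 512) muQ true false 64 RtB17_7.Cx.right.right RtB17_7.CX RtB17_7.Ctp.right.right.right.left.left RtB17_7.Ce.right.right.right.left.right.left RtB17_7.CTn.left.left.left RtB17_7.CEr.left.left.left.left 0x642c754c1e32f6e98d61a58679d8d530d = true := by decide +kernel

theorem cB17_7_1_31 : chunkOkM (LB17_7.ctx true false 276 123 64 7 16 1617 5225 32 512) muQ true false 64 RtB17_7.Cx.right RtB17_7.CX RtB17_7.Ctp.right.right.right.left.left RtB17_7.Ce.right.right.right.left.right.right RtB17_7.CTn.left.left.left RtB17_7.CEr.left.left.left.left 0x8b53d5ed5525454c24d0cc97e61750469c8d540d6b66e54c30de6f408d612395c5d8d530d4853eaa57d62269dd768d520d319049564c3d49713b8d6108f42888d530d8ced2f6f06b78edb36f06b41d94256f05b346975937 = true := by decide +kernel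

theorem cB17_7_1_32 : chunkOkM (LB17_7.ctx true false 276 123 64 7 16 1645 5269 32 512) muQ true false 64 RtB17_7.Cx.right RtB17_7.CX RtB17_7.Ctp.right.right.right.left.right RtB17_7.Ce.right.right.right.left.right RtB17_7.CTn.left.left.left RtB17_7.CEr.left.left.left.left 0x1112b605fda958354c2871b99e8d6d902f7a7d540d3011c9a736f02b8967f76f06b33504f173ca4f2d767e620d432176012d5f00b1799aa6edb2635063c664978e7e61a7e2507d240d32944cba73ca57fa4858d618ddb7378d230d743719d4456f02b4 = true := by decide +kernel

theorem cB17_7_1_33 : chunkOkM (LB17_7.ctx true false 92 1 1 1 1 1 1 1 1) muQ true false 64 RtB17_7.Cx.left RtB17_7.CX RtB17_7.Ctp.right.right.right.left RtB17_7.Ce.right.right.right.right RtB17_7.CTn.left.left.left RtB17_7.CEr.left.left.left.left 0x21 = true := by decide +kernel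

theorem cB17_7_1_34 : chunkOkM (LB17_7.ctx true false 256 63 32 7 16 399 1331 32 512) muQ true false 64 RtB17_7.Cx.right RtB17_7.CX RtB17_7.Ctp.right.right.right.left.left RtB17_7.Ce.right.right.right.right.left RtB17_7.CTn.left.left.left RtB17_7.CEr.left.left.left.left 0x59aac544c22419ccd8d61e1c39dc8d530d5974 = true := by decide +kernel

theorem cB17_7_1_35 : chunkOkM (LB17_7.ctx true false 287 495 256 7 16 819 10571 32 512) muQ true false 64 RtB17_7.Cx.right.left RtB17_7.CX RtB17_7.Ctp.right.right.right.left.right RtB17_7.Ce.right.right.right.right.left.left RtB17_7.CTn.left.left.left RtB17_7.CEr.left.left.left.left 0x21212101216af4b73c73db0fd7e620d3421742174217 = true := by decide +kernel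

theorem cB17_7_1_36 : chunkOkM (LB17_7.ctx true false 276 127 64 7 16 1645 5313 32 512) muQ true false 64 RtB17_7.Cx.right.right RtB17_7.CX RtB17_7.Ctp.right.right.right.left.right.left RtB17_7.Ce.right.right.right.right.left.left.left RtB17_7.CTn.left.left.left RtB17_7.CEr.left.left.left.left 0x1025a46f05b7950756f06b582c976f06b412d68c6ed88b3b863c737fd547e662b94337d540d1dd4df273c6c86d817e673aef077d530d437 = true := by decide +kernel

theorem cB17_7_1_37 : chunkOkM (LB17_7.ctx true false 276 127 64 7 16 1645 5357 32 512) muQ true false 64 RtB17_7.Cx.right.right RtB17_7.CX RtB17_7.Ctp.right.right.right.left.right.left RtB17_7.Ce.right.right.right.right.left.left.right RtB17_7.CTn.left.left.left RtB17_7.CEr.left.left.left.left 0x9bb84ed49789463c3b498627e6bfdb09f7d540d23284e63c19dc7a77e6171e00ee8d530d3aed7e76f06b33d494a73cbeab56c7e620d49ea33863cbcf183348d6be8f3577d530d37 = true := by decide +kernel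

theorem cB17_7_1_38 : chunkOkM (LB17_7.ctx true false 260 63 32 7 16 833 1331 32 512) muQ true false 64 RtB17_7.Cx.right.right RtB17_7.CX RtB17_7.Ctp.right.right.right.left.right.right RtB17_7.Ce.right.right.right.right.left.left RtB17_7.CTn.left.left.left RtB17_7.CEr.left.left.left.left 0x1d189e6f02b = true := by decide +kernel

theorem cB17_7_1_39 : chunkOkM (LB17_7.ctx true false 92 1 1 1 1 1 1 1 1) muQ true false 64 RtB17_7.Cx.right.left RtB17_7.CX RtB17_7.Ctp.right.right.right.left.right RtB17_7.Ce.right.right.right.right.left.right RtB17_7.CTn.left.left.left RtB17_7.CEr.left.left.left.left 0x21 = true := by decide +kernel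

theorem cB17_7_1_40 : chunkOkM (LB17_7.ctx true false 276 127 64 7 16 1645 5401 32 512) muQ true false 64 RtB17_7.Cx.right.right RtB17_7.CX RtB17_7.Ctp.right.right.right.left.right.left RtB17_7.Ce.right.right.right.right.left.right RtB17_7.CTn.left.left.left RtB17_7.CEr.left.left.left.left 0x1ce31d6ed7d6514db8d615f50e028d530d2f7962d73c57c1eec7e6f2b0cc37d530d16da26c73c7c249ac7e6866c1547d530d41fa2c76f05b34697 = true := by decide +kernel

theorem cB17_7_1_41 : chunkOkM (LB17_7.ctx true false 277 127 64 7 16 1673 5445 32 512) muQ true false 64 RtB17_7.Cx.right.right RtB17_7.CX RtB17_7.Ctp.right.right.right.left.right.right RtB17_7.Ce.right.right.right.right.left.right RtB17_7.CTn.left.left.left RtB17_7.CEr.left.left.left.left 0x2004686f02bbf07626f06bd8f1a5edab651c63c8c74a7b7e6eccfdb6d240d432177da2f5f00b40ece2073cb7428c97e620d609f8d6f06b4348a4e5d73ca090d4c28d621bc21778d230d74 = true := by decide +kernel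

theorem cB17_7_1_42 : chunkOkM (LB17_7.ctx true false 273 127 64 7 16 1673 2739 32 512) muQ true false 64 RtB17_7.Cx.right RtB17_7.CX RtB17_7.Ctp.right.right.right.left RtB17_7.Ce.right.right.right.right.right RtB17_7.CTn.left.left.left RtB17_7.CEr.left.left.left.left 0x21213352f26f02b69342175932174593 = true := by decide +kernel

theorem cB17_7_1_43 : chunkOkM (LB17_7.ctx true false 92 1 1 1 1 1 1 1 1) muQ true false 64 RtB17_7.Cx RtB17_7.CX RtB17_7.Ctp.right.right.right.right RtB17_7.Ce.right.right.right RtB17_7.CTn.left.left.left RtB17_7.CEr.left.left.left.left 0x01 = true := by decide +kernel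

theorem cB17_7_1_44 : chunkOkM (LB17_7.ctx true false 92 1 1 1 1 1 1 1 1) muQ true false 64 RtB17_7.Cx RtB17_7.CX RtB17_7.Ctp.right RtB17_7.Ce.right RtB17_7.CTn.left.left.left RtB17_7.CEr.left.left.left.right 0x5a = true := by decide +kernel

theorem cB17_7_1_45 : chunkOkM (LB17_7.ctx true false 92 1 1 1 1 1 1 1 1) muQ true false 64 RtB17_7.Cx RtB17_7.CX RtB17_7.Ctp.right RtB17_7.Ce.right RtB17_7.CTn.left.left.left RtB17_7.CEr.left.left.right 0x5a = true := by decide +kernel

theorem cB17_7_1_46 : chunkOkM (LB17_7.ctx true false 92 1 1 1 1 1 1 1 1) muQ true false 64 RtB17_7.Cx RtB17_7.CX RtB17_7.Ctp.right RtB17_7.Ce.right RtB17_7.CTn.left.left.left RtB17_7.CEr.left.right 0x5a = true := by decide +kernel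

theorem cB17_7_1_47 : chunkOkM (LB17_7.ctx true false 92 1 1 1 1 1 1 1 1) muQ true false 64 RtB17_7.Cx RtB17_7.CX RtB17_7.Ctp.right RtB17_7.Ce.right RtB17_7.CTn.left.left.left RtB17_7.CEr.right 0x52 = true := by decide +kernel

theorem cB17_7_1_48 : chunkOkM (LB17_7.ctx true false 92 1 1 1 1 1 1 1 1) muQ true false 64 RtB17_7.Cx RtB17_7.CX RtB17_7.Ctp.right RtB17_7.Ce.right RtB17_7.CTn.left.left.right RtB17_7.CEr 0x5a = true := by decide +kernel

theorem cB17_7_1_49 : chunkOkM (LB17_7.ctx true false 92 1 1 1 1 1 1 1 1) muQ true false 64 RtB17_7.Cx RtB17_7.CX RtB17_7.Ctp.right RtB17_7.Ce.right RtB17_7.CTn.left.right RtB17_7.CEr 0x5a = true := by decide +kernel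

theorem cB17_7_1_50 : chunkOkM (LB17_7.ctx true false 92 1 1 1 1 1 1 1 1) muQ true false 64 RtB17_7.Cx RtB17_7.CX RtB17_7.Ctp.right RtB17_7.Ce.right RtB17_7.CTn.right RtB17_7.CEr 0x5a = true := by decide +kernel

theorem cB17_7_0_0 : chunkOkM (LB17_7.ctx false false 92 1 1 1 1 1 1 1 1) muQ false false 64 RtB17_7.Cx RtB17_7.CX RtB17_7.Ctn RtB17_7.Ce RtB17_7.CTn RtB17_7.CEr 0x49 = true := by decide +kernel

end Vale.Agent.helper4.Q4
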