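import Vale.Agent.helper4.Q4TreeM
import Vale.Agent.helper4.Q4G.PB17_7

/-!
Checks for pairs of intervals of second moments.
-/

set_option maxRecDepth 100000
set_option linter.unusedVariables false

namespace Vale.Agent.helper4.Q4

theorem cB17_7_3_45 : chunkOkM (LB17_7.ctx true true 265 235 128 7 16 1505 4829 16 32) muQ true true 64 RtB17_7.Cx.left.right RtB17_7.CX RtB17_7.Ctp.right.right.left.right.left.right RtB17_7.Ce.right.right.left.right.right.left.right RtB17_7.CTp RtB17_7.CEr 0xba1555e7cd4ea96c6d8cca3066e61ca13f118d540d75dd46e7cd62655e6d81c9c3987e627445e7f8d540d3c6419fc7cd481abc6d8239df2ed8d530dc0a6c7b7cd11698667c847a0176e61b5fdc9e8d540dca9ccd87cd212259918d520d745937 = true := by decide +kernel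

theorem cB17_7_3_46 : chunkOkM (LB17_7.ctx true true 233 29 16 7 16 371 1221 16 32) muQ true true 64 RtB17_7.Cx.left RtB17_7.CX RtB17_7.Ctp.right.right.left.right.left RtB17_7.Ce.right.right.left.right.right.right RtB17_7.CTp RtB17_7.CEr 0xb8cb616dd6846276d815740e2c8d625f996958d540d = true := by decide +kernel

theorem cB17_7_3_47 : chunkOkM (LB17_7.ctx true true 335 7295 4096 7 16 48601 76043 32 64) muQ true true 64 RtB17_7.Cx.left.left.left RtB17_7.CX RtB17_7.Ctp.right.right.left.right.right.left.left RtB17_7.Ce.right.right.left.right.right.left.left RtB17_7.CTp RtB17_7.CEr 0x599db1c717cdcfe54a77c836cae797e6111300448d540d4061ad37dd2418c4373c176660208e630d295525e88cd12c52f873cda91e487e630d3a1f586c8cd17f585073c7bd68587e6bcb9abb7d540d465959595931905c2f90e3fe8cd14703a3782c17b3b737e530d65975934597593459759345975934597354597 = true := by decide +kernel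

theorem cB17_7_3_48 : chunkOkM (LB17_7.ctx true true 285 451 256 7 16 3073 9515 32 64) muQ true true 64 RtB17_7.Cx.left.left.left RtB17_7.CX RtB17_7.Ctp.right.right.left.right.right.left.right RtB17_7.Ce.right.right.left.right.right.left.left.left RtB17_7.CTp RtB17_7.CEr 0x6be57de7cde37fe3c7c86a7c25a7e630d5a42267b8cd36f49d573cd614c7c7e630d4f82da57dd20b120073ca4ce1927e630d6696bbd85973cd200f007e620d63d8605e8cd2c2d89c73c115582a38e630d6469769375 = true := by decide +kernel

theorem cB17_7_3_49 : chunkOkM (LB17_7.ctx true true 295 911 512 7 16 6125 9559 32 64) muQ true true 64 RtB17_7.Cx.left.left.left RtB17_7.CX RtB17_7.Ctp.right.right.left.right.right.left.right RtB17_7.Ce.right.right.left.right.right.left.left.right RtB17_7.CTp RtB17_7.CEr 0xa6377a37cddb8b16e7c8bdb1fb67e630d3fff4617dd2dc3a0573c115eb6ab8e630d67d460378cd2b39af173cf7a00007e630d6695dcea06982ccaa2caa7e620d6a2f83238cd29fd7c8882cf1af0317e630d6697693469735697 = true := by decide +kernel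

theorem cB17_7_3_50 : chunkOkM (LB17_7.ctx true true 276 231 128 7 16 3045 4763 32 64) muQ true true 64 RtB17_7.Cx.left.left.right RtB17_7.CX RtB17_7.Ctp.right.right.left.right.right.left.left RtB17_7.Ce.right.right.left.right.right.left.left.left RtB17_7.CTp RtB17_7.CEr 0xbbe471c7cdb29a8f6d8533da56e616ed15188d540d14076e27dde9252763c144aa3138d530d339b70858cd262288773c230bc727e61529b19b8d540d30cd3827dd1604f7073c453d41b7e6113e7c9f8d540d634dd86348cd1cf4bb573c151b18d7e617582f8c8d540d31cee9b18cd169baa173c1abe50f7e617cc868f8d540d6375 = true := by decide +kernel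

theorem cB17_7_3_51 : chunkOkM (LB17_7.ctx true true 276 231 128 7 16 3045 4785 32 64) muQ true true 64 RtB17_7.Cx.left.left.right RtB17_7.CX RtB17_7.Ctp.right.right.left.right.right.left.left RtB17_7.Ce.right.right.left.right.right.left.left.right RtB17_7.CTp RtB17_7.CEr 0x68a927c7cd1084a8e78c8130a6727e618593ae08d540d436bb287dd24cd1b473c13baf567e6186b5d268d540d32df4e77dd109d3cf73c126a6fc7e61a0c16ce8d540d6143a80068cdcc43c763c1a6cd7718d530d359d57ad97cdd4a6b1e7c813a035c7e616b4ada78d540d317079438cd1ef299273c1435b097e615d914858d540d3a762f378cd1658ef873c130b6277e615db6d4c8d540d614b3c6f7ddd3729863c226fc41d8d530d357 = true := by decide +kernel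

theorem cB17_7_3_52 : chunkOkM (LB17_7.ctx true true 279 231 128 7 16 3073 9581 32 64) muQ true true 64 RtB17_7.Cx.left.left.right RtB17_7.CX RtB17_7.Ctp.right.right.left.right.right.left.right RtB17_7.Ce.right.right.left.right.right.left.left RtB17_7.CTp RtB17_7.CEr 0xb1d8aad7cdc4f6ee6d81ea20d47e6e18fdbf7d540d37ec2697dd270d1a673c538ce787e69feaccb7d540d53120ef7dd1c32d7b73cfd90bd47d530d3a747617dd1aafa8c73c7ac32b57e630d2665b6428cdf1621a63ca3074957e666365ed7d540d2e3954b7dd163e5ea73c57fba7f7e6c1cee9d7d540d43762c53705c4534e317dd1a6dacb73c9058b817e630d645 = true := by decide +kernel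

theorem cB17_7_3_53 : chunkOkM (LB17_7.ctx true true 92 1 1 1 1 1 1 1 1) muQ true true 64 RtB17_7.Cx.left.left.left RtB17_7.CX RtB17_7.Ctp.right.right.left.right.right.left RtB17_7.Ce.right.right.left.right.right.left.right RtB17_7.CTp RtB17_7.CEr 0x69 = true := by decide +kernel

theorem cB17_7_3_54 : chunkOkM (LB17_7.ctx true true 276 231 128 7 16 3045 4807 32 64) muQ true true 64 RtB17_7.Cx.left.left.right RtB17_7.CX RtB17_7.Ctp.right.right.left.right.right.left.left RtB17_7.Ce.right.right.left.right.right.left.right RtB17_7.CTp RtB17_7.CEr 0x598ccb9fa7cdcc3154a7c8f71cf66e6190f84ec8d540d30c027b98cd1a0ea8273c144d7ea7e617cecb6c8d540d402b07b68cd1a6cb0773c17d5a16e61d68afe78d540d6176c66c7dd116a92573c1ebd3f838d530d354597 = true := by decide +kernel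

end Vale.Agent.helper4.Q4
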