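import Vale.Agent.helper4.Q4TreeM
import Vale.Agent.helper4.Q4G.PB17_7

/-!
Checks for pairs of intervals of second moments.
-/

set_option maxRecDepth 100000
set_option linter.unusedVariables false

namespace Vale.Agent.helper4.Q4

theorem cB17_7_3_55 : chunkOkM (LB17_7.ctx true true 282 459 256 7 16 3073 4807 32 64) muQ true true 64 RtB17_7.Cx.left.left.right RtB17_7.CX RtB17_7.Ctp.right.right.left.right.right.left.right RtB17_7.Ce.right.right.left.right.right.left.right.left RtB17_7.CTp RtB17_7.CEr 0x99bdbba7cddfe9d787c82f40f7c7e6fbd95957d540d41f7fa57dd2e3c38f73c18fb0797e617020ba88d540d21e00a27ddf40fc563c44dbca57e6f519d3a7d540d66366dc408cd2f35a3b73cbf209c87e630d3c69a7578cd183e88273ccd5289c7e630d622405f498cd1ef8f2873ccab0d2d7e6abe40f17d540d37ecf0378cd1560e9f73c83704cc7e6cad569f7d540d6697375 = true := by decide +kernel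

theorem cB17_7_3_56 : chunkOkM (LB17_7.ctx true true 299 919 512 7 16 6153 19283 32 64) muQ true true 64 RtB17_7.Cx.left.left.right.left RtB17_7.CX RtB17_7.Ctp.right.right.left.right.right.left.right RtB17_7.Ce.right.right.left.right.right.left.right.right RtB17_7.CTp RtB17_7.CEr 0x6969a60ae6a7cdceed9b87c818080e288e630d566e650182ce2975407e620d3214f2b48cd18e7fb1382c12ffc4a38e630d6546976934697593 = true := by decide +kernel

theorem cB17_7_3_57 : chunkOkM (LB17_7.ctx true true 279 231 128 7 16 3073 9669 32 64) muQ true true 64 RtB17_7.Cx.left.left.right.right RtB17_7.CX RtB17_7.Ctp.right.right.left.right.right.left.right RtB17_7.Ce.right.right.left.right.right.left.right.right RtB17_7.CTp RtB17_7.CEr 0x8db07647cdbebdab47c82c552cb7e6edc3d817d540d2e9590f28cd21625d473c169254ec8d530d202203cb8cdd4f7ef63c6fed1697e6bb2391b7d540d2d2170f7dd1223a1673c82cbfef7e69e89b697d540d463a6c6bd28cd1e9fb1e73c14d02c77e616c55bac8d540d284fb4468cd12594a373c1fda6f87e6147a99a68d540d635 = true := by decide +kernel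

theorem cB17_7_3_58 : chunkOkM (LB17_7.ctx true true 278 451 256 7 16 1547 4785 32 64) muQ true true 64 RtB17_7.Cx.left.left.left RtB17_7.CX RtB17_7.Ctp.right.right.left.right.right.right.left RtB17_7.Ce.right.right.left.right.right.left.left RtB17_7.CTp.left RtB17_7.CEr 0x37647a7e8cd2d1575073c6a09cab7e630d5f2b0cb7dd2d9395173c6af78937e630d64688d227dd36bafaa73cfa102937e630d84baefc98cd3bbe3d973cdc382587e630d66977557460f7dd3bc811073c5f08cd57e630d641b6147dd302d74773c7f3e2717e630d64 = true := by decide +kernel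

theorem cB17_7_3_59 : chunkOkM (LB17_7.ctx true true 273 227 128 7 16 1561 4785 32 64) muQ true true 64 RtB17_7.Cx.left.left.left RtB17_7.CX RtB17_7.Ctp.right.right.left.right.right.right.right RtB17_7.Ce.right.right.left.right.right.left.left RtB17_7.CTp.left RtB17_7.CEr 0x3b16c4e7dd3c8de7d73c5b5a6947e630d4f808a17dd34fea5a73c1258cd248e630d66b8f4c7dd35775bf73c7336a6e7e6e8bbaf6d240d7743aac27dd3a9736e73c7cac43c7e630d46 = true := by decide +kernel

theorem cB17_7_3_60 : chunkOkM (LB17_7.ctx true true 256 113 64 7 16 777 2387 32 32) muQ true true 64 RtB17_7.Cx.left.left.left RtB17_7.CX RtB17_7.Ctp.right.right.left.right.right.right RtB17_7.Ce.right.right.left.right.right.left.left RtB17_7.CTp.right RtB17_7.CEr 0xb1266f57cdb100e26d84f11bdc7e630d = true := by decide +kernel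

theorem cB17_7_3_61 : chunkOkM (LB17_7.ctx true true 259 115 64 7 16 777 2387 32 64) muQ true true 64 RtB17_7.Cx.left.left.right RtB17_7.CX RtB17_7.Ctp.right.right.left.right.right.right RtB17_7.Ce.right.right.left.right.right.left.left RtB17_7.CTp RtB17_7.CEr 0x9e974f01c31905c3ccb64f7dd219f7be73c108b1c09b9d630d65 = true := by decide +kernel

theorem cB17_7_3_62 : chunkOkM (LB17_7.ctx true true 272 227 128 7 16 1547 4807 32 64) muQ true true 64 RtB17_7.Cx.left.left.left RtB17_7.CX RtB17_7.Ctp.right.right.left.right.right.right.left RtB17_7.Ce.right.right.left.right.right.left.right RtB17_7.CTp RtB17_7.CEr 0x69a70d8fe7cd97ba33a7c8c8a90cc7e630d32ed24c7dd2b25ee273c1051f34c8e630d632188748cd2d2d84873cba142397e630d654697 = true := by decide +kernel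

theorem cB17_7_3_63 : chunkOkM (LB17_7.ctx true true 272 227 128 7 16 1561 4829 32 64) muQ true true 64 RtB17_7.Cx.left.left.left RtB17_7.CX RtB17_7.Ctp.right.right.left.right.right.right.right RtB17_7.Ce.right.right.left.right.right.left.right RtB17_7.CTp RtB17_7.CEr 0xc71840c7cd8c943d37c89f2f67c7e630d47590f07dd38be4b473ca0e12a87e630d6cd9db47dd35bb59773ca4409007e630d6697aa1a0d57dd5c514ff73c888dbbd7e630d723434a7dd3508e5b73ccefaa767e630d678057fd7dd50f6a6073c79e04497e630d613c86ff8cd33d002973ca769efb7e6187ef547d240d6745 = true := by decide +kernel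

theorem cB17_7_3_64 : chunkOkM (LB17_7.ctx true true 272 231 128 7 16 1547 4829 32 64) muQ true true 64 RtB17_7.Cx.left.left.right RtB17_7.CX RtB17_7.Ctp.right.right.left.right.right.right.left RtB17_7.Ce.right.right.left.right.right.left.right RtB17_7.CTp RtB17_7.CEr 0xa4b84517cdb8f3c56d83fcc9ea7e6a20d9207d540d411b2d57dd2b4e0c273cbe9c34d7e630d49d8ea27dd1db52ab73cb2befc87e630d647874877dd2b86d8e73ca3b72947e630d2d8b5ef7dd1922d7873cab20bd97e630d675e044fe7dd3ab27ba73ca12cbba7e630d4fa48db7dd211f21a73ca025ead7e630d645 = true := by decide +kernel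

theorem cB17_7_3_65 : chunkOkM (LB17_7.ctx true true 263 115 64 7 16 1561 2409 32 64) muQ true true 64 RtB17_7.Cx.left.left.right RtB17_7.CX RtB17_7.Ctp.right.right.left.right.right.right.right RtB17_7.Ce.right.right.left.right.right.left.right RtB17_7.CTp RtB17_7.CEr 0x8e6989f7cd1223d077d876bda267e630d61809db7dd3daea4773c94ce1bf7e630d5e9424a7dd2a0c67e73c7b8eca87e630d65 = true := by decide +kernel

theorem cB17_7_3_66 : chunkOkM (LB17_7.ctx true true 253 59 32 7 16 1519 2387 32 32) muQ true true 64 RtB17_7.Cx.left.right RtB17_7.CX RtB17_7.Ctp.right.right.left.right.right.left RtB17_7.Ce.right.right.left.right.right.left.left RtB17_7.CTp RtB17_7.CEr 0x695c85dcc7cdeb5c0d6d815c745b58d530d139a1de7dda0088e63c1b465037d615e7b98e8d540d53 = true := by decide +kernel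

end Vale.Agent.helper4.Q4
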