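import Vale.Agent.helper4.Q4TreeM
import Vale.Agent.helper4.Q4G.PB17_7

/-!
Checks for pairs of intervals of second moments.
-/

set_option maxRecDepth 100000
set_option linter.unusedVariables false

namespace Vale.Agent.helper4.Q4

theorem cB17_7_3_67 : chunkOkM (LB17_7.ctx true true 269 235 128 7 16 1519 4829 32 32) muQ true true 64 RtB17_7.Cx.left.right.left RtB17_7.CX RtB17_7.Ctp.right.right.left.right.right.left.left RtB17_7.Ce.right.right.left.right.right.left.right RtB17_7.CTp RtB17_7.CEr 0x624c0dc7cd15dd2e688c8770ff56e61b6cdfe68d540d119b77a7ddbc3e1b63c12f68477e61c2db28d8d540d571aab377cdf097bd77c8115bd167e61a8bd0aa8d540d13cb9c07ddebe41f63c177f2cb7e6188d56f98d540d579d576097cdd1fee76d853ef5f6e61951fcaf8d540d12e774b7ddaa338963cfb31006e617d956df8d540d54 = true := by decide +kernel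

theorem cB17_7_3_68 : chunkOkM (LB17_7.ctx true true 266 117 64 7 16 1533 4829 32 64) muQ true true 64 RtB17_7.Cx.left.right.left RtB17_7.CX RtB17_7.Ctp.right.right.left.right.right.left.right RtB17_7.Ce.right.right.left.right.right.left.right RtB17_7.CTp RtB17_7.CEr 0x78b6af87cda2c0796d8225e7587e615b1e5508d540d144c8387dd1c28abd73c26e1dd77e615ffc4798d540d14e5f877dd46712663c32c0d897e614e8099f8d540d613fb2b27ddbe9e4f63c111f31498d530d45 = true := by decide +kernel

theorem cB17_7_3_69 : chunkOkM (LB17_7.ctx true true 252 119 64 7 16 763 2409 16 32) muQ true true 64 RtB17_7.Cx.left.right.right RtB17_7.CX RtB17_7.Ctp.right.right.left.right.right.left RtB17_7.Ce.right.right.left.right.right.left.right RtB17_7.CTp RtB17_7.CEr 0xc4813ec7cd19749c6d8195aa2438d619fb78088d540d = true := by decide +kernel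

theorem cB17_7_3_70 : chunkOkM (LB17_7.ctx true true 243 59 32 7 16 777 1199 16 32) muQ true true 64 RtB17_7.Cx.left.right RtB17_7.CX RtB17_7.Ctp.right.right.left.right.right.right RtB17_7.Ce.right.right.left.right.right.left RtB17_7.CTp RtB17_7.CEr 0x10ad6b07dd94a7dd63c20d = true := by decide +kernel

theorem cB17_7_3_71 : chunkOkM (LB17_7.ctx true true 321 3711 2048 7 16 24633 38819 32 64) muQ true true 64 RtB17_7.Cx.left.left RtB17_7.CX RtB17_7.Ctp.right.right.left.right.right.left RtB17_7.Ce.right.right.left.right.right.right RtB17_7.CTp RtB17_7.CEr 0x59599d683917cdce58ea77c844b31c17e6140bc5b88d540d5959282805c3cb2095c8cd164f6a3682ccbd40407e629b42c6e540d66975934597593459759314b4ab768cd1882a6ee82cdecd7c57e6bc305f6d540d4e2b04298cd1d7b39d482c73196257e6108ad53a8d540d64569759345975935974 = true := by decide +kernel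

theorem cB17_7_3_72 : chunkOkM (LB17_7.ctx true true 296 911 512 7 16 6265 19371 32 32) muQ true true 64 RtB17_7.Cx.left.left.left RtB17_7.CX RtB17_7.Ctp.right.right.left.right.right.right RtB17_7.Ce.right.right.left.right.right.right.left RtB17_7.CTp RtB17_7.CEr 0x696969b4104f6f06b142c5f138cd1dab818182c23716117f630d5469369746976934217693 = true := by decide +kernel

theorem cB17_7_3_73 : chunkOkM (LB17_7.ctx true true 286 459 256 7 16 3101 9691 32 64) muQ true true 64 RtB17_7.Cx.left.left.right RtB17_7.CX RtB17_7.Ctp.right.right.left.right.right.right.left RtB17_7.Ce.right.right.left.right.right.right.left.left RtB17_7.CTp RtB17_7.CEr 0x7fb09287cdc50c7687c895d69757e63436b937d540d3895e11d8cd225c21073cade09247e630d29eac937dd169e4af73c86ca6177e630d4449134f8cd1ab2b6373cc92989c7e628a48ee7d540d365698e806427cd972b1507c8107ba2dd8e630d670daf673cba255fb7e620d14ecfec7f06b6546976937 = true := by decide +kernel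

theorem cB17_7_3_74 : chunkOkM (LB17_7.ctx true true 309 1855 1024 7 16 12369 19459 32 64) muQ true true 64 RtB17_7.Cx.left.left.right RtB17_7.CX RtB17_7.Ctp.right.right.left.right.right.right.left RtB17_7.Ce.right.right.left.right.right.right.left.right RtB17_7.CTp RtB17_7.CEr 0xaf771e47cdc1e027a7c8101948998e630d6dd412c7dd37b7d3573c9e7abe37e630d5c0456968cd25b6ee173cc706f5e7e630d659694d112c4882c107946058e620d35cd3c788cd1b3be93b82c12226a208e630d66976934697593459735697 = true := by decide +kernel

theorem cB17_7_3_75 : chunkOkM (LB17_7.ctx true true 273 231 128 7 16 1561 4851 32 64) muQ true true 64 RtB17_7.Cx.left.left.right RtB17_7.CX RtB17_7.Ctp.right.right.left.right.right.right.right RtB17_7.Ce.right.right.left.right.right.right.left.left RtB17_7.CTp RtB17_7.CEr 0x872e4ae7cd7f59e76d8580271b7e630d6311e237dd389417073cf4d48337e630d4451dd87dd276e6bc73cf0a464a7e630d63dc9859a8cd2e0338473c975ef0d7e630d63c78957dd2e9e4bf73c89a8e1b7e630d675 = true := by decide +kernel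

theorem cB17_7_3_76 : chunkOkM (LB17_7.ctx true true 283 459 256 7 16 3129 4873 32 64) muQ true true 64 RtB17_7.Cx.left.left.right RtB17_7.CX RtB17_7.Ctp.right.right.left.right.right.right.right RtB17_7.Ce.right.right.left.right.right.right.left.right RtB17_7.CTp RtB17_7.CEr 0xb85516c7cdc72bff27c8a1554577e630d2980feeb8cd2736f6573cfc77efd7e630d5a9b5917dd283ec2a73cb387f2e7e630d6742435873c8f663897e620d85fe7e408cd3b6d61373c114f7edb8e630d669769375 = true := by decide +kernel

theorem cB17_7_3_77 : chunkOkM (LB17_7.ctx true true 286 463 256 7 16 3129 9779 32 64) muQ true true 64 RtB17_7.Cx.left.left RtB17_7.CX RtB17_7.Ctp.right.right.left.right.right.right RtB17_7.Ce.right.right.left.right.right.right.right RtB17_7.CTp RtB17_7.CEr 0x69b9ae9927cdb6f18957c8acafce97e630d9ebf3cdc8cd49861c873ca2362ef7e630d60478be88cd2bbcb0273cdc93a347e630d66913a6630b8cd14e357b73c18d6f8c38e630d4697354697693217 = true := by decide +kernel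

theorem cB17_7_3_78 : chunkOkM (LB17_7.ctx true true 269 235 128 7 16 1519 4851 32 32) muQ true true 64 RtB17_7.Cx.left.right.left RtB17_7.CX RtB17_7.Ctp.right.right.left.right.right.left.left RtB17_7.Ce.right.right.left.right.right.right.left RtB17_7.CTp RtB17_7.CEr 0x59da679f57cd155afe4d8c82174b2d28d530d108b95c78cd9e316e63c253c1107e61a51412b8d540d54597 = true := by decide +kernel

theorem cB17_7_3_79 : chunkOkM (LB17_7.ctx true true 276 235 128 7 16 3073 4851 32 64) muQ true true 64 RtB17_7.Cx.left.right.left RtB17_7.CX RtB17_7.Ctp.right.right.left.right.right.left.right RtB17_7.Ce.right.right.left.right.right.right.left.left RtB17_7.CTp RtB17_7.CEr 0x2b3a86a7cdf6a9fb6d812aafd87e61a6472ae8d540d13310617ddb0da4563c211d8117e614c4b65f8d540d56b5df7c7cd102a03b98c8181e70c7e6182cea908d540d4b89f90e8cd274823e73c18c6d417e61724c9478d540d285c4897dd113193c73c3b2e5c97e6130d40b58d540d6142450498cde11c0163c1ab1057a8d530d357 = true := by decide +kernel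

end Vale.Agent.helper4.Q4
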