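import Vale.Agent.helper4.Q4TreeM
import Vale.Agent.helper4.Q4G.PB17_7

/-!
Checks for pairs of intervals of second moments.
-/

set_option maxRecDepth 100000
set_option linter.unusedVariables false

namespace Vale.Agent.helper4.Q4

theorem cB17_7_3_80 : chunkOkM (LB17_7.ctx true true 279 235 128 7 16 3073 9757 32 64) muQ true true 64 RtB17_7.Cx.left.right.left RtB17_7.CX RtB17_7.Ctp.right.right.left.right.right.left.right RtB17_7.Ce.right.right.left.right.right.right.left.right RtB17_7.CTp RtB17_7.CEr 0x58db6e27cd1267b1dc8c818932cb7e61a748d848d540d13262f198cdc6870e63ce629326e617cfac888d540d57ffb1eb7cdc18e47d7c81151df27e61774d9378d540d15246987dde58e8d63c1e38395d8d530d23e435b48cd14a0f6273c358f4cf7e611fbda0c8d540d30ba09ed8cd149a51673ca83a946e61b0b05528d540d6455937 = true := by decide +kernel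

theorem cB17_7_3_81 : chunkOkM (LB17_7.ctx true true 263 119 64 7 16 1533 4873 32 32) muQ true true 64 RtB17_7.Cx.left.right.right RtB17_7.CX RtB17_7.Ctp.right.right.left.right.right.left RtB17_7.Ce.right.right.left.right.right.right.left RtB17_7.CTp RtB17_7.CEr 0x1ed53857cd126ad597d841a3fd37e61d317d748d540dda7d816dda18be563c11e7d467e61b59cf828d540d5d8d2d8c7cd60f8b5d8132114998d530d4b6bc5677cd35b14d85c7f306e61bd5616c8d540db58bdc57cd13ab05d8821d486e61a39b0e88d540d43 = true := by decide +kernel

theorem cB17_7_3_82 : chunkOkM (LB17_7.ctx true true 273 235 128 7 16 3073 4895 32 32) muQ true true 64 RtB17_7.Cx.left.right.left RtB17_7.CX RtB17_7.Ctp.right.right.left.right.right.left RtB17_7.Ce.right.right.left.right.right.right.right RtB17_7.CTp RtB17_7.CEr 0x5966b3b1f7cd128882c78c8bea16c6e619bd8d428d540d15907ba18cdc70df863ca69f9d6e6195d726e8d540d55934597593 = true := by decide +kernel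

theorem cB17_7_3_83 : chunkOkM (LB17_7.ctx true true 256 119 64 7 16 1519 2453 16 32) muQ true true 64 RtB17_7.Cx.left.right.right RtB17_7.CX RtB17_7.Ctp.right.right.left.right.right.left.left RtB17_7.Ce.right.right.left.right.right.right.right RtB17_7.CTp RtB17_7.CEr 0xc5826e37cd199ec56d81194a8a7e62076aece8d540d = true := by decide +kernel

theorem cB17_7_3_84 : chunkOkM (LB17_7.ctx true true 273 239 128 7 16 3073 4917 32 32) muQ true true 64 RtB17_7.Cx.left.right.right RtB17_7.CX RtB17_7.Ctp.right.right.left.right.right.left.right RtB17_7.Ce.right.right.left.right.right.right.right RtB17_7.CTp RtB17_7.CEr 0x17927c6f05b10f9a3b7dd4c4e3763c1a5e4acd8d530d5d0088fc7cd20663f37c8483a856e61ba205b08d540d31ae2806f05b11aedb1c8cd97f4df63c12030057e61a87ebe48d540d55937b4f8bd27cd336b453c9a15746e618d4963e8d540d58023447cd1364cac98c815b51e67e61ce705cd8d540dfe8a9d6ddbab60e63c1b1d63e7e61bcb63ae8d540d574 = true := by decide +kernel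

theorem cB17_7_3_85 : chunkOkM (LB17_7.ctx true true 266 117 64 7 16 1547 4851 32 64) muQ true true 64 RtB17_7.Cx.left.right.left RtB17_7.CX RtB17_7.Ctp.right.right.left.right.right.right.left RtB17_7.Ce.right.right.left.right.right.right.left.left RtB17_7.CTp RtB17_7.CEr 0x8d8b3787cd84f4866d8514546e7e6132715098d540d32eacf77dd22ec94d73c46fe7f47e6f1ab4ff7d540d34de1e57dd141d87a73c4fdb63c7e6be41e277d540d65 = true := by decide +kernel

theorem cB17_7_3_86 : chunkOkM (LB17_7.ctx true true 276 235 128 7 16 3101 4873 32 64) muQ true true 64 RtB17_7.Cx.left.right.left RtB17_7.CX RtB17_7.Ctp.right.right.left.right.right.right.left RtB17_7.Ce.right.right.left.right.right.right.left.right RtB17_7.CTp RtB17_7.CEr 0x80c1a9f7cdcabaee6d81ae0e417e6126745cf8d540d19e84b67dd1a24fc173c22b31db7e616050a788d540d394e00b7dd1334a5973c352db697e612e56b468d540d6398aee27dd27ce31673cb2fe0d07e630d42789c97dd17fbfcf73ca5dfe877e630d6237704b08cd21ab95e73c35276d27e6135f42628d540d42f20797dd1ae7e1073c596f58b7e6103777228d540d6375 = true := by decide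 +kernel

theorem cB17_7_3_87 : chunkOkM (LB17_7.ctx true true 263 117 64 7 16 1561 2431 32 64) muQ true true 64 RtB17_7.Cx.left.right.left RtB17_7.CX RtB17_7.Ctp.right.right.left.right.right.right.right RtB17_7.Ce.right.right.left.right.right.right.left RtB17_7.CTp RtB17_7.CEr 0xd7214f01c31905c656f73d7dd28f022873cbf010ed58d630d65 = true := by decide +kernel

theorem cB17_7_3_88 : chunkOkM (LB17_7.ctx true true 252 119 64 7 16 777 2431 16 32) muQ true true 64 RtB17_7.Cx.left.right.right RtB17_7.CX RtB17_7.Ctp.right.right.left.right.right.right RtB17_7.Ce.right.right.left.right.right.right.left RtB17_7.CTp RtB17_7.CEr 0x41805c = true := by decide +kernel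

theorem cB17_7_3_89 : chunkOkM (LB17_7.ctx true true 285 467 256 7 16 3101 9779 32 64) muQ true true 64 RtB17_7.Cx.left.right.left.left RtB17_7.CX RtB17_7.Ctp.right.right.left.right.right.right.left RtB17_7.Ce.right.right.left.right.right.right.right.left RtB17_7.CTp RtB17_7.CEr 0x98db5057cdc5e6be57c8d15b366e615bcd1f88d540d21e4b2678cd386439e73cbca28117e630d389d9c2f8cd1627bb073c9fc01f77e658ea5827d540d659354c18c48cd1bfdda2082cbaab4c67e630d31f94fa38cd17036b7682c231cb8c7e618c5450e8d540d6459735 = true := by decide +kernel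

theorem cB17_7_3_90 : chunkOkM (LB17_7.ctx true true 276 235 128 7 16 3101 4895 32 64) muQ true true 64 RtB17_7.Cx.left.right.left.right RtB17_7.CX RtB17_7.Ctp.right.right.left.right.right.right.left RtB17_7.Ce.right.right.left.right.right.right.right.left RtB17_7.CTp RtB17_7.CEr 0x73092737cd9f3dbda7c81e12bd07e614a7f8de8d540d29850be7dd1d9785473c294651e7e613d2e0288d540d25bfc1f7ddce205263c8806bab7e6aeb86567d540d6339317de8cd205027d73c1bfaeb97e616bcc8938d540d26887937dded1e9563c155baa07e61ae3929c8d540d635 = true := by decide +kernel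

theorem cB17_7_3_91 : chunkOkM (LB17_7.ctx true true 322 3743 2048 7 16 24857 39259 32 64) muQ true true 64 RtB17_7.Cx.left.right.left RtB17_7.CX RtB17_7.Ctp.right.right.left.right.right.right.left RtB17_7.Ce.right.right.left.right.right.right.right.right RtB17_7.CTp RtB17_7.CEr 0x49d68377cdce2551f7c81b3b8587e615a6f27e8d540d54d509248cd2c1dd4c73c1c1ae967e616ec0eef8d540d47259ff7dd1af6ec873c3f640bb7e612bfcfa98d540d612c7a2008cdce458063c1adb93be8d530d597355969698d20ca47cdca7611c7c817e868df8e630d31905c323b5ab68cd18c3362d82c12258df7f630d669769354697693469759345975937 = true := by decide +kernel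

end Vale.Agent.helper4.Q4
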