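import Vale.Agent.helper4.Q4TreeM
import Vale.Agent.helper4.Q4G.PB17_7

/-!
Checks for pairs of intervals of second moments.
-/

set_option maxRecDepth 100000
set_option linter.unusedVariables false

namespace Vale.Agent.helper4.Q4

theorem cB17_7_3_106 : chunkOkM (LB17_7.ctx true true 319 7359 4096 7 16 3171 78507 32 64) muQ true true 64 RtB17_7.Cx.left.left.right RtB17_7.CX RtB17_7.Ctp.right.right.right.left.left.left.right RtB17_7.Ce.right.right.left.right.right.right.right RtB17_7.CTp RtB17_7.CEr 0x1224b387cd601c666d84c3bedc7e6ef70856e240d31eef4e7dd3a64cdc73cac229777e6168e426e240d42c3d067dd275334673c807d6127e6b720006e240d6212121210113aa26258cd1dbbcaaf82c15f2ccb7f61151a56f240d3217421742174217401775373e037dd4ec8fc073cb45bda97e630d50647df7dd29fca6c73c1b2736e7e6163232038d240d645 = true := by decide +kernel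

theorem cB17_7_3_107 : chunkOkM (LB17_7.ctx true true 92 1 1 1 1 1 1 1 1) muQ true true 64 RtB17_7.Cx.left.left RtB17_7.CX RtB17_7.Ctp.right.right.right.left.left.right RtB17_7.Ce.right.right.left.right.right.right RtB17_7.CTp RtB17_7.CEr 0x01 = true := by decide +kernel

theorem cB17_7_3_108 : chunkOkM (LB17_7.ctx true true 259 117 64 7 16 791 2453 32 64) muQ true true 64 RtB17_7.Cx.left.right RtB17_7.CX RtB17_7.Ctp.right.right.right.left.left RtB17_7.Ce.right.right.left.right.right.right RtB17_7.CTp RtB17_7.CEr 0x116c764517cd50dec16d8817cf1488d630d693c61e167dd2f178c473c8e9d1ed08d630d5fc30c37dd2c0425173c5fe2772b8d630d6753694 = true := by decide +kernel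

theorem cB17_7_3_109 : chunkOkM (LB17_7.ctx true true 92 1 1 1 1 1 1 1 1) muQ true true 64 RtB17_7.Cx.left RtB17_7.CX RtB17_7.Ctp.right.right.right.left.right RtB17_7.Ce.right.right.left.right.right RtB17_7.CTp RtB17_7.CEr 0x01 = true := by decide +kernel

theorem cB17_7_3_110 : chunkOkM (LB17_7.ctx true true 92 1 1 1 1 1 1 1 1) muQ true true 64 RtB17_7.Cx.right RtB17_7.CX RtB17_7.Ctp.right.right.right.left RtB17_7.Ce.right.right.left.right.right RtB17_7.CTp RtB17_7.CEr 0x11 = true := by decide +kernel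

theorem cB17_7_3_111 : chunkOkM (LB17_7.ctx true true 92 1 1 1 1 1 1 1 1) muQ true true 64 RtB17_7.Cx RtB17_7.CX RtB17_7.Ctp.right.right.right.right RtB17_7.Ce.right.right.left RtB17_7.CTp RtB17_7.CEr 0x01 = true := by decide +kernel

theorem cB17_7_3_112 : chunkOkM (LB17_7.ctx true true 92 1 1 1 1 1 1 1 1) muQ true true 64 RtB17_7.Cx RtB17_7.CX RtB17_7.Ctp.right.right.left.left RtB17_7.Ce.right.right.right RtB17_7.CTp RtB17_7.CEr 0x59 = true := by decide +kernel

theorem cB17_7_3_113 : chunkOkM (LB17_7.ctx true true 253 63 32 7 16 1505 2497 16 32) muQ true true 64 RtB17_7.Cx RtB17_7.CX RtB17_7.Ctp.right.right.left.right.left RtB17_7.Ce.right.right.right.left.left RtB17_7.CTp RtB17_7.CEr 0x5e6c8e6dd1b50dda7d8db9cb85c8d6a04b33b849d51b80d8d189e450d32975bf7cd16260097d8e7cabc6e62b04ac508d5f3f4ed6e450d20b43517d8188de7e7e6f669d60a8d523ae04988e440d330b7f46dd120e3357d8a0a9d5d7c6a98ac7d628b901e58d55adccd6e460d32be596dd19240127d811d87197e62ebcedce8d5146fc627e450d3410d52947d82e27e1d7e635c35a908d530d73420c337d815499f7a89d533bd676e8e430d34597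 = true := by decide +kernel

theorem cB17_7_3_114 : chunkOkM (LB17_7.ctx true true 92 1 1 1 1 1 1 1 1) muQ true true 64 RtB17_7.Cx.left.left RtB17_7.CX RtB17_7.Ctp.right.right.left.right.right RtB17_7.Ce.right.right.right.left.left RtB17_7.CTp RtB17_7.CEr 0x59 = true := by decide +kernel

theorem cB17_7_3_115 : chunkOkM (LB17_7.ctx true true 262 239 128 7 16 1533 2475 16 32) muQ true true 64 RtB17_7.Cx.left.right RtB17_7.CX RtB17_7.Ctp.right.right.left.right.right.left RtB17_7.Ce.right.right.right.left.left.left RtB17_7.CTp RtB17_7.CEr 0x59bb91e077cd115ed863cac49856e61c422cdf8d540d5975935974 = true := by decide +kernel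

theorem cB17_7_3_116 : chunkOkM (LB17_7.ctx true true 289 471 256 7 16 6209 9867 32 64) muQ true true 64 RtB17_7.Cx.left.right.left RtB17_7.CX RtB17_7.Ctp.right.right.left.right.right.right.left RtB17_7.Ce.right.right.right.left.left.left.left RtB17_7.CTp RtB17_7.CEr 0x59597f70e917cda5bdb147c8a694cfd7e630d2ec3c5898cd1bd73f1582c1989bd838d530d2ec4bbb68cd14d74eea82c106c11c7e61a7cbb608d540d6559345975934597 = true := by decide +kernel

theorem cB17_7_3_117 : chunkOkM (LB17_7.ctx true true 296 935 512 7 16 6265 19723 32 32) muQ true true 64 RtB17_7.Cx.left.right.left.left RtB17_7.CX RtB17_7.Ctp.right.right.left.right.right.right.right RtB17_7.Ce.right.right.right.left.left.left.left.left RtB17_7.CTp RtB17_7.CEr 0x696910817097f06b12274bba8cd13aac09882c14d7ed888e630d546976934697693 = true := by decide +kernel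

theorem cB17_7_3_118 : chunkOkM (LB17_7.ctx true true 286 471 256 7 16 3129 9889 32 64) muQ true true 64 RtB17_7.Cx.left.right.left.right RtB17_7.CX RtB17_7.Ctp.right.right.left.right.right.right.right RtB17_7.Ce.right.right.right.left.left.left.left.left RtB17_7.CTp RtB17_7.CEr 0x88669c67cdab9c3d37c8533a6a27e6dd1e4357d540d6184cb258cd30f3b7f73cb0411167e630d4c3672e7dd1be721f73cbc1f53e7e630d668e8e7518cd36e7fe7f82ccef1c4d7e630d55be5bdd8cd1f928e9f82c8530b537e6dd2718a7d540d6697168f30058cd2da936573cce4b1ef7e630d42675aae8cd17e266573c9e7d9be7e67acfb537d540d6435 = true := by decide +kernel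

theorem cB17_7_3_119 : chunkOkM (LB17_7.ctx true true 347 30207 16384 7 16 49945 79211 32 64) muQ true true 64 RtB17_7.Cx.left.right.left RtB17_7.CX RtB17_7.Ctp.right.right.left.right.right.right.right RtB17_7.Ce.right.right.right.left.left.left.left.right RtB17_7.CTp RtB17_7.CEr 0x8e977f37cdc154d9b7c88b90f7a7e6825002e7d540d1222847e8cd108825573c263dfaf28e630d5806a1ef82ce0c9dcb7e620d326efefb8cd199714473c14c530268e630d645959696931905c2e1ed4448cd1602304682c121e4a57f630d6697697697693469769346975934597593435697597 = true := by decide +kernel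

theorem cB17_7_3_120 : chunkOkM (LB17_7.ctx true true 285 475 256 7 16 3101 9867 32 64) muQ true true 64 RtB17_7.Cx.left.right.right RtB17_7.CX RtB17_7.Ctp.right.right.left.right.right.right.left RtB17_7.Ce.right.right.right.left.left.left.left.left RtB17_7.CTp RtB17_7.CEr 0x58ee066cdabc9f56d81e15ca67e61cd716718d540d10e90997dd8c921a63cef3afb6e61a923d578d540d5642831b7cd10abe8bf8c8e643116e61935f3a48d540d336f77848cd1345b1c73c18227da7e618a3e2768d540d1a251f87ddaca4f563c184e0977e6191869ee8d540d6559658b2f17cdde9b3067c81aa985f88d530d12ab7e188cdae024ac72c17e09dde8d530d5459737 = true := by decide +kernel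

theorem cB17_7_3_121 : chunkOkM (LB17_7.ctx true true 286 475 256 7 16 6209 9911 32 32) muQ true true 64 RtB17_7.Cx.left.right.right RtB17_7.CX RtB17_7.Ctp.right.right.left.right.right.right.left RtB17_7.Ce.right.right.right.left.left.left.left.right RtB17_7.CTp RtB17_7.CEr 0x5997eb17cd138cc4d88c8b3be636e61b103a698d540d129c1f2d8cdc42fb163c1d321857e61abc0b128d540d51bb3616f05bfed79fc7cd6e713d63c102a7157e61b54e9dc8d540d53596c333387cdd1c35bc7c819d264e88d530d1217d6748cdc94fd3a72c1970fcb08d530d559345975937 = true := by decide +kernel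

theorem cB17_7_3_122 : chunkOkM (LB17_7.ctx true true 266 119 64 7 16 1561 4939 32 64) muQ true true 64 RtB17_7.Cx.left.right.right RtB17_7.CX RtB17_7.Ctp.right.right.left.right.right.right.right RtB17_7.Ce.right.right.right.left.left.left.left.left RtB17_7.CTp RtB17_7.CEr 0x877fb0f7cdcbdf756d82a341a67e613c5c5bb8d540d2c589ac7dd19e987f73c3c352e77e611b651c08d540d39a50897dd15ed7fc73c470c3f27e6f985eac7d540d65 = true := by decide +kernel

end Vale.Agent.helper4.Q4
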