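import Vale.Agent.helper4.Q4TreeM
import Vale.Agent.helper4.Q4G.PB17_7

/-!
Checks for pairs of intervals of second moments.
-/

set_option maxRecDepth 100000
set_option linter.unusedVariables false

namespace Vale.Agent.helper4.Q4

theorem cB17_7_3_123 : chunkOkM (LB17_7.ctx true true 279 237 128 7 16 3129 9933 32 64) muQ true true 64 RtB17_7.Cx.left.right.right.left RtB17_7.CX RtB17_7.Ctp.right.right.left.right.right.right.right RtB17_7.Ce.right.right.right.left.left.left.left.right RtB17_7.CTp RtB17_7.CEr 0x7b26a2a7cd90f57177c8199f6b17e6147fdc9b8d540d2745340a8cd1a31cc073c9e589cb7e630d4466b0e7dd17ed31373c98f0e297e660f1d427d540d636170fb88cd1d0de7373c19673d67e6168e16ea8d540d24d0cba68cd109718573c3b20df17e613e142f88d540d6391b8c278cd260ea1673c2e682277e618bb74d88d540d29006467dd11e114773c4ba7ea37e6103d04468d540d6435 = true := by decide +kernel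

theorem cB17_7_3_124 : chunkOkM (LB17_7.ctx true true 269 239 128 7 16 1561 4961 32 32) muQ true true 64 RtB17_7.Cx.left.right.right.right RtB17_7.CX RtB17_7.Ctp.right.right.left.right.right.right.right RtB17_7.Ce.right.right.right.left.left.left.left.right RtB17_7.CTp RtB17_7.CEr 0x61cba207cd11ffce27d820de6037e615b20ac68d540d11325e47ddc1652963c24140e67e6137f9b048d540d5 = true := by decide +kernel

theorem cB17_7_3_125 : chunkOkM (LB17_7.ctx true true 92 1 1 1 1 1 1 1 1) muQ true true 64 RtB17_7.Cx.left.right.left RtB17_7.CX RtB17_7.Ctp.right.right.left.right.right.right RtB17_7.Ce.right.right.right.left.left.left.right RtB17_7.CTp RtB17_7.CEr 0x69 = true := by decide +kernel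

theorem cB17_7_3_126 : chunkOkM (LB17_7.ctx true true 286 479 256 7 16 6209 9955 32 32) muQ true true 64 RtB17_7.Cx.left.right.right RtB17_7.CX RtB17_7.Ctp.right.right.left.right.right.right.left RtB17_7.Ce.right.right.right.left.left.left.right RtB17_7.CTp RtB17_7.CEr 0x59591914a66f05b120387e08cd8ee761d72c1a5979158d530d559345975934597 = true := by decide +kernel

theorem cB17_7_3_127 : chunkOkM (LB17_7.ctx true true 303 951 512 7 16 12481 19899 32 64) muQ true true 64 RtB17_7.Cx.left.right.right.left RtB17_7.CX RtB17_7.Ctp.right.right.left.right.right.right.right RtB17_7.Ce.right.right.right.left.left.left.right.left RtB17_7.CTp RtB17_7.CEr 0xa50694f7cdb1086797c8d395da6e61971d0ec8d540d3f6f38358cd1e66debb82cc26b0ff7e630d2a86df9d8cd14c79f4482c8f8b4f17e6f1bf0267d540d669711c22d808cd287351f73cca897377e630d236445418cd1079d9c73c8d8ebff7e6a9f6c7e7d540d6455959725a2ee7cdc424c927c8190537b7e530d40e3588782c1de87aa7e520d2ab490418cd12599b4582c1aebb5c98d530d65593459759345973 = true := by decide +kernel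

theorem cB17_7_3_128 : chunkOkM (LB17_7.ctx true true 276 239 128 7 16 3129 4983 32 64) muQ true true 64 RtB17_7.Cx.left.right.right.right RtB17_7.CX RtB17_7.Ctp.right.right.left.right.right.right.right RtB17_7.Ce.right.right.right.left.left.left.right.left RtB17_7.CTp RtB17_7.CEr 0x72809a87cd80226157c811bf49e7e6189599cb8d540d28d3beb7dd172b1c373c296bdc97e61493e8508d540d50af1e87dd1d1120373c27f02987e616660a668d540d611d292f58cdc49d8b63cda014f6e61793df918d540d35 = true := by decide +kernel

theorem cB17_7_3_129 : chunkOkM (LB17_7.ctx true true 298 959 512 7 16 6237 19987 32 64) muQ true true 64 RtB17_7.Cx.left.right.right RtB17_7.CX RtB17_7.Ctp.right.right.left.right.right.right.right RtB17_7.Ce.right.right.right.left.left.left.right.right RtB17_7.CTp RtB17_7.CEr 0x76881a67cdeaae9b57c882d92f6e618dd67d08d540d1c097ab68cd11d3b7a73c35c71c07e611e466128d540d21df3eb58cdea776463c38bb7087e6143493268d540d638fe27588cd1c4ba95282c1ecfd1e7e61799ebe88d540d26e863258cd1102fdf73c2c5fb747e616f0f9708d540d64559591951416f05b11a1d4e78cd9aca08072c1964f6d7e530d5459759345973697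 = true := by decide +kernel

theorem cB17_7_3_130 : chunkOkM (LB17_7.ctx true true 308 1919 1024 7 16 12537 40139 32 32) muQ true true 64 RtB17_7.Cx.left.right RtB17_7.CX RtB17_7.Ctp.right.right.left.right.right RtB17_7.Ce.right.right.right.left.left.right RtB17_7.CTp RtB17_7.CEr 0x5959595959692d98d7cdc3224207c818927a97e530d113c81488cdb81bfe072c189628d7e530d545975934597593459759345975935974593 = true := by decide +kernel

theorem cB17_7_3_131 : chunkOkM (LB17_7.ctx true true 256 123 64 7 16 1533 2497 16 32) muQ true true 64 RtB17_7.Cx.right.left RtB17_7.CX RtB17_7.Ctp.right.right.left.right.right.left RtB17_7.Ce.right.right.right.left.left.left RtB17_7.CTp RtB17_7.CEr 0x70111997cd7745f86d8e25b7e6e62456f2ed8d540d92ffd2b7cd9feddf6d8d5af416e6217b39c18d540d9dbdb0f7cd1f3a376d8c395b46e61cbf10698d540d7c6edab7cd6a319c6d81afaaec7e6250a8fb18d540d374 = true := by decide +kernel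

theorem cB17_7_3_132 : chunkOkM (LB17_7.ctx true true 263 121 64 7 16 1561 4961 32 32) muQ true true 64 RtB17_7.Cx.right.left RtB17_7.CX RtB17_7.Ctp.right.right.left.right.right.right RtB17_7.Ce.right.right.right.left.left.left.left RtB17_7.CTp RtB17_7.CEr 0x31805c6917bbaa6f05b94952d6dd667a4463c13484d27e61d7134f38d540d5cdcfb5b7cd1e39dc6d814e2ff2e8d530d473 = true := by decide +kernel

theorem cB17_7_3_133 : chunkOkM (LB17_7.ctx true true 279 483 256 7 16 3101 5005 32 32) muQ true true 64 RtB17_7.Cx.right.left.left RtB17_7.CX RtB17_7.Ctp.right.right.left.right.right.right.left RtB17_7.Ce.right.right.right.left.left.left.right RtB17_7.CTp RtB17_7.CEr 0xa6b1e497cd1060f26d8ca959b6e61b9f31748d540dca045857cd69e5896c81b2dca4d8d530d5975937be1bf397cd28c2d96d82a2d3ce7e61de7ddb68d540d18bf8c6f05bdedda86dd89a16763c1b09f817e61cee3f758d540d5c7aa3a37cd2021a562c1c5b46078d530d374 = true := by decide +kernel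

theorem cB17_7_3_134 : chunkOkM (LB17_7.ctx true true 269 243 128 7 16 1561 5005 32 32) muQ true true 64 RtB17_7.Cx.right.left.left RtB17_7.CX RtB17_7.Ctp.right.right.left.right.right.right.right RtB17_7.Ce.right.right.right.left.left.left.right RtB17_7.CTp RtB17_7.CEr 0xc143a5c7cd7046753c1e087b6e61622b9318d540d78ae7127cda75d2d57c8ea13956e619a126ee8d540d10bd8587ddae3d0b63c13f36497e6178d5bdd8d540d57158de66f05b103e1687dd9ea9c263c7aefd66e6190a76e08d540d54 = true := by decide +kernel

theorem cB17_7_3_135 : chunkOkM (LB17_7.ctx true true 252 123 64 7 16 777 2497 16 32) muQ true true 64 RtB17_7.Cx.right.left.right RtB17_7.CX RtB17_7.Ctp.right.right.left.right.right.right RtB17_7.Ce.right.right.right.left.left.left.right RtB17_7.CTp RtB17_7.CEr 0x99a77697cd3fdeb96d820f6de8e8d61ded14758d540d = true := by decide +kernel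

theorem cB17_7_3_136 : chunkOkM (LB17_7.ctx true true 243 63 32 7 16 763 1243 16 32) muQ true true 64 RtB17_7.Cx.right.right RtB17_7.CX RtB17_7.Ctp.right.right.left.right.right RtB17_7.Ce.right.right.right.left.left.left RtB17_7.CTp RtB17_7.CEr 0x69f6cab46d816eec48f8d628b09e008d530d3 = true := by decide +kernel

theorem cB17_7_3_137 : chunkOkM (LB17_7.ctx true true 243 61 32 7 16 763 1265 16 32) muQ true true 64 RtB17_7.Cx.right.left RtB17_7.CX RtB17_7.Ctp.right.right.left.right.right.left RtB17_7.Ce.right.right.right.left.left.right RtB17_7.CTp RtB17_7.CEr 0xcdf5486ddd5eab36d81d4732ad8d62b745b878d540d = true := by decide +kernel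

theorem cB17_7_3_138 : chunkOkM (LB17_7.ctx true true 256 121 64 7 16 1547 2519 16 32) muQ true true 64 RtB17_7.Cx.right.left.left RtB17_7.CX RtB17_7.Ctp.right.right.left.right.right.right.left RtB17_7.Ce.right.right.right.left.left.right.left RtB17_7.CTp RtB17_7.CEr 0xb14d5ea7cd8944553c15daf6f7e61e2164948d540d = true := by decide +kernel

end Vale.Agent.helper4.Q4
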