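import Vale.Agent.helper4.Q4TreeM
import Vale.Agent.helper4.Q4G.PB17_7_0
import Vale.Agent.helper4.Q4G.PB17_7_1_0
import Vale.Agent.helper4.Q4G.PB17_7_1_1
import Vale.Agent.helper4.Q4G.PB17_7_1_2
import Vale.Agent.helper4.Q4G.PB17_7_1_3
import Vale.Agent.helper4.Q4G.PB17_7_2
import Vale.Agent.helper4.Q4G.PB17_7_3
import Vale.Agent.helper4.Q4G.PB17_7_4
import Vale.Agent.helper4.Q4G.PB17_7_5
import Vale.Agent.helper4.Q4G.PB17_7_6
import Vale.Agent.helper4.Q4G.PB17_7_7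
import Vale.Agent.helper4.Q4G.PB17_7_8
import Vale.Agent.helper4.Q4G.PB17_7_9
import Vale.Agent.helper4.Q4G.PB17_7_10
import Vale.Agent.helper4.Q4G.PB17_7_11
import Vale.Agent.helper4.Q4G.PB17_7_12
import Vale.Agent.helper4.Q4G.PB17_7_13
import Vale.Agent.helper4.Q4G.PB17_7_14
import Vale.Agent.helper4.Q4G.PB17_7_15
import Vale.Agent.helper4.Q4G.PB17_7_16_0
import Vale.Agent.helper4.Q4G.PB17_7_16_1
import Vale.Agent.helper4.Q4G.PB17_7_16_2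
import Vale.Agent.helper4.Q4G.PB17_7_17
import Vale.Agent.helper4.Q4G.PB17_7_18
import Vale.Agent.helper4.Q4G.PB17_7_19
import Vale.Agent.helper4.Q4G.PB17_7_20
import Vale.Agent.helper4.Q4G.PB17_7_21
import Vale.Agent.helper4.Q4G.PB17_7_22
import Vale.Agent.helper4.Q4G.PB17_7_23
import Vale.Agent.helper4.Q4G.PB17_7_24

/-!
Checks for pairs of intervals of second moments.
-/

set_option maxRecDepth 100000
set_option linter.unusedVariables false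

namespace Vale.Agent.helper4.Q4

theorem covB17_7 : LB17_7.Full muQ.val RtB17_7 := ⟨(LitT.Cov.split_t (LitT.cov_of_chunkM cB17_7_3_0) (LitT.Cov.split_e (LitT.cov_of_chunkM cB17_7_3_1) (LitT.Cov.split_t (LitT.cov_of_chunkM cB17_7_3_2) (LitT.Cov.split_e (LitT.cov_of_chunkM cB17_7_3_3) (LitT.Cov.split_e (LitT.Cov.split_t (LitT.Cov.split_e (LitT.Cov.split_t (LitT.Cov.split_e (LitT.cov_of_chunkM cB17_7_3_4) (LitT.Cov.split_t (LitT.cov_of_chunkM cB17_7_3_5) (LitT.Cov.split_x (LitT.Cov.split_e (LitT.cov_of_chunkM cB17_7_3_6) (LitT.Cov.split_t (LitT.cov_of_chunkM cB17_7_3_7) (LitT.cov_of_chunkM cB17_7_3_8))) (LitT.cov_of_chunkM cB17_7_3_9)))) (LitT.cov_of_chunkM cB17_7_3_10)) (LitT.Cov.split_t (LitT.Cov.split_e (LitT.Cov.split_t (LitT.cov_of_chunkM cB17_7_3_11) (LitT.Cov.split_x (LitT.cov_of_chunkM cB17_7_3_12) (LitT.cov_of_chunkM cB17_7_3_13))) (LitT.cov_of_chunkM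 cB17_7_3_14)) (LitT.Cov.split_e (LitT.Cov.split_x (LitT.Cov.split_t (LitT.Cov.split_e (LitT.Cov.split_x (LitT.Cov.split_t (LitT.Cov.split_e (LitT.cov_of_chunkM cB17_7_3_15) (LitT.Cov.split_x (LitT.cov_of_chunkM cB17_7_3_16) (LitT.cov_of_chunkM cB17_7_3_17))) (LitT.Cov.split_e (LitT.cov_of_chunkM cB17_7_3_18) (LitT.Cov.split_x (LitT.Cov.split_t (LitT.cov_of_chunkM cB17_7_3_19) (LitT.cov_of_chunkM cB17_7_3_20)) (LitT.cov_of_chunkM cB17_7_3_21)))) (LitT.cov_of_chunkM cB17_7_3_22)) (LitT.Cov.split_x (LitT.Cov.split_t (LitT.cov_of_chunkM cB17_7_3_23) (LitT.Cov.split_e (LitT.Cov.split_x (LitT.Cov.split_t (LitT.cov_of_chunkM cB17_7_3_24) (LitT.Cov.split_e (LitT.cov_of_chunkM cB17_7_3_25) (LitT.cov_of_chunkM cB17_7_3_26))) (LitT.cov_of_chunkM cB17_7_3_27)) (LitT.Cov.split_x (LitT.Cov.split_t (LitT.cov_of_chunkM cB17_7_3_28) (LitT.Cov.split_e (LitT.cov_of_chunkM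 cB17_7_3_29) (LitT.cov_of_chunkM cB17_7_3_30))) (LitT.cov_of_chunkM cB17_7_3_31)))) (LitT.cov_of_chunkM cB17_7_3_32))) (LitT.Cov.split_e (LitT.cov_of_chunkM cB17_7_3_33) (LitT.Cov.split_x (LitT.Cov.split_t (LitT.Cov.split_e (LitT.cov_of_chunkM cB17_7_3_34) (LitT.Cov.split_x (LitT.Cov.split_t (LitT.Cov.split_e (LitT.cov_of_chunkM cB17_7_3_35) (LitT.cov_of_chunkM cB17_7_3_36)) (LitT.cov_of_chunkM cB17_7_3_37)) (LitT.cov_of_chunkM cB17_7_3_38))) (LitT.cov_of_chunkM cB17_7_3_39)) (LitT.cov_of_chunkM cB17_7_3_40)))) (LitT.cov_of_chunkM cB17_7_3_41)) (LitT.Cov.split_x (LitT.Cov.split_t (LitT.Cov.split_e (LitT.Cov.split_x (LitT.cov_of_chunkM cB17_7_3_42) (LitT.Cov.split_t (LitT.cov_of_chunkM cB17_7_3_43) (LitT.Cov.split_e (LitT.cov_of_chunkM cB17_7_3_44) (LitT.cov_of_chunkM cB17_7_3_45)))) (LitT.cov_of_chunkM cB17_7_3_46)) (LitT.Cov.split_e (LitT.Cov.split_x (LitT.Cov.split_t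 (LitT.Cov.split_e (LitT.Cov.split_x (LitT.Cov.split_t (LitT.cov_of_chunkM cB17_7_3_47) (LitT.Cov.split_e (LitT.cov_of_chunkM cB17_7_3_48) (LitT.cov_of_chunkM cB17_7_3_49))) (LitT.Cov.split_t (LitT.Cov.split_e (LitT.cov_of_chunkM cB17_7_3_50) (LitT.cov_of_chunkM cB17_7_3_51)) (LitT.cov_of_chunkM cB17_7_3_52))) (LitT.Cov.split_x (LitT.cov_of_chunkM cB17_7_3_53) (LitT.Cov.split_t (LitT.cov_of_chunkM cB17_7_3_54) (LitT.Cov.split_e (LitT.cov_of_chunkM cB17_7_3_55) (LitT.Cov.split_x (LitT.cov_of_chunkM cB17_7_3_56) (LitT.cov_of_chunkM cB17_7_3_57)))))) (LitT.Cov.split_e (LitT.Cov.split_x (LitT.Cov.split_T (LitT.Cov.split_t (LitT.cov_of_chunkM cB17_7_3_58) (LitT.cov_of_chunkM cB17_7_3_59)) (LitT.cov_of_chunkM cB17_7_3_60)) (LitT.cov_of_chunkM cB17_7_3_61)) (LitT.Cov.split_x (LitT.Cov.split_t (LitT.cov_of_chunkM cB17_7_3_62) (LitT.cov_of_chunkM cB17_7_3_63)) (LitT.Cov.split_t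 (LitT.cov_of_chunkM cB17_7_3_64) (LitT.cov_of_chunkM cB17_7_3_65))))) (LitT.Cov.split_t (LitT.Cov.split_e (LitT.cov_of_chunkM cB17_7_3_66) (LitT.Cov.split_x (LitT.Cov.split_t (LitT.cov_of_chunkM cB17_7_3_67) (LitT.cov_of_chunkM cB17_7_3_68)) (LitT.cov_of_chunkM cB17_7_3_69))) (LitT.cov_of_chunkM cB17_7_3_70))) (LitT.Cov.split_x (LitT.Cov.split_t (LitT.cov_of_chunkM cB17_7_3_71) (LitT.Cov.split_e (LitT.Cov.split_x (LitT.cov_of_chunkM cB17_7_3_72) (LitT.Cov.split_t (LitT.Cov.split_e (LitT.cov_of_chunkM cB17_7_3_73) (LitT.cov_of_chunkM cB17_7_3_74)) (LitT.Cov.split_e (LitT.cov_of_chunkM cB17_7_3_75) (LitT.cov_of_chunkM cB17_7_3_76)))) (LitT.cov_of_chunkM cB17_7_3_77))) (LitT.Cov.split_t (LitT.Cov.split_e (LitT.Cov.split_x (LitT.Cov.split_t (LitT.cov_of_chunkM cB17_7_3_78) (LitT.Cov.split_e (LitT.cov_of_chunkM cB17_7_3_79) (LitT.cov_of_chunkM cB17_7_3_80)))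 (LitT.cov_of_chunkM cB17_7_3_81)) (LitT.Cov.split_x (LitT.cov_of_chunkM cB17_7_3_82) (LitT.Cov.split_t (LitT.cov_of_chunkM cB17_7_3_83) (LitT.cov_of_chunkM cB17_7_3_84)))) (LitT.Cov.split_e (LitT.Cov.split_x (LitT.Cov.split_t (LitT.Cov.split_e (LitT.cov_of_chunkM cB17_7_3_85) (LitT.cov_of_chunkM cB17_7_3_86)) (LitT.cov_of_chunkM cB17_7_3_87)) (LitT.cov_of_chunkM cB17_7_3_88)) (LitT.Cov.split_x (LitT.Cov.split_t (LitT.Cov.split_e (LitT.Cov.split_x (LitT.cov_of_chunkM cB17_7_3_89) (LitT.cov_of_chunkM cB17_7_3_90)) (LitT.cov_of_chunkM cB17_7_3_91)) (LitT.Cov.split_e (LitT.cov_of_chunkM cB17_7_3_92) (LitT.cov_of_chunkM cB17_7_3_93))) (LitT.Cov.split_t (LitT.cov_of_chunkM cB17_7_3_94) (LitT.cov_of_chunkM cB17_7_3_95)))))))) (LitT.Cov.split_t (LitT.Cov.split_e (LitT.cov_of_chunkM cB17_7_3_96) (LitT.cov_of_chunkM cB17_7_3_97)) (LitT.cov_of_chunkM cB17_7_3_98))))))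 (LitT.Cov.split_t (LitT.Cov.split_e (LitT.cov_of_chunkM cB17_7_3_99) (LitT.Cov.split_e (LitT.cov_of_chunkM cB17_7_3_100) (LitT.Cov.split_x (LitT.Cov.split_t (LitT.Cov.split_e (LitT.cov_of_chunkM cB17_7_3_101) (LitT.Cov.split_x (LitT.Cov.split_t (LitT.Cov.split_e (LitT.Cov.split_x (LitT.cov_of_chunkM cB17_7_3_102) (LitT.cov_of_chunkM cB17_7_3_103)) (LitT.Cov.split_x (LitT.cov_of_chunkM cB17_7_3_104) (LitT.Cov.split_t (LitT.cov_of_chunkM cB17_7_3_105) (LitT.cov_of_chunkM cB17_7_3_106)))) (LitT.cov_of_chunkM cB17_7_3_107)) (LitT.cov_of_chunkM cB17_7_3_108))) (LitT.cov_of_chunkM cB17_7_3_109)) (LitT.cov_of_chunkM cB17_7_3_110)))) (LitT.cov_of_chunkM cB17_7_3_111))) (LitT.Cov.split_t (LitT.Cov.split_t (LitT.cov_of_chunkM cB17_7_3_112) (LitT.Cov.split_e (LitT.Cov.split_e (LitT.Cov.split_t (LitT.cov_of_chunkM cB17_7_3_113) (LitT.Cov.split_x (LitT.Cov.split_x (LitT.cov_of_chunkM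 cB17_7_3_114) (LitT.Cov.split_e (LitT.Cov.split_t (LitT.cov_of_chunkM cB17_7_3_115) (LitT.Cov.split_e (LitT.Cov.split_x (LitT.Cov.split_t (LitT.cov_of_chunkM cB17_7_3_116) (LitT.Cov.split_e (LitT.Cov.split_x (LitT.cov_of_chunkM cB17_7_3_117) (LitT.cov_of_chunkM cB17_7_3_118)) (LitT.cov_of_chunkM cB17_7_3_119))) (LitT.Cov.split_t (LitT.Cov.split_e (LitT.cov_of_chunkM cB17_7_3_120) (LitT.cov_of_chunkM cB17_7_3_121)) (LitT.Cov.split_e (LitT.cov_of_chunkM cB17_7_3_122) (LitT.Cov.split_x (LitT.cov_of_chunkM cB17_7_3_123) (LitT.cov_of_chunkM cB17_7_3_124))))) (LitT.Cov.split_x (LitT.cov_of_chunkM cB17_7_3_125) (LitT.Cov.split_t (LitT.cov_of_chunkM cB17_7_3_126) (LitT.Cov.split_e (LitT.Cov.split_x (LitT.cov_of_chunkM cB17_7_3_127) (LitT.cov_of_chunkM cB17_7_3_128)) (LitT.cov_of_chunkM cB17_7_3_129)))))) (LitT.cov_of_chunkM cB17_7_3_130))) (LitT.Cov.split_e (LitT.Cov.split_x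 (LitT.Cov.split_t (LitT.cov_of_chunkM cB17_7_3_131) (LitT.Cov.split_e (LitT.cov_of_chunkM cB17_7_3_132) (LitT.Cov.split_x (LitT.Cov.split_t (LitT.cov_of_chunkM cB17_7_3_133) (LitT.cov_of_chunkM cB17_7_3_134)) (LitT.cov_of_chunkM cB17_7_3_135)))) (LitT.cov_of_chunkM cB17_7_3_136)) (LitT.Cov.split_x (LitT.Cov.split_t (LitT.cov_of_chunkM cB17_7_3_137) (LitT.Cov.split_e (LitT.Cov.split_x (LitT.Cov.split_t (LitT.cov_of_chunkM cB17_7_3_138) (LitT.Cov.split_e (LitT.cov_of_chunkM cB17_7_3_139) (LitT.cov_of_chunkM cB17_7_3_140))) (LitT.cov_of_chunkM cB17_7_3_141)) (LitT.cov_of_chunkM cB17_7_3_142))) (LitT.cov_of_chunkM cB17_7_3_143))))) (LitT.cov_of_chunkM cB17_7_3_144)) (LitT.cov_of_chunkM cB17_7_3_145))) (LitT.Cov.split_t (LitT.Cov.split_e (LitT.Cov.split_e (LitT.Cov.split_x (LitT.Cov.split_t (LitT.Cov.split_e (LitT.Cov.split_x (LitT.cov_of_chunkM cB17_7_3_146)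 (LitT.Cov.split_t (LitT.Cov.split_e (LitT.Cov.split_x (LitT.Cov.split_t (LitT.Cov.split_e (LitT.cov_of_chunkM cB17_7_3_147) (LitT.cov_of_chunkM cB17_7_3_148)) (LitT.cov_of_chunkM cB17_7_3_149)) (LitT.cov_of_chunkM cB17_7_3_150)) (LitT.Cov.split_x (LitT.Cov.split_t (LitT.cov_of_chunkM cB17_7_3_151) (LitT.Cov.split_e (LitT.cov_of_chunkM cB17_7_3_152) (LitT.cov_of_chunkM cB17_7_3_153))) (LitT.Cov.split_t (LitT.Cov.split_e (LitT.cov_of_chunkM cB17_7_3_154) (LitT.Cov.split_x (LitT.cov_of_chunkM cB17_7_3_155) (LitT.cov_of_chunkM cB17_7_3_156))) (LitT.cov_of_chunkM cB17_7_3_157)))) (LitT.cov_of_chunkM cB17_7_3_158))) (LitT.Cov.split_x (LitT.cov_of_chunkM cB17_7_3_159) (LitT.Cov.split_t (LitT.Cov.split_x (LitT.cov_of_chunkM cB17_7_3_160) (LitT.Cov.split_e (LitT.Cov.split_t (LitT.Cov.split_e (LitT.Cov.split_x (LitT.cov_of_chunkM cB17_7_3_161) (LitT.Cov.split_T (LitT.cov_of_chunkM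 cB17_7_3_162) (LitT.cov_of_chunkM cB17_7_3_163))) (LitT.cov_of_chunkM cB17_7_3_164)) (LitT.Cov.split_e (LitT.cov_of_chunkM cB17_7_3_165) (LitT.cov_of_chunkM cB17_7_3_166))) (LitT.cov_of_chunkM cB17_7_3_167))) (LitT.Cov.split_e (LitT.Cov.split_x (LitT.cov_of_chunkM cB17_7_3_168) (LitT.cov_of_chunkM cB17_7_3_169)) (LitT.Cov.split_x (LitT.cov_of_chunkM cB17_7_3_170) (LitT.Cov.split_t (LitT.Cov.split_e (LitT.cov_of_chunkM cB17_7_3_171) (LitT.cov_of_chunkM cB17_7_3_172)) (LitT.cov_of_chunkM cB17_7_3_173))))))) (LitT.cov_of_chunkM cB17_7_3_174)) (LitT.Cov.split_t (LitT.Cov.split_e (LitT.cov_of_chunkM cB17_7_3_175) (LitT.Cov.split_x (LitT.Cov.split_t (LitT.Cov.split_e (LitT.Cov.split_x (LitT.Cov.split_t (LitT.Cov.split_e (LitT.cov_of_chunkM cB17_7_3_176) (LitT.Cov.split_x (LitT.cov_of_chunkM cB17_7_3_177) (LitT.cov_of_chunkM cB17_7_3_178))) (LitT.cov_of_chunkM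 cB17_7_3_179)) (LitT.cov_of_chunkM cB17_7_3_180)) (LitT.Cov.split_x (LitT.Cov.split_t (LitT.Cov.split_e (LitT.Cov.split_x (LitT.cov_of_chunkM cB17_7_3_181) (LitT.cov_of_chunkM cB17_7_3_182)) (LitT.cov_of_chunkM cB17_7_3_183)) (LitT.Cov.split_e (LitT.Cov.split_x (LitT.cov_of_chunkM cB17_7_3_184) (LitT.cov_of_chunkM cB17_7_3_185)) (LitT.Cov.split_x (LitT.cov_of_chunkM cB17_7_3_186) (LitT.cov_of_chunkM cB17_7_3_187)))) (LitT.Cov.split_t (LitT.cov_of_chunkM cB17_7_3_188) (LitT.cov_of_chunkM cB17_7_3_189)))) (LitT.cov_of_chunkM cB17_7_3_190)) (LitT.cov_of_chunkM cB17_7_3_191))) (LitT.cov_of_chunkM cB17_7_3_192))) (LitT.Cov.split_x (LitT.cov_of_chunkM cB17_7_3_193) (LitT.Cov.split_t (LitT.Cov.split_e (LitT.Cov.split_x (LitT.Cov.split_t (LitT.Cov.split_e (LitT.Cov.split_x (LitT.Cov.split_t (LitT.cov_of_chunkM cB17_7_3_194) (LitT.Cov.split_e (LitT.Cov.split_x (LitT.cov_of_chunkM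 cB17_7_3_195) (LitT.Cov.split_t (LitT.cov_of_chunkM cB17_7_3_196) (LitT.cov_of_chunkM cB17_7_3_197))) (LitT.cov_of_chunkM cB17_7_3_198))) (LitT.Cov.split_t (LitT.cov_of_chunkM cB17_7_3_199) (LitT.Cov.split_e (LitT.cov_of_chunkM cB17_7_3_200) (LitT.Cov.split_x (LitT.cov_of_chunkM cB17_7_3_201) (LitT.cov_of_chunkM cB17_7_3_202))))) (LitT.Cov.split_x (LitT.cov_of_chunkM cB17_7_3_203) (LitT.Cov.split_t (LitT.cov_of_chunkM cB17_7_3_204) (LitT.Cov.split_e (LitT.cov_of_chunkM cB17_7_3_205) (LitT.cov_of_chunkM cB17_7_3_206))))) (LitT.Cov.split_e (LitT.Cov.split_x (LitT.Cov.split_t (LitT.Cov.split_e (LitT.cov_of_chunkM cB17_7_3_207) (LitT.cov_of_chunkM cB17_7_3_208)) (LitT.Cov.split_e (LitT.cov_of_chunkM cB17_7_3_209) (LitT.cov_of_chunkM cB17_7_3_210))) (LitT.cov_of_chunkM cB17_7_3_211)) (LitT.Cov.split_x (LitT.Cov.split_t (LitT.cov_of_chunkM cB17_7_3_212) (LitT.Cov.split_e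 (LitT.cov_of_chunkM cB17_7_3_213) (LitT.cov_of_chunkM cB17_7_3_214))) (LitT.Cov.split_t (LitT.Cov.split_e (LitT.Cov.split_x (LitT.Cov.split_t (LitT.cov_of_chunkM cB17_7_3_215) (LitT.cov_of_chunkM cB17_7_3_216)) (LitT.cov_of_chunkM cB17_7_3_217)) (LitT.Cov.split_x (LitT.cov_of_chunkM cB17_7_3_218) (LitT.cov_of_chunkM cB17_7_3_219))) (LitT.cov_of_chunkM cB17_7_3_220))))) (LitT.Cov.split_t (LitT.Cov.split_e (LitT.cov_of_chunkM cB17_7_3_221) (LitT.cov_of_chunkM cB17_7_3_222)) (LitT.cov_of_chunkM cB17_7_3_223))) (LitT.Cov.split_x (LitT.Cov.split_t (LitT.cov_of_chunkM cB17_7_3_224) (LitT.Cov.split_x (LitT.cov_of_chunkM cB17_7_3_225) (LitT.Cov.split_e (LitT.Cov.split_t (LitT.Cov.split_x (LitT.cov_of_chunkM cB17_7_3_226) (LitT.Cov.split_e (LitT.Cov.split_t (LitT.cov_of_chunkM cB17_7_3_227) (LitT.cov_of_chunkM cB17_7_3_228)) (LitT.cov_of_chunkM cB17_7_3_229))) (LitT.Cov.split_e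 (LitT.Cov.split_x (LitT.cov_of_chunkM cB17_7_3_230) (LitT.cov_of_chunkM cB17_7_3_231)) (LitT.cov_of_chunkM cB17_7_3_232))) (LitT.cov_of_chunkM cB17_7_3_233)))) (LitT.Cov.split_t (LitT.cov_of_chunkM cB17_7_3_234) (LitT.Cov.split_e (LitT.Cov.split_x (LitT.Cov.split_t (LitT.Cov.split_e (LitT.cov_of_chunkM cB17_7_3_235) (LitT.cov_of_chunkM cB17_7_3_236)) (LitT.cov_of_chunkM cB17_7_3_237)) (LitT.cov_of_chunkM cB17_7_3_238)) (LitT.Cov.split_x (LitT.Cov.split_t (LitT.cov_of_chunkM cB17_7_3_239) (LitT.Cov.split_e (LitT.Cov.split_x (LitT.cov_of_chunkM cB17_7_3_240) (LitT.cov_of_chunkM cB17_7_3_241)) (LitT.Cov.split_x (LitT.cov_of_chunkM cB17_7_3_242) (LitT.cov_of_chunkM cB17_7_3_243)))) (LitT.cov_of_chunkM cB17_7_3_244)))))) (LitT.Cov.split_e (LitT.cov_of_chunkM cB17_7_3_245) (LitT.Cov.split_x (LitT.Cov.split_t (LitT.Cov.split_e (LitT.Cov.split_x (LitT.cov_of_chunkM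 cB17_7_3_246) (LitT.Cov.split_t (LitT.Cov.split_e (LitT.cov_of_chunkM cB17_7_3_247) (LitT.cov_of_chunkM cB17_7_3_248)) (LitT.cov_of_chunkM cB17_7_3_249))) (LitT.Cov.split_x (LitT.cov_of_chunkM cB17_7_3_250) (LitT.Cov.split_t (LitT.Cov.split_e (LitT.cov_of_chunkM cB17_7_3_251) (LitT.cov_of_chunkM cB17_7_3_252)) (LitT.cov_of_chunkM cB17_7_3_253)))) (LitT.cov_of_chunkM cB17_7_3_254)) (LitT.Cov.split_t (LitT.Cov.split_e (LitT.cov_of_chunkM cB17_7_3_255) (LitT.Cov.split_x (LitT.Cov.split_t (LitT.cov_of_chunkM cB17_7_3_256) (LitT.cov_of_chunkM cB17_7_3_257)) (LitT.cov_of_chunkM cB17_7_3_258))) (LitT.cov_of_chunkM cB17_7_3_259))))))) (LitT.Cov.split_x (LitT.cov_of_chunkM cB17_7_3_260) (LitT.Cov.split_e (LitT.Cov.split_t (LitT.Cov.split_e (LitT.Cov.split_x (LitT.cov_of_chunkM cB17_7_3_261) (LitT.Cov.split_t (LitT.cov_of_chunkM cB17_7_3_262) (LitT.Cov.split_e (LitT.Cov.split_x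 (LitT.cov_of_chunkM cB17_7_3_263) (LitT.Cov.split_t (LitT.cov_of_chunkM cB17_7_3_264) (LitT.Cov.split_e (LitT.cov_of_chunkM cB17_7_3_265) (LitT.cov_of_chunkM cB17_7_3_266)))) (LitT.cov_of_chunkM cB17_7_3_267)))) (LitT.cov_of_chunkM cB17_7_3_268)) (LitT.Cov.split_e (LitT.Cov.split_x (LitT.cov_of_chunkM cB17_7_3_269) (LitT.Cov.split_t (LitT.Cov.split_e (LitT.Cov.split_x (LitT.Cov.split_t (LitT.Cov.split_e (LitT.Cov.split_x (LitT.cov_of_chunkM cB17_7_3_270) (LitT.cov_of_chunkM cB17_7_3_271)) (LitT.cov_of_chunkM cB17_7_3_272)) (LitT.Cov.split_e (LitT.cov_of_chunkM cB17_7_3_273) (LitT.cov_of_chunkM cB17_7_3_274))) (LitT.cov_of_chunkM cB17_7_3_275)) (LitT.Cov.split_x (LitT.Cov.split_t (LitT.cov_of_chunkM cB17_7_3_276) (LitT.cov_of_chunkM cB17_7_3_277)) (LitT.Cov.split_t (LitT.Cov.split_e (LitT.Cov.split_x (LitT.cov_of_chunkM cB17_7_3_278) (LitT.cov_of_chunkM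 cB17_7_3_279)) (LitT.Cov.split_x (LitT.cov_of_chunkM cB17_7_3_280) (LitT.cov_of_chunkM cB17_7_3_281))) (LitT.cov_of_chunkM cB17_7_3_282)))) (LitT.cov_of_chunkM cB17_7_3_283))) (LitT.Cov.split_x (LitT.cov_of_chunkM cB17_7_3_284) (LitT.Cov.split_t (LitT.Cov.split_x (LitT.cov_of_chunkM cB17_7_3_285) (LitT.Cov.split_e (LitT.Cov.split_t (LitT.cov_of_chunkM cB17_7_3_286) (LitT.Cov.split_e (LitT.cov_of_chunkM cB17_7_3_287) (LitT.cov_of_chunkM cB17_7_3_288))) (LitT.cov_of_chunkM cB17_7_3_289))) (LitT.Cov.split_e (LitT.Cov.split_x (LitT.cov_of_chunkM cB17_7_3_290) (LitT.Cov.split_t (LitT.Cov.split_e (LitT.cov_of_chunkM cB17_7_3_291) (LitT.cov_of_chunkM cB17_7_3_292)) (LitT.cov_of_chunkM cB17_7_3_293))) (LitT.Cov.split_x (LitT.cov_of_chunkM cB17_7_3_294) (LitT.Cov.split_t (LitT.cov_of_chunkM cB17_7_3_295) (LitT.cov_of_chunkM cB17_7_3_296)))))))) (LitT.cov_of_chunkM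 cB17_7_3_297)))) (LitT.cov_of_chunkM cB17_7_3_298)))))))), (LitT.Cov.split_t (LitT.cov_of_chunkM cB17_7_1_0) (LitT.Cov.split_e (LitT.cov_of_chunkM cB17_7_1_1) (LitT.Cov.split_T (LitT.Cov.split_T (LitT.Cov.split_T (LitT.Cov.split_E (LitT.Cov.split_E (LitT.Cov.split_E (LitT.Cov.split_E (LitT.Cov.split_t (LitT.cov_of_chunkM cB17_7_1_2) (LitT.Cov.split_e (LitT.cov_of_chunkM cB17_7_1_3) (LitT.Cov.split_e (LitT.Cov.split_t (LitT.Cov.split_e (LitT.cov_of_chunkM cB17_7_1_4) (LitT.Cov.split_t (LitT.cov_of_chunkM cB17_7_1_5) (LitT.Cov.split_e (LitT.Cov.split_x (LitT.cov_of_chunkM cB17_7_1_6) (LitT.cov_of_chunkM cB17_7_1_7)) (LitT.Cov.split_x (LitT.Cov.split_t (LitT.cov_of_chunkM cB17_7_1_8) (LitT.Cov.split_e (LitT.cov_of_chunkM cB17_7_1_9) (LitT.Cov.split_x (LitT.cov_of_chunkM cB17_7_1_10) (LitT.cov_of_chunkM cB17_7_1_11)))) (LitT.cov_of_chunkM cB17_7_1_12))))) (LitT.cov_of_chunkM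 cB17_7_1_13)) (LitT.Cov.split_t (LitT.Cov.split_t (LitT.cov_of_chunkM cB17_7_1_14) (LitT.Cov.split_e (LitT.Cov.split_e (LitT.Cov.split_x (LitT.cov_of_chunkM cB17_7_1_15) (LitT.cov_of_chunkM cB17_7_1_16)) (LitT.cov_of_chunkM cB17_7_1_17)) (LitT.cov_of_chunkM cB17_7_1_18))) (LitT.Cov.split_t (LitT.Cov.split_e (LitT.Cov.split_e (LitT.Cov.split_x (LitT.Cov.split_t (LitT.Cov.split_e (LitT.Cov.split_x (LitT.cov_of_chunkM cB17_7_1_19) (LitT.cov_of_chunkM cB17_7_1_20)) (LitT.Cov.split_x (LitT.cov_of_chunkM cB17_7_1_21) (LitT.Cov.split_t (LitT.cov_of_chunkM cB17_7_1_22) (LitT.cov_of_chunkM cB17_7_1_23)))) (LitT.cov_of_chunkM cB17_7_1_24)) (LitT.cov_of_chunkM cB17_7_1_25)) (LitT.Cov.split_x (LitT.cov_of_chunkM cB17_7_1_26) (LitT.Cov.split_t (LitT.Cov.split_e (LitT.Cov.split_x (LitT.Cov.split_t (LitT.cov_of_chunkM cB17_7_1_27) (LitT.Cov.split_e (LitT.cov_of_chunkM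 cB17_7_1_28) (LitT.cov_of_chunkM cB17_7_1_29))) (LitT.cov_of_chunkM cB17_7_1_30)) (LitT.cov_of_chunkM cB17_7_1_31)) (LitT.cov_of_chunkM cB17_7_1_32)))) (LitT.Cov.split_x (LitT.cov_of_chunkM cB17_7_1_33) (LitT.Cov.split_e (LitT.Cov.split_t (LitT.cov_of_chunkM cB17_7_1_34) (LitT.Cov.split_e (LitT.Cov.split_x (LitT.cov_of_chunkM cB17_7_1_35) (LitT.Cov.split_t (LitT.Cov.split_e (LitT.cov_of_chunkM cB17_7_1_36) (LitT.cov_of_chunkM cB17_7_1_37)) (LitT.cov_of_chunkM cB17_7_1_38))) (LitT.Cov.split_x (LitT.cov_of_chunkM cB17_7_1_39) (LitT.Cov.split_t (LitT.cov_of_chunkM cB17_7_1_40) (LitT.cov_of_chunkM cB17_7_1_41))))) (LitT.cov_of_chunkM cB17_7_1_42)))) (LitT.cov_of_chunkM cB17_7_1_43)))))) (LitT.cov_of_chunkM cB17_7_1_44)) (LitT.cov_of_chunkM cB17_7_1_45)) (LitT.cov_of_chunkM cB17_7_1_46)) (LitT.cov_of_chunkM cB17_7_1_47)) (LitT.cov_of_chunkM cB17_7_1_48)) (LitT.cov_of_chunkM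 cB17_7_1_49)) (LitT.cov_of_chunkM cB17_7_1_50)))), (LitT.cov_of_chunkM cB17_7_2_0), (LitT.cov_of_chunkM cB17_7_0_0)⟩

end Vale.Agent.helper4.Q4
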