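import Vale.Agent.helper4.Q4TreeM
import Vale.Agent.helper4.Q4G.PB17_9

/-!
Checks for pairs of intervals of second moments.
-/

set_option maxRecDepth 100000
set_option linter.unusedVariables false

namespace Vale.Agent.helper4.Q4

theorem cB17_9_3_0 : chunkOkM (LB17_9.ctx true true 104 1 1 1 1 1 1 1 1) muQ true true 64 RtB17_9.Cx RtB17_9.CX RtB17_9.Ctp.left RtB17_9.Ce RtB17_9.CTp RtB17_9.CEr 0x41 = true := by decide +kernel

theorem cB17_9_3_1 : chunkOkM (LB17_9.ctx true true 104 1 1 1 1 1 1 1 1) muQ true true 64 RtB17_9.Cx RtB17_9.CX RtB17_9.Ctp.right RtB17_9.Ce.left RtB17_9.CTp RtB17_9.CEr 0x69 = true := by decide +kernel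

theorem cB17_9_3_2 : chunkOkM (LB17_9.ctx true true 272 113 64 11 16 665 1067 64 32) muQ true true 64 RtB17_9.Cx RtB17_9.CX RtB17_9.Ctp.right.left RtB17_9.Ce.right RtB17_9.CTp RtB17_9.CEr 0x4949492151595985391c77fd7e5216c7f818bec14a89f62fd2af6bc9f5a17cbb4e8f450d1ed433398fd364bafa76c2617bc479bf259c20c8f6294f117f39f538c7818e8f460d54444864ce7d7fdf1c12947f83198c79e49f63847b36179f540d1ef1d49d8fd2dd5e0f76c2cf734579b170f576d99f62ae14c2b19f550d56946941141144777493493493413 = true := by decide +kernel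

theorem cB17_9_3_3 : chunkOkM (LB17_9.ctx true true 104 1 1 1 1 1 1 1 1) muQ true true 64 RtB17_9.Cx RtB17_9.CX RtB17_9.Ctp.right.right RtB17_9.Ce.right.left RtB17_9.CTp RtB17_9.CEr 0x69 = true := by decide +kernel

theorem cB17_9_3_4 : chunkOkM (LB17_9.ctx true true 268 29 16 21 32 357 539 256 32) muQ true true 64 RtB17_9.Cx.left RtB17_9.CX RtB17_9.Ctp.right.right.left.left RtB17_9.Ce.right.right.left.left.left RtB17_9.CTp.left RtB17_9.CEr 0x4aa3477ef7f06cef1bfdd7fd14380f579b4773d1f7f8f537dc7d8f622cdeda0e9f550d384a5425 = true := by decide +kernel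

theorem cB17_9_3_5 : chunkOkM (LB17_9.ctx true true 271 59 32 11 16 693 1089 64 64) muQ true true 64 RtB17_9.Cx.left RtB17_9.CX RtB17_9.Ctp.right.right.left.left RtB17_9.Ce.right.right.left.left.left RtB17_9.CTp.right RtB17_9.CEr 0xccc25bc7fd3f1af487f8f20b86b58f613aabe4879f540d8e1200c7fd86ddbc57f818b74494d8af64fc9589406af440d102e9e218fd7a197d66c5705a877f8714d7f1f8f61832d96629f550d26b4c2f08fdec2a73968f61e49f4dd99f530d6c58507e7fd1a11bb376c149b79168f8a88c3a2e8f624aabc2319f5291109128f460d3769c14aa2e7fdbd64b977f85b46352c8f617ca7a5299f540d343 = true := by decide +kernel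

theorem cB17_9_3_6 : chunkOkM (LB17_9.ctx true true 104 1 1 1 1 1 1 1 1) muQ true true 64 RtB17_9.Cx.right RtB17_9.CX RtB17_9.Ctp.right.right.left.left RtB17_9.Ce.right.right.left.left.left RtB17_9.CTp RtB17_9.CEr 0x69 = true := by decide +kernel

theorem cB17_9_3_7 : chunkOkM (LB17_9.ctx true true 286 117 64 11 16 1393 2255 128 32) muQ true true 64 RtB17_9.Cx.left RtB17_9.CX RtB17_9.Ctp.right.right.left.left.left RtB17_9.Ce.right.right.left.left.right RtB17_9.CTp RtB17_9.CEr 0x495984b464e7fd57725d66cebeabfb7f8217f6af369f62c47ef40d9f5afba61288f460d18c6e02b8fd29da5a776c177472b79b2b57021ec9f63a6c01de69f537f9c1d38f460d559347493597ca129fa7fd1991ce276c162cbace8f810cadcd779f6249ba03f29f5bdd6d58c8f460dd500e697fd11e053d76cefc611a7f8beda2b1f8f622499652e9f550d714d1a3a78fd197643376c1086c4d79b11ba4cbf59f626e887b519f550d4255dc027617fd313718876cdef88f69b236cd6b58f81d6ff3461aaf611a6042d11bbf524ef519ee00bf470d34 = true := by decide +kernel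

theorem cB17_9_3_8 : chunkOkM (LB17_9.ctx true true 281 59 32 21 32 721 1133 256 32) muQ true true 64 RtB17_9.Cx.left RtB17_9.CX RtB17_9.Ctp.right.right.left.left.right RtB17_9.Ce.right.right.left.left.right RtB17_9.CTp.left RtB17_9.CEr 0x4ad231f3b7fd17a634b7f8223c5a70f9f626167288f9f540d10173ec48fd33948466c11942ba79bf71ddcc08f617b08605e9f550d10b06f458fdfc4ef069b4482cfd7f8195cf4bee9f62420dcf6d9f550d3710126a6b8fd15d755979b1a2a28cf79f61b5da5c459f540d484a5425 = true := by decide +kernel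

theorem cB17_9_3_9 : chunkOkM (LB17_9.ctx true true 266 59 32 11 16 357 1111 64 64) muQ true true 64 RtB17_9.Cx.left RtB17_9.CX RtB17_9.Ctp.right.right.left.left.right RtB17_9.Ce.right.right.left.left.right.left RtB17_9.CTp.right RtB17_9.CEr 0x88287447fd8d219e87f831e05fb949f62f795954f9f540d11669a408fda9f3b766c1c76a267f8fad5c2048f6168c51a8d9f550ded77162a8fd109dae6b99f619386ad439f530d67 = true := by decide +kernel

theorem cB17_9_3_10 : chunkOkM (LB17_9.ctx true true 273 59 32 11 16 721 2277 64 64) muQ true true 64 RtB17_9.Cx.left RtB17_9.CX RtB17_9.Ctp.right.right.left.left.right RtB17_9.Ce.right.right.left.left.right.right RtB17_9.CTp.right RtB17_9.CEr 0xb7f3bc07fd74bba266ca5362e97f81e1fb90909f61cf5c4d439f550dab14ba87fd1b6849376c14599a5b8f8e6e702878f62512b5fff9f550d9ba4f2c7fd764ae737f8d688508a8f61de6c1e959f540d431401370b8fdb89a4066c16004217f8ac4abb968f613b19951f9f550d105dd9af8fd141052976c9ebb9527f8572f2c558f61bc75a1919f550d32d1529618fd460a391f8f6176e350709f530d67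 = true := by decide +kernel

theorem cB17_9_3_11 : chunkOkM (LB17_9.ctx true true 247 31 16 11 16 175 561 32 32) muQ true true 64 RtB17_9.Cx.right RtB17_9.CX RtB17_9.Ctp.right.right.left.left RtB17_9.Ce.right.right.left.left.right RtB17_9.CTp RtB17_9.CEr 0xd89eccc76c120e783e16af63c20f0e017af430d = true := by decide +kernel

theorem cB17_9_3_12 : chunkOkM (LB17_9.ctx true true 278 29 16 21 32 735 1133 256 64) muQ true true 64 RtB17_9.Cx RtB17_9.CX RtB17_9.Ctp.right.right.left.right RtB17_9.Ce.right.right.left.left RtB17_9.CTp RtB17_9.CEr 0x11691114605fa78fde2d79666cd8d698278f6e3def1118f540d21227edb8f06c674a51c05c2ad849088fd173562676ccfa74ab3ddbe0de8f6febcc6d08f550d684a5425569411433 = true := by decide +kernel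

theorem cB17_9_3_13 : chunkOkM (LB17_9.ctx true true 245 15 8 11 16 343 583 32 32) muQ true true 64 RtB17_9.Cx RtB17_9.CX RtB17_9.Ctp.right.right.left.left.left RtB17_9.Ce.right.right.left.right.left RtB17_9.CTp RtB17_9.CEr 0x12f3eef68fd22eefdc76c13882e779b381fca2359f61cba49b196af53cb4678a44af460d = true := by decide +kernel

theorem cB17_9_3_14 : chunkOkM (LB17_9.ctx true true 287 59 32 21 32 721 2321 256 64) muQ true true 64 RtB17_9.Cx.left RtB17_9.CX RtB17_9.Ctp.right.right.left.left.right RtB17_9.Ce.right.right.left.right.left.left RtB17_9.CTp RtB17_9.CEr 0xc8a11a77fdf56f8b66ccd5717c7f8bccfce948f6200972d5c9f550dd2142ad7fd9560af66c9cfe1267f8112a85a159f61d72dda659f550d471f091e7fda4ea2227f81e32b919b9f62f40a02269f540d31070202d8fd70828f66c111d4717f86a1b3aa38f618baa59db9f550d664fcd048fd6d6c64e76c2b97c4ab8f6165b726c69f540d659374ac53e9f37fd12044366cdc67e669bd6f5dacc8f622ad7c0e69f550d84a54255 = true := by decide +kernel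

end Vale.Agent.helper4.Q4
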