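import Vale.Agent.helper4.Q4TreeM
import Vale.Agent.helper4.Q4G.PB17_9

/-!
Checks for pairs of intervals of second moments.
-/

set_option maxRecDepth 100000
set_option linter.unusedVariables false

namespace Vale.Agent.helper4.Q4

theorem cB17_9_3_15 : chunkOkM (LB17_9.ctx true true 271 59 32 11 16 721 1177 128 32) muQ true true 64 RtB17_9.Cx.left RtB17_9.CX RtB17_9.Ctp.right.right.left.left.right RtB17_9.Ce.right.right.left.right.left.right RtB17_9.CTp RtB17_9.CEr 0xbc3a50a7fd77174066cb1ad9ee7f8f9be98428f62287e6aac9f550d10e9d1408fd13d830c76c46905c69b113e0ff129f6264f948ea9f550d4255593597 = true := by decide +kernel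

theorem cB17_9_3_16 : chunkOkM (LB17_9.ctx true true 277 121 64 11 16 721 2365 64 32) muQ true true 64 RtB17_9.Cx.right RtB17_9.CX RtB17_9.Ctp.right.right.left.left.right RtB17_9.Ce.right.right.left.right.left RtB17_9.CTp RtB17_9.CEr 0x49496729d8d7fd71afeb77f82688dc7109f634d45eb4f9f51e7589628f450d121a48f78fd1b96c0776c12e5d2a79b3b75a31aa9f63cb1b93279f550d562c575f7fd71ef9737f8321e7d2239f634804bf5f9f549e112418f450d115d65e38fd181e3fd76c174fb8779b47e605cab9f644f6dabd19f550d547761847187fdd8871be7f8349d2a0dc9f63499a47319f596533b058f450d123a295d8fd143920a76c14e0f8179b57634638b9f64278f35919f5194eb7cf69f460d54493 = true := by decide +kernel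

theorem cB17_9_3_17 : chunkOkM (LB17_9.ctx true true 294 243 128 11 16 2905 4763 64 32) muQ true true 64 RtB17_9.Cx RtB17_9.CX RtB17_9.Ctp.right.right.left.left RtB17_9.Ce.right.right.left.right.right RtB17_9.CTp RtB17_9.CEr 0x495949595966d9e447fd1d37e6c585c1685bb8d8f849b80a9499f6479e48ef59f567f9b48e8f460d10e4407a8fd18a841c76c9376f369b445be83b29f63ea0421a09f567e4aae7f460d559345975934747493493597 = true := by decide +kernel

theorem cB17_9_3_18 : chunkOkM (LB17_9.ctx true true 104 1 1 1 1 1 1 1 1) muQ true true 64 RtB17_9.Cx.left RtB17_9.CX RtB17_9.Ctp.right.right.left.right RtB17_9.Ce.right.right.left.right.left RtB17_9.CTp.left.left RtB17_9.CEr 0x42 = true := by decide +kernel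

theorem cB17_9_3_19 : chunkOkM (LB17_9.ctx true true 104 1 1 1 1 1 1 1 1) muQ true true 64 RtB17_9.Cx.left RtB17_9.CX RtB17_9.Ctp.right.right.left.right RtB17_9.Ce.right.right.left.right.left RtB17_9.CTp.left.right.left RtB17_9.CEr 0x4a = true := by decide +kernel

theorem cB17_9_3_20 : chunkOkM (LB17_9.ctx true true 280 59 32 21 32 371 1155 256 64) muQ true true 64 RtB17_9.Cx.left RtB17_9.CX.left RtB17_9.Ctp.right.right.left.right.left RtB17_9.Ce.right.right.left.right.left.left RtB17_9.CTp.left.right.right RtB17_9.CEr 0xeefb4067fdd522759b2a2f380d49f61c6fe45f79f540d5e11e6908fd5985f8b76cd1b32c748f6dbbffe9f8f540d1e5e68a48fd6688756c6c4f7f69b1a54106709f6e5eff4168f550d67 = true := by decide +kernel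

theorem cB17_9_3_21 : chunkOkM (LB17_9.ctx true true 284 59 32 21 32 749 1177 256 64) muQ true true 64 RtB17_9.Cx.left RtB17_9.CX.left RtB17_9.Ctp.right.right.left.right.left RtB17_9.Ce.right.right.left.right.left.right RtB17_9.CTp.left.right.right RtB17_9.CEr 0xa40209e7fd1a1050876cc5841d418f61353107329f540d22660fb68fd88286a66c10f9a9c79b96b424a98f61306c25fb9f550d6e33b4f47fd170a47179b32e593f7f8107bc1f319f619f4e4d6f9f550d324c947008fd2a853f576c3089d769bfd3aafea8f610c0700fc9f550d2f7be3648fd1f78ab976cd8e2c069b152d13e399f611ac398529f550d67 = true := by decide +kernel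

theorem cB17_9_3_22 : chunkOkM (LB17_9.ctx true true 305 57 32 21 32 777 1177 1024 1024) muQ true true 64 RtB17_9.Cx.left RtB17_9.CX.left RtB17_9.Ctp.right.right.left.right.right RtB17_9.Ce.right.right.left.right.left RtB17_9.CTp.left.right.right RtB17_9.CEr 0x525a5a5a696beaa2ae8fd775f13676c1e03009389f658b2bdf08f540d70465a565a5666927ccd8d529f06b3a06b3c38fd40bcdc176c5b00fb69b1676dba659f6822a34a98f550d37046a61266 = true := by decide +kernel

theorem cB17_9_3_23 : chunkOkM (LB17_9.ctx true true 104 1 1 1 1 1 1 1 1) muQ true true 64 RtB17_9.Cx.left RtB17_9.CX.right RtB17_9.Ctp.right.right.left.right RtB17_9.Ce.right.right.left.right.left RtB17_9.CTp.left.right.right RtB17_9.CEr 0x4a = true := by decide +kernel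

theorem cB17_9_3_24 : chunkOkM (LB17_9.ctx true true 260 29 16 11 16 371 1155 64 64) muQ true true 64 RtB17_9.Cx.left RtB17_9.CX RtB17_9.Ctp.right.right.left.right.left RtB17_9.Ce.right.right.left.right.left.left RtB17_9.CTp.right RtB17_9.CEr.left 0x242f155d8fd99fbb866cf83589cd8f61132c5ce29f540d = true := by decide +kernel

theorem cB17_9_3_25 : chunkOkM (LB17_9.ctx true true 280 57 32 11 16 749 2321 128 128) muQ true true 64 RtB17_9.Cx.left.left RtB17_9.CX RtB17_9.Ctp.right.right.left.right.left RtB17_9.Ce.right.right.left.right.left.left RtB17_9.CTp.right RtB17_9.CEr.right 0x12d9e6f88fd41a58527f8e80c39848f6d618a0f48f540d296c41088fd2926d8076ca70b75998f6c8a679828f540d528ea1c3b8fda35cb1968f6e4eba02c8f530d1eb407c88fd1d1b38276c16c6e817f9f6bb5fa4d48f540d5616e4f81e8fd4ac0eb876c1c134f458f8725de8e48f6136bb12a79f550d2bacca878fd150e0cb76c10ecac9e79f61249a1f579f540d224e02b78fd172346876c101771c469f613a42682e9f540d643 = true := by decide +kernel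

theorem cB17_9_3_26 : chunkOkM (LB17_9.ctx true true 266 59 32 11 16 371 1155 64 64) muQ true true 64 RtB17_9.Cx.left.right RtB17_9.CX RtB17_9.Ctp.right.right.left.right.left RtB17_9.Ce.right.right.left.right.left.left RtB17_9.CTp.right RtB17_9.CEr.right 0x11f7a1c28fd26788366c178f477789f6157f9164d9f540d = true := by decide +kernel

theorem cB17_9_3_27 : chunkOkM (LB17_9.ctx true true 266 57 32 11 16 371 1177 64 64) muQ true true 64 RtB17_9.Cx.left.left RtB17_9.CX RtB17_9.Ctp.right.right.left.right.left RtB17_9.Ce.right.right.left.right.left.right RtB17_9.CTp.right RtB17_9.CEr.left 0x412bdc8e8fdbda01e748f6125436b669f530d = true := by decide +kernel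

theorem cB17_9_3_28 : chunkOkM (LB17_9.ctx true true 270 57 32 11 16 735 1177 64 64) muQ true true 64 RtB17_9.Cx.left.left RtB17_9.CX RtB17_9.Ctp.right.right.left.right.left.left RtB17_9.Ce.right.right.left.right.left.right RtB17_9.CTp.right RtB17_9.CEr.right 0x11bf07eb8fdafaba766cbf6611b08f616518ddd39f540d = true := by decide +kernel

theorem cB17_9_3_29 : chunkOkM (LB17_9.ctx true true 286 115 64 11 16 749 2343 128 128) muQ true true 64 RtB17_9.Cx.left.left RtB17_9.CX RtB17_9.Ctp.right.right.left.right.left.right RtB17_9.Ce.right.right.left.right.left.right.left RtB17_9.CTp.right RtB17_9.CEr.right 0x1e4d8b978fd17838f976ce0cd11168f6ed403e798f540d169b95658fd62ac556cbf5038868f6c7e7de4c8f540d2cd6d9ed8fd22acd3976c19a5a18e09f69f560f6e8f540d5711b3de3c8fd61683766c22dd8d6809f6ecfb74268f540d11c8ff208fd51c58997f81940b76939f6ceea7a988f540d23b21a838fd23776b476c1a755c2f59f6d0f37b7e8f540d576 = true := by decide +kernel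

end Vale.Agent.helper4.Q4
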