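import Vale.Agent.helper4.Q4TreeM
import Vale.Agent.helper4.Q4G.PB17_9

/-!
Checks for pairs of intervals of second moments.
-/

set_option maxRecDepth 100000
set_option linter.unusedVariables false

namespace Vale.Agent.helper4.Q4

theorem cB17_9_3_174 : chunkOkM (LB17_9.ctx true true 301 119 64 11 16 805 2497 512 512) muQ true true 64 RtB17_9.Cx.left.right RtB17_9.CX RtB17_9.Ctp.right.right.right.left.left RtB17_9.Ce.right.right.right.left.left.left RtB17_9.CTp.right.right RtB17_9.CEr.right.left 0x126a866e1997fd122806faa9f220d1c6cf8c68fd17fc35c4c9f6b1b9135f8f530d165bb2748fd4637640ca9f620d719c7e6678fd2532b692e9f65ef1d8e98f530d4356a65126 = true := by decide +kernel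

theorem cB17_9_3_175 : chunkOkM (LB17_9.ctx true true 287 119 64 11 16 791 2497 128 128) muQ true true 64 RtB17_9.Cx.left.right RtB17_9.CX RtB17_9.Ctp.right.right.right.left.left.left RtB17_9.Ce.right.right.right.left.left.left RtB17_9.CTp.right RtB17_9.CEr.right.right 0x19bf42d68fd15fd9a66c3891529be9f62d9f98178f540d337902268fd29d6f9e76c2017171379f6518976658f540d51631cdb58fd1a1ad266c416fe09199f630d2d9c74d98fd3150c9476c3b7262cab9f630d571aac8e1c8fdf82c7866c6522144899f630d15cdaadc8fd7be1756c3e490e9f29f630d346709c18fd324069e76c28b22a7f39f630d574 = true := by decide +kernel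

theorem cB17_9_3_176 : chunkOkM (LB17_9.ctx true true 278 59 32 11 16 805 1243 128 128) muQ true true 64 RtB17_9.Cx.left.right RtB17_9.CX RtB17_9.Ctp.right.right.right.left.left.right RtB17_9.Ce.right.right.right.left.left.left RtB17_9.CTp.right RtB17_9.CEr.right.right 0x14f2c3a38fd244e8c87f866875fcf8f6f3395d778f240ddc1feb07fd294569976c17da8b00d9f6f0ff34588f240d5 = true := by decide +kernel

theorem cB17_9_3_177 : chunkOkM (LB17_9.ctx true true 104 1 1 1 1 1 1 1 1) muQ true true 64 RtB17_9.Cx.left.left RtB17_9.CX RtB17_9.Ctp.right.right.right.left.left RtB17_9.Ce.right.right.right.left.left.right RtB17_9.CTp.right RtB17_9.CEr.right 0x21 = true := by decide +kernel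

theorem cB17_9_3_178 : chunkOkM (LB17_9.ctx true true 104 1 1 1 1 1 1 1 1) muQ true true 64 RtB17_9.Cx.left.right.left RtB17_9.CX RtB17_9.Ctp.right.right.right.left.left.left RtB17_9.Ce.right.right.right.left.left.right RtB17_9.CTp.right RtB17_9.CEr.right 0x69 = true := by decide +kernel

theorem cB17_9_3_179 : chunkOkM (LB17_9.ctx true true 295 119 64 11 16 1589 5049 128 128) muQ true true 64 RtB17_9.Cx.left.right.right RtB17_9.CX RtB17_9.Ctp.right.right.right.left.left.left RtB17_9.Ce.right.right.right.left.left.right.left RtB17_9.CTp.right RtB17_9.CEr.right.left 0x137e6d688fd40151ca7f82f78398fe9f678e373cc8f540d1f422b4e8fd245341276c6bc90904a9f630d1d2a04db8fd21c295b76c5691c5a259f630d42233ab7b8fd1e11cdb76ca9ba216c49f630d1d23758b8fd201e63976c3d45702e49f6783b7c218f540d435 = true := by decide +kernel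

theorem cB17_9_3_180 : chunkOkM (LB17_9.ctx true true 294 119 64 11 16 1589 5049 128 128) muQ true true 64 RtB17_9.Cx.left.right.right RtB17_9.CX RtB17_9.Ctp.right.right.right.left.left.left RtB17_9.Ce.right.right.right.left.left.right.left RtB17_9.CTp.right RtB17_9.CEr.right.right 0x1485fc758fdcf56356c46058f41b9f630d27cd2edd8fd2942cb976c6eb1e8f9e9f6108f5d97f540d51a4768b88fd288bedc76ca87e2b37f8887c698369f624c4c84c8f550d126f2a648fd214727a7f83b811ad5e9f6982d4dea8f540d2e2f94098fd19b9d5c76c57e21ef2b9f630d543 = true := by decide +kernel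

theorem cB17_9_3_181 : chunkOkM (LB17_9.ctx true true 303 479 256 11 16 1589 5071 64 128) muQ true true 64 RtB17_9.Cx.left.right.right RtB17_9.CX RtB17_9.Ctp.right.right.right.left.left.left RtB17_9.Ce.right.right.right.left.left.right.right RtB17_9.CTp.right RtB17_9.CEr.right 0x692262df918fd15320b476c885ffb9289f630d1a1baf928fd1467d9876c948b0901a9f630d66974697593 = true := by decide +kernel

theorem cB17_9_3_182 : chunkOkM (LB17_9.ctx true true 306 471 256 11 16 1617 5049 128 128) muQ true true 64 RtB17_9.Cx.left.right RtB17_9.CX RtB17_9.Ctp.right.right.right.left.left.right RtB17_9.Ce.right.right.right.left.left.right.left RtB17_9.CTp.right RtB17_9.CEr.right.left 0x29a5a7fb8fd497db15b29f620d30c499998fd2827bc576c296801ec8f6c075296a79f11ebd6eab21af050d205c7d1b8fd2add94d76c5b2406bbd9f630d3246792cd8fd308593e76c4c57281ed9f630d45210146aa8ef78fd39757eeb79f66b1a9b778f230d1fed480c8fd2a55e0cc85c4a313fd4b9f6700dde8f8f240d5321742177 = true := by decide +kernel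

theorem cB17_9_3_183 : chunkOkM (LB17_9.ctx true true 301 239 128 11 16 1617 5093 128 128) muQ true true 64 RtB17_9.Cx.left.right RtB17_9.CX RtB17_9.Ctp.right.right.right.left.left.right RtB17_9.Ce.right.right.right.left.left.right.right RtB17_9.CTp.right RtB17_9.CEr.right.left 0x429bc8c48fded0a106f83e3775e449f630d1fe340cc8fd28842ba76c153b16e789f6db0619c88f240d1aa2295a8fd20eb88476c738781b2f9f630d2171c64d5d68fd2396e5b76c612ca2bd09f630d23617e458fd2f2ec0076c5ad63b9289f648525e568f240d7435217 = true := by decide +kernel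

end Vale.Agent.helper4.Q4
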