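import Vale.Agent.helper4.Q4TreeM
import Vale.Agent.helper4.Q4G.PB17_9

/-!
Checks for pairs of intervals of second moments.
-/

set_option maxRecDepth 100000
set_option linter.unusedVariables false

namespace Vale.Agent.helper4.Q4

theorem cB17_9_3_184 : chunkOkM (LB17_9.ctx true true 306 471 256 11 16 1603 5027 128 128) muQ true true 64 RtB17_9.Cx.left.right RtB17_9.CX RtB17_9.Ctp.right.right.right.left.left.right RtB17_9.Ce.right.right.right.left.left.right RtB17_9.CTp.right RtB17_9.CEr.right.right 0x171431688fd2a61f466c36c8cfc0d9f621b089bf8f240d41468a008fd314119276c2eedfcde99f61dc3402d8f240d52171d25f39a8fd4f9d80b279f620d2ff0f01e8fd2c37fd976c3765e40fc9f624187a1b8f240d52101147714a48fd14236527f85fca253349f6a057ea6a8f240d365d90198fd30740f376c7d12474669f630d53217421774 = true := by decide +kernel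

theorem cB17_9_3_185 : chunkOkM (LB17_9.ctx true true 317 479 256 21 32 1617 5115 256 128) muQ true true 64 RtB17_9.Cx.left RtB17_9.CX RtB17_9.Ctp.right.right.right.left.left RtB17_9.Ce.right.right.right.left.right RtB17_9.CTp RtB17_9.CEr 0x2121211dc359ac8fd3c6c77b085cfa80e9b7f86341ae3959f65e5f477a8f250d5a5129628fd4530102149f63b0d33928f230d233c77168fd2f2fdacd85c580913da39f64712e51a8f240d56229b137d8fd192ea0b628af620d64a45db7e8a8fd4f9039f76c289f5269b99f1e4aeb9f640d24656ef88fd19a5ee1085ced299b69b76d9e58369f682517d698f250d684a54255217469321742175932174 = true := by decide +kernel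

theorem cB17_9_3_186 : chunkOkM (LB17_9.ctx true true 104 1 1 1 1 1 1 1 1) muQ true true 64 RtB17_9.Cx.left RtB17_9.CX RtB17_9.Ctp.right.right.right.left.right RtB17_9.Ce.right.right.right.left RtB17_9.CTp RtB17_9.CEr 0x01 = true := by decide +kernel

theorem cB17_9_3_187 : chunkOkM (LB17_9.ctx true true 305 61 32 21 32 805 1265 1024 1024) muQ true true 64 RtB17_9.Cx.right RtB17_9.CX RtB17_9.Ctp.right.right.right.left.left RtB17_9.Ce.right.right.right.left.left RtB17_9.CTp.left RtB17_9.CEr 0x4a69525a5a5a2a9e5eb5b9f06b1ccade67c111f2ea799f6d104f0a68f530d365a565a566286fa58e8fd2b82ee776c59612069b3b97f52279f640d2bbf2f298fd2cfc6f676c80600769bf0271a118f6dd3653b88f550d36a61266731c05c1069fddc8f06c6484a5425 = true := by decide +kernel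

theorem cB17_9_3_188 : chunkOkM (LB17_9.ctx true true 321 61 32 41 64 399 1265 4096 4096) muQ true true 64 RtB17_9.Cx.right.left RtB17_9.CX RtB17_9.Ctp.right.right.right.left.left RtB17_9.Ce.right.right.right.left.left RtB17_9.CTp.right RtB17_9.CEr.left 0x1212126a6a6a4a6a3b5faeef8fd15d0eb2419f6b333e3a58f530d048856a656a66a65126512651265 = true := by decide +kernel

theorem cB17_9_3_189 : chunkOkM (LB17_9.ctx true true 267 61 32 11 16 399 1243 64 64) muQ true true 64 RtB17_9.Cx.right.left RtB17_9.CX RtB17_9.Ctp.right.right.right.left.left RtB17_9.Ce.right.right.right.left.left.left RtB17_9.CTp.right RtB17_9.CEr.right 0x14ef4c128fd39e56da76c13fa99b28f830d = true := by decide +kernel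

theorem cB17_9_3_190 : chunkOkM (LB17_9.ctx true true 287 123 64 11 16 791 2519 128 128) muQ true true 64 RtB17_9.Cx.right.left RtB17_9.CX RtB17_9.Ctp.right.right.right.left.left.left RtB17_9.Ce.right.right.right.left.left.right.left RtB17_9.CTp.right RtB17_9.CEr.right 0xa7c26ad7f06c1094cbd48fd46ab7567f82253410ee9f69b0da5428f540d51ee6a738fd2c5b02c76c22bd73f1a9f6a14b7ba38f540d57cb244587f06c14589ab38fd27ef6b66c1752805079f6d22427368f540d1b771b5e8fd1c2acef76c21a6cda299f6a6e2d1f98f540d576 = true := by decide +kernel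

theorem cB17_9_3_191 : chunkOkM (LB17_9.ctx true true 294 121 64 11 16 1589 5093 128 128) muQ true true 64 RtB17_9.Cx.right.left.left RtB17_9.CX RtB17_9.Ctp.right.right.right.left.left.left RtB17_9.Ce.right.right.right.left.left.right.right RtB17_9.CTp.right RtB17_9.CEr.right 0x16a5bcdb8fd291a2b66cd3413e308f6cd32ce188f540d32621f0d8fd297db2676c1a220bade9f687eea3d18f540d515ceaf018fd25725bc76c9c5704f7f8164fd3cc69f6e1eb18398f550d314c9a34d8fd10bfa76bc9f6cfbb5e148f530d1b29de468fd1bfcb3676c47acab7da9f65f4027f98f540d1cb46dca8fd1efd7ff76c375df28d29f66f54b8128f540d4516c08b448fdf8a85066c60179c748f611fe01e409f540d36 = true := by decide +kernel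

theorem cB17_9_3_192 : chunkOkM (LB17_9.ctx true true 283 123 64 11 16 791 2541 64 128) muQ true true 64 RtB17_9.Cx.right.left.right RtB17_9.CX RtB17_9.Ctp.right.right.right.left.left.left RtB17_9.Ce.right.right.right.left.left.right.right RtB17_9.CTp.right RtB17_9.CEr.right 0x14b95e1c8fdca52b466c21f1e6b999f6df563c8e8f540d13eff9428fde9ab4266c1e4db53659f6102e2153b9f540d6 = true := by decide +kernel

theorem cB17_9_3_193 : chunkOkM (LB17_9.ctx true true 288 121 64 11 16 805 2541 128 128) muQ true true 64 RtB17_9.Cx.right.left RtB17_9.CX RtB17_9.Ctp.right.right.right.left.left.right RtB17_9.Ce.right.right.right.left.left.right RtB17_9.CTp.right RtB17_9.CEr.right 0x148f5ae98fd3485ee2ad9f620d4ee567a08fd281e54c76c348a1d7de9f630d526f285288fd3aeccdaf59f620d691ed8421d8fd23d518676c50b80ce899f630d756694 = true := by decide +kernel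

theorem cB17_9_3_194 : chunkOkM (LB17_9.ctx true true 104 1 1 1 1 1 1 1 1) muQ true true 64 RtB17_9.Cx.right.right RtB17_9.CX RtB17_9.Ctp.right.right.right.left.left RtB17_9.Ce.right.right.right.left.left RtB17_9.CTp.right RtB17_9.CEr 0x69 = true := by decide +kernel

theorem cB17_9_3_195 : chunkOkM (LB17_9.ctx true true 104 1 1 1 1 1 1 1 1) muQ true true 64 RtB17_9.Cx.right RtB17_9.CX RtB17_9.Ctp.right.right.right.left.right RtB17_9.Ce.right.right.right.left.left RtB17_9.CTp RtB17_9.CEr 0x11 = true := by decide +kernel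

theorem cB17_9_3_196 : chunkOkM (LB17_9.ctx true true 104 1 1 1 1 1 1 1 1) muQ true true 64 RtB17_9.Cx.right RtB17_9.CX RtB17_9.Ctp.right.right.right.left RtB17_9.Ce.right.right.right.left.right RtB17_9.CTp.left.left RtB17_9.CEr 0x42 = true := by decide +kernel

theorem cB17_9_3_197 : chunkOkM (LB17_9.ctx true true 104 1 1 1 1 1 1 1 1) muQ true true 64 RtB17_9.Cx.right RtB17_9.CX RtB17_9.Ctp.right.right.right.left RtB17_9.Ce.right.right.right.left.right RtB17_9.CTp.left.right.left RtB17_9.CEr 0x4a = true := by decide +kernel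

theorem cB17_9_3_198 : chunkOkM (LB17_9.ctx true true 104 1 1 1 1 1 1 1 1) muQ true true 64 RtB17_9.Cx.right.left RtB17_9.CX.left RtB17_9.Ctp.right.right.right.left.left RtB17_9.Ce.right.right.right.left.right.left RtB17_9.CTp.left.right.right RtB17_9.CEr.left.left 0x12 = true := by decide +kernel

theorem cB17_9_3_199 : chunkOkM (LB17_9.ctx true true 104 1 1 1 1 1 1 1 1) muQ true true 64 RtB17_9.Cx.right.left RtB17_9.CX.left RtB17_9.Ctp.right.right.right.left.left RtB17_9.Ce.right.right.right.left.right.left RtB17_9.CTp.left.right.right RtB17_9.CEr.left.right.left 0x6a = true := by decide +kernel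

end Vale.Agent.helper4.Q4
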