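import Vale.Agent.helper4.Q4TreeM
import Vale.Agent.helper4.Q4G.PB17_9

/-!
Checks for pairs of intervals of second moments.
-/

set_option maxRecDepth 100000
set_option linter.unusedVariables false

namespace Vale.Agent.helper4.Q4

theorem cB17_9_3_200 : chunkOkM (LB17_9.ctx true true 291 61 32 21 32 791 1287 256 256) muQ true true 64 RtB17_9.Cx.right.left RtB17_9.CX.left RtB17_9.Ctp.right.right.right.left.left.left RtB17_9.Ce.right.right.right.left.right.left RtB17_9.CTp.left.right.right RtB17_9.CEr.left.right.right 0x54f650618fd503fce976c6fe44069bbb7bed0a8f610b565a3e9f550d = true := by decide +kernel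

theorem cB17_9_3_201 : chunkOkM (LB17_9.ctx true true 308 123 64 21 32 1617 5137 256 256) muQ true true 64 RtB17_9.Cx.right.left RtB17_9.CX.left RtB17_9.Ctp.right.right.right.left.left.right RtB17_9.Ce.right.right.right.left.right.left.left RtB17_9.CTp.left.right.right RtB17_9.CEr.left.right.right 0x890c18e38f05b33b13f398fd3c3c60b76c7e865469b6aa062d9b9f640d3137d66d8fd40fd6d676c7942271349f630d4d28efd18fd59bf15076c17042869b63a65f5bb9f640d437 = true := by decide +kernel

theorem cB17_9_3_202 : chunkOkM (LB17_9.ctx true true 308 123 64 21 32 1617 5181 256 256) muQ true true 64 RtB17_9.Cx.right.left RtB17_9.CX.left RtB17_9.Ctp.right.right.right.left.left.right RtB17_9.Ce.right.right.right.left.right.left.right RtB17_9.CTp.left.right.right RtB17_9.CEr.left.right.right 0x27a65a548fd2a793f176c5c1dcd69b2918fa3ff9f68a8babed8f550d1c4d28768fd25b785076c80fa1269b706d4a9729f61d2eaf9c8f250d3c37ab4f8fd441d86776c6f6eda69b61a3fb2ca9f61d1c7b628f250d425c6d17e8fd278d5a776c7c033869ba8755ed019f640d37 = true := by decide +kernel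

theorem cB17_9_3_203 : chunkOkM (LB17_9.ctx true true 319 123 64 21 32 1617 2585 1024 1024) muQ true true 64 RtB17_9.Cx.right.left RtB17_9.CX.left RtB17_9.Ctp.right.right.right.left.left RtB17_9.Ce.right.right.right.left.right.left RtB17_9.CTp.left.right.right RtB17_9.CEr.right 0x525a5a5ac4e08e66c1d9940c489f68a4ce38c8f530daaee6f17fd127aba376c4441b169b4a0a8e0579f61f14b64c8f250d4c9a1774b9f06b375c869877f05b375c647a89f06b4bcf760659f06b374377ed867c44ee52b78f612b4702869f530d365a565a566 = true := by decide +kernel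

theorem cB17_9_3_204 : chunkOkM (LB17_9.ctx true true 295 127 64 21 32 805 2585 256 64) muQ true true 64 RtB17_9.Cx.right.right RtB17_9.CX.left RtB17_9.Ctp.right.right.right.left.left RtB17_9.Ce.right.right.right.left.right.left RtB17_9.CTp.left.right.right RtB17_9.CEr 0x31c05c1165064b8f06c679ea8527fd98fa8e69b49b68cdb99f624f9a0d249f540d7bb8c3a76c20bfe15389f61ae3428d29f530d1e962cd08fdc1c95966cf817bd848f616a4b19129f540d675b77de27fd1067aa376c158acdf519f613868adde9f540d221c36818fd1176fed76c1a857c80b9f614d6a156d9f540d643 = true := by decide +kernel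

theorem cB17_9_3_205 : chunkOkM (LB17_9.ctx true true 322 123 64 21 32 1617 5225 1024 1024) muQ true true 64 RtB17_9.Cx.right.left RtB17_9.CX.left RtB17_9.Ctp.right.right.right.left.left RtB17_9.Ce.right.right.right.left.right.right RtB17_9.CTp.left.right.right RtB17_9.CEr 0x525a5a5acd5a67858fdc4853f476c2cccc06dd9f6b37b22b28f540d13d690328fd1bae46a76c323c9c69b30eb2dda59f67c08bc3a8f550d4665a55a5663008ecba8fd2dd8c2776c7be95869b3cb7255e69f6a6bdb1e48f550d2220aaf18fd2460cd676c67da9b69b8cd0a2b4b9f6985ea227f550d69f793aa8fd5f6b9d376cafac8169b7907b01af9f640d420589e4f8fd20dd3f976c44307d69b66fc44e18f6121f644019f550d346a61266697593 = true := by decide +kernel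

theorem cB17_9_3_206 : chunkOkM (LB17_9.ctx true true 295 127 64 21 32 791 2629 256 64) muQ true true 64 RtB17_9.Cx.right.right RtB17_9.CX.left RtB17_9.Ctp.right.right.right.left.left.left RtB17_9.Ce.right.right.right.left.right.right RtB17_9.CTp.left.right.right RtB17_9.CEr 0x792ee337fdeec8fa69b3a7052b7f8322a2f50c9f62216e14019f550d59784f5c707fd125a49e79b427b76a7f821fd89fb59f61b9749c8a9f550d93b410876c183fd0df19f520d1c93d3fb8fdb78ceb66c1cee1e5c49f6165c5bda19f540d674 = true := by decide +kernel

theorem cB17_9_3_207 : chunkOkM (LB17_9.ctx true true 295 127 64 21 32 805 2629 256 64) muQ true true 64 RtB17_9.Cx.right.right RtB17_9.CX.left RtB17_9.Ctp.right.right.right.left.left.right RtB17_9.Ce.right.right.right.left.right.right RtB17_9.CTp.left.right.right RtB17_9.CEr 0x34d912088fd258ed9876c191ae72d99f611f09ae779f540d16be66778fd396dcc66c27d10569b300484bc09f6118a4d89a9f550d614237c7a8fd1877ad976c3c4a7269b2a7635ab09f6c3d8667e8f550d22a7a0428fd11937fa76cf9f2f269b1d596a87f9f6faa2695b8f550d677a47fb57fd1b9fb7a76c828b9869b15dfdc1b89f6fb9babf18f550d1d6141e18fd62cdf366c13462e479b214e3f5a59f6d905b4e28f550d64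 = true := by decide +kernel

end Vale.Agent.helper4.Q4
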