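import Vale.Agent.helper4.Q4TreeM
import Vale.Agent.helper4.Q4G.PB17_9

/-!
Checks for pairs of intervals of second moments.
-/

set_option maxRecDepth 100000
set_option linter.unusedVariables false

namespace Vale.Agent.helper4.Q4

theorem cB17_9_3_208 : chunkOkM (LB17_9.ctx true true 285 61 32 21 32 819 1287 256 64) muQ true true 64 RtB17_9.Cx.right.left RtB17_9.CX.left RtB17_9.Ctp.right.right.right.left.right.left RtB17_9.Ce.right.right.right.left.right.left RtB17_9.CTp.left.right.right RtB17_9.CEr 0x40f903476cf6e6b7718f6f96d81668f230d292d755c8fd14c13ca76c11b258c79b1efa20d28f6148510a719f250d6 = true := by decide +kernel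

theorem cB17_9_3_209 : chunkOkM (LB17_9.ctx true true 308 123 64 21 32 1645 5269 256 256) muQ true true 64 RtB17_9.Cx.right.left RtB17_9.CX.left RtB17_9.Ctp.right.right.right.left.right.left RtB17_9.Ce.right.right.right.left.right.right RtB17_9.CTp.left.right.right RtB17_9.CEr.left 0x1d8cb1408fd17f4a8e76cc37aaa69b30eca7d6e9f610c16c1aa9f250d2221ca168fd26ae28376c8b328069b87ef56ef39f6237495018f250d290d5c758fd2a8c24076c8dbfdb69b5fff35f599f613e2a5078f250d43adac44f08f00b1e9e10a88fd1f8441c76c857fa969b53423e09d9f6ccc337e7f250d34281c5fb98fd2aadd0776c99d77d69b3cf5576479f61ac337e229f250d76a6126 = true := by decide +kernel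

theorem cB17_9_3_210 : chunkOkM (LB17_9.ctx true true 319 123 64 21 32 1645 2629 1024 1024) muQ true true 64 RtB17_9.Cx.right.left RtB17_9.CX.left RtB17_9.Ctp.right.right.right.left.right.left RtB17_9.Ce.right.right.right.left.right.right RtB17_9.CTp.left.right.right RtB17_9.CEr.right 0x525a5a5a1364d00339f02bea2f0e87fd149b9b276c49b2c669b52a5501d39f6267d005a8f250d32172e4c5366c80730b69b49b5eb8e09f62c0e3f6c8f240da4fa9966c4072cde9e9f6f38dd1788f230d7465a565a566 = true := by decide +kernel

theorem cB17_9_3_211 : chunkOkM (LB17_9.ctx true true 104 1 1 1 1 1 1 1 1) muQ true true 64 RtB17_9.Cx.right.left RtB17_9.CX.left RtB17_9.Ctp.right.right.right.left.right.right RtB17_9.Ce.right.right.right.left.right RtB17_9.CTp.left.right.right RtB17_9.CEr 0x01 = true := by decide +kernel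

theorem cB17_9_3_212 : chunkOkM (LB17_9.ctx true true 292 63 32 21 32 819 1309 256 256) muQ true true 64 RtB17_9.Cx.right.right RtB17_9.CX.left RtB17_9.Ctp.right.right.right.left.right RtB17_9.Ce.right.right.right.left.right RtB17_9.CTp.left.right.right RtB17_9.CEr 0x4366f3b78fd5219f5676c383ad369b2ef62236e9f63dd2e3a38f550d1123bcf5078fd245893676c71c06669b2628fd5ba9f6790114c88f550d36a61266114 = true := by decide +kernel

theorem cB17_9_3_213 : chunkOkM (LB17_9.ctx true true 104 1 1 1 1 1 1 1 1) muQ true true 64 RtB17_9.Cx.right RtB17_9.CX.right RtB17_9.Ctp.right.right.right.left RtB17_9.Ce.right.right.right.left.right RtB17_9.CTp.left.right.right RtB17_9.CEr 0x4a = true := by decide +kernel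

theorem cB17_9_3_214 : chunkOkM (LB17_9.ctx true true 339 123 64 41 64 1617 2585 4096 4096) muQ true true 64 RtB17_9.Cx.right.left RtB17_9.CX RtB17_9.Ctp.right.right.right.left.left RtB17_9.Ce.right.right.right.left.right.left RtB17_9.CTp.right RtB17_9.CEr.left 0x1212126a6a6a4a6a29e7519b8fd11daef9219f6cbc7f1148f530d4206b44f79f06b4920d92a29f06b3704ada89e439f06b74151383cb69f05b38856a656a656a6512612651265 = true := by decide +kernel

theorem cB17_9_3_215 : chunkOkM (LB17_9.ctx true true 301 243 128 11 16 1589 5137 128 128) muQ true true 64 RtB17_9.Cx.right.left.left RtB17_9.CX RtB17_9.Ctp.right.right.right.left.left.left RtB17_9.Ce.right.right.right.left.right.left.left RtB17_9.CTp.right RtB17_9.CEr.right 0x19ab5fd68fd31cff9276cf1b7d927f85d7870ffa9f67e7183d18f550d1917f1a28fd2e0521e76ccf90ab77f848f97ad0f9f693733e5b8f550d1fd7d79d8fd6e143866c16b05e3edaaf630d7417786ab58fd10d5c1976c67c4bd3309f674b326868f540d112053f68fd32bf9d07f837a40ab6a9f6d9e984c98f540d1a22ef0c8fd1d72f5476c358ae56729f69e7ff1b88f540d546593 = true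 := by decide +kernel

theorem cB17_9_3_216 : chunkOkM (LB17_9.ctx true true 287 123 64 11 16 1589 2563 64 128) muQ true true 64 RtB17_9.Cx.right.left.right RtB17_9.CX RtB17_9.Ctp.right.right.right.left.left.left RtB17_9.Ce.right.right.right.left.right.left.left RtB17_9.CTp.right RtB17_9.CEr.right 0x1820cad68fdc7edfb66c1a57ad3539f6bae445168f540d162f86008fdf3020d66c12d37dfd59f6e51b6c758f540d6132465ae8fd3f57eaf76c17ddb8228f81077528089f613c0587de9f550d3 = true := by decide +kernel

theorem cB17_9_3_217 : chunkOkM (LB17_9.ctx true true 290 123 64 11 16 1589 5181 64 128) muQ true true 64 RtB17_9.Cx.right.left RtB17_9.CX RtB17_9.Ctp.right.right.right.left.left.left RtB17_9.Ce.right.right.right.left.right.left.right RtB17_9.CTp.right RtB17_9.CEr.right 0x1421c5f98fd35e8d0576c132116088f8c90da77b8f612da304c29f550d1853aed28fd2b3248b76ccda8f737f81288d8e239f6e63394ae8f550d14f5919c8fdd1c05166cd8d3e5858f611193e06f9f540d64593597 = true := by decide +kernel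

theorem cB17_9_3_218 : chunkOkM (LB17_9.ctx true true 301 243 128 11 16 1617 5137 128 128) muQ true true 64 RtB17_9.Cx.right.left.left RtB17_9.CX RtB17_9.Ctp.right.right.right.left.left.right RtB17_9.Ce.right.right.right.left.right.left.left RtB17_9.CTp.right.left RtB17_9.CEr.right.left 0x1ecae0c38fd2724d3976c7e6c8395b9f630d1896e1ea8fd1efed9e485c5939dabed9f6474707858f240d723774df68fd303e2fc76c6c2bf347d9f630d4207140318fd27eab3176c95cf258ea9f630d18471a938fd1e604b876cce388ffd49f630d71e528b1d8fd249849f76c8711582569f630d19ff34068fd22a674a085c7f4fa2b059f630d743 = true := by decide +kernel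

end Vale.Agent.helper4.Q4
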