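import Vale.Agent.helper4.Q4TreeM
import Vale.Agent.helper4.Q4G.PB17_9

/-!
Checks for pairs of intervals of second moments.
-/

set_option maxRecDepth 100000
set_option linter.unusedVariables false

namespace Vale.Agent.helper4.Q4

theorem cB17_9_3_219 : chunkOkM (LB17_9.ctx true true 288 121 64 11 16 805 2563 128 128) muQ true true 64 RtB17_9.Cx.right.left.left RtB17_9.CX RtB17_9.Ctp.right.right.right.left.left.right RtB17_9.Ce.right.right.right.left.right.left.left RtB17_9.CTp.right.right RtB17_9.CEr.right.left 0x12f4659d8fd40b7fd87f8559ce17bd9f628681c27f240d = true := by decide +kernel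

theorem cB17_9_3_220 : chunkOkM (LB17_9.ctx true true 284 123 64 11 16 805 2563 64 128) muQ true true 64 RtB17_9.Cx.right.left.right RtB17_9.CX RtB17_9.Ctp.right.right.right.left.left.right RtB17_9.Ce.right.right.right.left.right.left.left RtB17_9.CTp.right RtB17_9.CEr.right.left 0x15ef63358fdd9cf2966c534061c899f630d = true := by decide +kernel

theorem cB17_9_3_221 : chunkOkM (LB17_9.ctx true true 288 123 64 11 16 805 2563 128 128) muQ true true 64 RtB17_9.Cx.right.left RtB17_9.CX RtB17_9.Ctp.right.right.right.left.left.right RtB17_9.Ce.right.right.right.left.right.left.left RtB17_9.CTp.right RtB17_9.CEr.right.right 0x1a6710b88fd11d8df376c5586539de9f630d149fab038fd16ab1366c3449fde769f62188e07d8f540d318db6588fd280c3ad76c4348486899f6a717d6a7f540d57 = true := by decide +kernel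

theorem cB17_9_3_222 : chunkOkM (LB17_9.ctx true true 301 243 128 11 16 1617 5181 128 128) muQ true true 64 RtB17_9.Cx.right.left.left RtB17_9.CX RtB17_9.Ctp.right.right.right.left.left.right RtB17_9.Ce.right.right.right.left.right.left.right RtB17_9.CTp.right RtB17_9.CEr.right.left 0x16856ee08fd4efbab46b9f620d1d465b368fd25bd0ad76c80be4b68b9ff5f9c2e9f640d2171fc5fb9c8fd29e943a76c92d1937a29f630d2140014d8fd29d888076c3815a868b7a0ec512e9f6a12c58688f250d74569190a0e9e8fd14cb0f876c926ce3fb29f630d46973 = true := by decide +kernel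

theorem cB17_9_3_223 : chunkOkM (LB17_9.ctx true true 301 243 128 11 16 1617 5159 128 128) muQ true true 64 RtB17_9.Cx.right.left.left RtB17_9.CX RtB17_9.Ctp.right.right.right.left.left.right RtB17_9.Ce.right.right.right.left.right.left.right RtB17_9.CTp.right RtB17_9.CEr.right.right 0x144411228fd19dc2266c42dfc8a8c9f617e864888f240d2ccdb5c38fd2c479e476c4c31aae0a9f630d56918006bde8fd29cc2e376ca889d797f88cd72edc39f640d46973 = true := by decide +kernel

theorem cB17_9_3_224 : chunkOkM (LB17_9.ctx true true 295 123 64 11 16 1617 5181 128 128) muQ true true 64 RtB17_9.Cx.right.left.right RtB17_9.CX RtB17_9.Ctp.right.right.right.left.left.right RtB17_9.Ce.right.right.right.left.right.left.right RtB17_9.CTp.right RtB17_9.CEr.right.left 0x13e058658fd3c1b706f8149bf83aa9f6b8869ba28f540d1dfa183c8fd22e53ef76c5917450b89f630d19e6339b8fd1c71c0a76c3c474f3bf9f6970bc44a8f540d1be759a18fd1b3c00776c564ed330e9f652c062c98f540d435 = true := by decide +kernel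

theorem cB17_9_3_225 : chunkOkM (LB17_9.ctx true true 301 247 128 11 16 1617 5181 128 128) muQ true true 64 RtB17_9.Cx.right.left.right RtB17_9.CX RtB17_9.Ctp.right.right.right.left.left.right RtB17_9.Ce.right.right.right.left.right.left.right RtB17_9.CTp.right RtB17_9.CEr.right.right 0x13cd8b748fd381b006f839585d57c9f630d29822b768fd25df88176c7ab8b34ff9f630d5183190098fd25b0779785ca5185537f81ef8b92919f6ac8ce74f8f550d18ccc64f8fd230a5de76c89334627f85d46cee1d9f63bb680b18f550d711f5e3d68fd15b9c407f810debe6ef9f6bc0b0ac88f540d3360fa7a8fd256a82976c1e8636d149f69c2c03ca8f540d543 = true := by decide +kernel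

theorem cB17_9_3_226 : chunkOkM (LB17_9.ctx true true 281 127 64 11 16 805 2585 64 64) muQ true true 64 RtB17_9.Cx.right.right RtB17_9.CX RtB17_9.Ctp.right.right.right.left.left RtB17_9.Ce.right.right.right.left.right.left RtB17_9.CTp.right RtB17_9.CEr 0x12b0a0bd8fd2d8ccde76c100e0e1b8f8f65738fc8f6b3ed13038f550de347ccf7fd688f8c6f82f2c2951a9f61942ec46a9f540d12ffb5258fd302612076c110316528f81cb85f7b49f613664fdd69f550d711143f998fd10081bd76c3aa46727f81fa86661a9f61177e9bc59f550d435df163468fd1112e5de79f613fcd22da9f530d6 = true := by decide +kernel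

theorem cB17_9_3_227 : chunkOkM (LB17_9.ctx true true 104 1 1 1 1 1 1 1 1) muQ true true 64 RtB17_9.Cx.right.left RtB17_9.CX RtB17_9.Ctp.right.right.right.left.left.left RtB17_9.Ce.right.right.right.left.right.right RtB17_9.CTp.right RtB17_9.CEr 0x59 = true := by decide +kernel

theorem cB17_9_3_228 : chunkOkM (LB17_9.ctx true true 104 1 1 1 1 1 1 1 1) muQ true true 64 RtB17_9.Cx.right.left.left RtB17_9.CX RtB17_9.Ctp.right.right.right.left.left.right RtB17_9.Ce.right.right.right.left.right.right RtB17_9.CTp.right RtB17_9.CEr 0x69 = true := by decide +kernel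

theorem cB17_9_3_229 : chunkOkM (LB17_9.ctx true true 335 123 64 41 64 805 2629 4096 4096) muQ true true 64 RtB17_9.Cx.right.left.right RtB17_9.CX RtB17_9.Ctp.right.right.right.left.left.right RtB17_9.Ce.right.right.right.left.right.right RtB17_9.CTp.right RtB17_9.CEr.left 0x1212126a6a6a4a6a148e6a10f9f05b74861aa58fd3106568199f67def09fa8f530d48856a656a656a6512612651265 = true := by decide +kernel

theorem cB17_9_3_230 : chunkOkM (LB17_9.ctx true true 301 247 128 11 16 1617 5225 128 128) muQ true true 64 RtB17_9.Cx.right.left.right RtB17_9.CX RtB17_9.Ctp.right.right.right.left.left.right RtB17_9.Ce.right.right.right.left.right.right.left RtB17_9.CTp.right RtB17_9.CEr.right.left 0x3aa1fbd18fd27127e66c40a55d08f9f6617b7d048f540d1cbb8f578fd25dd82276cbb865fbcd9f630d173a97748fd1cb201c76ca2aba37e79f630d71d33af7f8fd236abf476c823a7b69b9f630d1e5aa1388fd2ace7b476c92f9892b19f630d74515d0e9468fde7aaad66c6c04c448b9f612d1506c79f540d16fdd05c8fd10ae89d76c516118ab89f69bc35a3f8f540d46973 = true := by decide +kernel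

end Vale.Agent.helper4.Q4
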