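import Vale.Agent.helper4.Q4TreeM
import Vale.Agent.helper4.Q4G.PB17_9

/-!
Checks for pairs of intervals of second moments.
-/

set_option maxRecDepth 100000
set_option linter.unusedVariables false

namespace Vale.Agent.helper4.Q4

theorem cB17_9_3_231 : chunkOkM (LB17_9.ctx true true 301 247 128 11 16 1617 5225 128 128) muQ true true 64 RtB17_9.Cx.right.left.right RtB17_9.CX RtB17_9.Ctp.right.right.right.left.left.right RtB17_9.Ce.right.right.right.left.right.right.left RtB17_9.CTp.right RtB17_9.CEr.right.right 0x17f1b8018fd2d5e5a0085cd04ecf67f87de68f1d09f640d2067e17b8fd1b0ed1076c11bb2b88e9af630d711e573a88fd2010ed66c4294727b19f630d24ac6eb48fd2233d9076c607bed5759f621e92cfe8f540d5419c53f698fd25d099876c9c6188e7f81f42890749f6cb3ca1608f550d6973 = true := by decide +kernel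

theorem cB17_9_3_232 : chunkOkM (LB17_9.ctx true true 310 495 256 11 16 3241 10483 64 128) muQ true true 64 RtB17_9.Cx.right.left.right RtB17_9.CX RtB17_9.Ctp.right.right.right.left.left.right RtB17_9.Ce.right.right.right.left.right.right.right RtB17_9.CTp.right RtB17_9.CEr.right 0x69691a5afe918fd3b3b3ee485c1229875c8f8f084937929f640d1a91ec328fd167e69176cc0f9440809f630d646976934697593 = true := by decide +kernel

theorem cB17_9_3_233 : chunkOkM (LB17_9.ctx true true 281 127 64 11 16 791 2629 64 64) muQ true true 64 RtB17_9.Cx.right.right RtB17_9.CX RtB17_9.Ctp.right.right.right.left.left.left RtB17_9.Ce.right.right.right.left.right.right RtB17_9.CTp.right RtB17_9.CEr 0x1175a3468fdb2dbb166c17134914f9f619154d0cb9f540d17148aec8fd14779266c12eeb9e249f6199ca983d9f540d65971179daa28fd350440576c14b651298f814f0c1cc09f61696926d29f550d3c3b2adb8fd1551799319f520d64 = true := by decide +kernel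

theorem cB17_9_3_234 : chunkOkM (LB17_9.ctx true true 272 63 32 11 16 805 1309 64 64) muQ true true 64 RtB17_9.Cx.right.right RtB17_9.CX RtB17_9.Ctp.right.right.right.left.left.right RtB17_9.Ce.right.right.right.left.right.right RtB17_9.CTp.right RtB17_9.CEr.left 0x4ecdebd98fdfffeac408f611372fa2b9f530d = true := by decide +kernel

theorem cB17_9_3_235 : chunkOkM (LB17_9.ctx true true 288 127 64 11 16 805 2607 128 128) muQ true true 64 RtB17_9.Cx.right.right RtB17_9.CX RtB17_9.Ctp.right.right.right.left.left.right RtB17_9.Ce.right.right.right.left.right.right.left RtB17_9.CTp.right RtB17_9.CEr.right 0xcf850fa7f06c1a9435778fd113954576c1c299e3229f6c2b127218f540d14ce24328fd164b04fb69f6e82734eb8f530d1c37c8c68fd20549ba76c21b3895dd9f6dbe0049b8f540d567 = true := by decide +kernel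

theorem cB17_9_3_236 : chunkOkM (LB17_9.ctx true true 291 125 64 11 16 1603 5269 64 128) muQ true true 64 RtB17_9.Cx.right.right.left RtB17_9.CX RtB17_9.Ctp.right.right.right.left.left.right.left RtB17_9.Ce.right.right.right.left.right.right.right RtB17_9.CTp.right RtB17_9.CEr.right 0x132ba6218fd315470876c11e16cdb8f8105ddff1e9f613979c4a09f550d14e320798fd296a6a976ccecfece7f8130f24e379f6edeb092b8f550d177073138fd11afdbe76c4aa080688f613ffb5a499f540d64 = true := by decide +kernel

theorem cB17_9_3_237 : chunkOkM (LB17_9.ctx true true 301 251 128 11 16 1617 5269 128 128) muQ true true 64 RtB17_9.Cx.right.right.left RtB17_9.CX RtB17_9.Ctp.right.right.right.left.left.right.right RtB17_9.Ce.right.right.right.left.right.right.right RtB17_9.CTp.right RtB17_9.CEr.right 0x1476840c8fd22dc64c085c8f736787f82548733219f6bd62c0a88f550d15d59cdd8fd30eb7ff76ced5e5c47f8492d01afc9f67d2ea7ff8f550d71868a4d28fd210bfe776c73cbfff7f8276fe8b869f69a6983658f550d446edce908fd5ad0bc66c211eda9929f6e784e7268f540d18f8efeb8fd1d79b6776c31c3e25a49f6b9c7d8848f540d1aeaa1748fd1e2dcfc76c4d06ab3179f694b669048f540d456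 = true := by decide +kernel

theorem cB17_9_3_238 : chunkOkM (LB17_9.ctx true true 285 127 64 11 16 1617 2629 64 64) muQ true true 64 RtB17_9.Cx.right.right.right RtB17_9.CX RtB17_9.Ctp.right.right.right.left.left.right RtB17_9.Ce.right.right.right.left.right.right.right RtB17_9.CTp.right RtB17_9.CEr.right 0x124b9f808fd1e5e44d76c97edc767f8fc499f058f6bd8eb3958f550d11f5ec288fd1fac56276ca567b047f81a897adf59f6112ca70979f550d3 = true := by decide +kernel

theorem cB17_9_3_239 : chunkOkM (LB17_9.ctx true true 339 123 64 41 64 1645 2629 4096 4096) muQ true true 64 RtB17_9.Cx.right RtB17_9.CX RtB17_9.Ctp.right.right.right.left.right RtB17_9.Ce.right.right.right.left.right RtB17_9.CTp.right RtB17_9.CEr.left 0x1212126a6a6a4a6a35e55229c9f06b011373ad2fd9f02b4d17fca339f06b3217364ac9ee99f06b1da7aa6da9f02b7437109c4d0f89f02b488556a656a66a6512612651265 = true := by decide +kernel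

theorem cB17_9_3_240 : chunkOkM (LB17_9.ctx true true 288 123 64 11 16 819 2585 128 128) muQ true true 64 RtB17_9.Cx.right.left RtB17_9.CX RtB17_9.Ctp.right.right.right.left.right.left RtB17_9.Ce.right.right.right.left.right.left RtB17_9.CTp.right RtB17_9.CEr.right 0x13a2eb198fd13e35147f816df892f29f61000b7a419f240d5077b36a8fd2d0e26776c1b5b33fd8f6114abff349f240d54d952a7f8fd6ecc58308f612d5a92ed9f230d27e95e0b8fd20ec18176ce9d16666a9f630d190b4f1d8fd17f363976c5c59f569b1e8a524599f6f5a876d58f250d745029677fd4880ad66c40cd695289f612c41bf131af131827c5d47af050d456 = true := by decide +kernel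

end Vale.Agent.helper4.Q4
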