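import Vale.Agent.helper4.Q4TreeM
import Vale.Agent.helper4.Q4G.PB17_9

/-!
Checks for pairs of intervals of second moments.
-/

set_option maxRecDepth 100000
set_option linter.unusedVariables false

namespace Vale.Agent.helper4.Q4

theorem cB17_9_3_241 : chunkOkM (LB17_9.ctx true true 307 487 256 11 16 1645 5225 128 128) muQ true true 64 RtB17_9.Cx.right.left RtB17_9.CX RtB17_9.Ctp.right.right.right.left.right.left RtB17_9.Ce.right.right.right.left.right.right.left RtB17_9.CTp.right RtB17_9.CEr.right.left 0x15bbf5af8fd352fa25cc9f6139f573d8f230d1e5ddfdb8fd23c3c3e76c1012523fd9f691364a08d9f1183fc98582af050d1f4d07ec8fd28e03eb76c895cb0c6b9f630d1f9443358fd2a21f8a185c70bc416e69f6516431078f240d71efbb8fb8fd247646e76c47ff6ee0d9f630d4352101134e8ddf8fd2c819af7f8527cae3849f69b0ee8498f240d1ce478f38fd2683b84d85c7a764f29c9f6d52d1e188f240d5321742177 = true := by decide +kernel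

theorem cB17_9_3_242 : chunkOkM (LB17_9.ctx true true 303 487 256 11 16 819 5203 128 128) muQ true true 64 RtB17_9.Cx.right.left RtB17_9.CX RtB17_9.Ctp.right.right.right.left.right.left RtB17_9.Ce.right.right.right.left.right.right.left RtB17_9.CTp.right RtB17_9.CEr.right.right 0x13cd86868fd1a0fa566c38a71b1a29f62267fc508f240d2a6448868fd27a16e876c386a70cae9f62f75b6f98f240d5211c09b29e8fd3c63e89e85c10faf7d78f8420fe127c9f6a8b7d2788f250d21742177 = true := by decide +kernel

theorem cB17_9_3_243 : chunkOkM (LB17_9.ctx true true 104 1 1 1 1 1 1 1 1) muQ true true 64 RtB17_9.Cx.right.left.left RtB17_9.CX RtB17_9.Ctp.right.right.right.left.right.left RtB17_9.Ce.right.right.right.left.right.right.right RtB17_9.CTp.right RtB17_9.CEr.right 0x21 = true := by decide +kernel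

theorem cB17_9_3_244 : chunkOkM (LB17_9.ctx true true 301 247 128 11 16 1645 5269 128 128) muQ true true 64 RtB17_9.Cx.right.left.right RtB17_9.CX RtB17_9.Ctp.right.right.right.left.right.left RtB17_9.Ce.right.right.right.left.right.right.right RtB17_9.CTp.right RtB17_9.CEr.right.left 0x13eaa5e88fd19b6a607f84a5c031a79f662ef24de8f240d18195f2e8fd1b9318276c2f9a8f69b2fb6a59499f6e80103178f250d1bdca9d78fd25bb86a76c93a98f6199f630d21716074f7d8fd198e79476c5ab1cfeb79f630d1c1fa9688fd242ee9c76c18a8ef078b88fce9f2d9f68ef5202c8f250d7435 = true := by decide +kernel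

theorem cB17_9_3_245 : chunkOkM (LB17_9.ctx true true 296 123 64 11 16 1645 2629 256 128) muQ true true 64 RtB17_9.Cx.right.left.right RtB17_9.CX RtB17_9.Ctp.right.right.right.left.right.left RtB17_9.Ce.right.right.right.left.right.right.right RtB17_9.CTp.right RtB17_9.CEr.right.right 0x1be0c75e8fdfa2a7566cf1380a038f61241b2c639f240d135307828fd1edd0366c4346c674b9f69865da17f240d325f84b108fd1d2923e76c2bcc36d3f9f643881b898f5531a16908f250d5a55 = true := by decide +kernel

theorem cB17_9_3_246 : chunkOkM (LB17_9.ctx true true 104 1 1 1 1 1 1 1 1) muQ true true 64 RtB17_9.Cx.right.left RtB17_9.CX RtB17_9.Ctp.right.right.right.left.right.right RtB17_9.Ce.right.right.right.left.right RtB17_9.CTp.right RtB17_9.CEr.right 0x01 = true := by decide +kernel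

theorem cB17_9_3_247 : chunkOkM (LB17_9.ctx true true 295 125 64 11 16 1645 5269 128 128) muQ true true 64 RtB17_9.Cx.right.right RtB17_9.CX RtB17_9.Ctp.right.right.right.left.right RtB17_9.Ce.right.right.right.left.right RtB17_9.CTp.right RtB17_9.CEr.right 0x1169138bbd528fd5c9e856c4a2fe74ea9f630d1f5cd2178fd188a51f76c5857549679f630d571c9dea8a8fd2b26d1cc39f682f6c3258f530d69190a39128fd1d4cf3376c7bceaad8d9f630d19d83d9e8fd1f1e07376c7bda928409f630d19ccfb508fd1bc133d76ca2a11f6b09f630d437566943114 = true := by decide +kernel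

theorem cB17_9_3_248 : chunkOkM (LB17_9.ctx true true 104 1 1 1 1 1 1 1 1) muQ true true 64 RtB17_9.Cx.left RtB17_9.CX RtB17_9.Ctp.right.right.right.left RtB17_9.Ce.right.right.right.right RtB17_9.CTp RtB17_9.CEr 0x21 = true := by decide +kernel

theorem cB17_9_3_249 : chunkOkM (LB17_9.ctx true true 104 1 1 1 1 1 1 1 1) muQ true true 64 RtB17_9.Cx.right.left RtB17_9.CX RtB17_9.Ctp.right.right.right.left.left RtB17_9.Ce.right.right.right.right.left.left RtB17_9.CTp RtB17_9.CEr 0x59 = true := by decide +kernel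

theorem cB17_9_3_250 : chunkOkM (LB17_9.ctx true true 374 65535 32768 11 16 51065 84491 64 64) muQ true true 64 RtB17_9.Cx.right.right RtB17_9.CX RtB17_9.Ctp.right.right.right.left.left.left RtB17_9.Ce.right.right.right.right.left.left RtB17_9.CTp RtB17_9.CEr 0x595959595959a59b5827f06c38dbdb258f01c680966347fd1210000f88bbf58b26f82d345e4449f540d5597597597593597459359745935974597593459759345975934597 = true := by decide +kernel

theorem cB17_9_3_251 : chunkOkM (LB17_9.ctx true true 305 251 128 21 32 1617 2673 256 64) muQ true true 64 RtB17_9.Cx.right.right RtB17_9.CX RtB17_9.Ctp.right.right.right.left.left.right RtB17_9.Ce.right.right.right.right.left.left RtB17_9.CTp.left RtB17_9.CEr 0x4a7e371f076c181c8726a9f520d1fbbff508fdc29a0f66c1cf595279bd3bf45788f6170a5d1379f550d65935977904ef87fd134320076c1c9f72f7e9f611625fbfd9f540d1599cd448fd9d6246c19b8a8c79b1d2484c839f614b6ba09a9f550d6280023c76c15cb2c6f39f6d658af9c8f530d1c1c41128fd9c450366cf4167d69b13bbcea319f6138eded839f550d66975937484a5425 = true := by decide +kernel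

theorem cB17_9_3_252 : chunkOkM (LB17_9.ctx true true 272 63 32 11 16 805 1331 64 64) muQ true true 64 RtB17_9.Cx.right.right RtB17_9.CX RtB17_9.Ctp.right.right.right.left.left.right RtB17_9.Ce.right.right.right.right.left.left RtB17_9.CTp.right RtB17_9.CEr.left 0x29c260b38fd7bb0d3198f61479115e49f530d = true := by decide +kernel

end Vale.Agent.helper4.Q4
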