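import Vale.Agent.helper4.Q4TreeM
import Vale.Agent.helper4.Q4G.PB17_9

/-!
Checks for pairs of intervals of second moments.
-/

set_option maxRecDepth 100000
set_option linter.unusedVariables false

namespace Vale.Agent.helper4.Q4

theorem cB17_9_3_253 : chunkOkM (LB17_9.ctx true true 310 503 256 11 16 3241 10615 64 128) muQ true true 64 RtB17_9.Cx.right.right RtB17_9.CX RtB17_9.Ctp.right.right.right.left.left.right RtB17_9.Ce.right.right.right.right.left.left RtB17_9.CTp.right RtB17_9.CEr.right 0x12fb2d658fd324dc1876c1267ed638f8e333e54e8f614d50748c9f550d1a4f9b958fd1314cb576c1996ebf6e9f6f001456e8f540d151aa6008fdd7115766c28fdfb42f9f6102f5bb829f540d6129759f38fdb7973766ced06099b8f61409be2a79f540d35913efc9df8fd36592c976c12bc07188f8878c964f49f6acadb3ce8f550d45975931b371b038fd142ab5776c2c340ed2a9f6b9eff8be8f540d178de4518fd12d02cd76cbd340e4d8f6121c411e29f540d6469759374 = true := by decide +kernel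

theorem cB17_9_3_254 : chunkOkM (LB17_9.ctx true true 104 1 1 1 1 1 1 1 1) muQ true true 64 RtB17_9.Cx.right RtB17_9.CX RtB17_9.Ctp.right.right.right.left.left RtB17_9.Ce.right.right.right.right.left.right RtB17_9.CTp RtB17_9.CEr 0x59 = true := by decide +kernel

theorem cB17_9_3_255 : chunkOkM (LB17_9.ctx true true 104 1 1 1 1 1 1 1 1) muQ true true 64 RtB17_9.Cx.right RtB17_9.CX RtB17_9.Ctp.right.right.right.left.right RtB17_9.Ce.right.right.right.right.left RtB17_9.CTp.left.left RtB17_9.CEr 0x42 = true := by decide +kernel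

theorem cB17_9_3_256 : chunkOkM (LB17_9.ctx true true 104 1 1 1 1 1 1 1 1) muQ true true 64 RtB17_9.Cx.right RtB17_9.CX RtB17_9.Ctp.right.right.right.left.right RtB17_9.Ce.right.right.right.right.left RtB17_9.CTp.left.right.left RtB17_9.CEr 0x4a = true := by decide +kernel

theorem cB17_9_3_257 : chunkOkM (LB17_9.ctx true true 317 495 256 21 32 1645 10571 256 64) muQ true true 64 RtB17_9.Cx.right.left RtB17_9.CX.left RtB17_9.Ctp.right.right.right.left.right RtB17_9.Ce.right.right.right.right.left.left RtB17_9.CTp.left.right.right RtB17_9.CEr 0x21212101bd6145c7fd2b85126585ccb464d69b1c3ca809f9f240d20079cbd8fd15fdf05485ce8c6b469bb184f568f9f6b1f57b8b8f250d66933421742174217 = true := by decide +kernel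

theorem cB17_9_3_258 : chunkOkM (LB17_9.ctx true true 104 1 1 1 1 1 1 1 1) muQ true true 64 RtB17_9.Cx.right.right RtB17_9.CX.left RtB17_9.Ctp.right.right.right.left.right RtB17_9.Ce.right.right.right.right.left.left RtB17_9.CTp.left.right.right RtB17_9.CEr.left.left 0x12 = true := by decide +kernel

theorem cB17_9_3_259 : chunkOkM (LB17_9.ctx true true 104 1 1 1 1 1 1 1 1) muQ true true 64 RtB17_9.Cx.right.right RtB17_9.CX.left RtB17_9.Ctp.right.right.right.left.right RtB17_9.Ce.right.right.right.right.left.left RtB17_9.CTp.left.right.right RtB17_9.CEr.left.right.left 0x6a = true := by decide +kernel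

theorem cB17_9_3_260 : chunkOkM (LB17_9.ctx true true 308 127 64 21 32 1645 5313 256 256) muQ true true 64 RtB17_9.Cx.right.right RtB17_9.CX.left RtB17_9.Ctp.right.right.right.left.right.left RtB17_9.Ce.right.right.right.right.left.left.left RtB17_9.CTp.left.right.right RtB17_9.CEr.left.right.right 0xbc0bc8e48f05b234116cf8fd256021c76c98eef969b7081b76b89f640d162c9fcf8fd213174476c6f6094d899f630d41f9d2f688fd209b66076c6ad40769b5b007a9ca9f6531317ff8f550d282de2128fd246de6b76ca2867269b50b485bcb9f650f9f4388f550d437 = true := by decide +kernel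

theorem cB17_9_3_261 : chunkOkM (LB17_9.ctx true true 308 127 64 21 32 1645 5357 256 256) muQ true true 64 RtB17_9.Cx.right.right RtB17_9.CX.left RtB17_9.Ctp.right.right.right.left.right.left RtB17_9.Ce.right.right.right.right.left.left.right RtB17_9.CTp.left.right.right RtB17_9.CEr.left.right.right 0x29baa8cc8fd268e8e676c9ede3169b27c5b4e739f6b95d0dc38f550d234f38238fd28a171276c7d69aa69b803cab84e9f62a16ef2b8f250d285b748e8fd270ae1d76ca2ec0a69b80193ed639f66271e597f250d42b78d3c08fd2e1e55d76c60b8ef69b5a25852179f6be069ee78f550d37 = true := by decide +kernel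

theorem cB17_9_3_262 : chunkOkM (LB17_9.ctx true true 292 63 32 21 32 833 1331 256 256) muQ true true 64 RtB17_9.Cx.right.right RtB17_9.CX.left RtB17_9.Ctp.right.right.right.left.right.right RtB17_9.Ce.right.right.right.right.left.left RtB17_9.CTp.left.right.right RtB17_9.CEr.left.right.right 0x12f4114b8fd1c4f95c76c770a1869b48178e508f6168622e279f250d = true := by decide +kernel

theorem cB17_9_3_263 : chunkOkM (LB17_9.ctx true true 104 1 1 1 1 1 1 1 1) muQ true true 64 RtB17_9.Cx.right.right RtB17_9.CX.left RtB17_9.Ctp.right.right.right.left.right RtB17_9.Ce.right.right.right.right.left.left RtB17_9.CTp.left.right.right.left RtB17_9.CEr.right.left.left 0x5a = true := by decide +kernel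

theorem cB17_9_3_264 : chunkOkM (LB17_9.ctx true true 104 1 1 1 1 1 1 1 1) muQ true true 64 RtB17_9.Cx.right.right RtB17_9.CX.left RtB17_9.Ctp.right.right.right.left.right RtB17_9.Ce.right.right.right.right.left.left RtB17_9.CTp.left.right.right.right.left RtB17_9.CEr.right.left.left 0x5a = true := by decide +kernel

theorem cB17_9_3_265 : chunkOkM (LB17_9.ctx true true 322 127 64 21 32 1645 5357 1024 1024) muQ true true 64 RtB17_9.Cx.right.right RtB17_9.CX.left RtB17_9.Ctp.right.right.right.left.right.left RtB17_9.Ce.right.right.right.right.left.left RtB17_9.CTp.left.right.right.right.right RtB17_9.CEr.right.left.left.left.left 0xdeed8866c1b8fe9c249f6a701b9fb8f530d562af29b89f06b598dd1a519f06b47928634069f06b378435bbe48f05b2bbb6766c87a27a69b6199373019f64a6e3717f240d92a37866c3e96af69b4039a0f0b9f670a51ef48f540d374 = true := by decide +kernel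

theorem cB17_9_3_266 : chunkOkM (LB17_9.ctx true true 306 63 32 21 32 833 1331 1024 1024) muQ true true 64 RtB17_9.Cx.right.right RtB17_9.CX.left RtB17_9.Ctp.right.right.right.left.right.right RtB17_9.Ce.right.right.right.right.left.left RtB17_9.CTp.left.right.right.right.right RtB17_9.CEr.right.left.left.left.left 0x13c4e21ee9f02b = true := by decide +kernel

theorem cB17_9_3_267 : chunkOkM (LB17_9.ctx true true 104 1 1 1 1 1 1 1 1) muQ true true 64 RtB17_9.Cx.right.right RtB17_9.CX.left RtB17_9.Ctp.right.right.right.left.right RtB17_9.Ce.right.right.right.right.left.left RtB17_9.CTp.left.right.right.right.right RtB17_9.CEr.right.left.left.left.right 0x5a = true := by decide +kernel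

theorem cB17_9_3_268 : chunkOkM (LB17_9.ctx true true 104 1 1 1 1 1 1 1 1) muQ true true 64 RtB17_9.Cx.right.right RtB17_9.CX.left RtB17_9.Ctp.right.right.right.left.right RtB17_9.Ce.right.right.right.right.left.left RtB17_9.CTp.left.right.right.right.right RtB17_9.CEr.right.left.left.right 0x5a = true := by decide +kernel

theorem cB17_9_3_269 : chunkOkM (LB17_9.ctx true true 104 1 1 1 1 1 1 1 1) muQ true true 64 RtB17_9.Cx.right.right RtB17_9.CX.left RtB17_9.Ctp.right.right.right.left.right RtB17_9.Ce.right.right.right.right.left.left RtB17_9.CTp.left.right.right RtB17_9.CEr.right.left.right 0x5a = true := by decide +kernel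

theorem cB17_9_3_270 : chunkOkM (LB17_9.ctx true true 104 1 1 1 1 1 1 1 1) muQ true true 64 RtB17_9.Cx.right.right RtB17_9.CX.left RtB17_9.Ctp.right.right.right.left.right RtB17_9.Ce.right.right.right.right.left.left RtB17_9.CTp.left.right.right RtB17_9.CEr.right.right 0x52 = true := by decide +kernel

theorem cB17_9_3_271 : chunkOkM (LB17_9.ctx true true 104 1 1 1 1 1 1 1 1) muQ true true 64 RtB17_9.Cx.right.left RtB17_9.CX.left RtB17_9.Ctp.right.right.right.left.right RtB17_9.Ce.right.right.right.right.left.right RtB17_9.CTp.left.right.right RtB17_9.CEr 0x21 = true := by decide +kernel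

theorem cB17_9_3_272 : chunkOkM (LB17_9.ctx true true 104 1 1 1 1 1 1 1 1) muQ true true 64 RtB17_9.Cx.right.right RtB17_9.CX.left RtB17_9.Ctp.right.right.right.left.right RtB17_9.Ce.right.right.right.right.left.right RtB17_9.CTp.left.right.right RtB17_9.CEr.left.left 0x12 = true := by decide +kernel

theorem cB17_9_3_273 : chunkOkM (LB17_9.ctx true true 104 1 1 1 1 1 1 1 1) muQ true true 64 RtB17_9.Cx.right.right RtB17_9.CX.left RtB17_9.Ctp.right.right.right.left.right RtB17_9.Ce.right.right.right.right.left.right RtB17_9.CTp.left.right.right RtB17_9.CEr.left.right.left 0x6a = true := by decide +kernel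

theorem cB17_9_3_274 : chunkOkM (LB17_9.ctx true true 308 127 64 21 32 1645 5401 256 256) muQ true true 64 RtB17_9.Cx.right.right RtB17_9.CX.left RtB17_9.Ctp.right.right.right.left.right.left RtB17_9.Ce.right.right.right.right.left.right RtB17_9.CTp.left.right.right RtB17_9.CEr.left.right.right 0x195f67388fd1f35b9476c6a339869b4ef7fe4459f6f35bf96d8f550d2b3c1cb08fd2de130f76c7a48bf69b3c3d719169f69c6f9e738f550d2fcbda308fd310d29576c72751f69b510fdba709f6521544b88f550d4161d288029f05b34697 = true := by decide +kernel

theorem cB17_9_3_275 : chunkOkM (LB17_9.ctx true true 308 127 64 21 32 1673 5445 256 256) muQ true true 64 RtB17_9.Cx.right.right RtB17_9.CX.left RtB17_9.Ctp.right.right.right.left.right.right RtB17_9.Ce.right.right.right.right.left.right RtB17_9.CTp.left.right.right RtB17_9.CEr.left.right.right 0x196162ed8fd157346776cc8858069b2d008f89d9f61350138599f250d1f556ffe8fd20ec59176c8f57e569b85282531f9f6356a9d808f250d23586dc08fd21ed50d76c9edbab69b78ddd6fdc9f61ed672cc8f250d43217a70dc43b8f00b206b3cdd8fd21e62c176c9b481e69b706cc5c789f640d106985398fd1bf057f76c7b494669b6d60435399f640d431dcc1a9f8fd213e04f76c920e9669b3c93189b69f6c656c7e78f250d74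 = true := by decide +kernel

theorem cB17_9_3_276 : chunkOkM (LB17_9.ctx true true 104 1 1 1 1 1 1 1 1) muQ true true 64 RtB17_9.Cx.right.right RtB17_9.CX.left RtB17_9.Ctp.right.right.right.left.right RtB17_9.Ce.right.right.right.right.left.right RtB17_9.CTp.left.right.right.left RtB17_9.CEr.right.left.left 0x5a = true := by decide +kernel

theorem cB17_9_3_277 : chunkOkM (LB17_9.ctx true true 104 1 1 1 1 1 1 1 1) muQ true true 64 RtB17_9.Cx.right.right RtB17_9.CX.left RtB17_9.Ctp.right.right.right.left.right RtB17_9.Ce.right.right.right.right.left.right RtB17_9.CTp.left.right.right.right.left RtB17_9.CEr.right.left.left 0x5a = true := by decide +kernel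

end Vale.Agent.helper4.Q4
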