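import Vale.Agent.helper4.Q4TreeM
import Vale.Agent.helper4.Q4G.PB17_9

/-!
Checks for pairs of intervals of second moments.
-/

set_option maxRecDepth 100000
set_option linter.unusedVariables false

namespace Vale.Agent.helper4.Q4

theorem cB17_9_3_30 : chunkOkM (LB17_9.ctx true true 286 115 64 11 16 1505 2365 64 128) muQ true true 64 RtB17_9.Cx.left.left RtB17_9.CX RtB17_9.Ctp.right.right.left.right.left.right RtB17_9.Ce.right.right.left.right.left.right.right RtB17_9.CTp.right RtB17_9.CEr.right 0x27e0cd138fd103739876c1036727249f610474465a9f540d18cde89c8fdf232b066cd918fa368f610736eff29f540d6259ad4a98fd144e0fa76c10b234d5f9f6cb0d45418f540d1a345e0c8fd10ae8f276ccf990c97f612418ffd99f540d65937 = true := by decide +kernel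

theorem cB17_9_3_31 : chunkOkM (LB17_9.ctx true true 271 59 32 11 16 749 1177 64 64) muQ true true 64 RtB17_9.Cx.left.right RtB17_9.CX RtB17_9.Ctp.right.right.left.right.left RtB17_9.Ce.right.right.left.right.left.right RtB17_9.CTp.right RtB17_9.CEr 0x15ab673f8fd31217ce76c10a3e66f8f810fb69b6d9f61294cea639f550d1091cbc18fd380128876c17c6a3fb8f81a42cc6d79f61d28c349e9f550d3570d14138fd11b826b919f6169586ddd9f530d6 = true := by decide +kernel

theorem cB17_9_3_32 : chunkOkM (LB17_9.ctx true true 258 29 16 11 16 385 583 64 64) muQ true true 64 RtB17_9.Cx.left RtB17_9.CX RtB17_9.Ctp.right.right.left.right.right RtB17_9.Ce.right.right.left.right.left RtB17_9.CTp.right RtB17_9.CEr.left 0x4212a3ad8fd11afbd6f99f689da32f08f530d = true := by decide +kernel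

theorem cB17_9_3_33 : chunkOkM (LB17_9.ctx true true 266 57 32 11 16 385 1155 64 64) muQ true true 64 RtB17_9.Cx.left.left RtB17_9.CX RtB17_9.Ctp.right.right.left.right.right RtB17_9.Ce.right.right.left.right.left.left RtB17_9.CTp.right RtB17_9.CEr.right 0x1775c4778fd4d1345d76c1a7f26808f830d = true := by decide +kernel

theorem cB17_9_3_34 : chunkOkM (LB17_9.ctx true true 294 115 64 11 16 1533 4741 128 128) muQ true true 64 RtB17_9.Cx.left.left RtB17_9.CX RtB17_9.Ctp.right.right.left.right.right RtB17_9.Ce.right.right.left.right.left.right RtB17_9.CTp.right RtB17_9.CEr.right.left 0x137312a98fd60107ca7f816718dfdf9f676b732d58f540d23b806358fd2a7dd0b76c465d4c86e9f630d1bcff9ae8fd148b1ee76c27e9d51aa9f6953812c68f540d201af1888fd20841f176c4a408d6489f630d20944d588fd21accc476c25ab4ae349f69368d3458f540d1d62b0538fd1be9ced76c4543e9e449f634ab98dd8f540d4371e5480438fd1e9649176c2a2e529cd9f6543733c88f540d435 = true := by decide +kernel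

theorem cB17_9_3_35 : chunkOkM (LB17_9.ctx true true 274 57 32 11 16 385 1177 128 128) muQ true true 64 RtB17_9.Cx.left.left RtB17_9.CX RtB17_9.Ctp.right.right.left.right.right RtB17_9.Ce.right.right.left.right.left.right RtB17_9.CTp.right RtB17_9.CEr.right.right 0x164915ca8fdc848086f818026119c9f65ad9275b8f540d3743ee958fd35a6c4676c1672a94d39f65c62bb868f540d5 = true := by decide +kernel

theorem cB17_9_3_36 : chunkOkM (LB17_9.ctx true true 104 1 1 1 1 1 1 1 1) muQ true true 64 RtB17_9.Cx.left.right RtB17_9.CX RtB17_9.Ctp.right.right.left.right.right RtB17_9.Ce.right.right.left.right.left RtB17_9.CTp.right RtB17_9.CEr.right 0x69 = true := by decide +kernel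

theorem cB17_9_3_37 : chunkOkM (LB17_9.ctx true true 269 31 16 11 16 1463 2365 64 32) muQ true true 64 RtB17_9.Cx.right RtB17_9.CX RtB17_9.Ctp.right.right.left.right RtB17_9.Ce.right.right.left.right.left RtB17_9.CTp RtB17_9.CEr 0x116969905d8f17fd95b447c7f85b26a9798f6173b9accb9f540d11cabe9f8fd18a7cef76c1d9844379b147894b899f6256a3f2a49f550d5694694333 = true := by decide +kernel

theorem cB17_9_3_38 : chunkOkM (LB17_9.ctx true true 297 115 64 21 32 1505 2387 256 64) muQ true true 64 RtB17_9.Cx.left RtB17_9.CX RtB17_9.Ctp.right.right.left.right.left RtB17_9.Ce.right.right.left.right.right.left RtB17_9.CTp.left RtB17_9.CEr 0x4a256496608fd192316976cec522da08f614b2ec5919f540d1bfbe9d68fd3a7d5966c153b55c8c9f6188f616fd9f540d6e9761fe7fd78061c69b295ec247f8263f613159f62528565c29f550d359680f6a818fd68e60bd76c45d4d869b342fbdc18f611403f1dc9f550d26219dfa8fd14d64f776c36af0e69bb353a2c68f6139b464869f550d65934597593784a5425 = true := by decide +kernel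

theorem cB17_9_3_39 : chunkOkM (LB17_9.ctx true true 284 115 64 11 16 1505 2409 64 64) muQ true true 64 RtB17_9.Cx.left RtB17_9.CX RtB17_9.Ctp.right.right.left.right.left RtB17_9.Ce.right.right.left.right.right.left RtB17_9.CTp.right RtB17_9.CEr 0x135dc9d28fd469edd776c1d30e15f8f8a57347c08f616764481a9f550d1541659f8fd43d33fc76c19983b948f8dd18cdd78f6146f3dcfb9f550d4428b38bb8fd1ae2b2cc8f614dda5b659f530d6e0cdadb7fd76f753f7f8d06fe4288f61dda903669f540d359171566a08fd3ffecb976c16ee3c168f85b1b58378f6129e801369f550d273d153b8fd11899b776c108b0cde8f61549fce3f9f540d659345975937 = true := by decide +kernel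

theorem cB17_9_3_40 : chunkOkM (LB17_9.ctx true true 292 119 64 11 16 1505 2431 256 64) muQ true true 64 RtB17_9.Cx.left RtB17_9.CX RtB17_9.Ctp.right.right.left.right.left RtB17_9.Ce.right.right.left.right.right.right RtB17_9.CTp RtB17_9.CEr 0x59ed305d37fd22117066c119dc32f99f618b9b972c9f540d30b82b8e8fd239a93b76c158ab5ba49f530d6e3811097fd703a9566cc16cac69bfba8b9128f61ab7f18539f550d4a542555934597593597 = true := by decide +kernel

theorem cB17_9_3_41 : chunkOkM (LB17_9.ctx true true 104 1 1 1 1 1 1 1 1) muQ true true 64 RtB17_9.Cx.left RtB17_9.CX RtB17_9.Ctp.right.right.left.right.right RtB17_9.Ce.right.right.left.right.right RtB17_9.CTp.left.left RtB17_9.CEr 0x42 = true := by decide +kernel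

theorem cB17_9_3_42 : chunkOkM (LB17_9.ctx true true 104 1 1 1 1 1 1 1 1) muQ true true 64 RtB17_9.Cx.left RtB17_9.CX RtB17_9.Ctp.right.right.left.right.right RtB17_9.Ce.right.right.left.right.right RtB17_9.CTp.left.right.left RtB17_9.CEr 0x4a = true := by decide +kernel

theorem cB17_9_3_43 : chunkOkM (LB17_9.ctx true true 300 115 64 21 32 777 2409 256 256) muQ true true 64 RtB17_9.Cx.left RtB17_9.CX.left RtB17_9.Ctp.right.right.left.right.right RtB17_9.Ce.right.right.left.right.right.left RtB17_9.CTp.left.right.right RtB17_9.CEr.left 0x48429ef08fd4ff4bc376c136a550e59f6dfa2059a8f540d4b8b4df08fd5de118f76c25c0cf69b36ea22e969f640d371d673d8fd40139d976c6d3b0169b3d04f68fa9f62586e287f250d733a16c188fd3ce37f076c572b3769b3cde88f9e9f640d431f1930b8fd378c24e76c3857da69b1885a15e19f6c666145f8f550d7eb95b0d8fda41b9c376ce3398d838f6e604d2de8f540d21ec097b8fd200e8d976c6ebcb269b32b9ea67f9f63f79e77d8f550d74376a6126 = true := by decide +kernel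

end Vale.Agent.helper4.Q4
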