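import Vale.Agent.helper4.Q4TreeM
import Vale.Agent.helper4.Q4G.PB17_9

/-!
Checks for pairs of intervals of second moments.
-/

set_option maxRecDepth 100000
set_option linter.unusedVariables false

namespace Vale.Agent.helper4.Q4

theorem cB17_9_3_306 : chunkOkM (LB17_9.ctx true true 284 127 64 11 16 819 2651 64 128) muQ true true 64 RtB17_9.Cx.right.right.right RtB17_9.CX RtB17_9.Ctp.right.right.right.left.right.left RtB17_9.Ce.right.right.right.right.left.left.left RtB17_9.CTp.right RtB17_9.CEr.right 0x1a46df928fdbbe04e66c35479be8f9f666e72e518f540d178845da8fd131753f76c2ad1a37e69f6a0f2d11b8f540d6 = true := by decide +kernel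

theorem cB17_9_3_307 : chunkOkM (LB17_9.ctx true true 301 251 128 11 16 1645 5357 128 128) muQ true true 64 RtB17_9.Cx.right.right.left RtB17_9.CX RtB17_9.Ctp.right.right.right.left.right.left RtB17_9.Ce.right.right.right.right.left.left.right RtB17_9.CTp.right RtB17_9.CEr.right.left 0x15b3eb368fd1dc3726f863586b65c9f630d19694c0b8fd1f4860f76c61208e1999f630d2171716a4f68fd1b0174a76c913306cb39f630d1de074eb8fd2bb797e76c87f8c718b9f6367702ef8f240d745591a244e008fd1745e5f76ccb9593cc29f630d45973 = true := by decide +kernel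

theorem cB17_9_3_308 : chunkOkM (LB17_9.ctx true true 301 251 128 11 16 1645 5357 128 128) muQ true true 64 RtB17_9.Cx.right.right.left RtB17_9.CX RtB17_9.Ctp.right.right.right.left.right.left RtB17_9.Ce.right.right.right.right.left.left.right RtB17_9.CTp.right RtB17_9.CEr.right.right 0x17e30dc58fd45cf04a76c16f94fd58f8a96199bbb9f640d21712cacbf68fd46d6a7d819f620d1a83349f8fd26134ba76c804b2eadd9f630d5459147f83e68fd3dad98a76c155d3f6b8f8a84e7c3eb9f640d45973 = true := by decide +kernel

theorem cB17_9_3_309 : chunkOkM (LB17_9.ctx true true 301 255 128 11 16 1645 5357 128 128) muQ true true 64 RtB17_9.Cx.right.right.right RtB17_9.CX RtB17_9.Ctp.right.right.right.left.right.left RtB17_9.Ce.right.right.right.right.left.left.right RtB17_9.CTp.right RtB17_9.CEr.right.left 0x117b8d308fd3fcf2f97f82ff2fc2d69f69bc977ea8f540d1ad4d2e28fd204d2b776c599b544ba9f6448585178f540d1823d4118fd19cecfa76cb6acb9d0a9f630d4514ee71a48fde3a3c266c41c59d5cf9f69bf14fff8f540d18aeb6538fd15989e676c3fc4372d89f6b083f5d98f540d7df477367fd753a6517f829f6c09059f6ec47e3308f540d1b50bfb48fd20aa91976c3f4503e429f6be3291998f540d543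 = true := by decide +kernel

theorem cB17_9_3_310 : chunkOkM (LB17_9.ctx true true 295 127 64 11 16 1645 5357 128 128) muQ true true 64 RtB17_9.Cx.right.right.right RtB17_9.CX RtB17_9.Ctp.right.right.right.left.right.left RtB17_9.Ce.right.right.right.right.left.left.right RtB17_9.CTp.right RtB17_9.CEr.right.right 0x161dbbb58fd5f6fc866c25655c30a9f683281a638f540d1c7b47bf8fd20effa976c4d4b87bfb9f65faf77508f540d5176dd71c8fd194227a76c473e7ee7f8239e00a819f6b790cb618f550d1783800d8fd22df27776c89694257f826350c8489f6ade9b3838f550d43 = true := by decide +kernel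

theorem cB17_9_3_311 : chunkOkM (LB17_9.ctx true true 289 127 64 11 16 833 2673 128 128) muQ true true 64 RtB17_9.Cx.right.right RtB17_9.CX RtB17_9.Ctp.right.right.right.left.right.right RtB17_9.Ce.right.right.right.right.left.left RtB17_9.CTp.right RtB17_9.CEr.right 0x1951f8108fddc29ba66c20d18debd818fd48516b876c17527e628f819c79e3039f6fda09cbc8f250d74dbab2d98fd857792e68f614e5100b49f230d177c814f8fd20548f276c172b4e39b8af630d1ef73d328fd265216576c23e68269b287ad50029f6111afcc6b9f250d72011f0f28fd2be26dc76c4abad6b28f6a5cab31759f11c5d446fa1af050d456 = true := by decide +kernel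

theorem cB17_9_3_312 : chunkOkM (LB17_9.ctx true true 104 1 1 1 1 1 1 1 1) muQ true true 64 RtB17_9.Cx.right.left RtB17_9.CX RtB17_9.Ctp.right.right.right.left.right RtB17_9.Ce.right.right.right.right.left.right RtB17_9.CTp.right RtB17_9.CEr.right 0x21 = true := by decide +kernel

theorem cB17_9_3_313 : chunkOkM (LB17_9.ctx true true 104 1 1 1 1 1 1 1 1) muQ true true 64 RtB17_9.Cx.right.right.left RtB17_9.CX RtB17_9.Ctp.right.right.right.left.right.left RtB17_9.Ce.right.right.right.right.left.right RtB17_9.CTp.right RtB17_9.CEr.right 0x69 = true := by decide +kernel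

theorem cB17_9_3_314 : chunkOkM (LB17_9.ctx true true 297 255 128 11 16 1631 5401 64 128) muQ true true 64 RtB17_9.Cx.right.right.right RtB17_9.CX RtB17_9.Ctp.right.right.right.left.right.left.left RtB17_9.Ce.right.right.right.right.left.right.left RtB17_9.CTp.right RtB17_9.CEr.right 0x133037458fd30fe9eb76c1103cd6a8f84ff15dbc19f6108cabef89f550d15d15e2e8fdc2437866c448fca6fb9f69c726b8e8f540d16feff8c8fd14c5dfe76c520384b229f6db3869cc8f540d64697 = true := by decide +kernel

theorem cB17_9_3_315 : chunkOkM (LB17_9.ctx true true 304 255 128 11 16 1645 5401 128 128) muQ true true 64 RtB17_9.Cx.right.right.right RtB17_9.CX RtB17_9.Ctp.right.right.right.left.right.left.right RtB17_9.Ce.right.right.right.right.left.right.left RtB17_9.CTp.right RtB17_9.CEr.right.left 0xff0c9ef7fd5a33c737f863be492999f678337eb68f540d16a6a43c8fd1a9941476cac0e939779f630d5208b18d28fd190c3b176c113bc04b14ebf630d75de6da2e8fd32e7a1a7f85eddf3eb89f6c467aa238f540d145662ff8fd141c46c76c24ee0f69b951c14da99f640d1960e7a08fd1ebdd7376c7f003ad419f630d754 = true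 := by decide +kernel

end Vale.Agent.helper4.Q4
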