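import Vale.Agent.helper4.Q4TreeM
import Vale.Agent.helper4.Q4G.PB17_9

/-!
Checks for pairs of intervals of second moments.
-/

set_option maxRecDepth 100000
set_option linter.unusedVariables false

namespace Vale.Agent.helper4.Q4

theorem cB17_9_3_316 : chunkOkM (LB17_9.ctx true true 299 255 128 11 16 1645 5401 64 128) muQ true true 64 RtB17_9.Cx.right.right.right RtB17_9.CX RtB17_9.Ctp.right.right.right.left.right.left.right RtB17_9.Ce.right.right.right.right.left.right.left RtB17_9.CTp.right RtB17_9.CEr.right.right 0x15effaee8fd33b7685985c102f13d68f83d3d310729f68129a9f18f550d1bf52d2b8fd16ba30476c88ca6c403baf630d7146fd0308fd318e2cb76c105b3f798f83c8cc01079f6745f36318f550d163ec2d58fd3de33baa85c1466da498f885ff9d82f9f640d74 = true := by decide +kernel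

theorem cB17_9_3_317 : chunkOkM (LB17_9.ctx true true 308 511 256 11 16 3297 10835 64 64) muQ true true 64 RtB17_9.Cx.right.right.right RtB17_9.CX RtB17_9.Ctp.right.right.right.left.right.left RtB17_9.Ce.right.right.right.right.left.right.right RtB17_9.CTp.right RtB17_9.CEr.right 0x596914d740178fd37dcdb876c12863cb98f811cd66e623af640d46975934597593 = true := by decide +kernel

theorem cB17_9_3_318 : chunkOkM (LB17_9.ctx true true 312 1007 512 11 16 1659 10747 64 128) muQ true true 64 RtB17_9.Cx.right.right.left RtB17_9.CX RtB17_9.Ctp.right.right.right.left.right.right RtB17_9.Ce.right.right.right.right.left.right.left RtB17_9.CTp.right RtB17_9.CEr.right 0x2121011b169aa28fd461aa49e85c15309d0d8f87ca3d461d9f690ab3ccf8f250d2006dc508fd221ff6476c89795182a9f69137db8b8f240d6321742174217 = true := by decide +kernel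

theorem cB17_9_3_319 : chunkOkM (LB17_9.ctx true true 301 255 128 11 16 1673 5401 128 128) muQ true true 64 RtB17_9.Cx.right.right.right RtB17_9.CX RtB17_9.Ctp.right.right.right.left.right.right RtB17_9.Ce.right.right.right.right.left.right.left RtB17_9.CTp.right RtB17_9.CEr.right 0x120d77798fd17aa9866c3ca0680069f61da626888f240d1c301f9b8fd1fc704c76c3ac0d606b9f64932d1dd8f240d5125456648fd37cc0417f83b202325b9f6458e51518f240d120cbb1999f00b1c8219af8fd1edf86476ca431e42c59f630d1b6623c88fd237ad3576c2855bf378b91bd9910a9f63d20a3448f250d71954ad208fd1f35a7e76c218d8d69b7e284ac979f640d4356 = true := by decide +kernel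

theorem cB17_9_3_320 : chunkOkM (LB17_9.ctx true true 104 1 1 1 1 1 1 1 1) muQ true true 64 RtB17_9.Cx.right.right.left RtB17_9.CX RtB17_9.Ctp.right.right.right.left.right.right RtB17_9.Ce.right.right.right.right.left.right.right RtB17_9.CTp.right RtB17_9.CEr.right 0x21 = true := by decide +kernel

theorem cB17_9_3_321 : chunkOkM (LB17_9.ctx true true 301 255 128 11 16 1673 5445 128 128) muQ true true 64 RtB17_9.Cx.right.right.right RtB17_9.CX RtB17_9.Ctp.right.right.right.left.right.right RtB17_9.Ce.right.right.right.right.left.right.right RtB17_9.CTp.right RtB17_9.CEr.right.left 0x166b416a8fd28f8253649f68be39a348f551cb70aa8f240d178bb29d8fd19e7c5d76c4955af69b3a3eedf479f613bf927e19f250d190ecd4e8fd1f26f2476c643eb0e1d9f630d2171b904a438fd26fc7eb76ca358b6c799f630d232d3c3c8fd30f4f3b76c7c7fa8adb9f68188631b8f240d7435 = true := by decide +kernel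

theorem cB17_9_3_322 : chunkOkM (LB17_9.ctx true true 297 255 128 11 16 1673 5445 64 128) muQ true true 64 RtB17_9.Cx.right.right.right RtB17_9.CX RtB17_9.Ctp.right.right.right.left.right.right RtB17_9.Ce.right.right.right.right.left.right.right RtB17_9.CTp.right RtB17_9.CEr.right.right 0x16f05e238fd505a3d576c1bd4463f8f820077321d9f610fad999a9f250d168175f08fd4e61e6576c1b2be30a8f89cfc016ed9f640d2171611c0a08fd4eae6c5d85c1b8fa5a38f883f8a09769f640d1aac53008fd13305be76c7c36716e89f6edffd3018f240d743 = true := by decide +kernel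

theorem cB17_9_3_323 : chunkOkM (LB17_9.ctx true true 335 1023 512 21 32 6685 21835 256 64) muQ true true 64 RtB17_9.Cx.right RtB17_9.CX RtB17_9.Ctp.right.right.right.left RtB17_9.Ce.right.right.right.right.right RtB17_9.CTp RtB17_9.CEr 0x2121212121011825e6e48fd4a0473ea85c17f916fa8f8f127aeee79f642a645448f250d1e48aade8f06c64a31c05c1dd2a54f8fd1b26201985cb9cf7d69b2e46256129af640d684a54255693342174217469321742175932174593 = true := by decide +kernel

theorem cB17_9_3_324 : chunkOkM (LB17_9.ctx true true 104 1 1 1 1 1 1 1 1) muQ true true 64 RtB17_9.Cx RtB17_9.CX RtB17_9.Ctp.right.right.right.right RtB17_9.Ce.right.right.right RtB17_9.CTp RtB17_9.CEr 0x01 = true := by decide +kernel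

theorem cB17_9_2_0 : chunkOkM (LB17_9.ctx false true 104 1 1 1 1 1 1 1 1) muQ false true 64 RtB17_9.Cx RtB17_9.CX RtB17_9.Ctn RtB17_9.Ce RtB17_9.CTp RtB17_9.CEr 0x49 = true := by decide +kernel

theorem cB17_9_1_0 : chunkOkM (LB17_9.ctx true false 104 1 1 1 1 1 1 1 1) muQ true false 64 RtB17_9.Cx RtB17_9.CX RtB17_9.Ctp RtB17_9.Ce RtB17_9.CTn RtB17_9.CEr 0x4a = true := by decide +kernel

theorem cB17_9_0_0 : chunkOkM (LB17_9.ctx false false 104 1 1 1 1 1 1 1 1) muQ false false 64 RtB17_9.Cx RtB17_9.CX RtB17_9.Ctn RtB17_9.Ce RtB17_9.CTn RtB17_9.CEr 0x49 = true := by decide +kernel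

end Vale.Agent.helper4.Q4
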