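import Vale.Agent.helper4.Q4TreeM
import Vale.Agent.helper4.Q4G.PB17_9

/-!
Checks for pairs of intervals of second moments.
-/

set_option maxRecDepth 100000
set_option linter.unusedVariables false

namespace Vale.Agent.helper4.Q4

theorem cB17_9_3_44 : chunkOkM (LB17_9.ctx true true 314 115 64 21 32 777 2409 1024 1024) muQ true true 64 RtB17_9.Cx.left RtB17_9.CX.left RtB17_9.Ctp.right.right.left.right.right RtB17_9.Ce.right.right.left.right.right.left RtB17_9.CTp.left.right.right RtB17_9.CEr.right 0x525a5a5a6d0246868fd60cbf067c10b776e79b18d9d90e99f6e9eaaccc8f550d27c5fdc149f06b2f4357a049f06b7267ae055c9f06b412383f0a59f05b1797658f8fd2273da976c2c614969b1a9be9f699f682d1fcbd8f550d43765a565a566 = true := by decide +kernel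

theorem cB17_9_3_45 : chunkOkM (LB17_9.ctx true true 300 115 64 21 32 777 2453 256 256) muQ true true 64 RtB17_9.Cx.left.left RtB17_9.CX.left RtB17_9.Ctp.right.right.left.right.right RtB17_9.Ce.right.right.left.right.right.right RtB17_9.CTp.left.right.right RtB17_9.CEr.left 0x42c0485d8fd505c45676c5858ef6139f630d2172fe203258fd375242a76c3731e869b4a72d604d9f640d299b7f8f8fd381d31876c4ed1b769bc10d572079f640d74157e24a3a9f05b36a6126 = true := by decide +kernel

theorem cB17_9_3_46 : chunkOkM (LB17_9.ctx true true 314 115 64 21 32 777 2453 1024 1024) muQ true true 64 RtB17_9.Cx.left.left RtB17_9.CX.left RtB17_9.Ctp.right.right.left.right.right RtB17_9.Ce.right.right.left.right.right.right RtB17_9.CTp.left.right.right RtB17_9.CEr.right 0x525a5a5a4ea16366c3c659069b5d0294ea49f630d3648630119f06b2d60544109f06b7415af6a9709f05b365a565a566 = true := by decide +kernel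

theorem cB17_9_3_47 : chunkOkM (LB17_9.ctx true true 308 59 32 21 32 777 2453 1024 1024) muQ true true 64 RtB17_9.Cx.left.right RtB17_9.CX.left RtB17_9.Ctp.right.right.left.right.right RtB17_9.Ce.right.right.left.right.right.right RtB17_9.CTp.left.right.right RtB17_9.CEr 0x525a5a5a29a6b4d08fd38e60767cdffc49b158c1c9ce9f698c334ba8f550d132d1bfa49f05b365a565a56633eaf2958fd369f09e76c6d437a69b26f3deb169f69cfd77668f550d2a9d9ec88fd432b31776c2d9d79cb69f6972d8ca98f540d41435d9f2a9f05b36a61266 = true := by decide +kernel

theorem cB17_9_3_48 : chunkOkM (LB17_9.ctx true true 104 1 1 1 1 1 1 1 1) muQ true true 64 RtB17_9.Cx.left RtB17_9.CX.right RtB17_9.Ctp.right.right.left.right.right RtB17_9.Ce.right.right.left.right.right RtB17_9.CTp.left.right.right RtB17_9.CEr 0x4a = true := by decide +kernel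

theorem cB17_9_3_49 : chunkOkM (LB17_9.ctx true true 104 1 1 1 1 1 1 1 1) muQ true true 64 RtB17_9.Cx.left RtB17_9.CX RtB17_9.Ctp.right.right.left.right.right RtB17_9.Ce.right.right.left.right.right RtB17_9.CTp.right.left RtB17_9.CEr.left.left 0x12 = true := by decide +kernel

theorem cB17_9_3_50 : chunkOkM (LB17_9.ctx true true 104 1 1 1 1 1 1 1 1) muQ true true 64 RtB17_9.Cx.left RtB17_9.CX RtB17_9.Ctp.right.right.left.right.right RtB17_9.Ce.right.right.left.right.right RtB17_9.CTp.right.left.left RtB17_9.CEr.left.right.left 0x12 = true := by decide +kernel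

theorem cB17_9_3_51 : chunkOkM (LB17_9.ctx true true 104 1 1 1 1 1 1 1 1) muQ true true 64 RtB17_9.Cx.left RtB17_9.CX RtB17_9.Ctp.right.right.left.right.right RtB17_9.Ce.right.right.left.right.right RtB17_9.CTp.right.left.left.left RtB17_9.CEr.left.right.right.left 0x12 = true := by decide +kernel

theorem cB17_9_3_52 : chunkOkM (LB17_9.ctx true true 104 1 1 1 1 1 1 1 1) muQ true true 64 RtB17_9.Cx.left RtB17_9.CX RtB17_9.Ctp.right.right.left.right.right RtB17_9.Ce.right.right.left.right.right RtB17_9.CTp.right.left.left.left.left RtB17_9.CEr.left.right.right.right.left 0x6a = true := by decide +kernel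

theorem cB17_9_3_53 : chunkOkM (LB17_9.ctx true true 104 1 1 1 1 1 1 1 1) muQ true true 64 RtB17_9.Cx.left RtB17_9.CX RtB17_9.Ctp.right.right.left.right.right RtB17_9.Ce.right.right.left.right.right RtB17_9.CTp.right.left.left.left.left RtB17_9.CEr.left.right.right.right.right.left 0x6a = true := by decide +kernel

theorem cB17_9_3_54 : chunkOkM (LB17_9.ctx true true 104 1 1 1 1 1 1 1 1) muQ true true 64 RtB17_9.Cx.left RtB17_9.CX RtB17_9.Ctp.right.right.left.right.right RtB17_9.Ce.right.right.left.right.right RtB17_9.CTp.right.left.left.left.left.left RtB17_9.CEr.left.right.right.right.right.right.left 0x6a = true := by decide +kernel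

theorem cB17_9_3_55 : chunkOkM (LB17_9.ctx true true 334 115 64 41 64 777 2409 4096 4096) muQ true true 64 RtB17_9.Cx.left RtB17_9.CX.left.left RtB17_9.Ctp.right.right.left.right.right RtB17_9.Ce.right.right.left.right.right.left RtB17_9.CTp.right.left.left.left.left.left.left RtB17_9.CEr.left.right.right.right.right.right.right 0x1d1e1a84f9fd219fa21cc9f6e9b683558f530d263fed9c39f06b276cde3e69f06b72365286e59f06b4b61b47cc666ed998f6bd2a208f8f530d37 = true := by decide +kernel

theorem cB17_9_3_56 : chunkOkM (LB17_9.ctx true true 334 115 64 41 64 777 2453 4096 4096) muQ true true 64 RtB17_9.Cx.left RtB17_9.CX.left.left RtB17_9.Ctp.right.right.left.right.right RtB17_9.Ce.right.right.left.right.right.right RtB17_9.CTp.right.left.left.left.left.left.left RtB17_9.CEr.left.right.right.right.right.right.right 0x356f1c128fd115bbe3559f6d74b51698f530d3be7e240b9f06b35ceb9fa49f06b27fbd38c19f06b74160a7e9859f05b37 = true := by decide +kernel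

theorem cB17_9_3_57 : chunkOkM (LB17_9.ctx true true 104 1 1 1 1 1 1 1 1) muQ true true 64 RtB17_9.Cx.left RtB17_9.CX.left.right RtB17_9.Ctp.right.right.left.right.right RtB17_9.Ce.right.right.left.right.right RtB17_9.CTp.right.left.left.left.left.left.left RtB17_9.CEr.left.right.right.right.right.right.right 0x6a = true := by decide +kernel

theorem cB17_9_3_58 : chunkOkM (LB17_9.ctx true true 104 1 1 1 1 1 1 1 1) muQ true true 64 RtB17_9.Cx.left RtB17_9.CX.right RtB17_9.Ctp.right.right.left.right.right RtB17_9.Ce.right.right.left.right.right RtB17_9.CTp.right.left.left.left.left.left.left RtB17_9.CEr.left.right.right.right.right.right.right 0x4a = true := by decide +kernel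

theorem cB17_9_3_59 : chunkOkM (LB17_9.ctx true true 104 1 1 1 1 1 1 1 1) muQ true true 64 RtB17_9.Cx.left RtB17_9.CX RtB17_9.Ctp.right.right.left.right.right RtB17_9.Ce.right.right.left.right.right RtB17_9.CTp.right.left.left.left.left.left.right RtB17_9.CEr.left.right.right.right.right.right.right 0x6a = true := by decide +kernel

theorem cB17_9_3_60 : chunkOkM (LB17_9.ctx true true 104 1 1 1 1 1 1 1 1) muQ true true 64 RtB17_9.Cx.left RtB17_9.CX RtB17_9.Ctp.right.right.left.right.right RtB17_9.Ce.right.right.left.right.right RtB17_9.CTp.right.left.left.left.left.right RtB17_9.CEr.left.right.right.right.right.right 0x6a = true := by decide +kernel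

theorem cB17_9_3_61 : chunkOkM (LB17_9.ctx true true 104 1 1 1 1 1 1 1 1) muQ true true 64 RtB17_9.Cx.left RtB17_9.CX RtB17_9.Ctp.right.right.left.right.right RtB17_9.Ce.right.right.left.right.right RtB17_9.CTp.right.left.left.left.right RtB17_9.CEr.left.right.right.right 0x6a = true := by decide +kernel

theorem cB17_9_3_62 : chunkOkM (LB17_9.ctx true true 104 1 1 1 1 1 1 1 1) muQ true true 64 RtB17_9.Cx.left RtB17_9.CX RtB17_9.Ctp.right.right.left.right.right RtB17_9.Ce.right.right.left.right.right RtB17_9.CTp.right.left.left.right RtB17_9.CEr.left.right.right 0x12 = true := by decide +kernel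

theorem cB17_9_3_63 : chunkOkM (LB17_9.ctx true true 104 1 1 1 1 1 1 1 1) muQ true true 64 RtB17_9.Cx.left RtB17_9.CX RtB17_9.Ctp.right.right.left.right.right RtB17_9.Ce.right.right.left.right.right RtB17_9.CTp.right.left.right RtB17_9.CEr.left.right 0x12 = true := by decide +kernel

theorem cB17_9_3_64 : chunkOkM (LB17_9.ctx true true 104 1 1 1 1 1 1 1 1) muQ true true 64 RtB17_9.Cx.left RtB17_9.CX RtB17_9.Ctp.right.right.left.right.right RtB17_9.Ce.right.right.left.right.right RtB17_9.CTp.right.right RtB17_9.CEr.left 0x12 = true := by decide +kernel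

theorem cB17_9_3_65 : chunkOkM (LB17_9.ctx true true 294 115 64 11 16 1533 4785 128 128) muQ true true 64 RtB17_9.Cx.left.left RtB17_9.CX RtB17_9.Ctp.right.right.left.right.right.left RtB17_9.Ce.right.right.left.right.right.left.left RtB17_9.CTp.right RtB17_9.CEr.right.left 0x11caca2a8fd34d86a87f81c03f6ec09f6aca0f41e8f540d1bd4d0368fd17280b776c319b73c949f6462e79a18f540d283cbf448fd29409fc76c4cdfc55d8f610e4a79549f540d3526a398118fd310f1c6359f65a6a1a6d8f530d23acf2068fd244aa7476c5b84b7ed49f630d223250168fd237ae5f76c7d78cddcf9f630d41e6aef858fd1a1991676c3a2c47cab9f6bba8ca9d8f540d357 = true := by decide +kernel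

end Vale.Agent.helper4.Q4
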