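import Vale.Agent.helper4.Q4TreeM
import Vale.Agent.helper4.Q4G.PB17_9

/-!
Checks for pairs of intervals of second moments.
-/

set_option maxRecDepth 100000
set_option linter.unusedVariables false

namespace Vale.Agent.helper4.Q4

theorem cB17_9_3_66 : chunkOkM (LB17_9.ctx true true 287 115 64 11 16 763 2387 128 128) muQ true true 64 RtB17_9.Cx.left.left RtB17_9.CX RtB17_9.Ctp.right.right.left.right.right.left RtB17_9.Ce.right.right.left.right.right.left.left RtB17_9.CTp.right RtB17_9.CEr.right.right 0x13c514fc8fd62fd6e6f81dc06aeff9f68c5fe2328f540d187ce0658fd2c588a076c30b090b169f650d37dad8f540d51410a11a8fd3a63ab3b29f63ba9d3948f530d4610edc48fd319cbce76c33e2057aa9f63b4c89978f540d57 = true := by decide +kernel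

theorem cB17_9_3_67 : chunkOkM (LB17_9.ctx true true 291 115 64 11 16 1533 2409 128 128) muQ true true 64 RtB17_9.Cx.left.left RtB17_9.CX RtB17_9.Ctp.right.right.left.right.right.left RtB17_9.Ce.right.right.left.right.right.left.right RtB17_9.CTp.right RtB17_9.CEr.right 0x13073b8c8fd4a9455f8168f5fced9f674db9a4c8f540d32f4553b8fd1ffeb2f76c1441ae6459f6a74e7ae08f540d51cc09b398fd14efd0a76c12658dd269f6fbf7416a8f540d31ddc07778fd19af9ebeb9f6d393b8b08f530d1e9a01328fd20a392c76c2206241909f6b182a5998f540d56697 = true := by decide +kernel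

theorem cB17_9_3_68 : chunkOkM (LB17_9.ctx true true 294 115 64 11 16 1561 4785 128 128) muQ true true 64 RtB17_9.Cx.left.left RtB17_9.CX RtB17_9.Ctp.right.right.left.right.right.right RtB17_9.Ce.right.right.left.right.right.left.left RtB17_9.CTp.right.left RtB17_9.CEr.right.left 0x1e74de568fd2079f4576c7f1712b709f630d2585ff358fd31443a676c40de4253b9f6288c64d68f240d2271c6fc8fd2bc903776c59143ec2b9f630d323980f278fd2e8a8a976c46692db309f630d47 = true := by decide +kernel

theorem cB17_9_3_69 : chunkOkM (LB17_9.ctx true true 300 227 128 11 16 1561 4829 128 128) muQ true true 64 RtB17_9.Cx.left.left RtB17_9.CX RtB17_9.Ctp.right.right.left.right.right.right RtB17_9.Ce.right.right.left.right.right.left.right RtB17_9.CTp.right.left RtB17_9.CEr.right.left 0x20007e0a8fd278665476c5e27041929f630d1cf7cfc68fd1b457ea76c631f2319e9f630d1fc895888fd257a0e476c6fc5a37219f630d4323cf73f98fd303852fc85c6e4506d679f630d69725aa6b0f8fd360ecba76c4d7cdd9d39f630d272a8b908fd36a5b47085c687f072859f6103e41c78f240d7422b621ed8fd2adbef976c5aea8c2b29f630d69737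 = true := by decide +kernel

theorem cB17_9_3_70 : chunkOkM (LB17_9.ctx true true 295 57 32 11 16 777 2409 512 512) muQ true true 64 RtB17_9.Cx.left.left RtB17_9.CX RtB17_9.Ctp.right.right.left.right.right.right RtB17_9.Ce.right.right.left.right.right.left RtB17_9.CTp.right.right RtB17_9.CEr.right.left 0x126a1885db0f8fd2dd0adce99f61d0a64f58f530df83733e68fd121af3176c253a7f57a9f630d456a65126 = true := by decide +kernel

theorem cB17_9_3_71 : chunkOkM (LB17_9.ctx true true 301 115 64 11 16 777 2409 512 512) muQ true true 64 RtB17_9.Cx.left.left RtB17_9.CX RtB17_9.Ctp.right.right.left.right.right.right RtB17_9.Ce.right.right.left.right.right.left RtB17_9.CTp.right RtB17_9.CEr.right.right 0x1531c7f48fd38eed187f93bbe0957f832169bb149f640d1705ac3a8fde8db626f82ab3106e89f630d7154cc5488fd87f03d6f82b4a819ad9f630d45a5a118cfe908fde4f90c66c2cf98eb259f640ec81a7f540d254a7ac239f06b465a565a55 = true := by decide +kernel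

theorem cB17_9_3_72 : chunkOkM (LB17_9.ctx true true 277 59 32 11 16 777 2409 64 128) muQ true true 64 RtB17_9.Cx.left.right RtB17_9.CX RtB17_9.Ctp.right.right.left.right.right RtB17_9.Ce.right.right.left.right.right.left RtB17_9.CTp.right RtB17_9.CEr.right 0x1669fdbb8fd40af79876c1469a01c8f830d242da8758fd11aee5e76ccb9f6ad78f6e868b2fa8f540d197c942d8fd1233fb876cf1f97d1a8f6f927c8de8f540d6135cec808fd1bb57c576c83bc16b7f8f27c34378f6b04d3f628f550d43 = true := by decide +kernel

theorem cB17_9_3_73 : chunkOkM (LB17_9.ctx true true 306 463 256 11 16 3073 4851 64 128) muQ true true 64 RtB17_9.Cx.left.left RtB17_9.CX RtB17_9.Ctp.right.right.left.right.right.left RtB17_9.Ce.right.right.left.right.right.right RtB17_9.CTp.right RtB17_9.CEr.right 0x595921de7f3c8fd13fdac276cda56946f825fcc66a8f6fc1ccd518f550d1a508abb8fd123b23776c21d3b5d439f6db563d248f540d669759345975935974 = true := by decide +kernel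

theorem cB17_9_3_74 : chunkOkM (LB17_9.ctx true true 306 455 256 11 16 1561 4873 128 128) muQ true true 64 RtB17_9.Cx.left.left RtB17_9.CX RtB17_9.Ctp.right.right.left.right.right.right RtB17_9.Ce.right.right.left.right.right.right.left RtB17_9.CTp.right RtB17_9.CEr.right.left 0x152a1afc8fd18f34bf7f85385a519f9f61ff693e48f540d22ebd0468fd2b8364d76c6741cca819f630d1ec2b67c8fd2251e1576c4248125419f630d4215753738fd20e951676c98a3784c39f630d1d75f44a8fd1ebbb1876c66452c74b9f630d435691e18f2f58fd1c9aa2a76cc19293d269f630d69742176937 = true := by decide +kernel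

end Vale.Agent.helper4.Q4
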