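import Vale.Agent.helper4.Q4TreeM
import Vale.Agent.helper4.Q4G.PB17_9

/-!
Checks for pairs of intervals of second moments.
-/

set_option maxRecDepth 100000
set_option linter.unusedVariables false

namespace Vale.Agent.helper4.Q4

theorem cB17_9_3_75 : chunkOkM (LB17_9.ctx true true 300 227 128 11 16 1561 4851 128 128) muQ true true 64 RtB17_9.Cx.left.left RtB17_9.CX RtB17_9.Ctp.right.right.left.right.right.right RtB17_9.Ce.right.right.left.right.right.right.left RtB17_9.CTp.right RtB17_9.CEr.right.right 0x15adec7a8fd1cd5946f826e9fe77e9f640b0787a8f540d313b705a8fd2fb4ed176c3650a57729f6103371d58f540d5692279bb7c8fd3e1831976ce72ae147f812abe253b0af640d42176937 = true := by decide +kernel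

theorem cB17_9_3_76 : chunkOkM (LB17_9.ctx true true 296 231 128 11 16 1561 4895 64 128) muQ true true 64 RtB17_9.Cx.left.left RtB17_9.CX RtB17_9.Ctp.right.right.left.right.right.right RtB17_9.Ce.right.right.left.right.right.right.right RtB17_9.CTp.right RtB17_9.CEr.right 0x691ed0348a8fd304196e76cb13fe637f87ac96d6f69f640d1cb55fc58fd179fc2376c8a728c68d9f630d64697693217 = true := by decide +kernel

theorem cB17_9_3_77 : chunkOkM (LB17_9.ctx true true 293 235 128 11 16 1533 2453 64 128) muQ true true 64 RtB17_9.Cx.left.right RtB17_9.CX RtB17_9.Ctp.right.right.left.right.right.left RtB17_9.Ce.right.right.left.right.right.right RtB17_9.CTp.right RtB17_9.CEr.right 0x14c39be48fd42a6bfc76c18aa7c668f8151ab78259f614016c5349f550d15fd722b8fd3cd0ebb76c15a4d7258f86f37a7498f61294d810c9f550d5975937139b7e068fd21d6e2a76ca145b267f81ab0ba5569f611895bd549f550d27a18c588fdf5a07966cc5d89a348f6e510d7a78f540d171ce2a88fd10460d576cdb67b8a98f6edc64aee8f540d6117756cb8fd82b0f666c801ec0978f6130cd3c109f540d374 =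 true := by decide +kernel

theorem cB17_9_3_78 : chunkOkM (LB17_9.ctx true true 281 59 32 11 16 777 2431 128 128) muQ true true 64 RtB17_9.Cx.left.right RtB17_9.CX RtB17_9.Ctp.right.right.left.right.right.right RtB17_9.Ce.right.right.left.right.right.right.left RtB17_9.CTp.right RtB17_9.CEr.right 0x155657718fd137e62c7f817387776a9f6a334c0b18f540d32c1373a8fd37ec10276c1c6c575c09f6bba5dcec8f540d5152bdb5b8fd176b8256b9f6bde7e50a8f530d1a8c90748fd16dad3576c1decb1f8d9f67634493d8f540d56 = true := by decide +kernel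

theorem cB17_9_3_79 : chunkOkM (LB17_9.ctx true true 294 119 64 11 16 1561 4917 128 128) muQ true true 64 RtB17_9.Cx.left.right RtB17_9.CX RtB17_9.Ctp.right.right.left.right.right.right RtB17_9.Ce.right.right.left.right.right.right.right RtB17_9.CTp.right RtB17_9.CEr.right.left 0x14f29bf68fdbb760866c2504e08099f6c6a5288a8f540d121271668fd4269c627f81cfa1c2729f6b62e18ef8f540d1cbf01ab8fd1d7390176c6b73e25609f6abf035a7f540d1e27420f8fd2291f5676c648ee1e589f630d41cf139d68fd1f8745376c27056ee5a9f6cb54c1458f540d357 = true := by decide +kernel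

theorem cB17_9_3_80 : chunkOkM (LB17_9.ctx true true 287 119 64 11 16 777 2453 128 128) muQ true true 64 RtB17_9.Cx.left.right RtB17_9.CX RtB17_9.Ctp.right.right.left.right.right.right RtB17_9.Ce.right.right.left.right.right.right.right RtB17_9.CTp.right RtB17_9.CEr.right.right 0x1b754c8e8fdee7dfb66c195fd72679f6aa37e2768f540d167942878fd111e1866c319435f649f6643855008f540d4cc70f668fd3645a2b76c2bb8bbdf19f68255fb8d8f540d57 = true := by decide +kernel

theorem cB17_9_3_81 : chunkOkM (LB17_9.ctx true true 275 63 32 11 16 749 2409 128 32) muQ true true 64 RtB17_9.Cx.right RtB17_9.CX RtB17_9.Ctp.right.right.left.right.left RtB17_9.Ce.right.right.left.right.right.left RtB17_9.CTp RtB17_9.CEr 0x15aecf248fd5a7279a76cbe818069b3abbad888f8fd041d80c9f636d26fd2ddaf460dc69b7d77fd65b04767f8e74db0388f617a7e5ec89f540ddf095397fd8dfcdc66c1e47e8b79b19a73ac829f620cce9fee9f550d4255a224ee47fda8418866cd1563517f8c4cfd1678f622ea8c5ff9f5358534608f460d9bbd8d57fdb4a09c66cd62b2517f818b669d9f9f622ff7ae939f550d4c94c1a27fdbae3f066cd2eb1b69b29e5504ec9f62e6bfd6629f550d425537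 = true := by decide +kernel

theorem cB17_9_3_82 : chunkOkM (LB17_9.ctx true true 283 123 64 11 16 749 2453 128 32) muQ true true 64 RtB17_9.Cx.right.left RtB17_9.CX RtB17_9.Ctp.right.right.left.right.left RtB17_9.Ce.right.right.left.right.right.right RtB17_9.CTp RtB17_9.CEr 0xb95be9a7fd6f8c14c7f816dc77e399f62320d72379f540d9faf90d7fdc4fb7c66cc13ec0e7f83b4cea1a49f62dbbf10749f550dcb530447fd42fd4c66c60e30a67f8165b62f099f61f0c381d19f550d74e3af3cc7fda5a93166c14c880979b15252e9f19f620765745d9f550d42558b3bf6a7fd1eefae876cb7d5f137f8ff0fd371c6af52a9a3984b22bf450d7ebfaf67fd962b5c66cda1804c7f81eb9b7ff59f62bd9c5dfa9f51be6914b8f460dfa787847fd18c155076c87cb9e69b29e3a5c8b9f635c1c10799f51738a817f460d545973 = true := by decide +kernel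

theorem cB17_9_3_83 : chunkOkM (LB17_9.ctx true true 271 63 32 11 16 749 2453 64 32) muQ true true 64 RtB17_9.Cx.right.right RtB17_9.CX RtB17_9.Ctp.right.right.left.right.left RtB17_9.Ce.right.right.left.right.right.right RtB17_9.CTp RtB17_9.CEr 0x6badfbd7fd12006766c7e51bb97f81f98dc30f9f629f91cddb9f550dd409fb07fdbee69b66ce8a3bd69b261bd208e9f62b5eabab79f5257f55f460d5694493 = true := by decide +kernel

theorem cB17_9_3_84 : chunkOkM (LB17_9.ctx true true 285 61 32 21 32 763 1221 256 64) muQ true true 64 RtB17_9.Cx.right RtB17_9.CX RtB17_9.Ctp.right.right.left.right.right RtB17_9.Ce.right.right.left.right.right RtB17_9.CTp RtB17_9.CEr 0x6969fe071527fdbef2e56c171c6494d9f614ca34f449f540d3fb042c98fde53ccbfd8f61694242649f530d64ab9fc6bf7fd14c195379b2dbbf6a7f81a75fb7f49f6190fe15a09f550d84a5425576943 = true := by decide +kernel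

theorem cB17_9_3_85 : chunkOkM (LB17_9.ctx true true 104 1 1 1 1 1 1 1 1) muQ true true 64 RtB17_9.Cx RtB17_9.CX RtB17_9.Ctp.right.right.right.left RtB17_9.Ce.right.right.left.left RtB17_9.CTp RtB17_9.CEr 0x11 = true := by decide +kernel

theorem cB17_9_3_86 : chunkOkM (LB17_9.ctx true true 104 1 1 1 1 1 1 1 1) muQ true true 64 RtB17_9.Cx RtB17_9.CX RtB17_9.Ctp.right.right.right.left.left RtB17_9.Ce.right.right.left.right.left RtB17_9.CTp RtB17_9.CEr 0x11 = true := by decide +kernel

theorem cB17_9_3_87 : chunkOkM (LB17_9.ctx true true 104 1 1 1 1 1 1 1 1) muQ true true 64 RtB17_9.Cx.left RtB17_9.CX RtB17_9.Ctp.right.right.right.left.left RtB17_9.Ce.right.right.left.right.right RtB17_9.CTp.left.left RtB17_9.CEr 0x42 = true := by decide +kernel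

theorem cB17_9_3_88 : chunkOkM (LB17_9.ctx true true 104 1 1 1 1 1 1 1 1) muQ true true 64 RtB17_9.Cx.left RtB17_9.CX RtB17_9.Ctp.right.right.right.left.left RtB17_9.Ce.right.right.left.right.right RtB17_9.CTp.left.right.left RtB17_9.CEr 0x4a = true := by decide +kernel

end Vale.Agent.helper4.Q4
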