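import Vale.Agent.helper4.Q4TreeM
import Vale.Agent.helper4.Q4G.PB17_9

/-!
Checks for pairs of intervals of second moments.
-/

set_option maxRecDepth 100000
set_option linter.unusedVariables false

namespace Vale.Agent.helper4.Q4

theorem cB17_9_3_89 : chunkOkM (LB17_9.ctx true true 303 115 64 21 32 791 4917 256 256) muQ true true 64 RtB17_9.Cx.left RtB17_9.CX.left RtB17_9.Ctp.right.right.right.left.left RtB17_9.Ce.right.right.left.right.right RtB17_9.CTp.left.right.right RtB17_9.CEr.left 0x3334e7c3c9f06b012c5529c18fd2e77ac776ca8809d69b3e085b5409f6512327488f250d4663469e8fd54d54b576c51fbe169b373b2492f9f6429a61ec8f250d44278b0de8fd447c28a76cb73c4f69b3239f11029f6978e7a07f250d433f796768fd3c67cb376c64867269ba2782ef18f614bbeb8299f250d7373d7ec1958fd41cbabd76cc329bb69b1fdd78248f6f0777efd8f250d46a6126 = true := by decide +kernel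

theorem cB17_9_3_90 : chunkOkM (LB17_9.ctx true true 314 115 64 21 32 791 2453 1024 1024) muQ true true 64 RtB17_9.Cx.left RtB17_9.CX.left RtB17_9.Ctp.right.right.right.left.left RtB17_9.Ce.right.right.left.right.right RtB17_9.CTp.left.right.right RtB17_9.CEr.right 0x525a5a5af3ab4ffc8f06b012be5ea2fc9fd2f4b69d186c520e2b69b2be9a4df69f636aad8448f250d222328d399f06b4462a70f76c6ab45269b105bfb9289f614079c18b9f240d737b5f767888f02b465a565a566 = true := by decide +kernel

theorem cB17_9_3_91 : chunkOkM (LB17_9.ctx true true 104 1 1 1 1 1 1 1 1) muQ true true 64 RtB17_9.Cx.left RtB17_9.CX.right RtB17_9.Ctp.right.right.right.left.left RtB17_9.Ce.right.right.left.right.right RtB17_9.CTp.left.right.right RtB17_9.CEr 0x4a = true := by decide +kernel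

theorem cB17_9_3_92 : chunkOkM (LB17_9.ctx true true 334 115 64 41 64 791 2453 4096 4096) muQ true true 64 RtB17_9.Cx.left RtB17_9.CX RtB17_9.Ctp.right.right.right.left.left RtB17_9.Ce.right.right.left.right.right RtB17_9.CTp.right RtB17_9.CEr.left 0x1212126a6a6a4a6a46d30e788f06b0129c03f1f19f06b1041e2f009f02b4190908cb89f02b737a73bd4238f02b4885556a66a66a6512612651265 = true := by decide +kernel

theorem cB17_9_3_93 : chunkOkM (LB17_9.ctx true true 288 113 64 11 16 1575 1199 128 128) muQ true true 64 RtB17_9.Cx.left.left RtB17_9.CX RtB17_9.Ctp.right.right.right.left.left.left RtB17_9.Ce.right.right.left.right.right.left RtB17_9.CTp.right RtB17_9.CEr.right 0x69011b0a36258fd4e717866c5368189d8f6ddc449108f240d4ce75c418fd3c3d93c76c3d44b9ea8f6ec6e600a8f240d53ed7515c8fd56f0c01d8f6e65ff0f98f230d2585d3148fd315849276c10d5094fa9f6c42348a78f240d5637 = true := by decide +kernel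

theorem cB17_9_3_94 : chunkOkM (LB17_9.ctx true true 300 227 128 11 16 1575 4873 128 128) muQ true true 64 RtB17_9.Cx.left.left.left RtB17_9.CX RtB17_9.Ctp.right.right.right.left.left.left RtB17_9.Ce.right.right.left.right.right.right RtB17_9.CTp.right.left RtB17_9.CEr.right.left 0x21011dd5128e8fd23e062676c47fcb1b78b6988ec3e89f69f9e83818f250d25bb67048fd35671beb85c41b2aa17e9f654bd22788f240d432174 = true := by decide +kernel

theorem cB17_9_3_95 : chunkOkM (LB17_9.ctx true true 303 231 128 11 16 1589 4917 128 256) muQ true true 64 RtB17_9.Cx.left.left.right RtB17_9.CX RtB17_9.Ctp.right.right.right.left.left.left RtB17_9.Ce.right.right.left.right.right.right RtB17_9.CTp.right.left RtB17_9.CEr.right.left 0x2459dfc58fd2f5694976c1aa422ed19f6c1a3c7228f240d223845098fd2d90803385c6a1e67bdd9f630d6972450a3398fd325f8a876c4ccd5e7ad9f630d248e7aab8fd31152bcf85c463e0697d9f6379795408f240d743306b4a1e8fd3836b4876c38bc2abbe9f63dd1c88f8f240d2de6990e8fd35f683676c34377e4c29f6411477668f240d624d0fcaf8fd325afb576c41db086839f630d44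 = true := by decide +kernel

theorem cB17_9_3_96 : chunkOkM (LB17_9.ctx true true 295 57 32 11 16 791 2453 512 512) muQ true true 64 RtB17_9.Cx.left.left RtB17_9.CX RtB17_9.Ctp.right.right.right.left.left.left RtB17_9.Ce.right.right.left.right.right.right RtB17_9.CTp.right.right RtB17_9.CEr.right.left 0x126a22449a538fd283d258f39f6277a211d8f230d59402a218fd1bd3e929f9f66e64e6788f230d456a65126 = true := by decide +kernel

theorem cB17_9_3_97 : chunkOkM (LB17_9.ctx true true 301 115 64 11 16 791 2453 512 512) muQ true true 64 RtB17_9.Cx.left.left RtB17_9.CX RtB17_9.Ctp.right.right.right.left.left.left RtB17_9.Ce.right.right.left.right.right.right RtB17_9.CTp.right RtB17_9.CEr.right.right 0x15db84dc8fd1805916f835a1019ad9f63021eba68f240d2171622f8118fd17fc2566c16f879d7e9f6695406ed8f240d45a5a17d565548fdf21b3f66c2abc103d99f665a067518f240d730b4066c2298138229f63d08cf648f230d465a565a55 = true := by decide +kernel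

theorem cB17_9_3_98 : chunkOkM (LB17_9.ctx true true 104 1 1 1 1 1 1 1 1) muQ true true 64 RtB17_9.Cx.left.left RtB17_9.CX RtB17_9.Ctp.right.right.right.left.left.right RtB17_9.Ce.right.right.left.right.right RtB17_9.CTp.right RtB17_9.CEr.right 0x01 = true := by decide +kernel

theorem cB17_9_3_99 : chunkOkM (LB17_9.ctx true true 281 59 32 11 16 791 2453 128 128) muQ true true 64 RtB17_9.Cx.left.right RtB17_9.CX RtB17_9.Ctp.right.right.right.left.left RtB17_9.Ce.right.right.left.right.right RtB17_9.CTp.right RtB17_9.CEr.right 0x11161f82a28fd2a93c16f8399a56eef9f630d387499ad8fd2cdc69e76c34cc197659f630d5178626028f06c20178b1e8fd23d30c376c43b28b4f99f630d569461143 = true := by decide +kernel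

theorem cB17_9_3_100 : chunkOkM (LB17_9.ctx true true 104 1 1 1 1 1 1 1 1) muQ true true 64 RtB17_9.Cx.right RtB17_9.CX RtB17_9.Ctp.right.right.right.left.left RtB17_9.Ce.right.right.left.right.right RtB17_9.CTp RtB17_9.CEr 0x11 = true := by decide +kernel

theorem cB17_9_3_101 : chunkOkM (LB17_9.ctx true true 104 1 1 1 1 1 1 1 1) muQ true true 64 RtB17_9.Cx RtB17_9.CX RtB17_9.Ctp.right.right.right.left.right RtB17_9.Ce.right.right.left.right RtB17_9.CTp RtB17_9.CEr 0x11 = true := by decide +kernel

theorem cB17_9_3_102 : chunkOkM (LB17_9.ctx true true 104 1 1 1 1 1 1 1 1) muQ true true 64 RtB17_9.Cx RtB17_9.CX RtB17_9.Ctp.right.right.right.right RtB17_9.Ce.right.right.left RtB17_9.CTp RtB17_9.CEr 0x01 = true := by decide +kernel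

theorem cB17_9_3_103 : chunkOkM (LB17_9.ctx true true 104 1 1 1 1 1 1 1 1) muQ true true 64 RtB17_9.Cx RtB17_9.CX RtB17_9.Ctp.right.right.left.left RtB17_9.Ce.right.right.right RtB17_9.CTp RtB17_9.CEr 0x59 = true := by decide +kernel

theorem cB17_9_3_104 : chunkOkM (LB17_9.ctx true true 104 1 1 1 1 1 1 1 1) muQ true true 64 RtB17_9.Cx.left RtB17_9.CX RtB17_9.Ctp.right.right.left.right.left RtB17_9.Ce.right.right.right.left.left RtB17_9.CTp RtB17_9.CEr 0x59 = true := by decide +kernel

theorem cB17_9_3_105 : chunkOkM (LB17_9.ctx true true 104 1 1 1 1 1 1 1 1) muQ true true 64 RtB17_9.Cx.left.left RtB17_9.CX RtB17_9.Ctp.right.right.left.right.right RtB17_9.Ce.right.right.right.left.left RtB17_9.CTp RtB17_9.CEr 0x59 = true := by decide +kernel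

end Vale.Agent.helper4.Q4
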