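import Vale.Agent.helper4.Q4TreeM
import Vale.Agent.helper4.Q4G.PB17_9

/-!
Checks for pairs of intervals of second moments.
-/

set_option maxRecDepth 100000
set_option linter.unusedVariables false

namespace Vale.Agent.helper4.Q4

theorem cB17_9_3_106 : chunkOkM (LB17_9.ctx true true 356 1919 1024 21 32 25081 40139 256 256) muQ true true 64 RtB17_9.Cx.left.right RtB17_9.CX RtB17_9.Ctp.right.right.left.right.right RtB17_9.Ce.right.right.right.left.left RtB17_9.CTp.left RtB17_9.CEr 0x4a595959595941c05c13904edf8f06c6593459359745975934597593459759359745935c0872928fd71911f776ca89c49bf8e2c5188f6fa6a1d998f550d299509488fd29c6b6676c11f2c469bf8a76a528f6126e991269f550d427765b88fd38cacfb76c112750d79bf4b6a8d08f6f3fd8f638f550d35a924738fd364441176c7daf0269b2bde7997e9f68801cc6f8f550d7419c1839029f05b36a61266484a5425 = true := by decide +kernel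

theorem cB17_9_3_107 : chunkOkM (LB17_9.ctx true true 267 59 32 11 16 385 1243 64 64) muQ true true 64 RtB17_9.Cx.left.right RtB17_9.CX RtB17_9.Ctp.right.right.left.right.right RtB17_9.Ce.right.right.right.left.left.left RtB17_9.CTp.right RtB17_9.CEr.left 0x310cb0cf8fde834bc808f611cd502a69f530d = true := by decide +kernel

theorem cB17_9_3_108 : chunkOkM (LB17_9.ctx true true 271 59 32 11 16 763 1243 64 64) muQ true true 64 RtB17_9.Cx.left.right RtB17_9.CX RtB17_9.Ctp.right.right.left.right.right.left RtB17_9.Ce.right.right.right.left.left.left RtB17_9.CTp.right RtB17_9.CEr.right 0x10123b0c8fd21c55366cb6eb04ba8f6156c8646d9f540d = true := by decide +kernel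

theorem cB17_9_3_109 : chunkOkM (LB17_9.ctx true true 294 117 64 11 16 1561 4961 128 128) muQ true true 64 RtB17_9.Cx.left.right.left RtB17_9.CX RtB17_9.Ctp.right.right.left.right.right.right RtB17_9.Ce.right.right.right.left.left.left.left RtB17_9.CTp.right RtB17_9.CEr.right 0x158586068fda62f46c16a1892329f6b74801a98f540dd7fe2477fd1faaa7a76c4e0b538589f630d518eabca98fdddc23e66c11d50982a9f6112631c649f540d3147721728fd1fbe543769f6b2a9045e8f530d24b36b458fd222888776cc11224d809f630d1d21f5c28fd1f1c9f776c53124e2069f6430bf4c48f540d451e775eaa8fd111ec9876c15361e0b39f6f58d8de28f540d36 = true := by decide +kernel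

theorem cB17_9_3_110 : chunkOkM (LB17_9.ctx true true 291 119 64 11 16 1561 2475 128 128) muQ true true 64 RtB17_9.Cx.left.right.right RtB17_9.CX RtB17_9.Ctp.right.right.left.right.right.right RtB17_9.Ce.right.right.right.left.left.left.left RtB17_9.CTp.right RtB17_9.CEr.right 0x18e6244e8fd164bd666c1db5a57289f6a6410f238f540dba558137fd1f31edb76c412e0e4909f68e5613da8f540d517ca102e8fd112483d76c37b298a38f610a0fc9fa9f540d313fa8b6d8fdf9c25aa58f6e46925648f530d1ff6a1268fd248ddba76c139bf4f3b9f6e3f431fa8f540d56 = true := by decide +kernel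

theorem cB17_9_3_111 : chunkOkM (LB17_9.ctx true true 294 119 64 11 16 1561 5005 128 128) muQ true true 64 RtB17_9.Cx.left.right RtB17_9.CX RtB17_9.Ctp.right.right.left.right.right.right RtB17_9.Ce.right.right.right.left.left.left.right RtB17_9.CTp.right RtB17_9.CEr.right 0x18f439ad8fd33f9d7776c1063f2a58f8b08232c38f6ff9475a68f550d1b1130688fd25d906376c9363ed57f8268243cc49f6b4b1f6d68f550d41157498e8fd457ff467f81530f503c9f6fbe9f64e8f540d1d59aedb8fd1f6e6cc76ca179d6248f610cbcab2c9f540d5613c031778fd39cca2d76c155e4afa8f8874262ca8f613774fe019f550d3697 = true := by decide +kernel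

theorem cB17_9_3_112 : chunkOkM (LB17_9.ctx true true 339 1919 1024 11 16 25081 40139 64 128) muQ true true 64 RtB17_9.Cx.left.right RtB17_9.CX RtB17_9.Ctp.right.right.left.right.right RtB17_9.Ce.right.right.right.left.left.right RtB17_9.CTp.right RtB17_9.CEr 0x59595959591622d6ed8fda693b3375ca9a8c8098f530d171ed3348fdd2b72d475c1218a8cbc9f530d61886812d8f06c659345935974597593459759345975935974593 = true := by decide +kernel

theorem cB17_9_3_113 : chunkOkM (LB17_9.ctx true true 281 123 64 11 16 1505 2475 64 32) muQ true true 64 RtB17_9.Cx.right.left RtB17_9.CX RtB17_9.Ctp.right.right.left.right.left RtB17_9.Ce.right.right.right.left.left.left RtB17_9.CTp RtB17_9.CEr 0x598c8783e7fdaaba5137f84ab14f6089f6309407f299f540d10b3b5708fd14feabe76c13b8a0179b1eef9d0f09f626397f3f89f550d55934597593 = true := by decide +kernel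

theorem cB17_9_3_114 : chunkOkM (LB17_9.ctx true true 104 1 1 1 1 1 1 1 1) muQ true true 64 RtB17_9.Cx.right.right RtB17_9.CX RtB17_9.Ctp.right.right.left.right.left.left RtB17_9.Ce.right.right.right.left.left.left RtB17_9.CTp RtB17_9.CEr 0x49 = true := by decide +kernel

theorem cB17_9_3_115 : chunkOkM (LB17_9.ctx true true 290 249 128 11 16 1505 4939 64 32) muQ true true 64 RtB17_9.Cx.right.right RtB17_9.CX RtB17_9.Ctp.right.right.left.right.left.right RtB17_9.Ce.right.right.right.left.left.left.left RtB17_9.CTp RtB17_9.CEr 0x96bf7329a9f04b80d9ce07fd7b7c7166caf7cffc7f84c6661ea59f6386e0d9d99f550daba9a227fd7854f866c128978779b385b8a04c9f633d107c609f550d5495969b28917fdd58bfd66cf59cbab7f883ac668209f64dec13dde9f550dbf63b887fdde3b9f775c71ccdba78b2cf8b6c549f62e9f2289c9f550d54737 = true := by decide +kernel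

theorem cB17_9_3_116 : chunkOkM (LB17_9.ctx true true 281 127 64 11 16 1505 2497 64 32) muQ true true 64 RtB17_9.Cx.right.right RtB17_9.CX RtB17_9.Ctp.right.right.left.right.left.right RtB17_9.Ce.right.right.right.left.left.left.right RtB17_9.CTp RtB17_9.CEr 0xa15bdec7fd245033276c17bbd8588f822d05de129f6279e01b559f529f09803b9f460d65b808a7fdbab05917f82e8a31a529f62eebd74cd9f540db520e087fd104d63c76c61fbcc69b2b7e602649f635494a8fa9f550d55937 = true := by decide +kernel

end Vale.Agent.helper4.Q4
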