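import Vale.Agent.helper4.Q4TreeM
import Vale.Agent.helper4.Q4G.PB17_9

/-!
Checks for pairs of intervals of second moments.
-/

set_option maxRecDepth 100000
set_option linter.unusedVariables false

namespace Vale.Agent.helper4.Q4

theorem cB17_9_3_117 : chunkOkM (LB17_9.ctx true true 256 31 16 11 16 371 1265 32 32) muQ true true 64 RtB17_9.Cx.right RtB17_9.CX RtB17_9.Ctp.right.right.left.right.left RtB17_9.Ce.right.right.right.left.left.right RtB17_9.CTp RtB17_9.CEr 0xee240b6fdb87b3566c150e06988f8114dd71bf6af6b2514dd14eaf51e7d7962270bf460d = true := by decide +kernel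

theorem cB17_9_3_118 : chunkOkM (LB17_9.ctx true true 288 61 32 21 32 777 2497 256 64) muQ true true 64 RtB17_9.Cx.right.left RtB17_9.CX RtB17_9.Ctp.right.right.left.right.right RtB17_9.Ce.right.right.right.left.left.left RtB17_9.CTp.left RtB17_9.CEr 0x4a9a88a857fd1e4c9e776c102ebb2cd9f530d20657d008fd1b6cab479b262eb3e7f8ee1406eb8f61247497509f550d69a52fe77fd66587469b9bb04e6f8f1bd4f838f61dbca9b169f550dbc677bc7fd106ab3679b24ae0887f814da223679f619cc3647b9f550d4384a5425 = true := by decide +kernel

theorem cB17_9_3_119 : chunkOkM (LB17_9.ctx true true 274 61 32 11 16 763 2497 64 64) muQ true true 64 RtB17_9.Cx.right.left RtB17_9.CX RtB17_9.Ctp.right.right.left.right.right.left RtB17_9.Ce.right.right.right.left.left.left RtB17_9.CTp.right RtB17_9.CEr 0xd6155f27fd478946c878969d98f61832b008b9f540d34e339c88fd30dcf6c7f617739279a9f530d613b624498fd399185276c1797d0038f8a20190058f61667d0faa9f550d36d3017a8fd1038d80ed9f616f7e425f9f530d64 = true := by decide +kernel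

theorem cB17_9_3_120 : chunkOkM (LB17_9.ctx true true 287 123 64 11 16 1561 2497 64 128) muQ true true 64 RtB17_9.Cx.right.left RtB17_9.CX RtB17_9.Ctp.right.right.left.right.right.right RtB17_9.Ce.right.right.right.left.left.left RtB17_9.CTp.right RtB17_9.CEr 0xef1391e7fda4e3956c328c1cafd9f6185fb40c89f540d18aaab7b8fdfc2fb066c1ae7192499f6e8338fa98f540d13e8bcae8fd5fd46266c1f8ac331d9f6f6d3b4d08f540d613483f958fd2c8d46676cfb90dec7f86111d18e8f6133f412149f550d3712f447c68fd1ba2a3f76c8bdbd1f7f8170d6728a9f6e62ee0e88f550d44295c4348fdc900353f8f6134b70e3b9f530d6 = true := by decide +kernel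

theorem cB17_9_3_121 : chunkOkM (LB17_9.ctx true true 268 63 32 11 16 763 1243 64 32) muQ true true 64 RtB17_9.Cx.right.right RtB17_9.CX RtB17_9.Ctp.right.right.left.right.right RtB17_9.Ce.right.right.right.left.left.left RtB17_9.CTp RtB17_9.CEr 0x69997f6db7fd842984f7f827c08515f9f6227ed47299f540dbf386967fd87f6a966c1df486579b1fd2a54299f622f5fd5339f550d53 = true := by decide +kernel

theorem cB17_9_3_122 : chunkOkM (LB17_9.ctx true true 290 247 128 11 16 1533 5027 64 32) muQ true true 64 RtB17_9.Cx.right.left RtB17_9.CX RtB17_9.Ctp.right.right.left.right.right.left RtB17_9.Ce.right.right.right.left.left.right RtB17_9.CTp RtB17_9.CEr 0x5959c52fd6d7fdafbcd59b72db19f7f84b18bd75c9f627a8988c19f550df1821867fd13fc58376c1683def79b899a981a8f620d0ad8219f550d545975934597 = true := by decide +kernel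

theorem cB17_9_3_123 : chunkOkM (LB17_9.ctx true true 288 61 32 21 32 777 2541 256 64) muQ true true 64 RtB17_9.Cx.right.left RtB17_9.CX RtB17_9.Ctp.right.right.left.right.right.right RtB17_9.Ce.right.right.right.left.left.right RtB17_9.CTp.left RtB17_9.CEr 0x4abc0a5bf76c193f0ec3d9f520d2528fca18fd190bddb76ccef8f2f98f6169cc5b169f540d69f1504576c13551d2549f520d1e9055638fd6081f066c10905d4509f613cbb603d9f540d6484a5425 = true := by decide +kernel

theorem cB17_9_3_124 : chunkOkM (LB17_9.ctx true true 287 123 64 11 16 1561 2541 64 128) muQ true true 64 RtB17_9.Cx.right.left RtB17_9.CX RtB17_9.Ctp.right.right.left.right.right.right RtB17_9.Ce.right.right.right.left.left.right RtB17_9.CTp.right RtB17_9.CEr 0x1170a3328fd4136fd676c1a6bdfb48f8ea99d7d18f616ac60fb79f550d10ad229c8fd153382376c627d5b27f8123ba18009f6136e305bb9f550d16d7314b8fdd1d6a966cc4f54f3c8f6fc805b008f540d1729b71d8fdf8eecd66c6dcc69128f611e0e83dd9f540d6f4faf357fd24bfd066c91e95ade8f614fa4f5119f540d374647ba59c8fd4b7fd80f8f61557cbcd49f530d6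 = true := by decide +kernel

theorem cB17_9_3_125 : chunkOkM (LB17_9.ctx true true 277 127 64 11 16 763 2519 64 32) muQ true true 64 RtB17_9.Cx.right.right RtB17_9.CX RtB17_9.Ctp.right.right.left.right.right.left RtB17_9.Ce.right.right.right.left.left.right.left RtB17_9.CTp RtB17_9.CEr 0x775cfc07fda5a1e3e7f8388c2a6cc9f62bbf951699f540d8a201487fd577bae66cef1d2869b4588714129f6367c764f29f550d5a3ffb127fd77c233b7f834c2c54929f62b85faf209f540dc80e9d77fd1066d9d76c1650c7d79b1bc060b3b9f6262fabac19f550d57 = true := by decide +kernel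

theorem cB17_9_3_126 : chunkOkM (LB17_9.ctx true true 287 251 128 11 16 1533 2541 64 32) muQ true true 64 RtB17_9.Cx.right.right RtB17_9.CX RtB17_9.Ctp.right.right.left.right.right.left RtB17_9.Ce.right.right.right.left.left.right.right RtB17_9.CTp RtB17_9.CEr 0xc3d92dc7fd1df8c1876c16c027e58f81b9fd10869f625577a8f39f550d792752f7fdf9825669b2280276f830d3e42459f62a9bebe859f550d583ed74e7fd1cd0e7776c135a2b058f84e45af0309f64558a1b459f54d78f4b18f460d392133957fd8231b9a7f82ed8ed97c9f62a6a63eef9f540d9b151927fd50694d66c10dff9479b25935b0cf9f62918756e29f550d55975937 = true := by decide +kernel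

theorem cB17_9_3_127 : chunkOkM (LB17_9.ctx true true 289 127 64 11 16 777 2541 256 64) muQ true true 64 RtB17_9.Cx.right.right RtB17_9.CX RtB17_9.Ctp.right.right.left.right.right.right RtB17_9.Ce.right.right.right.left.left.right RtB17_9.CTp RtB17_9.CEr 0x92c125f7fdb881ba37f86ba13616f9f62d6f083999f540de3145a07fde215f566c54cf7a57f815b848bad9f617a299d509f550d43ad057a8fd1573d2b1c9f619179c73a9f530d67c4ae11b7fd77656627f81e0fe09669f616e3e29369f540d499a488f7fd128e71179b1c3c9dc649f61d044baf99f540d4a54255 = true := by decide +kernel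

theorem cB17_9_3_128 : chunkOkM (LB17_9.ctx true true 104 1 1 1 1 1 1 1 1) muQ true true 64 RtB17_9.Cx RtB17_9.CX RtB17_9.Ctp.right.right.left.right.left RtB17_9.Ce.right.right.right.left.right RtB17_9.CTp RtB17_9.CEr 0x59 = true := by decide +kernel

theorem cB17_9_3_129 : chunkOkM (LB17_9.ctx true true 104 1 1 1 1 1 1 1 1) muQ true true 64 RtB17_9.Cx.left RtB17_9.CX RtB17_9.Ctp.right.right.left.right.right RtB17_9.Ce.right.right.right.left.right RtB17_9.CTp RtB17_9.CEr 0x59 = true := by decide +kernel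

end Vale.Agent.helper4.Q4
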