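import Vale.Agent.helper4.Q4TreeM
import Vale.Agent.helper4.Q4G.PB17_9

/-!
Checks for pairs of intervals of second moments.
-/

set_option maxRecDepth 100000
set_option linter.unusedVariables false

namespace Vale.Agent.helper4.Q4

theorem cB17_9_3_130 : chunkOkM (LB17_9.ctx true true 314 495 256 11 16 6265 10219 128 64) muQ true true 64 RtB17_9.Cx.right.left RtB17_9.CX RtB17_9.Ctp.right.right.left.right.right RtB17_9.Ce.right.right.right.left.right.left RtB17_9.CTp RtB17_9.CEr 0x595959e886d5e7fd14b68117f91aafb617f81401c14179f540d7dacb5a38f822b3274789f520d6af3bf0f7fd386a9ad75c11eba1df88b1edb44bff9f540d4255593459759345975934597593 = true := by decide +kernel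

theorem cB17_9_3_131 : chunkOkM (LB17_9.ctx true true 267 63 32 11 16 763 2563 32 32) muQ true true 64 RtB17_9.Cx.right.right RtB17_9.CX RtB17_9.Ctp.right.right.left.right.right.left RtB17_9.Ce.right.right.right.left.right.left RtB17_9.CTp RtB17_9.CEr 0x59a928ee57fd13c245276c6924259bc7963997f838430062a9f63455559b39f560d4 = true := by decide +kernel

theorem cB17_9_3_132 : chunkOkM (LB17_9.ctx true true 285 127 64 11 16 777 2563 128 64) muQ true true 64 RtB17_9.Cx.right.right RtB17_9.CX RtB17_9.Ctp.right.right.left.right.right.right RtB17_9.Ce.right.right.right.left.right.left.left RtB17_9.CTp RtB17_9.CEr 0xa9e11bd7fd9123a777f838896b3cd9f622d686c899f540d9b71e257fd74119066c17cabe079b33ab6113a9f625d44586a9f550d5c5941c57fdc33d166f81b7f646f7c616ee058f619d213bdb9f550d1a548e038fd1021c229a9f61ae65fbf49f530d6ab33e527fd1f619766c135de3879b15b44d7d59f61d900528a9f550d42557 = true := by decide +kernel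

theorem cB17_9_3_133 : chunkOkM (LB17_9.ctx true true 307 503 256 11 16 3129 10307 64 64) muQ true true 64 RtB17_9.Cx.right.right RtB17_9.CX RtB17_9.Ctp.right.right.left.right.right.right RtB17_9.Ce.right.right.right.left.right.left.right RtB17_9.CTp RtB17_9.CEr 0xc5cf4c47fd404a42b76c1ebbfa6a8f8116300c6f9f61c18ae7319f550d2749796e8fd56c038558f61a7e9d9da9f530d6a81742e7fd535991575c1516fc079b160b935fc9f61ed4d30a49f550d5ac4d15b7fdaeaac766c2b934d69b951e8427f83dbf009409f6308f9b0679f560d59735959c3573537fd527b7169baf115377f833da60c4b9f620ad83f139f550dafb8f607fd6e46a7d75c15a5f99688b1f662d4869f540d5459759345975937 = true := by decide +kernel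

theorem cB17_9_3_134 : chunkOkM (LB17_9.ctx true true 295 255 128 11 16 3129 5203 64 32) muQ true true 64 RtB17_9.Cx.right RtB17_9.CX RtB17_9.Ctp.right.right.left.right.right RtB17_9.Ce.right.right.right.left.right.right RtB17_9.CTp RtB17_9.CEr 0x5959b927c4b7fdd1cc9d66c126dfc8f8f89d177fb4f9f636afa03499f550d724d2117fdccd99cb78b2955c967f9f62452243699f540d559345975934597597593 = true := by decide +kernel

theorem cB17_9_3_135 : chunkOkM (LB17_9.ctx true true 104 1 1 1 1 1 1 1 1) muQ true true 64 RtB17_9.Cx RtB17_9.CX RtB17_9.Ctp.right.right.left.right RtB17_9.Ce.right.right.right.right RtB17_9.CTp RtB17_9.CEr 0x59 = true := by decide +kernel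

theorem cB17_9_3_136 : chunkOkM (LB17_9.ctx true true 104 1 1 1 1 1 1 1 1) muQ true true 64 RtB17_9.Cx.left RtB17_9.CX RtB17_9.Ctp.right.right.right.left.left RtB17_9.Ce.right.right.right.left.left RtB17_9.CTp.left.left RtB17_9.CEr 0x42 = true := by decide +kernel

theorem cB17_9_3_137 : chunkOkM (LB17_9.ctx true true 104 1 1 1 1 1 1 1 1) muQ true true 64 RtB17_9.Cx.left RtB17_9.CX RtB17_9.Ctp.right.right.right.left.left RtB17_9.Ce.right.right.right.left.left RtB17_9.CTp.left.right.left RtB17_9.CEr 0x4a = true := by decide +kernel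

theorem cB17_9_3_138 : chunkOkM (LB17_9.ctx true true 104 1 1 1 1 1 1 1 1) muQ true true 64 RtB17_9.Cx.left RtB17_9.CX.left RtB17_9.Ctp.right.right.right.left.left RtB17_9.Ce.right.right.right.left.left RtB17_9.CTp.left.right.right RtB17_9.CEr.left.left 0x12 = true := by decide +kernel

theorem cB17_9_3_139 : chunkOkM (LB17_9.ctx true true 104 1 1 1 1 1 1 1 1) muQ true true 64 RtB17_9.Cx.left RtB17_9.CX.left RtB17_9.Ctp.right.right.right.left.left RtB17_9.Ce.right.right.right.left.left RtB17_9.CTp.left.right.right RtB17_9.CEr.left.right.left 0x6a = true := by decide +kernel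

theorem cB17_9_3_140 : chunkOkM (LB17_9.ctx true true 309 231 128 21 32 791 4939 256 256) muQ true true 64 RtB17_9.Cx.left.left RtB17_9.CX.left RtB17_9.Ctp.right.right.right.left.left RtB17_9.Ce.right.right.right.left.left.left RtB17_9.CTp.left.right.right RtB17_9.CEr.left.right.right 0x2121013db3c17f8fd3d5a7b676c84c42d69b493d43bba9f6991d95b68f250d342174217 = true := by decide +kernel

theorem cB17_9_3_141 : chunkOkM (LB17_9.ctx true true 304 119 64 21 32 1589 2497 256 256) muQ true true 64 RtB17_9.Cx.left.right RtB17_9.CX.left RtB17_9.Ctp.right.right.right.left.left RtB17_9.Ce.right.right.right.left.left.left RtB17_9.CTp.left.right.right RtB17_9.CEr.left.right.right 0x4475d4bc8fd5b06d9f76c3ebad1008f6109e740fd9f240d329940ab8fd328c81c76c6ef63b69b2dc2e8af59f65cce26338f550d2f3938ce8fd35df73076c6566a569b45051cf869f635f098a48f250d3c707f8d8fd491583476c7cadf22dd9f630d370448d464f8fd4f735c876c80c87769b50243657c9f619ee39728f250d371f36518fd373113976c8ea72e69b475c0e4509f640d3743 = true := by decide +kernel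

theorem cB17_9_3_142 : chunkOkM (LB17_9.ctx true true 104 1 1 1 1 1 1 1 1) muQ true true 64 RtB17_9.Cx.left.left RtB17_9.CX.left RtB17_9.Ctp.right.right.right.left.left RtB17_9.Ce.right.right.right.left.left.right RtB17_9.CTp.left.right.right RtB17_9.CEr.left.right.right 0x21 = true := by decide +kernel

theorem cB17_9_3_143 : chunkOkM (LB17_9.ctx true true 304 119 64 21 32 1589 2541 256 256) muQ true true 64 RtB17_9.Cx.left.right RtB17_9.CX.left RtB17_9.Ctp.right.right.right.left.left.left RtB17_9.Ce.right.right.right.left.left.right RtB17_9.CTp.left.right.right RtB17_9.CEr.left.right.right 0x29f7b19d8fd2d4b5cf76c58f8c169b51d4794b99f6586387ed8f550d26e34b788fd2c910be76c4ab4c769b5b79316869f640d32ed75978fd39d718976c638e6469b14b9f97009f6d15f0bcc8f550d34697 = true := by decide +kernel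

theorem cB17_9_3_144 : chunkOkM (LB17_9.ctx true true 307 119 64 21 32 1617 5093 256 256) muQ true true 64 RtB17_9.Cx.left.right RtB17_9.CX.left RtB17_9.Ctp.right.right.right.left.left.right RtB17_9.Ce.right.right.right.left.left.right RtB17_9.CTp.left.right.right RtB17_9.CEr.left.right.right 0x2595336e8fd242d08576c115622979b21fada03e9f68855d06f8f250d35ceb7c38fd3543dab76ca9698069b658747dd79f615d1d05c8f250d3af09fc18fd423e82576c7ff58069b56f547ec49f6103c40d98f250d432b5ba5f18fd32406aa76c73520469b4a8d269c89f64d20fb978f250d42ddfadee8fd3308a3376c990b4e69b3b9e049629f61a7fca7d79f250d7 = true := by decide +kernel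

theorem cB17_9_3_145 : chunkOkM (LB17_9.ctx true true 104 1 1 1 1 1 1 1 1) muQ true true 64 RtB17_9.Cx.left RtB17_9.CX.left RtB17_9.Ctp.right.right.right.left.left RtB17_9.Ce.right.right.right.left.left RtB17_9.CTp.left.right.right.left RtB17_9.CEr.right.left.left 0x5a = true := by decide +kernel

theorem cB17_9_3_146 : chunkOkM (LB17_9.ctx true true 104 1 1 1 1 1 1 1 1) muQ true true 64 RtB17_9.Cx.left RtB17_9.CX.left RtB17_9.Ctp.right.right.right.left.left RtB17_9.Ce.right.right.right.left.left RtB17_9.CTp.left.right.right.right.left RtB17_9.CEr.right.left.left.left 0x5a = true := by decide +kernel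

theorem cB17_9_3_147 : chunkOkM (LB17_9.ctx true true 314 119 64 21 32 805 2497 1024 1024) muQ true true 64 RtB17_9.Cx.left RtB17_9.CX.left RtB17_9.Ctp.right.right.right.left.left RtB17_9.Ce.right.right.right.left.left.left RtB17_9.CTp.left.right.right.right.right RtB17_9.CEr.right.left.left.left.left 0xed398f528f02b3b53787c89f06b109d2b6a8fd1a5cd9476c3a4fb369b482286da59f640d7030168d1a79f06b7432117bdfe758fd21a938d76c2ac2c169b2b8c8290a9f695f2a4eb8f250d42177 = true := by decide +kernel

end Vale.Agent.helper4.Q4
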