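import Vale.Agent.helper4.Q4TreeM
import Vale.Agent.helper4.Q4G.PB17_9_0
import Vale.Agent.helper4.Q4G.PB17_9_1
import Vale.Agent.helper4.Q4G.PB17_9_2
import Vale.Agent.helper4.Q4G.PB17_9_3
import Vale.Agent.helper4.Q4G.PB17_9_4
import Vale.Agent.helper4.Q4G.PB17_9_5
import Vale.Agent.helper4.Q4G.PB17_9_6
import Vale.Agent.helper4.Q4G.PB17_9_7
import Vale.Agent.helper4.Q4G.PB17_9_8
import Vale.Agent.helper4.Q4G.PB17_9_9
import Vale.Agent.helper4.Q4G.PB17_9_10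
import Vale.Agent.helper4.Q4G.PB17_9_11
import Vale.Agent.helper4.Q4G.PB17_9_12
import Vale.Agent.helper4.Q4G.PB17_9_13
import Vale.Agent.helper4.Q4G.PB17_9_14
import Vale.Agent.helper4.Q4G.PB17_9_15
import Vale.Agent.helper4.Q4G.PB17_9_16
import Vale.Agent.helper4.Q4G.PB17_9_17
import Vale.Agent.helper4.Q4G.PB17_9_18
import Vale.Agent.helper4.Q4G.PB17_9_19_0
import Vale.Agent.helper4.Q4G.PB17_9_19_1
import Vale.Agent.helper4.Q4G.PB17_9_19_2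
import Vale.Agent.helper4.Q4G.PB17_9_19_3
import Vale.Agent.helper4.Q4G.PB17_9_20
import Vale.Agent.helper4.Q4G.PB17_9_21

/-!
Checks for pairs of intervals of second moments.
-/

set_option maxRecDepth 100000
set_option linter.unusedVariables false

namespace Vale.Agent.helper4.Q4

theorem covB17_9 : LB17_9.Full muQ.val RtB17_9 := ⟨(LitT.Cov.split_t (LitT.cov_of_chunkM cB17_9_3_0) (LitT.Cov.split_e (LitT.cov_of_chunkM cB17_9_3_1) (LitT.Cov.split_t (LitT.cov_of_chunkM cB17_9_3_2) (LitT.Cov.split_e (LitT.cov_of_chunkM cB17_9_3_3) (LitT.Cov.split_e (LitT.Cov.split_t (LitT.Cov.split_e (LitT.Cov.split_t (LitT.Cov.split_e (LitT.Cov.split_x (LitT.Cov.split_T (LitT.cov_of_chunkM cB17_9_3_4) (LitT.cov_of_chunkM cB17_9_3_5)) (LitT.cov_of_chunkM cB17_9_3_6)) (LitT.Cov.split_x (LitT.Cov.split_t (LitT.cov_of_chunkM cB17_9_3_7) (LitT.Cov.split_T (LitT.cov_of_chunkM cB17_9_3_8)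 (LitT.Cov.split_e (LitT.cov_of_chunkM cB17_9_3_9) (LitT.cov_of_chunkM cB17_9_3_10)))) (LitT.cov_of_chunkM cB17_9_3_11))) (LitT.cov_of_chunkM cB17_9_3_12)) (LitT.Cov.split_t (LitT.Cov.split_e (LitT.Cov.split_t (LitT.cov_of_chunkM cB17_9_3_13) (LitT.Cov.split_x (LitT.Cov.split_e (LitT.cov_of_chunkM cB17_9_3_14) (LitT.cov_of_chunkM cB17_9_3_15)) (LitT.cov_of_chunkM cB17_9_3_16))) (LitT.cov_of_chunkM cB17_9_3_17)) (LitT.Cov.split_e (LitT.Cov.split_x (LitT.Cov.split_T (LitT.Cov.split_T (LitT.cov_of_chunkM cB17_9_3_18) (LitT.Cov.split_T (LitT.cov_of_chunkM cB17_9_3_19) (LitT.Cov.split_X (LitT.Cov.split_t (LitT.Cov.split_e (LitT.cov_of_chunkM cB17_9_3_20) (LitT.cov_of_chunkM cB17_9_3_21)) (LitT.cov_of_chunkM cB17_9_3_22)) (LitT.cov_of_chunkM cB17_9_3_23)))) (LitT.Cov.split_t (LitT.Cov.split_e (LitT.Cov.split_E (LitT.cov_of_chunkM cB17_9_3_24) (LitT.Cov.split_x (LitT.cov_of_chunkM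 cB17_9_3_25) (LitT.cov_of_chunkM cB17_9_3_26))) (LitT.Cov.split_x (LitT.Cov.split_E (LitT.cov_of_chunkM cB17_9_3_27) (LitT.Cov.split_t (LitT.cov_of_chunkM cB17_9_3_28) (LitT.Cov.split_e (LitT.cov_of_chunkM cB17_9_3_29) (LitT.cov_of_chunkM cB17_9_3_30)))) (LitT.cov_of_chunkM cB17_9_3_31))) (LitT.Cov.split_E (LitT.cov_of_chunkM cB17_9_3_32) (LitT.Cov.split_x (LitT.Cov.split_e (LitT.cov_of_chunkM cB17_9_3_33) (LitT.Cov.split_E (LitT.cov_of_chunkM cB17_9_3_34) (LitT.cov_of_chunkM cB17_9_3_35))) (LitT.cov_of_chunkM cB17_9_3_36))))) (LitT.cov_of_chunkM cB17_9_3_37)) (LitT.Cov.split_x (LitT.Cov.split_t (LitT.Cov.split_e (LitT.Cov.split_T (LitT.cov_of_chunkM cB17_9_3_38) (LitT.cov_of_chunkM cB17_9_3_39)) (LitT.cov_of_chunkM cB17_9_3_40)) (LitT.Cov.split_T (LitT.Cov.split_T (LitT.cov_of_chunkM cB17_9_3_41) (LitT.Cov.split_T (LitT.cov_of_chunkM cB17_9_3_42) (LitT.Cov.split_X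 (LitT.Cov.split_e (LitT.Cov.split_E (LitT.cov_of_chunkM cB17_9_3_43) (LitT.cov_of_chunkM cB17_9_3_44)) (LitT.Cov.split_x (LitT.Cov.split_E (LitT.cov_of_chunkM cB17_9_3_45) (LitT.cov_of_chunkM cB17_9_3_46)) (LitT.cov_of_chunkM cB17_9_3_47))) (LitT.cov_of_chunkM cB17_9_3_48)))) (LitT.Cov.split_E (LitT.Cov.split_T (LitT.Cov.split_E (LitT.cov_of_chunkM cB17_9_3_49) (LitT.Cov.split_T (LitT.Cov.split_E (LitT.cov_of_chunkM cB17_9_3_50) (LitT.Cov.split_T (LitT.Cov.split_E (LitT.cov_of_chunkM cB17_9_3_51) (LitT.Cov.split_T (LitT.Cov.split_E (LitT.cov_of_chunkM cB17_9_3_52) (LitT.Cov.split_E (LitT.cov_of_chunkM cB17_9_3_53) (LitT.Cov.split_T (LitT.Cov.split_E (LitT.cov_of_chunkM cB17_9_3_54) (LitT.Cov.split_T (LitT.Cov.split_X (LitT.Cov.split_X (LitT.Cov.split_e (LitT.cov_of_chunkM cB17_9_3_55) (LitT.cov_of_chunkM cB17_9_3_56)) (LitT.cov_of_chunkM cB17_9_3_57)) (LitT.cov_of_chunkM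 cB17_9_3_58)) (LitT.cov_of_chunkM cB17_9_3_59))) (LitT.cov_of_chunkM cB17_9_3_60)))) (LitT.cov_of_chunkM cB17_9_3_61))) (LitT.cov_of_chunkM cB17_9_3_62))) (LitT.cov_of_chunkM cB17_9_3_63))) (LitT.cov_of_chunkM cB17_9_3_64)) (LitT.Cov.split_e (LitT.Cov.split_x (LitT.Cov.split_t (LitT.Cov.split_e (LitT.Cov.split_E (LitT.cov_of_chunkM cB17_9_3_65) (LitT.cov_of_chunkM cB17_9_3_66)) (LitT.cov_of_chunkM cB17_9_3_67)) (LitT.Cov.split_E (LitT.Cov.split_T (LitT.Cov.split_e (LitT.cov_of_chunkM cB17_9_3_68) (LitT.cov_of_chunkM cB17_9_3_69)) (LitT.cov_of_chunkM cB17_9_3_70)) (LitT.cov_of_chunkM cB17_9_3_71))) (LitT.cov_of_chunkM cB17_9_3_72)) (LitT.Cov.split_x (LitT.Cov.split_t (LitT.cov_of_chunkM cB17_9_3_73) (LitT.Cov.split_e (LitT.Cov.split_E (LitT.cov_of_chunkM cB17_9_3_74) (LitT.cov_of_chunkM cB17_9_3_75)) (LitT.cov_of_chunkM cB17_9_3_76))) (LitT.Cov.split_t (LitT.cov_of_chunkM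 cB17_9_3_77) (LitT.Cov.split_e (LitT.cov_of_chunkM cB17_9_3_78) (LitT.Cov.split_E (LitT.cov_of_chunkM cB17_9_3_79) (LitT.cov_of_chunkM cB17_9_3_80))))))))) (LitT.Cov.split_t (LitT.Cov.split_e (LitT.cov_of_chunkM cB17_9_3_81) (LitT.Cov.split_x (LitT.cov_of_chunkM cB17_9_3_82) (LitT.cov_of_chunkM cB17_9_3_83))) (LitT.cov_of_chunkM cB17_9_3_84)))))) (LitT.Cov.split_t (LitT.Cov.split_e (LitT.cov_of_chunkM cB17_9_3_85) (LitT.Cov.split_t (LitT.Cov.split_e (LitT.cov_of_chunkM cB17_9_3_86) (LitT.Cov.split_x (LitT.Cov.split_T (LitT.Cov.split_T (LitT.cov_of_chunkM cB17_9_3_87) (LitT.Cov.split_T (LitT.cov_of_chunkM cB17_9_3_88) (LitT.Cov.split_X (LitT.Cov.split_E (LitT.cov_of_chunkM cB17_9_3_89) (LitT.cov_of_chunkM cB17_9_3_90)) (LitT.cov_of_chunkM cB17_9_3_91)))) (LitT.Cov.split_E (LitT.cov_of_chunkM cB17_9_3_92) (LitT.Cov.split_x (LitT.Cov.split_t (LitT.Cov.split_e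 (LitT.cov_of_chunkM cB17_9_3_93) (LitT.Cov.split_E (LitT.Cov.split_T (LitT.Cov.split_x (LitT.cov_of_chunkM cB17_9_3_94) (LitT.cov_of_chunkM cB17_9_3_95)) (LitT.cov_of_chunkM cB17_9_3_96)) (LitT.cov_of_chunkM cB17_9_3_97))) (LitT.cov_of_chunkM cB17_9_3_98)) (LitT.cov_of_chunkM cB17_9_3_99)))) (LitT.cov_of_chunkM cB17_9_3_100))) (LitT.cov_of_chunkM cB17_9_3_101))) (LitT.cov_of_chunkM cB17_9_3_102))) (LitT.Cov.split_t (LitT.Cov.split_t (LitT.cov_of_chunkM cB17_9_3_103) (LitT.Cov.split_e (LitT.Cov.split_e (LitT.Cov.split_x (LitT.Cov.split_t (LitT.cov_of_chunkM cB17_9_3_104) (LitT.Cov.split_x (LitT.cov_of_chunkM cB17_9_3_105) (LitT.Cov.split_T (LitT.cov_of_chunkM cB17_9_3_106) (LitT.Cov.split_e (LitT.Cov.split_E (LitT.cov_of_chunkM cB17_9_3_107) (LitT.Cov.split_t (LitT.cov_of_chunkM cB17_9_3_108) (LitT.Cov.split_e (LitT.Cov.split_x (LitT.cov_of_chunkM cB17_9_3_109)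 (LitT.cov_of_chunkM cB17_9_3_110)) (LitT.cov_of_chunkM cB17_9_3_111)))) (LitT.cov_of_chunkM cB17_9_3_112))))) (LitT.Cov.split_t (LitT.Cov.split_e (LitT.Cov.split_x (LitT.cov_of_chunkM cB17_9_3_113) (LitT.Cov.split_t (LitT.cov_of_chunkM cB17_9_3_114) (LitT.Cov.split_e (LitT.cov_of_chunkM cB17_9_3_115) (LitT.cov_of_chunkM cB17_9_3_116)))) (LitT.cov_of_chunkM cB17_9_3_117)) (LitT.Cov.split_e (LitT.Cov.split_x (LitT.Cov.split_T (LitT.cov_of_chunkM cB17_9_3_118) (LitT.Cov.split_t (LitT.cov_of_chunkM cB17_9_3_119) (LitT.cov_of_chunkM cB17_9_3_120))) (LitT.cov_of_chunkM cB17_9_3_121)) (LitT.Cov.split_x (LitT.Cov.split_t (LitT.cov_of_chunkM cB17_9_3_122) (LitT.Cov.split_T (LitT.cov_of_chunkM cB17_9_3_123) (LitT.cov_of_chunkM cB17_9_3_124))) (LitT.Cov.split_t (LitT.Cov.split_e (LitT.cov_of_chunkM cB17_9_3_125) (LitT.cov_of_chunkM cB17_9_3_126)) (LitT.cov_of_chunkM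 cB17_9_3_127)))))) (LitT.Cov.split_t (LitT.cov_of_chunkM cB17_9_3_128) (LitT.Cov.split_x (LitT.cov_of_chunkM cB17_9_3_129) (LitT.Cov.split_e (LitT.Cov.split_x (LitT.cov_of_chunkM cB17_9_3_130) (LitT.Cov.split_t (LitT.cov_of_chunkM cB17_9_3_131) (LitT.Cov.split_e (LitT.cov_of_chunkM cB17_9_3_132) (LitT.cov_of_chunkM cB17_9_3_133)))) (LitT.cov_of_chunkM cB17_9_3_134))))) (LitT.cov_of_chunkM cB17_9_3_135))) (LitT.Cov.split_t (LitT.Cov.split_e (LitT.Cov.split_x (LitT.Cov.split_t (LitT.Cov.split_e (LitT.Cov.split_T (LitT.Cov.split_T (LitT.cov_of_chunkM cB17_9_3_136) (LitT.Cov.split_T (LitT.cov_of_chunkM cB17_9_3_137) (LitT.Cov.split_X (LitT.Cov.split_E (LitT.Cov.split_E (LitT.cov_of_chunkM cB17_9_3_138) (LitT.Cov.split_E (LitT.cov_of_chunkM cB17_9_3_139) (LitT.Cov.split_e (LitT.Cov.split_x (LitT.cov_of_chunkM cB17_9_3_140) (LitT.cov_of_chunkM cB17_9_3_141)) (LitT.Cov.split_x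 (LitT.cov_of_chunkM cB17_9_3_142) (LitT.Cov.split_t (LitT.cov_of_chunkM cB17_9_3_143) (LitT.cov_of_chunkM cB17_9_3_144)))))) (LitT.Cov.split_E (LitT.Cov.split_E (LitT.Cov.split_T (LitT.cov_of_chunkM cB17_9_3_145) (LitT.Cov.split_E (LitT.Cov.split_T (LitT.cov_of_chunkM cB17_9_3_146) (LitT.Cov.split_E (LitT.Cov.split_e (LitT.cov_of_chunkM cB17_9_3_147) (LitT.cov_of_chunkM cB17_9_3_148)) (LitT.cov_of_chunkM cB17_9_3_149))) (LitT.cov_of_chunkM cB17_9_3_150))) (LitT.cov_of_chunkM cB17_9_3_151)) (LitT.cov_of_chunkM cB17_9_3_152))) (LitT.cov_of_chunkM cB17_9_3_153)))) (LitT.Cov.split_E (LitT.Cov.split_T (LitT.Cov.split_E (LitT.cov_of_chunkM cB17_9_3_154) (LitT.Cov.split_E (LitT.cov_of_chunkM cB17_9_3_155) (LitT.Cov.split_T (LitT.Cov.split_E (LitT.cov_of_chunkM cB17_9_3_156) (LitT.Cov.split_T (LitT.Cov.split_E (LitT.cov_of_chunkM cB17_9_3_157) (LitT.Cov.split_T (LitT.Cov.split_E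 (LitT.cov_of_chunkM cB17_9_3_158) (LitT.Cov.split_E (LitT.cov_of_chunkM cB17_9_3_159) (LitT.Cov.split_T (LitT.Cov.split_T (LitT.Cov.split_X (LitT.Cov.split_X (LitT.Cov.split_e (LitT.cov_of_chunkM cB17_9_3_160) (LitT.cov_of_chunkM cB17_9_3_161)) (LitT.cov_of_chunkM cB17_9_3_162)) (LitT.cov_of_chunkM cB17_9_3_163)) (LitT.cov_of_chunkM cB17_9_3_164)) (LitT.cov_of_chunkM cB17_9_3_165)))) (LitT.cov_of_chunkM cB17_9_3_166))) (LitT.cov_of_chunkM cB17_9_3_167))) (LitT.cov_of_chunkM cB17_9_3_168)))) (LitT.cov_of_chunkM cB17_9_3_169)) (LitT.Cov.split_e (LitT.Cov.split_x (LitT.cov_of_chunkM cB17_9_3_170) (LitT.Cov.split_E (LitT.Cov.split_T (LitT.Cov.split_t (LitT.Cov.split_e (LitT.cov_of_chunkM cB17_9_3_171) (LitT.cov_of_chunkM cB17_9_3_172)) (LitT.cov_of_chunkM cB17_9_3_173)) (LitT.cov_of_chunkM cB17_9_3_174)) (LitT.Cov.split_t (LitT.cov_of_chunkM cB17_9_3_175) (LitT.cov_of_chunkM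 cB17_9_3_176)))) (LitT.Cov.split_x (LitT.cov_of_chunkM cB17_9_3_177) (LitT.Cov.split_t (LitT.Cov.split_x (LitT.cov_of_chunkM cB17_9_3_178) (LitT.Cov.split_e (LitT.Cov.split_E (LitT.cov_of_chunkM cB17_9_3_179) (LitT.cov_of_chunkM cB17_9_3_180)) (LitT.cov_of_chunkM cB17_9_3_181))) (LitT.Cov.split_E (LitT.Cov.split_e (LitT.cov_of_chunkM cB17_9_3_182) (LitT.cov_of_chunkM cB17_9_3_183)) (LitT.cov_of_chunkM cB17_9_3_184))))))) (LitT.cov_of_chunkM cB17_9_3_185)) (LitT.cov_of_chunkM cB17_9_3_186)) (LitT.Cov.split_e (LitT.Cov.split_t (LitT.Cov.split_T (LitT.cov_of_chunkM cB17_9_3_187) (LitT.Cov.split_x (LitT.Cov.split_E (LitT.cov_of_chunkM cB17_9_3_188) (LitT.Cov.split_e (LitT.cov_of_chunkM cB17_9_3_189) (LitT.Cov.split_t (LitT.Cov.split_e (LitT.cov_of_chunkM cB17_9_3_190) (LitT.Cov.split_x (LitT.cov_of_chunkM cB17_9_3_191) (LitT.cov_of_chunkM cB17_9_3_192))) (LitT.cov_of_chunkM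 cB17_9_3_193)))) (LitT.cov_of_chunkM cB17_9_3_194))) (LitT.cov_of_chunkM cB17_9_3_195)) (LitT.Cov.split_T (LitT.Cov.split_T (LitT.cov_of_chunkM cB17_9_3_196) (LitT.Cov.split_T (LitT.cov_of_chunkM cB17_9_3_197) (LitT.Cov.split_X (LitT.Cov.split_t (LitT.Cov.split_e (LitT.Cov.split_x (LitT.Cov.split_E (LitT.Cov.split_E (LitT.cov_of_chunkM cB17_9_3_198) (LitT.Cov.split_E (LitT.cov_of_chunkM cB17_9_3_199) (LitT.Cov.split_t (LitT.cov_of_chunkM cB17_9_3_200) (LitT.Cov.split_e (LitT.cov_of_chunkM cB17_9_3_201) (LitT.cov_of_chunkM cB17_9_3_202))))) (LitT.cov_of_chunkM cB17_9_3_203)) (LitT.cov_of_chunkM cB17_9_3_204)) (LitT.Cov.split_x (LitT.cov_of_chunkM cB17_9_3_205) (LitT.Cov.split_t (LitT.cov_of_chunkM cB17_9_3_206) (LitT.cov_of_chunkM cB17_9_3_207)))) (LitT.Cov.split_x (LitT.Cov.split_t (LitT.Cov.split_e (LitT.cov_of_chunkM cB17_9_3_208) (LitT.Cov.split_E (LitT.cov_of_chunkM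 cB17_9_3_209) (LitT.cov_of_chunkM cB17_9_3_210))) (LitT.cov_of_chunkM cB17_9_3_211)) (LitT.cov_of_chunkM cB17_9_3_212))) (LitT.cov_of_chunkM cB17_9_3_213)))) (LitT.Cov.split_t (LitT.Cov.split_e (LitT.Cov.split_x (LitT.Cov.split_E (LitT.cov_of_chunkM cB17_9_3_214) (LitT.Cov.split_t (LitT.Cov.split_e (LitT.Cov.split_x (LitT.cov_of_chunkM cB17_9_3_215) (LitT.cov_of_chunkM cB17_9_3_216)) (LitT.cov_of_chunkM cB17_9_3_217)) (LitT.Cov.split_e (LitT.Cov.split_E (LitT.Cov.split_x (LitT.Cov.split_T (LitT.cov_of_chunkM cB17_9_3_218) (LitT.cov_of_chunkM cB17_9_3_219)) (LitT.cov_of_chunkM cB17_9_3_220)) (LitT.cov_of_chunkM cB17_9_3_221)) (LitT.Cov.split_x (LitT.Cov.split_E (LitT.cov_of_chunkM cB17_9_3_222) (LitT.cov_of_chunkM cB17_9_3_223)) (LitT.Cov.split_E (LitT.cov_of_chunkM cB17_9_3_224) (LitT.cov_of_chunkM cB17_9_3_225)))))) (LitT.cov_of_chunkM cB17_9_3_226)) (LitT.Cov.split_x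 (LitT.Cov.split_t (LitT.cov_of_chunkM cB17_9_3_227) (LitT.Cov.split_x (LitT.cov_of_chunkM cB17_9_3_228) (LitT.Cov.split_E (LitT.cov_of_chunkM cB17_9_3_229) (LitT.Cov.split_e (LitT.Cov.split_E (LitT.cov_of_chunkM cB17_9_3_230) (LitT.cov_of_chunkM cB17_9_3_231)) (LitT.cov_of_chunkM cB17_9_3_232))))) (LitT.Cov.split_t (LitT.cov_of_chunkM cB17_9_3_233) (LitT.Cov.split_E (LitT.cov_of_chunkM cB17_9_3_234) (LitT.Cov.split_e (LitT.cov_of_chunkM cB17_9_3_235) (LitT.Cov.split_x (LitT.Cov.split_t (LitT.cov_of_chunkM cB17_9_3_236) (LitT.cov_of_chunkM cB17_9_3_237)) (LitT.cov_of_chunkM cB17_9_3_238))))))) (LitT.Cov.split_E (LitT.cov_of_chunkM cB17_9_3_239) (LitT.Cov.split_x (LitT.Cov.split_t (LitT.Cov.split_e (LitT.cov_of_chunkM cB17_9_3_240) (LitT.Cov.split_e (LitT.Cov.split_E (LitT.cov_of_chunkM cB17_9_3_241) (LitT.cov_of_chunkM cB17_9_3_242)) (LitT.Cov.split_x (LitT.cov_of_chunkM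 cB17_9_3_243) (LitT.Cov.split_E (LitT.cov_of_chunkM cB17_9_3_244) (LitT.cov_of_chunkM cB17_9_3_245))))) (LitT.cov_of_chunkM cB17_9_3_246)) (LitT.cov_of_chunkM cB17_9_3_247))))))) (LitT.Cov.split_x (LitT.cov_of_chunkM cB17_9_3_248) (LitT.Cov.split_e (LitT.Cov.split_t (LitT.Cov.split_e (LitT.Cov.split_x (LitT.cov_of_chunkM cB17_9_3_249) (LitT.Cov.split_t (LitT.cov_of_chunkM cB17_9_3_250) (LitT.Cov.split_T (LitT.cov_of_chunkM cB17_9_3_251) (LitT.Cov.split_E (LitT.cov_of_chunkM cB17_9_3_252) (LitT.cov_of_chunkM cB17_9_3_253))))) (LitT.cov_of_chunkM cB17_9_3_254)) (LitT.Cov.split_T (LitT.Cov.split_T (LitT.cov_of_chunkM cB17_9_3_255) (LitT.Cov.split_T (LitT.cov_of_chunkM cB17_9_3_256) (LitT.Cov.split_X (LitT.Cov.split_e (LitT.Cov.split_x (LitT.cov_of_chunkM cB17_9_3_257) (LitT.Cov.split_E (LitT.Cov.split_E (LitT.cov_of_chunkM cB17_9_3_258) (LitT.Cov.split_E (LitT.cov_of_chunkM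 cB17_9_3_259) (LitT.Cov.split_t (LitT.Cov.split_e (LitT.cov_of_chunkM cB17_9_3_260) (LitT.cov_of_chunkM cB17_9_3_261)) (LitT.cov_of_chunkM cB17_9_3_262)))) (LitT.Cov.split_E (LitT.Cov.split_E (LitT.Cov.split_T (LitT.cov_of_chunkM cB17_9_3_263) (LitT.Cov.split_T (LitT.cov_of_chunkM cB17_9_3_264) (LitT.Cov.split_E (LitT.Cov.split_E (LitT.Cov.split_t (LitT.cov_of_chunkM cB17_9_3_265) (LitT.cov_of_chunkM cB17_9_3_266)) (LitT.cov_of_chunkM cB17_9_3_267)) (LitT.cov_of_chunkM cB17_9_3_268)))) (LitT.cov_of_chunkM cB17_9_3_269)) (LitT.cov_of_chunkM cB17_9_3_270)))) (LitT.Cov.split_x (LitT.cov_of_chunkM cB17_9_3_271) (LitT.Cov.split_E (LitT.Cov.split_E (LitT.cov_of_chunkM cB17_9_3_272) (LitT.Cov.split_E (LitT.cov_of_chunkM cB17_9_3_273) (LitT.Cov.split_t (LitT.cov_of_chunkM cB17_9_3_274) (LitT.cov_of_chunkM cB17_9_3_275)))) (LitT.Cov.split_E (LitT.Cov.split_E (LitT.Cov.split_T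 (LitT.cov_of_chunkM cB17_9_3_276) (LitT.Cov.split_T (LitT.cov_of_chunkM cB17_9_3_277) (LitT.Cov.split_E (LitT.Cov.split_E (LitT.Cov.split_t (LitT.cov_of_chunkM cB17_9_3_278) (LitT.cov_of_chunkM cB17_9_3_279)) (LitT.cov_of_chunkM cB17_9_3_280)) (LitT.cov_of_chunkM cB17_9_3_281)))) (LitT.cov_of_chunkM cB17_9_3_282)) (LitT.cov_of_chunkM cB17_9_3_283))))) (LitT.cov_of_chunkM cB17_9_3_284)))) (LitT.Cov.split_E (LitT.Cov.split_T (LitT.Cov.split_E (LitT.cov_of_chunkM cB17_9_3_285) (LitT.Cov.split_E (LitT.cov_of_chunkM cB17_9_3_286) (LitT.Cov.split_T (LitT.Cov.split_E (LitT.cov_of_chunkM cB17_9_3_287) (LitT.Cov.split_T (LitT.Cov.split_E (LitT.cov_of_chunkM cB17_9_3_288) (LitT.Cov.split_T (LitT.Cov.split_E (LitT.cov_of_chunkM cB17_9_3_289) (LitT.Cov.split_E (LitT.cov_of_chunkM cB17_9_3_290) (LitT.Cov.split_T (LitT.Cov.split_T (LitT.Cov.split_X (LitT.Cov.split_X (LitT.Cov.split_e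 (LitT.Cov.split_x (LitT.cov_of_chunkM cB17_9_3_291) (LitT.cov_of_chunkM cB17_9_3_292)) (LitT.cov_of_chunkM cB17_9_3_293)) (LitT.cov_of_chunkM cB17_9_3_294)) (LitT.cov_of_chunkM cB17_9_3_295)) (LitT.cov_of_chunkM cB17_9_3_296)) (LitT.cov_of_chunkM cB17_9_3_297)))) (LitT.cov_of_chunkM cB17_9_3_298))) (LitT.cov_of_chunkM cB17_9_3_299))) (LitT.cov_of_chunkM cB17_9_3_300)))) (LitT.cov_of_chunkM cB17_9_3_301)) (LitT.Cov.split_e (LitT.Cov.split_x (LitT.cov_of_chunkM cB17_9_3_302) (LitT.Cov.split_t (LitT.Cov.split_e (LitT.Cov.split_x (LitT.Cov.split_E (LitT.Cov.split_T (LitT.cov_of_chunkM cB17_9_3_303) (LitT.cov_of_chunkM cB17_9_3_304)) (LitT.cov_of_chunkM cB17_9_3_305)) (LitT.cov_of_chunkM cB17_9_3_306)) (LitT.Cov.split_x (LitT.Cov.split_E (LitT.cov_of_chunkM cB17_9_3_307) (LitT.cov_of_chunkM cB17_9_3_308)) (LitT.Cov.split_E (LitT.cov_of_chunkM cB17_9_3_309) (LitT.cov_of_chunkM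 cB17_9_3_310)))) (LitT.cov_of_chunkM cB17_9_3_311))) (LitT.Cov.split_x (LitT.cov_of_chunkM cB17_9_3_312) (LitT.Cov.split_t (LitT.Cov.split_x (LitT.cov_of_chunkM cB17_9_3_313) (LitT.Cov.split_e (LitT.Cov.split_t (LitT.cov_of_chunkM cB17_9_3_314) (LitT.Cov.split_E (LitT.cov_of_chunkM cB17_9_3_315) (LitT.cov_of_chunkM cB17_9_3_316))) (LitT.cov_of_chunkM cB17_9_3_317))) (LitT.Cov.split_e (LitT.Cov.split_x (LitT.cov_of_chunkM cB17_9_3_318) (LitT.cov_of_chunkM cB17_9_3_319)) (LitT.Cov.split_x (LitT.cov_of_chunkM cB17_9_3_320) (LitT.Cov.split_E (LitT.cov_of_chunkM cB17_9_3_321) (LitT.cov_of_chunkM cB17_9_3_322)))))))))) (LitT.cov_of_chunkM cB17_9_3_323)))) (LitT.cov_of_chunkM cB17_9_3_324)))))))), (LitT.cov_of_chunkM cB17_9_1_0), (LitT.cov_of_chunkM cB17_9_2_0), (LitT.cov_of_chunkM cB17_9_0_0)⟩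

end Vale.Agent.helper4.Q4
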