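import Vale.Agent.helper4.Q4TreeM
import Vale.Agent.helper4.Q4G.PB18_10

/-!
Checks for pairs of intervals of second moments.
-/

set_option maxRecDepth 100000
set_option linter.unusedVariables false

namespace Vale.Agent.helper4.Q4

theorem cB18_10_3_0 : chunkOkM (LB18_10.ctx true true 101 1 1 1 1 1 1 1 1) muQ true true 64 RtB18_10.Cx RtB18_10.CX RtB18_10.Ctp.left RtB18_10.Ce RtB18_10.CTp RtB18_10.CEr 0x41 = true := by decide +kernel

theorem cB18_10_3_1 : chunkOkM (LB18_10.ctx true true 101 1 1 1 1 1 1 1 1) muQ true true 64 RtB18_10.Cx RtB18_10.CX RtB18_10.Ctp.right RtB18_10.Ce RtB18_10.CTp.left RtB18_10.CEr 0x42 = true := by decide +kernel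

theorem cB18_10_3_2 : chunkOkM (LB18_10.ctx true true 101 1 1 1 1 1 1 1 1) muQ true true 64 RtB18_10.Cx RtB18_10.CX RtB18_10.Ctp.right.left RtB18_10.Ce RtB18_10.CTp.right RtB18_10.CEr 0x41 = true := by decide +kernel

theorem cB18_10_3_3 : chunkOkM (LB18_10.ctx true true 101 1 1 1 1 1 1 1 1) muQ true true 64 RtB18_10.Cx RtB18_10.CX RtB18_10.Ctp.right.right RtB18_10.Ce.left RtB18_10.CTp.right RtB18_10.CEr 0x11 = true := by decide +kernel

theorem cB18_10_3_4 : chunkOkM (LB18_10.ctx true true 212 17 8 13 16 49 65 32 8) muQ true true 64 RtB18_10.Cx RtB18_10.CX RtB18_10.Ctp.right.right RtB18_10.Ce.right.left RtB18_10.CTp.right RtB18_10.CEr 0x3e657947fd47535e69b700abf1ed0af491df336bf9f140d = true := by decide +kernel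

theorem cB18_10_3_5 : chunkOkM (LB18_10.ctx true true 101 1 1 1 1 1 1 1 1) muQ true true 64 RtB18_10.Cx RtB18_10.CX RtB18_10.Ctp.right.right.left.left RtB18_10.Ce.right.right.left RtB18_10.CTp.right RtB18_10.CEr 0x49 = true := by decide +kernel

theorem cB18_10_3_6 : chunkOkM (LB18_10.ctx true true 101 1 1 1 1 1 1 1 1) muQ true true 64 RtB18_10.Cx RtB18_10.CX RtB18_10.Ctp.right.right.left.right.left RtB18_10.Ce.right.right.left RtB18_10.CTp.right RtB18_10.CEr 0x49 = true := by decide +kernel

theorem cB18_10_3_7 : chunkOkM (LB18_10.ctx true true 248 65 32 13 16 385 1261 32 8) muQ true true 64 RtB18_10.Cx.left.left RtB18_10.CX RtB18_10.Ctp.right.right.left.right.right RtB18_10.Ce.right.right.left.left.left.left RtB18_10.CTp.right RtB18_10.CEr 0x2055d65b8ed20c2b36f85ba135a1d9f610f2481b8eaf440d = true := by decide +kernel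

theorem cB18_10_3_8 : chunkOkM (LB18_10.ctx true true 287 513 256 13 16 3073 5187 32 16) muQ true true 64 RtB18_10.Cx.left.left RtB18_10.CX RtB18_10.Ctp.right.right.left.right.right RtB18_10.Ce.right.right.left.left.left.right RtB18_10.CTp.right RtB18_10.CEr 0x20b117d7fd4dbe76d75c203be9ab49f6493866fa19f440d1e768a158ed3b7c9ab75c1e60556f71d3c1e308f638948f8e8f550d1c1624e58ed32d8a6875c2b8795f720a63e168f643f8bd598f587900387f460d1e5b4d6a8ed44ca51175c74d62f6f8cf338877f63900f69d8f57651be37f460d4371d8a21c7fd2fcd15475c2e25226f73bb3bedc8f63e7fd5778f550d4c4ad4ea888b74848a7f8f820d6494949591d3d39848ed2963f2f75c21713a848f643f6c1b08f542740f87f450d5bdc654b88b36663ca38f8252d7725b9f6ce8b907d8f54f3f52918f450d647774934933 = true := by decide +kernel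

theorem cB18_10_3_9 : chunkOkM (LB18_10.ctx true true 252 65 32 13 16 763 1313 32 8) muQ true true 64 RtB18_10.Cx.left.left RtB18_10.CX RtB18_10.Ctp.right.right.left.right.right.left RtB18_10.Ce.right.right.left.left.right.left RtB18_10.CTp.right RtB18_10.CEr 0x130754288ed6b0bbc878b234f5587f8200ceab999f55647004fd9f450d = true := by decide +kernel

theorem cB18_10_3_10 : chunkOkM (LB18_10.ctx true true 274 131 64 13 16 1561 5239 32 35) muQ true true 64 RtB18_10.Cx.left.left RtB18_10.CX RtB18_10.Ctp.right.right.left.right.right.right RtB18_10.Ce.right.right.left.left.right.left RtB18_10.CTp.right RtB18_10.CEr 0x19eb3e17fd2f0653f75c1af019d58f64280037a8f5c4b10727f450d2b9246a78b15d99a5a19f5389e49c659f430d319ce73168ed2cdc79175c1bafff7e8f63e42d15e8f5177c01788f450d1beb1b038ed346813a75c2044f8048f64181e9588f540d1e4baa978ed48acdb275c1a4980068f636acaea48f540d1e0b3a868ed2abc31f75c247404248f63cec105a8f540d6419d29b27fd29db89075c396dca038f6524d0d568f5daa1a4d7f450d374c38d0f8b88b82bebf198f83cc35a258f511e84e9c8f440d6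 = true := by decide +kernel

theorem cB18_10_3_11 : chunkOkM (LB18_10.ctx true true 101 1 1 1 1 1 1 1 1) muQ true true 64 RtB18_10.Cx.left.left RtB18_10.CX RtB18_10.Ctp.right.right.left.right.right RtB18_10.Ce.right.right.left.left.right.right RtB18_10.CTp.right RtB18_10.CEr 0x59 = true := by decide +kernel

theorem cB18_10_3_12 : chunkOkM (LB18_10.ctx true true 101 1 1 1 1 1 1 1 1) muQ true true 64 RtB18_10.Cx.left.right RtB18_10.CX RtB18_10.Ctp.right.right.left.right.right RtB18_10.Ce.right.right.left.left RtB18_10.CTp.right RtB18_10.CEr 0x49 = true := by decide +kernel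

theorem cB18_10_3_13 : chunkOkM (LB18_10.ctx true true 101 1 1 1 1 1 1 1 1) muQ true true 64 RtB18_10.Cx.left RtB18_10.CX RtB18_10.Ctp.right.right.left.right.right RtB18_10.Ce.right.right.left.right RtB18_10.CTp.right RtB18_10.CEr 0x59 = true := by decide +kernel

theorem cB18_10_3_14 : chunkOkM (LB18_10.ctx true true 101 1 1 1 1 1 1 1 1) muQ true true 64 RtB18_10.Cx.right RtB18_10.CX RtB18_10.Ctp.right.right.left.right.right RtB18_10.Ce.right.right.left RtB18_10.CTp.right RtB18_10.CEr 0x49 = true := by decide +kernel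

theorem cB18_10_3_15 : chunkOkM (LB18_10.ctx true true 101 1 1 1 1 1 1 1 1) muQ true true 64 RtB18_10.Cx RtB18_10.CX RtB18_10.Ctp.right.right.right.left RtB18_10.Ce.right.right.left.left.left RtB18_10.CTp.right RtB18_10.CEr 0x69 = true := by decide +kernel

theorem cB18_10_3_16 : chunkOkM (LB18_10.ctx true true 245 33 16 13 16 399 1313 32 16) muQ true true 64 RtB18_10.Cx.left RtB18_10.CX RtB18_10.Ctp.right.right.right.left.left RtB18_10.Ce.right.right.left.left.right.left RtB18_10.CTp.right RtB18_10.CEr.left 0x14bb27d4b98bde100bb98f820d = true := by decide +kernel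

theorem cB18_10_3_17 : chunkOkM (LB18_10.ctx true true 267 129 64 13 16 791 2613 32 35) muQ true true 64 RtB18_10.Cx.left.left RtB18_10.CX RtB18_10.Ctp.right.right.right.left.left.left RtB18_10.Ce.right.right.left.left.right.left.left RtB18_10.CTp.right RtB18_10.CEr.right 0x691fc58167fd4ca7ad975c2d615f438f6328cab958f540d1da7932b8ed375d87775c4030064a8f63b19b2b78f540d67 = true := by decide +kernel

theorem cB18_10_3_18 : chunkOkM (LB18_10.ctx true true 274 131 64 13 16 1589 5291 32 35) muQ true true 64 RtB18_10.Cx.left.left RtB18_10.CX RtB18_10.Ctp.right.right.right.left.left.left RtB18_10.Ce.right.right.left.left.right.left.right RtB18_10.CTp.right RtB18_10.CEr.right 0x1b1bee3d8ed399478a75c1a3aa6358f6350cc7bd8f540d1a9f40b78ed36e94ee75c1cabc26f8167e0a4a8f63c34eb1f8f5694afd17f460d19d015828ed32f04e675c237c3dc98f63db6bfaa8f540d432c2cfd07fd4147c6b75c3712f2188f632dd36db8f540d2c2326318ed2e86c2175c84ef4b68b189914ce8f6378170e68f550d61b7ccd778ed391d96075c224562ae8f63d5cd1e78f540d27dee8a7fd370813775c5582410c8f6422c75948f540d1f0e445a8ed358106075c1cdbf568b4627d4d48f6438e31988f550d6437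 = true := by decide +kernel

theorem cB18_10_3_19 : chunkOkM (LB18_10.ctx true true 265 65 32 13 16 1603 2639 32 35) muQ true true 64 RtB18_10.Cx.left.left RtB18_10.CX RtB18_10.Ctp.right.right.right.left.left.right RtB18_10.Ce.right.right.left.left.right.left RtB18_10.CTp.right RtB18_10.CEr.right 0x692dc1b8a7fd3fe661a75c1d6ec4c48f62696cffb8f540d207db2d7fd3b710d275c3528fdaf8f62cb2ac088f540d66943 = true := by decide +kernel

theorem cB18_10_3_20 : chunkOkM (LB18_10.ctx true true 251 67 32 13 16 399 1313 32 16) muQ true true 64 RtB18_10.Cx.left.right RtB18_10.CX RtB18_10.Ctp.right.right.right.left.left RtB18_10.Ce.right.right.left.left.right.left RtB18_10.CTp.right RtB18_10.CEr.right 0x4303fb27fdbe533fa75c2819e683a9f68034bf9bf9f440d = true := by decide +kernel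

theorem cB18_10_3_21 : chunkOkM (LB18_10.ctx true true 251 65 32 13 16 399 1339 32 16) muQ true true 64 RtB18_10.Cx.left.left RtB18_10.CX RtB18_10.Ctp.right.right.right.left.left RtB18_10.Ce.right.right.left.left.right.right RtB18_10.CTp.right RtB18_10.CEr.left 0xf762427388b8a4f725a8f84873f4878f630d = true := by decide +kernel

theorem cB18_10_3_22 : chunkOkM (LB18_10.ctx true true 274 131 64 13 16 1589 5343 32 35) muQ true true 64 RtB18_10.Cx.left.left RtB18_10.CX RtB18_10.Ctp.right.right.right.left.left.left RtB18_10.Ce.right.right.left.left.right.right RtB18_10.CTp.right RtB18_10.CEr.right 0x18d49b37fd31270a475c2414bd578f64306754d8f540d1b07c6128ed4083e1075c472c0f6f8250cdff58f63f1886de8f550d1bb4c01b8ed411c22775c358f0c6f8178bba178f637ab26608f550d418ae06cf8ed2ce4bf575c231fb5048f64598a0e98f52b9d5387f450d35927e755a7fd3c5243675c3e6954d78f63ce95c578f540d19cc482c8ed281b8ae75c4eb021338f63ba3cb7a8f540d6459374 = true := by decide +kernel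

theorem cB18_10_3_23 : chunkOkM (LB18_10.ctx true true 284 259 128 13 16 1617 5343 64 35) muQ true true 64 RtB18_10.Cx.left.left.left RtB18_10.CX RtB18_10.Ctp.right.right.right.left.left.right RtB18_10.Ce.right.right.left.left.right.right.left RtB18_10.CTp.right RtB18_10.CEr.right 0x1205b737fd14e199075cc131f16f9175221f88f62686204a8f550d5e16d12fe95c1a6542ee698b52713a6f62c9dd7078f540d51ee3daff8ed3d1aacf75c50806e008f62f55aee78f540d133846458ed122895975c191bfce28f628a01eb98f540d354cb2278ed456234b75c14a04e578b33bff5aa8f62f9a4ee88f550d57c533806f06c38096697fd5b394c675c48b4721e8f62c52b9258f540d542aea22788ed420735e75c1b979cc18f630fbbad18f540d36 = true := by decide +kernel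

theorem cB18_10_3_24 : chunkOkM (LB18_10.ctx true true 271 131 64 13 16 1603 2665 32 35) muQ true true 64 RtB18_10.Cx.left.left.right RtB18_10.CX RtB18_10.Ctp.right.right.right.left.left.right RtB18_10.Ce.right.right.left.left.right.right.left RtB18_10.CTp.right RtB18_10.CEr.right 0x691bcd9e2e8ed4daf4fc75cfe32edf7f62c6d07198f540d162c4a108ed1ba714875c6ce7aaff8f63e7a072d8f540d63 = true := by decide +kernel

theorem cB18_10_3_25 : chunkOkM (LB18_10.ctx true true 293 519 256 13 16 3213 10725 32 35) muQ true true 64 RtB18_10.Cx.left.left.left RtB18_10.CX RtB18_10.Ctp.right.right.right.left.left.right.left RtB18_10.Ce.right.right.left.left.right.right.right RtB18_10.CTp.right RtB18_10.CEr.right 0x59591bcafa1f8ed4eb7a2875c4c43d9a98f634fd08818f540d1f7f76bb8ed383f7a7184c3cff0468b643c98b78f6372230448f550d659745935974 = true := by decide +kernel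

end Vale.Agent.helper4.Q4
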