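import Vale.Agent.helper4.Q4TreeM
import Vale.Agent.helper4.Q4G.PB18_10

/-!
Checks for pairs of intervals of second moments.
-/

set_option maxRecDepth 100000
set_option linter.unusedVariables false

namespace Vale.Agent.helper4.Q4

theorem cB18_10_3_26 : chunkOkM (LB18_10.ctx true true 288 259 128 13 16 3241 5395 64 35) muQ true true 64 RtB18_10.Cx.left.left.left RtB18_10.CX RtB18_10.Ctp.right.right.right.left.left.right.right RtB18_10.Ce.right.right.left.left.right.right.right RtB18_10.CTp.right RtB18_10.CEr.right 0x2a8bcb77fd454bab175ceb082cd7f62d48e94d8f540d260567518ed3b30ffb75c53d81b0c8f62fd6ab848f540d65972ef2b3b7fd4b7231075c11e1ae5b8f629b343a58f540d2f3c44e78ed443347175c2728c26a8f62ed3e0478f540d1a71bee98ed9bfd9565c18ee1b238f62bca9cdc8f540d2bacc8018ed5bac32675c2a9177918f530d51d4831888ed3b0a1b175c30e4bc5d8f530d3764 = true := by decide +kernel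

theorem cB18_10_3_27 : chunkOkM (LB18_10.ctx true true 274 131 64 13 16 1617 5395 32 35) muQ true true 64 RtB18_10.Cx.left.left.right RtB18_10.CX RtB18_10.Ctp.right.right.right.left.left.right RtB18_10.Ce.right.right.left.left.right.right.right RtB18_10.CTp.right RtB18_10.CEr.right 0x2901565f8ed3778fa075c1a965c738f62b3353b08f540d1e002bdb8ed39239b175c2e9302fd8f6307e37bf8f540d61bc3affa8ed427607f75c3c6b9a6f8282ffa6a8f63b1504778f550d222aef398ed3da247d75c28ac63528f6362f67768f540d1af33c108ed33fe5a675c232978988f635bb3da58f540d643 = true := by decide +kernel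

theorem cB18_10_3_28 : chunkOkM (LB18_10.ctx true true 268 133 64 13 16 1603 2691 32 16) muQ true true 64 RtB18_10.Cx.left.right RtB18_10.CX RtB18_10.Ctp.right.right.right.left.left RtB18_10.Ce.right.right.left.left.right.right RtB18_10.CTp.right RtB18_10.CEr 0x6917cfd677fd31d365675c1692befe8f637b9a90a8f540d3694e86fa04d88b88ec50568f820d649172461dc8ed2be150175c28a5cb5b8f63f7d88dd8f510725c448f450d171b1e87fd2b9e20475c34a90ca78f6446660288f584598787f450d4298e906b88b21ead2888f83d4dcb278f530d674933 = true := by decide +kernel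

theorem cB18_10_3_29 : chunkOkM (LB18_10.ctx true true 101 1 1 1 1 1 1 1 1) muQ true true 64 RtB18_10.Cx.left RtB18_10.CX RtB18_10.Ctp.right.right.right.left.right RtB18_10.Ce.right.right.left.left.right.left RtB18_10.CTp.right RtB18_10.CEr 0x69 = true := by decide +kernel

theorem cB18_10_3_30 : chunkOkM (LB18_10.ctx true true 245 33 16 13 16 413 1339 32 16) muQ true true 64 RtB18_10.Cx.left RtB18_10.CX RtB18_10.Ctp.right.right.right.left.right RtB18_10.Ce.right.right.left.left.right.right RtB18_10.CTp.right RtB18_10.CEr.left 0x11cb02f7798bbe18e2e08f820d = true := by decide +kernel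

theorem cB18_10_3_31 : chunkOkM (LB18_10.ctx true true 265 65 32 13 16 819 2665 64 32) muQ true true 64 RtB18_10.Cx.left.left RtB18_10.CX RtB18_10.Ctp.right.right.right.left.right.left RtB18_10.Ce.right.right.left.left.right.right.left RtB18_10.CTp.right RtB18_10.CEr.right.left 0xb8155d6f01c322c7e57fd506e76175c56904968b12aab78c8f540d5 = true := by decide +kernel

theorem cB18_10_3_32 : chunkOkM (LB18_10.ctx true true 288 259 128 13 16 1645 5395 128 32) muQ true true 64 RtB18_10.Cx.left.left.left RtB18_10.CX RtB18_10.Ctp.right.right.right.left.right.left RtB18_10.Ce.right.right.left.left.right.right.right RtB18_10.CTp.right RtB18_10.CEr.right.left 0x19dd94268ed1c3099775c25d222498f61ff582718f540d1bead557fd13a94d075c6950ea68b605e02348f61859eab38f550d4a5552d07ccf8ed29830db75c111449be8f62788722d8f540d2c564ca7fd627e29375c4306f4a48f627d82b478f540d52174acce8ed190789c75cf32d4fe7f6289cd4ed8f540d35bf32be8ed5e816f875c54249e68ba5450fe7f627ee11f58f550d57147acfa38ed14bbdbf75c25283ed08f627e444cc8f540d3215a797fd565618f75cbf8a3368b385473b48f626823a188f550d543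 = true := by decide +kernel

theorem cB18_10_3_33 : chunkOkM (LB18_10.ctx true true 267 131 64 13 16 819 2691 32 32) muQ true true 64 RtB18_10.Cx.left.left.right RtB18_10.CX RtB18_10.Ctp.right.right.right.left.right.left RtB18_10.Ce.right.right.left.left.right.right.right RtB18_10.CTp.right RtB18_10.CEr.right.left 0x1d18c9a08ed348e54f75c268866ce8f620f425248f540d = true := by decide +kernel

theorem cB18_10_3_34 : chunkOkM (LB18_10.ctx true true 262 65 32 13 16 819 1339 64 35) muQ true true 64 RtB18_10.Cx.left.left RtB18_10.CX RtB18_10.Ctp.right.right.right.left.right.left RtB18_10.Ce.right.right.left.left.right.right RtB18_10.CTp.right RtB18_10.CEr.right.right 0x17983e07fd1b92c9675c44056e6f924e1cf3a8f61e249e858f550d6f36c3e6c95c1f4629f1e98b20cb26b58f61dc981368f540d5 = true := by decide +kernel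

theorem cB18_10_3_35 : chunkOkM (LB18_10.ctx true true 101 1 1 1 1 1 1 1 1) muQ true true 64 RtB18_10.Cx.left.right RtB18_10.CX RtB18_10.Ctp.right.right.right.left.right.left RtB18_10.Ce.right.right.left.left.right.right RtB18_10.CTp.right RtB18_10.CEr.right 0x69 = true := by decide +kernel

theorem cB18_10_3_36 : chunkOkM (LB18_10.ctx true true 101 1 1 1 1 1 1 1 1) muQ true true 64 RtB18_10.Cx.left RtB18_10.CX RtB18_10.Ctp.right.right.right.left.right.right RtB18_10.Ce.right.right.left.left.right.right RtB18_10.CTp.right RtB18_10.CEr.right 0x69 = true := by decide +kernel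

theorem cB18_10_3_37 : chunkOkM (LB18_10.ctx true true 235 35 16 13 16 203 663 32 8) muQ true true 64 RtB18_10.Cx.right RtB18_10.CX RtB18_10.Ctp.right.right.right.left RtB18_10.Ce.right.right.left.left.right RtB18_10.CTp.right RtB18_10.CEr 0x22b17cf7fd380a87f7f8c4963f2df9f4eb44f3cd8f140d = true := by decide +kernel

theorem cB18_10_3_38 : chunkOkM (LB18_10.ctx true true 101 1 1 1 1 1 1 1 1) muQ true true 64 RtB18_10.Cx RtB18_10.CX RtB18_10.Ctp.right.right.right.right RtB18_10.Ce.right.right.left.left RtB18_10.CTp.right RtB18_10.CEr 0x11 = true := by decide +kernel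

theorem cB18_10_3_39 : chunkOkM (LB18_10.ctx true true 284 263 128 13 16 3241 5447 32 35) muQ true true 64 RtB18_10.Cx.left.left RtB18_10.CX RtB18_10.Ctp.right.right.right.left.left RtB18_10.Ce.right.right.left.right.left.left RtB18_10.CTp.right RtB18_10.CEr 0x591b89d7e58ed41c635275c228f4e6f8146e84d68f63290efc78f550d59359728924fc7fd38cd74075c335220068f63077622d8f540d1c01779b8ed21a4e8d75c5f784a68b1984f6728f62f3d63d08f550d6418c1e4f7fd354fb0e75c2246bdb38f63a907a208f540d3b4b4c18888b7b256fd68f820d65974593 = true := by decide +kernel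

theorem cB18_10_3_40 : chunkOkM (LB18_10.ctx true true 255 67 32 13 16 791 1365 32 8) muQ true true 64 RtB18_10.Cx.left.right RtB18_10.CX RtB18_10.Ctp.right.right.right.left.left.left RtB18_10.Ce.right.right.left.right.left.left RtB18_10.CTp.right RtB18_10.CEr 0xf3baac68bf3876b6f889c27469b9f63762531ebeaf5b0d1d6c8a0af450d = true := by decide +kernel

theorem cB18_10_3_41 : chunkOkM (LB18_10.ctx true true 274 135 64 13 16 1617 5447 32 35) muQ true true 64 RtB18_10.Cx.left.right RtB18_10.CX RtB18_10.Ctp.right.right.right.left.left.right RtB18_10.Ce.right.right.left.right.left.left.left RtB18_10.CTp.right RtB18_10.CEr 0x1483d4d7fd25f70c875c62b6dee08f64923dfa78f51cb0ef018f450d130db8068ed4ae3c9475c114186998f62fed8c618f540d1dd0e4408ed2ff039e75c1e19ed568f634f111c38f540d615d44a998ed2a855eb75c58df046c8f6517181d78f540d172718398ed30b73d175c34fd910e8f645a14c408f540d4372f168bae88b27f9a4908f83da4f9c68f530d6 = true := by decide +kernel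

theorem cB18_10_3_42 : chunkOkM (LB18_10.ctx true true 268 135 64 13 16 1617 2743 32 16) muQ true true 64 RtB18_10.Cx.left.right RtB18_10.CX RtB18_10.Ctp.right.right.right.left.left.right RtB18_10.Ce.right.right.left.right.left.left.right RtB18_10.CTp.right RtB18_10.CEr 0x147edae88ed2aa840075c23df97f78f63d2d06198f5564ee357f450d12b1ee1b8ed25dc74975cfc276077f63fe07f638f511b08c838f450d317735e668ed35c279a75c20161c9d8f63af97ff38f540d142f3747fd24b777475c67e639198f653d160418f540d3716630d0c88b1889bac28f866fe415d8f648ae40408f540d6 = true := by decide +kernel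

theorem cB18_10_3_43 : chunkOkM (LB18_10.ctx true true 264 135 64 13 16 805 2769 32 16) muQ true true 64 RtB18_10.Cx.left RtB18_10.CX RtB18_10.Ctp.right.right.right.left.left RtB18_10.Ce.right.right.left.right.left.right RtB18_10.CTp.right RtB18_10.CEr 0x5912e25927fd276a2c875c36ac17348f6473492528f5b5a8daf7f450d29301b4788b21ab39488f8497585808f530d65974597593 = true := by decide +kernel

theorem cB18_10_3_44 : chunkOkM (LB18_10.ctx true true 251 65 32 13 16 413 1365 32 16) muQ true true 64 RtB18_10.Cx.left.left RtB18_10.CX RtB18_10.Ctp.right.right.right.left.right RtB18_10.Ce.right.right.left.right.left.left RtB18_10.CTp.right RtB18_10.CEr.left 0xa578c0a288b617762ef8f8b5a64bb28f63d1805dc8f540d = true := by decide +kernel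

end Vale.Agent.helper4.Q4
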