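import Vale.Agent.helper4.Q4TreeM
import Vale.Agent.helper4.Q4G.PB18_10

/-!
Checks for pairs of intervals of second moments.
-/

set_option maxRecDepth 100000
set_option linter.unusedVariables false

namespace Vale.Agent.helper4.Q4

theorem cB18_10_3_177 : chunkOkM (LB18_10.ctx true true 269 141 64 13 16 1673 2925 32 16) muQ true true 64 RtB18_10.Cx.right RtB18_10.CX RtB18_10.Ctp.right.right.right.left RtB18_10.Ce.right.right.right.left RtB18_10.CTp.right RtB18_10.CEr 0x5959495980d3d56fd1b9ca0975c3e0aeb68b301700c38f642fbc6f28f5140031578f460dbd681fec88ba77f48858f840021ffe8f5111226e28f440d64749349359744934 = true := by decide +kernel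

theorem cB18_10_3_178 : chunkOkM (LB18_10.ctx true true 259 69 32 13 16 847 2925 32 16) muQ true true 64 RtB18_10.Cx.right.left RtB18_10.CX RtB18_10.Ctp.right.right.right.right.left.left RtB18_10.Ce.right.right.right.left.left.left.left RtB18_10.CTp.right RtB18_10.CEr.left 0xd5ebfc9c88b8d7b9ac08f820d = true := by decide +kernel

theorem cB18_10_3_179 : chunkOkM (LB18_10.ctx true true 343 8831 4096 13 16 54649 93197 32 35) muQ true true 64 RtB18_10.Cx.right.left RtB18_10.CX RtB18_10.Ctp.right.right.right.right.left.left RtB18_10.Ce.right.right.right.left.left.left.left RtB18_10.CTp.right RtB18_10.CEr.right 0xef07d8f7ed340f41c75c3233d568b2b1827b58f630f68a8c8f550d5971033e6d08ed33655ca75cd21a058b300fe4b48f62dfbb7428f550d18680d0f8ed35429c175c2fd865968f530d138d66ca8ed2a5a97f75c2d8ef068b2fdcf6298f62bd6d4c08f550d6eea2dc57ed33eed9975c502b5a68b53b702c58f633d1aa8e8f550d374c1a8336fd2bc5e0475c59fc1b68b35a984888f639276f7c8f550d359595959591a2af9ee8ed3445b7275c2c57477b8f530d192969738ed387cbbc75c286eaad18f530d6597593459759345975935974593597459359745937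 = true := by decide +kernel

theorem cB18_10_3_180 : chunkOkM (LB18_10.ctx true true 101 1 1 1 1 1 1 1 1) muQ true true 64 RtB18_10.Cx.right.left RtB18_10.CX RtB18_10.Ctp.right.right.right.right.left.left RtB18_10.Ce.right.right.right.left.left.left.right RtB18_10.CTp.right RtB18_10.CEr 0x59 = true := by decide +kernel

theorem cB18_10_3_181 : chunkOkM (LB18_10.ctx true true 256 69 32 13 16 861 1469 32 16) muQ true true 64 RtB18_10.Cx.right.left RtB18_10.CX RtB18_10.Ctp.right.right.right.right.left.right RtB18_10.Ce.right.right.right.left.left.left RtB18_10.CTp.right RtB18_10.CEr.left 0x1b3d022588b207062138f8810906c48f6103aafc18f540d = true := by decide +kernel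

theorem cB18_10_3_182 : chunkOkM (LB18_10.ctx true true 312 1095 512 13 16 6881 23309 64 35) muQ true true 64 RtB18_10.Cx.right.left.left RtB18_10.CX RtB18_10.Ctp.right.right.right.right.left.right.left RtB18_10.Ce.right.right.right.left.left.left.left.left RtB18_10.CTp.right RtB18_10.CEr.right 0xb9a30717ed23e625975c2419e65e8f6249d024c8f540d4aa457d7095c1509cb64a98b1d13bda38f621b761518f540d5272a4c018f05bf23df6a7ed3872e6575c100e30578b6a19bd868f62432f6f98f550d5bcc8c7e7ed216252775c10c9e9a78b5dd427b78f6294db3be8f550d36596918e4d4ac8ed497212575c35966e4839f630d1410e4708ed357277475ce2cc4968b6c68c6f949f640d6469769342175937 = true := by decide +kernel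

theorem cB18_10_3_183 : chunkOkM (LB18_10.ctx true true 300 1103 512 13 16 3437 11713 32 35) muQ true true 64 RtB18_10.Cx.right.left.left RtB18_10.CX RtB18_10.Ctp.right.right.right.right.left.right.left RtB18_10.Ce.right.right.right.left.left.left.left.right RtB18_10.CTp.right RtB18_10.CEr.right 0x59160e9c608ed46324d975ccf353aff8f61f29d80b8f540dd56c4bb7ed2688b4c75c10c4fb278be2737e028f62165df558f550d66974597593217 = true := by decide +kernel

theorem cB18_10_3_184 : chunkOkM (LB18_10.ctx true true 286 275 128 13 16 1729 5837 64 35) muQ true true 64 RtB18_10.Cx.right.left.left RtB18_10.CX RtB18_10.Ctp.right.right.right.right.left.right.right RtB18_10.Ce.right.right.right.left.left.left.left.left RtB18_10.CTp.right RtB18_10.CEr.right 0xf48bae6fd288454f75c224a77278f61b13cc038f5b20d0da7f250d4f251f39b95c164a1852b98b250ff47f8f61a69c81c8f5a92c2c07f250d51f9da34e8f05b99ebd36fd2c2702475c14ea10678b1b157b37a9f640d510ebf26179f06b1287a6a28ed3b60d0675c103a27178b14d42919d9f6e2c29787f250d576 = true := by decide +kernel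

theorem cB18_10_3_185 : chunkOkM (LB18_10.ctx true true 285 275 128 13 16 1729 5863 64 35) muQ true true 64 RtB18_10.Cx.right.left.left RtB18_10.CX RtB18_10.Ctp.right.right.right.right.left.right.right RtB18_10.Ce.right.right.right.left.left.left.left.right RtB18_10.CTp.right RtB18_10.CEr.right 0x67c7d697ed32fca8975c3bb9640d8f61c2a23178f570fc2bf7f250d4a2e8c85695c14e430f2c98b5325da5d8f61552fb928f540d5147edc37a9f06b13d9d3e7fd3f0d19375c114f09b78b734643b28f61c1582948f5668fe197f260d56217 = true := by decide +kernel

theorem cB18_10_3_186 : chunkOkM (LB18_10.ctx true true 286 277 128 13 16 1729 5863 64 35) muQ true true 64 RtB18_10.Cx.right.left.right RtB18_10.CX RtB18_10.Ctp.right.right.right.right.left.right RtB18_10.Ce.right.right.right.left.left.left.left RtB18_10.CTp.right RtB18_10.CEr.right 0x695fb6ce6fd32ed01675c100c451d99f61453a0688f540d3443d658695ceb48094288b1440a6d859f6801d10a7f540d5712d014be8ed33952da75c990c0068bad962a338f61978e2388f550d66941533097d8ed45ea81575c2912b4328f62677b1988f540df0e182f7ed2da1fde75cab58e068b2d15b2c88f62a31fc938f550d615ba033d8ed4419e7775c345743678f624e8e7258f540d183cf84a8ed366c95f75c80420e68b4df7ef268f626df95eb8f550d643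 = true := by decide +kernel

theorem cB18_10_3_187 : chunkOkM (LB18_10.ctx true true 295 551 256 13 16 3465 11765 32 35) muQ true true 64 RtB18_10.Cx.right.left.left RtB18_10.CX RtB18_10.Ctp.right.right.right.right.left.right RtB18_10.Ce.right.right.right.left.left.left.right RtB18_10.CTp.right RtB18_10.CEr.right 0x212119ccc8658ed475559575c286f5670e9f630dfb64c977ed2b95b9775cf507aa68b218b6deb29f640d642176932174593 = true := by decide +kernel

theorem cB18_10_3_188 : chunkOkM (LB18_10.ctx true true 294 559 256 13 16 3437 11817 32 35) muQ true true 64 RtB18_10.Cx.right.left.right RtB18_10.CX RtB18_10.Ctp.right.right.right.right.left.right.left RtB18_10.Ce.right.right.right.left.left.left.right RtB18_10.CTp.right RtB18_10.CEr.right 0x59144bfee28ed330697d75c835cf9ce8f624de5ca28f540d51448787ed195e4ae75c152b97378ba629e9e08f63fefbe618f550d65974593597158c2d608ed41c663475c396209138f62cf73c428f540ddd92f687ed2939ca375ca335ca68b3e1c71448f62b1ce6488f550d65912e380e48ed457e81475c26b5fd288f6289637d78f540d11912e528ed2d9489675c4e5bcc68b9c3f55818f61e58fecf8f550d6597459374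 = true := by decide +kernel

theorem cB18_10_3_189 : chunkOkM (LB18_10.ctx true true 286 279 128 13 16 1729 5889 64 35) muQ true true 64 RtB18_10.Cx.right.left.right RtB18_10.CX RtB18_10.Ctp.right.right.right.right.left.right.right RtB18_10.Ce.right.right.right.left.left.left.right.left RtB18_10.CTp.right RtB18_10.CEr.right 0xfc449b6fd26b175a75c131a586f92d4fbe7a8f62020fd388f550d40670fd7695c11cf1cf0298b1590f40cf9f630d5b5bbf727ed2a825f775ce73fa268b3e35538f8f62468d7768f550d28e8dd1d8f05b11de2057fd3a6e37575c10d169c78b65a175a38f61f5374918f550d576 = true := by decide +kernel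

end Vale.Agent.helper4.Q4
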