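import Vale.Agent.helper4.Q4TreeM
import Vale.Agent.helper4.Q4G.PB18_10

/-!
Checks for pairs of intervals of second moments.
-/

set_option maxRecDepth 100000
set_option linter.unusedVariables false

namespace Vale.Agent.helper4.Q4

theorem cB18_10_3_190 : chunkOkM (LB18_10.ctx true true 296 555 256 13 16 3465 5915 64 35) muQ true true 64 RtB18_10.Cx.right.left.right RtB18_10.CX RtB18_10.Ctp.right.right.right.right.left.right.right RtB18_10.Ce.right.right.right.left.left.left.right.right RtB18_10.CTp.right RtB18_10.CEr.right 0x7a7f8867ed2c6459c75c32144968b59b0a0e08f61f3fceeb8f550d3d6ae3f9095c11c59ff4798b1b09fc3d79f630d5db9251c7ed30331dc75ccbbdbf68b4f18286b8f625a4d9b68f550d634aef507ed39bc3ed75c1fee9fab79f630d3f8f912cd95c11d71214898b11f27cc3a9f630d5fd1c9277ed31ee4bf75cbcd87d68b7316edd88f61dad5e7b8f550d66976937 = true := by decide +kernel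

theorem cB18_10_3_191 : chunkOkM (LB18_10.ctx true true 273 143 64 13 16 3381 2925 32 16) muQ true true 64 RtB18_10.Cx.right.right RtB18_10.CX RtB18_10.Ctp.right.right.right.right.left.left RtB18_10.Ce.right.right.right.left.left.left.left RtB18_10.CTp.right RtB18_10.CEr 0x6950e2c16fd173cc6b75cb26a5d68bc996ae97f63554a6748f5d3e1b8a7f460d1f976d57f06c64933d118dc6fd2cad31b75c35338168b1ebde1ba8f6319bb0248f550db1eedc77ed26b747f75c2d3a3d458f63dbc122b8f540d3b5cb2f8f88b6ae4f9cf8f8747356d18f630d67 = true := by decide +kernel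

theorem cB18_10_3_192 : chunkOkM (LB18_10.ctx true true 269 143 64 13 16 1701 2951 32 16) muQ true true 64 RtB18_10.Cx.right.right RtB18_10.CX RtB18_10.Ctp.right.right.right.right.left.left RtB18_10.Ce.right.right.right.left.left.left.right RtB18_10.CTp.right RtB18_10.CEr 0x7cf6c46fd230300a75c1a59a5958f638246f2b8f538826407f450d6aebb737ed1bf46ea75c2eb1efed8f63f919d9d8f5156d58a88f450d3c394e007ed2e3dd7475c2214ed378f63718208f8f540d9c5a696fd1ada80175c93d44dc28f64cb868ea8f540d372416c49188b27f899ff8f8c0365a698f63dae28c58f540d6 = true := by decide +kernel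

theorem cB18_10_3_193 : chunkOkM (LB18_10.ctx true true 259 71 32 13 16 861 2925 32 16) muQ true true 64 RtB18_10.Cx.right.right RtB18_10.CX RtB18_10.Ctp.right.right.right.right.left.right RtB18_10.Ce.right.right.right.left.left.left.left RtB18_10.CTp.right RtB18_10.CEr 0xbc10276fd2e2f56675c6d411968b296007898f625e0e43c8f550d4cb2f897f01c6 = true := by decide +kernel

theorem cB18_10_3_194 : chunkOkM (LB18_10.ctx true true 281 283 128 13 16 1729 5915 32 35) muQ true true 64 RtB18_10.Cx.right.right RtB18_10.CX RtB18_10.Ctp.right.right.right.right.left.right RtB18_10.Ce.right.right.right.left.left.left.right RtB18_10.CTp.right RtB18_10.CEr 0x6471996fd217fe0b75c96266368b2c2e4ee68f62d7b7ee48f550d158249d58ed389d82c75c547f16b08f6276ad92b8f540d8e32edd7ed1a965d875c1080e4478b6b055f278f625b2f2508f550d6694bda77eb7ed2f0cb3e75c40608668b2e92df308f630dbefe38f550d15e0e0f38ed319812475c27fef36f8f62fe0eb878f540d9b8535f7ed17014d275c5e500168b489e78ad8f62e9faaf08f550d67e1830317ed34c8ace75c417e9568b2f82a4428f62d0c2c278f550d4374690b32c88b408f918b8f820d6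 = true := by decide +kernel

theorem cB18_10_3_195 : chunkOkM (LB18_10.ctx true true 290 279 128 13 16 3465 5941 64 35) muQ true true 64 RtB18_10.Cx.right.left RtB18_10.CX RtB18_10.Ctp.right.right.right.right.left RtB18_10.Ce.right.right.right.left.left.right RtB18_10.CTp.right RtB18_10.CEr 0x2159402a3b6fd2607ddc75cbc5e556f932b546678f626356f2c8f550d46380692595c13ca5662898b291316dcf9f630d5fbffe007ed431ee1e75c2e7a2dc08f6328ed6b48f540d3c1cb30c7ed2c57ae975ccc9d7d68b576b16a08f6298ababd8f550d621f0de2588b1cfc75848f83b6099158f530d659745932174593 = true := by decide +kernel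

theorem cB18_10_3_196 : chunkOkM (LB18_10.ctx true true 272 143 64 13 16 1701 5967 32 16) muQ true true 64 RtB18_10.Cx.right.right RtB18_10.CX RtB18_10.Ctp.right.right.right.right.left.left RtB18_10.Ce.right.right.right.left.left.right RtB18_10.CTp.right RtB18_10.CEr 0x59485a45c7ed1db8a1775c3abdaa68b710c1fdb8f648aaec8b8f59226d507f460d5f9e0337ed2170ea375c299e8568b30633fe28f64047cb758f535875447f460d4b8b38468b1de0ba9e79f56b393b0139f430d3bf17a5c988b6e30fd218f83c0fd1598f510ddb28f8f440d65974 = true := by decide +kernel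

theorem cB18_10_3_197 : chunkOkM (LB18_10.ctx true true 259 71 32 13 16 861 2977 32 16) muQ true true 64 RtB18_10.Cx.right.right RtB18_10.CX RtB18_10.Ctp.right.right.right.right.left.right RtB18_10.Ce.right.right.right.left.left.right.left RtB18_10.CTp.right RtB18_10.CEr.left 0x2473dfb788b293b0bf38f8eabd0fb78f63c4849078f540d = true := by decide +kernel

theorem cB18_10_3_198 : chunkOkM (LB18_10.ctx true true 281 283 128 13 16 1729 5967 32 35) muQ true true 64 RtB18_10.Cx.right.right.left RtB18_10.CX RtB18_10.Ctp.right.right.right.right.left.right RtB18_10.Ce.right.right.right.left.left.right.left RtB18_10.CTp.right RtB18_10.CEr.right 0x144185cc8ed35d9f3075c26954ad68f62f4ad76f8f540d65509c87ed1afdb9b75c158b75f78b1798049b8f632b41dc18f550d616588cac8ed3aa421d75c3ee580d68f6264281b08f540d7f202d77ed1b0e57a75ca333cf68b6df23f808f6233f20038f550d6711be320f8ed4260dfc75c1d4e1f958f629454ffa8f540dd6a348c7ed2758a7c75ca67c4968b31a86c548f626d75eff8f550d64d5d3f017ed2ce9dd275c141c97978f6367393fc8f540da49c8e67ed337027375c8aaf4a68b3327e4078f6343fe2398f550d43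 = true := by decide +kernel

theorem cB18_10_3_199 : chunkOkM (LB18_10.ctx true true 269 143 64 13 16 1729 2977 32 16) muQ true true 64 RtB18_10.Cx.right.right.right RtB18_10.CX RtB18_10.Ctp.right.right.right.right.left.right RtB18_10.Ce.right.right.right.left.left.right.left RtB18_10.CTp.right RtB18_10.CEr.right 0x946f306fd30ae7fb75c867f7868b26999b3a8f62f83f1de8f550d8290956fd2a99edb75c612ae468b2dc397a98f63832bea58f550d3 = true := by decide +kernel

theorem cB18_10_3_200 : chunkOkM (LB18_10.ctx true true 282 283 128 13 16 1729 6019 32 35) muQ true true 64 RtB18_10.Cx.right.right RtB18_10.CX RtB18_10.Ctp.right.right.right.right.left.right RtB18_10.Ce.right.right.right.left.left.right.right RtB18_10.CTp.right RtB18_10.CEr 0x753b6587ed31a1e1175c95aee768b2dbeab0c8f6342e96a58f550d911ef797ed317a66f75c784e4268b1aff1a9b8f6302b0bb88f550d474d49b6fd28364f875c1c87d768b2e0a0e878f639fd7afe8f550d35912038ea78ed38656ac75c637ffc038f62afa7f618f540d71ef71e7ed1b45b1775cb84d3368b3d9bdd2f8f62fe3c0688f550d6597459372c40d40d88b22c39a448f8b7f077858f630d6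 = true := by decide +kernel

theorem cB18_10_3_201 : chunkOkM (LB18_10.ctx true true 260 69 32 13 16 1743 1469 32 16) muQ true true 64 RtB18_10.Cx.right.left RtB18_10.CX RtB18_10.Ctp.right.right.right.right.right.left.left RtB18_10.Ce.right.right.right.left.left.left RtB18_10.CTp.right RtB18_10.CEr.left 0x28a72c0a88b2132f76c8f87d0fa0228f65fcd3ce88f240d = true := by decide +kernel

end Vale.Agent.helper4.Q4
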