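import Vale.Agent.helper4.Q4TreeM
import Vale.Agent.helper4.Q4G.PB18_10

/-!
Checks for pairs of intervals of second moments.
-/

set_option maxRecDepth 100000
set_option linter.unusedVariables false

namespace Vale.Agent.helper4.Q4

theorem cB18_10_3_202 : chunkOkM (LB18_10.ctx true true 290 279 128 13 16 3479 5915 64 35) muQ true true 64 RtB18_10.Cx.right.left RtB18_10.CX RtB18_10.Ctp.right.right.right.right.right.left.left RtB18_10.Ce.right.right.right.left.left.left RtB18_10.CTp.right RtB18_10.CEr.right 0x91d8dc6fd31df18f75c2003744b8f61cae29e78f5101dc8f78f250d364b252c395cfba42c9e88b1bad48e849f630d5fd4acf67ed30850d175cc390a268b194c9491d9f640d01100b9e0f39f06b8681a637ed2dd58ff75c11a983378b67f0b62d8f614c920508f517edc8f88f260d537128c52558ed31e354c75c10682b978b9fcbac2c8f6303cb4de8f250d46174e3bd58ed42bd00575c20adc58b128e3edc8f64c97bd9c8f250d7bc410a6fd6eaf3e875c34cfda788f6131f35caf9f139c63c37c9f050d4 = true := by decide +kernel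

theorem cB18_10_3_203 : chunkOkM (LB18_10.ctx true true 101 1 1 1 1 1 1 1 1) muQ true true 64 RtB18_10.Cx.right.left RtB18_10.CX RtB18_10.Ctp.right.right.right.right.right.left.right RtB18_10.Ce.right.right.right.left.left.left RtB18_10.CTp.right RtB18_10.CEr 0x01 = true := by decide +kernel

theorem cB18_10_3_204 : chunkOkM (LB18_10.ctx true true 101 1 1 1 1 1 1 1 1) muQ true true 64 RtB18_10.Cx.right.right RtB18_10.CX RtB18_10.Ctp.right.right.right.right.right.left RtB18_10.Ce.right.right.right.left.left.left RtB18_10.CTp.right RtB18_10.CEr 0x11 = true := by decide +kernel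

theorem cB18_10_3_205 : chunkOkM (LB18_10.ctx true true 101 1 1 1 1 1 1 1 1) muQ true true 64 RtB18_10.Cx.right RtB18_10.CX RtB18_10.Ctp.right.right.right.right.right.right RtB18_10.Ce.right.right.right.left.left.left RtB18_10.CTp.right RtB18_10.CEr 0x11 = true := by decide +kernel

theorem cB18_10_3_206 : chunkOkM (LB18_10.ctx true true 101 1 1 1 1 1 1 1 1) muQ true true 64 RtB18_10.Cx.right.left.left RtB18_10.CX RtB18_10.Ctp.right.right.right.right.right RtB18_10.Ce.right.right.right.left.left.right RtB18_10.CTp.right RtB18_10.CEr 0x21 = true := by decide +kernel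

theorem cB18_10_3_207 : chunkOkM (LB18_10.ctx true true 269 139 64 13 16 1743 2977 32 16) muQ true true 64 RtB18_10.Cx.right.left.right RtB18_10.CX RtB18_10.Ctp.right.right.right.right.right.left.left RtB18_10.Ce.right.right.right.left.left.right.left RtB18_10.CTp.right RtB18_10.CEr.left 0x27964a1e88b22b754f48f860d9b7718f230d = true := by decide +kernel

theorem cB18_10_3_208 : chunkOkM (LB18_10.ctx true true 286 279 128 13 16 1743 5941 64 35) muQ true true 64 RtB18_10.Cx.right.left.right RtB18_10.CX RtB18_10.Ctp.right.right.right.right.right.left.left RtB18_10.Ce.right.right.right.left.left.right.left.left RtB18_10.CTp.right RtB18_10.CEr.right 0xd1414d6fd27bf03c75c5ba5da6f92260c21e8f61f3b19bb8f5af83df17f260d530c051c895c175c50e6998b2828ac9b8f530d513034551b9f06bcece666fd36ae39b75c121ec4f78b5f8b43278f61c69b5858f574ab6ee7f260d5c8045137ed318b2c075cf2a92d68b1c800fbee9f64c2b94c18f250d76 = true := by decide +kernel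

theorem cB18_10_3_209 : chunkOkM (LB18_10.ctx true true 292 559 256 13 16 1743 5967 64 35) muQ true true 64 RtB18_10.Cx.right.left.right RtB18_10.CX RtB18_10.Ctp.right.right.right.right.right.left.left RtB18_10.Ce.right.right.right.left.left.right.left.right RtB18_10.CTp.right RtB18_10.CEr.right 0x6ca38c37ed2f009c375c841abf6f91d06de8d8f61ff137e28f5afc58587f260d44cdd7db795c136cfc0d898b525878248f6184fb42c8f540d5162c19d939f06bb0174707ed3075f5575c159c34a78bcc5fd3ff8f6185063378f550d56217217 = true := by decide +kernel

theorem cB18_10_3_210 : chunkOkM (LB18_10.ctx true true 101 1 1 1 1 1 1 1 1) muQ true true 64 RtB18_10.Cx.right.left.right RtB18_10.CX RtB18_10.Ctp.right.right.right.right.right.left.right RtB18_10.Ce.right.right.right.left.left.right.left RtB18_10.CTp.right RtB18_10.CEr 0x01 = true := by decide +kernel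

theorem cB18_10_3_211 : chunkOkM (LB18_10.ctx true true 101 1 1 1 1 1 1 1 1) muQ true true 64 RtB18_10.Cx.right.left.right RtB18_10.CX RtB18_10.Ctp.right.right.right.right.right.right RtB18_10.Ce.right.right.right.left.left.right.left RtB18_10.CTp.right RtB18_10.CEr 0x01 = true := by decide +kernel

theorem cB18_10_3_212 : chunkOkM (LB18_10.ctx true true 101 1 1 1 1 1 1 1 1) muQ true true 64 RtB18_10.Cx.right.left.right RtB18_10.CX RtB18_10.Ctp.right.right.right.right.right RtB18_10.Ce.right.right.right.left.left.right.right RtB18_10.CTp.right RtB18_10.CEr 0x21 = true := by decide +kernel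

theorem cB18_10_3_213 : chunkOkM (LB18_10.ctx true true 252 71 32 13 16 441 1495 32 16) muQ true true 64 RtB18_10.Cx.right.right RtB18_10.CX RtB18_10.Ctp.right.right.right.right.right RtB18_10.Ce.right.right.right.left.left.right RtB18_10.CTp.right RtB18_10.CEr.left 0x53978bd79b4384a5bc8f820d = true := by decide +kernel

theorem cB18_10_3_214 : chunkOkM (LB18_10.ctx true true 280 141 64 13 16 1757 5967 64 35) muQ true true 64 RtB18_10.Cx.right.right RtB18_10.CX RtB18_10.Ctp.right.right.right.right.right.left RtB18_10.Ce.right.right.right.left.left.right.left RtB18_10.CTp.right RtB18_10.CEr.right 0x69acbdb36fd261379b75c95cae96f93568ed1e8f61f2782ae8f52f16286f260d5259d6c5695c17433469a98b7371d3c48f61c7071568f540d512050d9b8ed3efdbdf75cb5b7cd68b7401757929f11561c387dbaf050dcbdeab87ed30119e375ce53e1a68b69a977d38f6228e25598f550d3a6da4d6fd2783c8175cb8d02368b1b274e8d09f640d467 = true := by decide +kernel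

theorem cB18_10_3_215 : chunkOkM (LB18_10.ctx true true 286 283 128 13 16 1743 5993 64 35) muQ true true 64 RtB18_10.Cx.right.right.left RtB18_10.CX RtB18_10.Ctp.right.right.right.right.right.left.left RtB18_10.Ce.right.right.right.left.left.right.right.left RtB18_10.CTp.right RtB18_10.CEr.right 0x14de7cc38ed389b30c75c46c41e2b8f6231ca2908f540d5e1a95f7ed210b43875c102468c78babf42a658f62583e8448f550d6e7a1c36fd211259f75cad0b1c6f9284597358f622ba74728f5640712f7f260d4854d615695c14236f92d98be8694c518f630d5bd8a5217ed2ddcde675cf9aa9068b3e565f368f626bd40018f53d517ab7f260d67 = true := by decide +kernel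

theorem cB18_10_3_216 : chunkOkM (LB18_10.ctx true true 290 283 128 13 16 3493 6019 64 35) muQ true true 64 RtB18_10.Cx.right.right.left RtB18_10.CX RtB18_10.Ctp.right.right.right.right.right.left.left RtB18_10.Ce.right.right.right.left.left.right.right.right RtB18_10.CTp.right RtB18_10.CEr.right 0x156277628ed2b234ad75cb9ff2b6f945c129c88f624d444848f550d348fcea8295ce6e3612688b1bb403d379f630d51132eedf8ed3c3c41c75ce1e4a657f62b5db3f68f540d364b0cc97ed1feb31d75cdcc22c68b3a44e6cc8f627fcc91a8f550d6697 = true := by decide +kernel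

theorem cB18_10_3_217 : chunkOkM (LB18_10.ctx true true 286 283 128 13 16 1757 6019 64 35) muQ true true 64 RtB18_10.Cx.right.right.left RtB18_10.CX RtB18_10.Ctp.right.right.right.right.right.left.right RtB18_10.Ce.right.right.right.left.left.right.right RtB18_10.CTp.right RtB18_10.CEr.right 0xe9756d6fd28d56d475cd174486f92644485c8f61fdf8c8f8f5c0b862c7f260df9e18bae99ed2c1b5f3b095cc33c7d8888b30d5e208996fd24711d375cc2e8a56f938088fdd8f240d3676024b495cf1d20a1088b25bab8ea09f630d54a8178537ed2a5e9b975cd9650468b7091b5d28f61a741e118f5bb483a87f260d97b81d27ed27ca38975ce07ff068baf9387d68f618022c248f51c2778e68f260d77750f087ed26130de75c10deddd78b161859698f639aefea48f250d46 = true := by decide +kernel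

theorem cB18_10_3_218 : chunkOkM (LB18_10.ctx true true 276 143 64 13 16 1757 6019 32 35) muQ true true 64 RtB18_10.Cx.right.right.right RtB18_10.CX RtB18_10.Ctp.right.right.right.right.right.left RtB18_10.Ce.right.right.right.left.left.right.right RtB18_10.CTp.right RtB18_10.CEr.right 0x11123b27fd2c8389e75c723ebf68b30ddd671697ed3fb61bb75c18596fa88f62a0231388f540d21734e775c1308b2278b3ac96d118f62cbf8b408f540d63af32d06fd31e1e1d75c85130768b56dcd0d28f627a474368f550d4 = true := by decide +kernel

theorem cB18_10_3_219 : chunkOkM (LB18_10.ctx true true 256 71 32 13 16 889 1495 32 16) muQ true true 64 RtB18_10.Cx.right.right RtB18_10.CX RtB18_10.Ctp.right.right.right.right.right.right RtB18_10.Ce.right.right.right.left.left.right RtB18_10.CTp.right RtB18_10.CEr.right 0x946c676fd39b439e78b5377657e8f1158527e5b9f040d = true := by decide +kernel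

theorem cB18_10_3_220 : chunkOkM (LB18_10.ctx true true 101 1 1 1 1 1 1 1 1) muQ true true 64 RtB18_10.Cx.right.left RtB18_10.CX RtB18_10.Ctp.right.right.right.right RtB18_10.Ce.right.right.right.left.right RtB18_10.CTp.right RtB18_10.CEr 0x21 = true := by decide +kernel

theorem cB18_10_3_221 : chunkOkM (LB18_10.ctx true true 278 287 128 13 16 1729 6045 32 16) muQ true true 64 RtB18_10.Cx.right.right RtB18_10.CX RtB18_10.Ctp.right.right.right.right.left RtB18_10.Ce.right.right.right.left.right RtB18_10.CTp.right RtB18_10.CEr 0x59595977cc0a77ed2da32b275c19b55868b5261f3db8f6365ffc4f8f550d2e4bf23488b26ff82478f838e449998f530d6597459359745934 = true := by decide +kernel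

theorem cB18_10_3_222 : chunkOkM (LB18_10.ctx true true 256 71 32 13 16 875 1521 32 16) muQ true true 64 RtB18_10.Cx.right.right RtB18_10.CX RtB18_10.Ctp.right.right.right.right.right.left RtB18_10.Ce.right.right.right.left.right.left RtB18_10.CTp.right RtB18_10.CEr.left 0x39520eda88b320f73518f83ab95df38f530d = true := by decide +kernel

theorem cB18_10_3_223 : chunkOkM (LB18_10.ctx true true 313 1135 512 13 16 6993 24141 64 35) muQ true true 64 RtB18_10.Cx.right.right.left RtB18_10.CX RtB18_10.Ctp.right.right.right.right.right.left RtB18_10.Ce.right.right.right.left.right.left.left RtB18_10.CTp.right RtB18_10.CEr.right 0x21dd322f17ed394429e75c7c208c68b44ef5614b9f642e28bfc8f250d4217593f169706fd27b61e875ce1a3a96f950253fc38f620008a1e8f5973fe767f260d43c13df4095c131501bca98bedae1a27f6287caa9a8f540d5863920a7ed2db90b775c10ce4e978b6345f73b8f621a90d628f574dcbd97f260d64595959accb6227ed37c313a75c99be3968b99d43f1c39f640d4597593597459343217 = true := by decide +kernel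

end Vale.Agent.helper4.Q4
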