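import Vale.Agent.helper4.Q4TreeM
import Vale.Agent.helper4.Q4G.PB18_10

/-!
Checks for pairs of intervals of second moments.
-/

set_option maxRecDepth 100000
set_option linter.unusedVariables false

namespace Vale.Agent.helper4.Q4

theorem cB18_10_3_224 : chunkOkM (LB18_10.ctx true true 282 287 128 13 16 1743 6071 32 35) muQ true true 64 RtB18_10.Cx.right.right.right RtB18_10.CX RtB18_10.Ctp.right.right.right.right.right.left.left RtB18_10.Ce.right.right.right.left.right.left.left RtB18_10.CTp.right RtB18_10.CEr.right 0xedf4316fd358220775c24f2ea8f8f6324f015a8f540d1f7889475c7af6db68b3df25a0d8f62fe387d78f540d6b1493537ed2e4e2bd75c55f2a968b2ca9c4d38f62c6043dc8f550d1395896e8ed309f65075c1b7609808f62adf94be8f540d56ddc737ed1c8296675caf875c68b3768667e8f62afa88fc8f550d674 = true := by decide +kernel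

theorem cB18_10_3_225 : chunkOkM (LB18_10.ctx true true 286 285 128 13 16 1757 6045 64 35) muQ true true 64 RtB18_10.Cx.right.right.right RtB18_10.CX RtB18_10.Ctp.right.right.right.right.right.left.right RtB18_10.Ce.right.right.right.left.right.left.left.left RtB18_10.CTp.right RtB18_10.CEr.right 0x6912c9b9c7fd244469675cfa51c66f93dc87f758f6217358fe8f550d2a8e2379695cca50d22e88b39a9bab109f630d57b213da6fd274407d75cc396a968b4e4661058f61ea75a1a8f550d6 = true := by decide +kernel

theorem cB18_10_3_226 : chunkOkM (LB18_10.ctx true true 290 287 128 13 16 3521 6071 64 35) muQ true true 64 RtB18_10.Cx.right.right.right RtB18_10.CX RtB18_10.Ctp.right.right.right.right.right.left.right RtB18_10.Ce.right.right.right.left.right.left.left.right RtB18_10.CTp.right RtB18_10.CEr.right 0xefad4cd7ed35dede175c5988bd6f942c078d48f624ae89268f550d69fc70b7ed23ee63875ca4d8ea68b7927706d8f627efd5fc8f550d6ed73afa7ed260130975cf733ef6f930213b8a8f6235c636a8f5602ab0e7f260dd178116fd211f1c375cea4f916f9bbd5b867f62b15b54e8f550d33480b18ef95cfab6c00588bd3585a168f630d53655cf87ed23cd93175c15ca08378b602137a88f6268eb3968f550d67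 = true := by decide +kernel

theorem cB18_10_3_227 : chunkOkM (LB18_10.ctx true true 101 1 1 1 1 1 1 1 1) muQ true true 64 RtB18_10.Cx.right.right.left RtB18_10.CX RtB18_10.Ctp.right.right.right.right.right.left RtB18_10.Ce.right.right.right.left.right.left.right RtB18_10.CTp.right RtB18_10.CEr.right 0x21 = true := by decide +kernel

theorem cB18_10_3_228 : chunkOkM (LB18_10.ctx true true 269 143 64 13 16 1743 3055 32 16) muQ true true 64 RtB18_10.Cx.right.right.right RtB18_10.CX RtB18_10.Ctp.right.right.right.right.right.left.left RtB18_10.Ce.right.right.right.left.right.left.right RtB18_10.CTp.right RtB18_10.CEr.right 0xb6884b6fd298ad0d75c311c5768b3ed846eb8f632a43bfb8f550d = true := by decide +kernel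

theorem cB18_10_3_229 : chunkOkM (LB18_10.ctx true true 299 571 256 13 16 3521 12181 64 35) muQ true true 64 RtB18_10.Cx.right.right.right RtB18_10.CX RtB18_10.Ctp.right.right.right.right.right.left.right RtB18_10.Ce.right.right.right.left.right.left.right.left RtB18_10.CTp.right RtB18_10.CEr.right 0x113cf217fd25c9f5975c130d5177f9284c55c98f627350ca88f550d30912887295cdb3ce00988b2ac3b8948f530d5ff0cce47ed2fec99075c7ebfe96f914b82bfb8f62cc5a6be8f550d31916bd175c14e389078b2614ea248f62ec800118f540d669104c139d8ed267227c75c11bf52b7f91becc5ad79f613e5189c8f550d32b70d10695ce492384d88b1ec621b6d9f630d5625eb077ed1d4c77675cb8139568b1d0562f0f9f640d642175937 = true := by decide +kernel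

theorem cB18_10_3_230 : chunkOkM (LB18_10.ctx true true 295 575 256 13 16 3521 12233 32 35) muQ true true 64 RtB18_10.Cx.right.right.right RtB18_10.CX RtB18_10.Ctp.right.right.right.right.right.left.right RtB18_10.Ce.right.right.right.left.right.left.right.right RtB18_10.CTp.right RtB18_10.CEr.right 0x69b6d6d517ed3846d3875ca20ef86f9b3bdd4d78f623ed296f8f550d2a1d4fa75c115f31d78b285015078f62a61b3e98f540d66974593217 = true := by decide +kernel

theorem cB18_10_3_231 : chunkOkM (LB18_10.ctx true true 101 1 1 1 1 1 1 1 1) muQ true true 64 RtB18_10.Cx.right.right.left RtB18_10.CX RtB18_10.Ctp.right.right.right.right.right.right RtB18_10.Ce.right.right.right.left.right.left RtB18_10.CTp.right RtB18_10.CEr 0x01 = true := by decide +kernel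

theorem cB18_10_3_232 : chunkOkM (LB18_10.ctx true true 266 143 64 13 16 1771 1521 32 16) muQ true true 64 RtB18_10.Cx.right.right.right RtB18_10.CX RtB18_10.Ctp.right.right.right.right.right.right.left RtB18_10.Ce.right.right.right.left.right.left RtB18_10.CTp.right RtB18_10.CEr.left 0x3e19ddd388b2dde9c568f8800b6a398f62af1668a8f240d = true := by decide +kernel

theorem cB18_10_3_233 : chunkOkM (LB18_10.ctx true true 269 143 64 13 16 1771 3029 32 16) muQ true true 64 RtB18_10.Cx.right.right.right RtB18_10.CX RtB18_10.Ctp.right.right.right.right.right.right.left RtB18_10.Ce.right.right.right.left.right.left.left RtB18_10.CTp.right RtB18_10.CEr.right 0xec60df6fd3d3fa4275c5ac42668bb578e287f6345a740e8f250d = true := by decide +kernel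

theorem cB18_10_3_234 : chunkOkM (LB18_10.ctx true true 293 287 128 13 16 3535 12207 64 35) muQ true true 64 RtB18_10.Cx.right.right.right RtB18_10.CX RtB18_10.Ctp.right.right.right.right.right.right.left RtB18_10.Ce.right.right.right.left.right.left.right.left RtB18_10.CTp.right RtB18_10.CEr.right 0x1111405c37fd2684c1c75c13959fa7f92915bbfcb9f640d31b05c431114ba77fd272deb075c12cffbf7f92ae64c6b8f6204ee2218f5def84367f260d7c8810aa0c9ed2738f1b4f95cabcfb1cd88bfc7fc0f58f640d5da707f6ed20d5dd975c139548b78b244dada78f61c955b788f518d655368f260d6 = true := by decide +kernel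

theorem cB18_10_3_235 : chunkOkM (LB18_10.ctx true true 302 575 256 13 16 3549 12259 64 75) muQ true true 64 RtB18_10.Cx.right.right.right RtB18_10.CX RtB18_10.Ctp.right.right.right.right.right.right.left RtB18_10.Ce.right.right.right.left.right.left.right.right RtB18_10.CTp.right RtB18_10.CEr.right 0x88ad0e6fd1c986ce75c5897e7438f63b7c5e048f240d31574767ed2adea1775c25567007f970dd4cc28f623ec2b818f550d2cb6856fd27fcc5a75ce4ece23c8f61bc691ff8f540d62172d66f2a7ed2b8003575c242b42c7f93e120d048f620a464b98f562f8f207f260d40ad6d275c4257af3f8f62224ad1e8f56b42c8d7f240d64338dc09dfd95c1000ce9f798b135135d18f62a0e28038f540d51af95bb7ed26fa09775c12a3fce78b5d96e9178f6235e21ac8f585ba6e87f260d6217 = true := by decide +kernel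

theorem cB18_10_3_236 : chunkOkM (LB18_10.ctx true true 101 1 1 1 1 1 1 1 1) muQ true true 64 RtB18_10.Cx.right.right.right RtB18_10.CX RtB18_10.Ctp.right.right.right.right.right.right.right RtB18_10.Ce.right.right.right.left.right.left RtB18_10.CTp.right RtB18_10.CEr 0x01 = true := by decide +kernel

theorem cB18_10_3_237 : chunkOkM (LB18_10.ctx true true 306 1151 512 13 16 3549 12285 64 35) muQ true true 64 RtB18_10.Cx.right.right RtB18_10.CX RtB18_10.Ctp.right.right.right.right.right RtB18_10.Ce.right.right.right.left.right.right RtB18_10.CTp.right RtB18_10.CEr 0x21212101123fd9888ed26953c975c162ef937f92f3b77bc09f619a40ee08f250d1364ec4e8ed2472c2b75c16d2a367f97fafd2c649f640d3303b7cf5f95cda94762e88b1e8bf8568f624b171d88f5e99fee6f250d5299f2f475c141ef3d78bbf49ea798f618b9ada28f5295215b7f250d6335dce97288b2f859ff28f820d6217421742170174593 = true := by decide +kernel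

theorem cB18_10_3_238 : chunkOkM (LB18_10.ctx true true 101 1 1 1 1 1 1 1 1) muQ true true 64 RtB18_10.Cx RtB18_10.CX RtB18_10.Ctp.right.right.right RtB18_10.Ce.right.right.right.right RtB18_10.CTp.right RtB18_10.CEr 0x21 = true := by decide +kernel

theorem cB18_10_2_0 : chunkOkM (LB18_10.ctx false true 101 1 1 1 1 1 1 1 1) muQ false true 64 RtB18_10.Cx RtB18_10.CX RtB18_10.Ctn RtB18_10.Ce RtB18_10.CTp RtB18_10.CEr 0x49 = true := by decide +kernel

theorem cB18_10_1_0 : chunkOkM (LB18_10.ctx true false 101 1 1 1 1 1 1 1 1) muQ true false 64 RtB18_10.Cx RtB18_10.CX RtB18_10.Ctp RtB18_10.Ce RtB18_10.CTn RtB18_10.CEr 0x4a = true := by decide +kernel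

theorem cB18_10_0_0 : chunkOkM (LB18_10.ctx false false 101 1 1 1 1 1 1 1 1) muQ false false 64 RtB18_10.Cx RtB18_10.CX RtB18_10.Ctn RtB18_10.Ce RtB18_10.CTn RtB18_10.CEr 0x49 = true := by decide +kernel

end Vale.Agent.helper4.Q4
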