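import Vale.Agent.helper4.Q4TreeM
import Vale.Agent.helper4.Q4G.PB18_10

/-!
Checks for pairs of intervals of second moments.
-/

set_option maxRecDepth 100000
set_option linter.unusedVariables false

namespace Vale.Agent.helper4.Q4

theorem cB18_10_3_54 : chunkOkM (LB18_10.ctx true true 288 259 128 13 16 1673 5447 128 32) muQ true true 64 RtB18_10.Cx.left.left.left RtB18_10.CX RtB18_10.Ctp.right.right.right.left.right.right RtB18_10.Ce.right.right.left.right.left.left.left RtB18_10.CTp.right RtB18_10.CEr.right.left 0x1feb84dc8ed1ba5eae75c4bbea38e8f61421d1b78f540d1283b8b7fd21aa1e675c10465b278b14cee37379f640d10d55857fd1abb3d275c8eb13c68bb33f8d018f61445dc7e8f550d1477c2e68ed1caac4575cc6041968be1a9c8fc8f68bfde837f550d734a55137af06f8ed15ee51275cfdd614c18f630d159155b7fd17f282375ce7453d68bfdd614c18f640d4a554 = true := by decide +kernel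

theorem cB18_10_3_55 : chunkOkM (LB18_10.ctx true true 285 259 128 13 16 1673 5447 64 35) muQ true true 64 RtB18_10.Cx.left.left.left RtB18_10.CX RtB18_10.Ctp.right.right.right.left.right.right RtB18_10.Ce.right.right.left.right.left.left.left RtB18_10.CTp.right RtB18_10.CEr.right.right 0x16cebed7fd29f34f575c17f4ce2e19f630d1710f5bc8ed1eccf7275c16125abed9f630d1a3fdf228ed1dcc48c75cd7b63b1e8f67e9c0117f540d73166ea747fd2858b1d75c12b77ab8f9f630d45d494ab1795c1a395960b98b47978d668f6f61453f7f540d5 = true := by decide +kernel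

theorem cB18_10_3_56 : chunkOkM (LB18_10.ctx true true 101 1 1 1 1 1 1 1 1) muQ true true 64 RtB18_10.Cx.left.left.right RtB18_10.CX RtB18_10.Ctp.right.right.right.left.right.right RtB18_10.Ce.right.right.left.right.left.left.left RtB18_10.CTp.right RtB18_10.CEr.right 0x69 = true := by decide +kernel

theorem cB18_10_3_57 : chunkOkM (LB18_10.ctx true true 289 259 128 13 16 1659 5499 128 32) muQ true true 64 RtB18_10.Cx.left.left.left RtB18_10.CX RtB18_10.Ctp.right.right.right.left.right.right.left RtB18_10.Ce.right.right.left.right.left.left.right RtB18_10.CTp.right RtB18_10.CEr.right.left 0xd2dc3dc7edb14ffe65c11a690d6a9f61203c6f58f540d11dd21568ed1aeb0f875cceffab68b5000f3098f620aee4008f550d4a55697396e11f78ed10c14cc75c23c63cd08f62170649a8f540d128cb7a48ed173ed2875cc0c07168ba7f963268f6116a4d798f550d4a55a6d85d97ed22d954c699f620d14308d968ed1d3da3775cc521fd68bf953ffe38f696c8cc57f550d4a5574 = true := by decide +kernel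

theorem cB18_10_3_58 : chunkOkM (LB18_10.ctx true true 294 515 256 13 16 1673 5499 128 32) muQ true true 64 RtB18_10.Cx.left.left.left RtB18_10.CX RtB18_10.Ctp.right.right.right.left.right.right.right RtB18_10.Ce.right.right.left.right.left.left.right RtB18_10.CTp.right RtB18_10.CEr.right.left 0x318884348edbe0ac165c1150f4d579f630d18d15f568ed1bcd74b75ceac8a368bf674e52f8f640d4a553bb49b598ed3a971a1584ce48b40458f630d13882fb38ed1dae42575cee2fd768bfc512b688f6d26629a7f250d4a552177aae66c47ed1245bc8a39f620d17700787fd20210c775ce02da868bdd7c54238f6127e4f77f250d4a554 = true := by decide +kernel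

theorem cB18_10_3_59 : chunkOkM (LB18_10.ctx true true 285 259 128 13 16 1673 5499 64 35) muQ true true 64 RtB18_10.Cx.left.left.left RtB18_10.CX RtB18_10.Ctp.right.right.right.left.right.right RtB18_10.Ce.right.right.left.right.left.left.right RtB18_10.CTp.right RtB18_10.CEr.right.right 0x162afb2a8ed276a0ae75c139c4549f9f630d199dd10d8ed1f91e9275cd32009fd8f699d1d4f7f240d7152861588ed298817375c211ecc2349f630d1bf6e7a28ed204a95a75cef8ebe3d8f63a952bb7f240d7416c39ac7fd23472d075c7fc1489c8f61a6a9d2d8f540d697185873938ed1e3ae1e75c7236a3838f61407bf1d8f540d19e8ade7fd1c7077b75c144fe8a029f630d74379353e00095c222559fa798b28d257308f612e5e9ee8f540d5 = true := by decide +kernel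

theorem cB18_10_3_60 : chunkOkM (LB18_10.ctx true true 289 263 128 13 16 1673 5499 128 32) muQ true true 64 RtB18_10.Cx.left.left.right RtB18_10.CX RtB18_10.Ctp.right.right.right.left.right.right RtB18_10.Ce.right.right.left.right.left.left.right RtB18_10.CTp.right RtB18_10.CEr.right.left 0x567b956f01c25069fe7fd594b44175c8f95ee68b2468c58c99f640d56bfc1d6f06c20368fd7fd4b6516175c809ff968b6ce9033f8f6227258698f550d51011ddf78ed16d8f7b75c18252c688f625d3ba038f540dec6f4fc7ed1932c1375c9b442768b3b32bb3d8f6221ad41e8f550d4a55738237b66f06c3141fe27fd56d71d075c74e98368b90a0b0798f61b052e688f550d54 = true := by decide +kernel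

theorem cB18_10_3_61 : chunkOkM (LB18_10.ctx true true 272 131 64 13 16 833 2743 64 35) muQ true true 64 RtB18_10.Cx.left.left.right RtB18_10.CX RtB18_10.Ctp.right.right.right.left.right.right RtB18_10.Ce.right.right.left.right.left.left.right RtB18_10.CTp.right RtB18_10.CEr.right.right 0x18c41427fd1aab7da75c9355096f9550533958f616c12ff18f550d521ad30e295c171697d0998b4f324b018f6170631c98f540d5 = true := by decide +kernel

theorem cB18_10_3_62 : chunkOkM (LB18_10.ctx true true 255 67 32 13 16 819 1365 32 16) muQ true true 64 RtB18_10.Cx.left.right RtB18_10.CX RtB18_10.Ctp.right.right.right.left.right.left RtB18_10.Ce.right.right.left.right.left.left RtB18_10.CTp.right RtB18_10.CEr.left 0xe1352d1a88b84b57ed08f820d = true := by decide +kernel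

theorem cB18_10_3_63 : chunkOkM (LB18_10.ctx true true 262 67 32 13 16 819 2717 32 35) muQ true true 64 RtB18_10.Cx.left.right RtB18_10.CX RtB18_10.Ctp.right.right.right.left.right.left RtB18_10.Ce.right.right.left.right.left.left.left RtB18_10.CTp.right RtB18_10.CEr.right 0x192fb397fd4e6009d75c6067b00d8f63ae6ed378f540d1c146397fd279918a75c8885e2378f63caee96f8f540d6 = true := by decide +kernel

theorem cB18_10_3_64 : chunkOkM (LB18_10.ctx true true 275 135 64 13 16 1645 5499 32 35) muQ true true 64 RtB18_10.Cx.left.right RtB18_10.CX RtB18_10.Ctp.right.right.right.left.right.left RtB18_10.Ce.right.right.left.right.left.left.right RtB18_10.CTp.right RtB18_10.CEr.right 0x1578b307fd2e60d6575c42a8d6b28f63956b34a8f540d2681b4098ed3930ada75c3d3b66ca8f628b2b9578f540d237fbc5e8ed4756d9475c34b2126c8f62e3fb32d8f540d624926e718ed32ed4e875c195444858f632d4efbf8f540d1bdcc4198ed280964b75cdb2b2768bea739b37f636456d1c8f550d62220387f8ed3430a1275c1e7a453b8f62dc820058f540d1df82e998ed389f8ee75c37efec328f636cd0b158f540d6437 = true := by decide +kernel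

theorem cB18_10_3_65 : chunkOkM (LB18_10.ctx true true 101 1 1 1 1 1 1 1 1) muQ true true 64 RtB18_10.Cx.left.right RtB18_10.CX RtB18_10.Ctp.right.right.right.left.right.right RtB18_10.Ce.right.right.left.right.left.left RtB18_10.CTp.right RtB18_10.CEr 0x69 = true := by decide +kernel

theorem cB18_10_3_66 : chunkOkM (LB18_10.ctx true true 251 65 32 13 16 413 1391 32 16) muQ true true 64 RtB18_10.Cx.left.left RtB18_10.CX RtB18_10.Ctp.right.right.right.left.right RtB18_10.Ce.right.right.left.right.left.right RtB18_10.CTp.right RtB18_10.CEr.left 0xc0a008d388b71355d5c8f85a4b17d88f630d = true := by decide +kernel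

theorem cB18_10_3_67 : chunkOkM (LB18_10.ctx true true 284 263 128 13 16 3297 5525 32 35) muQ true true 64 RtB18_10.Cx.left.left RtB18_10.CX RtB18_10.Ctp.right.right.right.left.right.left RtB18_10.Ce.right.right.left.right.left.right RtB18_10.CTp.right RtB18_10.CEr.right 0x595926c71ee7fd4412b7675c14df9c8d8f6298e1ec68f540d21d3f0ac8ed3e2bc7a75c1161fd228f62ed529448f540d659359745935974 = true := by decide +kernel

end Vale.Agent.helper4.Q4
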