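import Vale.Agent.helper4.Q4TreeM
import Vale.Agent.helper4.Q4G.PB18_10

/-!
Checks for pairs of intervals of second moments.
-/

set_option maxRecDepth 100000
set_option linter.unusedVariables false

namespace Vale.Agent.helper4.Q4

theorem cB18_10_3_68 : chunkOkM (LB18_10.ctx true true 289 259 128 13 16 1673 5525 128 35) muQ true true 64 RtB18_10.Cx.left.left.left RtB18_10.CX RtB18_10.Ctp.right.right.right.left.right.right RtB18_10.Ce.right.right.left.right.left.right.left RtB18_10.CTp.right RtB18_10.CEr.right 0x69192ed9928ed204529975c1134e094b9f630d63b6de59c95c1c1b3738e98ba46827238f630d5bcb2bd77eda9ac0665c1343af2309f630d133b1dfc8ed1fd04fb75ccbbed268b1528c07839f640d4a5564217693 = true := by decide +kernel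

theorem cB18_10_3_69 : chunkOkM (LB18_10.ctx true true 306 523 256 13 16 6629 11037 128 35) muQ true true 64 RtB18_10.Cx.left.left.right RtB18_10.CX RtB18_10.Ctp.right.right.right.left.right.right.left RtB18_10.Ce.right.right.left.right.left.right.left.left RtB18_10.CTp.right RtB18_10.CEr.right 0x12019bd7fd267cebc75c21e853318f6216201658f540d58420231695c18854811198b20d5166cae7e8ed2406f8875c1cba41048f6276f30088f540d222140e38ed4fb930c75cb8744268b384ac38d8f62520feb48f550d5d7e4f727ed1ae936c784c4e90de538f624836e138f540d16b0d0958ed21a2fde75cb721aa68b4012e3b48f61c08e6498f550d4a5559778ccf97ed1d57762609f6257025d08f530d2022f8658ed4ad100375c7d158968b9a619e0e8f624c74fc18f550d55935974376 = true := by decide +kernel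

theorem cB18_10_3_70 : chunkOkM (LB18_10.ctx true true 289 263 128 13 16 3325 5551 64 35) muQ true true 64 RtB18_10.Cx.left.left.right RtB18_10.CX RtB18_10.Ctp.right.right.right.left.right.right.left RtB18_10.Ce.right.right.left.right.left.right.left.right RtB18_10.CTp.right RtB18_10.CEr.right 0xd4d9356fd222bbcb75c1929c73e8f623cfc8a38f540d5a71c06e195c1973dee7498b28bbd5448f530d5abf3c177edf7eef265c6506e7318f62d1aea698f540d1e7ee63e8ed48c4b0f75c8faf6968b2fc2682d8f62760e1038f550d529502c818ed406376775cecaef58b3877dce7f62ef361d28f550d36697 = true := by decide +kernel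

theorem cB18_10_3_71 : chunkOkM (LB18_10.ctx true true 288 263 128 13 16 1673 5551 128 32) muQ true true 64 RtB18_10.Cx.left.left.right RtB18_10.CX RtB18_10.Ctp.right.right.right.left.right.right.right RtB18_10.Ce.right.right.left.right.left.right.left RtB18_10.CTp.right RtB18_10.CEr.right.left 0x335a1f608ed1a6afcd75c42fa7fa68f61c60b6f18f540de7113b6fd1760f2775cce8c5768b811a05af8f6172f4cfc8f550d4a552a6931828ed32adf1d75c11ff31ab19f690f13727f540d142cc6428ed1d30a4675ccb2be168bbdb6a4038f6ec307057f550d4a557294389838ed213178875c7ebd81998f6169923d48f540d1033fa87fd170f34e75c101b20378b81b495988f614e077a48f550d4a554 = true := by decide +kernel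

theorem cB18_10_3_72 : chunkOkM (LB18_10.ctx true true 285 263 128 13 16 1673 5551 64 35) muQ true true 64 RtB18_10.Cx.left.left.right RtB18_10.CX RtB18_10.Ctp.right.right.right.left.right.right.right RtB18_10.Ce.right.right.left.right.left.right.left RtB18_10.CTp.right RtB18_10.CEr.right.right 0x1522263e8ed250783e75c4e44de468f61eacbce08f540d17c980668ed1fef44175cba757ebd8f6c0529007f540d7173054d7fd1f9fcf775c7cc8701d8f612f88e948f540d4606715c7795c1b313ea0e98b17d9f3c68f621f57bd38f540d5 = true := by decide +kernel

theorem cB18_10_3_73 : chunkOkM (LB18_10.ctx true true 101 1 1 1 1 1 1 1 1) muQ true true 64 RtB18_10.Cx.left.left.left RtB18_10.CX RtB18_10.Ctp.right.right.right.left.right.right RtB18_10.Ce.right.right.left.right.left.right.right RtB18_10.CTp.right RtB18_10.CEr.right 0x21 = true := by decide +kernel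

theorem cB18_10_3_74 : chunkOkM (LB18_10.ctx true true 101 1 1 1 1 1 1 1 1) muQ true true 64 RtB18_10.Cx.left.left.right RtB18_10.CX RtB18_10.Ctp.right.right.right.left.right.right.left RtB18_10.Ce.right.right.left.right.left.right.right RtB18_10.CTp.right RtB18_10.CEr.right 0x59 = true := by decide +kernel

theorem cB18_10_3_75 : chunkOkM (LB18_10.ctx true true 330 2111 1024 13 16 13377 44629 128 32) muQ true true 64 RtB18_10.Cx.left.left.right RtB18_10.CX RtB18_10.Ctp.right.right.right.left.right.right.right RtB18_10.Ce.right.right.left.right.left.right.right.left RtB18_10.CTp.right RtB18_10.CEr.right.left 0x102fa8c18ed1d2ccb275ccfc29bc58f6164a17478f540df28e9277ed1f437f075cb68b7668b37a3331c8f620461f228f550d4a55596920fc2cd68f05b130d50158ed298c63d75c1a517e0087b37ef241869f640d546976934597593597ff4de347ed1af4238984c4094174e8f61fca919b8f540d241e629e8ed4d5e30175c862d3168b687428ca8f62339029f8f550d543592dfef7d48ed4e4722575c306d5168b280b624dbeaf640d69346975937 = true := by decide +kernel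

theorem cB18_10_3_76 : chunkOkM (LB18_10.ctx true true 285 263 128 13 16 1673 5577 64 35) muQ true true 64 RtB18_10.Cx.left.left.right RtB18_10.CX RtB18_10.Ctp.right.right.right.left.right.right.right RtB18_10.Ce.right.right.left.right.left.right.right.left RtB18_10.CTp.right RtB18_10.CEr.right.right 0x108980ce8ed2c2ba3675ca06e8b898f6140a35468f540d1c0aad67fd2757e1e75c1d196fa649f630d76e59a566a95c1f011c74498b20d5 = true := by decide +kernel

theorem cB18_10_3_77 : chunkOkM (LB18_10.ctx true true 312 1055 512 13 16 6713 22373 64 35) muQ true true 64 RtB18_10.Cx.left.left.right RtB18_10.CX RtB18_10.Ctp.right.right.right.left.right.right.right RtB18_10.Ce.right.right.left.right.left.right.right.right RtB18_10.CTp.right RtB18_10.CEr.right 0x596931fbc85a8ed2d8201675c186b41e3b9f630d426d427ff95c12b8c9a3a98b4f3a9e78f9f630d51539e9a459f06b164a4cdf8ed3a18a1d75c154df73887b1d16db6c79f640d5646976934597593217 = true := by decide +kernel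

theorem cB18_10_3_78 : chunkOkM (LB18_10.ctx true true 258 67 32 13 16 819 2769 32 16) muQ true true 64 RtB18_10.Cx.left.right RtB18_10.CX RtB18_10.Ctp.right.right.right.left.right.left RtB18_10.Ce.right.right.left.right.left.right.left RtB18_10.CTp.right RtB18_10.CEr.left 0x1541c5cb88b193a19748f868b450ce8f64b9ff2e68f540d = true := by decide +kernel

theorem cB18_10_3_79 : chunkOkM (LB18_10.ctx true true 288 267 128 13 16 3297 11089 32 35) muQ true true 64 RtB18_10.Cx.left.right.left RtB18_10.CX RtB18_10.Ctp.right.right.right.left.right.left RtB18_10.Ce.right.right.left.right.left.right.left RtB18_10.CTp.right RtB18_10.CEr.right 0x1e4145788ed3b729c175c49869a108f62f1a0e028f540d1542f4d48ed114fdc275c97800068b4e6dcc818f62b8e036a8f550d6592753acb78ed3999c1d75c5011cb048f62d5b3f1a8f540d21a788848ed386d21075c4088f968b95f7de728f62cb169648f550d645937258acded8ed3f5facb75c1d8a7a1e8f6297844d58f540d2da03aa88ed36d94c875c66b09068b2622b5728f631c97b088f550d64186da577fd38e21ef75c2d2fd9288f638625c2d8f540d3 = true := by decide +kernel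

end Vale.Agent.helper4.Q4
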