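import Vale.Agent.helper4.Q4TreeM
import Vale.Agent.helper4.Q4G.PB18_10

/-!
Checks for pairs of intervals of second moments.
-/

set_option maxRecDepth 100000
set_option linter.unusedVariables false

namespace Vale.Agent.helper4.Q4

theorem cB18_10_3_80 : chunkOkM (LB18_10.ctx true true 271 135 64 13 16 1645 5551 32 16) muQ true true 64 RtB18_10.Cx.left.right.right RtB18_10.CX RtB18_10.Ctp.right.right.right.left.right.left RtB18_10.Ce.right.right.left.right.left.right.left RtB18_10.CTp.right RtB18_10.CEr.right 0x16c084d68ed3782a5875c28b780048f6328d133c8f540d14c683ef8ed2fa3aa175c2767a7be8f63cd37f218f540d164765668ed30bb00075c3545e29d8f63cdabcad8f540d43 = true := by decide +kernel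

theorem cB18_10_3_81 : chunkOkM (LB18_10.ctx true true 294 535 256 13 16 3297 11141 32 35) muQ true true 64 RtB18_10.Cx.left.right RtB18_10.CX RtB18_10.Ctp.right.right.right.left.right.left RtB18_10.Ce.right.right.left.right.left.right.right RtB18_10.CTp.right RtB18_10.CEr 0x152955e98ed34df2d775c329023e78f6396b58158f540d1c9e4f3c8ed3423f8675c214406408f62fc60d0d8f540d1b74358c8ed3206cf575c19aa1add8f637ba650a8f540d6412f84ec7fd262625b75c233d65018f640d820378f540d35959183a27a98ed3a5cecd75c216d29448f630c2a6c08f540d597459359745937295b916988b228ea08f8f841ca7cc38f530d6 = true := by decide +kernel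

theorem cB18_10_3_82 : chunkOkM (LB18_10.ctx true true 255 67 32 13 16 833 1391 32 16) muQ true true 64 RtB18_10.Cx.left.right RtB18_10.CX RtB18_10.Ctp.right.right.right.left.right.right RtB18_10.Ce.right.right.left.right.left.right RtB18_10.CTp.right RtB18_10.CEr.left 0xa2d7071888b58068fa48f86822bf8e8f63205718f8f540d = true := by decide +kernel

theorem cB18_10_3_83 : chunkOkM (LB18_10.ctx true true 288 267 128 13 16 3325 5551 64 32) muQ true true 64 RtB18_10.Cx.left.right.left RtB18_10.CX RtB18_10.Ctp.right.right.right.left.right.right RtB18_10.Ce.right.right.left.right.left.right.left RtB18_10.CTp.right RtB18_10.CEr.right.left 0x021cd0297fd50136ea75c2f6e0468b17e1b3818f540d5146d1c128ed235512575cd76e9868b8af4622a8f62bb6c4078f550d2387e0618f05b1b8e9007fd40a51a775c8ac5bc68b8ab0f6748f62a1a161b8f550d52dd552718ed48cfe3e75c1c9bda0d8f62ce9e7ba8f540d3721f1e8338ed3e3f30275c87e781d88f626952c308f540d43 = true := by decide +kernel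

theorem cB18_10_3_84 : chunkOkM (LB18_10.ctx true true 272 133 64 13 16 833 2769 64 35) muQ true true 64 RtB18_10.Cx.left.right.left RtB18_10.CX RtB18_10.Ctp.right.right.right.left.right.right RtB18_10.Ce.right.right.left.right.left.right.left RtB18_10.CTp.right RtB18_10.CEr.right.right 0x12e091f7fd2f39d9275c490f37c78f6282e7bd28f540d4a25ba4f995c14dc7827598b294b15cb8f6233c213d8f540d5 = true := by decide +kernel

theorem cB18_10_3_85 : chunkOkM (LB18_10.ctx true true 101 1 1 1 1 1 1 1 1) muQ true true 64 RtB18_10.Cx.left.right.right RtB18_10.CX RtB18_10.Ctp.right.right.right.left.right.right RtB18_10.Ce.right.right.left.right.left.right.left RtB18_10.CTp.right RtB18_10.CEr.right 0x69 = true := by decide +kernel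

theorem cB18_10_3_86 : chunkOkM (LB18_10.ctx true true 285 267 128 13 16 1659 5603 64 35) muQ true true 64 RtB18_10.Cx.left.right.left RtB18_10.CX RtB18_10.Ctp.right.right.right.left.right.right.left RtB18_10.Ce.right.right.left.right.left.right.right RtB18_10.CTp.right RtB18_10.CEr.right 0x1f6c3467fd408803b75c145684218f62ea32c988f540d1ee217198ed3f32aa775c188e5aa08f6304e8fcd8f540d6597b4ea246fd21c1b8275c178726da8f6292fcd818f540d55708536b95c18122c88c98b52582257f627f1168a8f540d5265e4c3a8ed431a95675c1afd6c178f62bbcf0f68f540d64 = true := by decide +kernel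

theorem cB18_10_3_87 : chunkOkM (LB18_10.ctx true true 284 267 128 13 16 1673 5577 64 32) muQ true true 64 RtB18_10.Cx.left.right.left RtB18_10.CX RtB18_10.Ctp.right.right.right.left.right.right.right RtB18_10.Ce.right.right.left.right.left.right.right.left RtB18_10.CTp.right RtB18_10.CEr.right.left 0x18f9d60e8ed258766675c102d21878b1b933ed48f540d25f8afb58f05b27b7f757fd48612f675ce814a268b44486c698f623b190048f550d57 = true := by decide +kernel

theorem cB18_10_3_88 : chunkOkM (LB18_10.ctx true true 291 267 128 13 16 3353 11219 64 32) muQ true true 64 RtB18_10.Cx.left.right.left RtB18_10.CX RtB18_10.Ctp.right.right.right.left.right.right.right RtB18_10.Ce.right.right.left.right.left.right.right.right RtB18_10.CTp.right RtB18_10.CEr.right.left 0x232462c78f05b23e31197fd4df366e75c4ba85b68b592b9a2d8f62568c1b48f550d51021670b8ed195e40e75c4488c037f62a1028a18f540d281740558ed4cfbb5875c9c4d9968b6febfda08f621538c5a8f550d5233c758e8ed3e489bd75c25e64f68b5a3589d28f62d26166c8f550d2a1a84348f05b1a8249e38ed4205bc375c9e715668b38d3620f8f62a5acc398f550d5437 = true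 := by decide +kernel

theorem cB18_10_3_89 : chunkOkM (LB18_10.ctx true true 276 133 64 13 16 1673 2795 64 35) muQ true true 64 RtB18_10.Cx.left.right.left RtB18_10.CX RtB18_10.Ctp.right.right.right.left.right.right.right RtB18_10.Ce.right.right.left.right.left.right.right RtB18_10.CTp.right RtB18_10.CEr.right.right 0x1088b8e7fd273592875c26b7a5c68f622500dc48f540d559c91f2795c181b67db798babff99d7f627d49e508f540d5 = true := by decide +kernel

theorem cB18_10_3_90 : chunkOkM (LB18_10.ctx true true 268 135 64 13 16 833 2795 32 35) muQ true true 64 RtB18_10.Cx.left.right.right RtB18_10.CX RtB18_10.Ctp.right.right.right.left.right.right RtB18_10.Ce.right.right.left.right.left.right.right RtB18_10.CTp.right RtB18_10.CEr.right 0x23080317fd3fa78d075c40bc2f68b2e03a4788f62b4e1e248f550d241c62b7fd3aa134575c817148b63ab94998f62e98c2c28f550d6 = true := by decide +kernel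

theorem cB18_10_3_91 : chunkOkM (LB18_10.ctx true true 268 139 64 13 16 1645 2795 32 16) muQ true true 64 RtB18_10.Cx.right RtB18_10.CX RtB18_10.Ctp.right.right.right.left RtB18_10.Ce.right.right.left.right.left RtB18_10.CTp.right RtB18_10.CEr 0x694985717ec08f04b126aac17fd295e0eb75c1b65639f8f636e848eb8f540d118183208ed23aabbb75c37777bdd8f641d1727b8f511b273b08f450d37466a27fc88b3a33727b8f820d611899827fd2322e0975c53638c908f644f2c0848f5116488718f450d2e30cffd88b42f9ea3f8f820d6473694493 = true := by decide +kernel

theorem cB18_10_3_92 : chunkOkM (LB18_10.ctx true true 234 17 8 13 16 399 715 32 8) muQ true true 64 RtB18_10.Cx RtB18_10.CX RtB18_10.Ctp.right.right.right.left.left RtB18_10.Ce.right.right.left.right.right RtB18_10.CTp.right RtB18_10.CEr 0x5280dc69b1b67acb7f847b4d0e5e9f5e81575ada9f440d = true := by decide +kernel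

theorem cB18_10_3_93 : chunkOkM (LB18_10.ctx true true 101 1 1 1 1 1 1 1 1) muQ true true 64 RtB18_10.Cx.left.left RtB18_10.CX RtB18_10.Ctp.right.right.right.left.right RtB18_10.Ce.right.right.left.right.right.left RtB18_10.CTp.right RtB18_10.CEr 0x59 = true := by decide +kernel

theorem cB18_10_3_94 : chunkOkM (LB18_10.ctx true true 294 543 256 13 16 6601 11245 32 16) muQ true true 64 RtB18_10.Cx.left.right RtB18_10.CX RtB18_10.Ctp.right.right.right.left.right.left RtB18_10.Ce.right.right.left.right.right.left RtB18_10.CTp.right RtB18_10.CEr 0x59595912da4bf38ed2a054fd75c1971558bb7fc1a248f64a5ba7178f550d5302b28088b48b2c16d8f817bb8b7279f530d6593597459359745935974 = true := by decide +kernel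

theorem cB18_10_3_95 : chunkOkM (LB18_10.ctx true true 255 67 32 13 16 833 1417 32 16) muQ true true 64 RtB18_10.Cx.left.right RtB18_10.CX RtB18_10.Ctp.right.right.right.left.right.right RtB18_10.Ce.right.right.left.right.right.left RtB18_10.CTp.right RtB18_10.CEr.left 0x2221458988b1e0a7bf58f8319eec4e8f626e004e78f540d = true := by decide +kernel

theorem cB18_10_3_96 : chunkOkM (LB18_10.ctx true true 101 1 1 1 1 1 1 1 1) muQ true true 64 RtB18_10.Cx.left.right.left RtB18_10.CX RtB18_10.Ctp.right.right.right.left.right.right.left RtB18_10.Ce.right.right.left.right.right.left.left RtB18_10.CTp.right RtB18_10.CEr.right 0x59 = true := by decide +kernel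

theorem cB18_10_3_97 : chunkOkM (LB18_10.ctx true true 298 531 256 13 16 3353 11245 64 35) muQ true true 64 RtB18_10.Cx.left.right.left.left RtB18_10.CX RtB18_10.Ctp.right.right.right.left.right.right.right RtB18_10.Ce.right.right.left.right.right.left.left.left RtB18_10.CTp.right RtB18_10.CEr.right 0x59c38525e7ed25c277f75c68b1296f9be38ca088f61f6993d28f550d466986ef095c13c9d050398b15db069c29f630d528db991e8f05b159f428a8ed3579db575cf2b32068b288e40e059f640d564597593 = true := by decide +kernel

end Vale.Agent.helper4.Q4
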