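import Vale.Agent.helper4.Q4TreeM
import Vale.Agent.helper4.Q4G.PB18_10

/-!
Checks for pairs of intervals of second moments.
-/

set_option maxRecDepth 100000
set_option linter.unusedVariables false

namespace Vale.Agent.helper4.Q4

theorem cB18_10_3_98 : chunkOkM (LB18_10.ctx true true 289 267 128 13 16 3353 5629 64 35) muQ true true 64 RtB18_10.Cx.left.right.left.right RtB18_10.CX RtB18_10.Ctp.right.right.right.left.right.right.right RtB18_10.Ce.right.right.left.right.right.left.left.left RtB18_10.CTp.right RtB18_10.CEr.right 0x9db63af7ed25b9b9475c285bbd6f9632ee3988f6236873cc8f550d4a276540995c1563b68ea98b20d5265408ea8f05b29a0a6058ed476deca75cb2951268b918b22fb8f6285a10768f550d5298948398ed40df6ae75c217634ee8f62c40bdfa8f540d36 = true := by decide +kernel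

theorem cB18_10_3_99 : chunkOkM (LB18_10.ctx true true 298 535 256 13 16 6713 11297 32 35) muQ true true 64 RtB18_10.Cx.left.right.left RtB18_10.CX RtB18_10.Ctp.right.right.right.left.right.right.right RtB18_10.Ce.right.right.left.right.right.left.left.right RtB18_10.CTp.right RtB18_10.CEr.right 0x59207e47728ed43ba42e75c1e6757338f628370bc88f540d205f3f418ed401f76a584c8e6953ce8f628809f9f8f540d65935974593597 = true := by decide +kernel

theorem cB18_10_3_100 : chunkOkM (LB18_10.ctx true true 285 271 128 13 16 3325 5655 32 35) muQ true true 64 RtB18_10.Cx.left.right.right RtB18_10.CX RtB18_10.Ctp.right.right.right.left.right.right.left RtB18_10.Ce.right.right.left.right.right.left.left RtB18_10.CTp.right RtB18_10.CEr.right 0x151394c38ed37ea49e75c72e2f58b340580f98f63436c2598f550d597211c4df78ed2e0d81175c44a572f78f6300a03cc8f540dd9334857ed18e32b975c97fd0768b4c7c6fce8f63666d8af8f550d6231e3f978ed2bd8dbb75c1b0a4468b327410818f62c35edc98f550d1e958d6d8ed372da5b75c1d601b908f62e9ff3688f540d615d669158ed36a5f3575c472d83358f639d8a6458f540d374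 = true := by decide +kernel

theorem cB18_10_3_101 : chunkOkM (LB18_10.ctx true true 275 135 64 13 16 1673 5655 32 35) muQ true true 64 RtB18_10.Cx.left.right.right RtB18_10.CX RtB18_10.Ctp.right.right.right.left.right.right.right RtB18_10.Ce.right.right.left.right.right.left.left RtB18_10.CTp.right RtB18_10.CEr.right 0x1ddf4fee8ed42f62fa75c2747108c8f6288dc1518f540d2004332e8ed3fa2a4675c41a88ae58f62bd3bd458f540d6213621528ed3f25d7675c1666b168b27c4b5898f6267251be8f550d230194118ed3f96d4675c1a5fa168b3f44a20e8f62ab9c5b88f550d64 = true := by decide +kernel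

theorem cB18_10_3_102 : chunkOkM (LB18_10.ctx true true 307 1087 512 13 16 6713 22789 32 35) muQ true true 64 RtB18_10.Cx.left.right RtB18_10.CX RtB18_10.Ctp.right.right.right.left.right.right RtB18_10.Ce.right.right.left.right.right.left.right RtB18_10.CTp.right RtB18_10.CEr.right 0x59591e17452d8ed31da6aa75c3148602b8f530dbdaf5b17ed16d130f75c1252cd478b31131cc98f540d659745935974593597233e3ff68ed366a7cb75c315761d08f62fdec7ec8f540d1ad655f98ed2c8964075c3b2267f28f62aec49fb8f540d6591c5761398ed3e9158375c3a2afc7c8f628ce5ed78f540d10d6c3ce8ed20984e875ce22b6f68b8c01c8d48f6248fce818f550d6593597459374593597 = true := by decide +kernel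

theorem cB18_10_3_103 : chunkOkM (LB18_10.ctx true true 101 1 1 1 1 1 1 1 1) muQ true true 64 RtB18_10.Cx.left RtB18_10.CX RtB18_10.Ctp.right.right.right.left.right RtB18_10.Ce.right.right.left.right.right.right RtB18_10.CTp.right RtB18_10.CEr 0x59 = true := by decide +kernel

theorem cB18_10_3_104 : chunkOkM (LB18_10.ctx true true 274 139 64 13 16 1645 5655 32 16) muQ true true 64 RtB18_10.Cx.right.left RtB18_10.CX RtB18_10.Ctp.right.right.right.left.right.left RtB18_10.Ce.right.right.left.right.right.left RtB18_10.CTp.right RtB18_10.CEr 0xdc11be6fd1b18b7a75c21b2c6f08f642baf8018f51ecebfa58f450df7fb4c6fd1f35f2975c3835c16d8f64656c1f68f540d72975f49588b22a5af678f813b654d58f64812298e8f540d6a877506fd20891d375c53d46c68b24fac1508f63c855d708f52497355c8f460df5737f17ed26267df75c3db56a9a8f64583da768f540d120b8d308ed28c525e75c2c45d4208f63d9d1bbe8f540d4d247046fd17bb6f675c3c8ce9e0b9f632cdb6b6abaf5b2ac79bd90af450d3717eb3c80398bcac85bf08f83775b5368f530d64 = true := by decide +kernel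

theorem cB18_10_3_105 : chunkOkM (LB18_10.ctx true true 269 137 64 13 16 1673 2821 32 16) muQ true true 64 RtB18_10.Cx.right.left RtB18_10.CX RtB18_10.Ctp.right.right.right.left.right.right RtB18_10.Ce.right.right.left.right.right.left.left RtB18_10.CTp.right RtB18_10.CEr 0x6914878647fd34ba38b75c7ae0a5fc8f6368d88e38f540d137e54388ed30d117275c22e0fe178f633fd72318f540d374377bc8388b36b1934e8f820d6 = true := by decide +kernel

theorem cB18_10_3_106 : chunkOkM (LB18_10.ctx true true 259 69 32 13 16 833 2847 32 16) muQ true true 64 RtB18_10.Cx.right.left RtB18_10.CX RtB18_10.Ctp.right.right.right.left.right.right RtB18_10.Ce.right.right.left.right.right.left.right RtB18_10.CTp.right RtB18_10.CEr.left 0x20f682ba88b20693a3b8f8a9b382258f67451093a8f540d = true := by decide +kernel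

theorem cB18_10_3_107 : chunkOkM (LB18_10.ctx true true 285 275 128 13 16 3353 5707 32 35) muQ true true 64 RtB18_10.Cx.right.left RtB18_10.CX RtB18_10.Ctp.right.right.right.left.right.right RtB18_10.Ce.right.right.left.right.right.left.right RtB18_10.CTp.right RtB18_10.CEr.right 0x104d0317fd292ab3575c2dbaf2238f636d3747d8f540de30b716fd24dcec175c212e16318f63b8e30ef8f537db9297f450d3121a056e8ed3495c6875c2757f23f8f633c9eefb8f540d1492d3398ed38c442775c1f21f0e88f62df5247d8f540d140487f48ed347969975c8a179e67f633378c3a8f540d371899a11c8ed349cf8c75c1c02221f8f62d699b758f540d9816a877edcb762f65c12e327c78b1bcd789f8f6334a9fac8f550d6411fd0ed38ed2fc3cf375c2af089878f639f864748f540d37 = true := by decide +kernel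

theorem cB18_10_3_108 : chunkOkM (LB18_10.ctx true true 249 71 32 13 16 413 1417 32 8) muQ true true 64 RtB18_10.Cx.right.right RtB18_10.CX RtB18_10.Ctp.right.right.right.left.right RtB18_10.Ce.right.right.left.right.right.left RtB18_10.CTp.right RtB18_10.CEr 0x42ac654449f66ac861bb19f420d = true := by decide +kernel

theorem cB18_10_3_109 : chunkOkM (LB18_10.ctx true true 269 139 64 13 16 1673 2899 32 16) muQ true true 64 RtB18_10.Cx.right.left RtB18_10.CX RtB18_10.Ctp.right.right.right.left.right RtB18_10.Ce.right.right.left.right.right.right RtB18_10.CTp.right RtB18_10.CEr 0xcebf6b6fd26f45ae75c388218438f63fbbd2af8f540dc6ce0d4b88b811e9d498f820d6593597f3549387ed2c36b2875c23f7e5278f6386d7a788f540dcbfb21b7ed247f57175c28922f428f64058467b8f5a2d64717f450d312153e87fd34b71ca75c1adfab68b2c1e0b648f6356361f48f550d5937c8095f7b88b749254fd8f8d037a1fe8f630d64138f16ab8ed199e0fb78b9ef2a96f8318a722ee9f5a5798a5ab9f450d3 = true := by decide +kernel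

theorem cB18_10_3_110 : chunkOkM (LB18_10.ctx true true 269 141 64 13 16 1673 2899 32 16) muQ true true 64 RtB18_10.Cx.right.right RtB18_10.CX RtB18_10.Ctp.right.right.right.left.right RtB18_10.Ce.right.right.left.right.right.right RtB18_10.CTp.right RtB18_10.CEr 0x499f16586fd215ab8875c23733a4a8f63d25b5368f5d76aa9d7f450da6af9a7388b6257efe08f8976bbcee8f630d67c9e5a06fd19a041775c8e0249ef8f64ae1b5738f512b4e8128f450d45040df79b3e1a71068f820d64493493 = true := by decide +kernel

end Vale.Agent.helper4.Q4
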