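import Vale.Agent.helper4.Q4TreeM
import Vale.Agent.helper4.Q4G.PB18_10

/-!
Checks for pairs of intervals of second moments.
-/

set_option maxRecDepth 100000
set_option linter.unusedVariables false

namespace Vale.Agent.helper4.Q4

theorem cB18_10_3_111 : chunkOkM (LB18_10.ctx true true 242 33 16 13 16 427 689 32 16) muQ true true 64 RtB18_10.Cx.left RtB18_10.CX RtB18_10.Ctp.right.right.right.right.left RtB18_10.Ce.right.right.left.right.left RtB18_10.CTp.right RtB18_10.CEr.left 0x1049b2bb498b9ab210258f8ea055747f230d = true := by decide +kernel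

theorem cB18_10_3_112 : chunkOkM (LB18_10.ctx true true 247 33 16 13 16 427 1365 32 16) muQ true true 64 RtB18_10.Cx.left RtB18_10.CX RtB18_10.Ctp.right.right.right.right.left RtB18_10.Ce.right.right.left.right.left.left RtB18_10.CTp.right RtB18_10.CEr.right 0x2152a927fd6545e5f75c29eb1d058daf1710caac714af040d = true := by decide +kernel

theorem cB18_10_3_113 : chunkOkM (LB18_10.ctx true true 308 1039 512 13 16 3367 11089 128 32) muQ true true 64 RtB18_10.Cx.left.left RtB18_10.CX RtB18_10.Ctp.right.right.right.right.left.left RtB18_10.Ce.right.right.left.right.left.right.left RtB18_10.CTp.right RtB18_10.CEr.right.left 0x11eb630d77ed1b2a89375c9276a8108f614be4d218f240d14dcd977fd2101d3675cd88f0168b92b2ed538f61451f5d78f250d4a5530101212c36fffa8ed2bd970aa84c1629e71579f630d1b32f1a98ed245e50b75c284f03678b2b27045ff9f640d5217421710245a7d8ed1d89fbf75cc9ebb3ef8f623c084fe8f240d2979a89a8ed5d5308475ca9378a68bacaac84b8f61ffb246c8f250d54330177 = true := by decide +kernel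

theorem cB18_10_3_114 : chunkOkM (LB18_10.ctx true true 279 131 64 13 16 1687 5551 64 35) muQ true true 64 RtB18_10.Cx.left.left RtB18_10.CX RtB18_10.Ctp.right.right.right.right.left.left RtB18_10.Ce.right.right.left.right.left.right.left RtB18_10.CTp.right RtB18_10.CEr.right.right 0x111694ab97fd27766b475cb3b09c0a8f6168d11e7f240d2137d347f06c43172de147fd237403c75c1b1326d38f63d5551788f240d771dbc5c7695c201ff685c98b67114c218f630d5 = true := by decide +kernel

theorem cB18_10_3_115 : chunkOkM (LB18_10.ctx true true 101 1 1 1 1 1 1 1 1) muQ true true 64 RtB18_10.Cx.left.left.left RtB18_10.CX RtB18_10.Ctp.right.right.right.right.left.left RtB18_10.Ce.right.right.left.right.left.right.right RtB18_10.CTp.right RtB18_10.CEr.right 0x21 = true := by decide +kernel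

theorem cB18_10_3_116 : chunkOkM (LB18_10.ctx true true 289 263 128 13 16 1701 5603 128 32) muQ true true 64 RtB18_10.Cx.left.left.right RtB18_10.CX RtB18_10.Ctp.right.right.right.right.left.left RtB18_10.Ce.right.right.left.right.left.right.right RtB18_10.CTp.right RtB18_10.CEr.right.left 0x28ed98b88f02b230ea2d7fd5420e3475cd60af068b6c70d6b68f63c9967858f250d501726abb6968ed2a9f72275c1148d9a8c9f630d12e3bda28ed1e5ad4b75cc523b768b12417fec69f640d4a55217a489a6d7edcb2d5465cf695c3008f630de462546fd1cae43075cb7300168b13bf525e99f640d4a558f9e7777ed44597365c19912ac429f630defc2e7d7ed2054e3975cd5f53e68bf689bcd68f66a8235c7f250d4a55743 = true := by decide +kernel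

theorem cB18_10_3_117 : chunkOkM (LB18_10.ctx true true 285 263 128 13 16 1701 5603 64 35) muQ true true 64 RtB18_10.Cx.left.left.right RtB18_10.CX RtB18_10.Ctp.right.right.right.right.left.left RtB18_10.Ce.right.right.left.right.left.right.right RtB18_10.CTp.right RtB18_10.CEr.right.right 0x1147c247fd2e07b4275c1725bf6f920a570cf8f62997de8d8f250d163098508ed1fadf0c75c13cf02f4c9f630d21713fb2f658ed2b7dbe875c10df72d5f9f630d1ce1513e8ed1e16c6a75c108f379f89f61dac3a77f240d7436e1b56cbf95c1ef0a583198b188b2b628f5f1de60d7f240d5 = true := by decide +kernel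

theorem cB18_10_3_118 : chunkOkM (LB18_10.ctx true true 101 1 1 1 1 1 1 1 1) muQ true true 64 RtB18_10.Cx.left.left RtB18_10.CX RtB18_10.Ctp.right.right.right.right.left.right RtB18_10.Ce.right.right.left.right.left.right RtB18_10.CTp.right RtB18_10.CEr.right 0x01 = true := by decide +kernel

theorem cB18_10_3_119 : chunkOkM (LB18_10.ctx true true 280 133 64 13 16 1687 2795 128 35) muQ true true 64 RtB18_10.Cx.left.right RtB18_10.CX RtB18_10.Ctp.right.right.right.right.left RtB18_10.Ce.right.right.left.right.left.right RtB18_10.CTp.right RtB18_10.CEr.right 0x111114759237fd20d49b575c123ffa6f94353fb9e8f61912fa358f550d5f7d790ce95c1ae6e0df398b1353154d39f630d5691103da3f8ed1f31ffe75c2401d9da8f61f87ae848f540d2125eba7fd33c230575cb289b968b688658718f619d2ac868f550d4a557611433 = true := by decide +kernel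

theorem cB18_10_3_120 : chunkOkM (LB18_10.ctx true true 101 1 1 1 1 1 1 1 1) muQ true true 64 RtB18_10.Cx.right RtB18_10.CX RtB18_10.Ctp.right.right.right.right.left RtB18_10.Ce.right.right.left.right.left RtB18_10.CTp.right RtB18_10.CEr 0x11 = true := by decide +kernel

theorem cB18_10_3_121 : chunkOkM (LB18_10.ctx true true 101 1 1 1 1 1 1 1 1) muQ true true 64 RtB18_10.Cx RtB18_10.CX RtB18_10.Ctp.right.right.right.right.right RtB18_10.Ce.right.right.left.right.left RtB18_10.CTp.right RtB18_10.CEr 0x11 = true := by decide +kernel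

theorem cB18_10_3_122 : chunkOkM (LB18_10.ctx true true 101 1 1 1 1 1 1 1 1) muQ true true 64 RtB18_10.Cx.left.left.left RtB18_10.CX RtB18_10.Ctp.right.right.right.right.left RtB18_10.Ce.right.right.left.right.right.left RtB18_10.CTp.right RtB18_10.CEr 0x21 = true := by decide +kernel

theorem cB18_10_3_123 : chunkOkM (LB18_10.ctx true true 101 1 1 1 1 1 1 1 1) muQ true true 64 RtB18_10.Cx.left.left.right.left RtB18_10.CX RtB18_10.Ctp.right.right.right.right.left RtB18_10.Ce.right.right.left.right.right.left.left RtB18_10.CTp.right RtB18_10.CEr 0x21 = true := by decide +kernel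

theorem cB18_10_3_124 : chunkOkM (LB18_10.ctx true true 101 1 1 1 1 1 1 1 1) muQ true true 64 RtB18_10.Cx.left.left.right.right.left RtB18_10.CX RtB18_10.Ctp.right.right.right.right.left RtB18_10.Ce.right.right.left.right.right.left.left.left RtB18_10.CTp.right RtB18_10.CEr 0x21 = true := by decide +kernel

theorem cB18_10_3_125 : chunkOkM (LB18_10.ctx true true 279 527 256 13 16 847 5629 32 16) muQ true true 64 RtB18_10.Cx.left.left.right.right.right RtB18_10.CX RtB18_10.Ctp.right.right.right.right.left.left RtB18_10.Ce.right.right.left.right.right.left.left.left RtB18_10.CTp.right RtB18_10.CEr.left 0x146180de88b11149a0dc9e8337532808f530d = true := by decide +kernel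

theorem cB18_10_3_126 : chunkOkM (LB18_10.ctx true true 308 1055 512 13 16 6769 11245 64 35) muQ true true 64 RtB18_10.Cx.left.left.right.right.right RtB18_10.CX RtB18_10.Ctp.right.right.right.right.left.left RtB18_10.Ce.right.right.left.right.right.left.left.left RtB18_10.CTp.right RtB18_10.CEr.right 0x01df373617ed2ae818b75cd1e4a4408f62bef402f8f240d4fce05fe695c167eb4e7b98b13fc75e0d9f61aa857e68f240d53d275f348f02b244dc36c8ed4cde9d675cce66fe68b796e1d848f630f83f048f250d5636936045d528ed305498e75c15170474c9f630d46791974395c13e0e59df98b357e1d6669f630d5e7cd26d18f06b1dc48dcc8ed4e92cf175c10830c378b18898d4939f640d5669769346933 = true := by decide +kernel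

theorem cB18_10_3_127 : chunkOkM (LB18_10.ctx true true 101 1 1 1 1 1 1 1 1) muQ true true 64 RtB18_10.Cx.left.left.right.right.right RtB18_10.CX RtB18_10.Ctp.right.right.right.right.left.right RtB18_10.Ce.right.right.left.right.right.left.left.left RtB18_10.CTp.right RtB18_10.CEr 0x01 = true := by decide +kernel

theorem cB18_10_3_128 : chunkOkM (LB18_10.ctx true true 101 1 1 1 1 1 1 1 1) muQ true true 64 RtB18_10.Cx.left.left.right.right RtB18_10.CX RtB18_10.Ctp.right.right.right.right.left RtB18_10.Ce.right.right.left.right.right.left.left.right RtB18_10.CTp.right RtB18_10.CEr 0x21 = true := by decide +kernel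

theorem cB18_10_3_129 : chunkOkM (LB18_10.ctx true true 101 1 1 1 1 1 1 1 1) muQ true true 64 RtB18_10.Cx.left.left.right RtB18_10.CX RtB18_10.Ctp.right.right.right.right.left RtB18_10.Ce.right.right.left.right.right.left.right RtB18_10.CTp.right RtB18_10.CEr 0x21 = true := by decide +kernel

theorem cB18_10_3_130 : chunkOkM (LB18_10.ctx true true 251 67 32 13 16 427 1417 32 16) muQ true true 64 RtB18_10.Cx.left.right RtB18_10.CX RtB18_10.Ctp.right.right.right.right.left RtB18_10.Ce.right.right.left.right.right.left RtB18_10.CTp.right RtB18_10.CEr.left 0x10ce7e20e98bb334efdb8f820d = true := by decide +kernel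

theorem cB18_10_3_131 : chunkOkM (LB18_10.ctx true true 289 267 128 13 16 1687 5629 128 32) muQ true true 64 RtB18_10.Cx.left.right.left RtB18_10.CX RtB18_10.Ctp.right.right.right.right.left.left.left RtB18_10.Ce.right.right.left.right.right.left.left.left RtB18_10.CTp.right RtB18_10.CEr.right.left 0x1eddb6498f05b22c924f7fd4a6766875cb1326768b8738bc5e8f61d5ea7a48f550d5f9ca1f57ed1decff875c34c719e28f61cffec528f540ddfe20d47ed214d18d75cb902d068bbfc7e5a68f611563ce28f550d4a557 = true := by decide +kernel

theorem cB18_10_3_132 : chunkOkM (LB18_10.ctx true true 298 535 256 13 16 3381 11323 64 32) muQ true true 64 RtB18_10.Cx.left.right.left RtB18_10.CX RtB18_10.Ctp.right.right.right.right.left.left.left RtB18_10.Ce.right.right.left.right.right.left.left.right RtB18_10.CTp.right RtB18_10.CEr.right.left 0x24140c4d8f05b2121f3208ed4a7195f75cb1046968b95cb26448f61a3efeaf8f550d5254493a98f05b174c3f798ed3e3646f75cb9238368b1396f02649f6236889898f550d56972591fed28f05b200556ef8ed46125a075c96e7c168ba30d3c728f61f025f828f550d54369efc586748f06b25169a8a8ed46a278675cbd3b0968b1f77bbc4f9f640d546976937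 = true := by decide +kernel

end Vale.Agent.helper4.Q4
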