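import Vale.Agent.helper4.Q4TreeM
import Vale.Agent.helper4.Q4G.PB18_10

/-!
Checks for pairs of intervals of second moments.
-/

set_option maxRecDepth 100000
set_option linter.unusedVariables false

namespace Vale.Agent.helper4.Q4

theorem cB18_10_3_133 : chunkOkM (LB18_10.ctx true true 289 267 128 13 16 1701 5655 128 32) muQ true true 64 RtB18_10.Cx.left.right.left RtB18_10.CX RtB18_10.Ctp.right.right.right.right.left.left.right RtB18_10.Ce.right.right.left.right.right.left.left RtB18_10.CTp.right RtB18_10.CEr.right.left 0xe56d5d27ed1ea436675c53f547108f613c126bb8f5843328d7f250d13a01e77fd20daebc75cd28c3c68b23fc0c8d69f640dede41877ed233522375cb7558068b116de4e5b9f6de7adf67f250d74a55c24daaec8f06b2791c377fd52db63f75ca7ecdf68b122ff92c49f640d54 = true := by decide +kernel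

theorem cB18_10_3_134 : chunkOkM (LB18_10.ctx true true 285 267 128 13 16 1701 5655 64 35) muQ true true 64 RtB18_10.Cx.left.right.left RtB18_10.CX RtB18_10.Ctp.right.right.right.right.left.left RtB18_10.Ce.right.right.left.right.right.left.left RtB18_10.CTp.right RtB18_10.CEr.right.right 0xed39896fd2f4051975c17d7920659f630d11d902fe8ed27d003f75cd925c08f8f6dacef8b7f240d711eccca7fd2b4616475cf35ce17d8f630d4165bd0b7fd1f7d58675c439d4ab78f619ecebff8f540d14e2f437fd22f417875c4b57972e8f617711ae58f540d4365f22846a95c1cbe507c298b33bb69e08f616e5d2508f56f9f43a7f250d5 = true := by decide +kernel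

theorem cB18_10_3_135 : chunkOkM (LB18_10.ctx true true 285 269 128 13 16 1687 5655 64 35) muQ true true 64 RtB18_10.Cx.left.right.right RtB18_10.CX RtB18_10.Ctp.right.right.right.right.left.left RtB18_10.Ce.right.right.left.right.right.left.left RtB18_10.CTp.right RtB18_10.CEr.right 0x6969a365ef6fd2b2426d75c4a2d4e688f624ceab5c8f540d3b46a998795c10ac1a2bf98b681827b28f61c634d2e8f540d51a8394908f05b18548f27fd436aff075cd16d8868b6b03b2138f6243c1e838f550d5676943 = true := by decide +kernel

theorem cB18_10_3_136 : chunkOkM (LB18_10.ctx true true 300 535 256 13 16 3381 11375 64 35) muQ true true 64 RtB18_10.Cx.left.right.left RtB18_10.CX RtB18_10.Ctp.right.right.right.right.left.left.left RtB18_10.Ce.right.right.left.right.right.left.right RtB18_10.CTp.right RtB18_10.CEr.right 0x5910fc17168ed1f7a5ff75c681d424a8f620dcec6e8f540d49ee4fa5995c150bf3a8d98b187d370c39f630d52a7daffa8ed4d791aa75c16924b6f19af630d2326d1d08f05b16392d3e8ed403ca5475cf883de68b2ce6f49109f640d5466976935974 = true := by decide +kernel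

theorem cB18_10_3_137 : chunkOkM (LB18_10.ctx true true 308 1063 512 13 16 3409 11349 128 35) muQ true true 64 RtB18_10.Cx.left.right.left RtB18_10.CX RtB18_10.Ctp.right.right.right.right.left.left.right RtB18_10.Ce.right.right.left.right.right.left.right.left RtB18_10.CTp.right RtB18_10.CEr.right 0x145668de8ed21378cf75cff2107118f66799d687f540df1f3586fd2df9c5b75c129f5b9a79f6d9a09387f240d760efb161395c1aec9ff0298b2ce00d178f230d5f0fb044f8f06bd7fe9b57ed238049c75cc04e0268bfaeef1758f687ccb4d7f550d4a552124ccb56c8f02b12abe2818ed363e75175c198673578b1c5de39249f6e5174d87f250d5217421769376 = true := by decide +kernel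

theorem cB18_10_3_138 : chunkOkM (LB18_10.ctx true true 299 535 256 13 16 3409 11401 64 35) muQ true true 64 RtB18_10.Cx.left.right.left RtB18_10.CX RtB18_10.Ctp.right.right.right.right.left.left.right RtB18_10.Ce.right.right.left.right.right.left.right.right RtB18_10.CTp.right RtB18_10.CEr.right 0x157456c7fd20ddf4675c139dcdbba9f660a2e917f540d5d75cdd8295c1a5b4786698b149d598e29f630d5da6389708f06b20a9873a8ed499158575ccbe59868b19cbfeff09f68d25ee97f250d55924cbcae08ed46871a375c496e9a68b690b31f219f640d459736217 = true := by decide +kernel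

theorem cB18_10_3_139 : chunkOkM (LB18_10.ctx true true 289 271 128 13 16 3381 5681 64 35) muQ true true 64 RtB18_10.Cx.left.right.right RtB18_10.CX RtB18_10.Ctp.right.right.right.right.left.left.left RtB18_10.Ce.right.right.left.right.right.left.right.left RtB18_10.CTp.right RtB18_10.CEr.right 0xd15daf6fd29f580d75c3b714f7c8f622b7f2558f540d4a65ed13b95c14f3af9d398b127db0948f628c6196e8f540d51e207d588ed3f2823775c1de15b68b9248f1968f627bf02cc8f550d21dca1d58f05b1b45c44f8ed42fc45075cf39c0a68b49b6ffbc8f6272ad4f48f550d5245b49158ed3fc558175c267bb368b2f368e198f62b3554c38f550d376 = true := by decide +kernel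

theorem cB18_10_3_140 : chunkOkM (LB18_10.ctx true true 292 271 128 13 16 3381 11427 64 35) muQ true true 64 RtB18_10.Cx.left.right.right RtB18_10.CX RtB18_10.Ctp.right.right.right.right.left.left.left RtB18_10.Ce.right.right.left.right.right.left.right.right RtB18_10.CTp.right RtB18_10.CEr.right 0x9b803937ed294dc7475c62da0247f62a37d86d8f540d45c7db6a195c13ab8212998b106401e68f624e5e0a88f540d515597ed78ed346b2d875c898ca668b3cdef7728f628edb9ea8f550d68fd4bb87ed254c1d275c43b83c848f62250c9668f540d5209ef77395c171e305cc98b5eeba5a08f62157b9d68f540d51e66f9768ed3be23a975c40708068b6593e9b58f62c8f73ee8f550d27d687ba8f05b14c786868ed3bdfc7675cc7c4dd68b5ac8f6008f6275e34a38f550d5465937 = true := by decide +kernel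

end Vale.Agent.helper4.Q4
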