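import Vale.Agent.helper4.Q4TreeM
import Vale.Agent.helper4.Q4G.PB18_10

/-!
Checks for pairs of intervals of second moments.
-/

set_option maxRecDepth 100000
set_option linter.unusedVariables false

namespace Vale.Agent.helper4.Q4

theorem cB18_10_3_141 : chunkOkM (LB18_10.ctx true true 289 271 128 13 16 1701 5707 128 35) muQ true true 64 RtB18_10.Cx.left.right.right RtB18_10.CX RtB18_10.Ctp.right.right.right.right.left.left.right RtB18_10.Ce.right.right.left.right.right.left.right RtB18_10.CTp.right RtB18_10.CEr.right 0x1235cc77fd22538ce75c2e7d3c6f943908b8d8f619a6a8548f550d4394e742c95c12c62b7c398b11a34b05d9f630d51c69f4148ed39d48c575c5635fa68bda8cb82e8f6175e7ade8f550d128b06a679f06baa03b16fd1f523fd75cb790e268bb39decd98f613ea8e648f550d4a55790906de7f05b17ad1ad7fd43253c175cac546368b145ffc79d9f640d546 = true := by decide +kernel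

theorem cB18_10_3_142 : chunkOkM (LB18_10.ctx true true 284 535 256 13 16 861 2847 64 35) muQ true true 64 RtB18_10.Cx.left.right RtB18_10.CX RtB18_10.Ctp.right.right.right.right.left.right RtB18_10.Ce.right.right.left.right.right.left RtB18_10.CTp.right RtB18_10.CEr.right 0x134f8407fd2ed38c575c19e816778f62c1bc3b98f240d5f5123a1995c1af8f62e698b1ee55bef8f6357cfd578f240d5250a90d28ed4956f3775c46392c68b144b785189f69b976257f250d209506478f02b1d4a24a7fd532b02b75c83f7d968b48144d778f632c661138f250d501701772c158787fd652a38375c4542ce68b5d27dd2b8f1137899fe69f050d46 = true := by decide +kernel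

theorem cB18_10_3_143 : chunkOkM (LB18_10.ctx true true 101 1 1 1 1 1 1 1 1) muQ true true 64 RtB18_10.Cx.left.left RtB18_10.CX RtB18_10.Ctp.right.right.right.right.left RtB18_10.Ce.right.right.left.right.right.right RtB18_10.CTp.right RtB18_10.CEr 0x21 = true := by decide +kernel

theorem cB18_10_3_144 : chunkOkM (LB18_10.ctx true true 101 1 1 1 1 1 1 1 1) muQ true true 64 RtB18_10.Cx.left.right.left RtB18_10.CX RtB18_10.Ctp.right.right.right.right.left RtB18_10.Ce.right.right.left.right.right.right RtB18_10.CTp.right RtB18_10.CEr 0x21 = true := by decide +kernel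

theorem cB18_10_3_145 : chunkOkM (LB18_10.ctx true true 258 135 64 13 16 427 1443 32 16) muQ true true 64 RtB18_10.Cx.left.right.right RtB18_10.CX RtB18_10.Ctp.right.right.right.right.left RtB18_10.Ce.right.right.left.right.right.right RtB18_10.CTp.right RtB18_10.CEr.left 0x9948f7e988b741a89678f83d4345088f6222864898f540d = true := by decide +kernel

theorem cB18_10_3_146 : chunkOkM (LB18_10.ctx true true 285 271 128 13 16 3381 5733 32 35) muQ true true 64 RtB18_10.Cx.left.right.right RtB18_10.CX RtB18_10.Ctp.right.right.right.right.left.left.left RtB18_10.Ce.right.right.left.right.right.right.left RtB18_10.CTp.right RtB18_10.CEr.right 0x591c180e538ed442b7cc75cea2a3ac7f629cc34558f540d126a3b1f8ed289e6d975cddd09f68b4127f1238f62a4094b68f550d65935974 = true := by decide +kernel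

theorem cB18_10_3_147 : chunkOkM (LB18_10.ctx true true 303 539 256 13 16 3409 11453 128 35) muQ true true 64 RtB18_10.Cx.left.right.right RtB18_10.CX RtB18_10.Ctp.right.right.right.right.left.left.right RtB18_10.Ce.right.right.left.right.right.right.left.left RtB18_10.CTp.right RtB18_10.CEr.right 0x14745df7fd1fc584075c6a04402b8f6167266548f540d59d9fd81595c1954a43f898b401fcfa7f624827dcb8f540d524faf0e08f05b19d40b37fd41aaac975c1050eac78b4370779c8f62324fa878f550d5283b5ac68f05bca5588d7ed2480b3275ca14f0068b125d26ad29f6802d0ca7f550d4a55591eb3ef558ed3dbd6f975c42e68a68b3a42e9c779f640d5974376 = true := by decide +kernel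

theorem cB18_10_3_148 : chunkOkM (LB18_10.ctx true true 289 271 128 13 16 3409 5759 64 35) muQ true true 64 RtB18_10.Cx.left.right.right RtB18_10.CX RtB18_10.Ctp.right.right.right.right.left.left.right RtB18_10.Ce.right.right.left.right.right.right.left.right RtB18_10.CTp.right RtB18_10.CEr.right 0x93a24b6fd321591775c18f63ebd8f6247d7a428f540d55811568195c1816b784798b23b927668f61e81bbad8f540d5286c13958f05b178b92788ed3d53f7975ce78f7768b4a5a31a18f6235e02238f550d519162c9f8ed36b4c1875c51b21d68b77ae07ea8f624532d268f550d36697 = true := by decide +kernel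

theorem cB18_10_3_149 : chunkOkM (LB18_10.ctx true true 101 1 1 1 1 1 1 1 1) muQ true true 64 RtB18_10.Cx.left.right.right RtB18_10.CX RtB18_10.Ctp.right.right.right.right.left.left RtB18_10.Ce.right.right.left.right.right.right.right RtB18_10.CTp.right RtB18_10.CEr.right 0x69 = true := by decide +kernel

theorem cB18_10_3_150 : chunkOkM (LB18_10.ctx true true 295 539 256 13 16 1729 5759 128 32) muQ true true 64 RtB18_10.Cx.left.right.right RtB18_10.CX RtB18_10.Ctp.right.right.right.right.left.right RtB18_10.Ce.right.right.left.right.right.right.left RtB18_10.CTp.right RtB18_10.CEr.right.left 0x29f124f7f73cd31cee8f116fcdec0b9f030de4f3188b8f06b14997827fd25e5f5775ccd029068b1021bd6879f6468faf97f550d4a55e70a1a4a8f06b1b43d35b8ed43d0b8175cd3c08668b1473bfb7b9f6e68a00d7f250d52177311d778b4be8f06bbf3cf46fd22a0a8575ccc3b7e68b63ea6a348f61611e9b88f5c65f3dd7f260d4a5534 = true := by decide +kernel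

theorem cB18_10_3_151 : chunkOkM (LB18_10.ctx true true 280 135 64 13 16 1729 5759 64 35) muQ true true 64 RtB18_10.Cx.left.right.right RtB18_10.CX RtB18_10.Ctp.right.right.right.right.left.right RtB18_10.Ce.right.right.left.right.right.right.left RtB18_10.CTp.right RtB18_10.CEr.right.right 0x39909de28f00b130d90f38ed24cb09775c23fbad5d8f61a4e8fd68f5b4524f07f250d1214a1a7fd236a2b375c403f7ff48f6177057898f5dd438ff7f250d434ff5674fd95c18054533398b1eb21e1c19f630d5 = true := by decide +kernel

theorem cB18_10_3_152 : chunkOkM (LB18_10.ctx true true 101 1 1 1 1 1 1 1 1) muQ true true 64 RtB18_10.Cx.left.right.right.left RtB18_10.CX RtB18_10.Ctp.right.right.right.right.left.right RtB18_10.Ce.right.right.left.right.right.right.right RtB18_10.CTp.right RtB18_10.CEr.right 0x21 = true := by decide +kernel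

theorem cB18_10_3_153 : chunkOkM (LB18_10.ctx true true 343 4351 2048 13 16 27545 92781 128 35) muQ true true 64 RtB18_10.Cx.left.right.right.right RtB18_10.CX RtB18_10.Ctp.right.right.right.right.left.right.left RtB18_10.Ce.right.right.left.right.right.right.right RtB18_10.CTp.right RtB18_10.CEr.right 0x212169691437d4558ed5e3e6cb75c10e7604c62af630d195368138ed415dfa975cc8372068b93a2468fc9f640d64693697469321742176934217593114dbc318ed244732075c4504df8d8f6189b90668f58306a617f250d52b1f567b95c173c1f43f98b1287787a29f630d51232ad0a39f06baccdbb77ed2599cf775cbca62168b9c075a878f6135e0ac38f5465bc7e7f260d4a5564 = true := by decide +kernel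

theorem cB18_10_3_154 : chunkOkM (LB18_10.ctx true true 319 2175 1024 13 16 13783 23205 32 35) muQ true true 64 RtB18_10.Cx.left.right.right.right RtB18_10.CX RtB18_10.Ctp.right.right.right.right.left.right.right RtB18_10.Ce.right.right.left.right.right.right.right RtB18_10.CTp.right RtB18_10.CEr.right 0x01010121211c3171d58ed4c967b275cb52a658b6a0722dd79f6aa7dba77f250d18d9115d8ed3ddef9375cb4c6f868ba2259d5859f625e0d7a7f250d6217421741cd30e8b8ed4dd622075caa0ecf258f62ed9f0fc8f240d27c963f08ed4ee493775c9fad1468b298dc0ced9f697c3ab97f250d61144333017 = true := by decide +kernel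

theorem cB18_10_3_155 : chunkOkM (LB18_10.ctx true true 101 1 1 1 1 1 1 1 1) muQ true true 64 RtB18_10.Cx.left RtB18_10.CX RtB18_10.Ctp.right.right.right.right.right RtB18_10.Ce.right.right.left.right.right RtB18_10.CTp.right RtB18_10.CEr 0x01 = true := by decide +kernel

end Vale.Agent.helper4.Q4
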