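import Vale.Agent.helper4.Q4TreeM
import Vale.Agent.helper4.Q4G.PB18_10_0
import Vale.Agent.helper4.Q4G.PB18_10_1
import Vale.Agent.helper4.Q4G.PB18_10_2
import Vale.Agent.helper4.Q4G.PB18_10_3
import Vale.Agent.helper4.Q4G.PB18_10_4
import Vale.Agent.helper4.Q4G.PB18_10_5
import Vale.Agent.helper4.Q4G.PB18_10_6
import Vale.Agent.helper4.Q4G.PB18_10_7
import Vale.Agent.helper4.Q4G.PB18_10_8
import Vale.Agent.helper4.Q4G.PB18_10_9
import Vale.Agent.helper4.Q4G.PB18_10_10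
import Vale.Agent.helper4.Q4G.PB18_10_11
import Vale.Agent.helper4.Q4G.PB18_10_12
import Vale.Agent.helper4.Q4G.PB18_10_13
import Vale.Agent.helper4.Q4G.PB18_10_14

/-!
Checks for pairs of intervals of second moments.
-/

set_option maxRecDepth 100000
set_option linter.unusedVariables false

namespace Vale.Agent.helper4.Q4

theorem covB18_10 : LB18_10.Full muQ.val RtB18_10 := ⟨(LitT.Cov.split_t (LitT.cov_of_chunkM cB18_10_3_0) (LitT.Cov.split_T (LitT.cov_of_chunkM cB18_10_3_1) (LitT.Cov.split_t (LitT.cov_of_chunkM cB18_10_3_2) (LitT.Cov.split_e (LitT.cov_of_chunkM cB18_10_3_3) (LitT.Cov.split_e (LitT.cov_of_chunkM cB18_10_3_4) (LitT.Cov.split_e (LitT.Cov.split_t (LitT.Cov.split_t (LitT.cov_of_chunkM cB18_10_3_5) (LitT.Cov.split_t (LitT.cov_of_chunkM cB18_10_3_6) (LitT.Cov.split_x (LitT.Cov.split_e (LitT.Cov.split_x (LitT.Cov.split_e (LitT.Cov.split_e (LitT.cov_of_chunkM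 cB18_10_3_7) (LitT.cov_of_chunkM cB18_10_3_8)) (LitT.Cov.split_e (LitT.Cov.split_t (LitT.cov_of_chunkM cB18_10_3_9) (LitT.cov_of_chunkM cB18_10_3_10)) (LitT.cov_of_chunkM cB18_10_3_11))) (LitT.cov_of_chunkM cB18_10_3_12)) (LitT.cov_of_chunkM cB18_10_3_13)) (LitT.cov_of_chunkM cB18_10_3_14)))) (LitT.Cov.split_e (LitT.Cov.split_t (LitT.Cov.split_e (LitT.cov_of_chunkM cB18_10_3_15) (LitT.Cov.split_x (LitT.Cov.split_t (LitT.Cov.split_e (LitT.Cov.split_E (LitT.cov_of_chunkM cB18_10_3_16) (LitT.Cov.split_x (LitT.Cov.split_t (LitT.Cov.split_e (LitT.cov_of_chunkM cB18_10_3_17) (LitT.cov_of_chunkM cB18_10_3_18)) (LitT.cov_of_chunkM cB18_10_3_19)) (LitT.cov_of_chunkM cB18_10_3_20))) (LitT.Cov.split_x (LitT.Cov.split_E (LitT.cov_of_chunkM cB18_10_3_21) (LitT.Cov.split_t (LitT.cov_of_chunkM cB18_10_3_22) (LitT.Cov.split_e (LitT.Cov.split_x (LitT.cov_of_chunkM cB18_10_3_23) (LitT.cov_of_chunkM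 cB18_10_3_24)) (LitT.Cov.split_x (LitT.Cov.split_t (LitT.cov_of_chunkM cB18_10_3_25) (LitT.cov_of_chunkM cB18_10_3_26)) (LitT.cov_of_chunkM cB18_10_3_27))))) (LitT.cov_of_chunkM cB18_10_3_28))) (LitT.Cov.split_e (LitT.cov_of_chunkM cB18_10_3_29) (LitT.Cov.split_E (LitT.cov_of_chunkM cB18_10_3_30) (LitT.Cov.split_t (LitT.Cov.split_x (LitT.Cov.split_E (LitT.Cov.split_e (LitT.cov_of_chunkM cB18_10_3_31) (LitT.Cov.split_x (LitT.cov_of_chunkM cB18_10_3_32) (LitT.cov_of_chunkM cB18_10_3_33))) (LitT.cov_of_chunkM cB18_10_3_34)) (LitT.cov_of_chunkM cB18_10_3_35)) (LitT.cov_of_chunkM cB18_10_3_36))))) (LitT.cov_of_chunkM cB18_10_3_37))) (LitT.cov_of_chunkM cB18_10_3_38)) (LitT.Cov.split_t (LitT.Cov.split_e (LitT.Cov.split_x (LitT.Cov.split_t (LitT.Cov.split_e (LitT.Cov.split_x (LitT.cov_of_chunkM cB18_10_3_39) (LitT.Cov.split_t (LitT.cov_of_chunkM cB18_10_3_40) (LitT.Cov.split_e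 (LitT.cov_of_chunkM cB18_10_3_41) (LitT.cov_of_chunkM cB18_10_3_42)))) (LitT.cov_of_chunkM cB18_10_3_43)) (LitT.Cov.split_e (LitT.Cov.split_x (LitT.Cov.split_E (LitT.cov_of_chunkM cB18_10_3_44) (LitT.Cov.split_t (LitT.Cov.split_e (LitT.Cov.split_x (LitT.Cov.split_t (LitT.Cov.split_e (LitT.cov_of_chunkM cB18_10_3_45) (LitT.cov_of_chunkM cB18_10_3_46)) (LitT.Cov.split_E (LitT.cov_of_chunkM cB18_10_3_47) (LitT.cov_of_chunkM cB18_10_3_48))) (LitT.cov_of_chunkM cB18_10_3_49)) (LitT.Cov.split_x (LitT.cov_of_chunkM cB18_10_3_50) (LitT.Cov.split_t (LitT.cov_of_chunkM cB18_10_3_51) (LitT.Cov.split_e (LitT.cov_of_chunkM cB18_10_3_52) (LitT.cov_of_chunkM cB18_10_3_53))))) (LitT.Cov.split_e (LitT.Cov.split_x (LitT.Cov.split_E (LitT.cov_of_chunkM cB18_10_3_54) (LitT.cov_of_chunkM cB18_10_3_55)) (LitT.cov_of_chunkM cB18_10_3_56)) (LitT.Cov.split_x (LitT.Cov.split_E (LitT.Cov.split_t (LitT.cov_of_chunkM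 cB18_10_3_57) (LitT.cov_of_chunkM cB18_10_3_58)) (LitT.cov_of_chunkM cB18_10_3_59)) (LitT.Cov.split_E (LitT.cov_of_chunkM cB18_10_3_60) (LitT.cov_of_chunkM cB18_10_3_61)))))) (LitT.Cov.split_t (LitT.Cov.split_E (LitT.cov_of_chunkM cB18_10_3_62) (LitT.Cov.split_e (LitT.cov_of_chunkM cB18_10_3_63) (LitT.cov_of_chunkM cB18_10_3_64))) (LitT.cov_of_chunkM cB18_10_3_65))) (LitT.Cov.split_x (LitT.Cov.split_E (LitT.cov_of_chunkM cB18_10_3_66) (LitT.Cov.split_t (LitT.cov_of_chunkM cB18_10_3_67) (LitT.Cov.split_e (LitT.Cov.split_x (LitT.cov_of_chunkM cB18_10_3_68) (LitT.Cov.split_t (LitT.Cov.split_e (LitT.cov_of_chunkM cB18_10_3_69) (LitT.cov_of_chunkM cB18_10_3_70)) (LitT.Cov.split_E (LitT.cov_of_chunkM cB18_10_3_71) (LitT.cov_of_chunkM cB18_10_3_72)))) (LitT.Cov.split_x (LitT.cov_of_chunkM cB18_10_3_73) (LitT.Cov.split_t (LitT.cov_of_chunkM cB18_10_3_74) (LitT.Cov.split_e (LitT.Cov.split_E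 (LitT.cov_of_chunkM cB18_10_3_75) (LitT.cov_of_chunkM cB18_10_3_76)) (LitT.cov_of_chunkM cB18_10_3_77))))))) (LitT.Cov.split_t (LitT.Cov.split_e (LitT.Cov.split_E (LitT.cov_of_chunkM cB18_10_3_78) (LitT.Cov.split_x (LitT.cov_of_chunkM cB18_10_3_79) (LitT.cov_of_chunkM cB18_10_3_80))) (LitT.cov_of_chunkM cB18_10_3_81)) (LitT.Cov.split_E (LitT.cov_of_chunkM cB18_10_3_82) (LitT.Cov.split_e (LitT.Cov.split_x (LitT.Cov.split_E (LitT.cov_of_chunkM cB18_10_3_83) (LitT.cov_of_chunkM cB18_10_3_84)) (LitT.cov_of_chunkM cB18_10_3_85)) (LitT.Cov.split_x (LitT.Cov.split_t (LitT.cov_of_chunkM cB18_10_3_86) (LitT.Cov.split_E (LitT.Cov.split_e (LitT.cov_of_chunkM cB18_10_3_87) (LitT.cov_of_chunkM cB18_10_3_88)) (LitT.cov_of_chunkM cB18_10_3_89))) (LitT.cov_of_chunkM cB18_10_3_90)))))))) (LitT.cov_of_chunkM cB18_10_3_91)) (LitT.Cov.split_t (LitT.cov_of_chunkM cB18_10_3_92) (LitT.Cov.split_x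 (LitT.Cov.split_e (LitT.Cov.split_x (LitT.cov_of_chunkM cB18_10_3_93) (LitT.Cov.split_t (LitT.cov_of_chunkM cB18_10_3_94) (LitT.Cov.split_E (LitT.cov_of_chunkM cB18_10_3_95) (LitT.Cov.split_e (LitT.Cov.split_x (LitT.Cov.split_t (LitT.cov_of_chunkM cB18_10_3_96) (LitT.Cov.split_e (LitT.Cov.split_x (LitT.cov_of_chunkM cB18_10_3_97) (LitT.cov_of_chunkM cB18_10_3_98)) (LitT.cov_of_chunkM cB18_10_3_99))) (LitT.Cov.split_t (LitT.cov_of_chunkM cB18_10_3_100) (LitT.cov_of_chunkM cB18_10_3_101))) (LitT.cov_of_chunkM cB18_10_3_102))))) (LitT.cov_of_chunkM cB18_10_3_103)) (LitT.Cov.split_e (LitT.Cov.split_x (LitT.Cov.split_t (LitT.cov_of_chunkM cB18_10_3_104) (LitT.Cov.split_e (LitT.cov_of_chunkM cB18_10_3_105) (LitT.Cov.split_E (LitT.cov_of_chunkM cB18_10_3_106) (LitT.cov_of_chunkM cB18_10_3_107)))) (LitT.cov_of_chunkM cB18_10_3_108)) (LitT.Cov.split_x (LitT.cov_of_chunkM cB18_10_3_109)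 (LitT.cov_of_chunkM cB18_10_3_110)))))) (LitT.Cov.split_e (LitT.Cov.split_t (LitT.Cov.split_x (LitT.Cov.split_E (LitT.cov_of_chunkM cB18_10_3_111) (LitT.Cov.split_e (LitT.cov_of_chunkM cB18_10_3_112) (LitT.Cov.split_x (LitT.Cov.split_t (LitT.Cov.split_e (LitT.Cov.split_E (LitT.cov_of_chunkM cB18_10_3_113) (LitT.cov_of_chunkM cB18_10_3_114)) (LitT.Cov.split_x (LitT.cov_of_chunkM cB18_10_3_115) (LitT.Cov.split_E (LitT.cov_of_chunkM cB18_10_3_116) (LitT.cov_of_chunkM cB18_10_3_117)))) (LitT.cov_of_chunkM cB18_10_3_118)) (LitT.cov_of_chunkM cB18_10_3_119)))) (LitT.cov_of_chunkM cB18_10_3_120)) (LitT.cov_of_chunkM cB18_10_3_121)) (LitT.Cov.split_x (LitT.Cov.split_t (LitT.Cov.split_e (LitT.Cov.split_x (LitT.Cov.split_x (LitT.cov_of_chunkM cB18_10_3_122) (LitT.Cov.split_e (LitT.Cov.split_x (LitT.cov_of_chunkM cB18_10_3_123) (LitT.Cov.split_e (LitT.Cov.split_x (LitT.cov_of_chunkM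 cB18_10_3_124) (LitT.Cov.split_t (LitT.Cov.split_E (LitT.cov_of_chunkM cB18_10_3_125) (LitT.cov_of_chunkM cB18_10_3_126)) (LitT.cov_of_chunkM cB18_10_3_127))) (LitT.cov_of_chunkM cB18_10_3_128))) (LitT.cov_of_chunkM cB18_10_3_129))) (LitT.Cov.split_E (LitT.cov_of_chunkM cB18_10_3_130) (LitT.Cov.split_t (LitT.Cov.split_e (LitT.Cov.split_x (LitT.Cov.split_E (LitT.Cov.split_t (LitT.Cov.split_e (LitT.cov_of_chunkM cB18_10_3_131) (LitT.cov_of_chunkM cB18_10_3_132)) (LitT.cov_of_chunkM cB18_10_3_133)) (LitT.cov_of_chunkM cB18_10_3_134)) (LitT.cov_of_chunkM cB18_10_3_135)) (LitT.Cov.split_x (LitT.Cov.split_t (LitT.cov_of_chunkM cB18_10_3_136) (LitT.Cov.split_e (LitT.cov_of_chunkM cB18_10_3_137) (LitT.cov_of_chunkM cB18_10_3_138))) (LitT.Cov.split_t (LitT.Cov.split_e (LitT.cov_of_chunkM cB18_10_3_139) (LitT.cov_of_chunkM cB18_10_3_140)) (LitT.cov_of_chunkM cB18_10_3_141)))) (LitT.cov_of_chunkM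 cB18_10_3_142)))) (LitT.Cov.split_x (LitT.cov_of_chunkM cB18_10_3_143) (LitT.Cov.split_x (LitT.cov_of_chunkM cB18_10_3_144) (LitT.Cov.split_E (LitT.cov_of_chunkM cB18_10_3_145) (LitT.Cov.split_t (LitT.Cov.split_e (LitT.Cov.split_t (LitT.cov_of_chunkM cB18_10_3_146) (LitT.Cov.split_e (LitT.cov_of_chunkM cB18_10_3_147) (LitT.cov_of_chunkM cB18_10_3_148))) (LitT.cov_of_chunkM cB18_10_3_149)) (LitT.Cov.split_e (LitT.Cov.split_E (LitT.cov_of_chunkM cB18_10_3_150) (LitT.cov_of_chunkM cB18_10_3_151)) (LitT.Cov.split_x (LitT.cov_of_chunkM cB18_10_3_152) (LitT.Cov.split_t (LitT.cov_of_chunkM cB18_10_3_153) (LitT.cov_of_chunkM cB18_10_3_154))))))))) (LitT.cov_of_chunkM cB18_10_3_155)) (LitT.Cov.split_t (LitT.Cov.split_e (LitT.cov_of_chunkM cB18_10_3_156) (LitT.Cov.split_x (LitT.Cov.split_t (LitT.Cov.split_e (LitT.Cov.split_E (LitT.cov_of_chunkM cB18_10_3_157) (LitT.Cov.split_x (LitT.Cov.split_t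 (LitT.cov_of_chunkM cB18_10_3_158) (LitT.cov_of_chunkM cB18_10_3_159)) (LitT.cov_of_chunkM cB18_10_3_160))) (LitT.Cov.split_E (LitT.cov_of_chunkM cB18_10_3_161) (LitT.Cov.split_x (LitT.Cov.split_t (LitT.cov_of_chunkM cB18_10_3_162) (LitT.Cov.split_e (LitT.cov_of_chunkM cB18_10_3_163) (LitT.cov_of_chunkM cB18_10_3_164))) (LitT.cov_of_chunkM cB18_10_3_165)))) (LitT.Cov.split_E (LitT.cov_of_chunkM cB18_10_3_166) (LitT.Cov.split_e (LitT.cov_of_chunkM cB18_10_3_167) (LitT.Cov.split_x (LitT.Cov.split_E (LitT.Cov.split_t (LitT.Cov.split_e (LitT.cov_of_chunkM cB18_10_3_168) (LitT.cov_of_chunkM cB18_10_3_169)) (LitT.cov_of_chunkM cB18_10_3_170)) (LitT.cov_of_chunkM cB18_10_3_171)) (LitT.cov_of_chunkM cB18_10_3_172))))) (LitT.cov_of_chunkM cB18_10_3_173))) (LitT.cov_of_chunkM cB18_10_3_174))))))) (LitT.Cov.split_t (LitT.cov_of_chunkM cB18_10_3_175) (LitT.Cov.split_e (LitT.Cov.split_x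 (LitT.cov_of_chunkM cB18_10_3_176) (LitT.Cov.split_t (LitT.cov_of_chunkM cB18_10_3_177) (LitT.Cov.split_e (LitT.Cov.split_t (LitT.Cov.split_e (LitT.Cov.split_x (LitT.Cov.split_t (LitT.Cov.split_e (LitT.Cov.split_E (LitT.cov_of_chunkM cB18_10_3_178) (LitT.cov_of_chunkM cB18_10_3_179)) (LitT.cov_of_chunkM cB18_10_3_180)) (LitT.Cov.split_E (LitT.cov_of_chunkM cB18_10_3_181) (LitT.Cov.split_e (LitT.Cov.split_x (LitT.Cov.split_t (LitT.Cov.split_e (LitT.cov_of_chunkM cB18_10_3_182) (LitT.cov_of_chunkM cB18_10_3_183)) (LitT.Cov.split_e (LitT.cov_of_chunkM cB18_10_3_184) (LitT.cov_of_chunkM cB18_10_3_185))) (LitT.cov_of_chunkM cB18_10_3_186)) (LitT.Cov.split_x (LitT.cov_of_chunkM cB18_10_3_187) (LitT.Cov.split_t (LitT.cov_of_chunkM cB18_10_3_188) (LitT.Cov.split_e (LitT.cov_of_chunkM cB18_10_3_189) (LitT.cov_of_chunkM cB18_10_3_190))))))) (LitT.Cov.split_t (LitT.Cov.split_e (LitT.cov_of_chunkM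 cB18_10_3_191) (LitT.cov_of_chunkM cB18_10_3_192)) (LitT.Cov.split_e (LitT.cov_of_chunkM cB18_10_3_193) (LitT.cov_of_chunkM cB18_10_3_194)))) (LitT.Cov.split_x (LitT.cov_of_chunkM cB18_10_3_195) (LitT.Cov.split_t (LitT.cov_of_chunkM cB18_10_3_196) (LitT.Cov.split_e (LitT.Cov.split_E (LitT.cov_of_chunkM cB18_10_3_197) (LitT.Cov.split_x (LitT.cov_of_chunkM cB18_10_3_198) (LitT.cov_of_chunkM cB18_10_3_199))) (LitT.cov_of_chunkM cB18_10_3_200))))) (LitT.Cov.split_e (LitT.Cov.split_t (LitT.Cov.split_x (LitT.Cov.split_t (LitT.Cov.split_E (LitT.cov_of_chunkM cB18_10_3_201) (LitT.cov_of_chunkM cB18_10_3_202)) (LitT.cov_of_chunkM cB18_10_3_203)) (LitT.cov_of_chunkM cB18_10_3_204)) (LitT.cov_of_chunkM cB18_10_3_205)) (LitT.Cov.split_x (LitT.Cov.split_x (LitT.cov_of_chunkM cB18_10_3_206) (LitT.Cov.split_e (LitT.Cov.split_t (LitT.Cov.split_t (LitT.Cov.split_E (LitT.cov_of_chunkM cB18_10_3_207)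 (LitT.Cov.split_e (LitT.cov_of_chunkM cB18_10_3_208) (LitT.cov_of_chunkM cB18_10_3_209))) (LitT.cov_of_chunkM cB18_10_3_210)) (LitT.cov_of_chunkM cB18_10_3_211)) (LitT.cov_of_chunkM cB18_10_3_212))) (LitT.Cov.split_E (LitT.cov_of_chunkM cB18_10_3_213) (LitT.Cov.split_t (LitT.Cov.split_e (LitT.cov_of_chunkM cB18_10_3_214) (LitT.Cov.split_x (LitT.Cov.split_t (LitT.Cov.split_e (LitT.cov_of_chunkM cB18_10_3_215) (LitT.cov_of_chunkM cB18_10_3_216)) (LitT.cov_of_chunkM cB18_10_3_217)) (LitT.cov_of_chunkM cB18_10_3_218))) (LitT.cov_of_chunkM cB18_10_3_219)))))) (LitT.Cov.split_x (LitT.cov_of_chunkM cB18_10_3_220) (LitT.Cov.split_t (LitT.cov_of_chunkM cB18_10_3_221) (LitT.Cov.split_e (LitT.Cov.split_t (LitT.Cov.split_E (LitT.cov_of_chunkM cB18_10_3_222) (LitT.Cov.split_e (LitT.Cov.split_x (LitT.cov_of_chunkM cB18_10_3_223) (LitT.Cov.split_t (LitT.cov_of_chunkM cB18_10_3_224) (LitT.Cov.split_e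 (LitT.cov_of_chunkM cB18_10_3_225) (LitT.cov_of_chunkM cB18_10_3_226)))) (LitT.Cov.split_x (LitT.cov_of_chunkM cB18_10_3_227) (LitT.Cov.split_t (LitT.cov_of_chunkM cB18_10_3_228) (LitT.Cov.split_e (LitT.cov_of_chunkM cB18_10_3_229) (LitT.cov_of_chunkM cB18_10_3_230)))))) (LitT.Cov.split_x (LitT.cov_of_chunkM cB18_10_3_231) (LitT.Cov.split_t (LitT.Cov.split_E (LitT.cov_of_chunkM cB18_10_3_232) (LitT.Cov.split_e (LitT.cov_of_chunkM cB18_10_3_233) (LitT.Cov.split_e (LitT.cov_of_chunkM cB18_10_3_234) (LitT.cov_of_chunkM cB18_10_3_235)))) (LitT.cov_of_chunkM cB18_10_3_236)))) (LitT.cov_of_chunkM cB18_10_3_237))))))) (LitT.cov_of_chunkM cB18_10_3_238))))))))), (LitT.cov_of_chunkM cB18_10_1_0), (LitT.cov_of_chunkM cB18_10_2_0), (LitT.cov_of_chunkM cB18_10_0_0)⟩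

end Vale.Agent.helper4.Q4
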