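import Vale.Agent.helper4.Q4TreeM
import Vale.Agent.helper4.Q4G.PB18_11

/-!
Checks for pairs of intervals of second moments.
-/

set_option maxRecDepth 100000
set_option linter.unusedVariables false

namespace Vale.Agent.helper4.Q4

theorem cB18_11_3_0 : chunkOkM (LB18_11.ctx true true 95 1 1 1 1 1 1 1 1) muQ true true 64 RtB18_11.Cx RtB18_11.CX RtB18_11.Ctp.left RtB18_11.Ce RtB18_11.CTp RtB18_11.CEr 0x41 = true := by decide +kernel

theorem cB18_11_3_1 : chunkOkM (LB18_11.ctx true true 95 1 1 1 1 1 1 1 1) muQ true true 64 RtB18_11.Cx RtB18_11.CX RtB18_11.Ctp.right RtB18_11.Ce RtB18_11.CTp.left RtB18_11.CEr 0x42 = true := by decide +kernel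

theorem cB18_11_3_2 : chunkOkM (LB18_11.ctx true true 95 1 1 1 1 1 1 1 1) muQ true true 64 RtB18_11.Cx RtB18_11.CX RtB18_11.Ctp.right RtB18_11.Ce RtB18_11.CTp.right RtB18_11.CEr.left 0x6a = true := by decide +kernel

theorem cB18_11_3_3 : chunkOkM (LB18_11.ctx true true 95 1 1 1 1 1 1 1 1) muQ true true 64 RtB18_11.Cx RtB18_11.CX RtB18_11.Ctp.right.left RtB18_11.Ce RtB18_11.CTp.right RtB18_11.CEr.right 0x41 = true := by decide +kernel

theorem cB18_11_3_4 : chunkOkM (LB18_11.ctx true true 95 1 1 1 1 1 1 1 1) muQ true true 64 RtB18_11.Cx RtB18_11.CX RtB18_11.Ctp.right.right RtB18_11.Ce.left RtB18_11.CTp.right RtB18_11.CEr.right 0x11 = true := by decide +kernel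

theorem cB18_11_3_5 : chunkOkM (LB18_11.ctx true true 209 17 8 15 16 49 65 16 33) muQ true true 64 RtB18_11.Cx RtB18_11.CX RtB18_11.Ctp.right.right RtB18_11.Ce.right.left RtB18_11.CTp.right RtB18_11.CEr.right 0x7cff8f68b1bf5e06f82299c1d1d9f42d09fa6f49e140d = true := by decide +kernel

theorem cB18_11_3_6 : chunkOkM (LB18_11.ctx true true 95 1 1 1 1 1 1 1 1) muQ true true 64 RtB18_11.Cx RtB18_11.CX RtB18_11.Ctp.right.right.left.left RtB18_11.Ce.right.right.left RtB18_11.CTp.right RtB18_11.CEr.right 0x49 = true := by decide +kernel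

theorem cB18_11_3_7 : chunkOkM (LB18_11.ctx true true 95 1 1 1 1 1 1 1 1) muQ true true 64 RtB18_11.Cx RtB18_11.CX RtB18_11.Ctp.right.right.left.right.left RtB18_11.Ce.right.right.left RtB18_11.CTp.right RtB18_11.CEr.right 0x49 = true := by decide +kernel

theorem cB18_11_3_8 : chunkOkM (LB18_11.ctx true true 283 513 256 15 16 3073 2587 35 33) muQ true true 64 RtB18_11.Cx.left.left RtB18_11.CX RtB18_11.Ctp.right.right.left.right.right RtB18_11.Ce.right.right.left.left.left RtB18_11.CTp.right RtB18_11.CEr.right 0x40a0de37dd268dda6d878eb75e7657dc5e7e6116cea698e550d4ac5c607ddbe47d964c1ffaad877b60876507e61212e8a48e550d571a739a7dd7c72b764cda21ce77e613a3f2698e567bbb5f450d987ef017dd16e6a9874cbc25ab67bdb09da27e614a2db6f8e519c81b6f460d544949495942682ba7dd5384b363cc2fed56f61391a3c48e52740616f450d1dd78fe7dd4e5608373c223d18c186b1ebf8b37f61ec109488e550d547774934933a4c78497dda0f2ad67b1802002a79e64a2d22f88f440d4 = true := by decide +kernel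

theorem cB18_11_3_9 : chunkOkM (LB18_11.ctx true true 248 65 32 15 16 763 1313 16 33) muQ true true 64 RtB18_11.Cx.left.left RtB18_11.CX RtB18_11.Ctp.right.right.left.right.right.left RtB18_11.Ce.right.right.left.left.right.left RtB18_11.CTp.right RtB18_11.CEr.right 0x58025027ddc73c7967b899b696e975ef23fb8e513a75f8e8f450d = true := by decide +kernel

theorem cB18_11_3_10 : chunkOkM (LB18_11.ctx true true 279 259 128 15 16 3101 5213 35 33) muQ true true 64 RtB18_11.Cx.left.left RtB18_11.CX RtB18_11.Ctp.right.right.left.right.right.right RtB18_11.Ce.right.right.left.left.right.left.left RtB18_11.CTp.right RtB18_11.CEr.right 0x4ed34e37dd1a88256e91f96246e7ae7ff2e7e61409131d8e53dd6e66f460d254f7e27dd913cd8173c1cb6043486b16cbfcd18e6163e6bf48e53dd8696f460d549339bc7287dd1980c0c73ca40d476f6130b00a48e540d628c2667dd694c7364c20759d677b37923bd7f61f7ffec78e550d5594a097f67dd2197e7a73c2e5be497f62b71219c8e51a7258b7f450d168f6fd7dd329a9ce73c225285ba86b17078d37f61965d2f18e51f9c706f460d5493597437 = true := by decide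 +kernel

theorem cB18_11_3_11 : chunkOkM (LB18_11.ctx true true 325 2079 1024 15 16 25081 84045 35 77) muQ true true 64 RtB18_11.Cx.left.left RtB18_11.CX RtB18_11.Ctp.right.right.left.right.right.right RtB18_11.Ce.right.right.left.left.right.left.right RtB18_11.CTp.right RtB18_11.CEr.right 0x49594074b7f7dd17bc27573c2c0ca367b77de36b7f63fab01838e510801e6f460d228ad66dd3dc007e73c24ef6e2486b487ee997f628134f1c8e578b4686f460d54759595959599c366507dd13003efe83cde5ec86f6f4961c6f540ddb7764476b6dc17727d8fbb5356f6154bf717f540d6459345975935974593597459359747218904277b40bbc4d88e510a226d18f430d3 = true := by decide +kernel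

theorem cB18_11_3_12 : chunkOkM (LB18_11.ctx true true 95 1 1 1 1 1 1 1 1) muQ true true 64 RtB18_11.Cx.left.left RtB18_11.CX RtB18_11.Ctp.right.right.left.right.right RtB18_11.Ce.right.right.left.left.right.right RtB18_11.CTp.right RtB18_11.CEr.right 0x59 = true := by decide +kernel

theorem cB18_11_3_13 : chunkOkM (LB18_11.ctx true true 95 1 1 1 1 1 1 1 1) muQ true true 64 RtB18_11.Cx.left.right RtB18_11.CX RtB18_11.Ctp.right.right.left.right.right RtB18_11.Ce.right.right.left.left RtB18_11.CTp.right RtB18_11.CEr.right 0x49 = true := by decide +kernel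

theorem cB18_11_3_14 : chunkOkM (LB18_11.ctx true true 95 1 1 1 1 1 1 1 1) muQ true true 64 RtB18_11.Cx.left RtB18_11.CX RtB18_11.Ctp.right.right.left.right.right RtB18_11.Ce.right.right.left.right RtB18_11.CTp.right RtB18_11.CEr.right 0x59 = true := by decide +kernel

theorem cB18_11_3_15 : chunkOkM (LB18_11.ctx true true 95 1 1 1 1 1 1 1 1) muQ true true 64 RtB18_11.Cx.right RtB18_11.CX RtB18_11.Ctp.right.right.left.right.right RtB18_11.Ce.right.right.left RtB18_11.CTp.right RtB18_11.CEr.right 0x49 = true := by decide +kernel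

theorem cB18_11_3_16 : chunkOkM (LB18_11.ctx true true 95 1 1 1 1 1 1 1 1) muQ true true 64 RtB18_11.Cx RtB18_11.CX RtB18_11.Ctp.right.right.right.left RtB18_11.Ce.right.right.left.left.left RtB18_11.CTp.right RtB18_11.CEr.right 0x69 = true := by decide +kernel

theorem cB18_11_3_17 : chunkOkM (LB18_11.ctx true true 266 131 64 15 16 1589 2639 35 33) muQ true true 64 RtB18_11.Cx.left.left RtB18_11.CX RtB18_11.Ctp.right.right.right.left.left.left RtB18_11.Ce.right.right.left.left.right.left RtB18_11.CTp.right RtB18_11.CEr.right 0x505ab3c7dd4a7a7f6e972198357e611a0afe78e540d20ebea57dda95da364c237de32a86bb6449c47e61212899a8e550d5444bf197ddaa7f35673c57058937e6f30be147e540d974fc7c7dd1bd720374c85cfcd67b10aa666f6d9d38407e550d53539c597dd2a0d07c73cd6df966f612215dee8e540d2cd65df7ddcef92864c21b6e9f77b25725ca7f6183b087c8e550d53754b11d57dd61273464c160ae76e79919f187e6fa44de17e550d986aa577dd19e677574cbd1eb867b11fe63198e611728c338e550d54 = true := by decide +kernel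

theorem cB18_11_3_18 : chunkOkM (LB18_11.ctx true true 260 65 32 15 16 1603 2639 35 33) muQ true true 64 RtB18_11.Cx.left.left RtB18_11.CX RtB18_11.Ctp.right.right.right.left.left.right RtB18_11.Ce.right.right.left.left.right.left RtB18_11.CTp.right RtB18_11.CEr.right 0x6948fe1a27ddaa935764c1f200a67b15d71dab8e610b4faf78e550d48417757ddb24d6564c26d84c177b1ce13df98e6f89d4507e550d56943 = true := by decide +kernel

theorem cB18_11_3_19 : chunkOkM (LB18_11.ctx true true 246 67 32 15 16 399 1313 16 33) muQ true true 64 RtB18_11.Cx.left.right RtB18_11.CX RtB18_11.Ctp.right.right.right.left.left RtB18_11.Ce.right.right.left.left.right.left RtB18_11.CTp.right RtB18_11.CEr.right 0x646ef1374c2766cd17e71cfb7b46d9e64888af4a8f440d = true := by decide +kernel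

theorem cB18_11_3_20 : chunkOkM (LB18_11.ctx true true 275 263 128 15 16 1589 5369 35 33) muQ true true 64 RtB18_11.Cx.left.left RtB18_11.CX RtB18_11.Ctp.right.right.right.left.left.left RtB18_11.Ce.right.right.left.left.right.right RtB18_11.CTp.right RtB18_11.CEr.right 0x5910a497c7f05b8aeea5dd6acb5df73c20628ff186b3f098337f622eb79808e550d559745935973c5c7697dd4d9bc7373c12f2a347f6fc331b77e540d6baddc07dd14043bb74cafe5fe976b3ae7db67e6fbd982f7e550d511d7ef07f05b79aa5264c225807377b1426f477f6191044e18e559d045f450d5359381ca187dd7a4113c73c4887fa6f6f50ae687e540d7ec937b7dd18c664274c8e1d0767b96255e6f6111fa1008e550d5459374 = true := by decide +kernel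

theorem cB18_11_3_21 : chunkOkM (LB18_11.ctx true true 292 519 256 15 16 3213 10725 35 77) muQ true true 64 RtB18_11.Cx.left.left RtB18_11.CX RtB18_11.Ctp.right.right.right.left.left.right RtB18_11.Ce.right.right.left.left.right.right RtB18_11.CTp.right RtB18_11.CEr.right 0x465db2f7dd8d6424673c876ee447e6d563bfc7e540d32560577ddcc358664c2220a5277b23d9b8888e6108be7418e550d54b4dbc97dd1977bbb183c5cfd5917d883aeaf6f6d00f7197e550d3eb112f7ddaed7be64c290b9b977bb4e6356f6ce4cedd7e550d55959b6dd0287dd162ad79c83c15a4d3676b64ad076f6e85c0957e550dc032fdf7ddc334ce576b1da327a7d8436d8d6f6eec227f7e550d659745935974373a5d8977dd8a6a6964cb5c19237e6bbf3ad17e540d6b6f50d7dd11dff4374c1dd5f0877ba58408d7e6cbe1ddd7e550d54 = true := by decide +kernel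

theorem cB18_11_3_22 : chunkOkM (LB18_11.ctx true true 270 133 64 15 16 1603 2691 35 77) muQ true true 64 RtB18_11.Cx.left.right RtB18_11.CX RtB18_11.Ctp.right.right.right.left.left RtB18_11.Ce.right.right.left.left.right.right RtB18_11.CTp.right RtB18_11.CEr.right 0x699336a597dded9c3364c1e11ed67b7e10d437e6105c319f8e550d39bf2df7dd5356b167b97cb3d87e6116c41748e540d669434910f15337f05b44a21627ddc29674073c10b0d88086b75fd1997e6127f3d018e550d577adb2ac7dd118759974c71b668a7e611013d1f8e540d48d43dc7dd46f8cb67b15f625d18e615256cd08e555469f6f450d644933 = true := by decide +kernel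

theorem cB18_11_3_23 : chunkOkM (LB18_11.ctx true true 260 65 32 15 16 819 1339 64 77) muQ true true 64 RtB18_11.Cx.left RtB18_11.CX RtB18_11.Ctp.right.right.right.left.right RtB18_11.Ce.right.right.left.left.right RtB18_11.CTp.right RtB18_11.CEr.right 0x696989f68e47ddd2f5dd64cb97f1df7e696cbd397e540d6a642c20c17ddc2b99764c168ab5f77be2f1ea77e68cb59967e550d425576943 = true := by decide +kernel

end Vale.Agent.helper4.Q4
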