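import Vale.Agent.helper4.Q4TreeM
import Vale.Agent.helper4.Q4G.PB18_11

/-!
Checks for pairs of intervals of second moments.
-/

set_option maxRecDepth 100000
set_option linter.unusedVariables false

namespace Vale.Agent.helper4.Q4

theorem cB18_11_3_24 : chunkOkM (LB18_11.ctx true true 232 35 16 15 16 203 663 16 33) muQ true true 64 RtB18_11.Cx.right RtB18_11.CX RtB18_11.Ctp.right.right.right.left RtB18_11.Ce.right.right.left.left.right RtB18_11.CTp.right RtB18_11.CEr.right 0xfcd24c6f04b = true := by decide +kernel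

theorem cB18_11_3_25 : chunkOkM (LB18_11.ctx true true 95 1 1 1 1 1 1 1 1) muQ true true 64 RtB18_11.Cx RtB18_11.CX RtB18_11.Ctp.right.right.right.right RtB18_11.Ce.right.right.left.left RtB18_11.CTp.right RtB18_11.CEr.right 0x11 = true := by decide +kernel

theorem cB18_11_3_26 : chunkOkM (LB18_11.ctx true true 299 527 256 15 16 6433 21645 35 77) muQ true true 64 RtB18_11.Cx.left.left RtB18_11.CX RtB18_11.Ctp.right.right.right.left.left RtB18_11.Ce.right.right.left.right.left.left RtB18_11.CTp.right RtB18_11.CEr.right 0x592f58d3e7dd78ab3f973c6623166f6e85a0567e540d2b759067ddbfe3b664c20e793677b3c46286f6e8104677e550d55959597ed95f37dd13fb971383c44197966b11ef2017f540d59e77b57dd73aaba63c6d5bae876b95fd516f611835867f550d645935974593597435974593 = true := by decide +kernel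

theorem cB18_11_3_27 : chunkOkM (LB18_11.ctx true true 251 67 32 15 16 791 1365 16 33) muQ true true 64 RtB18_11.Cx.left.right RtB18_11.CX RtB18_11.Ctp.right.right.right.left.left.left RtB18_11.Ce.right.right.left.right.left.left RtB18_11.CTp.right RtB18_11.CEr.right 0x3e4fb0d7dd4afba264c8392057b105c9deaa9e6c9e930e319e528f015c5d9f460d = true := by decide +kernel

theorem cB18_11_3_28 : chunkOkM (LB18_11.ctx true true 274 135 64 15 16 3213 2717 35 77) muQ true true 64 RtB18_11.Cx.left.right RtB18_11.CX RtB18_11.Ctp.right.right.right.left.left.right RtB18_11.Ce.right.right.left.right.left.left.left RtB18_11.CTp.right RtB18_11.CEr.right 0x6991693007ddb63e4264c1744657bc3b0fb37e613c13dac8e5253f806f460d457e9c57dd194e6b67bea04adf7e6149396c98e540d64933927930c7dd1294264c83c1a0067076bb8186187e610d02c018e550d1e553847dda7b0f567bc4a2c8a7e61098340e8e540d637451ed7dd3cbcfd6e96c91d06f61126cb4f8e540d5782c747dd1359d4f74c9aca8867bf8d61b6f61376c4078e550d537 = true := by decide +kernel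

theorem cB18_11_3_29 : chunkOkM (LB18_11.ctx true true 309 1071 512 15 16 12873 21853 35 77) muQ true true 64 RtB18_11.Cx.left.right RtB18_11.CX RtB18_11.Ctp.right.right.right.left.left.right RtB18_11.Ce.right.right.left.right.left.left.right RtB18_11.CTp.right RtB18_11.CEr.right 0x2b3f3897dd39be854c4f1eb96e96de057d7e61158c1b78e550d1c786677dda4c683173c1090555686b4df83d37e611f958cc8e550d549495910e52607f05b19ccffc7dd92d779273c1497f53286b34d02f57f61c742e318e563c89b6f460d5477493332fd9a97dd779398573c4450b26f6103890228e540d32456197ddf0638864ce8e92067b61a1326f6109312eb8e550d5595959586e4f67ddf45236a73caa1dbfd7f6384f5637f540d12229bca8ddd26d73a76b6ea7a8c7d82783c6c7f61bc17c67f550d659359745935974593597437 = true := by decide +kernel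

theorem cB18_11_3_30 : chunkOkM (LB18_11.ctx true true 266 135 64 15 16 1617 2769 35 33) muQ true true 64 RtB18_11.Cx.left RtB18_11.CX RtB18_11.Ctp.right.right.right.left.left RtB18_11.Ce.right.right.left.right.left.right RtB18_11.CTp.right RtB18_11.CEr.right 0x59120d0d17f05b19b4fb67dd87769364c12cb2ca77b50f9bf6f6118fd6068e547d3d5f460d551eee064cc2893b67b68e6e87f8e512f08c3f8f440d35974597593 = true := by decide +kernel

theorem cB18_11_3_31 : chunkOkM (LB18_11.ctx true true 290 259 128 15 16 3297 5473 128 77) muQ true true 64 RtB18_11.Cx.left.left RtB18_11.CX RtB18_11.Ctp.right.right.right.left.right.left RtB18_11.Ce.right.right.left.right.left.left RtB18_11.CTp.right RtB18_11.CEr.right 0x3ca2b5d7ddd7f9f5d73cbfc3c927e6c4ed3d57e540d3465a707dde396c264c228785a77b18b18357f6c7e8c597e550d5592f1c1d27ddda6db4573c61db586f6ba7aadd7e540d32b7b3f7ddef0eb564c250a17677b5533cb6f6cec39307e550d559359745937528f28f7ddfefe9b64c1eb96a6e9ab4fbf47e6a5f48457e550d6a641b51f37ddf609c564cbf822e67be0022237e6aa4185e7e550d4a542554 = true := by decide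 +kernel

theorem cB18_11_3_32 : chunkOkM (LB18_11.ctx true true 303 131 64 57 64 1673 5499 256 539) muQ true true 64 RtB18_11.Cx.left.left RtB18_11.CX RtB18_11.Ctp.right.right.right.left.right.right RtB18_11.Ce.right.right.left.right.left.left RtB18_11.CTp.right.left RtB18_11.CEr.right 0x4a4a4692a4b7ddfa7d1064ce87e6dc7e688d37567e540d525a5a122df5774c1b559f1f8e65660bd57e52d11ab47e240d385e2bf7ed1ec510b74c3ce9bcd28e630d4111801674cf43926b7e692e3fb17e530d366611947637ed149a6fe74c1850257b1198f9db8e666027e07e535d091e7e260d2fc4fe17f06b45520976ed1007f0f74c207e2067bf77c08a7e694088247e550d36a6126126674b17a7a7dd1017a1c74c172881348e661529d77e540d4884a54a5425 = true := by decide +kernel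

theorem cB18_11_3_33 : chunkOkM (LB18_11.ctx true true 95 1 1 1 1 1 1 1 1) muQ true true 64 RtB18_11.Cx.left.left RtB18_11.CX RtB18_11.Ctp.right.right.right.left.right.right RtB18_11.Ce.right.right.left.right.left.left RtB18_11.CTp.right.right RtB18_11.CEr.right.left 0x6a = true := by decide +kernel

theorem cB18_11_3_34 : chunkOkM (LB18_11.ctx true true 273 129 64 15 16 1673 5447 35 77) muQ true true 64 RtB18_11.Cx.left.left RtB18_11.CX RtB18_11.Ctp.right.right.right.left.right.right RtB18_11.Ce.right.right.left.right.left.left.left RtB18_11.CTp.right.right RtB18_11.CEr.right.right 0x6971628107dd110d315983c17c6e617d761472b2c8e640d69c7f8b7dd10060e6a83cfee8336d720de02d78e6548ab0b7e550d35e6f37f7dded4b00373c9ab745e95cb5d4028e640d47 = true := by decide +kernel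

theorem cB18_11_3_35 : chunkOkM (LB18_11.ctx true true 279 259 128 15 16 1673 5499 35 77) muQ true true 64 RtB18_11.Cx.left.left RtB18_11.CX RtB18_11.Ctp.right.right.right.left.right.right RtB18_11.Ce.right.right.left.right.left.left.right RtB18_11.CTp.right.right RtB18_11.CEr.right.right 0x3c7156d7dd10a144d74c1b69566e916bcd69c8e6852418b7e550d5769a707ddf20748573c36e91847d95f2ac737f640d702aabf7ddfec510773c142eba67d74d91ab9b8e617b9a257e250d7678b0627dd1070934683c143505c7d73d1c054f8e69398396e250d45d21ff27dd10e342b283c1917edc7d72b2bf0b08e668f6a5f7e550d48a8c4a7dd12a1a0db83c238de527d723b4afb7f6710a7ae7e550d622369a7dd109ae56a83c16e67f07d746fe42038e62f607907e550d7437 = true := by decide +kernel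

theorem cB18_11_3_36 : chunkOkM (LB18_11.ctx true true 260 67 32 15 16 819 2743 35 77) muQ true true 64 RtB18_11.Cx.left.right RtB18_11.CX RtB18_11.Ctp.right.right.right.left.right RtB18_11.Ce.right.right.left.right.left.left RtB18_11.CTp.right RtB18_11.CEr.right 0x694d8a6e37ddffa4b264c74f716d7e6e30d3b87e540d5d5ee9e7dd16c068874cf093f467bd43ca5e7e6ebd6bed7e550d59985b3c7dd13653b974cf859757b1ab009988e6f427b8b7e550db1c04c643 = true := by decide +kernel

theorem cB18_11_3_37 : chunkOkM (LB18_11.ctx true true 279 263 128 15 16 3297 5525 35 33) muQ true true 64 RtB18_11.Cx.left.left RtB18_11.CX RtB18_11.Ctp.right.right.right.left.right.left RtB18_11.Ce.right.right.left.right.left.right RtB18_11.CTp.right RtB18_11.CEr.right 0x59591cee5c97ddbb5e4d473c121dd4c7f6bc12f617e540d1c75ce27ddc561b064c219879ea86b93daa56f6e1a21b27e550d559359745935974 = true := by decide +kernel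

end Vale.Agent.helper4.Q4
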