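import Vale.Agent.helper4.Q4TreeM
import Vale.Agent.helper4.Q4G.PB18_11

/-!
Checks for pairs of intervals of second moments.
-/

set_option maxRecDepth 100000
set_option linter.unusedVariables false

namespace Vale.Agent.helper4.Q4

theorem cB18_11_3_38 : chunkOkM (LB18_11.ctx true true 301 259 128 57 64 1673 5551 256 77) muQ true true 64 RtB18_11.Cx.left.left RtB18_11.CX RtB18_11.Ctp.right.right.right.left.right.right RtB18_11.Ce.right.right.left.right.left.right.left RtB18_11.CTp.right RtB18_11.CEr.right 0x4c8a9787ddedbbce373c1b0e9f6e9233f9bc7f6630cdbf7e550d582d2807ddf7b957f73c10797e6e9293453aa8e673c736e7e550d47353ba37ddf4270e673c5d888ec7e6b8f23e57e540d36a64a4a443cd0d7dd1069195083c102acecb8e66f407847e540d4aa812c7ddfbd97164c20a10f67b8c7203b7e691b67ae7e550d641a97cc7ddf7a90764c4132c277e6b8f3c957e540d3884a54a54255696542ecd7ddf18177573cf36f716d748cbbd598e640d6a63d7f55f7ddf6b844e73cab61c867b6400d967f640d4a5425542176937 = true := by decide +kernel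

theorem cB18_11_3_39 : chunkOkM (LB18_11.ctx true true 282 131 64 15 16 1673 2795 256 77) muQ true true 64 RtB18_11.Cx.left.left RtB18_11.CX RtB18_11.Ctp.right.right.right.left.right.right RtB18_11.Ce.right.right.left.right.left.right.right RtB18_11.CTp.right RtB18_11.CEr.right 0x470c9e17ddef129464c1bd1906e9f2a74207e6a0966c47e550d6a637e2ba17ddf37c18d73c61050d67bcc21f0a7e6a4df7447e550d4a54a54255593217 = true := by decide +kernel

theorem cB18_11_3_40 : chunkOkM (LB18_11.ctx true true 270 135 64 15 16 1645 2769 35 77) muQ true true 64 RtB18_11.Cx.left.right RtB18_11.CX RtB18_11.Ctp.right.right.right.left.right.left RtB18_11.Ce.right.right.left.right.left.right.left RtB18_11.CTp.right RtB18_11.CEr.right 0x7de7c2a7dd115f3e474c1a1c1767bba8a2cc7e6f95eb4b7e550ddae7d46dd827fa367b5449336d8fe9b2c47e6faee9737e550d628956d67dd8b574164c45a22e6f6111b7c308e540d17884257dddaf0c7873c19622a9086b4e0c29b7e610eff6e88e550d5334c95047ddb274c6673c5946106f6d8bab9d7e540d6380e2d7dd192852974ca24b8767b107a7b77f6ce97cbe7e550d51d463be7dda959ff973c35239807e6101dc3798e540db5088464c1c49e2077b6d2c0d6f6f6bc8cb7e540d537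 = true := by decide +kernel

theorem cB18_11_3_41 : chunkOkM (LB18_11.ctx true true 292 535 256 15 16 3297 11141 35 77) muQ true true 64 RtB18_11.Cx.left.right RtB18_11.CX RtB18_11.Ctp.right.right.right.left.right.left RtB18_11.Ce.right.right.left.right.left.right.right RtB18_11.CTp.right RtB18_11.CEr.right 0x231efed7dda58b9d64c5715b16f61018f8a88e540d27795b37dded1e26f73c12a8a3fd86b12e9fff7f6128416c98e550d5592f49af47dda08ebc373cc2bf3a6f612fb10598e540d24c6dd6ddac43edc73c1823ba0c86b17c06197f6161167358e550d559743595982b3bc87dd1215392483c17390de76bffb4776f6ed0dbc57e550d28003477dd582c61973c60002de76b6df28a6f6f4446167e550d6597459359745937 = true := by decide +kernel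

theorem cB18_11_3_42 : chunkOkM (LB18_11.ctx true true 270 135 64 15 16 833 2795 64 77) muQ true true 64 RtB18_11.Cx.left.right RtB18_11.CX RtB18_11.Ctp.right.right.right.left.right.right RtB18_11.Ce.right.right.left.right.left.right RtB18_11.CTp.right RtB18_11.CEr.right 0x2ea6a26ddf65b1464c3996d06e9e5693f17e6cc127ee7e550d6cfd2817dd19a0ebaf83c6c6631976bca109667e6d9b8a187e550d52982a757ddaae9ba67bfc16e3c7e6ca30f9c7e540d62b034d37ddda4fa3673cc5db196f6a7b8e9a7e540d30186c37ddfc5af264cd7d6f467b1466417b8e6a0e80d77e550d42557b1e1e46dd11ce07a74cc3b460f7e6b785d827e540d887bfbd7dd1fc4a1574c77357667bd4559447e6bb788517e550d5cdcdce77dd100a7ae77bf93ac06d813ba42838e6c3f9ea57e550d64 = true := by decide +kernel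

theorem cB18_11_3_43 : chunkOkM (LB18_11.ctx true true 95 1 1 1 1 1 1 1 1) muQ true true 64 RtB18_11.Cx.right RtB18_11.CX RtB18_11.Ctp.right.right.right.left.left RtB18_11.Ce.right.right.left.right.left RtB18_11.CTp.right RtB18_11.CEr.right 0x49 = true := by decide +kernel

theorem cB18_11_3_44 : chunkOkM (LB18_11.ctx true true 95 1 1 1 1 1 1 1 1) muQ true true 64 RtB18_11.Cx.right RtB18_11.CX RtB18_11.Ctp.right.right.right.left.right RtB18_11.Ce.right.right.left.right.left.left RtB18_11.CTp.right RtB18_11.CEr.right 0x69 = true := by decide +kernel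

theorem cB18_11_3_45 : chunkOkM (LB18_11.ctx true true 256 69 32 15 16 819 2769 16 77) muQ true true 64 RtB18_11.Cx.right.left RtB18_11.CX RtB18_11.Ctp.right.right.right.left.right.left RtB18_11.Ce.right.right.left.right.left.right.left RtB18_11.CTp.right RtB18_11.CEr.right 0x2c9a37e7ddc1c88264c42f5dd67b195d9adb8e6137980e08e55a912c6f460d2ab9f1a7dd2b189e67b26ad66a38e616e4a8618e514080257f450d6 = true := by decide +kernel

theorem cB18_11_3_46 : chunkOkM (LB18_11.ctx true true 273 139 64 15 16 1645 5603 35 77) muQ true true 64 RtB18_11.Cx.right.left RtB18_11.CX RtB18_11.Ctp.right.right.right.left.right.left RtB18_11.Ce.right.right.left.right.left.right.right RtB18_11.CTp.right RtB18_11.CEr.right 0x24d94e27f04b2a076d67dde99f4b64c56598767bb32fbef7e611212d228e550d15d85267dd6d56c667b583a7787e611030cec8e540d611ea0c27f05be5dbad573c2231cbb186bacc7986f613257f538e53405706f450d510f6bf97f05bc056036ddc33084473c1412475286bbfa2e9f7e612b53f038e525d6906f460d5437 = true := by decide +kernel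

theorem cB18_11_3_47 : chunkOkM (LB18_11.ctx true true 95 1 1 1 1 1 1 1 1) muQ true true 64 RtB18_11.Cx.right.right RtB18_11.CX RtB18_11.Ctp.right.right.right.left.right.left RtB18_11.Ce.right.right.left.right.left.right RtB18_11.CTp.right RtB18_11.CEr.right 0x49 = true := by decide +kernel

theorem cB18_11_3_48 : chunkOkM (LB18_11.ctx true true 95 1 1 1 1 1 1 1 1) muQ true true 64 RtB18_11.Cx.right RtB18_11.CX RtB18_11.Ctp.right.right.right.left.right.right RtB18_11.Ce.right.right.left.right.left.right RtB18_11.CTp.right RtB18_11.CEr.right 0x69 = true := by decide +kernel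

theorem cB18_11_3_49 : chunkOkM (LB18_11.ctx true true 230 17 8 15 16 399 715 16 33) muQ true true 64 RtB18_11.Cx RtB18_11.CX RtB18_11.Ctp.right.right.right.left.left RtB18_11.Ce.right.right.left.right.right RtB18_11.CTp.right RtB18_11.CEr.right 0x53d2506ed2429d1d77b12ce92f999e53d3b32518f440d = true := by decide +kernel

theorem cB18_11_3_50 : chunkOkM (LB18_11.ctx true true 95 1 1 1 1 1 1 1 1) muQ true true 64 RtB18_11.Cx.left.left RtB18_11.CX RtB18_11.Ctp.right.right.right.left.right RtB18_11.Ce.right.right.left.right.right.left RtB18_11.CTp.right RtB18_11.CEr.right 0x59 = true := by decide +kernel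

theorem cB18_11_3_51 : chunkOkM (LB18_11.ctx true true 292 543 256 15 16 6601 11245 16 77) muQ true true 64 RtB18_11.Cx.left.right RtB18_11.CX RtB18_11.Ctp.right.right.right.left.right.left RtB18_11.Ce.right.right.left.right.right.left RtB18_11.CTp.right RtB18_11.CEr.right 0x59595944b569e7dde10822973c2ded18976b104c309c8e540de3cc756f05b6593597459359745935974 = true := by decide +kernel

theorem cB18_11_3_52 : chunkOkM (LB18_11.ctx true true 270 135 64 15 16 1673 2821 35 77) muQ true true 64 RtB18_11.Cx.left.right RtB18_11.CX RtB18_11.Ctp.right.right.right.left.right.right RtB18_11.Ce.right.right.left.right.right.left.left RtB18_11.CTp.right RtB18_11.CEr.right 0x1c39b9d7ddc7b82b64c2557d26e9ab28c397e6bf975207e550daee6b8a7dd145bb85183c51f9f7e76b3b804ae7e6dc8c2d47e550d561f58fc7dd57fe7764c98e2e367b3f510b6f6d94e8907e550d6235a32b7ddb87373c73c5c14386f6ed6c0dd7e540d2d10eba7dd14a2dcc74ce7427c67b707bd66f6f20f3d77e550d532a9f5af7dde223ff473c6a01f507e6c22ed287e540d2a286567dde8eccd64c1d001c177b42e857b7e6cece5a37e550d55937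 = true := by decide +kernel

theorem cB18_11_3_53 : chunkOkM (LB18_11.ctx true true 267 135 64 15 16 1673 2847 35 33) muQ true true 64 RtB18_11.Cx.left.right RtB18_11.CX RtB18_11.Ctp.right.right.right.left.right.right RtB18_11.Ce.right.right.left.right.right.left.right RtB18_11.CTp.right RtB18_11.CEr.right 0x1aa61a07ddbc4e6e973c6476ea27e6d58f6c47e540d1156df674c19b88f077b148689da8e6f95a6ca7e540d5593597 = true := by decide +kernel

theorem cB18_11_3_54 : chunkOkM (LB18_11.ctx true true 95 1 1 1 1 1 1 1 1) muQ true true 64 RtB18_11.Cx.left RtB18_11.CX RtB18_11.Ctp.right.right.right.left.right RtB18_11.Ce.right.right.left.right.right.right RtB18_11.CTp.right RtB18_11.CEr.right 0x59 = true := by decide +kernel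

end Vale.Agent.helper4.Q4
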