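import Vale.Agent.helper4.Q4TreeM
import Vale.Agent.helper4.Q4G.PB18_11

/-!
Checks for pairs of intervals of second moments.
-/

set_option maxRecDepth 100000
set_option linter.unusedVariables false

namespace Vale.Agent.helper4.Q4

theorem cB18_11_3_55 : chunkOkM (LB18_11.ctx true true 276 139 64 15 16 3297 5655 35 33) muQ true true 64 RtB18_11.Cx.right.left RtB18_11.CX RtB18_11.Ctp.right.right.right.left.right.left RtB18_11.Ce.right.right.left.right.right.left RtB18_11.CTp.right RtB18_11.CEr.right 0xc0c13a6dd5d8b4c6e910a10a3b8e61503a0f48e5903d086f450dbe46f064c1250f1477b915d97a7e6142b40798e55c04fa6f450d5287e2cd7dd73ed1864c16f2d467b16ba25fb8e61452bdd78e55d7d056f460d493493349ccf67dddf2e1664c1d66d9e7f616c94af48e540db221ed373c14d7147d86b12824497f614e08bf08e540d525893497dd46ecfe64c249afe6e916726197f616232d3a8e550d5e61be6ddebbcf0373c1b657f3386b1f330da98e6127f1da28e550d5488e830173c278a0167b173deaa98f6f9d641c709e536b93f81d9f450d374 = true := by decide +kernel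

theorem cB18_11_3_56 : chunkOkM (LB18_11.ctx true true 263 137 64 15 16 833 2821 35 33) muQ true true 64 RtB18_11.Cx.right.left RtB18_11.CX RtB18_11.Ctp.right.right.right.left.right.right RtB18_11.Ce.right.right.left.right.right.left.left RtB18_11.CTp.right RtB18_11.CEr.right 0x691a0c3f57ddb1021064cccefd247e6fa9cd8e7e540dee8f4064c134879177b975511d7e6ec5c3bc7e540d57 = true := by decide +kernel

theorem cB18_11_3_57 : chunkOkM (LB18_11.ctx true true 273 137 64 15 16 1673 5707 35 77) muQ true true 64 RtB18_11.Cx.right.left.left RtB18_11.CX RtB18_11.Ctp.right.right.right.left.right.right RtB18_11.Ce.right.right.left.right.right.left.right RtB18_11.CTp.right RtB18_11.CEr.right 0x161a2047ddd7cde464c100990a7f6e9d138b7e540dd59cade73c11395c1086ba65df76f6edb30bd7e540d55676f5b7dd119c347f83c2647d4876bbfdf03b7e6e9107197e550d22819567dd67bd754c6ee79167b12036997f6108202278e550d64ff6a6d6ddaf2a4364c278f776f610d191618e540d190af96ddd0a23c64c142d4b0086bc6e9c66f611a140598e550d53 = true := by decide +kernel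

theorem cB18_11_3_58 : chunkOkM (LB18_11.ctx true true 274 139 64 15 16 1673 5707 35 77) muQ true true 64 RtB18_11.Cx.right.left.right RtB18_11.CX RtB18_11.Ctp.right.right.right.left.right.right RtB18_11.Ce.right.right.left.right.right.left.right RtB18_11.CTp.right RtB18_11.CEr.right 0x138ebfc7ddf0116c64c36439967b1416a65e8e610c8315c8e550d1b6af06f05b61595d3d7dd17dc2764c44030f6e9171f98d7f613fbc0b18e550d14534987ddba2659073c946ca6c76b51da9317e611fe01818e53c75836f460d514a3d947ddc8ebb664c2fab8067b83e61a87e6fd62b287e550d1c152f77dd3733057b10db7997f6132352748e51ce05e6f450d643 = true := by decide +kernel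

theorem cB18_11_3_59 : chunkOkM (LB18_11.ctx true true 245 71 32 15 16 413 1417 16 33) muQ true true 64 RtB18_11.Cx.right.right RtB18_11.CX RtB18_11.Ctp.right.right.right.left.right RtB18_11.Ce.right.right.left.right.right.left RtB18_11.CTp.right RtB18_11.CEr.right 0x3e2da357f04b = true := by decide +kernel

theorem cB18_11_3_60 : chunkOkM (LB18_11.ctx true true 249 69 32 15 16 819 1443 16 33) muQ true true 64 RtB18_11.Cx.right.left RtB18_11.CX RtB18_11.Ctp.right.right.right.left.right.left RtB18_11.Ce.right.right.left.right.right.right RtB18_11.CTp.right RtB18_11.CEr.right 0x1822bfc7dd6e08db64c60476467bd2e71c0d8e52bc9b9138f450d = true := by decide +kernel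

theorem cB18_11_3_61 : chunkOkM (LB18_11.ctx true true 274 139 64 15 16 1673 5759 35 77) muQ true true 64 RtB18_11.Cx.right.left RtB18_11.CX RtB18_11.Ctp.right.right.right.left.right.right RtB18_11.Ce.right.right.left.right.right.right.left RtB18_11.CTp.right RtB18_11.CEr.right 0xf128056ddd4190864cf89e176f611308e8d8e540dcf60df573cbea2c6276b63b75c6f6111fa0f28e540d51b549467ddf86d9264c38d5a267b47387e17e6f3411207e550dd989766f05b6445498d6dd83fe4d64cd22ede6f615862d768e5292b506f450dd7e9e0273c17fe074686b710a456f612e549358e59baa25f450d538ab0c26dda4c57de73cc08345e98928276f610f633058e550dfb84d564c13c0ec277bb5e011e7e6e60f8447e540d55937 = true := by decide +kernel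

theorem cB18_11_3_62 : chunkOkM (LB18_11.ctx true true 267 139 64 15 16 1673 2899 35 33) muQ true true 64 RtB18_11.Cx.right.left RtB18_11.CX RtB18_11.Ctp.right.right.right.left.right.right RtB18_11.Ce.right.right.left.right.right.right.right RtB18_11.CTp.right RtB18_11.CEr.right 0x9ad99c64cb31595e910822107f6143d9f028e540dca0dab6dd90aef164c7cbdeb67b14aa6877f614b1842c8e550d5593597 = true := by decide +kernel

theorem cB18_11_3_63 : chunkOkM (LB18_11.ctx true true 270 141 64 15 16 1673 5811 35 33) muQ true true 64 RtB18_11.Cx.right.right RtB18_11.CX RtB18_11.Ctp.right.right.right.left.right RtB18_11.Ce.right.right.left.right.right.right RtB18_11.CTp.right RtB18_11.CEr.right 0x491d4e26c7dde451fd64cb8f2966f6129756c48e540d7b41126ddb39be0373cce5e48f76bb20c246f612dd6d628e5346a326f460d518e66257ddc7eb1064c53f3f5a7f61c4548ae8e546d6bd6f450dc1bbba64cf58827576b72bf83a7e611ad005f8e53381266f450d5471f8fc757dd3b9f5e64c18f78c67b25aa48218e615318f298e580ee836f460d4493493 = true := by decide +kernel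

theorem cB18_11_3_64 : chunkOkM (LB18_11.ctx true true 301 131 64 57 64 1701 2795 256 539) muQ true true 64 RtB18_11.Cx.left RtB18_11.CX RtB18_11.Ctp.right.right.right.right.left RtB18_11.Ce.right.right.left.right.left RtB18_11.CTp.right.left RtB18_11.CEr.right 0x4a4a320c6277dd1065fea74cf5a6bc37e68389ec07e540d01525a5acf1a856f02b2e7b646ed10c607e74c7be623a7e679a4e567e539889187e250d3666d5463a6f00b53354e6ed142e60074cac51c767e67ed7f1c7e5435bb6c7e250d36a612612662174eb37c37dd1125d7d74c279ed5b7e651a61f57e58281b897e250d436e6627ddfc75a064c186b5c67b22a6e687e659883457e578813977e260d643747c5616ed11e204074c78e7f57bb1cee3b677ad11df5ebc70aae050d4884a54a5425 = true := by decide +kernel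

theorem cB18_11_3_65 : chunkOkM (LB18_11.ctx true true 95 1 1 1 1 1 1 1 1) muQ true true 64 RtB18_11.Cx.left RtB18_11.CX RtB18_11.Ctp.right.right.right.right.left RtB18_11.Ce.right.right.left.right.left RtB18_11.CTp.right.right RtB18_11.CEr.right.left 0x6a = true := by decide +kernel

theorem cB18_11_3_66 : chunkOkM (LB18_11.ctx true true 249 33 16 15 16 427 1365 35 77) muQ true true 64 RtB18_11.Cx.left RtB18_11.CX RtB18_11.Ctp.right.right.right.right.left RtB18_11.Ce.right.right.left.right.left.left RtB18_11.CTp.right.right RtB18_11.CEr.right.right 0x45450297dd103d76c74c1d869a67e6adce0dcd63ad11d49ab9103ae050d = true := by decide +kernel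

theorem cB18_11_3_67 : chunkOkM (LB18_11.ctx true true 280 263 128 15 16 1701 5603 35 77) muQ true true 64 RtB18_11.Cx.left RtB18_11.CX RtB18_11.Ctp.right.right.right.right.left RtB18_11.Ce.right.right.left.right.left.right RtB18_11.CTp.right.right RtB18_11.CEr.right.right 0x4c118667dde9185364cee350087e6792ba447e540d0147e74827ddf5e216373c2c0c28d7d93f6f7bc7f68e462e07e250d33d8ff27dd135290ff83c11e42ca7d768d92c47f640d321710436c67dd1515491d83c5e03486d71b719a268e15916f78f8e050d3a33ce37dd1030bed083c24ce4f6e9533b68a7f640d456bc4c7ddfa585e473c2f1c69e7d96892db57f63e75b967e250d73421752d779d7dde7c3d464c22ae676e9288fc2aa8e65a6db267e250d3315a8e7ddf66b83773c28fcfc97d98ecd78d7e6104457f78e250d7437 = true := by decide +kernel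

theorem cB18_11_3_68 : chunkOkM (LB18_11.ctx true true 95 1 1 1 1 1 1 1 1) muQ true true 64 RtB18_11.Cx.right RtB18_11.CX RtB18_11.Ctp.right.right.right.right.left RtB18_11.Ce.right.right.left.right.left RtB18_11.CTp.right RtB18_11.CEr.right 0x11 = true := by decide +kernel

end Vale.Agent.helper4.Q4
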