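import Vale.Agent.helper4.Q4TreeM
import Vale.Agent.helper4.Q4G.PB18_11

/-!
Checks for pairs of intervals of second moments.
-/

set_option maxRecDepth 100000
set_option linter.unusedVariables false

namespace Vale.Agent.helper4.Q4

theorem cB18_11_3_69 : chunkOkM (LB18_11.ctx true true 95 1 1 1 1 1 1 1 1) muQ true true 64 RtB18_11.Cx RtB18_11.CX RtB18_11.Ctp.right.right.right.right.right RtB18_11.Ce.right.right.left.right.left RtB18_11.CTp.right RtB18_11.CEr.right 0x11 = true := by decide +kernel

theorem cB18_11_3_70 : chunkOkM (LB18_11.ctx true true 307 527 256 57 64 1701 5629 256 77) muQ true true 64 RtB18_11.Cx.left.left RtB18_11.CX RtB18_11.Ctp.right.right.right.right.left RtB18_11.Ce.right.right.left.right.right.left RtB18_11.CTp.right RtB18_11.CEr.right 0x212101296e4ac7ddeb037d773c27a958e7d94fbd6cf7f625e1f36f250d33aed1a7dd1386fbf883c11aa47e7d755cf50278e640d36a64a4a3c378ab7ddfbb89bc73c155ff8cc8e66e25a497e53c22a36f250d884a54a54255321742174217 = true := by decide +kernel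

theorem cB18_11_3_71 : chunkOkM (LB18_11.ctx true true 292 135 64 57 64 1701 2847 256 77) muQ true true 64 RtB18_11.Cx.left.right RtB18_11.CX RtB18_11.Ctp.right.right.right.right.left RtB18_11.Ce.right.right.left.right.right.left RtB18_11.CTp.right.left RtB18_11.CEr.right 0x4a4a1f68afe7dd11fc7be74c1120fc67b4bcc1a07e6eb5ade07e250d2add9047dd10020b274c1232bd6d8e696cd5cc7e540d4357da77dd15341b874c5f238bf7e6953b0157e53882f0a7e250d28a699f7dd108bf79c83c6bb84297e691813ba7e54d8ae837e250d62bdbff57ddeb5c7964ced8252f7e6c19a3c37e540d3723e5c3e7ddff5aa564cd3175577e6a8c462d7e540d2ea2efd7dd12ffc1c74c1af0e067b11fc265e8e67be60d07e51fc4c7f7e260d2c8cd4c7dde8b0be64c12adb067b11f1a2a18e679adb0c7e521d01307e260d6743884a54a5425 = true := by decide +kernel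

theorem cB18_11_3_72 : chunkOkM (LB18_11.ctx true true 95 1 1 1 1 1 1 1 1) muQ true true 64 RtB18_11.Cx.left.right RtB18_11.CX RtB18_11.Ctp.right.right.right.right.left RtB18_11.Ce.right.right.left.right.right.left RtB18_11.CTp.right.right RtB18_11.CEr.right.left 0x6a = true := by decide +kernel

theorem cB18_11_3_73 : chunkOkM (LB18_11.ctx true true 274 135 64 15 16 1701 5655 35 77) muQ true true 64 RtB18_11.Cx.left.right RtB18_11.CX RtB18_11.Ctp.right.right.right.right.left.left RtB18_11.Ce.right.right.left.right.right.left.left RtB18_11.CTp.right.right RtB18_11.CEr.right.right 0x24c22637ddf313ab64c132662438e6a697b297e540d2a44bdd7dd106baa5e83c1472126e91717d767f662574eb7e54a3f2837e260d4f04e317dd110b9a274c67b636f38e64fc42f97e240d432602a87ddfabfa3873c2162976e9a2110e57e69d0e02a7e550d2e9ef307dd11b1008c83c1b4ee06e91d1b7947f65d152ea7e550d437 = true := by decide +kernel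

theorem cB18_11_3_74 : chunkOkM (LB18_11.ctx true true 274 135 64 15 16 1701 5707 35 77) muQ true true 64 RtB18_11.Cx.left.right RtB18_11.CX RtB18_11.Ctp.right.right.right.right.left.left RtB18_11.Ce.right.right.left.right.right.left.right RtB18_11.CTp.right.right RtB18_11.CEr.right.right 0x12c95d67dd1392ff774c1351d47a8e6933f9fe7e540d1741f217dd12e65aad83ccf0495e923fad7108e670d85757e5408886d7e260d2a300307dd11d7195983cc07565e9141b63478e67280bfe7e53045ba07e260d42bef8867dd115ab5274c67bdd5e92fed5ce7e6b8c48257e550d37 = true := by decide +kernel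

theorem cB18_11_3_75 : chunkOkM (LB18_11.ctx true true 257 67 32 15 16 861 1417 35 77) muQ true true 64 RtB18_11.Cx.left.right RtB18_11.CX RtB18_11.Ctp.right.right.right.right.left.right RtB18_11.Ce.right.right.left.right.right.left RtB18_11.CTp.right.right RtB18_11.CEr.right.right 0x1c75c567dd182acf874c79f95bf7e6e8bf3327e240d = true := by decide +kernel

theorem cB18_11_3_76 : chunkOkM (LB18_11.ctx true true 95 1 1 1 1 1 1 1 1) muQ true true 64 RtB18_11.Cx.left.left RtB18_11.CX RtB18_11.Ctp.right.right.right.right.left RtB18_11.Ce.right.right.left.right.right.right RtB18_11.CTp.right RtB18_11.CEr.right 0x21 = true := by decide +kernel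

theorem cB18_11_3_77 : chunkOkM (LB18_11.ctx true true 95 1 1 1 1 1 1 1 1) muQ true true 64 RtB18_11.Cx.left.right.left RtB18_11.CX RtB18_11.Ctp.right.right.right.right.left RtB18_11.Ce.right.right.left.right.right.right RtB18_11.CTp.right RtB18_11.CEr.right 0x21 = true := by decide +kernel

theorem cB18_11_3_78 : chunkOkM (LB18_11.ctx true true 274 135 64 15 16 847 2873 128 77) muQ true true 64 RtB18_11.Cx.left.right.right RtB18_11.CX RtB18_11.Ctp.right.right.right.right.left.left RtB18_11.Ce.right.right.left.right.right.right RtB18_11.CTp.right RtB18_11.CEr.right 0x6913289d97dd1264a3b74cf687ac67e6a28b3817e5c942026e250d6a6294bceb7ddff14b264c568c3467bb1901207e6b0cb5947e5ba0a7a6e260d4a542554 = true := by decide +kernel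

theorem cB18_11_3_79 : chunkOkM (LB18_11.ctx true true 298 271 128 57 64 1729 2899 256 77) muQ true true 64 RtB18_11.Cx.left.right.right RtB18_11.CX RtB18_11.Ctp.right.right.right.right.left.right RtB18_11.Ce.right.right.left.right.right.right RtB18_11.CTp.right RtB18_11.CEr.right 0x29e1df77dd1510574b83cb1dc846f6cdd08337e240d270216c7dd10b4458983c1e196f6e9d08f1687e693992bf7e5253c1927e260d36a64a4a19c3bfc7dd15b8f3274c2aa7bb67bb94d1947e689f50ea7e536a10957e260d2de11807dd10087c1883c24080267b17b45dcc8e672c30977e54afc9907e260d6884a54a54255217e321146dd128ae5c74cdbd7a5b7e670dc7a07e554927887e250d6a64a4a35c31cb7dd165e13b783c8f0ae567e67b3a1e77e5382a9d67e250d15bbb167dd109559274c1868a367bdc4653c7e682dec127e544627927e260d6884a54a542554 = true := by decide +kernel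

theorem cB18_11_3_80 : chunkOkM (LB18_11.ctx true true 95 1 1 1 1 1 1 1 1) muQ true true 64 RtB18_11.Cx.left RtB18_11.CX RtB18_11.Ctp.right.right.right.right.right RtB18_11.Ce.right.right.left.right.right RtB18_11.CTp.right RtB18_11.CEr.right 0x01 = true := by decide +kernel

theorem cB18_11_3_81 : chunkOkM (LB18_11.ctx true true 268 69 32 15 16 1687 5707 35 77) muQ true true 64 RtB18_11.Cx.right RtB18_11.CX RtB18_11.Ctp.right.right.right.right.left RtB18_11.Ce.right.right.left.right.right.left RtB18_11.CTp.right RtB18_11.CEr.right 0x11691111a2f1574c318b1c6e9a33bcfb7e6daee2e77e540d79a9ef47dd148eb2c74c3bfa6367b712de937e6d75cd2f7e550d5a80df967b6bec2787e6cbf4aab7e530d6694694733 = true := by decide +kernel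

theorem cB18_11_3_82 : chunkOkM (LB18_11.ctx true true 270 139 64 15 16 847 5759 35 77) muQ true true 64 RtB18_11.Cx.right.left RtB18_11.CX RtB18_11.Ctp.right.right.right.right.left.left RtB18_11.Ce.right.right.left.right.right.right.left RtB18_11.CTp.right RtB18_11.CEr.right 0x2cc07fd7ddf5137464c4588fd67b1a98b3ae8e6f7c9e6f7e550d4c5eef64c97083167bd5e55fc7e6fec587a7e540d6694167735e7ddef8b3064c1094dcc7f6b31c6d17e540d1b5c9b37ddeda0f8c73c1556312f86bb84ede97e6c5169f17e550d57 = true := by decide +kernel

theorem cB18_11_3_83 : chunkOkM (LB18_11.ctx true true 263 137 64 15 16 847 2899 35 33) muQ true true 64 RtB18_11.Cx.right.left.left RtB18_11.CX RtB18_11.Ctp.right.right.right.right.left.left RtB18_11.Ce.right.right.left.right.right.right.right RtB18_11.CTp.right RtB18_11.CEr.right 0x229c87b7dded97a764cf6c69b77e6cdfda297e540d22a55c6dd13cbdc974c117dbc077b11d1d45e8e6e8b14e37e550d5 = true := by decide +kernel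

theorem cB18_11_3_84 : chunkOkM (LB18_11.ctx true true 274 139 64 15 16 1701 5811 35 77) muQ true true 64 RtB18_11.Cx.right.left.right RtB18_11.CX RtB18_11.Ctp.right.right.right.right.left.left RtB18_11.Ce.right.right.left.right.right.right.right RtB18_11.CTp.right RtB18_11.CEr.right 0xfcc56b64ceb105797e6d929faf7e530db4bfa587dd190f3e5b83c129bca276bf1e34737e6cd9ae287e550d586923564c9b155f67b32af256f6ec736a87e540d62fc06337ddb9e7aa64c3ae2c06f610501c7e8e540d1762e647dd1111ae1683cf46ad3176b1e4324a7f6e3274437e550d521cd6ba7dd8eea4764c2684106e9baa9726f61131d7788e550d52b38a6dd136249f283c16c6c39f86b625e7e6f6104157398e550d543 = true := by decide +kernel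

theorem cB18_11_3_85 : chunkOkM (LB18_11.ctx true true 288 139 64 15 16 6839 23075 35 77) muQ true true 64 RtB18_11.Cx.right.left RtB18_11.CX RtB18_11.Ctp.right.right.right.right.left.right RtB18_11.Ce.right.right.left.right.right.right RtB18_11.CTp.right RtB18_11.CEr.right 0x11a05c1ebba337dd107476e74c172ccf6e9160565ac8e67c9d4de7e554a4f26e260d76465f447dd1cc59c474c57de87676bf3b67e67e68e936977e56fdfa96e260d56a229075a7dd103b2de74c8dd63a67b1070af818e68b81b9f7e550d5611116911a05c6096bb57dd19d2608283c2e32aad76b1464674859e640d511d04c66946941143334 = true := by decide +kernel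

end Vale.Agent.helper4.Q4
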