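import Vale.Agent.helper4.Q4TreeM
import Vale.Agent.helper4.Q4G.PB18_11

/-!
Checks for pairs of intervals of second moments.
-/

set_option maxRecDepth 100000
set_option linter.unusedVariables false

namespace Vale.Agent.helper4.Q4

theorem cB18_11_3_86 : chunkOkM (LB18_11.ctx true true 269 141 64 15 16 1687 5811 16 77) muQ true true 64 RtB18_11.Cx.right.right RtB18_11.CX RtB18_11.Ctp.right.right.right.right.left RtB18_11.Ce.right.right.left.right.right.right RtB18_11.CTp.right RtB18_11.CEr.right 0x116969da70be64c2e528b67b5f018387e6106e8c768e540dd22c3a6f05b6369473694 = true := by decide +kernel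

theorem cB18_11_3_87 : chunkOkM (LB18_11.ctx true true 95 1 1 1 1 1 1 1 1) muQ true true 64 RtB18_11.Cx.right RtB18_11.CX RtB18_11.Ctp.right.right.right.right.right RtB18_11.Ce.right.right.left.right.right RtB18_11.CTp.right RtB18_11.CEr.right 0x11 = true := by decide +kernel

theorem cB18_11_3_88 : chunkOkM (LB18_11.ctx true true 95 1 1 1 1 1 1 1 1) muQ true true 64 RtB18_11.Cx RtB18_11.CX RtB18_11.Ctp.right.right.left RtB18_11.Ce.right.right.right RtB18_11.CTp.right RtB18_11.CEr.right 0x59 = true := by decide +kernel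

theorem cB18_11_3_89 : chunkOkM (LB18_11.ctx true true 95 1 1 1 1 1 1 1 1) muQ true true 64 RtB18_11.Cx.left RtB18_11.CX RtB18_11.Ctp.right.right.right RtB18_11.Ce.right.right.right.left RtB18_11.CTp.right RtB18_11.CEr.right 0x21 = true := by decide +kernel

theorem cB18_11_3_90 : chunkOkM (LB18_11.ctx true true 267 141 64 15 16 1673 2925 35 33) muQ true true 64 RtB18_11.Cx.right RtB18_11.CX RtB18_11.Ctp.right.right.right.left RtB18_11.Ce.right.right.right.left RtB18_11.CTp.right RtB18_11.CEr.right 0x59594959145ba9c7dd9e043264c11ab8a6e92a13176f6130694098e55d366b6f460d146d05574c1dc0dc077bfe12146f613cc6cd58e59fa9146f450d54749349359744934 = true := by decide +kernel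

theorem cB18_11_3_91 : chunkOkM (LB18_11.ctx true true 257 69 32 15 16 847 2925 35 33) muQ true true 64 RtB18_11.Cx.right.left RtB18_11.CX RtB18_11.Ctp.right.right.right.right.left.left RtB18_11.Ce.right.right.right.left.left.left RtB18_11.CTp.right RtB18_11.CEr.right 0x59f88e8e6ddc0918364c6f4c6287e6101bd7378e540dca584a6ddf7257d64cec6c6f67bc5fd9bb7e6f1546e57e550d54 = true := by decide +kernel

theorem cB18_11_3_92 : chunkOkM (LB18_11.ctx true true 292 139 64 57 64 1729 2925 256 77) muQ true true 64 RtB18_11.Cx.right.left RtB18_11.CX RtB18_11.Ctp.right.right.right.right.left.right RtB18_11.Ce.right.right.right.left.left.left.left RtB18_11.CTp.right RtB18_11.CEr.right 0xfb3945dd10cad7c74c1119c6bc8e6a614ebf7e540d9b2493b7dd1f949a7483c4365d5376be6ab1e87e6b8a543c7e550d591634c64c8c946b67bff53726f6b858e6e7e540d615f14f27dd10b675c74c1d55876e9b056b917e68821bfb7e537969417e260d227bcf17dd10e4de274cab6c057bbfd2adb7e6a83e8b07e550d36a64a4a2045d367dd10003ce74c2f541967b9a117b37e69864e7e7e541a70e67e260d1d731407ddf5b3bd64cc4f78817e6c07c3c67e540d3884a54a542557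 = true := by decide +kernel

theorem cB18_11_3_93 : chunkOkM (LB18_11.ctx true true 288 139 64 57 64 861 2951 256 77) muQ true true 64 RtB18_11.Cx.right.left RtB18_11.CX RtB18_11.Ctp.right.right.right.right.left.right RtB18_11.Ce.right.right.right.left.left.left.right RtB18_11.CTp.right RtB18_11.CEr.right 0xe505206ddf2ab9364c2658226e9e1704b67e6ac7705f7e550d12492747dde27d2964c20c5dd6e9130a17128e69121b3b7e55adf6487e260d76a64a4a1a8c0587ddf9477664c3aaf657bb01abfc7e6bc9342c7e550d1dab09d7ddf31b8e64c8b97757bf739d677e6a0a9bef7e538150c57e260d7884a54a54255 = true := by decide +kernel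

theorem cB18_11_3_94 : chunkOkM (LB18_11.ctx true true 278 143 64 15 16 3381 5863 35 77) muQ true true 64 RtB18_11.Cx.right.right RtB18_11.CX RtB18_11.Ctp.right.right.right.right.left.left RtB18_11.Ce.right.right.right.left.left.left.left RtB18_11.CTp.right RtB18_11.CEr.right 0x69d77fb964cbf1825e926d6e357f61691ac6d8e5e366076f450d1692f1b74c17f7f3077b463f72f7e6113505c58e5181ecd6f450d54933dc87a264c1afd28a7f611de3c1d8e530d128688b283cd80b3d176b36bc80c7e6faf26137e540d57d395c6ddc28d6564c3d0eda67b2619e4198e6120f3b448e550d8f06086f05b64fff8986ddf4d1ad64ca3f87f6f6111791598e540df56dfb473cff2088976b64fe896f610b3a0918e540d537 = true := by decide +kernel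

theorem cB18_11_3_95 : chunkOkM (LB18_11.ctx true true 263 141 64 15 16 847 2951 35 33) muQ true true 64 RtB18_11.Cx.right.right.left RtB18_11.CX RtB18_11.Ctp.right.right.right.right.left.left RtB18_11.Ce.right.right.right.left.left.left.right RtB18_11.CTp.right RtB18_11.CEr.right 0x70325e6ddb207dd64c8116a86f611ecac978e540def27d464cec576e67bc731eac7e612e6aa368e540d5 = true := by decide +kernel

theorem cB18_11_3_96 : chunkOkM (LB18_11.ctx true true 297 571 256 15 16 13545 11817 35 33) muQ true true 64 RtB18_11.Cx.right.right.right RtB18_11.CX RtB18_11.Ctp.right.right.right.right.left.left RtB18_11.Ce.right.right.right.left.left.left.right RtB18_11.CTp.right RtB18_11.CEr.right 0x8aed626ddba09ca64c104a5207f613249cab8e540d1742d2074c18d94dd886babc0b967e6123f676e8e540d5c2425f6ddaf28e764caf03b76f6127f96878e540d13591af74cfd97c767b1319610b8e61061aabb8e540d544959e94bbc6dd9d7aec64cbb7f65e925f651f7f616d91a47f53c79926f460dcccd8db73ce4696f576b80a86b6f61225ce838e52fcad46f450d549349359741ec92677dd9a36e764c2bae6757f6151c0347f5501fe86f450dcedb606dda36ebbb73ccdac1fc76bae02666f6142de73c8e5247e8a6f460d5474933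 = true := by decide +kernel

theorem cB18_11_3_97 : chunkOkM (LB18_11.ctx true true 256 71 32 15 16 861 2925 16 77) muQ true true 64 RtB18_11.Cx.right.right RtB18_11.CX RtB18_11.Ctp.right.right.right.right.left.right RtB18_11.Ce.right.right.right.left.left.left.left RtB18_11.CTp.right RtB18_11.CEr.right 0xeadd4b64c3c380f67bd8f8a3b7e6a50a6637e540dff75a5f05b6 = true := by decide +kernel

theorem cB18_11_3_98 : chunkOkM (LB18_11.ctx true true 274 141 64 15 16 1729 5915 35 77) muQ true true 64 RtB18_11.Cx.right.right.left RtB18_11.CX RtB18_11.Ctp.right.right.right.right.left.right RtB18_11.Ce.right.right.right.left.left.left.right RtB18_11.CTp.right RtB18_11.CEr.right 0x14024a174c584509ef8e68fbea927e530d9f32aa77dd198443e783c27ec1ae76bf41f0f97e6cedcd387e550d5721a6764c5cabda67bd2856e6f6d6c21b87e540d6694101071974c157ff007f6d9619317e530dc30021773ca140f5076b6469ad6f6ed5e9dc7e540d558b6196dd109446d74c50d29c67bc8db9db7e6e67cc577e550d28497364c6cc95367b7b16276f6eeecf717e540d643 = true := by decide +kernel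

theorem cB18_11_3_99 : chunkOkM (LB18_11.ctx true true 262 143 64 15 16 861 2951 16 77) muQ true true 64 RtB18_11.Cx.right.right.right RtB18_11.CX RtB18_11.Ctp.right.right.right.right.left.right RtB18_11.Ce.right.right.right.left.left.left.right RtB18_11.CTp.right RtB18_11.CEr.right 0x7905786ddd7493564c4e5c5d67b8484e4e7e6ec5a8797e550d06 = true := by decide +kernel

theorem cB18_11_3_100 : chunkOkM (LB18_11.ctx true true 276 279 128 15 16 1729 5941 35 33) muQ true true 64 RtB18_11.Cx.right.left RtB18_11.CX RtB18_11.Ctp.right.right.right.right.left RtB18_11.Ce.right.right.right.left.left.right RtB18_11.CTp.right RtB18_11.CEr.right 0x215914afeb07ddc17b1c64c12758e6e9157027f7f6a72905e7e550d13bec797ddfb579ab73cc2287b276b16364117f6cfed0347e550d559745932174593 = true := by decide +kernel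

theorem cB18_11_3_101 : chunkOkM (LB18_11.ctx true true 263 143 64 15 16 847 2977 35 33) muQ true true 64 RtB18_11.Cx.right.right RtB18_11.CX RtB18_11.Ctp.right.right.right.right.left.left RtB18_11.Ce.right.right.right.left.left.right RtB18_11.CTp.right RtB18_11.CEr.right 0x59e3b8f5dd7fc1c564c25cf336e9fc6ddd6f6140056008e53eea926f460df3fb5064c13e221a77b132293478e615193a148e5373815f450d55974 = true := by decide +kernel

theorem cB18_11_3_102 : chunkOkM (LB18_11.ctx true true 263 141 64 15 16 861 2977 35 33) muQ true true 64 RtB18_11.Cx.right.right.left RtB18_11.CX RtB18_11.Ctp.right.right.right.right.left.right RtB18_11.Ce.right.right.right.left.left.right.left RtB18_11.CTp.right RtB18_11.CEr.right 0x13d1e947ddd2f0cd64cf50645e9ccc0526f6df30b7d7e550d8ce90b6dd100e05e74cb4915467b73b98e47e6ea5a7e17e550d5 = true := by decide +kernel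

end Vale.Agent.helper4.Q4
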