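import Vale.Agent.helper4.Q4TreeM
import Vale.Agent.helper4.Q4G.PB18_11

/-!
Checks for pairs of intervals of second moments.
-/

set_option maxRecDepth 100000
set_option linter.unusedVariables false

namespace Vale.Agent.helper4.Q4

theorem cB18_11_3_103 : chunkOkM (LB18_11.ctx true true 280 287 128 15 16 1729 5967 35 77) muQ true true 64 RtB18_11.Cx.right.right.right RtB18_11.CX RtB18_11.Ctp.right.right.right.right.left.right RtB18_11.Ce.right.right.right.left.left.right.left RtB18_11.CTp.right RtB18_11.CEr.right 0xd31b2864c34e67167b84b27217e6e3b85fe7e540d16d20267b18d05007f6f802e5b7e530d669416dc2ea7dda5eabf64cc954406f6112e3777f540dd18f87073cd385a7e76b3e1c246f611081c768e540d57ba415f02c1dd575f06c5a13f3a64c287c6b67f612220bc7f530d17b00e9383c152d4ae486b135978c7f6106648e18e540d5743 = true := by decide +kernel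

theorem cB18_11_3_104 : chunkOkM (LB18_11.ctx true true 267 143 64 15 16 861 3003 35 77) muQ true true 64 RtB18_11.Cx.right.right RtB18_11.CX RtB18_11.Ctp.right.right.right.right.left.right RtB18_11.Ce.right.right.right.left.left.right.right RtB18_11.CTp.right RtB18_11.CEr.right 0x12b4ea374c2a16876e9ee0654d7e61053977a8e540dc96c0a64c109a432c8e6ed578d57e530d76a6118d74e74ce130a567b740ac237e6113645c58e540d5 = true := by decide +kernel

theorem cB18_11_3_105 : chunkOkM (LB18_11.ctx true true 330 4415 2048 15 16 55559 23543 35 77) muQ true true 64 RtB18_11.Cx.right RtB18_11.CX RtB18_11.Ctp.right.right.right.right.right RtB18_11.Ce.right.right.right.left.left.left RtB18_11.CTp.right RtB18_11.CEr.right 0x11110112b4a0474c1deeed6e963517607e685269bb7e542f8d2d7e250d45d41467dd1c02713283c4d127e876bc4286557e69500e407e538d6ccf7e260d56aedd52164c820dd9d76b104a81388e697f1eea7e535442df7e250d56212101010101013bf573b7dd1425dad483c5fd1cdb76baf073617f610981bb7f250d11d04c63333311401701701740174017773e9fc67dd137794b74c3b423267b96ae6db7e69962629f8e11ca8e78ed9e060d4373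 = true := by decide +kernel

theorem cB18_11_3_106 : chunkOkM (LB18_11.ctx true true 288 279 128 15 16 1743 5967 128 77) muQ true true 64 RtB18_11.Cx.right.left RtB18_11.CX RtB18_11.Ctp.right.right.right.right.right RtB18_11.Ce.right.right.right.left.left.right RtB18_11.CTp.right RtB18_11.CEr.right 0x210101ca3285dded81d5a73c3a3f876e913a515158e6969cdf77e53a832387e260d51fc906ddec460364c35d60c6e918c0bda7f687f426b7e51e4dee6f260d123c10f7dd10755f5e83c710204908e6a4323927e240d746a614080197dd1137aa5c83c579caa67bb4366c97e6ab47acf7e53bdc8b37e260d4a54255334217 = true := by decide +kernel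

theorem cB18_11_3_107 : chunkOkM (LB18_11.ctx true true 271 141 64 15 16 1757 2977 35 77) muQ true true 64 RtB18_11.Cx.right.right RtB18_11.CX RtB18_11.Ctp.right.right.right.right.right RtB18_11.Ce.right.right.right.left.left.right.left RtB18_11.CTp.right RtB18_11.CEr.right 0x116911a05ce0ea7964c4158576e91097b0828e69a21de17e540d3499c3367dd1a42e4cb83c65ce93b76b1111a7638e6a709bfa7e550d56a3f080f77ddf2ed9464cac12da67be1596997e6bcf711c7e550d5673 = true := by decide +kernel

theorem cB18_11_3_108 : chunkOkM (LB18_11.ctx true true 289 141 64 57 64 1757 3003 256 33) muQ true true 64 RtB18_11.Cx.right.right.left RtB18_11.CX RtB18_11.Ctp.right.right.right.right.right.left RtB18_11.Ce.right.right.right.left.left.right.right RtB18_11.CTp.right.left RtB18_11.CEr.right 0x4a4a10e7f617ddecca8c64c346c5467b67d24c67e69b2c7667e551bd2047e260d9fe41c6dd112d1e074c5383c067b7ce268c7e6c9a5b197e5125d5cc7e260d3884a54a5425 = true := by decide +kernel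

theorem cB18_11_3_109 : chunkOkM (LB18_11.ctx true true 95 1 1 1 1 1 1 1 1) muQ true true 64 RtB18_11.Cx.right.right.left RtB18_11.CX RtB18_11.Ctp.right.right.right.right.right.left RtB18_11.Ce.right.right.right.left.left.right.right RtB18_11.CTp.right.right RtB18_11.CEr.right.left 0x6a = true := by decide +kernel

theorem cB18_11_3_110 : chunkOkM (LB18_11.ctx true true 283 283 128 15 16 1743 6019 35 165) muQ true true 64 RtB18_11.Cx.right.right.left RtB18_11.CX RtB18_11.Ctp.right.right.right.right.right.left.left RtB18_11.Ce.right.right.right.left.left.right.right RtB18_11.CTp.right.right RtB18_11.CEr.right.right 0xedbdcd64c47ccc66e9be95936f6b7c42207e540d69711db69274c38ef2a6e91b56b107f6a0dba1c7e540d15e41d6783cec9c25e92815b617d7129d652a8e69f1e5147e514a5796f260d5cb83657dddd987b173c2fc868a7f689985f17e540d674 = true := by decide +kernel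

theorem cB18_11_3_111 : chunkOkM (LB18_11.ctx true true 297 563 256 15 16 3521 12051 35 165) muQ true true 64 RtB18_11.Cx.right.right.left RtB18_11.CX RtB18_11.Ctp.right.right.right.right.right.left.right RtB18_11.Ce.right.right.right.left.left.right.right RtB18_11.CTp.right.right RtB18_11.CEr.right.right 0x11380d274c4078e26e91c89e9f7d7103b7c2c8e240dfa5158373c80945b6e94a2294d7f664d72267e540dfed324e73c7716ff6e97b461d67f630d435ec9b477ddfeed5564c13044a87f69ccd37d7e5369c186f250d621c99b1e373c56c4e86e991b2a787f660fe116f240d42177f1caf964c4620dd6e910b3c8858e230d4 = true := by decide +kernel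

theorem cB18_11_3_112 : chunkOkM (LB18_11.ctx true true 281 143 64 15 16 3479 11999 35 77) muQ true true 64 RtB18_11.Cx.right.right.right RtB18_11.CX RtB18_11.Ctp.right.right.right.right.right.left RtB18_11.Ce.right.right.right.left.left.right.right.left RtB18_11.CTp.right RtB18_11.CEr.right 0x1169140f74874c31fbbd57f6f2b192d7e530d132905c5336942a0c0064c2d805d67b311a7bb98e6ce46c8a7e540d6 = true := by decide +kernel

theorem cB18_11_3_113 : chunkOkM (LB18_11.ctx true true 283 287 128 15 16 1757 12051 35 77) muQ true true 64 RtB18_11.Cx.right.right.right RtB18_11.CX RtB18_11.Ctp.right.right.right.right.right.left RtB18_11.Ce.right.right.right.left.left.right.right.right RtB18_11.CTp.right RtB18_11.CEr.right 0x12e10297dd991cd564c5d72d067b30d10f2cb974c59af286e920a90307f6ca0e5a87e540d11a05c5694cd522364c4a15906e91336b087f6c8c61c87e540d581e346dd151d5e5d83c46c4c6c76b12fa2187f6c86c7e57e550d575dbabb64c562cfb67b838c066f6e5413587e540d63 = true := by decide +kernel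

theorem cB18_11_3_114 : chunkOkM (LB18_11.ctx true true 253 71 32 15 16 889 3003 16 33) muQ true true 64 RtB18_11.Cx.right.right RtB18_11.CX RtB18_11.Ctp.right.right.right.right.right.right RtB18_11.Ce.right.right.right.left.left.right.right RtB18_11.CTp.right RtB18_11.CEr.right 0x11a2a1e77b15a794348e1944e0b8a8e030d = true := by decide +kernel

theorem cB18_11_3_115 : chunkOkM (LB18_11.ctx true true 95 1 1 1 1 1 1 1 1) muQ true true 64 RtB18_11.Cx.right.left RtB18_11.CX RtB18_11.Ctp.right.right.right.right RtB18_11.Ce.right.right.right.left.right RtB18_11.CTp.right RtB18_11.CEr.right 0x21 = true := by decide +kernel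

theorem cB18_11_3_116 : chunkOkM (LB18_11.ctx true true 276 287 128 15 16 1729 6045 35 33) muQ true true 64 RtB18_11.Cx.right.right RtB18_11.CX RtB18_11.Ctp.right.right.right.right.left RtB18_11.Ce.right.right.right.left.right RtB18_11.CTp.right RtB18_11.CEr.right 0x5959599e5e3864c3a4f3f6e9994d4c6f6fabc7807e540dedb14ef73c8186c4e76bd34a906f6111aa47a8e540d5597459359745934 = true := by decide +kernel

theorem cB18_11_3_117 : chunkOkM (LB18_11.ctx true true 285 143 64 57 64 875 3029 256 33) muQ true true 64 RtB18_11.Cx.right.right RtB18_11.CX RtB18_11.Ctp.right.right.right.right.right.left RtB18_11.Ce.right.right.right.left.right.left.left RtB18_11.CTp.right.left RtB18_11.CEr.right 0x4a4a75b9096dd1091ce574c48b10467bc8dc9c07e6c8997917e5933395e260d36145e6dd116853174c62043c67b112b61b28e6bfe45fd7e5406ea697e260d7884a54a5425 = true := by decide +kernel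

theorem cB18_11_3_118 : chunkOkM (LB18_11.ctx true true 95 1 1 1 1 1 1 1 1) muQ true true 64 RtB18_11.Cx.right.right RtB18_11.CX RtB18_11.Ctp.right.right.right.right.right.left RtB18_11.Ce.right.right.right.left.right.left.left RtB18_11.CTp.right.right RtB18_11.CEr.right.left 0x6a = true := by decide +kernel

end Vale.Agent.helper4.Q4
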