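import Vale.Agent.helper4.Q4TreeM
import Vale.Agent.helper4.Q4G.PB18_11

/-!
Checks for pairs of intervals of second moments.
-/

set_option maxRecDepth 100000
set_option linter.unusedVariables false

namespace Vale.Agent.helper4.Q4

theorem cB18_11_3_119 : chunkOkM (LB18_11.ctx true true 295 283 128 15 16 3521 12103 75 165) muQ true true 64 RtB18_11.Cx.right.right.left RtB18_11.CX RtB18_11.Ctp.right.right.right.right.right.left RtB18_11.Ce.right.right.right.left.right.left.left RtB18_11.CTp.right.right RtB18_11.CEr.right.right 0x13112127dddf7be8c73cce5f0757f6261862618e240d593dd1530b73c8e9e8b6e99e29ff07f64a602777e240da341816ddca5302873c26fa6757f6fe41096f240d4edc571473c8917546e911ee69b98f630db84a29273cbd7c27f7d91a583b47f69485b137e5170c4197e250d143051c283c12f50f87f69d80d037e52544b5f7e240d5431481e3f74c1cdcb807f6aa5f01a7e5264d646f240d64106049974c4a4f896e958208177e6d0c20b17e540d3217 = true := by decide +kernel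

theorem cB18_11_3_120 : chunkOkM (LB18_11.ctx true true 274 143 64 15 16 1743 6071 35 77) muQ true true 64 RtB18_11.Cx.right.right.right RtB18_11.CX RtB18_11.Ctp.right.right.right.right.right.left.left RtB18_11.Ce.right.right.right.left.right.left.left RtB18_11.CTp.right.right RtB18_11.CEr.right.right 0xfa8faa64c56970d6e9644051a7e6e5298877e540de8c21f64c4fb8116e94caba86f6d8bd6947e540d4 = true := by decide +kernel

theorem cB18_11_3_121 : chunkOkM (LB18_11.ctx true true 288 285 128 15 16 3521 6045 35 165) muQ true true 64 RtB18_11.Cx.right.right.right RtB18_11.CX RtB18_11.Ctp.right.right.right.right.right.left.right RtB18_11.Ce.right.right.right.left.right.left.left.left RtB18_11.CTp.right.right RtB18_11.CEr.right.right 0x695c3a826ddfc785a64ca140f717f630dfb0a9064c8afc346e91b24a6e7f6a127f7e7e540d198cb757dd15699c974c132a9767b18ddf107f6b2e41237e550d637 = true := by decide +kernel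

theorem cB18_11_3_122 : chunkOkM (LB18_11.ctx true true 283 285 128 15 16 1757 6071 35 143) muQ true true 64 RtB18_11.Cx.right.right.right.left RtB18_11.CX RtB18_11.Ctp.right.right.right.right.right.left.right RtB18_11.Ce.right.right.right.left.right.left.left.right RtB18_11.CTp.right.right RtB18_11.CEr.right.right.left 0x160a2d474cacead56f6c04f5877e530d = true := by decide +kernel

theorem cB18_11_3_123 : chunkOkM (LB18_11.ctx true true 305 571 256 15 16 3521 12155 145 165) muQ true true 64 RtB18_11.Cx.right.right.right.left RtB18_11.CX RtB18_11.Ctp.right.right.right.right.right.left.right RtB18_11.Ce.right.right.right.left.right.left.left.right RtB18_11.CTp.right.right RtB18_11.CEr.right.right.right 0x0212ccc5c74caac74547d98bde3b87f64b3d4757e540d821e546dd1a4364a083c4811e0e7d9f29df8d7f6678a216e250d7518511c6383c10404027f6a7bf0ed7e51f56f7a7e240d512dd26da83c8ac6266e9d5f41c87f630df1798d573c935ae46e9a6bd17d7f630d74ff0b31373c988c2727d9278a5837f6b6a13887e540d597c95c78873cd647216e91d23ceb7f6b4a4ba97e540d1d8c12f283c1304c757f69e9f4807e530d543 = true := by decide +kernel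

theorem cB18_11_3_124 : chunkOkM (LB18_11.ctx true true 291 287 128 15 16 3521 12155 35 165) muQ true true 64 RtB18_11.Cx.right.right.right.right RtB18_11.CX RtB18_11.Ctp.right.right.right.right.right.left.right RtB18_11.Ce.right.right.right.left.right.left.left.right RtB18_11.CTp.right.right RtB18_11.CEr.right.right 0xfdeb9b64c6475276e9cfa46eb7f630dfdeb9ad73c9bacfe6e919931637f6be84d567e540d61b3856dd12f966c74c1b852167bef4a596f6e242df47e550d6f797cf64c5ef78f6e91ee81da7f6c0cda197e540d43 = true := by decide +kernel

theorem cB18_11_3_125 : chunkOkM (LB18_11.ctx true true 95 1 1 1 1 1 1 1 1) muQ true true 64 RtB18_11.Cx.right.right.left RtB18_11.CX RtB18_11.Ctp.right.right.right.right.right.left RtB18_11.Ce.right.right.right.left.right.left.right RtB18_11.CTp.right RtB18_11.CEr.right 0x21 = true := by decide +kernel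

theorem cB18_11_3_126 : chunkOkM (LB18_11.ctx true true 263 143 64 15 16 875 3055 32 33) muQ true true 64 RtB18_11.Cx.right.right.right RtB18_11.CX RtB18_11.Ctp.right.right.right.right.right.left RtB18_11.Ce.right.right.right.left.right.left.right RtB18_11.CTp.right.left RtB18_11.CEr.right 0x1108a4374cabd60667bc02e96c7e6e94cfe67e540d = true := by decide +kernel

theorem cB18_11_3_127 : chunkOkM (LB18_11.ctx true true 95 1 1 1 1 1 1 1 1) muQ true true 64 RtB18_11.Cx.right.right.right RtB18_11.CX RtB18_11.Ctp.right.right.right.right.right.left RtB18_11.Ce.right.right.right.left.right.left.right RtB18_11.CTp.right.right RtB18_11.CEr.right.left 0x6a = true := by decide +kernel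

theorem cB18_11_3_128 : chunkOkM (LB18_11.ctx true true 271 143 64 15 16 1743 3055 35 77) muQ true true 64 RtB18_11.Cx.right.right.right RtB18_11.CX RtB18_11.Ctp.right.right.right.right.right.left.left RtB18_11.Ce.right.right.right.left.right.left.right RtB18_11.CTp.right.right RtB18_11.CEr.right.right 0x11649c574c5cd2c06e967d113f7e6e92fd497e540d = true := by decide +kernel

theorem cB18_11_3_129 : chunkOkM (LB18_11.ctx true true 277 143 64 15 16 1757 6097 35 143) muQ true true 64 RtB18_11.Cx.right.right.right RtB18_11.CX RtB18_11.Ctp.right.right.right.right.right.left.right RtB18_11.Ce.right.right.right.left.right.left.right.left RtB18_11.CTp.right.right RtB18_11.CEr.right.right.left 0x146d4bb74c10043df7f6ac2f1807e530d = true := by decide +kernel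

theorem cB18_11_3_130 : chunkOkM (LB18_11.ctx true true 305 571 256 15 16 3521 12181 145 165) muQ true true 64 RtB18_11.Cx.right.right.right.left RtB18_11.CX RtB18_11.Ctp.right.right.right.right.right.left.right RtB18_11.Ce.right.right.right.left.right.left.right.left RtB18_11.CTp.right.right RtB18_11.CEr.right.right.right 0x690212bb729a83cb49ad657d98c333247f656693997e540d5144e70e683c9e881e97f649aecf37e530d52174593 = true := by decide +kernel

theorem cB18_11_3_131 : chunkOkM (LB18_11.ctx true true 295 287 128 15 16 3507 12207 75 165) muQ true true 64 RtB18_11.Cx.right.right.right.right RtB18_11.CX RtB18_11.Ctp.right.right.right.right.right.left.right.left RtB18_11.Ce.right.right.right.left.right.left.right.left RtB18_11.CTp.right.right RtB18_11.CEr.right.right.right 0x1050c06483ca7eac66e98395f76f6da5cbfd7e540d8aa46c64cdf57476e945695f6f6d58d8877e540d74a5326dd1a2a546683cbef562b7e530d54 = true := by decide +kernel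

theorem cB18_11_3_132 : chunkOkM (LB18_11.ctx true true 308 575 256 15 16 3521 12207 145 341) muQ true true 64 RtB18_11.Cx.right.right.right.right RtB18_11.CX RtB18_11.Ctp.right.right.right.right.right.left.right.right RtB18_11.Ce.right.right.right.left.right.left.right.left RtB18_11.CTp.right.right RtB18_11.CEr.right.right.right 0xbf013f64cf236d16e92f5ccec7f6a6287147e540d1182c65983c5ddf0167f6b432e597e530d502103d22c783ced2343b7d9434be397f69418edf7e540d1d7a9d37dd14d180fa83ca9038ab7f630d651444207383c237bbdd7f6b8380207e530d571088fb5283ca65c506e912b927e58f630dc2ce2664ce744626e92f5eaf87f697492ee7e540d138d633983cd8591d6f6c07f2147e530d574 = true := by decide +kernel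

theorem cB18_11_3_133 : chunkOkM (LB18_11.ctx true true 308 575 256 15 16 3521 12233 145 341) muQ true true 64 RtB18_11.Cx.right.right.right RtB18_11.CX RtB18_11.Ctp.right.right.right.right.right.left.right RtB18_11.Ce.right.right.right.left.right.left.right.right RtB18_11.CTp.right.right RtB18_11.CEr.right.right 0x690210105ee883cf8b31ca7d93845bcd7f6a5db4667e540dea3c966f05b651a83a22e83c2064bca7f6a538a1a7e530d51860fc9d83c172e9ee7f6b65c07c7e530d66974593217 = true := by decide +kernel

theorem cB18_11_3_134 : chunkOkM (LB18_11.ctx true true 95 1 1 1 1 1 1 1 1) muQ true true 64 RtB18_11.Cx.right.right.left RtB18_11.CX RtB18_11.Ctp.right.right.right.right.right.right RtB18_11.Ce.right.right.right.left.right.left RtB18_11.CTp.right RtB18_11.CEr.right 0x01 = true := by decide +kernel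

theorem cB18_11_3_135 : chunkOkM (LB18_11.ctx true true 274 143 64 15 16 3535 6071 16 77) muQ true true 64 RtB18_11.Cx.right.right.right RtB18_11.CX RtB18_11.Ctp.right.right.right.right.right.right.left RtB18_11.Ce.right.right.right.left.right.left.left RtB18_11.CTp.right RtB18_11.CEr.right 0x1120880857dd102268174c11621ff76b107ca1fa8e240dd48d9564c555fe467bc317276f230d61143 = true := by decide +kernel

theorem cB18_11_3_136 : chunkOkM (LB18_11.ctx true true 267 143 64 15 16 1771 3055 32 33) muQ true true 64 RtB18_11.Cx.right.right.right RtB18_11.CX RtB18_11.Ctp.right.right.right.right.right.right.left RtB18_11.Ce.right.right.right.left.right.left.right RtB18_11.CTp.right.left RtB18_11.CEr.right 0xbb92a26dd1179933283c965772d76b9a43fa6f6afc46ed7e54a2eade7e260d = true := by decide +kernel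

theorem cB18_11_3_137 : chunkOkM (LB18_11.ctx true true 95 1 1 1 1 1 1 1 1) muQ true true 64 RtB18_11.Cx.right.right.right RtB18_11.CX RtB18_11.Ctp.right.right.right.right.right.right.left RtB18_11.Ce.right.right.right.left.right.left.right RtB18_11.CTp.right.right RtB18_11.CEr.right.left 0x6a = true := by decide +kernel

end Vale.Agent.helper4.Q4
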