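import Vale.Agent.helper4.Q4TreeM
import Vale.Agent.helper4.Q4G.PB18_11

/-!
Checks for pairs of intervals of second moments.
-/

set_option maxRecDepth 100000
set_option linter.unusedVariables false

namespace Vale.Agent.helper4.Q4

theorem cB18_11_3_138 : chunkOkM (LB18_11.ctx true true 306 575 256 15 16 7063 12207 75 165) muQ true true 64 RtB18_11.Cx.right.right.right RtB18_11.CX RtB18_11.Ctp.right.right.right.right.right.right.left RtB18_11.Ce.right.right.right.left.right.left.right.left RtB18_11.CTp.right.right RtB18_11.CEr.right.right 0x11c4d1f0b73c277355e922d4ed788f630db54cfd64cf05f956e9be9a8987f61bef1d6f240d32f4346dd1aebb02b83c8b7d32c7f630d5713b9ccc74cc5d67327f620d610434cb74c162a57bb8f620d430101de10d7973ca8fcf577d910c30b5c8f633cfdf87e240de93288f73c99a1006e93ffebc6d7879c9fc7f687b9f86f250d41ab3139383c12d927676b164b6927f699015bc7e540d6332177 = true := by decide +kernel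

theorem cB18_11_3_139 : chunkOkM (LB18_11.ctx true true 95 1 1 1 1 1 1 1 1) muQ true true 64 RtB18_11.Cx.right.right.right.left RtB18_11.CX RtB18_11.Ctp.right.right.right.right.right.right.left RtB18_11.Ce.right.right.right.left.right.left.right.right RtB18_11.CTp.right.right RtB18_11.CEr.right.right 0x21 = true := by decide +kernel

theorem cB18_11_3_140 : chunkOkM (LB18_11.ctx true true 283 287 128 15 16 1771 6123 35 143) muQ true true 64 RtB18_11.Cx.right.right.right.right RtB18_11.CX RtB18_11.Ctp.right.right.right.right.right.right.left RtB18_11.Ce.right.right.right.left.right.left.right.right RtB18_11.CTp.right.right RtB18_11.CEr.right.right.left 0x165671a74cd6d3457bee8d476f6ad9a5787e538a79d6f250d = true := by decide +kernel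

theorem cB18_11_3_141 : chunkOkM (LB18_11.ctx true true 318 575 256 31 32 7077 12233 145 341) muQ true true 64 RtB18_11.Cx.right.right.right.right RtB18_11.CX RtB18_11.Ctp.right.right.right.right.right.right.left.left RtB18_11.Ce.right.right.right.left.right.left.right.right.left RtB18_11.CTp.right.right RtB18_11.CEr.right.right.right 0x02feeb7964cfe3acd6e9d89ef5d7f630d101d22ee83cf896266e9f6bf2b37f630d3228c4953647f06b6514c0981c83cfdcc8107f620d502fb8b8ff73cf6e6aed7d913865fc78f658a08697e240dff4246273cf4019417d9f40a1417f630d3228ffdc2664c6a14d247f620d6517522a6dd1a2c1b1283c8c462c77f630d57 = true := by decide +kernel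

theorem cB18_11_3_142 : chunkOkM (LB18_11.ctx true true 321 575 256 31 32 7077 24531 145 341) muQ true true 64 RtB18_11.Cx.right.right.right.right RtB18_11.CX RtB18_11.Ctp.right.right.right.right.right.right.left.left RtB18_11.Ce.right.right.right.left.right.left.right.right.right RtB18_11.CTp.right.right RtB18_11.CEr.right.right.right 0x02d9371e573cfc54e257d925ece1728f630decf2ce173c1118e4fb8d9a67c2657f630d42851d457dd158654bc83cdba570c7d9359a135d8f640d13d87a0783c1163375d8d9137267058f630d4322811d916674c1c462307f6ac094fd7e530d651c204e9983c6c757b97f65b7eb1a7e530d5217 = true := by decide +kernel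

theorem cB18_11_3_143 : chunkOkM (LB18_11.ctx true true 288 287 128 15 16 3549 6123 35 165) muQ true true 64 RtB18_11.Cx.right.right.right.right RtB18_11.CX RtB18_11.Ctp.right.right.right.right.right.right.left.right RtB18_11.Ce.right.right.right.left.right.left.right.right RtB18_11.CTp.right.right RtB18_11.CEr.right.right.right 0xfc5722a73c90282a6e914377b37d7b388136f6116e8937f250d = true := by decide +kernel

theorem cB18_11_3_144 : chunkOkM (LB18_11.ctx true true 95 1 1 1 1 1 1 1 1) muQ true true 64 RtB18_11.Cx.right.right.right RtB18_11.CX RtB18_11.Ctp.right.right.right.right.right.right.right RtB18_11.Ce.right.right.right.left.right.left RtB18_11.CTp.right RtB18_11.CEr.right 0x01 = true := by decide +kernel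

theorem cB18_11_3_145 : chunkOkM (LB18_11.ctx true true 319 1151 512 15 16 7091 24557 145 165) muQ true true 64 RtB18_11.Cx.right.right RtB18_11.CX RtB18_11.Ctp.right.right.right.right.right RtB18_11.Ce.right.right.right.left.right.right RtB18_11.CTp.right RtB18_11.CEr.right 0x21212101010212c5a67183ce159f3e7d9ee5df407f64bc63f6f240d51989eb7983c2190b707f61a2788478e230d5369ac443d073cb7f12167d924816a4c8f630d459332d2c0f6dd160346874c4d4c657b16ae0757f6a91072c7e550d6fc221c37dd35b1eb6d83c14f30dc786b8b785387f640d56e075b64c57c48d67b10fc8aa7f6c663ca6f51c76496f250d63217421742170174593 = true := by decide +kernel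

theorem cB18_11_3_146 : chunkOkM (LB18_11.ctx true true 95 1 1 1 1 1 1 1 1) muQ true true 64 RtB18_11.Cx RtB18_11.CX RtB18_11.Ctp.right.right.right RtB18_11.Ce.right.right.right.right RtB18_11.CTp.right RtB18_11.CEr.right 0x21 = true := by decide +kernel

theorem cB18_11_2_0 : chunkOkM (LB18_11.ctx false true 95 1 1 1 1 1 1 1 1) muQ false true 64 RtB18_11.Cx RtB18_11.CX RtB18_11.Ctn RtB18_11.Ce RtB18_11.CTp RtB18_11.CEr 0x49 = true := by decide +kernel

theorem cB18_11_1_0 : chunkOkM (LB18_11.ctx true false 95 1 1 1 1 1 1 1 1) muQ true false 64 RtB18_11.Cx RtB18_11.CX RtB18_11.Ctp RtB18_11.Ce RtB18_11.CTn RtB18_11.CEr 0x4a = true := by decide +kernel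

theorem cB18_11_0_0 : chunkOkM (LB18_11.ctx false false 95 1 1 1 1 1 1 1 1) muQ false false 64 RtB18_11.Cx RtB18_11.CX RtB18_11.Ctn RtB18_11.Ce RtB18_11.CTn RtB18_11.CEr 0x49 = true := by decide +kernel

end Vale.Agent.helper4.Q4
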