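import Vale.Agent.helper4.Q4TreeM
import Vale.Agent.helper4.Q4G.PB18_11_0
import Vale.Agent.helper4.Q4G.PB18_11_1
import Vale.Agent.helper4.Q4G.PB18_11_2
import Vale.Agent.helper4.Q4G.PB18_11_3
import Vale.Agent.helper4.Q4G.PB18_11_4
import Vale.Agent.helper4.Q4G.PB18_11_5
import Vale.Agent.helper4.Q4G.PB18_11_6
import Vale.Agent.helper4.Q4G.PB18_11_7
import Vale.Agent.helper4.Q4G.PB18_11_8

/-!
Checks for pairs of intervals of second moments.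
-/

set_option maxRecDepth 100000
set_option linter.unusedVariables false

namespace Vale.Agent.helper4.Q4

theorem covB18_11 : LB18_11.Full muQ.val RtB18_11 := ⟨(LitT.Cov.split_t (LitT.cov_of_chunkM cB18_11_3_0) (LitT.Cov.split_T (LitT.cov_of_chunkM cB18_11_3_1) (LitT.Cov.split_E (LitT.cov_of_chunkM cB18_11_3_2) (LitT.Cov.split_t (LitT.cov_of_chunkM cB18_11_3_3) (LitT.Cov.split_e (LitT.cov_of_chunkM cB18_11_3_4) (LitT.Cov.split_e (LitT.cov_of_chunkM cB18_11_3_5) (LitT.Cov.split_e (LitT.Cov.split_t (LitT.Cov.split_t (LitT.cov_of_chunkM cB18_11_3_6) (LitT.Cov.split_t (LitT.cov_of_chunkM cB18_11_3_7) (LitT.Cov.split_x (LitT.Cov.split_e (LitT.Cov.split_x (LitT.Cov.split_e (LitT.cov_of_chunkM cB18_11_3_8) (LitT.Cov.split_e (LitT.Cov.split_t (LitT.cov_of_chunkM cB18_11_3_9) (LitT.Cov.split_e (LitT.cov_of_chunkM cB18_11_3_10) (LitT.cov_of_chunkM cB18_11_3_11))) (LitT.cov_of_chunkM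 cB18_11_3_12))) (LitT.cov_of_chunkM cB18_11_3_13)) (LitT.cov_of_chunkM cB18_11_3_14)) (LitT.cov_of_chunkM cB18_11_3_15)))) (LitT.Cov.split_e (LitT.Cov.split_t (LitT.Cov.split_e (LitT.cov_of_chunkM cB18_11_3_16) (LitT.Cov.split_x (LitT.Cov.split_t (LitT.Cov.split_e (LitT.Cov.split_x (LitT.Cov.split_t (LitT.cov_of_chunkM cB18_11_3_17) (LitT.cov_of_chunkM cB18_11_3_18)) (LitT.cov_of_chunkM cB18_11_3_19)) (LitT.Cov.split_x (LitT.Cov.split_t (LitT.cov_of_chunkM cB18_11_3_20) (LitT.cov_of_chunkM cB18_11_3_21)) (LitT.cov_of_chunkM cB18_11_3_22))) (LitT.cov_of_chunkM cB18_11_3_23)) (LitT.cov_of_chunkM cB18_11_3_24))) (LitT.cov_of_chunkM cB18_11_3_25)) (LitT.Cov.split_t (LitT.Cov.split_e (LitT.Cov.split_x (LitT.Cov.split_t (LitT.Cov.split_e (LitT.Cov.split_x (LitT.cov_of_chunkM cB18_11_3_26) (LitT.Cov.split_t (LitT.cov_of_chunkM cB18_11_3_27) (LitT.Cov.split_e (LitT.cov_of_chunkM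 cB18_11_3_28) (LitT.cov_of_chunkM cB18_11_3_29)))) (LitT.cov_of_chunkM cB18_11_3_30)) (LitT.Cov.split_e (LitT.Cov.split_x (LitT.Cov.split_t (LitT.cov_of_chunkM cB18_11_3_31) (LitT.Cov.split_T (LitT.cov_of_chunkM cB18_11_3_32) (LitT.Cov.split_E (LitT.cov_of_chunkM cB18_11_3_33) (LitT.Cov.split_e (LitT.cov_of_chunkM cB18_11_3_34) (LitT.cov_of_chunkM cB18_11_3_35))))) (LitT.cov_of_chunkM cB18_11_3_36)) (LitT.Cov.split_x (LitT.Cov.split_t (LitT.cov_of_chunkM cB18_11_3_37) (LitT.Cov.split_e (LitT.cov_of_chunkM cB18_11_3_38) (LitT.cov_of_chunkM cB18_11_3_39))) (LitT.Cov.split_t (LitT.Cov.split_e (LitT.cov_of_chunkM cB18_11_3_40) (LitT.cov_of_chunkM cB18_11_3_41)) (LitT.cov_of_chunkM cB18_11_3_42))))) (LitT.Cov.split_t (LitT.cov_of_chunkM cB18_11_3_43) (LitT.Cov.split_e (LitT.cov_of_chunkM cB18_11_3_44) (LitT.Cov.split_t (LitT.Cov.split_x (LitT.Cov.split_e (LitT.cov_of_chunkM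 cB18_11_3_45) (LitT.cov_of_chunkM cB18_11_3_46)) (LitT.cov_of_chunkM cB18_11_3_47)) (LitT.cov_of_chunkM cB18_11_3_48))))) (LitT.Cov.split_t (LitT.cov_of_chunkM cB18_11_3_49) (LitT.Cov.split_x (LitT.Cov.split_e (LitT.Cov.split_x (LitT.cov_of_chunkM cB18_11_3_50) (LitT.Cov.split_t (LitT.cov_of_chunkM cB18_11_3_51) (LitT.Cov.split_e (LitT.cov_of_chunkM cB18_11_3_52) (LitT.cov_of_chunkM cB18_11_3_53)))) (LitT.cov_of_chunkM cB18_11_3_54)) (LitT.Cov.split_e (LitT.Cov.split_x (LitT.Cov.split_t (LitT.cov_of_chunkM cB18_11_3_55) (LitT.Cov.split_e (LitT.cov_of_chunkM cB18_11_3_56) (LitT.Cov.split_x (LitT.cov_of_chunkM cB18_11_3_57) (LitT.cov_of_chunkM cB18_11_3_58)))) (LitT.cov_of_chunkM cB18_11_3_59)) (LitT.Cov.split_x (LitT.Cov.split_t (LitT.cov_of_chunkM cB18_11_3_60) (LitT.Cov.split_e (LitT.cov_of_chunkM cB18_11_3_61) (LitT.cov_of_chunkM cB18_11_3_62))) (LitT.cov_of_chunkM cB18_11_3_63))))))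 (LitT.Cov.split_e (LitT.Cov.split_t (LitT.Cov.split_x (LitT.Cov.split_T (LitT.cov_of_chunkM cB18_11_3_64) (LitT.Cov.split_E (LitT.cov_of_chunkM cB18_11_3_65) (LitT.Cov.split_e (LitT.cov_of_chunkM cB18_11_3_66) (LitT.cov_of_chunkM cB18_11_3_67)))) (LitT.cov_of_chunkM cB18_11_3_68)) (LitT.cov_of_chunkM cB18_11_3_69)) (LitT.Cov.split_x (LitT.Cov.split_t (LitT.Cov.split_e (LitT.Cov.split_x (LitT.cov_of_chunkM cB18_11_3_70) (LitT.Cov.split_T (LitT.cov_of_chunkM cB18_11_3_71) (LitT.Cov.split_E (LitT.cov_of_chunkM cB18_11_3_72) (LitT.Cov.split_t (LitT.Cov.split_e (LitT.cov_of_chunkM cB18_11_3_73) (LitT.cov_of_chunkM cB18_11_3_74)) (LitT.cov_of_chunkM cB18_11_3_75))))) (LitT.Cov.split_x (LitT.cov_of_chunkM cB18_11_3_76) (LitT.Cov.split_x (LitT.cov_of_chunkM cB18_11_3_77) (LitT.Cov.split_t (LitT.cov_of_chunkM cB18_11_3_78) (LitT.cov_of_chunkM cB18_11_3_79))))) (LitT.cov_of_chunkM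 cB18_11_3_80)) (LitT.Cov.split_t (LitT.Cov.split_e (LitT.cov_of_chunkM cB18_11_3_81) (LitT.Cov.split_x (LitT.Cov.split_t (LitT.Cov.split_e (LitT.cov_of_chunkM cB18_11_3_82) (LitT.Cov.split_x (LitT.cov_of_chunkM cB18_11_3_83) (LitT.cov_of_chunkM cB18_11_3_84))) (LitT.cov_of_chunkM cB18_11_3_85)) (LitT.cov_of_chunkM cB18_11_3_86))) (LitT.cov_of_chunkM cB18_11_3_87))))))) (LitT.Cov.split_t (LitT.cov_of_chunkM cB18_11_3_88) (LitT.Cov.split_e (LitT.Cov.split_x (LitT.cov_of_chunkM cB18_11_3_89) (LitT.Cov.split_t (LitT.cov_of_chunkM cB18_11_3_90) (LitT.Cov.split_e (LitT.Cov.split_t (LitT.Cov.split_e (LitT.Cov.split_x (LitT.Cov.split_t (LitT.cov_of_chunkM cB18_11_3_91) (LitT.Cov.split_e (LitT.cov_of_chunkM cB18_11_3_92) (LitT.cov_of_chunkM cB18_11_3_93))) (LitT.Cov.split_t (LitT.Cov.split_e (LitT.cov_of_chunkM cB18_11_3_94) (LitT.Cov.split_x (LitT.cov_of_chunkM cB18_11_3_95) (LitT.cov_of_chunkM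 cB18_11_3_96))) (LitT.Cov.split_e (LitT.cov_of_chunkM cB18_11_3_97) (LitT.Cov.split_x (LitT.cov_of_chunkM cB18_11_3_98) (LitT.cov_of_chunkM cB18_11_3_99))))) (LitT.Cov.split_x (LitT.cov_of_chunkM cB18_11_3_100) (LitT.Cov.split_t (LitT.cov_of_chunkM cB18_11_3_101) (LitT.Cov.split_e (LitT.Cov.split_x (LitT.cov_of_chunkM cB18_11_3_102) (LitT.cov_of_chunkM cB18_11_3_103)) (LitT.cov_of_chunkM cB18_11_3_104))))) (LitT.Cov.split_e (LitT.cov_of_chunkM cB18_11_3_105) (LitT.Cov.split_x (LitT.cov_of_chunkM cB18_11_3_106) (LitT.Cov.split_e (LitT.cov_of_chunkM cB18_11_3_107) (LitT.Cov.split_t (LitT.Cov.split_x (LitT.Cov.split_T (LitT.cov_of_chunkM cB18_11_3_108) (LitT.Cov.split_E (LitT.cov_of_chunkM cB18_11_3_109) (LitT.Cov.split_t (LitT.cov_of_chunkM cB18_11_3_110) (LitT.cov_of_chunkM cB18_11_3_111)))) (LitT.Cov.split_e (LitT.cov_of_chunkM cB18_11_3_112) (LitT.cov_of_chunkM cB18_11_3_113)))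 (LitT.cov_of_chunkM cB18_11_3_114)))))) (LitT.Cov.split_x (LitT.cov_of_chunkM cB18_11_3_115) (LitT.Cov.split_t (LitT.cov_of_chunkM cB18_11_3_116) (LitT.Cov.split_e (LitT.Cov.split_t (LitT.Cov.split_e (LitT.Cov.split_T (LitT.cov_of_chunkM cB18_11_3_117) (LitT.Cov.split_E (LitT.cov_of_chunkM cB18_11_3_118) (LitT.Cov.split_x (LitT.cov_of_chunkM cB18_11_3_119) (LitT.Cov.split_t (LitT.cov_of_chunkM cB18_11_3_120) (LitT.Cov.split_e (LitT.cov_of_chunkM cB18_11_3_121) (LitT.Cov.split_x (LitT.Cov.split_E (LitT.cov_of_chunkM cB18_11_3_122) (LitT.cov_of_chunkM cB18_11_3_123)) (LitT.cov_of_chunkM cB18_11_3_124))))))) (LitT.Cov.split_x (LitT.cov_of_chunkM cB18_11_3_125) (LitT.Cov.split_T (LitT.cov_of_chunkM cB18_11_3_126) (LitT.Cov.split_E (LitT.cov_of_chunkM cB18_11_3_127) (LitT.Cov.split_t (LitT.cov_of_chunkM cB18_11_3_128) (LitT.Cov.split_e (LitT.Cov.split_E (LitT.cov_of_chunkM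 cB18_11_3_129) (LitT.Cov.split_x (LitT.cov_of_chunkM cB18_11_3_130) (LitT.Cov.split_t (LitT.cov_of_chunkM cB18_11_3_131) (LitT.cov_of_chunkM cB18_11_3_132)))) (LitT.cov_of_chunkM cB18_11_3_133))))))) (LitT.Cov.split_x (LitT.cov_of_chunkM cB18_11_3_134) (LitT.Cov.split_t (LitT.Cov.split_e (LitT.cov_of_chunkM cB18_11_3_135) (LitT.Cov.split_T (LitT.cov_of_chunkM cB18_11_3_136) (LitT.Cov.split_E (LitT.cov_of_chunkM cB18_11_3_137) (LitT.Cov.split_e (LitT.cov_of_chunkM cB18_11_3_138) (LitT.Cov.split_x (LitT.cov_of_chunkM cB18_11_3_139) (LitT.Cov.split_E (LitT.cov_of_chunkM cB18_11_3_140) (LitT.Cov.split_t (LitT.Cov.split_e (LitT.cov_of_chunkM cB18_11_3_141) (LitT.cov_of_chunkM cB18_11_3_142)) (LitT.cov_of_chunkM cB18_11_3_143)))))))) (LitT.cov_of_chunkM cB18_11_3_144)))) (LitT.cov_of_chunkM cB18_11_3_145))))))) (LitT.cov_of_chunkM cB18_11_3_146)))))))))), (LitT.cov_of_chunkM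 cB18_11_1_0), (LitT.cov_of_chunkM cB18_11_2_0), (LitT.cov_of_chunkM cB18_11_0_0)⟩

end Vale.Agent.helper4.Q4
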