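import Vale.Agent.helper4.Q4TreeM
import Vale.Agent.helper4.Q4G.PB18_12

/-!
Checks for pairs of intervals of second moments.
-/

set_option maxRecDepth 100000
set_option linter.unusedVariables false

namespace Vale.Agent.helper4.Q4

theorem cB18_12_3_0 : chunkOkM (LB18_12.ctx true true 107 1 1 1 1 1 1 1 1) muQ true true 64 RtB18_12.Cx RtB18_12.CX RtB18_12.Ctp.left RtB18_12.Ce RtB18_12.CTp RtB18_12.CEr 0x41 = true := by decide +kernel

theorem cB18_12_3_1 : chunkOkM (LB18_12.ctx true true 107 1 1 1 1 1 1 1 1) muQ true true 64 RtB18_12.Cx RtB18_12.CX RtB18_12.Ctp.right RtB18_12.Ce RtB18_12.CTp.left RtB18_12.CEr 0x42 = true := by decide +kernel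

theorem cB18_12_3_2 : chunkOkM (LB18_12.ctx true true 107 1 1 1 1 1 1 1 1) muQ true true 64 RtB18_12.Cx RtB18_12.CX RtB18_12.Ctp.right RtB18_12.Ce RtB18_12.CTp.right.left RtB18_12.CEr 0x42 = true := by decide +kernel

theorem cB18_12_3_3 : chunkOkM (LB18_12.ctx true true 107 1 1 1 1 1 1 1 1) muQ true true 64 RtB18_12.Cx RtB18_12.CX RtB18_12.Ctp.right RtB18_12.Ce RtB18_12.CTp.right.right RtB18_12.CEr.left 0x12 = true := by decide +kernel

theorem cB18_12_3_4 : chunkOkM (LB18_12.ctx true true 107 1 1 1 1 1 1 1 1) muQ true true 64 RtB18_12.Cx RtB18_12.CX RtB18_12.Ctp.right.left RtB18_12.Ce RtB18_12.CTp.right.right RtB18_12.CEr.right 0x41 = true := by decide +kernel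

theorem cB18_12_3_5 : chunkOkM (LB18_12.ctx true true 107 1 1 1 1 1 1 1 1) muQ true true 64 RtB18_12.Cx RtB18_12.CX RtB18_12.Ctp.right.right RtB18_12.Ce.left RtB18_12.CTp.right.right RtB18_12.CEr.right 0x11 = true := by decide +kernel

theorem cB18_12_3_6 : chunkOkM (LB18_12.ctx true true 226 17 8 17 16 49 65 35 39) muQ true true 64 RtB18_12.Cx RtB18_12.CX RtB18_12.Ctp.right.right RtB18_12.Ce.right.left RtB18_12.CTp.right.right RtB18_12.CEr.right 0x11a5f19089fd10360768c19ff6fc3686bcf421ddf4c81c5bf140d = true := by decide +kernel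

theorem cB18_12_3_7 : chunkOkM (LB18_12.ctx true true 107 1 1 1 1 1 1 1 1) muQ true true 64 RtB18_12.Cx RtB18_12.CX RtB18_12.Ctp.right.right.left.left RtB18_12.Ce.right.right.left RtB18_12.CTp.right.right RtB18_12.CEr.right 0x49 = true := by decide +kernel

theorem cB18_12_3_8 : chunkOkM (LB18_12.ctx true true 107 1 1 1 1 1 1 1 1) muQ true true 64 RtB18_12.Cx RtB18_12.CX RtB18_12.Ctp.right.right.left.right.left RtB18_12.Ce.right.right.left RtB18_12.CTp.right.right RtB18_12.CEr.right 0x49 = true := by decide +kernel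

theorem cB18_12_3_9 : chunkOkM (LB18_12.ctx true true 273 65 32 17 16 777 2587 35 91) muQ true true 64 RtB18_12.Cx.left.left RtB18_12.CX RtB18_12.Ctp.right.right.left.right.right RtB18_12.Ce.right.right.left.left.left RtB18_12.CTp.right.right RtB18_12.CEr.right 0x47abc67b8fd11f163177c1b65d4bf8f8ea670b4eb9f6ec6ffac0f9f5326e0eb219f460d800c089a8ab3a56c6da09af87bd21f8c19f6d1b6679419f53feebbcc8f450d65b5933398fd312309776ca99b5fc499f6c75f3f8239f540d45993a09a8fd37158f676c2d7785ab5e65ec4139f6d35bd76a19f5a4a5bec169f460d31435c79679fd67831f67c195e4087732bf63d62ecf757bbf440d4 = true := by decide +kernel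

theorem cB18_12_3_10 : chunkOkM (LB18_12.ctx true true 273 65 32 17 16 1561 2639 35 39) muQ true true 64 RtB18_12.Cx.left.left RtB18_12.CX RtB18_12.Ctp.right.right.left.right.right RtB18_12.Ce.right.right.left.left.right RtB18_12.CTp.right.right RtB18_12.CEr.right 0x59473ce4d78fd5020cdf76c9380e5ab648f6a0549f6f338bd3b09f568cca8a7e9f460d4c731b3c8fd5d2814f76c180f436ab4cf13c5029f6cc6eebe4e9f550d4d98533f8fd4ed43dd76c91172b0729f6fc83b4f419f56e5af68099f450d3457e070ef8fd3854626ab134e964a8f85223998795af5dc40be518caf450d34 = true := by decide +kernel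

theorem cB18_12_3_11 : chunkOkM (LB18_12.ctx true true 107 1 1 1 1 1 1 1 1) muQ true true 64 RtB18_12.Cx.left.right RtB18_12.CX RtB18_12.Ctp.right.right.left.right.right RtB18_12.Ce.right.right.left.left RtB18_12.CTp.right.right RtB18_12.CEr.right 0x49 = true := by decide +kernel

theorem cB18_12_3_12 : chunkOkM (LB18_12.ctx true true 107 1 1 1 1 1 1 1 1) muQ true true 64 RtB18_12.Cx.left RtB18_12.CX RtB18_12.Ctp.right.right.left.right.right RtB18_12.Ce.right.right.left.right RtB18_12.CTp.right.right RtB18_12.CEr.right 0x59 = true := by decide +kernel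

theorem cB18_12_3_13 : chunkOkM (LB18_12.ctx true true 107 1 1 1 1 1 1 1 1) muQ true true 64 RtB18_12.Cx.right RtB18_12.CX RtB18_12.Ctp.right.right.left.right.right RtB18_12.Ce.right.right.left RtB18_12.CTp.right.right RtB18_12.CEr.right 0x49 = true := by decide +kernel

theorem cB18_12_3_14 : chunkOkM (LB18_12.ctx true true 107 1 1 1 1 1 1 1 1) muQ true true 64 RtB18_12.Cx RtB18_12.CX RtB18_12.Ctp.right.right.right.left RtB18_12.Ce.right.right.left.left.left RtB18_12.CTp.right.right RtB18_12.CEr.right 0x69 = true := by decide +kernel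

theorem cB18_12_3_15 : chunkOkM (LB18_12.ctx true true 273 67 32 17 16 805 2639 35 91) muQ true true 64 RtB18_12.Cx.left RtB18_12.CX RtB18_12.Ctp.right.right.right.left.left RtB18_12.Ce.right.right.left.left.right.left RtB18_12.CTp.right.right RtB18_12.CEr.right 0x1828616cb7af04b60deaedd8fd11a853477c8bfebb98d9f6a25d13f759f540d7fe938dca9ab3d62e8777d9bf86e1c045399f530d65f3b35848fdd8c2e9d76c1d219a6ab7ad698aa19f69f1f6e4f99f550d6dfb70dc8ab322abcd7baaf83765b65409f6bd6bb45229f540d6567053d78fdea76f667ce40b2ca979f6b2e768e049f540d6aaa0a0b09ab3332770dff1bf8a7810fb8c9f6adae0b8ff9f540d6437 = true := by decide +kernel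

theorem cB18_12_3_16 : chunkOkM (LB18_12.ctx true true 279 131 64 17 16 1589 2691 35 39) muQ true true 64 RtB18_12.Cx.left.left RtB18_12.CX RtB18_12.Ctp.right.right.right.left.left.left RtB18_12.Ce.right.right.left.left.right.right RtB18_12.CTp.right.right RtB18_12.CEr.right 0x39d2d37f8fd6cdc77f76c13bf7c9f69af61267291138af540d48580e508fd6b6e12276c3976d926c9f6b4984ed8b9f540d470d5faa8fd3cea09876ca0b9a90539f6ea48bda509f540d347d3ff678fd937484976c10b1b8f79aaf6ea2a914a69f540d74 = true := by decide +kernel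

theorem cB18_12_3_17 : chunkOkM (LB18_12.ctx true true 279 131 64 17 16 805 2691 35 91) muQ true true 64 RtB18_12.Cx.left.left RtB18_12.CX RtB18_12.Ctp.right.right.right.left.left.right RtB18_12.Ce.right.right.left.left.right.right RtB18_12.CTp.right.right RtB18_12.CEr.right 0x4b1e6d9b8fdfc17bfb76c7bc28269b6f944d60c9f69c84b49b29f550d47f07d5fc9ab2287a7b93b0bf8261530e369f6a1eab41179f540d65d0fff538fd1175e2477c1903a56ab93c606d039f68631062f39f550d3cbb617b79ab1d229ea5bc9bf870b63354b9f6933a34f5e9f540d67597f594d8fdf3f2d2f76ca872db48a9f67944f54fb9f540d7a9590f48ab37d7c22424af887ddd35499f68a11cfa659f540d64 = true := by decide +kernel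

theorem cB18_12_3_18 : chunkOkM (LB18_12.ctx true true 270 67 32 17 16 1589 1339 35 39) muQ true true 64 RtB18_12.Cx.left.right RtB18_12.CX RtB18_12.Ctp.right.right.right.left.left RtB18_12.Ce.right.right.left.left.right.right RtB18_12.CTp.right.right RtB18_12.CEr.right 0x1c2e6f328fd3b2bbc67c7812de6abca403198c9f6b64dcea249f550d28f4e0ff8fd23c8ad67c556a846ab4213a927d9f6b9ba6f5069f52ba0900d49f460d4933 = true := by decide +kernel

theorem cB18_12_3_19 : chunkOkM (LB18_12.ctx true true 264 33 16 17 16 819 1339 35 91) muQ true true 64 RtB18_12.Cx.left RtB18_12.CX RtB18_12.Ctp.right.right.right.left.right RtB18_12.Ce.right.right.left.left.right RtB18_12.CTp.right.right RtB18_12.CEr.right 0x696d6ad0918fd135f37177c1205faab8f85ce1288db9f661fbecc969f550db35e0cb1b9ab560e7f53046bf84c54b4e48f67fd538ca29f540d66943 = true := by decide +kernel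

theorem cB18_12_3_20 : chunkOkM (LB18_12.ctx true true 249 35 16 17 16 203 663 35 39) muQ true true 64 RtB18_12.Cx.right RtB18_12.CX RtB18_12.Ctp.right.right.right.left RtB18_12.Ce.right.right.left.left.right RtB18_12.CTp.right.right RtB18_12.CEr.right 0xe8ecd041c9f04b = true := by decide +kernel

theorem cB18_12_3_21 : chunkOkM (LB18_12.ctx true true 107 1 1 1 1 1 1 1 1) muQ true true 64 RtB18_12.Cx RtB18_12.CX RtB18_12.Ctp.right.right.right.right RtB18_12.Ce.right.right.left.left RtB18_12.CTp.right.right RtB18_12.CEr.right 0x11 = true := by decide +kernel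

theorem cB18_12_3_22 : chunkOkM (LB18_12.ctx true true 281 135 64 17 16 1617 2743 35 39) muQ true true 64 RtB18_12.Cx.left RtB18_12.CX RtB18_12.Ctp.right.right.right.left.left RtB18_12.Ce.right.right.left.right.left.left RtB18_12.CTp.right.right RtB18_12.CEr.right 0x1d7c62c88fdf3373566c6512f76aba975c45cf9f6d72540a159f52495e390d9f460d38823bdb8fd4a2e13576c132b286abd886900029f6dacda46059f550d72c072a458fd163072b76c2743df6abde51047df9f6d5c1de5c39f52d235f8749f460d3cd892e08fd6e8f4bc76c577f730359f6a6183f71b9f540d2731ba8b8fd3a3d8db76c488a866ab4eb7df1fc9f6bfad7d69c9f550d374594413b4f38fd9d406af76c6e10516359f6a41cbf30d9f540d3d08c7e98fd683840576cb6cc6a9429f6c39c1c1ea9f540d35974755da4c2c8fd247e0d67c16ae6067ab10855df0e78bf6c87e48b3d1bbf528dab15a28fdcf460d3 = true := by decide +kernel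

theorem cB18_12_3_23 : chunkOkM (LB18_12.ctx true true 260 33 16 17 16 805 1391 35 39) muQ true true 64 RtB18_12.Cx.left RtB18_12.CX RtB18_12.Ctp.right.right.right.left.left RtB18_12.Ce.right.right.left.right.left.right RtB18_12.CTp.right.right RtB18_12.CEr.right 0x1f471ef28fd11493b67c4c88336ab8305d00d39f6ef3a2ceff9f550d593 = true := by decide +kernel

theorem cB18_12_3_24 : chunkOkM (LB18_12.ctx true true 286 131 64 17 16 1645 2717 35 195) muQ true true 64 RtB18_12.Cx.left.left RtB18_12.CX RtB18_12.Ctp.right.right.right.left.right.left RtB18_12.Ce.right.right.left.right.left.left.left RtB18_12.CTp.right.right RtB18_12.CEr.right 0x54fad3b88fd141bd21786c18c9b7d48f8b8f44bc729f67f86803df9f550da7a1fa2e8fd12f136ed86c1e0fe6dd29f678a51194c9f540db16b9ab68fde038ffe76c8c5481c7e9f6691e7bac79f540d64ce1efc78fd10d9912c86c17790465c6af69e1225a439f540d37524746d489ab277662f8d7bbf8f0a7d20319f67384562a09f540d6 = true := by decide +kernel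

theorem cB18_12_3_25 : chunkOkM (LB18_12.ctx true true 296 259 128 17 16 3297 5473 35 91) muQ true true 64 RtB18_12.Cx.left.left RtB18_12.CX RtB18_12.Ctp.right.right.right.left.right.left RtB18_12.Ce.right.right.left.right.left.left.right RtB18_12.CTp.right.right RtB18_12.CEr.right 0x55955d6e8fd132db06986c173b462e8f83dadf4c4b9f68be958c379f550d3c22c82339ab1cddc8bbb20bf82f948ff619f68f5ce8b3b9f540d65947e0cc988fd11ecf4e186c466e73f459f67bd0fc67e9f540d1c6bcc2169a9bda12fe0cc2af87ff6543589f530d659359745937 = true := by decide +kernel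

end Vale.Agent.helper4.Q4
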