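import Vale.Agent.helper4.Q4TreeM
import Vale.Agent.helper4.Q4G.PB18_12

/-!
Checks for pairs of intervals of second moments.
-/

set_option maxRecDepth 100000
set_option linter.unusedVariables false

namespace Vale.Agent.helper4.Q4

theorem cB18_12_3_37 : chunkOkM (LB18_12.ctx true true 280 139 64 17 16 1673 2899 35 39) muQ true true 64 RtB18_12.Cx.right RtB18_12.CX RtB18_12.Ctp.right.right.right.left.right RtB18_12.Ce.right.right.left.right.right.right RtB18_12.CTp.right.right RtB18_12.CEr.right 0x765dbd27fd25628667c4077a06ab53165c0269f6bf411ec7e9f539b507eab9f460d49313da6ddc8fd2591d367cf29635abcb4a868529f6e692b14249f550d1127e13d8fd3b1278976c17644b6ab9871fc0169f6c00a38e919f550d172d21ac8fde5475066cdfefe5abd00ad89d69f6ebbe1a5f39f5a3c5a26f460d32337feed8fd56473b776cde60619849f6c434bf2ad9f540d74798786067ccfb0556abac17406159f693c10a4a66af51f7e3b6cd0dbf450d3 = true := by decide +kernel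

theorem cB18_12_3_38 : chunkOkM (LB18_12.ctx true true 285 131 64 17 16 847 2795 75 91) muQ true true 64 RtB18_12.Cx RtB18_12.CX RtB18_12.Ctp.right.right.right.right RtB18_12.Ce.right.right.left.right.left RtB18_12.CTp.right.right RtB18_12.CEr.right 0x111155d6ddad8fdec6cf367cac01c6b7f8ec10a38fb9f64602820459f550d9649508e69ab4821641b6bebf88200a18029f530d6012e4e788d8fd146b11ad86c40656bdd8f86b55720479f649d4bf5ab9f53754e0aa69f260d70c909578fde88315276c3cf26e6abdebd7dd399f644e998ea49f529691c9429f260d52173aaf495e8fd174b77d186c52b4f7828f859a507f7b9f640438252b9f53fe6dd31e9f260d6855ccdf8fddc526eb76c26d76d6ab3899b99229f626c76117c9f567d97ef629f260d54597d4b64c9ab2afb2ee14e6bf8e73e523cf9f61b00991da9f540d637261f80398fd120c67677c66f70c6ab3142fe7de5af6c43a3a48ab8bf12103bc5f3aafcf060d473 = true := by decide +kernel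

theorem cB18_12_3_39 : chunkOkM (LB18_12.ctx true true 298 527 256 17 16 1701 5629 35 91) muQ true true 64 RtB18_12.Cx.left.left RtB18_12.CX RtB18_12.Ctp.right.right.right.right.left RtB18_12.Ce.right.right.left.right.right.left RtB18_12.CTp.right.right RtB18_12.CEr.right 0x21210156ed5f5a8fd169de74286c34e26f9e8f830c93650cbaf674c136e659f250d5f41c6dd8fd1087f1a586c19805fcb8f84c1d11cd09af640d3390427a969ab1b53fee3ab2bf815037d6321af630d6321742172174 = true := by decide +kernel

theorem cB18_12_3_40 : chunkOkM (LB18_12.ctx true true 284 135 64 17 16 847 2821 75 91) muQ true true 64 RtB18_12.Cx.left.right RtB18_12.CX RtB18_12.Ctp.right.right.right.right.left.left RtB18_12.Ce.right.right.left.right.right.left.left RtB18_12.CTp.right.right RtB18_12.CEr.right 0x54346ac78fd916153476c1196722a8daf664b0ea4719f540d201d25e08fd12f5523986c35957d188f8bda55e4829f64b3331bea9f519b1c78119f260d51adb61c8fdcbab67c76c515ff5779b7c0960b319f65b87be94e9f51e5b883279f260d57792bcade59ab3a2665de8dcbf85e79af5a59f6629abe2969f540d6 = true :=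 by decide +kernel

theorem cB18_12_3_41 : chunkOkM (LB18_12.ctx true true 296 267 128 17 16 1701 5707 35 195) muQ true true 64 RtB18_12.Cx.left.right RtB18_12.CX RtB18_12.Ctp.right.right.right.right.left.left RtB18_12.Ce.right.right.left.right.right.left.right RtB18_12.CTp.right.right RtB18_12.CEr.right 0x4751e2198fdd229dc676c5fb98997f8c6d30e9d89f662caa71509f550d670f8fc8e9ab31741bebb54bf82581c363b9f685c61209b9f540d6f0d1dafa8fda66e7e676c2fa83a61edaf630d44894fdd8fdd1679a876cb9a5bf69b89233f9e33af640d62177ccaf5988fd117e28cf86ce72e71b579f64b61604b09f5105bdec979f250d5018a7308fdd32098d76c783e8369beb2ec926a9f64ec80f23f9f52a0afcc699f260d64565a88368fdb51b9c67c4b74b87b29f68c3f06bb89f540d347a7b867b9ab22574a7fa86bf820d67 = true := by decide +kernel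

theorem cB18_12_3_42 : chunkOkM (LB18_12.ctx true true 271 67 32 17 16 861 1417 35 91) muQ true true 64 RtB18_12.Cx.left.right RtB18_12.CX RtB18_12.Ctp.right.right.right.right.left.right RtB18_12.Ce.right.right.left.right.right.left RtB18_12.CTp.right.right RtB18_12.CEr.right 0x4b2aa55e8fdbcf1e3276cf0bb25ab1e2e35cfc9f6aec59e9549f250d829ca66059ab3ea7a4270f8bf8386c5532a9f6a6fc9b0f89f240d6 = true := by decide +kernel

theorem cB18_12_3_43 : chunkOkM (LB18_12.ctx true true 107 1 1 1 1 1 1 1 1) muQ true true 64 RtB18_12.Cx.left.left RtB18_12.CX RtB18_12.Ctp.right.right.right.right.left RtB18_12.Ce.right.right.left.right.right.right RtB18_12.CTp.right.right RtB18_12.CEr.right 0x21 = true := by decide +kernel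

theorem cB18_12_3_44 : chunkOkM (LB18_12.ctx true true 107 1 1 1 1 1 1 1 1) muQ true true 64 RtB18_12.Cx.left.right.left RtB18_12.CX RtB18_12.Ctp.right.right.right.right.left RtB18_12.Ce.right.right.left.right.right.right RtB18_12.CTp.right.right RtB18_12.CEr.right 0x21 = true := by decide +kernel

theorem cB18_12_3_45 : chunkOkM (LB18_12.ctx true true 284 135 64 17 16 1701 2873 35 91) muQ true true 64 RtB18_12.Cx.left.right.right RtB18_12.CX RtB18_12.Ctp.right.right.right.right.left.left RtB18_12.Ce.right.right.left.right.right.right RtB18_12.CTp.right.right RtB18_12.CEr.right 0x694b0b2c838fdb7761f076c55455da8c9f66f77429d29f5af59f9238f250d12c6deda8fdf5e7d567c15c8456ab71f6bf9d89f6884349bb69f550d3531e8f7189ab27e360cb1f7bf865228dd4e9f530d64 = true := by decide +kernel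

theorem cB18_12_3_46 : chunkOkM (LB18_12.ctx true true 297 271 128 17 16 1729 5811 75 91) muQ true true 64 RtB18_12.Cx.left.right.right RtB18_12.CX RtB18_12.Ctp.right.right.right.right.left.right RtB18_12.Ce.right.right.left.right.right.right RtB18_12.CTp.right.right RtB18_12.CEr.right 0x2003a97b8fd100a8fe986c1737d7d79b2bd56a2059f6f379136089f250d24b5ea978fdca5461e76c144650379b86aada0375af640d4151ea488fdbeae32076cee3efef729f65b5d4db8a9f51ddb05c409f250d435a3be3ba39ab2b4d0507019bf85aec1ef589f65d18aa90b9f51e63e3d719f250d6217e209ae57fd8f4350276c240572b78f98f028cf879f64dff4823a9f525dbb8a1e9f260d3d76301a8fd1058ab8486c871a8f75a9f643e12529a9f52e056489b9f250d56ba2bfad49ab33a7c81bcbbbf842f9ca22f9f659dbe213f9f535d927d339f250d64 = true := by decide +kernel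

theorem cB18_12_3_47 : chunkOkM (LB18_12.ctx true true 107 1 1 1 1 1 1 1 1) muQ true true 64 RtB18_12.Cx.left RtB18_12.CX RtB18_12.Ctp.right.right.right.right.right RtB18_12.Ce.right.right.left.right.right RtB18_12.CTp.right.right RtB18_12.CEr.right 0x01 = true := by decide +kernel

theorem cB18_12_3_48 : chunkOkM (LB18_12.ctx true true 257 35 16 17 16 427 1417 35 39) muQ true true 64 RtB18_12.Cx.right RtB18_12.CX RtB18_12.Ctp.right.right.right.right.left RtB18_12.Ce.right.right.left.right.right.left RtB18_12.CTp.right.right RtB18_12.CEr.right 0x1f47d1298fd84b48367c1064f46ab84eb11d269f674d3992229f550d = true := by decide +kernel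

theorem cB18_12_3_49 : chunkOkM (LB18_12.ctx true true 284 139 64 17 16 1701 2899 35 91) muQ true true 64 RtB18_12.Cx.right.left RtB18_12.CX RtB18_12.Ctp.right.right.right.right.left.left RtB18_12.Ce.right.right.left.right.right.right RtB18_12.CTp.right.right RtB18_12.CEr.right 0x1aecb1ed8fd68dfa167cf53f85abac546c7bd9f683a5e1edb9f550d17412e878fd5112e7d76c14cece6ab61fa31ab79f6a68f5095d9f550d32fd59c078fdc0531467c23777d6ab9e18764869f698f40678c9f550d5e2440ff69ab2d2f259634cbf842ad90f719f69901d71d19f540d67159701638fd5ff36b67c1365cf6abd2cbe01419f69cb412b9c9f550d40e23b808fd8137f1b76c26616bb7f9bd0f4e8bd9f67694410ec9f550d7360552e39ab375dd06df97bf8b11569ad29f671d2129fb9f540d674 = true := by decide +kernel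

end Vale.Agent.helper4.Q4
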