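import Vale.Agent.helper4.Q4TreeM
import Vale.Agent.helper4.Q4G.PB18_12

/-!
Checks for pairs of intervals of second moments.
-/

set_option maxRecDepth 100000
set_option linter.unusedVariables false

namespace Vale.Agent.helper4.Q4

theorem cB18_12_3_50 : chunkOkM (LB18_12.ctx true true 284 139 64 17 16 1729 2899 35 91) muQ true true 64 RtB18_12.Cx.right.left RtB18_12.CX RtB18_12.Ctp.right.right.right.right.left.right RtB18_12.Ce.right.right.left.right.right.right RtB18_12.CTp.right.right RtB18_12.CEr.right 0x11d05c3815fc2c8fd8e90ac776c1ebcba579b149646c66daf69ad2d1ec89f250d2c364d3a8fdd2c4a5b76c45e5f59b4515718d39f6700d956c49f5ed5423628f260d3799972a0b69ab49b4cb1cc8bbf8633ec83f39f675478bada9f540d61163b05c064 = true := by decide +kernel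

theorem cB18_12_3_51 : chunkOkM (LB18_12.ctx true true 263 71 32 17 16 427 1443 35 39) muQ true true 64 RtB18_12.Cx.right.right RtB18_12.CX RtB18_12.Ctp.right.right.right.right.left RtB18_12.Ce.right.right.left.right.right.right RtB18_12.CTp.right.right RtB18_12.CEr.right 0x1c5860f7fd45f9e767c3b15086abacc3975bc9f6b96bc17079f550d = true := by decide +kernel

theorem cB18_12_3_52 : chunkOkM (LB18_12.ctx true true 107 1 1 1 1 1 1 1 1) muQ true true 64 RtB18_12.Cx.right RtB18_12.CX RtB18_12.Ctp.right.right.right.right.right RtB18_12.Ce.right.right.left.right.right RtB18_12.CTp.right.right RtB18_12.CEr.right 0x11 = true := by decide +kernel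

theorem cB18_12_3_53 : chunkOkM (LB18_12.ctx true true 107 1 1 1 1 1 1 1 1) muQ true true 64 RtB18_12.Cx RtB18_12.CX RtB18_12.Ctp.right.right.left RtB18_12.Ce.right.right.right RtB18_12.CTp.right.right RtB18_12.CEr.right 0x59 = true := by decide +kernel

theorem cB18_12_3_54 : chunkOkM (LB18_12.ctx true true 107 1 1 1 1 1 1 1 1) muQ true true 64 RtB18_12.Cx.left RtB18_12.CX RtB18_12.Ctp.right.right.right RtB18_12.Ce.right.right.right.left RtB18_12.CTp.right.right RtB18_12.CEr.right 0x21 = true := by decide +kernel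

theorem cB18_12_3_55 : chunkOkM (LB18_12.ctx true true 263 71 32 17 16 413 1469 35 39) muQ true true 64 RtB18_12.Cx.right RtB18_12.CX RtB18_12.Ctp.right.right.right.left RtB18_12.Ce.right.right.right.left RtB18_12.CTp.right.right RtB18_12.CEr.right 0x59591057276fd4514f167c4101b86ab7299ab24b9f6f9ee41e469f5ed56fcd859f460d59744934 = true := by decide +kernel

theorem cB18_12_3_56 : chunkOkM (LB18_12.ctx true true 274 69 32 17 16 847 2925 35 91) muQ true true 64 RtB18_12.Cx.right.left RtB18_12.CX RtB18_12.Ctp.right.right.right.right.left.left RtB18_12.Ce.right.right.right.left.left.left RtB18_12.CTp.right.right RtB18_12.CEr.right 0x5928628ad38fd871c9967ca22495ab6a378704f9f6a6180e4d39f550d69b7da6c09ab32b9c791381bf82ab10ab349f6af16f9aa69f540d64 = true := by decide +kernel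

theorem cB18_12_3_57 : chunkOkM (LB18_12.ctx true true 297 275 128 17 16 1729 5863 75 91) muQ true true 64 RtB18_12.Cx.right.left RtB18_12.CX RtB18_12.Ctp.right.right.right.right.left.right RtB18_12.Ce.right.right.right.left.left.left.left RtB18_12.CTp.right.right RtB18_12.CEr.right 0x1a84952b8fdbe91e0b76c225d7f6ab7112c5ce49f67b64b82169f550d88abe407a9ab4196010f0a7bf873934bb349f6805b8d1329f540d62abe85b58fdca2f93c76c17312e93a4af6537d3b1099f51a85195039f250d2171504f61b8fd7ca148f76c7a01eb84b9f660108fa419f5280af75e59f250d2e5592fe8fde40da0c76c7f63b669b37b8e54f09f66407d69929f526e55f7509f260d54418f42ce8fda2aafef76c719aa38b29f67dc03d6889f540d367eacdb0b9ab31e315e88a6bf859a12e26a9f670d867bb59f540d67 = true := by decide +kernel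

theorem cB18_12_3_58 : chunkOkM (LB18_12.ctx true true 280 139 64 17 16 861 2951 35 91) muQ true true 64 RtB18_12.Cx.right.left RtB18_12.CX RtB18_12.Ctp.right.right.right.right.left.right RtB18_12.Ce.right.right.right.left.left.left.right RtB18_12.CTp.right.right RtB18_12.CEr.right 0x1d67c2598fdc77690976c15dc35ab6b0c176569f67df0662899f550d249c078b8fdbdf2d167c117fc96ab8b48672e79f66ff15e9849f5369f4f57d9f260d771d565b4b9ab369952a6bdbbf8e12d089fa9f630d6 = true := by decide +kernel

theorem cB18_12_3_59 : chunkOkM (LB18_12.ctx true true 284 143 64 17 16 1701 2951 35 91) muQ true true 64 RtB18_12.Cx.right.right RtB18_12.CX RtB18_12.Ctp.right.right.right.right.left.left RtB18_12.Ce.right.right.right.left.left.left RtB18_12.CTp.right.right RtB18_12.CEr.right 0x2c4a0a67c3bdf996ab710606cad9f6bfa1c50a49f5d7aeed668f450d26d03167c2ee19a6ab7ac43201c9f6d38d0a1959f563cd868579f450d396ee9f67c2ed4646ab9cef773069f6c93052b6e9f540d72af3c47d9ab370847df305bf86a9307c789f6a6b2e47a59f540d671f098eb7fd12536d67c1b08c86abebdf9f9229f6d37c103069f52b1bbbc789f460d8d8e0ba7fd51829067c2e06e06abcaa45d0029f6b4b85a9789f550d2434dc67fd40a8e8d76c44d1356ab88d27e6ad9f6cfbe2f7ca9f550d374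 = true := by decide +kernel

theorem cB18_12_3_60 : chunkOkM (LB18_12.ctx true true 284 143 64 17 16 1729 2951 35 91) muQ true true 64 RtB18_12.Cx.right.right RtB18_12.CX RtB18_12.Ctp.right.right.right.right.left.right RtB18_12.Ce.right.right.right.left.left.left RtB18_12.CTp.right.right RtB18_12.CEr.right 0x4031b667c3b2f236abb74c8c27b9f6b287e27099f540d18243b658fd9c7b2b576cf2cc05aba8626917c9f68c7412b629f550d61a64f3539f05b6548b6697fdce1369776c194aab6ab9fde5ea9c9f69ca4e5f3b9f550d8f25a38d59f05b637ef4553e7fd5d4aed67c148e9e6ab69cec2eb19f6823c77b409f550d4 = true := by decide +kernel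

theorem cB18_12_3_61 : chunkOkM (LB18_12.ctx true true 293 279 128 17 16 1729 5941 35 91) muQ true true 64 RtB18_12.Cx.right.left RtB18_12.CX RtB18_12.Ctp.right.right.right.right.left RtB18_12.Ce.right.right.right.left.left.right RtB18_12.CTp.right.right RtB18_12.CEr.right 0x21591eec57108fd93c1fba76c1cfcf1279b4eef8105feaf674a2777d29f550d9181920af9f05b659745932174593 = true := by decide +kernel

theorem cB18_12_3_62 : chunkOkM (LB18_12.ctx true true 280 143 64 17 16 847 2977 35 91) muQ true true 64 RtB18_12.Cx.right.right RtB18_12.CX RtB18_12.Ctp.right.right.right.right.left.left RtB18_12.Ce.right.right.right.left.left.right RtB18_12.CTp.right.right RtB18_12.CEr.right 0x595c211967c2e6b986abdf087bf9b9f6f71d904e39f540d7bc14f3da9ab3b65a86b5cdbf84256e1bb49f6cc9af8b719f540d65974 = true := by decide +kernel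

theorem cB18_12_3_63 : chunkOkM (LB18_12.ctx true true 287 143 64 17 16 1729 5967 35 91) muQ true true 64 RtB18_12.Cx.right.right RtB18_12.CX RtB18_12.Ctp.right.right.right.right.left.right RtB18_12.Ce.right.right.right.left.left.right RtB18_12.CTp.right.right RtB18_12.CEr.right 0x64e988c7fda5ef5967c23d7636ab857b7f7209f6afff54c5e9f550d90cb9a2e19ab4593aa517fbbf8e59003dd09f530d68cc9c7d7fd4c6f0f67c31d4be6ab8fc0061889f698518b6d79f550d1d3df1df8fd1a835bc76c1b5449f79b92d91c6839f6c409023f39f550d9c76063af9f05b651cb52b7fd38b84a67c3ce61f6ab948f2adf79f6ae71ec5fd9f550d43201fb1688fd73ba13f76c174e5f6abd56f5cffa9f69c57090489f550d8340960ad9ab3f0583cbd81bf8b72891ef19f530d674 = true := by decide +kernel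

theorem cB18_12_3_64 : chunkOkM (LB18_12.ctx true true 284 139 64 17 16 1743 2951 35 91) muQ true true 64 RtB18_12.Cx.right RtB18_12.CX RtB18_12.Ctp.right.right.right.right.right RtB18_12.Ce.right.right.right.left.left.left RtB18_12.CTp.right.right RtB18_12.CEr.right 0x11110124f7bb778fdb6861f376cd18eb369b6870a53e89f660b95be659f523567a3819f260da280ba07fd11e42e2886c83a016f739f6118ac804f2af240d7845e59fa39ab3f9a97d9cd5bf813d5ed3e22af630d6161972977c80affbcafdaf117a3d32a223bf030d4373 = true := by decide +kernel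

theorem cB18_12_3_65 : chunkOkM (LB18_12.ctx true true 284 139 64 17 16 1743 2977 35 91) muQ true true 64 RtB18_12.Cx.right.left RtB18_12.CX RtB18_12.Ctp.right.right.right.right.right RtB18_12.Ce.right.right.right.left.left.right RtB18_12.CTp.right.right RtB18_12.CEr.right 0x210101223ad0c08fdc22417076cbfab85ab6e38f9a199f66fa6d6a909f5246e916889f260d6d18eb3e49ab34730592d5dbf81ebb1ddac5af630d6332174 = true := by decide +kernel

end Vale.Agent.helper4.Q4
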