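import Vale.Agent.helper4.Q4TreeM
import Vale.Agent.helper4.Q4G.PB18_12

/-!
Checks for pairs of intervals of second moments.
-/

set_option maxRecDepth 100000
set_option linter.unusedVariables false

namespace Vale.Agent.helper4.Q4

theorem cB18_12_3_66 : chunkOkM (LB18_12.ctx true true 285 143 64 17 16 1757 3003 35 91) muQ true true 64 RtB18_12.Cx.right.right RtB18_12.CX RtB18_12.Ctp.right.right.right.right.right RtB18_12.Ce.right.right.right.left.left.right RtB18_12.CTp.right.right RtB18_12.CEr.right 0xe9c4a22fc9f00b13118a0a8fd8e3431a76cfdd505ab1351724bceaf68401c39379f550daa81586e19ab51d24a7bf20bf8a923e19029f68c654f9d99f540d61b1cba9b8fdb3d3cc176c146c24d79b7ad5e685d9f66855fd29b9f525de4d3ad9f260d1c396cf98fda7b473a76c1eee396ab5d517250c9f6846ad5f109f571fb51c38f260d38b9464eed9ab42fbeb041e0bf8435e8e2c19f6859f890989f52d321fe08f250d6718462cec8fda7a71767c10466a6abcbfff316e9f66e28a98cd9f550db965353019ab58f9e0a5dc0bf8612bf954f9f6840e87b209f540d643 = true := by decide +kernel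

theorem cB18_12_3_67 : chunkOkM (LB18_12.ctx true true 107 1 1 1 1 1 1 1 1) muQ true true 64 RtB18_12.Cx.right.left RtB18_12.CX RtB18_12.Ctp.right.right.right.right RtB18_12.Ce.right.right.right.left.right RtB18_12.CTp.right.right RtB18_12.CEr.right 0x21 = true := by decide +kernel

theorem cB18_12_3_68 : chunkOkM (LB18_12.ctx true true 293 287 128 17 16 1729 6045 35 91) muQ true true 64 RtB18_12.Cx.right.right RtB18_12.CX RtB18_12.Ctp.right.right.right.right.left RtB18_12.Ce.right.right.right.left.right RtB18_12.CTp.right.right RtB18_12.CEr.right 0x595959c2a88ee7fd730eeb076c3005f769b10b00a0b3baf6a47da6d759f550dac3586fb29f05b6597459359745934 = true := by decide +kernel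

theorem cB18_12_3_69 : chunkOkM (LB18_12.ctx true true 290 283 128 17 16 1757 3055 35 91) muQ true true 64 RtB18_12.Cx.right.right RtB18_12.CX RtB18_12.Ctp.right.right.right.right.right.left RtB18_12.Ce.right.right.right.left.right.left RtB18_12.CTp.right.right RtB18_12.CEr.right 0xbee6b037fdcadedfc76c11d45b6ab6869edcf19f688903c6379f550d8eed5f67c10a3586ab1480f3687faf6b3da1d1f19f540d3217baafb007fdc22733576cf84715ab659d7f30e9f67c65f68b39f57fb3d1e48f260d7259c017fda51064076c4957f2579b8497292b49f69b5c8d18c9f550d315b498788fdb482e7b76c1a1418479b8381c313f9f6708eea0ec9f51f1367ce29f260df866a5f7fd9ccf21576c1ee4a16ab1d7adff719f6b792cb0d69f550d32177498289333e9ab4903b6a5a10bf8bbaccd0289f530d6 = true := by decide +kernel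

theorem cB18_12_3_70 : chunkOkM (LB18_12.ctx true true 298 287 128 17 16 3549 6123 35 91) muQ true true 64 RtB18_12.Cx.right.right RtB18_12.CX RtB18_12.Ctp.right.right.right.right.right.right RtB18_12.Ce.right.right.right.left.right.left RtB18_12.CTp.right.right RtB18_12.CEr.right 0x011a21bef38fd94dc54e76c14e4520199af6f39d773209f240d2dbd1547fdd4618b476c9b5f1369ba9799b4119f67b02a3f529f5e2157f548f260d3217aebbfe67fdcbd84de76c12860a979b63374d69c9f66e85de6419f5282f2eed79f260d49422ce8059ab471660c1ea8bf817fc960ca9f69a5446c969f540d63259dc4828fd79c39f376cb15ef5ab440ddb9479f6d220d1be39f250db87cc0fd69f00b64017 = true := by decide +kernel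

theorem cB18_12_3_71 : chunkOkM (LB18_12.ctx true true 305 1151 512 17 16 889 12285 35 91) muQ true true 64 RtB18_12.Cx.right.right RtB18_12.CX RtB18_12.Ctp.right.right.right.right.right RtB18_12.Ce.right.right.right.left.right.right RtB18_12.CTp.right.right RtB18_12.CEr.right 0x212121bccdf6076c15054e779bd21de64c49f6704bfdd2f9f52b0bb254d9f250d8ce4e3fb19ab4380c56f54bbf813b8a7bdbbaf230d6217421721740174593 = true := by decide +kernel

theorem cB18_12_3_72 : chunkOkM (LB18_12.ctx true true 107 1 1 1 1 1 1 1 1) muQ true true 64 RtB18_12.Cx RtB18_12.CX RtB18_12.Ctp.right.right.right RtB18_12.Ce.right.right.right.right RtB18_12.CTp.right.right RtB18_12.CEr.right 0x21 = true := by decide +kernel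

theorem cB18_12_2_0 : chunkOkM (LB18_12.ctx false true 107 1 1 1 1 1 1 1 1) muQ false true 64 RtB18_12.Cx RtB18_12.CX RtB18_12.Ctn RtB18_12.Ce RtB18_12.CTp RtB18_12.CEr 0x49 = true := by decide +kernel

theorem cB18_12_1_0 : chunkOkM (LB18_12.ctx true false 107 1 1 1 1 1 1 1 1) muQ true false 64 RtB18_12.Cx RtB18_12.CX RtB18_12.Ctp RtB18_12.Ce RtB18_12.CTn RtB18_12.CEr 0x4a = true := by decide +kernel

theorem cB18_12_0_0 : chunkOkM (LB18_12.ctx false false 107 1 1 1 1 1 1 1 1) muQ false false 64 RtB18_12.Cx RtB18_12.CX RtB18_12.Ctn RtB18_12.Ce RtB18_12.CTn RtB18_12.CEr 0x49 = true := by decide +kernel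

end Vale.Agent.helper4.Q4
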