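import Vale.Agent.helper4.Q4TreeM
import Vale.Agent.helper4.Q4G.PB18_12_0
import Vale.Agent.helper4.Q4G.PB18_12_1
import Vale.Agent.helper4.Q4G.PB18_12_2
import Vale.Agent.helper4.Q4G.PB18_12_3
import Vale.Agent.helper4.Q4G.PB18_12_4

/-!
Checks for pairs of intervals of second moments.
-/

set_option maxRecDepth 100000
set_option linter.unusedVariables false

namespace Vale.Agent.helper4.Q4

theorem covB18_12 : LB18_12.Full muQ.val RtB18_12 := ⟨(LitT.Cov.split_t (LitT.cov_of_chunkM cB18_12_3_0) (LitT.Cov.split_T (LitT.cov_of_chunkM cB18_12_3_1) (LitT.Cov.split_T (LitT.cov_of_chunkM cB18_12_3_2) (LitT.Cov.split_E (LitT.cov_of_chunkM cB18_12_3_3) (LitT.Cov.split_t (LitT.cov_of_chunkM cB18_12_3_4) (LitT.Cov.split_e (LitT.cov_of_chunkM cB18_12_3_5) (LitT.Cov.split_e (LitT.cov_of_chunkM cB18_12_3_6) (LitT.Cov.split_e (LitT.Cov.split_t (LitT.Cov.split_t (LitT.cov_of_chunkM cB18_12_3_7)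 (LitT.Cov.split_t (LitT.cov_of_chunkM cB18_12_3_8) (LitT.Cov.split_x (LitT.Cov.split_e (LitT.Cov.split_x (LitT.Cov.split_e (LitT.cov_of_chunkM cB18_12_3_9) (LitT.cov_of_chunkM cB18_12_3_10)) (LitT.cov_of_chunkM cB18_12_3_11)) (LitT.cov_of_chunkM cB18_12_3_12)) (LitT.cov_of_chunkM cB18_12_3_13)))) (LitT.Cov.split_e (LitT.Cov.split_t (LitT.Cov.split_e (LitT.cov_of_chunkM cB18_12_3_14) (LitT.Cov.split_x (LitT.Cov.split_t (LitT.Cov.split_e (LitT.cov_of_chunkM cB18_12_3_15) (LitT.Cov.split_x (LitT.Cov.split_t (LitT.cov_of_chunkM cB18_12_3_16) (LitT.cov_of_chunkM cB18_12_3_17)) (LitT.cov_of_chunkM cB18_12_3_18))) (LitT.cov_of_chunkM cB18_12_3_19)) (LitT.cov_of_chunkM cB18_12_3_20))) (LitT.cov_of_chunkM cB18_12_3_21)) (LitT.Cov.split_t (LitT.Cov.split_e (LitT.Cov.split_x (LitT.Cov.split_t (LitT.Cov.split_e (LitT.cov_of_chunkM cB18_12_3_22) (LitT.cov_of_chunkM cB18_12_3_23)) (LitT.Cov.split_e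 (LitT.Cov.split_x (LitT.Cov.split_t (LitT.Cov.split_e (LitT.cov_of_chunkM cB18_12_3_24) (LitT.cov_of_chunkM cB18_12_3_25)) (LitT.cov_of_chunkM cB18_12_3_26)) (LitT.cov_of_chunkM cB18_12_3_27)) (LitT.Cov.split_x (LitT.Cov.split_t (LitT.cov_of_chunkM cB18_12_3_28) (LitT.Cov.split_e (LitT.cov_of_chunkM cB18_12_3_29) (LitT.cov_of_chunkM cB18_12_3_30))) (LitT.Cov.split_t (LitT.cov_of_chunkM cB18_12_3_31) (LitT.cov_of_chunkM cB18_12_3_32))))) (LitT.cov_of_chunkM cB18_12_3_33)) (LitT.Cov.split_t (LitT.cov_of_chunkM cB18_12_3_34) (LitT.Cov.split_x (LitT.cov_of_chunkM cB18_12_3_35) (LitT.Cov.split_e (LitT.cov_of_chunkM cB18_12_3_36) (LitT.cov_of_chunkM cB18_12_3_37))))) (LitT.Cov.split_e (LitT.cov_of_chunkM cB18_12_3_38) (LitT.Cov.split_x (LitT.Cov.split_t (LitT.Cov.split_e (LitT.Cov.split_x (LitT.cov_of_chunkM cB18_12_3_39) (LitT.Cov.split_t (LitT.Cov.split_e (LitT.cov_of_chunkM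 cB18_12_3_40) (LitT.cov_of_chunkM cB18_12_3_41)) (LitT.cov_of_chunkM cB18_12_3_42))) (LitT.Cov.split_x (LitT.cov_of_chunkM cB18_12_3_43) (LitT.Cov.split_x (LitT.cov_of_chunkM cB18_12_3_44) (LitT.Cov.split_t (LitT.cov_of_chunkM cB18_12_3_45) (LitT.cov_of_chunkM cB18_12_3_46))))) (LitT.cov_of_chunkM cB18_12_3_47)) (LitT.Cov.split_t (LitT.Cov.split_e (LitT.cov_of_chunkM cB18_12_3_48) (LitT.Cov.split_x (LitT.Cov.split_t (LitT.cov_of_chunkM cB18_12_3_49) (LitT.cov_of_chunkM cB18_12_3_50)) (LitT.cov_of_chunkM cB18_12_3_51))) (LitT.cov_of_chunkM cB18_12_3_52))))))) (LitT.Cov.split_t (LitT.cov_of_chunkM cB18_12_3_53) (LitT.Cov.split_e (LitT.Cov.split_x (LitT.cov_of_chunkM cB18_12_3_54) (LitT.Cov.split_t (LitT.cov_of_chunkM cB18_12_3_55) (LitT.Cov.split_e (LitT.Cov.split_t (LitT.Cov.split_e (LitT.Cov.split_x (LitT.Cov.split_t (LitT.cov_of_chunkM cB18_12_3_56) (LitT.Cov.split_e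 (LitT.cov_of_chunkM cB18_12_3_57) (LitT.cov_of_chunkM cB18_12_3_58))) (LitT.Cov.split_t (LitT.cov_of_chunkM cB18_12_3_59) (LitT.cov_of_chunkM cB18_12_3_60))) (LitT.Cov.split_x (LitT.cov_of_chunkM cB18_12_3_61) (LitT.Cov.split_t (LitT.cov_of_chunkM cB18_12_3_62) (LitT.cov_of_chunkM cB18_12_3_63)))) (LitT.Cov.split_e (LitT.cov_of_chunkM cB18_12_3_64) (LitT.Cov.split_x (LitT.cov_of_chunkM cB18_12_3_65) (LitT.cov_of_chunkM cB18_12_3_66)))) (LitT.Cov.split_x (LitT.cov_of_chunkM cB18_12_3_67) (LitT.Cov.split_t (LitT.cov_of_chunkM cB18_12_3_68) (LitT.Cov.split_e (LitT.Cov.split_t (LitT.cov_of_chunkM cB18_12_3_69) (LitT.cov_of_chunkM cB18_12_3_70)) (LitT.cov_of_chunkM cB18_12_3_71))))))) (LitT.cov_of_chunkM cB18_12_3_72))))))))))), (LitT.cov_of_chunkM cB18_12_1_0), (LitT.cov_of_chunkM cB18_12_2_0), (LitT.cov_of_chunkM cB18_12_0_0)⟩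

end Vale.Agent.helper4.Q4
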