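import Vale.Agent.helper4.Q4TreeM
import Vale.Agent.helper4.Q4G.PB18_13

/-!
Checks for pairs of intervals of second moments.
-/

set_option maxRecDepth 100000
set_option linter.unusedVariables false

namespace Vale.Agent.helper4.Q4

theorem cB18_13_3_0 : chunkOkM (LB18_13.ctx true true 104 1 1 1 1 1 1 1 1) muQ true true 64 RtB18_13.Cx RtB18_13.CX RtB18_13.Ctp.left RtB18_13.Ce RtB18_13.CTp RtB18_13.CEr 0x41 = true := by decide +kernel

theorem cB18_13_3_1 : chunkOkM (LB18_13.ctx true true 104 1 1 1 1 1 1 1 1) muQ true true 64 RtB18_13.Cx RtB18_13.CX RtB18_13.Ctp.right RtB18_13.Ce RtB18_13.CTp.left RtB18_13.CEr 0x42 = true := by decide +kernel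

theorem cB18_13_3_2 : chunkOkM (LB18_13.ctx true true 104 1 1 1 1 1 1 1 1) muQ true true 64 RtB18_13.Cx RtB18_13.CX RtB18_13.Ctp.right RtB18_13.Ce RtB18_13.CTp.right RtB18_13.CEr.left 0x6a = true := by decide +kernel

theorem cB18_13_3_3 : chunkOkM (LB18_13.ctx true true 104 1 1 1 1 1 1 1 1) muQ true true 64 RtB18_13.Cx RtB18_13.CX RtB18_13.Ctp.right RtB18_13.Ce RtB18_13.CTp.right.left RtB18_13.CEr.right 0x42 = true := by decide +kernel

theorem cB18_13_3_4 : chunkOkM (LB18_13.ctx true true 104 1 1 1 1 1 1 1 1) muQ true true 64 RtB18_13.Cx RtB18_13.CX RtB18_13.Ctp.right.left RtB18_13.Ce RtB18_13.CTp.right.right RtB18_13.CEr.right 0x41 = true := by decide +kernel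

theorem cB18_13_3_5 : chunkOkM (LB18_13.ctx true true 104 1 1 1 1 1 1 1 1) muQ true true 64 RtB18_13.Cx RtB18_13.CX RtB18_13.Ctp.right.right RtB18_13.Ce.left RtB18_13.CTp.right.right RtB18_13.CEr.right 0x11 = true := by decide +kernel

theorem cB18_13_3_6 : chunkOkM (LB18_13.ctx true true 226 17 8 19 16 49 65 77 21) muQ true true 64 RtB18_13.Cx RtB18_13.CX RtB18_13.Ctp.right.right RtB18_13.Ce.right.left RtB18_13.CTp.right.right RtB18_13.CEr.right 0x6d551e67fd15d3f46ab11d3ffcc87e3cf4186dcdcd04cbf140d = true := by decide +kernel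

theorem cB18_13_3_7 : chunkOkM (LB18_13.ctx true true 104 1 1 1 1 1 1 1 1) muQ true true 64 RtB18_13.Cx RtB18_13.CX RtB18_13.Ctp.right.right.left.left RtB18_13.Ce.right.right.left RtB18_13.CTp.right.right RtB18_13.CEr.right 0x49 = true := by decide +kernel

theorem cB18_13_3_8 : chunkOkM (LB18_13.ctx true true 104 1 1 1 1 1 1 1 1) muQ true true 64 RtB18_13.Cx RtB18_13.CX RtB18_13.Ctp.right.right.left.right.left RtB18_13.Ce.right.right.left RtB18_13.CTp.right.right RtB18_13.CEr.right 0x49 = true := by decide +kernel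

theorem cB18_13_3_9 : chunkOkM (LB18_13.ctx true true 272 65 32 19 16 777 2587 77 49) muQ true true 64 RtB18_13.Cx.left.left RtB18_13.CX RtB18_13.Ctp.right.right.left.right.right RtB18_13.Ce.right.right.left.left.left RtB18_13.CTp.right.right RtB18_13.CEr.right 0x86e2ba87fd9aa70666c70312b69b13806576c9f615514ecf79f55cf025638f460d29afd28389b10bd9c9979f8e65de89c8f530d659cabaa7fd175248a79b1b34ddd7f815b4d09359f61761a029f9f550d45d94b7d7fd17cf12e79b1facfe37f8dcd643158f618b4c01b09f51cd4b898a9f460d31ccb95838fd39eca1679b2923e22a47af6794cc0acd8af440d4 = true := by decide +kernel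

theorem cB18_13_3_10 : chunkOkM (LB18_13.ctx true true 275 65 32 19 16 1561 2639 77 49) muQ true true 64 RtB18_13.Cx.left.left RtB18_13.CX RtB18_13.Ctp.right.right.left.right.right RtB18_13.Ce.right.right.left.left.right RtB18_13.CTp.right.right RtB18_13.CEr.right 0x595ad48197fd137a52479b29a42987f811700009c9f619524e69a9f526713d998f460d11f5b7e79b5b54cecad9f518f9dd8d4daf430d36efdb247fdae22e966cf3f30e69b1b828afb29f61a0050df79f56c4300948f460dce9338279b732c1fad8f8180d57a509f630d6445385737fd182520d79b21874107f8b2ee91e289f51e7f33ad84af450d34 = true := by decide +kernel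

theorem cB18_13_3_11 : chunkOkM (LB18_13.ctx true true 104 1 1 1 1 1 1 1 1) muQ true true 64 RtB18_13.Cx.left.right RtB18_13.CX RtB18_13.Ctp.right.right.left.right.right RtB18_13.Ce.right.right.left.left RtB18_13.CTp.right.right RtB18_13.CEr.right 0x49 = true := by decide +kernel

theorem cB18_13_3_12 : chunkOkM (LB18_13.ctx true true 104 1 1 1 1 1 1 1 1) muQ true true 64 RtB18_13.Cx.left RtB18_13.CX RtB18_13.Ctp.right.right.left.right.right RtB18_13.Ce.right.right.left.right RtB18_13.CTp.right.right RtB18_13.CEr.right 0x59 = true := by decide +kernel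

theorem cB18_13_3_13 : chunkOkM (LB18_13.ctx true true 104 1 1 1 1 1 1 1 1) muQ true true 64 RtB18_13.Cx.right RtB18_13.CX RtB18_13.Ctp.right.right.left.right.right RtB18_13.Ce.right.right.left RtB18_13.CTp.right.right RtB18_13.CEr.right 0x49 = true := by decide +kernel

theorem cB18_13_3_14 : chunkOkM (LB18_13.ctx true true 104 1 1 1 1 1 1 1 1) muQ true true 64 RtB18_13.Cx RtB18_13.CX RtB18_13.Ctp.right.right.right.left RtB18_13.Ce.right.right.left.left.left RtB18_13.CTp.right.right RtB18_13.CEr.right 0x69 = true := by decide +kernel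

theorem cB18_13_3_15 : chunkOkM (LB18_13.ctx true true 271 67 32 19 16 805 2639 77 49) muQ true true 64 RtB18_13.Cx.left RtB18_13.CX RtB18_13.Ctp.right.right.right.left.left RtB18_13.Ce.right.right.left.left.right.left RtB18_13.CTp.right.right RtB18_13.CEr.right 0xd14e5597fdfce1c066c2864959bc2fc76358f6d54f4ca68f550d4b1a1f6789b1eac804ee9f820d66e624937f06c79b05d67fd105b42d76c92bae569b9d46f76b8f611f84b6319f550d10de62ad89b6851ddb18f81161497c99f630d682d05ed7fd12b6a2876c32ba3369bd0020cac8f61307070d59f550d31247e6689b13da048e19f820d6473 = true := by decide +kernel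

theorem cB18_13_3_16 : chunkOkM (LB18_13.ctx true true 276 67 32 19 16 1589 2691 77 49) muQ true true 64 RtB18_13.Cx.left RtB18_13.CX RtB18_13.Ctp.right.right.right.left.left.left RtB18_13.Ce.right.right.left.left.right.right RtB18_13.CTp.right.right RtB18_13.CEr.right 0x48e6e917fdf4f44d69b25950e37f886e653928f613d1b721d9f540b72f148f460d4934beb5ed7fddf798c69b1c71816f826fdf7eb49f61f8a775649f550db63c9ed7fd95797966cd3db459bf982cce48f616780b17e9f550d1fba532489bc54503608f811d2a69ed9f530d647 = true := by decide +kernel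

theorem cB18_13_3_17 : chunkOkM (LB18_13.ctx true true 272 67 32 19 16 805 2691 77 49) muQ true true 64 RtB18_13.Cx.left RtB18_13.CX RtB18_13.Ctp.right.right.right.left.left.right RtB18_13.Ce.right.right.left.left.right.right RtB18_13.CTp.right.right RtB18_13.CEr.right 0x388f5307fda283856caf4e2c69bf0fdcddc8f612f99ff1a9f550d9336bce7fd17a210176cacc6459b12f56dd3c9f612b961b7a9f550d26d2a5cb89bf65cf3d58f8b4cdced18f530d68abef9c7fd16eb51976c6d35c969beb05cef58f6da07ae568f550dc7ab64079ba6f169e68f820d647 = true := by decide +kernel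

theorem cB18_13_3_18 : chunkOkM (LB18_13.ctx true true 104 1 1 1 1 1 1 1 1) muQ true true 64 RtB18_13.Cx.right RtB18_13.CX RtB18_13.Ctp.right.right.right.left.left RtB18_13.Ce.right.right.left.left.right RtB18_13.CTp.right.right RtB18_13.CEr.right 0x49 = true := by decide +kernel

theorem cB18_13_3_19 : chunkOkM (LB18_13.ctx true true 263 33 16 19 16 819 1339 77 49) muQ true true 64 RtB18_13.Cx RtB18_13.CX RtB18_13.Ctp.right.right.right.left.right RtB18_13.Ce.right.right.left.left.right RtB18_13.CTp.right.right RtB18_13.CEr.right 0x1169a6c3d107fd17771fe76c1b8c1c69b87aad4758f6a91515b68f550d4c48fc8789b1f54af42d9f820d669437 = true := by decide +kernel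

theorem cB18_13_3_20 : chunkOkM (LB18_13.ctx true true 104 1 1 1 1 1 1 1 1) muQ true true 64 RtB18_13.Cx RtB18_13.CX RtB18_13.Ctp.right.right.right.right RtB18_13.Ce.right.right.left.left RtB18_13.CTp.right.right RtB18_13.CEr.right 0x11 = true := by decide +kernel

theorem cB18_13_3_21 : chunkOkM (LB18_13.ctx true true 284 135 64 19 16 1617 2769 77 49) muQ true true 64 RtB18_13.Cx RtB18_13.CX RtB18_13.Ctp.right.right.right.left.left RtB18_13.Ce.right.right.left.right.left RtB18_13.CTp.right.right RtB18_13.CEr.right 0x49593b56f567fd10165d679b3b462247f81a7b987889f61a7b89c349f518a953a38f460d59745975933b3d7827fd14f3ee66c80d2f969bf89fe2ba8f6164e2de629f550d3ff6e007fdef23ad69b2aac6d57f814cc5d74a9f61899104e89f54559a1f88f460d33b0c3987fd3fe74b66c926a3869b81fe50b88f6122fd35419f550d3db065f7fdc8c83e69b9db7c56f896ba98808f6149c5334f9f51d8ea0608f460d3459548a34f7fdd2cd6e66c86226c69bdb4776c28f61300ddbfb9f550d1e0e855389bbcbcceb18f81048f994f9f530d659747d64d2097fd6013f6d76c1e0db3d79b2711a53c8f81fd2fe15b9af618ebb36d68bbf5510aca3d997bf470d347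 = true := by decide +kernel

theorem cB18_13_3_22 : chunkOkM (LB18_13.ctx true true 272 65 32 19 16 819 2743 77 49) muQ true true 64 RtB18_13.Cx.left.left RtB18_13.CX RtB18_13.Ctp.right.right.right.left.right.left RtB18_13.Ce.right.right.left.right.left.left RtB18_13.CTp.right.right RtB18_13.CEr.right 0x94719677fd158cdd276c24273269b76c0fe298f6e24afb758f550d262bc01f89bf901afe78f820d6a6a33c77fd1f0828476c37443869b31418c07f8cc5994858f6b5d4c3538f560d2a1d6a5889b112220cd49f820d64 = true := by decide +kernel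

theorem cB18_13_3_23 : chunkOkM (LB18_13.ctx true true 276 65 32 19 16 833 2743 165 49) muQ true true 64 RtB18_13.Cx.left.left RtB18_13.CX RtB18_13.Ctp.right.right.right.left.right.right RtB18_13.Ce.right.right.left.right.left.left RtB18_13.CTp.right.right RtB18_13.CEr.right 0x71edb697fd373592476c10fd64df8f810c4323589f68a80065c8f550d626a66e7fd176be8e76c106534079b1056ecc899f67d546acf8f516fe9e178f260d544e401a7fd37e22eb76cf0f39247f8fef30b248f66f0675dc8f550d5b84fbb7fd18a110876cf793d869b143cc5cb39f678f177df8f550d543b40c2d489b187246a049f820d6 = true := by decide +kernel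

theorem cB18_13_3_24 : chunkOkM (LB18_13.ctx true true 272 67 32 19 16 819 2743 77 49) muQ true true 64 RtB18_13.Cx.left.right RtB18_13.CX RtB18_13.Ctp.right.right.right.left.right RtB18_13.Ce.right.right.left.right.left.left RtB18_13.CTp.right.right RtB18_13.CEr.right 0x6942c60807fddfcac666c4cddf869bd6939dc08f61071ea2b79f550df39f4de79bccf2d0688f820d64d0a4347fd2521b4076cee9ac169bbcbe0017f88bc804528f6d657c8988f560d43 = true := by decide +kernel

theorem cB18_13_3_25 : chunkOkM (LB18_13.ctx true true 295 263 128 19 16 3297 5525 77 49) muQ true true 64 RtB18_13.Cx.left.left RtB18_13.CX RtB18_13.Ctp.right.right.right.left.right RtB18_13.Ce.right.right.left.right.left.right RtB18_13.CTp.right.right RtB18_13.CEr.right 0x9f92ad97fd1e9c56976c33ee4047f8577625698f6cf99d39a8f550d975d2c77fd1ce647b76c263f83a7f8114d3b65d9f689fcaab38f550d69a2150df7fd1b2464c685c1b025147f86f41699209f640d2174693742c30051c89b11fab97a99f820d65959656377a7fd1c207c5585c24f8aff7f8dcafc11b8f6db5691718f550d11a9ba5029f05b6593597459359743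 = true := by decide +kernel

end Vale.Agent.helper4.Q4
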