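import Vale.Agent.helper4.Q4TreeM
import Vale.Agent.helper4.Q4G.PB18_13

/-!
Checks for pairs of intervals of second moments.
-/

set_option maxRecDepth 100000
set_option linter.unusedVariables false

namespace Vale.Agent.helper4.Q4

theorem cB18_13_3_26 : chunkOkM (LB18_13.ctx true true 272 67 32 19 16 833 2795 77 49) muQ true true 64 RtB18_13.Cx.left.right RtB18_13.CX RtB18_13.Ctp.right.right.right.left.right RtB18_13.Ce.right.right.left.right.left.right RtB18_13.CTp.right.right RtB18_13.CEr.right 0x49694807fd13d647f76c510b0869b794019d58f6c52acf178f550d1c24e1ce89bfdf118818f8291bdffab9f630d63185f747fd15c42aa76c6bd4d969b26bb82ce49f6cc25a9118f550d47c0448f89b1f0945e7c9f820d6467625ea7fd11dc0b176c1c6252b7f836bc186f7a0c330198f614927ef4e9f560d2bfceb7f89b1158c667c9f81130e92a39f530d64ba5df47fd11a0d7576c36a0bb69b38ca91608f6122cc63009f550d1197dd5989bbd5e9edb8f820d643 = true := by decide +kernel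

theorem cB18_13_3_27 : chunkOkM (LB18_13.ctx true true 272 69 32 19 16 1645 2795 77 21) muQ true true 64 RtB18_13.Cx.right RtB18_13.CX RtB18_13.Ctp.right.right.right.left.right RtB18_13.Ce.right.right.left.right.left RtB18_13.CTp.right.right RtB18_13.CEr.right 0x69495fe7736fd11979f66c11cc2ca79bc6a19a678f612d29a7879f550d1ce813d7fdfe6dab69b20570007f86f3871598f61484669d49f55622c66a8f460d37168be007fd1178abe79bdedff36f82e45758e8f6e7f1103e8f587a3d68e8f460d43694 = true := by decide +kernel

theorem cB18_13_3_28 : chunkOkM (LB18_13.ctx true true 246 17 8 19 16 399 715 77 21) muQ true true 64 RtB18_13.Cx RtB18_13.CX RtB18_13.Ctp.right.right.right.left.left RtB18_13.Ce.right.right.left.right.right RtB18_13.CTp.right.right RtB18_13.CEr.right 0x57ce9eb79b65c68df7f81b0279ba9faf558a3c2a8dfaf440d = true := by decide +kernel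

theorem cB18_13_3_29 : chunkOkM (LB18_13.ctx true true 269 67 32 19 16 833 1417 77 49) muQ true true 64 RtB18_13.Cx.left RtB18_13.CX RtB18_13.Ctp.right.right.right.left.right RtB18_13.Ce.right.right.left.right.right RtB18_13.CTp.right.right RtB18_13.CEr.right 0x5945181b57fd1ae6b3d76c2ad89e69b26ac6e77f88648a9058f6114d839b89f560d1839632089bd71210d28f860d7298189f6341e04fb8f140d62cbd65e7fd45373066c11120269b3b636965c9f61cff03e9e9f550d35974 = true := by decide +kernel

theorem cB18_13_3_30 : chunkOkM (LB18_13.ctx true true 272 69 32 19 16 833 2847 77 49) muQ true true 64 RtB18_13.Cx.right RtB18_13.CX RtB18_13.Ctp.right.right.right.left.right RtB18_13.Ce.right.right.left.right.right.left RtB18_13.CTp.right.right RtB18_13.CEr.right 0x692c1af6b7fd4c479466c8810e069b2aaeeae48f61180987799f550d4220de4889b1c102e54b9f820d62525e717fd3c8ced66c2a0ffb69baae8eecc8f6102a761999f550d474916ccf517fdb6002c66c4a306069b6a17eb458f6166fac3e89f5110319bdf9f460d31e6533189b13a4f55399f811e3ef5159f530d61e4bdcd7fd3d8a3066c8ee89d69b3befd5338f613c8465709f573b21f038f460d15723e5489baea411cb8f836814059e9f630d6473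 = true := by decide +kernel

theorem cB18_13_3_31 : chunkOkM (LB18_13.ctx true true 277 71 32 19 16 1673 2899 77 49) muQ true true 64 RtB18_13.Cx.right RtB18_13.CX RtB18_13.Ctp.right.right.right.left.right RtB18_13.Ce.right.right.left.right.right.right RtB18_13.CTp.right.right RtB18_13.CEr.right 0x517d056c690a8369b5af28a758f614a4ea87a9f56643a3568f450d1e2126ec89b11d9968919f833d321e7b9f6f42d3aec8f540d685373869b1b18e457f8693e8a6d79f6221791a8e9f5db6b50208f450d4493179a4647fd4bf5fc66c7f287669b778cf4f78f615d0229909f550d1a7030a589be5c044508f88ca1bc1409f6ff68ff038f540d671008db579b30fc1e67f822a134f4a9f614c84b4e93af5472f3b2dfbaf450d3 = true := by decide +kernel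

theorem cB18_13_3_32 : chunkOkM (LB18_13.ctx true true 283 131 64 19 16 847 2795 165 49) muQ true true 64 RtB18_13.Cx RtB18_13.CX RtB18_13.Ctp.right.right.right.right RtB18_13.Ce.right.right.left.right.left RtB18_13.CTp.right.right RtB18_13.CEr.right 0x111187a15b87fd24bcc3a76c578a3a37f819c9c0c2e9f68d5732118f550d0111f99fb76c33ddcf37f827451215b9f62a4a39918f52d451bc98f250d40750a97fd1b4a9c076cc2de5169bc01078498f67bd1fa9b8f5457862968f260d5217172a0cc7fd10b4bcf76c54c37a37f716c5423a99f6732747868f250d62072427fd1aa6e6676c7114ab69b97345df38f6c7d4d9f68f250d54374fccf607fd4fe1fb276ce4225db7f8e42b61df8f6115eceed1c2bf12ed03236bc4bf060d417dc566e89b1053e2ee49f820d673 = true := by decide +kernel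

theorem cB18_13_3_33 : chunkOkM (LB18_13.ctx true true 293 527 256 19 16 847 5629 77 49) muQ true true 64 RtB18_13.Cx.left.left RtB18_13.CX RtB18_13.Ctp.right.right.right.right.left RtB18_13.Ce.right.right.left.right.right.left RtB18_13.CTp.right.right RtB18_13.CEr.right 0x2121018b7391f7fd1ffb9fb785c4453e587f81a3555e719f66818c6e28f53f29ae2b8f260d2cb2c76369f06b6321742172174 = true := by decide +kernel

theorem cB18_13_3_34 : chunkOkM (LB18_13.ctx true true 287 135 64 19 16 1701 2847 165 49) muQ true true 64 RtB18_13.Cx.left.right RtB18_13.CX RtB18_13.Ctp.right.right.right.right.left RtB18_13.Ce.right.right.left.right.right.left RtB18_13.CTp.right.right RtB18_13.CEr.right 0x7b6a9ef7fd13b681876cc94e55f85abe39478f613a65002f9f2ab99a687f160d53089627fd124ec5376c67dc959b7ae654e38f6b355cb2f8f550d71288297fd1545d9a76c993b146f8126a04fac9f690e199e58f54fdba2288f260d9f1e0a77fd91652966c34bd4d69b144d4f9039f6aba6c9fc8f550d3747d329e7fd12a74e576c10e6fc69b15402ce289f6c68115838f550d1b007067fd364262b76cfb32ded7f8e6130b138f6957c89148f550d2c46fd37fd18ec2f876ce4efd869b6d14ee488f6a845eca08f550d574344b7bec789b1c38d00059f83108cecf8f530d6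 = true := by decide +kernel

theorem cB18_13_3_35 : chunkOkM (LB18_13.ctx true true 278 135 64 19 16 861 2899 77 49) muQ true true 64 RtB18_13.Cx.left RtB18_13.CX RtB18_13.Ctp.right.right.right.right.left RtB18_13.Ce.right.right.left.right.right.right RtB18_13.CTp.right.right RtB18_13.CEr.right 0x459cde97fdf449f366c2e66f369b1601a71869f698c52dc68f58687bdf68f260d4a9ad5f7fdf99f2866c27d6a469b105a9321b9f664b166218f54eff74348f260d45456beb7fd124051576c2ac7259b9dc102f58f6d967966c8f550d3438bbc1789b1ad1551bc9f8ed05733a8f530d6217217 = true := by decide +kernel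

theorem cB18_13_3_36 : chunkOkM (LB18_13.ctx true true 104 1 1 1 1 1 1 1 1) muQ true true 64 RtB18_13.Cx.left RtB18_13.CX RtB18_13.Ctp.right.right.right.right.right RtB18_13.Ce.right.right.left.right.right RtB18_13.CTp.right.right RtB18_13.CEr.right 0x01 = true := by decide +kernel

theorem cB18_13_3_37 : chunkOkM (LB18_13.ctx true true 259 35 16 19 16 427 1417 77 49) muQ true true 64 RtB18_13.Cx.right RtB18_13.CX RtB18_13.Ctp.right.right.right.right.left RtB18_13.Ce.right.right.left.right.right.left RtB18_13.CTp.right.right RtB18_13.CEr.right 0x335c4c57fde6f4a966cf819e59bdf143c328f6ce8f59d58f550d35b4d25a8f05b6 = true := by decide +kernel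

end Vale.Agent.helper4.Q4
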