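import Vale.Agent.helper4.Q4TreeM
import Vale.Agent.helper4.Q4G.PB18_13

/-!
Checks for pairs of intervals of second moments.
-/

set_option maxRecDepth 100000
set_option linter.unusedVariables false

namespace Vale.Agent.helper4.Q4

theorem cB18_13_3_38 : chunkOkM (LB18_13.ctx true true 273 71 32 19 16 861 2899 77 49) muQ true true 64 RtB18_13.Cx.right RtB18_13.CX RtB18_13.Ctp.right.right.right.right.left RtB18_13.Ce.right.right.left.right.right.right RtB18_13.CTp.right.right RtB18_13.CEr.right 0x9bfd0669bb1938c6f8ead99a798f610e8eaac09f540d3695ba67fdecd49266c1e4ec869bfa29a6d28f6988843408f550d588d3fbe89b2659462e39f815155cf7f6c0050d6f8f540d62dee0f87fdbf4acd66c16a31569b9e6e2e448f61093f62349f550d4283820c89b1ab996a049f858a1802a8f530d6356573a7fd973c7766c448fde69bba108bf58f6d12d2ed18f550d4ef9962189b21b63cee09f8842ad9d7f6f6df6a828f540d6437 = true := by decide +kernel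

theorem cB18_13_3_39 : chunkOkM (LB18_13.ctx true true 104 1 1 1 1 1 1 1 1) muQ true true 64 RtB18_13.Cx.right RtB18_13.CX RtB18_13.Ctp.right.right.right.right.right RtB18_13.Ce.right.right.left.right.right RtB18_13.CTp.right.right RtB18_13.CEr.right 0x11 = true := by decide +kernel

theorem cB18_13_3_40 : chunkOkM (LB18_13.ctx true true 104 1 1 1 1 1 1 1 1) muQ true true 64 RtB18_13.Cx RtB18_13.CX RtB18_13.Ctp.right.right.left RtB18_13.Ce.right.right.right RtB18_13.CTp.right.right RtB18_13.CEr.right 0x59 = true := by decide +kernel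

theorem cB18_13_3_41 : chunkOkM (LB18_13.ctx true true 104 1 1 1 1 1 1 1 1) muQ true true 64 RtB18_13.Cx.left RtB18_13.CX RtB18_13.Ctp.right.right.right RtB18_13.Ce.right.right.right.left RtB18_13.CTp.right.right RtB18_13.CEr.right 0x21 = true := by decide +kernel

theorem cB18_13_3_42 : chunkOkM (LB18_13.ctx true true 282 141 64 19 16 1673 2925 77 49) muQ true true 64 RtB18_13.Cx.right RtB18_13.CX RtB18_13.Ctp.right.right.right.left RtB18_13.Ce.right.right.right.left RtB18_13.CTp.right.right RtB18_13.CEr.right 0x595949591129b7c7fd396eb669b29e8ba6f827ddfff5c9f61c0b7bfad9f5fb6ac0868f460d17a68a5d89bf66cb68f8f8ddda947889f430d64749349359744934 = true := by decide +kernel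

theorem cB18_13_3_43 : chunkOkM (LB18_13.ctx true true 283 139 64 19 16 1729 2951 77 49) muQ true true 64 RtB18_13.Cx.right.left RtB18_13.CX RtB18_13.Ctp.right.right.right.right.left RtB18_13.Ce.right.right.right.left.left.left RtB18_13.CTp.right.right RtB18_13.CEr.right 0x1b7a2c37fdfb0a9366c230e0e69b13237fea89f6ec3f819d8f550d43041fd7fda4fd8466c1f475769bfd8eaebd8f6b3fc9c878f548dc2f408f260d718179527fde9ea5266c103b8369b15e35f90b9f6c5c8e4048f550d4132bdb7fdcfd28266c24d98669b90513da88f69bcd3c598f53883b9438f260d36809607fd1281e4576c86fea56f8147c3008a9f6ee91a7378f550d37433621747fd9c31a566c9d8c566f712245a8c29f613285d3bf9f550d31debdd4689b12afe19029f8674ab41879f65cd618f08f540d6 = true := by decide +kernel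

theorem cB18_13_3_44 : chunkOkM (LB18_13.ctx true true 279 143 64 19 16 861 2951 77 49) muQ true true 64 RtB18_13.Cx.right.right RtB18_13.CX RtB18_13.Ctp.right.right.right.right.left RtB18_13.Ce.right.right.right.left.left.left RtB18_13.CTp.right.right RtB18_13.CEr.right 0x1131bad7fd7fccde66c6bad0b69b1c46994da9f6124bff4659f550d5911f75c89b23df10fb79f81955004ca9f61e205eecd9f540d6a1e04c46dad7a69b86bdc5f8123fd41d59f61656d3d1e9f5627065f58f450d270a9d66c4b411069be476eb4f8f615eb0c8009f540d71e53c77d89bf9711ebc8f85b58673e59f630d61eb8fb6fd1bc9e966c88604069b7c9d6ce48f6139549a2a9f5128a7c3f8f460d2058ba0c89b1276dbba29f85f81686719f632d7c13a99f540d643 = true := by decide +kernel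

theorem cB18_13_3_45 : chunkOkM (LB18_13.ctx true true 279 143 64 19 16 861 3003 77 49) muQ true true 64 RtB18_13.Cx.right RtB18_13.CX RtB18_13.Ctp.right.right.right.right.left RtB18_13.Ce.right.right.right.left.left.right RtB18_13.CTp.right.right RtB18_13.CEr.right 0x46f42d66c7e28e469bfcec32db8f6140e6bfd59f540d19e4d467fd3f479766c6738ab69b85a835878f6114e420ac9f550d45918ed3d66c5e634769b1212236a79f6173292fbc9f568ab6d138f450d597431291f007fdf1e44c66c2f010169ba60541af8f610f5ab2749f550d72f4605ed89b1bf733efe9f8680790fc8f61481f264e9f5340f8589b9f250d6 = true := by decide +kernel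

theorem cB18_13_3_46 : chunkOkM (LB18_13.ctx true true 270 69 32 19 16 875 1469 77 49) muQ true true 64 RtB18_13.Cx.right RtB18_13.CX RtB18_13.Ctp.right.right.right.right.right RtB18_13.Ce.right.right.right.left.left.left RtB18_13.CTp.right.right RtB18_13.CEr.right 0x1111158ba2e7fd10ba20d76c4b6e4b69b80a4d7448f670eb8ffc8f597f6d78a8f260d73688c657c89b2d847d47d9f814d490ae69f230d6 = true := by decide +kernel

theorem cB18_13_3_47 : chunkOkM (LB18_13.ctx true true 283 143 64 19 16 1757 3003 77 49) muQ true true 64 RtB18_13.Cx.right RtB18_13.CX RtB18_13.Ctp.right.right.right.right.right RtB18_13.Ce.right.right.right.left.left.right RtB18_13.CTp.right.right RtB18_13.CEr.right 0x1085da7a89f00b9430fa66c2247bf69b27fb82fe39f6d56fa4de8f540de3833966c75dba069b13dc0bc4a9f6a4502d7d8f53ff88cf18f250d1df36747fdb3c2d866c30442869b8642f82c8f6d9bc35c48f550d37128c8a77fdaa040366c457add69b174ae65929f6be001f5a8f550d4321010128216c67fdd091c466c254e4c69bd59a6bf28f6c50409be8f53846f7198f260d332174731179a6389b15638521d9f82ab0af20a9f6914d45288f140d6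 = true := by decide +kernel

theorem cB18_13_3_48 : chunkOkM (LB18_13.ctx true true 104 1 1 1 1 1 1 1 1) muQ true true 64 RtB18_13.Cx.right.left RtB18_13.CX RtB18_13.Ctp.right.right.right.right RtB18_13.Ce.right.right.right.left.right RtB18_13.CTp.right.right RtB18_13.CEr.right 0x21 = true := by decide +kernel

theorem cB18_13_3_49 : chunkOkM (LB18_13.ctx true true 292 287 128 19 16 1729 6045 77 49) muQ true true 64 RtB18_13.Cx.right.right RtB18_13.CX RtB18_13.Ctp.right.right.right.right.left RtB18_13.Ce.right.right.right.left.right RtB18_13.CTp.right.right RtB18_13.CEr.right 0x5959594e7e4566c77d5d469bcab668c68f6124a584419f540d130835ff39f05b6597459359745934 = true := by decide +kernel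

theorem cB18_13_3_50 : chunkOkM (LB18_13.ctx true true 283 143 64 19 16 1771 3055 77 49) muQ true true 64 RtB18_13.Cx.right.right RtB18_13.CX RtB18_13.Ctp.right.right.right.right.right RtB18_13.Ce.right.right.right.left.right RtB18_13.CTp.right.right RtB18_13.CEr.right 0x754cde66c61bf7169b13e75a2509f6d543c7b88f5a41643568f250d59301b0950566c4ae1c869bad4389658f6cee449ed8f5390545888f250d32feb9957fd4796ac69b13ffed5ae9f615f1db7879f240d401787b8d866c65abc569b11f32913b9f6104df57709f540d2178ee42066c6243ea69bf35ca05e8f6ee15bdb38f540d11585a6fddb31ee66c5ba3d869b141615c0f9f6cdd5b8c78f534ea24c88f260d743467661d6d89b275c05f149f8164a6400a9f530d6 = true := by decide +kernel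

theorem cB18_13_3_51 : chunkOkM (LB18_13.ctx true true 104 1 1 1 1 1 1 1 1) muQ true true 64 RtB18_13.Cx RtB18_13.CX RtB18_13.Ctp.right.right.right RtB18_13.Ce.right.right.right.right RtB18_13.CTp.right.right RtB18_13.CEr.right 0x21 = true := by decide +kernel

theorem cB18_13_2_0 : chunkOkM (LB18_13.ctx false true 104 1 1 1 1 1 1 1 1) muQ false true 64 RtB18_13.Cx RtB18_13.CX RtB18_13.Ctn RtB18_13.Ce RtB18_13.CTp RtB18_13.CEr 0x49 = true := by decide +kernel

theorem cB18_13_1_0 : chunkOkM (LB18_13.ctx true false 104 1 1 1 1 1 1 1 1) muQ true false 64 RtB18_13.Cx RtB18_13.CX RtB18_13.Ctp RtB18_13.Ce RtB18_13.CTn RtB18_13.CEr 0x4a = true := by decide +kernel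

theorem cB18_13_0_0 : chunkOkM (LB18_13.ctx false false 104 1 1 1 1 1 1 1 1) muQ false false 64 RtB18_13.Cx RtB18_13.CX RtB18_13.Ctn RtB18_13.Ce RtB18_13.CTn RtB18_13.CEr 0x49 = true := by decide +kernel

end Vale.Agent.helper4.Q4
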