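import Vale.Agent.helper4.Q4TreeM
import Vale.Agent.helper4.Q4G.PB18_13_0
import Vale.Agent.helper4.Q4G.PB18_13_1
import Vale.Agent.helper4.Q4G.PB18_13_2

/-!
Checks for pairs of intervals of second moments.
-/

set_option maxRecDepth 100000
set_option linter.unusedVariables false

namespace Vale.Agent.helper4.Q4

theorem covB18_13 : LB18_13.Full muQ.val RtB18_13 := ⟨(LitT.Cov.split_t (LitT.cov_of_chunkM cB18_13_3_0) (LitT.Cov.split_T (LitT.cov_of_chunkM cB18_13_3_1) (LitT.Cov.split_E (LitT.cov_of_chunkM cB18_13_3_2) (LitT.Cov.split_T (LitT.cov_of_chunkM cB18_13_3_3) (LitT.Cov.split_t (LitT.cov_of_chunkM cB18_13_3_4) (LitT.Cov.split_e (LitT.cov_of_chunkM cB18_13_3_5) (LitT.Cov.split_e (LitT.cov_of_chunkM cB18_13_3_6) (LitT.Cov.split_e (LitT.Cov.split_t (LitT.Cov.split_t (LitT.cov_of_chunkM cB18_13_3_7) (LitT.Cov.split_t (LitT.cov_of_chunkM cB18_13_3_8) (LitT.Cov.split_x (LitT.Cov.split_e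 (LitT.Cov.split_x (LitT.Cov.split_e (LitT.cov_of_chunkM cB18_13_3_9) (LitT.cov_of_chunkM cB18_13_3_10)) (LitT.cov_of_chunkM cB18_13_3_11)) (LitT.cov_of_chunkM cB18_13_3_12)) (LitT.cov_of_chunkM cB18_13_3_13)))) (LitT.Cov.split_e (LitT.Cov.split_t (LitT.Cov.split_e (LitT.cov_of_chunkM cB18_13_3_14) (LitT.Cov.split_t (LitT.Cov.split_x (LitT.Cov.split_e (LitT.cov_of_chunkM cB18_13_3_15) (LitT.Cov.split_t (LitT.cov_of_chunkM cB18_13_3_16) (LitT.cov_of_chunkM cB18_13_3_17))) (LitT.cov_of_chunkM cB18_13_3_18)) (LitT.cov_of_chunkM cB18_13_3_19))) (LitT.cov_of_chunkM cB18_13_3_20)) (LitT.Cov.split_t (LitT.Cov.split_e (LitT.Cov.split_t (LitT.cov_of_chunkM cB18_13_3_21) (LitT.Cov.split_x (LitT.Cov.split_e (LitT.Cov.split_x (LitT.Cov.split_t (LitT.cov_of_chunkM cB18_13_3_22) (LitT.cov_of_chunkM cB18_13_3_23)) (LitT.cov_of_chunkM cB18_13_3_24)) (LitT.Cov.split_x (LitT.cov_of_chunkM cB18_13_3_25)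 (LitT.cov_of_chunkM cB18_13_3_26))) (LitT.cov_of_chunkM cB18_13_3_27))) (LitT.Cov.split_t (LitT.cov_of_chunkM cB18_13_3_28) (LitT.Cov.split_x (LitT.cov_of_chunkM cB18_13_3_29) (LitT.Cov.split_e (LitT.cov_of_chunkM cB18_13_3_30) (LitT.cov_of_chunkM cB18_13_3_31))))) (LitT.Cov.split_e (LitT.cov_of_chunkM cB18_13_3_32) (LitT.Cov.split_x (LitT.Cov.split_t (LitT.Cov.split_e (LitT.Cov.split_x (LitT.cov_of_chunkM cB18_13_3_33) (LitT.cov_of_chunkM cB18_13_3_34)) (LitT.cov_of_chunkM cB18_13_3_35)) (LitT.cov_of_chunkM cB18_13_3_36)) (LitT.Cov.split_t (LitT.Cov.split_e (LitT.cov_of_chunkM cB18_13_3_37) (LitT.cov_of_chunkM cB18_13_3_38)) (LitT.cov_of_chunkM cB18_13_3_39))))))) (LitT.Cov.split_t (LitT.cov_of_chunkM cB18_13_3_40) (LitT.Cov.split_e (LitT.Cov.split_x (LitT.cov_of_chunkM cB18_13_3_41) (LitT.Cov.split_t (LitT.cov_of_chunkM cB18_13_3_42) (LitT.Cov.split_e (LitT.Cov.split_t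 (LitT.Cov.split_e (LitT.Cov.split_x (LitT.cov_of_chunkM cB18_13_3_43) (LitT.cov_of_chunkM cB18_13_3_44)) (LitT.cov_of_chunkM cB18_13_3_45)) (LitT.Cov.split_e (LitT.cov_of_chunkM cB18_13_3_46) (LitT.cov_of_chunkM cB18_13_3_47))) (LitT.Cov.split_x (LitT.cov_of_chunkM cB18_13_3_48) (LitT.Cov.split_t (LitT.cov_of_chunkM cB18_13_3_49) (LitT.cov_of_chunkM cB18_13_3_50)))))) (LitT.cov_of_chunkM cB18_13_3_51))))))))))), (LitT.cov_of_chunkM cB18_13_1_0), (LitT.cov_of_chunkM cB18_13_2_0), (LitT.cov_of_chunkM cB18_13_0_0)⟩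

end Vale.Agent.helper4.Q4
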