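import Vale.Agent.helper4.Q4TreeM
import Vale.Agent.helper4.Q4G.PB18_14

/-!
Checks for pairs of intervals of second moments.
-/

set_option maxRecDepth 100000
set_option linter.unusedVariables false

namespace Vale.Agent.helper4.Q4

theorem cB18_14_3_47 : chunkOkM (LB18_14.ctx true true 249 143 64 41 32 1701 3003 165 110) muQ true true 64 RtB18_14.Cx.right RtB18_14.CX.left RtB18_14.Ctp.right.right.right.right.left RtB18_14.Ce.right.right.right.left.left RtB18_14.CTp.right.right.left.right.right RtB18_14.CEr.right.right.left.right 0x64eb79071c12fba9e74b1360ee4b8b61214a0b98b540d451d6d371c2a8febc74bbfca1837b6cfe74c97b540d666c4cbf71c18ca15574b11c886438b6f130c4f7b540d7560532f71c1ebee0d74b120baa8d8b6d4c61797b540d610f11f71c187d96d74bc00a57c7b6d8b9dc77b540d74594f90a6771c1eadf0a74bb9f3796c611248c7c8b51bec156c450d528da4b71c6c7b254c8b51758913d8c430d3597436e0c67571c144661b74b95a95277b6e2931947b540d762540e671c26a1f7374baa246957b6b7dc9f27b540d58d1bed71c2d3b04574b22580eb7b6d7b79c07b540d4c119b171c198fac774b2776296c6104dde4d8b59714fa6c450d353f5ec871c18927c674b15cce87d8b612cc75088b540d74f981af71c1ec08d774b16f18ec78b6ff8b0457b5adfb6e6c450d510770271c202809c74bfd2356a7b6fd320e87b540d7437679e3471c4d299964b5683f207b6cdea7c77b540d6fff4c271c13ba1ad74b5d7aabd7b6e5857fa7b540d67fd3cd771cd98a8264b9e8b2207b6998d84f7b540d506505371c1314f6074b58b935a7b695457b17b540d64592197971c16a78fa74bcbde3337b6f0465f27b540d374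 = true := by decide +kernel

theorem cB18_14_3_48 : chunkOkM (LB18_14.ctx true true 240 71 32 41 32 889 3003 165 110) muQ true true 64 RtB18_14.Cx.right RtB18_14.CX.left RtB18_14.Ctp.right.right.right.right.right RtB18_14.Ce.right.right.right.left.left RtB18_14.CTp.right.right.left.right.right RtB18_14.CEr.right.right.left.right 0x896515071c26c8ea674b1ed3e9608b16c4d53828b040d7ff622f71cb111bf64b696b9807b6b6430f77b540d53e101371c17300ed74bb6157317b697593557b540d66cf46f471c1eaf18474b1204232f8b678fb77d7b540d436d7524971c189e6dc74b778daf07b683b8bed7b5755bb3b7b250d7728e35371c18317265bdcb9716b64afe6bf7b58d6ac107b250d4 = true := by decide +kernel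

theorem cB18_14_3_49 : chunkOkM (LB18_14.ctx true true 83 1 1 1 1 1 1 1 1) muQ true true 64 RtB18_14.Cx.right RtB18_14.CX.left RtB18_14.Ctp.right.right.right.right RtB18_14.Ce.right.right.right.left.left RtB18_14.CTp.right.right.left.right.right RtB18_14.CEr.right.right.right 0x22 = true := by decide +kernel

theorem cB18_14_3_50 : chunkOkM (LB18_14.ctx true true 83 1 1 1 1 1 1 1 1) muQ true true 64 RtB18_14.Cx.right RtB18_14.CX.right RtB18_14.Ctp.right.right.right.right RtB18_14.Ce.right.right.right.left.left RtB18_14.CTp.right.right.left.right.right RtB18_14.CEr.right.right 0x4a = true := by decide +kernel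

theorem cB18_14_3_51 : chunkOkM (LB18_14.ctx true true 83 1 1 1 1 1 1 1 1) muQ true true 64 RtB18_14.Cx.right RtB18_14.CX RtB18_14.Ctp.right.right.right.right RtB18_14.Ce.right.right.right.left.left RtB18_14.CTp.right.right.right.left.left RtB18_14.CEr.right.right.left.left 0x12 = true := by decide +kernel

theorem cB18_14_3_52 : chunkOkM (LB18_14.ctx true true 83 1 1 1 1 1 1 1 1) muQ true true 64 RtB18_14.Cx.right RtB18_14.CX RtB18_14.Ctp.right.right.right.right RtB18_14.Ce.right.right.right.left.left RtB18_14.CTp.right.right.right.left.left RtB18_14.CEr.right.right.left.right.left 0x12 = true := by decide +kernel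

theorem cB18_14_3_53 : chunkOkM (LB18_14.ctx true true 245 143 64 21 16 1729 2951 171 110) muQ true true 64 RtB18_14.Cx.right RtB18_14.CX RtB18_14.Ctp.right.right.right.right.left RtB18_14.Ce.right.right.right.left.left.left RtB18_14.CTp.right.right.right.left.left RtB18_14.CEr.right.right.left.right.right 0x3201fdf71cae13766b9c4d5bdf7b6adc73747b540d2953ba371c1cb53607b6d5ee3a97b530d1a9191771c176b0497b9a43a316c611af563b8b5d77a826c450d31b177b071c1824ef07b9ad70866c6f43eb7c7b540d24a60dd71cd9146f6b92a5883e28b61871bc968b540d372279d8871c8632ab87b6e0cd16d7b5289fbd6c440d379db317b9c7bfd5c7b6e54ad817b530d285a9a771c81f8786c6f8b53f37b530d3743542a1327b965758c6c6c4cbcaf7b530d4b672767b9aa55f917b6da25e2e7b530d31c4fb3571c405297d7b91b3b275f8b6a5d92db7b540d732e76c771c15efd327b9148de0af8b68f05f4a7b540d549f83c7b9522ed76c6861bcc77b540eeb46c240d4de7f737b9236fdb408b6a490e267b530d3744d37d861c39a41427b9c0057087b6fe984bd7b540d37 = true := by decide +kernel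

theorem cB18_14_3_54 : chunkOkM (LB18_14.ctx true true 257 287 128 21 16 3409 6019 171 110) muQ true true 64 RtB18_14.Cx.right RtB18_14.CX RtB18_14.Ctp.right.right.right.right.left RtB18_14.Ce.right.right.right.left.left.right RtB18_14.CTp.right.right.right.left.left RtB18_14.CEr.right.right.left.right.right 0x3978f2471c1ea42e6b9679b2c6c6d0e87b57b540d3a42dd671c381e93be8b617210e4b8b530d318ffd271c1ef99a6b913765fa7c610be66898b540d433fdc6b271cfada446b9117bf2588b61043c4808b540d741e9d987b9cba682c7b6be90cd57b530d327174e71c4de95c6c6d8e77007b530d31c0fc4671c30c4d567b97244ad6c6d59aac87b540d3e041767b9fdca4d77b6f7f9cb97b530d37458e0ef77b9119c28768b6f1655867b530d7592cae56371c166ebec7c612bb28a98b511ed25c440d2ca88937b97f9ab52f8b51be827e58c430d35972f37afe71c2258bd64baa24656c6fe46aa27b540d24c641371cac6e126b92894b2e7c6166707748b58a2fd96c450d3150c39071c19a8a927b9141879c7c61208bdd98b540d742223e267b96b6e197f8b5174004e18c430d359745973 = true := by decide +kernel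

theorem cB18_14_3_55 : chunkOkM (LB18_14.ctx true true 245 143 64 21 16 1757 3003 171 110) muQ true true 64 RtB18_14.Cx.right RtB18_14.CX RtB18_14.Ctp.right.right.right.right.right RtB18_14.Ce.right.right.right.left.left RtB18_14.CTp.right.right.right.left.left RtB18_14.CEr.right.right.left.right.right 0xc103f00b39999fd71c121e0f27b9c935d247b6aed459c7b540d4ad112b71c12e9e5e7b915282f6c696df2947b533e9c26c250d52b3b9f7b98face16c6d1d43207b530d371b22da171c37086a17b97e3afc67b68d53c7b7b540d43264e4a671c2e2e99e7b9734b9687b6876733c7b57ea342e7b250d757d1e977b910ed2f77b64eb17617b59e094d27b240d4 = true := by decide +kernel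

theorem cB18_14_3_56 : chunkOkM (LB18_14.ctx true true 241 139 64 21 16 861 2951 171 118) muQ true true 64 RtB18_14.Cx.right.left RtB18_14.CX RtB18_14.Ctp.right.right.right.right.left RtB18_14.Ce.right.right.right.left.left.left RtB18_14.CTp.right.right.right.left.left RtB18_14.CEr.right.right.right.left 0x7fc6f4971c1170c317b9618f5437b6e2e1cce7b540d6a4636471c4f95a36b9143f30018b6e5a89b77b540d776024471c101459288b6d1cf2a57b530d7673bcdf071c113bce97b986eee957b6cdc87007b540d69aeab071c134e3da68b6bd8de577b530d7a9a44e71c3c8185b912baf8188b6bbcd92e7b540d76459595544e71c17b05fb7b913f3a3388b610a47c8e8b540d5ce186071c49912d64bef665b97b6106f210e8b540d66af0f3f71c5a126a64b1247e1058b6cd2f3cf7b540d743 = true := by decide +kernel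

theorem cB18_14_3_57 : chunkOkM (LB18_14.ctx true true 281 1137 512 43 32 6755 23491 171 118) muQ true true 64 RtB18_14.Cx.right.right RtB18_14.CX RtB18_14.Ctp.right.right.right.right.left.left RtB18_14.Ce.right.right.right.left.left.left RtB18_14.CTp.right.right.right.left.left RtB18_14.CEr.right.right.right.left 0x582666c71c15ea3847b964575d57b610e5e60d8b540d42d474571c35f5ff074b6bbb6167b6f8148db7b55452dc6c450d2284eb1f1371c10f3d0474be8283607b6dfeaa337b540d46496aa8fa371cf4ffd264be5a5a867b530d4e6596471c11f0f0474b6af48f6c610e04af78b592bd6d6c450d4f6697e71cd0aca564bda0bc96c611d353ad8b58e71396c450d4674933584610171c11106717b94738076c6e84fd597b540d5fb10cb71c150816f74b2aaa4557c616b74a6b8b540d55cba4571cc10aa564b164e4797c610e2b2f18b540d46595961143f171c6083254b42485277c61ddef3128b540d541642071c1525ef074b23a08d27c6159ae4218b540d65974593597437696949496961705c4de0df071c167b1f774bb4e5e527c628536587c563e2396c450d677769469434933694707da6b71c891105b9c31c19c7b613762d918b540d5698ea471c9cfe1364ba34d8607b6dfcdeb17b540d349b54c71c20bcdb374b77c3e66c6f43fe447b54edd15c450d228583529c71c126d5f374b293fafc7c6168c3d888b540d73aa04c171c321ddcb74b9d5e3c6c6f0698487b540d22843674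 = true := by decide +kernel

theorem cB18_14_3_58 : chunkOkM (LB18_14.ctx true true 245 143 64 43 32 861 2951 171 118) muQ true true 64 RtB18_14.Cx.right.right RtB18_14.CX RtB18_14.Ctp.right.right.right.right.left.right RtB18_14.Ce.right.right.right.left.left.left RtB18_14.CTp.right.right.right.left.left RtB18_14.CEr.right.right.right.left 0x6917a5871c20826347b97ae85147b6eac5a267b540d51705c4d8037471cca889b77b6bc910e77b530d228750a3f02c46 = true := by decide +kernel

theorem cB18_14_3_59 : chunkOkM (LB18_14.ctx true true 227 69 32 21 16 427 1495 171 58) muQ true true 64 RtB18_14.Cx.right.left RtB18_14.CX RtB18_14.Ctp.right.right.right.right.left RtB18_14.Ce.right.right.right.left.left.right RtB18_14.CTp.right.right.right.left.left RtB18_14.CEr.right.right.right.left 0x76a3d4771c2a453564be9b0d197b6e96b21a7b540d = true := by decide +kernel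

theorem cB18_14_3_60 : chunkOkM (LB18_14.ctx true true 261 287 128 43 32 3409 5967 171 118) muQ true true 64 RtB18_14.Cx.right.right RtB18_14.CX RtB18_14.Ctp.right.right.right.right.left.left RtB18_14.Ce.right.right.right.left.left.right RtB18_14.CTp.right.right.right.left.left RtB18_14.CEr.right.right.right.left 0x596c4c45071c92410a64ba530986c6129bf8058b540d3c1c0d871c26d5b6374b24e0b377c615d327a48b540d2283bc61887b99bd7e5eb8b523ae8fab8c430d35973b83f9e71c217a1ab74b28575167c611f871d58b55894366c450d228528793d71cf4140f64b13598047c611b874ea8b540d503a00671c1159a9f74b46738df7c61aa08afa8b540d3746409c7f774b66856427b985bb2bc08b51dc5d99d8c440d35974 = true := by decide +kernel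

theorem cB18_14_3_61 : chunkOkM (LB18_14.ctx true true 257 287 128 43 32 1729 6019 171 118) muQ true true 64 RtB18_14.Cx.right.right RtB18_14.CX RtB18_14.Ctp.right.right.right.right.left.right RtB18_14.Ce.right.right.right.left.left.right RtB18_14.CTp.right.right.right.left.left RtB18_14.CEr.right.right.right.left 0x583dfc471c12174147b9131fd5ae8b61120037f8b540d500726c71c11d786c7c6108723698b530d2285feec6271cc79f0664b5d9af86c6cfeb4957b540d45972ea671ceb364064bfe18e617b6134dab028b540d3a672d171c1de6fd674b91b1a96c6e3bfe4a7b540d2285d2f6d671cf39bc064b259698a7c612a7a39f8b540d74366ca673771c67a0da64b147ef17d8b6e8a7b007b540d75a9db2871c238467b7b99c67e637b6fa83de27b540d60a405171cad943f64b678b46c7b6ca1b5f27b540d425fc8871c3202f0e74b7d14f86c6e6d91127b540d228578bc5071ccf74bb64b651af3b7b6d6d1e447b540d436773bc871c104aff57c6ea83ebc7b530d64a9aa671cc3b27564b6ce78597b6f4058bd7b540d3764 = true := by decide +kernel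

theorem cB18_14_3_62 : chunkOkM (LB18_14.ctx true true 249 143 64 43 32 1743 3003 171 118) muQ true true 64 RtB18_14.Cx.right RtB18_14.CX RtB18_14.Ctp.right.right.right.right.right RtB18_14.Ce.right.right.right.left.left RtB18_14.CTp.right.right.right.left.left RtB18_14.CEr.right.right.right.left 0x69af31d71c4b2454c7b960f56117b6c724e4b7b540d7c2605c6567ebd71c737fc464bf966c197b6a3ccac07b540d63efa0971c6fb7816c6d042f137b530d228736d278c971c5a7b0764be3f46237b67b64a957b540d4621010174b602771cb856b26b9c23a8367b6d2e37d47b540d33421776f79e2771c1a17d46b91914d337b6320f2557b5a695fff7b250d4 = true := by decide +kernel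

theorem cB18_14_3_63 : chunkOkM (LB18_14.ctx true true 83 1 1 1 1 1 1 1 1) muQ true true 64 RtB18_14.Cx.right RtB18_14.CX RtB18_14.Ctp.right.right.right.right RtB18_14.Ce.right.right.right.left.left RtB18_14.CTp.right.right.right.left.left RtB18_14.CEr.right.right.right.right 0x22 = true := by decide +kernel

theorem cB18_14_3_64 : chunkOkM (LB18_14.ctx true true 83 1 1 1 1 1 1 1 1) muQ true true 64 RtB18_14.Cx.right RtB18_14.CX RtB18_14.Ctp.right.right.right.right RtB18_14.Ce.right.right.right.left.left RtB18_14.CTp.right.right.right.left.right RtB18_14.CEr.right.right 0x02 = true := by decide +kernel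

theorem cB18_14_3_65 : chunkOkM (LB18_14.ctx true true 83 1 1 1 1 1 1 1 1) muQ true true 64 RtB18_14.Cx.right RtB18_14.CX RtB18_14.Ctp.right.right.right.right RtB18_14.Ce.right.right.right.left.left RtB18_14.CTp.right.right.right.right RtB18_14.CEr.right.right 0x02 = true := by decide +kernel

theorem cB18_14_3_66 : chunkOkM (LB18_14.ctx true true 83 1 1 1 1 1 1 1 1) muQ true true 64 RtB18_14.Cx.right.left RtB18_14.CX RtB18_14.Ctp.right.right.right.right RtB18_14.Ce.right.right.right.left.right RtB18_14.CTp.right.right RtB18_14.CEr.right.right 0x21 = true := by decide +kernel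

theorem cB18_14_3_67 : chunkOkM (LB18_14.ctx true true 240 71 32 41 32 889 3055 165 110) muQ true true 64 RtB18_14.Cx.right.right RtB18_14.CX RtB18_14.Ctp.right.right.right.right RtB18_14.Ce.right.right.right.left.right RtB18_14.CTp.right.right.left RtB18_14.CEr.right.right 0x4a22739078271c1bfbe0374b7c7648b7b69c74f777b56bbc6397b250d5936e845ec71c1a5e44b74b1c6bbd67b67a0f9dd7b56b1e6b77b250d7045d2c71c120845f74b144651b38b6dfe945d7b540d846631671ccddd3387b6e0f73367b530d5c97c6271c22e00e174b16b500c7b6c27b4ce7b540d643462b8a0e71c188f3965b9d4471d7b61145d4228b540d31264a54a568 = true := by decide +kernel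

theorem cB18_14_3_68 : chunkOkM (LB18_14.ctx true true 245 143 64 21 16 1757 3055 171 110) muQ true true 64 RtB18_14.Cx.right.right RtB18_14.CX RtB18_14.Ctp.right.right.right.right RtB18_14.Ce.right.right.right.left.right RtB18_14.CTp.right.right.right.left.left RtB18_14.CEr.right.right.left 0x4d0d64071ca4d3276b9b558b317b6a3469017b568c281e7b250d5935439c1671c2b76296b948e6dc67b6885e1607b5571bb807b250d20a58d671c34fb8d47b97b82a7c7b6e4a8ea37b540d144869b71c35046107b93d0beec38b6dccdb907b540d321733ef10b71c200e5bd7b9e0bb2b6c6b46d0797b540d37dc5c771c10922507b9b36b526c6d6364487b540d3e2e48361c4cc2aee7b91467ccee8b6c648ef57b58d15356b250d743431191df71ce45e6d6b9131693c28b611e0edfb8b540d3126126 = true := by decide +kernel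

theorem cB18_14_3_69 : chunkOkM (LB18_14.ctx true true 267 1151 512 21 16 1771 12285 171 118) muQ true true 64 RtB18_14.Cx.right.right RtB18_14.CX RtB18_14.Ctp.right.right.right.right RtB18_14.Ce.right.right.right.left.right RtB18_14.CTp.right.right.right.left.left RtB18_14.CEr.right.right.right 0x22212121017ab5b6671c274a1c64b54cee7d7c693c4a9b7b540d3217421721740174593018e4ef2b71c401d2864b127118048b6795f3c87b540d6d8bb4f71c77f8ab64b523a3ce7b682918e57b550305707b250d630176e17e4f71c18ca2537b9aa997327b6e41fa057b540d6f8f24871c454d5164b7fdaaea7b6dd135d57b540d68f4fe171ca2ec0964b36d35d57b6f91e17b7b540d362177f78f4171cc873ce6b96320f667b6e37e8727b540d704110271c5f1cf364b8326436c6b7268847b540d6b472a471ca8aa5064b101f34998b6105e67e18b540d670b50071c86872464b8bdb676c6d5ddd847b540d437900bc771cfa78f727b6d7c7de17b530d764345959597084b9071c87b6754b18158b17c6107888858b540d6027ce271ca0bc8964b298cccd7c613e0f0988b540d659745935974593436 = true := by decide +kernel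

theorem cB18_14_3_70 : chunkOkM (LB18_14.ctx true true 83 1 1 1 1 1 1 1 1) muQ true true 64 RtB18_14.Cx.right.right RtB18_14.CX RtB18_14.Ctp.right.right.right.right RtB18_14.Ce.right.right.right.left.right RtB18_14.CTp.right.right.right.left.right RtB18_14.CEr.right.right 0x02 = true := by decide +kernel

theorem cB18_14_3_71 : chunkOkM (LB18_14.ctx true true 83 1 1 1 1 1 1 1 1) muQ true true 64 RtB18_14.Cx.right.right RtB18_14.CX RtB18_14.Ctp.right.right.right.right RtB18_14.Ce.right.right.right.left.right RtB18_14.CTp.right.right.right.right RtB18_14.CEr.right.right 0x02 = true := by decide +kernel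

theorem cB18_14_3_72 : chunkOkM (LB18_14.ctx true true 83 1 1 1 1 1 1 1 1) muQ true true 64 RtB18_14.Cx RtB18_14.CX RtB18_14.Ctp.right.right.right RtB18_14.Ce.right.right.right.right RtB18_14.CTp.right.right RtB18_14.CEr.right 0x21 = true := by decide +kernel

theorem cB18_14_2_0 : chunkOkM (LB18_14.ctx false true 83 1 1 1 1 1 1 1 1) muQ false true 64 RtB18_14.Cx RtB18_14.CX RtB18_14.Ctn RtB18_14.Ce RtB18_14.CTp RtB18_14.CEr 0x49 = true := by decide +kernel

theorem cB18_14_1_0 : chunkOkM (LB18_14.ctx true false 83 1 1 1 1 1 1 1 1) muQ true false 64 RtB18_14.Cx RtB18_14.CX RtB18_14.Ctp RtB18_14.Ce RtB18_14.CTn RtB18_14.CEr 0x4a = true := by decide +kernel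

theorem cB18_14_0_0 : chunkOkM (LB18_14.ctx false false 83 1 1 1 1 1 1 1 1) muQ false false 64 RtB18_14.Cx RtB18_14.CX RtB18_14.Ctn RtB18_14.Ce RtB18_14.CTn RtB18_14.CEr 0x49 = true := by decide +kernel

end Vale.Agent.helper4.Q4
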