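import Vale.Agent.helper4.Q4TreeM
import Vale.Agent.helper4.Q4G.PB18_14_0
import Vale.Agent.helper4.Q4G.PB18_14_1

/-!
Checks for pairs of intervals of second moments.
-/

set_option maxRecDepth 100000
set_option linter.unusedVariables false

namespace Vale.Agent.helper4.Q4

theorem covB18_14 : LB18_14.Full muQ.val RtB18_14 := ⟨(LitT.Cov.split_t (LitT.cov_of_chunkM cB18_14_3_0) (LitT.Cov.split_T (LitT.cov_of_chunkM cB18_14_3_1) (LitT.Cov.split_E (LitT.cov_of_chunkM cB18_14_3_2) (LitT.Cov.split_T (LitT.cov_of_chunkM cB18_14_3_3) (LitT.Cov.split_t (LitT.cov_of_chunkM cB18_14_3_4) (LitT.Cov.split_e (LitT.cov_of_chunkM cB18_14_3_5) (LitT.Cov.split_e (LitT.cov_of_chunkM cB18_14_3_6) (LitT.Cov.split_e (LitT.Cov.split_t (LitT.cov_of_chunkM cB18_14_3_7) (LitT.Cov.split_e (LitT.Cov.split_t (LitT.Cov.split_e (LitT.cov_of_chunkM cB18_14_3_8) (LitT.Cov.split_E (LitT.cov_of_chunkM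 cB18_14_3_9) (LitT.Cov.split_T (LitT.cov_of_chunkM cB18_14_3_10) (LitT.cov_of_chunkM cB18_14_3_11)))) (LitT.cov_of_chunkM cB18_14_3_12)) (LitT.Cov.split_t (LitT.Cov.split_E (LitT.cov_of_chunkM cB18_14_3_13) (LitT.Cov.split_e (LitT.Cov.split_T (LitT.cov_of_chunkM cB18_14_3_14) (LitT.Cov.split_T (LitT.Cov.split_T (LitT.Cov.split_x (LitT.Cov.split_t (LitT.cov_of_chunkM cB18_14_3_15) (LitT.Cov.split_E (LitT.cov_of_chunkM cB18_14_3_16) (LitT.cov_of_chunkM cB18_14_3_17))) (LitT.cov_of_chunkM cB18_14_3_18)) (LitT.cov_of_chunkM cB18_14_3_19)) (LitT.cov_of_chunkM cB18_14_3_20))) (LitT.Cov.split_T (LitT.cov_of_chunkM cB18_14_3_21) (LitT.Cov.split_T (LitT.Cov.split_T (LitT.Cov.split_t (LitT.cov_of_chunkM cB18_14_3_22) (LitT.Cov.split_x (LitT.cov_of_chunkM cB18_14_3_23) (LitT.Cov.split_E (LitT.cov_of_chunkM cB18_14_3_24) (LitT.Cov.split_E (LitT.Cov.split_e (LitT.cov_of_chunkM cB18_14_3_25)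 (LitT.cov_of_chunkM cB18_14_3_26)) (LitT.cov_of_chunkM cB18_14_3_27))))) (LitT.cov_of_chunkM cB18_14_3_28)) (LitT.cov_of_chunkM cB18_14_3_29))))) (LitT.Cov.split_E (LitT.cov_of_chunkM cB18_14_3_30) (LitT.Cov.split_E (LitT.Cov.split_e (LitT.cov_of_chunkM cB18_14_3_31) (LitT.Cov.split_T (LitT.cov_of_chunkM cB18_14_3_32) (LitT.cov_of_chunkM cB18_14_3_33))) (LitT.Cov.split_E (LitT.Cov.split_T (LitT.cov_of_chunkM cB18_14_3_34) (LitT.Cov.split_T (LitT.Cov.split_T (LitT.Cov.split_e (LitT.cov_of_chunkM cB18_14_3_35) (LitT.cov_of_chunkM cB18_14_3_36)) (LitT.cov_of_chunkM cB18_14_3_37)) (LitT.cov_of_chunkM cB18_14_3_38))) (LitT.cov_of_chunkM cB18_14_3_39))))))) (LitT.Cov.split_t (LitT.cov_of_chunkM cB18_14_3_40) (LitT.Cov.split_e (LitT.Cov.split_x (LitT.cov_of_chunkM cB18_14_3_41) (LitT.Cov.split_t (LitT.cov_of_chunkM cB18_14_3_42) (LitT.Cov.split_E (LitT.cov_of_chunkM cB18_14_3_43)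 (LitT.Cov.split_e (LitT.Cov.split_T (LitT.Cov.split_T (LitT.cov_of_chunkM cB18_14_3_44) (LitT.Cov.split_T (LitT.cov_of_chunkM cB18_14_3_45) (LitT.Cov.split_X (LitT.Cov.split_E (LitT.Cov.split_E (LitT.cov_of_chunkM cB18_14_3_46) (LitT.Cov.split_t (LitT.cov_of_chunkM cB18_14_3_47) (LitT.cov_of_chunkM cB18_14_3_48))) (LitT.cov_of_chunkM cB18_14_3_49)) (LitT.cov_of_chunkM cB18_14_3_50)))) (LitT.Cov.split_T (LitT.Cov.split_T (LitT.Cov.split_E (LitT.Cov.split_E (LitT.cov_of_chunkM cB18_14_3_51) (LitT.Cov.split_E (LitT.cov_of_chunkM cB18_14_3_52) (LitT.Cov.split_t (LitT.Cov.split_e (LitT.cov_of_chunkM cB18_14_3_53) (LitT.cov_of_chunkM cB18_14_3_54)) (LitT.cov_of_chunkM cB18_14_3_55)))) (LitT.Cov.split_E (LitT.Cov.split_t (LitT.Cov.split_e (LitT.Cov.split_x (LitT.cov_of_chunkM cB18_14_3_56) (LitT.Cov.split_t (LitT.cov_of_chunkM cB18_14_3_57) (LitT.cov_of_chunkM cB18_14_3_58)))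 (LitT.Cov.split_x (LitT.cov_of_chunkM cB18_14_3_59) (LitT.Cov.split_t (LitT.cov_of_chunkM cB18_14_3_60) (LitT.cov_of_chunkM cB18_14_3_61)))) (LitT.cov_of_chunkM cB18_14_3_62)) (LitT.cov_of_chunkM cB18_14_3_63))) (LitT.cov_of_chunkM cB18_14_3_64)) (LitT.cov_of_chunkM cB18_14_3_65))) (LitT.Cov.split_x (LitT.cov_of_chunkM cB18_14_3_66) (LitT.Cov.split_T (LitT.cov_of_chunkM cB18_14_3_67) (LitT.Cov.split_T (LitT.Cov.split_T (LitT.Cov.split_E (LitT.cov_of_chunkM cB18_14_3_68) (LitT.cov_of_chunkM cB18_14_3_69)) (LitT.cov_of_chunkM cB18_14_3_70)) (LitT.cov_of_chunkM cB18_14_3_71)))))))) (LitT.cov_of_chunkM cB18_14_3_72))))))))))), (LitT.cov_of_chunkM cB18_14_1_0), (LitT.cov_of_chunkM cB18_14_2_0), (LitT.cov_of_chunkM cB18_14_0_0)⟩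

end Vale.Agent.helper4.Q4
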