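import Vale.Agent.helper4.Q4TreeM
import Vale.Agent.helper4.Q4G.PB18_6

/-!
Checks for pairs of intervals of second moments.
-/

set_option maxRecDepth 100000
set_option linter.unusedVariables false

namespace Vale.Agent.helper4.Q4

theorem cB18_6_3_0 : chunkOkM (LB18_6.ctx true true 97 1 1 1 1 1 1 1 1) muQ true true 64 RtB18_6.Cx RtB18_6.CX RtB18_6.Ctp.left RtB18_6.Ce RtB18_6.CTp RtB18_6.CEr 0x41 = true := by decide +kernel

theorem cB18_6_3_1 : chunkOkM (LB18_6.ctx true true 97 1 1 1 1 1 1 1 1) muQ true true 64 RtB18_6.Cx RtB18_6.CX RtB18_6.Ctp.right.left RtB18_6.Ce RtB18_6.CTp RtB18_6.CEr 0x41 = true := by decide +kernel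

theorem cB18_6_3_2 : chunkOkM (LB18_6.ctx true true 97 1 1 1 1 1 1 1 1) muQ true true 64 RtB18_6.Cx RtB18_6.CX RtB18_6.Ctp.right.right RtB18_6.Ce.left RtB18_6.CTp RtB18_6.CEr 0x11 = true := by decide +kernel

theorem cB18_6_3_3 : chunkOkM (LB18_6.ctx true true 208 17 8 5 16 49 65 8 64) muQ true true 64 RtB18_6.Cx RtB18_6.CX RtB18_6.Ctp.right.right RtB18_6.Ce.right.left RtB18_6.CTp RtB18_6.CEr 0x26d85d6fd6914426f848ad8385d9f45db0563129e140d = true := by decide +kernel

theorem cB18_6_3_4 : chunkOkM (LB18_6.ctx true true 97 1 1 1 1 1 1 1 1) muQ true true 64 RtB18_6.Cx RtB18_6.CX RtB18_6.Ctp.right.right.left.left RtB18_6.Ce.right.right.left RtB18_6.CTp RtB18_6.CEr 0x49 = true := by decide +kernel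

theorem cB18_6_3_5 : chunkOkM (LB18_6.ctx true true 97 1 1 1 1 1 1 1 1) muQ true true 64 RtB18_6.Cx RtB18_6.CX RtB18_6.Ctp.right.right.left.right.left RtB18_6.Ce.right.right.left RtB18_6.CTp RtB18_6.CEr 0x49 = true := by decide +kernel

theorem cB18_6_3_6 : chunkOkM (LB18_6.ctx true true 254 65 32 5 16 1561 2587 8 64) muQ true true 64 RtB18_6.Cx.left.left RtB18_6.CX RtB18_6.Ctp.right.right.left.right.right RtB18_6.Ce.right.right.left.left.left RtB18_6.CTp RtB18_6.CEr 0x4168d357f05b116b92c7ed10820787e81807fbe7f65f1e9027f527a281b7f450d33c0713b7f05b411904aa7ed11acf017e822615507f664afec47f548e72057f450d310bcbfcd8f04b4 = true := by decide +kernel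

theorem cB18_6_3_7 : chunkOkM (LB18_6.ctx true true 254 65 32 5 16 1561 2639 8 64) muQ true true 64 RtB18_6.Cx.left.left RtB18_6.CX RtB18_6.Ctp.right.right.left.right.right RtB18_6.Ce.right.right.left.left.right RtB18_6.CTp RtB18_6.CEr 0x594bfe3f6ed115b8627e8125b3217f6669c6d87f5351b5e47f450d37a9c26ed95ee366e81089bd77f65c4729b7f5f57a616f450d29934177f66c362c17f53455f167f430d347c3b55f89fbaf0b7f54126c2bb8f430d34 = true := by decide +kernel

theorem cB18_6_3_8 : chunkOkM (LB18_6.ctx true true 97 1 1 1 1 1 1 1 1) muQ true true 64 RtB18_6.Cx.left.right RtB18_6.CX RtB18_6.Ctp.right.right.left.right.right RtB18_6.Ce.right.right.left.left RtB18_6.CTp RtB18_6.CEr 0x49 = true := by decide +kernel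

theorem cB18_6_3_9 : chunkOkM (LB18_6.ctx true true 97 1 1 1 1 1 1 1 1) muQ true true 64 RtB18_6.Cx.left RtB18_6.CX RtB18_6.Ctp.right.right.left.right.right RtB18_6.Ce.right.right.left.right RtB18_6.CTp RtB18_6.CEr 0x59 = true := by decide +kernel

theorem cB18_6_3_10 : chunkOkM (LB18_6.ctx true true 97 1 1 1 1 1 1 1 1) muQ true true 64 RtB18_6.Cx.right RtB18_6.CX RtB18_6.Ctp.right.right.left.right.right RtB18_6.Ce.right.right.left RtB18_6.CTp RtB18_6.CEr 0x49 = true := by decide +kernel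

theorem cB18_6_3_11 : chunkOkM (LB18_6.ctx true true 251 67 32 5 16 1589 1339 8 64) muQ true true 64 RtB18_6.Cx RtB18_6.CX RtB18_6.Ctp.right.right.right RtB18_6.Ce.right.right.left.left RtB18_6.CTp RtB18_6.CEr 0x1122ba846fd22d846938e63a0c7457f530d499d181e6ed7a9b15f819829267f6529861a7f540db2ddff6ed5fdea5f81a9cdb87f65e8d1b57f519fc02e7f450d493b01e866ed8e68e5f821c2ae47f667902867f540d732f767d87f05b0641ad16ed1c897f87f6597cfe17f530d734736943 = true := by decide +kernel

theorem cB18_6_3_12 : chunkOkM (LB18_6.ctx true true 259 67 32 5 16 1617 2743 8 64) muQ true true 64 RtB18_6.Cx RtB18_6.CX RtB18_6.Ctp.right.right.right.left.left RtB18_6.Ce.right.right.left.right.left RtB18_6.CTp RtB18_6.CEr 0x491419996fd17d9366f84539db37f67b8c3947f5b4343d6f450d7e1bb56ed1a6c35e82087b3f7f662507927f540d27cefcd7ed16c26387e830471347f66ebc2007f521746537f450d3803c666ed1a33a9b7f65c552287f5aa62946f440d4196e16d7ed27307eb7f65899c077f530d7100f9237edf8df65f8641c949d8f650da3ebf99f5106a7210f4af450d347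 = true := by decide +kernel

theorem cB18_6_3_13 : chunkOkM (LB18_6.ctx true true 257 131 64 5 16 833 2743 8 64) muQ true true 64 RtB18_6.Cx.left RtB18_6.CX RtB18_6.Ctp.right.right.right.left.right RtB18_6.Ce.right.right.left.right.left.left RtB18_6.CTp RtB18_6.CEr 0xa675346ed1c317b6f83d8c12528e64ed55997f540d352154f7f05b8ed1e86ed650ec54c3a4932a7f630e06da7f5c13d786f250d73692646ed457fe16e86dfd0b47f62b80a367f540d4142d1927ed3c6e126e82a06ff47f64b2ff0c7f540d37 = true := by decide +kernel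

theorem cB18_6_3_14 : chunkOkM (LB18_6.ctx true true 257 131 64 5 16 833 2795 8 64) muQ true true 64 RtB18_6.Cx.left RtB18_6.CX RtB18_6.Ctp.right.right.right.left.right RtB18_6.Ce.right.right.left.right.left.right RtB18_6.CTp RtB18_6.CEr 0x17a67c97e8242f3d67f64512c247f530d12df21e7ed55cbc56e81a111e77f65ca85427f540d3cc8fa564c5e6c686e8195827a7f647f81607f540d106aa1e74c25bfd617f63def79d7f530dcd44d5edb3196564c5d7b9b77f62f218ca7f552244a6f250d745feda4a7f05b37 = true := by decide +kernel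

theorem cB18_6_3_15 : chunkOkM (LB18_6.ctx true true 251 69 32 5 16 819 2795 8 64) muQ true true 64 RtB18_6.Cx.right RtB18_6.CX RtB18_6.Ctp.right.right.right.left.right RtB18_6.Ce.right.right.left.right.left RtB18_6.CTp RtB18_6.CEr 0x69497ecc6b6ed24ddb3c7f65e6dd627f51b6d9217f440d73c071707f05b43694 = true := by decide +kernel

theorem cB18_6_3_16 : chunkOkM (LB18_6.ctx true true 230 17 8 5 16 399 715 8 64) muQ true true 64 RtB18_6.Cx RtB18_6.CX RtB18_6.Ctp.right.right.right.left.left RtB18_6.Ce.right.right.left.right.right RtB18_6.CTp RtB18_6.CEr 0x165a3d6fd3d999c6f8557d0f998f51137294629f440d = true := by decide +kernel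

theorem cB18_6_3_17 : chunkOkM (LB18_6.ctx true true 259 71 32 5 16 1645 2847 8 64) muQ true true 64 RtB18_6.Cx RtB18_6.CX RtB18_6.Ctp.right.right.right.left.right RtB18_6.Ce.right.right.left.right.right RtB18_6.CTp RtB18_6.CEr 0xd06ec66ed847705f82cb96bf7f6606ed9f7f53a373367f450d8926ad6ed2752cfb7f667d996e7f530d71c5265f84d5cfc67f63ee6d2b28f5d3062fac8f440d39ebe056ed15e7b0c7f658af1587f530d4918be7d17ed110ee16f81cbc7cc7f6699a5d77f53af262e7f450d7404a96ed1d1cd437f663be4b27f55238f16f440d10630437ed8e1ec16e851c12b798f64561c34c79f5f3e8127769f450d347345943a391b7f65c1184b7f520d59747 = true := by decide +kernel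

theorem cB18_6_3_18 : chunkOkM (LB18_6.ctx true true 248 67 32 5 16 847 1391 8 64) muQ true true 64 RtB18_6.Cx RtB18_6.CX RtB18_6.Ctp.right.right.right.right RtB18_6.Ce.right.right.left.right.left RtB18_6.CTp RtB18_6.CEr 0x1101268686d7f05b0124da416ed88b62e64c18dac267f630c0d117f51bfbe707f250d37229a0457f00b437 = true := by decide +kernel

theorem cB18_6_3_19 : chunkOkM (LB18_6.ctx true true 257 135 64 5 16 861 2847 8 64) muQ true true 64 RtB18_6.Cx.left RtB18_6.CX RtB18_6.Ctp.right.right.right.right RtB18_6.Ce.right.right.left.right.right RtB18_6.CTp RtB18_6.CEr 0x0117dbb2174c204cc7c7f639225bb7f515e74527f240d14ae2cf74c1c413bf7f64cb66907f530d32172174c01d427f02b21ca9d774c88c64f6e8381391a7f63cf15d27f526922f6f250d4bc43d64c261ae6a7f635a77867f58b86346f240d43e9ff95edb8eee664c3b632047f636770977f52a593cd7f250d743 = true := by decide +kernel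

theorem cB18_6_3_20 : chunkOkM (LB18_6.ctx true true 242 35 16 5 16 861 1443 8 64) muQ true true 64 RtB18_6.Cx.right RtB18_6.CX RtB18_6.Ctp.right.right.right.right RtB18_6.Ce.right.right.left.right.right RtB18_6.CTp RtB18_6.CEr 0x11eacea55c2573953c8e63994ce17f530d20e24467f653051797f520d3268471d7f05b43 = true := by decide +kernel

theorem cB18_6_3_21 : chunkOkM (LB18_6.ctx true true 97 1 1 1 1 1 1 1 1) muQ true true 64 RtB18_6.Cx RtB18_6.CX RtB18_6.Ctp.right.right.left RtB18_6.Ce.right.right.right RtB18_6.CTp RtB18_6.CEr 0x59 = true := by decide +kernel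

theorem cB18_6_3_22 : chunkOkM (LB18_6.ctx true true 97 1 1 1 1 1 1 1 1) muQ true true 64 RtB18_6.Cx.left RtB18_6.CX RtB18_6.Ctp.right.right.right RtB18_6.Ce.right.right.right.left RtB18_6.CTp RtB18_6.CEr 0x21 = true := by decide +kernel

theorem cB18_6_3_23 : chunkOkM (LB18_6.ctx true true 228 35 16 5 16 203 377 8 64) muQ true true 64 RtB18_6.Cx.right RtB18_6.CX RtB18_6.Ctp.right.right.right.left RtB18_6.Ce.right.right.right.left RtB18_6.CTp RtB18_6.CEr 0x1780116fd8b444f716791b1b8e67e4a5b77f5921f7e87f450d = true := by decide +kernel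

end Vale.Agent.helper4.Q4
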