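import Vale.Agent.helper4.Q4TreeM
import Vale.Agent.helper4.Q4G.PB18_6

/-!
Checks for pairs of intervals of second moments.
-/

set_option maxRecDepth 100000
set_option linter.unusedVariables false

namespace Vale.Agent.helper4.Q4

theorem cB18_6_3_24 : chunkOkM (LB18_6.ctx true true 256 71 32 5 16 1701 2951 8 64) muQ true true 64 RtB18_6.Cx.right RtB18_6.CX RtB18_6.Ctp.right.right.right.right.left RtB18_6.Ce.right.right.right.left.left.left RtB18_6.CTp RtB18_6.CEr 0x2270ede7f64f79e717f520d34833f07ed4c579a6e828182a6e7136db947f65a4b3677f550dfd58366ed21a94727f66643c3f7f519bd5067f440d3f1b66c6ed48f3e467f666eeb747f530d432adaf5c74c29e31a77f646243157f528c8ee6f240d35f67567f65b76e4d7f520d37 = true := by decide +kernel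

theorem cB18_6_3_25 : chunkOkM (LB18_6.ctx true true 249 71 32 5 16 861 1495 8 64) muQ true true 64 RtB18_6.Cx.right RtB18_6.CX RtB18_6.Ctp.right.right.right.right.left RtB18_6.Ce.right.right.right.left.left.right RtB18_6.CTp RtB18_6.CEr 0x1bd2936ed4b780a64c37574717f65a6c6357f540d5f5a5db7f05b7b66fa5fd38d5c557f66fd09e47f5811f906f440d3 = true := by decide +kernel

theorem cB18_6_3_26 : chunkOkM (LB18_6.ctx true true 245 71 32 5 16 441 1495 8 64) muQ true true 64 RtB18_6.Cx.right RtB18_6.CX RtB18_6.Ctp.right.right.right.right.right RtB18_6.Ce.right.right.right.left.left RtB18_6.CTp RtB18_6.CEr 0x1ee35865c377e4927f63d7dd037f57efb926f240d2274e7b74c2a43f457f63958cc67f520a23977f240d726ea4165c17b2206f8970f4817e62cadfc97f52b298737f250d4 = true := by decide +kernel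

theorem cB18_6_3_27 : chunkOkM (LB18_6.ctx true true 249 71 32 5 16 889 1547 8 64) muQ true true 64 RtB18_6.Cx.right RtB18_6.CX RtB18_6.Ctp.right.right.right.right RtB18_6.Ce.right.right.right.left.right RtB18_6.CTp RtB18_6.CEr 0x2eab3c65c426ebd37f64c1c7937f5196d1c57f240d12f0c467ed2eb933274c1f102697f63e0dba07f51b48ff97f250d2bff5b65c292e0ed7f651092f37f530d3446282b67f6640e9b47f520d3217 = true := by decide +kernel

theorem cB18_6_3_28 : chunkOkM (LB18_6.ctx true true 97 1 1 1 1 1 1 1 1) muQ true true 64 RtB18_6.Cx RtB18_6.CX RtB18_6.Ctp.right.right.right RtB18_6.Ce.right.right.right.right RtB18_6.CTp RtB18_6.CEr 0x21 = true := by decide +kernel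

theorem cB18_6_2_0 : chunkOkM (LB18_6.ctx false true 97 1 1 1 1 1 1 1 1) muQ false true 64 RtB18_6.Cx RtB18_6.CX RtB18_6.Ctn RtB18_6.Ce RtB18_6.CTp RtB18_6.CEr 0x49 = true := by decide +kernel

theorem cB18_6_1_0 : chunkOkM (LB18_6.ctx true false 97 1 1 1 1 1 1 1 1) muQ true false 64 RtB18_6.Cx RtB18_6.CX RtB18_6.Ctp.left RtB18_6.Ce RtB18_6.CTn RtB18_6.CEr 0x41 = true := by decide +kernel

theorem cB18_6_1_1 : chunkOkM (LB18_6.ctx true false 97 1 1 1 1 1 1 1 1) muQ true false 64 RtB18_6.Cx RtB18_6.CX RtB18_6.Ctp.right.left RtB18_6.Ce RtB18_6.CTn RtB18_6.CEr 0x41 = true := by decide +kernel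

theorem cB18_6_1_2 : chunkOkM (LB18_6.ctx true false 97 1 1 1 1 1 1 1 1) muQ true false 64 RtB18_6.Cx RtB18_6.CX RtB18_6.Ctp.right.right RtB18_6.Ce.left RtB18_6.CTn RtB18_6.CEr 0x11 = true := by decide +kernel

theorem cB18_6_1_3 : chunkOkM (LB18_6.ctx true false 207 17 8 5 16 49 65 4 128) muQ true false 64 RtB18_6.Cx RtB18_6.CX RtB18_6.Ctp.right.right RtB18_6.Ce.right.left RtB18_6.CTn RtB18_6.CEr.left 0xce0e15fd462ff76f843f4e28c29f4578192bda9e140d = true := by decide +kernel

theorem cB18_6_1_4 : chunkOkM (LB18_6.ctx true false 246 65 32 5 16 777 1287 4 128) muQ true false 64 RtB18_6.Cx RtB18_6.CX RtB18_6.Ctp.right.right.left RtB18_6.Ce.right.right.left RtB18_6.CTn RtB18_6.CEr.left 0x495949f7a0e5f834cfc657f678eef907f52fc2a447f440d26c13d6f830cb6267f664d30c17f51a5b4f67f440d67f8b5f817f77857f668dec7f7f52ec113d7f440d3f6a834d7f04b44747493493 = true := by decide +kernel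

theorem cB18_6_1_5 : chunkOkM (LB18_6.ctx true false 247 67 32 5 16 805 1339 4 128) muQ true false 64 RtB18_6.Cx RtB18_6.CX RtB18_6.Ctp.right.right.right RtB18_6.Ce.right.right.left.left RtB18_6.CTn RtB18_6.CEr.left 0x11255cbfa7f04bc3362d6fd25b8b465c15401d6f8338c6b1b8e63d2b3ee7f550d4e094647f05b4a4ad26f81d545467f66514a157f52e686657f440d399626a6fd2ae16d64c5b3b75f81c036b87f65104de57f550d23461c6f82bb50bb7f66ef09fa7f530d376443a96fd14e3e55c253ab76f83b506ea58e6519cb667f550d2a98996fd5651376f812ed7af7f659acf9c7f540d34376943 = true := by decide +kernel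

theorem cB18_6_1_6 : chunkOkM (LB18_6.ctx true false 251 67 32 5 16 805 1391 4 128) muQ true false 64 RtB18_6.Cx.left RtB18_6.CX RtB18_6.Ctp.right.right.right.left.left RtB18_6.Ce.right.right.left.right.left RtB18_6.CTn RtB18_6.CEr.left 0x5e2fc26fda5ad555c48330c37f67c80ca27f514fffde7f450d2ea94d6f83bd495f7f66e840737f5d00c8d6f440d4553086f84cbaba928f63de0629a59f5c8a204e029f440d334cb806fd2db4ef6f8458b9597f668cc7027f540d74 = true := by decide +kernel

theorem cB18_6_1_7 : chunkOkM (LB18_6.ctx true false 260 131 64 5 16 1673 2743 4 128) muQ true false 64 RtB18_6.Cx.left RtB18_6.CX RtB18_6.Ctp.right.right.right.left.right RtB18_6.Ce.right.right.left.right.left.left RtB18_6.CTn RtB18_6.CEr.left 0x6d6d806fd1b2e0465c1e6f7b6f8547f8327f651098837f550d924e01f7ed502766f74c4f15c5b7f642aebc37f540d8a87dbd7ed573d45674c23a64cb7e8377cb907f63382b3c7f5151ae7e7f260dd5e9e347ed62ff81b74c46094167f638d03fd7f540d374b00426fd55d47a474c568c166f874073c27f631ce3c17f550d4a071d86fd235185274c2dc8ddd7f64b9f5007f540d37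 = true := by decide +kernel

theorem cB18_6_1_8 : chunkOkM (LB18_6.ctx true false 256 131 64 5 16 833 2795 4 128) muQ true false 64 RtB18_6.Cx.left RtB18_6.CX RtB18_6.Ctp.right.right.right.left.right RtB18_6.Ce.right.right.left.right.left.right RtB18_6.CTn RtB18_6.CEr.left 0x72cedc6fd7348cf65c2fb879f7f64a002d27f540d5beb0d6fd66f0d55c13d93447f65e5410a7f540d3becdd86fd6270d665c2189c6f7f64a4b12d7f540d8e1b0277ed51baeb174c6327c4e7f63b1c8fc7f540d9b56b0e7ed60b506574c9b6745f857738ea7f6371e1537f5a8e3d56f260d74844e116fd47207165c296ffc07f657f16497f540d37 = true := by decide +kernel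

theorem cB18_6_1_9 : chunkOkM (LB18_6.ctx true false 241 35 16 5 16 819 1391 4 128) muQ true false 64 RtB18_6.Cx.right RtB18_6.CX RtB18_6.Ctp.right.right.right.left RtB18_6.Ce.right.right.left.right.left RtB18_6.CTn RtB18_6.CEr.left 0x692839b16fd1e11d697f6645a7307f512caab17f440d3694493 = true := by decide +kernel

theorem cB18_6_1_10 : chunkOkM (LB18_6.ctx true false 248 71 32 5 16 833 1443 4 128) muQ true false 64 RtB18_6.Cx RtB18_6.CX RtB18_6.Ctp.right.right.right.left RtB18_6.Ce.right.right.left.right.right RtB18_6.CTn RtB18_6.CEr.left 0x7ceb856fd21ee6bb7f665c2a227f52c801e27f440d4934fbb126fd15fa4e65c28e6e0e7f66d8ea737f540d83561d47f05b3714cd9aef8f04b43ac076fd2f090465c19e9a537f65d939d37f540d5506146fd28a545d7f6700d2cd7f5229d3b17f440d37459685d906fd32a13d65c496d91b7f65f087047f540d5974766f88e6fd9a7b6e65ca617dd6f8589d39fa8f511d0335b09f450d3 = true := by decide +kernel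

theorem cB18_6_1_11 : chunkOkM (LB18_6.ctx true false 254 67 32 5 16 847 2795 4 128) muQ true false 64 RtB18_6.Cx RtB18_6.CX RtB18_6.Ctp.right.right.right.right RtB18_6.Ce.right.right.left.right.left RtB18_6.CTn RtB18_6.CEr.left 0x110142453f6fd735e5565c56322f6f843cc77968e63abe4487f550d017abe13c7ed51883f074c3651cd6f831abbbe7f63481d7d7f51dabd497f260d8c08c5f7ed63ff51674c36bdeb6f818bf5487f62ff755b7f51dc29ee7f260d4373e747ce6fd9128e465c50ebba3409ae1da2e4ed419f040d47 = true := by decide +kernel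

end Vale.Agent.helper4.Q4
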