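import Vale.Agent.helper4.Q4TreeM
import Vale.Agent.helper4.Q4G.PB18_6

/-!
Checks for pairs of intervals of second moments.
-/

set_option maxRecDepth 100000
set_option linter.unusedVariables false

namespace Vale.Agent.helper4.Q4

theorem cB18_6_1_12 : chunkOkM (LB18_6.ctx true false 256 135 64 5 16 861 2847 4 128) muQ true false 64 RtB18_6.Cx.left RtB18_6.CX RtB18_6.Ctp.right.right.right.right RtB18_6.Ce.right.right.left.right.right RtB18_6.CTn RtB18_6.CEr.left 0x01734baec7ed6e4169574c21d2506f82876f797f63cf68257f5197996a7f260d6c73196fd54e2b965c446f176f820c2b727f64e839197f550d3217217b80b6e6fd6a07a165c572ffc6f868a71357f66df47647f250d8b3c7007ed6c6355974c19b59b6f83d642a17f640c11977f542a025f260d92df456fd68a95a174c5d1d7cd7f6379f7e47f540d435e2f986fd620f3865c3c92156f8473c4197f638d89dc7f52c2dd257f260d743 = true := by decide +kernel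

theorem cB18_6_1_13 : chunkOkM (LB18_6.ctx true false 248 71 32 5 16 861 1443 4 128) muQ true false 64 RtB18_6.Cx.right RtB18_6.CX RtB18_6.Ctp.right.right.right.right RtB18_6.Ce.right.right.left.right.right RtB18_6.CTn RtB18_6.CEr.left 0x1167c5f86fd1e579b65c23bc95f83c4852ab8e6613cd1d7f550d8977566fd730a1c65c3cbd7207f63fca2247f533958a6f250d610d166fd3fa258e74c1fd7166f848b40af7f65561ee47f550d378646246fd212bfe65c1b08c06f84db8a5a48e654c8f707f550d43 = true := by decide +kernel

theorem cB18_6_1_14 : chunkOkM (LB18_6.ctx true false 97 1 1 1 1 1 1 1 1) muQ true false 64 RtB18_6.Cx RtB18_6.CX RtB18_6.Ctp.right.right.left RtB18_6.Ce.right.right.right RtB18_6.CTn RtB18_6.CEr.left 0x59 = true := by decide +kernel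

theorem cB18_6_1_15 : chunkOkM (LB18_6.ctx true false 97 1 1 1 1 1 1 1 1) muQ true false 64 RtB18_6.Cx.left RtB18_6.CX RtB18_6.Ctp.right.right.right RtB18_6.Ce.right.right.right.left RtB18_6.CTn RtB18_6.CEr.left 0x21 = true := by decide +kernel

theorem cB18_6_1_16 : chunkOkM (LB18_6.ctx true false 227 35 16 5 16 203 377 4 128) muQ true false 64 RtB18_6.Cx.right RtB18_6.CX RtB18_6.Ctp.right.right.right.left RtB18_6.Ce.right.right.right.left RtB18_6.CTn RtB18_6.CEr.left 0x39cb426fd1708cc65c3f651c6f821731bf38e681863b17f56712c8c7f460d = true := by decide +kernel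

theorem cB18_6_1_17 : chunkOkM (LB18_6.ctx true false 251 71 32 5 16 861 2951 4 128) muQ true false 64 RtB18_6.Cx.right RtB18_6.CX RtB18_6.Ctp.right.right.right.right.left RtB18_6.Ce.right.right.right.left.left RtB18_6.CTn RtB18_6.CEr.left 0x4119176fd633a4e65c3390cbd7f6625dfbc7f540d4b6d7c6fd4b385d65c3d2c1db7f674fc7547f5180c8667f450d382922d6fd95565d65c32762047f65774c257f540d7768df66fd3ad0b665c752d75f8375b8cf7f6561dc837f550d5579036fdfb74db64c4f297477f66b8ac267f510f15577f450d472ffa6fd32ae0665c554ea247f6715fd8d7f540d4389432b6fd716171074c2b24a607f64a3809f7f51e0f116f250d6feb326fd42cd6365ce06bf5f8319a7f37f65f0b73e7f550d374 = true := by decide +kernel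

theorem cB18_6_1_18 : chunkOkM (LB18_6.ctx true false 244 71 32 5 16 441 1495 4 128) muQ true false 64 RtB18_6.Cx.right RtB18_6.CX RtB18_6.Ctp.right.right.right.right.right RtB18_6.Ce.right.right.right.left.left RtB18_6.CTn RtB18_6.CEr.left 0x8d7caa6fd79ad9f65c42de8397f642cea957f5793cdd6f250d69f4d16fd668a2465c41154d6f82e47d8e7f63e799f17f526c97d97f260d75052596fd7d51b065c7fc01e6f8159c520c8e63313e547f51e8840f7f260d4 = true := by decide +kernel

theorem cB18_6_1_19 : chunkOkM (LB18_6.ctx true false 248 71 32 5 16 889 1547 4 128) muQ true false 64 RtB18_6.Cx.right RtB18_6.CX RtB18_6.Ctp.right.right.right.right RtB18_6.Ce.right.right.right.left.right RtB18_6.CTn RtB18_6.CEr.left 0x6ccfda6fda6bd6065c48436fd7f64e6412b7f5210ba237f250d7dfcccf74c3a81e76f82911f147f647fcf287f5222351b7f250d740f296fd86ea4965c1fdb5937f65733a327f540d34675e5e6fd7f17d165c39d39537f66bf9cce7f540d3217 = true := by decide +kernel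

theorem cB18_6_1_20 : chunkOkM (LB18_6.ctx true false 97 1 1 1 1 1 1 1 1) muQ true false 64 RtB18_6.Cx RtB18_6.CX RtB18_6.Ctp.right.right.right RtB18_6.Ce.right.right.right.right RtB18_6.CTn RtB18_6.CEr.left 0x21 = true := by decide +kernel

theorem cB18_6_1_21 : chunkOkM (LB18_6.ctx true false 97 1 1 1 1 1 1 1 1) muQ true false 64 RtB18_6.Cx RtB18_6.CX RtB18_6.Ctp.right.right RtB18_6.Ce.right RtB18_6.CTn RtB18_6.CEr.right 0x5a = true := by decide +kernel

theorem cB18_6_0_0 : chunkOkM (LB18_6.ctx false false 97 1 1 1 1 1 1 1 1) muQ false false 64 RtB18_6.Cx RtB18_6.CX RtB18_6.Ctn RtB18_6.Ce RtB18_6.CTn RtB18_6.CEr 0x49 = true := by decide +kernel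

end Vale.Agent.helper4.Q4
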