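import Vale.Agent.helper4.Q4TreeM
import Vale.Agent.helper4.Q4G.PB18_6_0
import Vale.Agent.helper4.Q4G.PB18_6_1
import Vale.Agent.helper4.Q4G.PB18_6_2

/-!
Checks for pairs of intervals of second moments.
-/

set_option maxRecDepth 100000
set_option linter.unusedVariables false

namespace Vale.Agent.helper4.Q4

theorem covB18_6 : LB18_6.Full muQ.val RtB18_6 := ⟨(LitT.Cov.split_t (LitT.cov_of_chunkM cB18_6_3_0) (LitT.Cov.split_t (LitT.cov_of_chunkM cB18_6_3_1) (LitT.Cov.split_e (LitT.cov_of_chunkM cB18_6_3_2) (LitT.Cov.split_e (LitT.cov_of_chunkM cB18_6_3_3) (LitT.Cov.split_e (LitT.Cov.split_t (LitT.Cov.split_t (LitT.cov_of_chunkM cB18_6_3_4) (LitT.Cov.split_t (LitT.cov_of_chunkM cB18_6_3_5) (LitT.Cov.split_x (LitT.Cov.split_e (LitT.Cov.split_x (LitT.Cov.split_e (LitT.cov_of_chunkM cB18_6_3_6) (LitT.cov_of_chunkM cB18_6_3_7)) (LitT.cov_of_chunkM cB18_6_3_8))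 (LitT.cov_of_chunkM cB18_6_3_9)) (LitT.cov_of_chunkM cB18_6_3_10)))) (LitT.Cov.split_e (LitT.cov_of_chunkM cB18_6_3_11) (LitT.Cov.split_t (LitT.Cov.split_e (LitT.Cov.split_t (LitT.cov_of_chunkM cB18_6_3_12) (LitT.Cov.split_x (LitT.Cov.split_e (LitT.cov_of_chunkM cB18_6_3_13) (LitT.cov_of_chunkM cB18_6_3_14)) (LitT.cov_of_chunkM cB18_6_3_15))) (LitT.Cov.split_t (LitT.cov_of_chunkM cB18_6_3_16) (LitT.cov_of_chunkM cB18_6_3_17))) (LitT.Cov.split_e (LitT.cov_of_chunkM cB18_6_3_18) (LitT.Cov.split_x (LitT.cov_of_chunkM cB18_6_3_19) (LitT.cov_of_chunkM cB18_6_3_20)))))) (LitT.Cov.split_t (LitT.cov_of_chunkM cB18_6_3_21) (LitT.Cov.split_e (LitT.Cov.split_x (LitT.cov_of_chunkM cB18_6_3_22) (LitT.Cov.split_t (LitT.cov_of_chunkM cB18_6_3_23) (LitT.Cov.split_e (LitT.Cov.split_t (LitT.Cov.split_e (LitT.cov_of_chunkM cB18_6_3_24) (LitT.cov_of_chunkM cB18_6_3_25)) (LitT.cov_of_chunkM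 cB18_6_3_26)) (LitT.cov_of_chunkM cB18_6_3_27)))) (LitT.cov_of_chunkM cB18_6_3_28)))))))), (LitT.Cov.split_t (LitT.cov_of_chunkM cB18_6_1_0) (LitT.Cov.split_t (LitT.cov_of_chunkM cB18_6_1_1) (LitT.Cov.split_e (LitT.cov_of_chunkM cB18_6_1_2) (LitT.Cov.split_E (LitT.Cov.split_e (LitT.cov_of_chunkM cB18_6_1_3) (LitT.Cov.split_e (LitT.Cov.split_t (LitT.cov_of_chunkM cB18_6_1_4) (LitT.Cov.split_e (LitT.cov_of_chunkM cB18_6_1_5) (LitT.Cov.split_t (LitT.Cov.split_e (LitT.Cov.split_x (LitT.Cov.split_t (LitT.cov_of_chunkM cB18_6_1_6) (LitT.Cov.split_e (LitT.cov_of_chunkM cB18_6_1_7) (LitT.cov_of_chunkM cB18_6_1_8))) (LitT.cov_of_chunkM cB18_6_1_9)) (LitT.cov_of_chunkM cB18_6_1_10)) (LitT.Cov.split_e (LitT.cov_of_chunkM cB18_6_1_11) (LitT.Cov.split_x (LitT.cov_of_chunkM cB18_6_1_12) (LitT.cov_of_chunkM cB18_6_1_13)))))) (LitT.Cov.split_t (LitT.cov_of_chunkM cB18_6_1_14)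 (LitT.Cov.split_e (LitT.Cov.split_x (LitT.cov_of_chunkM cB18_6_1_15) (LitT.Cov.split_t (LitT.cov_of_chunkM cB18_6_1_16) (LitT.Cov.split_e (LitT.Cov.split_t (LitT.cov_of_chunkM cB18_6_1_17) (LitT.cov_of_chunkM cB18_6_1_18)) (LitT.cov_of_chunkM cB18_6_1_19)))) (LitT.cov_of_chunkM cB18_6_1_20))))) (LitT.cov_of_chunkM cB18_6_1_21))))), (LitT.cov_of_chunkM cB18_6_2_0), (LitT.cov_of_chunkM cB18_6_0_0)⟩

end Vale.Agent.helper4.Q4
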