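import Vale.Agent.helper4.Q4TreeM
import Vale.Agent.helper4.Q4G.PB18_7

/-!
Checks for pairs of intervals of second moments.
-/

set_option maxRecDepth 100000
set_option linter.unusedVariables false

namespace Vale.Agent.helper4.Q4

theorem cB18_7_3_0 : chunkOkM (LB18_7.ctx true true 109 1 1 1 1 1 1 1 1) muQ true true 64 RtB18_7.Cx RtB18_7.CX RtB18_7.Ctp.left RtB18_7.Ce RtB18_7.CTp RtB18_7.CEr 0x41 = true := by decide +kernel

theorem cB18_7_3_1 : chunkOkM (LB18_7.ctx true true 109 1 1 1 1 1 1 1 1) muQ true true 64 RtB18_7.Cx RtB18_7.CX RtB18_7.Ctp.right.left RtB18_7.Ce RtB18_7.CTp RtB18_7.CEr 0x41 = true := by decide +kernel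

theorem cB18_7_3_2 : chunkOkM (LB18_7.ctx true true 109 1 1 1 1 1 1 1 1) muQ true true 64 RtB18_7.Cx RtB18_7.CX RtB18_7.Ctp.right.right RtB18_7.Ce.left RtB18_7.CTp RtB18_7.CEr 0x11 = true := by decide +kernel

theorem cB18_7_3_3 : chunkOkM (LB18_7.ctx true true 225 17 8 7 16 49 65 16 32) muQ true true 64 RtB18_7.Cx RtB18_7.CX RtB18_7.Ctp.right.right RtB18_7.Ce.right.left RtB18_7.CTp RtB18_7.CEr 0x3138eeb429fd2e5d3368c240b46ae0006cf42e80eca5a8abf140d = true := by decide +kernel

theorem cB18_7_3_4 : chunkOkM (LB18_7.ctx true true 267 65 32 7 16 777 2639 16 32) muQ true true 64 RtB18_7.Cx RtB18_7.CX RtB18_7.Ctp.right.right.left RtB18_7.Ce.right.right.left RtB18_7.CTp RtB18_7.CEr 0x495949593284eae38fd3096f0528f81f32bf988f7c6ad86ac59f6312e320b08af513ba12157eaf460d44474cb78fd48f881668f82ff50487f71849877db0af630f1859408af5f05fb69e49f460d44b48b86d8eaf51ede2512474bf420d34429681718fdb3bfa9d7f815b1b079b6af62da57cd580af58663aa22c9f450df4a29d27fd682810558f81b393eb8daaf6336a6b3f92af51be055be02af450d37d7e1e867caf04b44747493493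 = true := by decide +kernel

theorem cB18_7_3_5 : chunkOkM (LB18_7.ctx true true 109 1 1 1 1 1 1 1 1) muQ true true 64 RtB18_7.Cx RtB18_7.CX RtB18_7.Ctp.right.right.right.left RtB18_7.Ce.right.right.left.left.left RtB18_7.CTp RtB18_7.CEr 0x69 = true := by decide +kernel

theorem cB18_7_3_6 : chunkOkM (LB18_7.ctx true true 265 67 32 7 16 805 1339 16 32) muQ true true 64 RtB18_7.Cx RtB18_7.CX RtB18_7.Ctp.right.right.right.left.left RtB18_7.Ce.right.right.left.left.right RtB18_7.CTp RtB18_7.CEr 0x4930ce98868fd5e66e3de8f8208186f88f71307176f3aaf62ab258b05eaf550d5ed916228fd94f135b78f8cd8b49d7f715017f6824af62ddbb91cd5af516868d4450af460d35b038fdb8fd42a901148f8161baada76af6260b70624aaf540d4c5f74e28fd7b0dc8b28f8d9526d47f71964620b62af632a10cf1ddaf550d376668bec98fdbcfb1aea8f816ee673b59af621f22a66aaaf540d5c30e0cd8f04b3b7249b58fd320574e08f823fd378a8f7173741b9e3af62bf15bbb25af550d7347 = true := by decide +kernel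

theorem cB18_7_3_7 : chunkOkM (LB18_7.ctx true true 291 259 128 7 16 3297 5395 16 32) muQ true true 64 RtB18_7.Cx RtB18_7.CX RtB18_7.Ctp.right.right.right.left.right RtB18_7.Ce.right.right.left.left.right RtB18_7.CTp RtB18_7.CEr 0x1169691acfde10ccaf05b05b8350c58f06cdd83f4138fdeadd8067c712aa4c08f8433e3c5a25af618a464cc09af550d3704d53c19be8fd14bbf2077c1191cae019f814d0869dbfaf61fe3c15c82af550d37751d80b988f06c437694 = true := by decide +kernel

theorem cB18_7_3_8 : chunkOkM (LB18_7.ctx true true 109 1 1 1 1 1 1 1 1) muQ true true 64 RtB18_7.Cx RtB18_7.CX RtB18_7.Ctp.right.right.right.right RtB18_7.Ce.right.right.left.left RtB18_7.CTp RtB18_7.CEr 0x11 = true := by decide +kernel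

theorem cB18_7_3_9 : chunkOkM (LB18_7.ctx true true 277 135 64 7 16 805 2743 16 32) muQ true true 64 RtB18_7.Cx.left RtB18_7.CX RtB18_7.Ctp.right.right.right.left.left RtB18_7.Ce.right.right.left.right.left RtB18_7.CTp RtB18_7.CEr 0x185f183d8fd6bed02dd8f8367cd5ff8f72491e58bd6af63a62d5e908af536e6e52039f460d2f7aafd58f825604bd433af631e4cd8b75af5111edceb05af440d17fba1c58fd58fc1d988f8221bb2198f72c21734d48af635676e8c0daf550d7198be0bb8fd437391628f829d83bed8f718afed308faf62e86f24a04af552c4054b69f460d43a5f79138fd84f940508f8192c695623af62b59a2c195af540d72ffdfe998fd2e020cf78f8156874208f730e55157211bf62784f8507d82cf58068f92b66e2cf460d34 = true := by decide +kernel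

theorem cB18_7_3_10 : chunkOkM (LB18_7.ctx true true 277 129 64 7 16 1631 2717 16 32) muQ true true 64 RtB18_7.Cx.left.left.left RtB18_7.CX RtB18_7.Ctp.right.right.right.left.right.left.left RtB18_7.Ce.right.right.left.right.left.left.left RtB18_7.CTp RtB18_7.CEr 0xa45e43588fdac5d1367ce7caeffb8f8e34ca27449f621755aa195af550d = true := by decide +kernel

theorem cB18_7_3_11 : chunkOkM (LB18_7.ctx true true 298 259 128 7 16 3297 10855 32 32) muQ true true 64 RtB18_7.Cx.left.left.left RtB18_7.CX RtB18_7.Ctp.right.right.right.left.right.left.right RtB18_7.Ce.right.right.left.right.left.left.left.left RtB18_7.CTp RtB18_7.CEr 0xbdc60a0a8fd9ee99367c837769448f856f756f7bfaf617e5275907af550da1038b7c8fd5ae3e3f18f850e79d134daf61b43713938af540d15a18b5bd9fd19fabe877cdf241c3e57af61002c1cfa5af540d5d44260f98fdda3ff567c6ad31aae8f81427a78d9a7bf640d4d2748ab28fdd47a2567c676455958f84d88428d73af61e5e083544af550dd5e4c4228fde8e94067c7113843f8f86bd51f0b4caf618523ac226af550d437 = true := by decide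 +kernel

theorem cB18_7_3_12 : chunkOkM (LB18_7.ctx true true 301 515 256 7 16 3297 10907 16 32) muQ true true 64 RtB18_7.Cx.left.left.left RtB18_7.CX RtB18_7.Ctp.right.right.right.left.right.left.right RtB18_7.Ce.right.right.left.right.left.left.left.right RtB18_7.CTp RtB18_7.CEr 0xd73d446e8fd10dd3f877c92c045678f83e3099b376af61b7b97a7feaf550db4904ad48fdaaa2ca67c79bb94de8f829bd09f658ebf640dd09ed39c8fde1e03867c6ff651da8f8128a470093bbf6a8c2f9df39f550dbf6ed6bc8fd150a484686cf1d196508f83422796bae1bf640d7496764a9c8fd1179c2e38f81d7e5c634caf61e29acd8e3af540d37 = true := by decide +kernel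

theorem cB18_7_3_13 : chunkOkM (LB18_7.ctx true true 274 131 64 7 16 819 2717 16 32) muQ true true 64 RtB18_7.Cx.left.left.right RtB18_7.CX RtB18_7.Ctp.right.right.right.left.right.left RtB18_7.Ce.right.right.left.right.left.left.left RtB18_7.CTp RtB18_7.CEr 0xadcf53d98fd15820f977c152ed84a29f8218caeea0eaf6209d086823af550d = true := by decide +kernel

theorem cB18_7_3_14 : chunkOkM (LB18_7.ctx true true 268 65 32 7 16 819 2743 16 32) muQ true true 64 RtB18_7.Cx.left.left RtB18_7.CX RtB18_7.Ctp.right.right.right.left.right.left RtB18_7.Ce.right.right.left.right.left.left.right RtB18_7.CTp RtB18_7.CEr 0xaea0e3538fd117c10877cfb48bd838f8c11d33e9f9f6239059c513af550d = true := by decide +kernel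

theorem cB18_7_3_15 : chunkOkM (LB18_7.ctx true true 285 129 64 7 16 1659 5421 32 32) muQ true true 64 RtB18_7.Cx.left.left.left RtB18_7.CX RtB18_7.Ctp.right.right.right.left.right.right RtB18_7.Ce.right.right.left.right.left.left.left.left RtB18_7.CTp RtB18_7.CEr 0x11ac4b31a48f06c114b894839fd1696fff77cd4822935a2af630d53 = true := by decide +kernel

end Vale.Agent.helper4.Q4
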