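import Vale.Agent.helper4.Q4TreeM
import Vale.Agent.helper4.Q4G.PB18_7

/-!
Checks for pairs of intervals of second moments.
-/

set_option maxRecDepth 100000
set_option linter.unusedVariables false

namespace Vale.Agent.helper4.Q4

theorem cB18_7_3_16 : chunkOkM (LB18_7.ctx true true 298 259 128 7 16 3325 10907 32 32) muQ true true 64 RtB18_7.Cx.left.left.left RtB18_7.CX RtB18_7.Ctp.right.right.right.left.right.right.left RtB18_7.Ce.right.right.left.right.left.left.left.right RtB18_7.CTp RtB18_7.CEr 0xd183eea98fd104659977c859f9cf88f8124bbcdc0f9bf640dbdc432818fd5b850267c1d557814efabf630d12b6cf1449fd1b6fd8e77c10dc7e59b4dbf630d5b5576e428fd83603dfa8f8b23c2c4a36af630d150bc77c69fd19cf3da77c199e9da4ab8bf630d5b5149b2f8fd5c76178b8f8195d16e67ddbf630dc3dba0948fddf1f3067cf846d4c0faaf630d5437 = true := by decide +kernel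

theorem cB18_7_3_17 : chunkOkM (LB18_7.ctx true true 281 129 64 7 16 1673 5447 16 32) muQ true true 64 RtB18_7.Cx.left.left.left RtB18_7.CX RtB18_7.Ctp.right.right.right.left.right.right.right RtB18_7.Ce.right.right.left.right.left.left.left.right RtB18_7.CTp RtB18_7.CEr 0x10f8aee5c9fd231131b77cdab947c08f81396b37678dbf640d = true := by decide +kernel

theorem cB18_7_3_18 : chunkOkM (LB18_7.ctx true true 109 1 1 1 1 1 1 1 1) muQ true true 64 RtB18_7.Cx.left.left.right RtB18_7.CX RtB18_7.Ctp.right.right.right.left.right.right RtB18_7.Ce.right.right.left.right.left.left.left RtB18_7.CTp RtB18_7.CEr 0x69 = true := by decide +kernel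

theorem cB18_7_3_19 : chunkOkM (LB18_7.ctx true true 299 257 128 7 16 3325 10959 32 32) muQ true true 64 RtB18_7.Cx.left.left.left.left RtB18_7.CX RtB18_7.Ctp.right.right.right.left.right.right.left RtB18_7.Ce.right.right.left.right.left.left.right.left RtB18_7.CTp RtB18_7.CEr 0x103633c389fd1b9ce6277c971c61df8f82ab67ab91b2bf640da9fb7ca38fd3be07f548f81a18e1e4c87bf630d18a7f73fb9fd2272a0477c16726bba91fbf630d5459d400c1678fd1f906c177c16ad5a6e49f834719a8f14ebf640d43 = true := by decide +kernel

theorem cB18_7_3_20 : chunkOkM (LB18_7.ctx true true 305 519 256 7 16 3325 10959 32 32) muQ true true 64 RtB18_7.Cx.left.left.left.right RtB18_7.CX RtB18_7.Ctp.right.right.right.left.right.right.left RtB18_7.Ce.right.right.left.right.left.left.right.left RtB18_7.CTp RtB18_7.CEr 0xe218634e8fd14bd7b577c8f15a6418f818aaa28bedebf640de478c0738fd1c0d38d77c1348edbfb9f828356c44194bf640d4c3c257028fdedab3867c74ea25598f81481f8f4b4abf6dedb420dd9f550dd0a55caf8fd111c42277c7cf264198f829f94a147ccbf640d7b162ae3f8fd9ce91a178f8391a1cbfdaaf61d42111416af540d114bce0aa9fd13891a077cbb7f86a05caf694d2d01b29f540d543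 = true := by decide +kernel

theorem cB18_7_3_21 : chunkOkM (LB18_7.ctx true true 299 259 128 7 16 3325 11011 32 32) muQ true true 64 RtB18_7.Cx.left.left.left RtB18_7.CX RtB18_7.Ctp.right.right.right.left.right.right.left RtB18_7.Ce.right.right.left.right.left.left.right.right RtB18_7.CTp RtB18_7.CEr 0xe03d4f0a8fd14ef8d977c88ac84c28f824d8fa73f2abf640da44e92bc8fd50ff082a8f81c05e83f957bf630d15dfca3ed9fd1d1230877c11d5f445e7bbf630d54d78f6b538fd12849d177c8e76f60a8f84e1ed27035af61dc527cc82af550d3697 = true := by decide +kernel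

theorem cB18_7_3_22 : chunkOkM (LB18_7.ctx true true 294 259 128 7 16 1673 10959 32 32) muQ true true 64 RtB18_7.Cx.left.left.left RtB18_7.CX RtB18_7.Ctp.right.right.right.left.right.right.right RtB18_7.Ce.right.right.left.right.left.left.right.left RtB18_7.CTp RtB18_7.CEr 0x10566b9449fd2a21ea477c1c663748e9f818f82574611bf640dbb1bb9208fd9b160167c11d4ccd3beebf61812e14109f240d144d3757c9fd211ed6077cf98f694ea7af68889ef59e9f240d184979acc9fd26d764a77cfee7a71597af630d457 = true := by decide +kernel

theorem cB18_7_3_23 : chunkOkM (LB18_7.ctx true true 305 515 256 7 16 3353 11011 32 32) muQ true true 64 RtB18_7.Cx.left.left.left RtB18_7.CX RtB18_7.Ctp.right.right.right.left.right.right.right RtB18_7.Ce.right.right.left.right.left.left.right.right RtB18_7.CTp RtB18_7.CEr 0x1243ce9949fd1f171c477c68559a358f815ac51a66f3bf640dfc49a0378fd19fdca077c8ebe365f8f817209af5e93bf640d3653af9288fd7a6949968f81136cd8bedcbf630d12ac265fb9fd1e281be77c13c23c92754bf630d5457a9a7b08fd6455cb248f8d8deb950cdaf61da6eda58daf240d199c642339fd283b18f77c13498c67a95bf6ddf21b3839f240d569112d097379fd1dbdcba77c7e47b40c8f8302c0941d66bf640d432177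 = true := by decide +kernel

theorem cB18_7_3_24 : chunkOkM (LB18_7.ctx true true 295 263 128 7 16 3325 11011 16 32) muQ true true 64 RtB18_7.Cx.left.left.right RtB18_7.CX RtB18_7.Ctp.right.right.right.left.right.right RtB18_7.Ce.right.right.left.right.left.left.right RtB18_7.CTp RtB18_7.CEr 0xe06136408fd23250b077c1aa1f1b119f81b1ca61040ebf640d8f96ffce8fd6038da67c98593adc8f838830dad3caf61b362eb050af550dd13d2b8d8fd10a8f3d77c7f827c998f810aadfc0779bf6aed8101ed9f550deb57e41c8fd10e8b7877c5417fd0b8f81982d14faf3bf640d4d2cfe85c8fde5b83867c38094aae8f83488d5eaa1af61dcdd51773af550d37ce2e0c2f8fdfbc0a367c8c46cb0a8f8ab08054b9eaf613db8328ecaf550d43 = true := by decide +kernel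

theorem cB18_7_3_25 : chunkOkM (LB18_7.ctx true true 261 67 32 7 16 413 1365 16 32) muQ true true 64 RtB18_7.Cx.left.right RtB18_7.CX RtB18_7.Ctp.right.right.right.left.right RtB18_7.Ce.right.right.left.right.left.left RtB18_7.CTp RtB18_7.CEr 0x3e39c9de8fd6ec42d6f8f822985ef79eaf62397f79fbbaf540d = true := by decide +kernel

end Vale.Agent.helper4.Q4
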