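import Vale.Agent.helper4.Q4TreeM
import Vale.Agent.helper4.Q4G.PB18_7

/-!
Checks for pairs of intervals of second moments.
-/

set_option maxRecDepth 100000
set_option linter.unusedVariables false

namespace Vale.Agent.helper4.Q4

theorem cB18_7_3_26 : chunkOkM (LB18_7.ctx true true 265 65 32 7 16 819 1391 16 32) muQ true true 64 RtB18_7.Cx.left.left RtB18_7.CX RtB18_7.Ctp.right.right.right.left.right.left RtB18_7.Ce.right.right.left.right.left.right RtB18_7.CTp RtB18_7.CEr 0x7118415d8fd8aae96758f81451d2619aaf624c93e7afeaf540d = true := by decide +kernel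

theorem cB18_7_3_27 : chunkOkM (LB18_7.ctx true true 295 259 128 7 16 3353 11063 16 32) muQ true true 64 RtB18_7.Cx.left.left.left RtB18_7.CX RtB18_7.Ctp.right.right.right.left.right.right RtB18_7.Ce.right.right.left.right.left.right.left RtB18_7.CTp RtB18_7.CEr 0x691156cb9eb9fd20fbd9677ca50573148f81d9d816bd5fbf640d112ddc6709fd2020e6f77c9853adc18f81b7407fb28bbf640d469109f5ca889fd1a0f08377c7088fc498f81cc4022b6f1bf640d432174693 = true := by decide +kernel

theorem cB18_7_3_28 : chunkOkM (LB18_7.ctx true true 294 263 128 7 16 3325 11063 16 32) muQ true true 64 RtB18_7.Cx.left.left.right RtB18_7.CX RtB18_7.Ctp.right.right.right.left.right.right.left RtB18_7.Ce.right.right.left.right.left.right.left RtB18_7.CTp RtB18_7.CEr 0xbc2cbf0b8fd184beef77c11ea322c19f8246564b418af624bffde36faf550dd66f30fe8fd11edb8177c6452a01f8f8357464f7feaf61eeb1180edaf550dd5e3a1ec8fd150cafa77ca61a00088f87dc046b88eaf61af82e04c8af550dd9b685c48fd144675577c974a6f048f8a8fca49b36af614895e30d3af550d48546f5608fd8cb02667c872732668f8acc6439f8faf61eda4681b5af550d374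 = true := by decide +kernel

theorem cB18_7_3_29 : chunkOkM (LB18_7.ctx true true 299 263 128 7 16 3353 11063 32 32) muQ true true 64 RtB18_7.Cx.left.left.right RtB18_7.CX RtB18_7.Ctp.right.right.right.left.right.right.right RtB18_7.Ce.right.right.left.right.left.right.left.left RtB18_7.CTp RtB18_7.CEr 0x29b34c668f06cfc46bbfa8fd1ae631077c971a0e948f812966715185bf640d8cbc25f38fd3d4eb27a8f81d32716f266bf630d14dd6167c9fd1a92d4077c1abf8af1d99bf630d5dd2143648fd11cb17c77c3419a2d78f81d743efda70bf640d437 = true := by decide +kernel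

theorem cB18_7_3_30 : chunkOkM (LB18_7.ctx true true 295 263 128 7 16 3353 11115 16 32) muQ true true 64 RtB18_7.Cx.left.left.right RtB18_7.CX RtB18_7.Ctp.right.right.right.left.right.right.right RtB18_7.Ce.right.right.left.right.left.right.left.right RtB18_7.CTp RtB18_7.CEr 0xdff6a45a8fd17c4a3577cb604ecbe8f8101960ea843bf640db7914e2a8fdfb43b667c815284588f8117b8d17839bf610194075dfaf550ddc8049b48fd137facd77c80b7bf798f891d0da9a20af6150f8bb0d4af550d43f1be511a8fd1bf20f777cc25b0a148f8196d549ae68bf640df64c96d08fd1ae028f77c9c3bf2578f81835e1836f4bf640d469ddbbdf708fd16f83d277caa1b02838f81f304d4c6c4bf640d437 = true := by decide +kernel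

theorem cB18_7_3_31 : chunkOkM (LB18_7.ctx true true 298 263 128 7 16 3353 11167 16 32) muQ true true 64 RtB18_7.Cx.left.left RtB18_7.CX RtB18_7.Ctp.right.right.right.left.right.right RtB18_7.Ce.right.right.left.right.left.right.right RtB18_7.CTp RtB18_7.CEr 0xda37fdfb8fd18bf3b477cc53227498f8d59f07cb05af6160aac6707af550d217dc0d421c8fd174ff0c77cacfcf7cf8f81cf64668d13bf640dddf016108fd1750d5577ca94aef078f81bcfbb09220bf640d4db969ad18fd158611377c9c7f6f7e8f8378e9bf0d9af61e19339deeaf550d3257aa4480e47cf06b74593217 = true := by decide +kernel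

theorem cB18_7_3_32 : chunkOkM (LB18_7.ctx true true 281 135 64 7 16 1673 5603 16 32) muQ true true 64 RtB18_7.Cx.left.right RtB18_7.CX RtB18_7.Ctp.right.right.right.left.right RtB18_7.Ce.right.right.left.right.left.right RtB18_7.CTp RtB18_7.CEr 0x64680e638fdbafc272a8f83eeb83b064af62170d1f9d5af540dd9575a7d8fd19b0ead77cdf84b7b48f832ae0ea253af61d56fd5021af550dc8b750bb8fd161072f77cc15480818f84f3d040fbcaf61a78f5b960af550d46cfe95478fd980beb67cbd6cde668f8101b21b780af6245ac5d927af550d3782839efd8fdcc522867cf81ee9428f82b69baeb16af61bf75064c4af550d429f0f3d58fd22f639d18f81d700d3ba6af62d30786311af540d3 = true := by decide +kernel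

theorem cB18_7_3_33 : chunkOkM (LB18_7.ctx true true 268 69 32 7 16 819 2795 16 32) muQ true true 64 RtB18_7.Cx.right RtB18_7.CX RtB18_7.Ctp.right.right.right.left RtB18_7.Ce.right.right.left.right.left RtB18_7.CTp RtB18_7.CEr 0x694914803b508fd537c0f898f82cc7c71a8f72207c9b9c1af62f552b9d49af5d181652df9f460d71e6061da8aaf05b43694493 = true := by decide +kernel

theorem cB18_7_3_34 : chunkOkM (LB18_7.ctx true true 246 17 8 7 16 399 715 16 32) muQ true true 64 RtB18_7.Cx RtB18_7.CX RtB18_7.Ctp.right.right.right.left.left RtB18_7.Ce.right.right.left.right.right RtB18_7.CTp RtB18_7.CEr 0x2975bc8869f8294e3e7985cbf58593c007fb3bf430d = true := by decide +kernel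

theorem cB18_7_3_35 : chunkOkM (LB18_7.ctx true true 265 67 32 7 16 833 1417 16 32) muQ true true 64 RtB18_7.Cx.left RtB18_7.CX RtB18_7.Ctp.right.right.right.left.right RtB18_7.Ce.right.right.left.right.right RtB18_7.CTp RtB18_7.CEr 0x59817582868fd11f33c377cbb917d418f81162a85877af626afff555aaf550d37af9ce552af05b35974 = true := by decide +kernel

end Vale.Agent.helper4.Q4
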