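import Vale.Agent.helper4.Q4TreeM
import Vale.Agent.helper4.Q4G.PB18_7

/-!
Checks for pairs of intervals of second moments.
-/

set_option maxRecDepth 100000
set_option linter.unusedVariables false

namespace Vale.Agent.helper4.Q4

theorem cB18_7_3_36 : chunkOkM (LB18_7.ctx true true 273 71 32 7 16 1673 2899 16 32) muQ true true 64 RtB18_7.Cx.right RtB18_7.CX RtB18_7.Ctp.right.right.right.left.right RtB18_7.Ce.right.right.left.right.right RtB18_7.CTp RtB18_7.CEr 0x29c3e0258fd7ce7deaa8f821155adb8f715051f1c17af62a533ad6ecaf513aca460d8af460d493378c46738fd594ad6b5a6af63be55ad09faf530d4db28997fd3d1132198f82b630b598f72186f860bcaf6312f64b98baf5151defe449f460d4723c409f9eeaf61e30335ec14bf566747682b19bf430d3691a5af3168fd42dc2e038f8d2b53197f715bf2f7031af62a7fee5a42af550d7491a15b647fd4bad20ec8f83caa8bbf8f710924c1decaf631c99b8911af515c288b0dcaf460d10ae24a08fd69e4c93a8f8258cb3fa8f7240e812249af630c45068b5af51212e79db7af460d4734 = true := by decide +kernel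

theorem cB18_7_3_37 : chunkOkM (LB18_7.ctx true true 254 33 16 7 16 217 1365 16 32) muQ true true 64 RtB18_7.Cx.left RtB18_7.CX RtB18_7.Ctp.right.right.right.right RtB18_7.Ce.right.right.left.right.left.left RtB18_7.CTp RtB18_7.CEr 0xfeaf45e68fd2da6bf777c1cfe9ca929f819c60feae9f62c75b78172cecf177d20e6cc72acf060d = true := by decide +kernel

theorem cB18_7_3_38 : chunkOkM (LB18_7.ctx true true 304 519 256 7 16 3367 11089 32 32) muQ true true 64 RtB18_7.Cx.left.left RtB18_7.CX RtB18_7.Ctp.right.right.right.right.left.left RtB18_7.Ce.right.right.left.right.left.right.left RtB18_7.CTp RtB18_7.CEr 0x11070623e638fd71c563f78f8b95ccc386baf630d1329c88639fd1f508fc77cbf6527ad2faf6a8806fc309f240d57361c05c4010121ee02daeb8fd1d8040977c84d33fac8f811c6faa630abf615654c5e8caf250d4217118780c5f9fd220a92377cb1c28efa8f87a88f7f9bfaf61eb3f0f1d7af250d4330177 = true := by decide +kernel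

theorem cB18_7_3_39 : chunkOkM (LB18_7.ctx true true 109 1 1 1 1 1 1 1 1) muQ true true 64 RtB18_7.Cx.left.left.left RtB18_7.CX RtB18_7.Ctp.right.right.right.right.left.left RtB18_7.Ce.right.right.left.right.left.right.right RtB18_7.CTp RtB18_7.CEr 0x21 = true := by decide +kernel

theorem cB18_7_3_40 : chunkOkM (LB18_7.ctx true true 296 263 128 7 16 3381 11167 16 32) muQ true true 64 RtB18_7.Cx.left.left.right RtB18_7.CX RtB18_7.Ctp.right.right.right.right.left.left.left RtB18_7.Ce.right.right.left.right.left.right.right.left RtB18_7.CTp RtB18_7.CEr 0x123918a3c9fd2515fc977cc3ad00808f81bf19d229e7bf640df0f0d9918fd1c5b89a77cc4e868458f81562059d8fabf640d3fe494fb88fd1f87b4477cb5eb1d308f818aa422287bbf640d4116c7596a9fd24399ee77cd6bd0ac78f881b76d7203af61e55497334af250d12c6c97989fd213a87377c6508e4088f846f6749d9a8bf640d1106841889fd2274a4077cbbb32afc8f81c2d6af8c81bf640d437 = true := by decide +kernel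

theorem cB18_7_3_41 : chunkOkM (LB18_7.ctx true true 295 263 128 7 16 3381 11219 16 32) muQ true true 64 RtB18_7.Cx.left.left.right RtB18_7.CX RtB18_7.Ctp.right.right.right.right.left.left.left RtB18_7.Ce.right.right.left.right.left.right.right.right RtB18_7.CTp RtB18_7.CEr 0x10ef8279a9fd22e295577cbf92cc048f81a8feb88e53bf613841917c9f250d1206571a89fd235425577ca0f4971e8f81bbd0e39573bf640d410455fde89fd1c314f977c85eae5358f82628dca17c3bf640def156c068fd1c3ac3e77caf66ce8a8f81ab0f7dbd1cbf640d43217 = true := by decide +kernel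

theorem cB18_7_3_42 : chunkOkM (LB18_7.ctx true true 278 131 64 7 16 1701 2795 16 32) muQ true true 64 RtB18_7.Cx.left.left.right RtB18_7.CX RtB18_7.Ctp.right.right.right.right.left.left.right RtB18_7.Ce.right.right.left.right.left.right.right RtB18_7.CTp RtB18_7.CEr 0xb0af51698fd370d31977c29e198af79f820ce60f8c3af62cf4632ef0af250d = true := by decide +kernel

theorem cB18_7_3_43 : chunkOkM (LB18_7.ctx true true 109 1 1 1 1 1 1 1 1) muQ true true 64 RtB18_7.Cx.left.left RtB18_7.CX RtB18_7.Ctp.right.right.right.right.left.right RtB18_7.Ce.right.right.left.right.left.right RtB18_7.CTp RtB18_7.CEr 0x01 = true := by decide +kernel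

theorem cB18_7_3_44 : chunkOkM (LB18_7.ctx true true 291 265 128 7 16 1687 11219 16 32) muQ true true 64 RtB18_7.Cx.left.right RtB18_7.CX RtB18_7.Ctp.right.right.right.right.left RtB18_7.Ce.right.right.left.right.left.right RtB18_7.CTp RtB18_7.CEr 0x11691169e03b1ccd8fd19feb1f77cbb6fa2bb8f815826cc0937bf640de1286a048fd24cea7b77c1ad189daf9f823489a34c90bf640d4730473114 = true := by decide +kernel

theorem cB18_7_3_45 : chunkOkM (LB18_7.ctx true true 109 1 1 1 1 1 1 1 1) muQ true true 64 RtB18_7.Cx.left RtB18_7.CX RtB18_7.Ctp.right.right.right.right.right RtB18_7.Ce.right.right.left.right.left.right RtB18_7.CTp RtB18_7.CEr 0x01 = true := by decide +kernel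

theorem cB18_7_3_46 : chunkOkM (LB18_7.ctx true true 109 1 1 1 1 1 1 1 1) muQ true true 64 RtB18_7.Cx.right RtB18_7.CX RtB18_7.Ctp.right.right.right.right RtB18_7.Ce.right.right.left.right.left RtB18_7.CTp RtB18_7.CEr 0x11 = true := by decide +kernel

theorem cB18_7_3_47 : chunkOkM (LB18_7.ctx true true 301 527 256 7 16 3381 11245 16 32) muQ true true 64 RtB18_7.Cx.left.left RtB18_7.CX RtB18_7.Ctp.right.right.right.right.left RtB18_7.Ce.right.right.left.right.right.left RtB18_7.CTp RtB18_7.CEr 0x21210110c7f5dab9fd22cacd977cc3bae5bf8f8eb7feb6b05af61b181efb0aaf250d69e0afaa868fd2f61f5777c229f70cb09f8221d5a16af9bf640d46933321721742174 = true := by decide +kernel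

theorem cB18_7_3_48 : chunkOkM (LB18_7.ctx true true 295 267 128 7 16 3381 11271 16 32) muQ true true 64 RtB18_7.Cx.left.right.left RtB18_7.CX RtB18_7.Ctp.right.right.right.right.left.left.left RtB18_7.Ce.right.right.left.right.right.left.left.left RtB18_7.CTp RtB18_7.CEr 0xd28c823d8fd1b822aa77c108f635609f84e4fce8d7caf618ba4940aaaf550def28d40d8fd1ce72aa77cc7b1b36e8f818474acddd6bf640de04f993c8fd194b45f77c9aeb27318f812a93f9b9aabf640d4d2e93c468fd185fa3277caef374228f8269513e991dbf640dd26ba5968fd180f4f677cc0f24e8c8f81d4d20510ecbf640d437 = true := by decide +kernel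

theorem cB18_7_3_49 : chunkOkM (LB18_7.ctx true true 295 267 128 7 16 3381 11323 16 32) muQ true true 64 RtB18_7.Cx.left.right.left RtB18_7.CX RtB18_7.Ctp.right.right.right.right.left.left.left RtB18_7.Ce.right.right.left.right.right.left.left.right RtB18_7.CTp RtB18_7.CEr 0xd3ecb44a8fd1a9cb3e77cd3a418ca8f8f429f6eba0af6ca60e43c99f550debae0b7c8fd124c45277c1bc7df628f81776331c2a8bf640d4b11112c58fd1f589da77c19b1b925b9f82094ba3b5daf6214b2fb95eaf550d3691066564e79fd1db14b477c874321918f81e8d4ff73b7bf640d46937 = true := by decide +kernel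

end Vale.Agent.helper4.Q4
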