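import Vale.Agent.helper4.Q4TreeM
import Vale.Agent.helper4.Q4G.PB18_7

/-!
Checks for pairs of intervals of second moments.
-/

set_option maxRecDepth 100000
set_option linter.unusedVariables false

namespace Vale.Agent.helper4.Q4

theorem cB18_7_3_50 : chunkOkM (LB18_7.ctx true true 295 267 128 7 16 3409 11323 16 32) muQ true true 64 RtB18_7.Cx.left.right.left RtB18_7.CX RtB18_7.Ctp.right.right.right.right.left.left.right RtB18_7.Ce.right.right.left.right.right.left.left RtB18_7.CTp RtB18_7.CEr 0xea2b40a18fd1ea517177ccb2908a78f814fed18efacbf640ddfd2099b8fd394fbd277c298ec3cee9f84540518999af62a330e3c8faf250d1010f4f789fd22cd3d277cd427591c8f8177773f87cdbf6409fe55d19f250d1009257989fd22b815c77cd43901ed8f81d686553e55bf640d437101bb1a739fd216341d77cc51489b28f810a0bdf6a58bf6134f3c6f39f250d4 = true := by decide +kernel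

theorem cB18_7_3_51 : chunkOkM (LB18_7.ctx true true 274 135 64 7 16 847 2821 16 32) muQ true true 64 RtB18_7.Cx.left.right.right RtB18_7.CX RtB18_7.Ctp.right.right.right.right.left.left RtB18_7.Ce.right.right.left.right.right.left.left RtB18_7.CTp RtB18_7.CEr 0x90172ea68fd1b1df8e77c18de7b9d49f865bea0125aaf6177410e82faf550d = true := by decide +kernel

theorem cB18_7_3_52 : chunkOkM (LB18_7.ctx true true 287 267 128 7 16 1687 5681 16 32) muQ true true 64 RtB18_7.Cx.left.right.left RtB18_7.CX RtB18_7.Ctp.right.right.right.right.left.left.left RtB18_7.Ce.right.right.left.right.right.left.right RtB18_7.CTp RtB18_7.CEr 0x59d6db793b8fd1d483b577cf23203888f8828b99476daf61b67f0c0e1af550d5974 = true := by decide +kernel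

theorem cB18_7_3_53 : chunkOkM (LB18_7.ctx true true 295 267 128 7 16 3409 11375 16 32) muQ true true 64 RtB18_7.Cx.left.right.left RtB18_7.CX RtB18_7.Ctp.right.right.right.right.left.left.right RtB18_7.Ce.right.right.left.right.right.left.right.left RtB18_7.CTp RtB18_7.CEr 0x1246a21b99fd22158f777c8365aac18f815f2f779e68bf640d112416e509fd1e906a677c909d1c07f82063af0bbcebf640d4f39737368fd222919477ce8544a9a8f823681564c70bf640de61fc0db8fd1def7fa77cda1b8fda8f81728da6190dbf640d43f2418c9e8fd342f70477c26627045a9f8185f0d39a94bf625560be170af250d6937 = true := by decide +kernel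

theorem cB18_7_3_54 : chunkOkM (LB18_7.ctx true true 295 267 128 7 16 3409 11427 16 32) muQ true true 64 RtB18_7.Cx.left.right.left RtB18_7.CX RtB18_7.Ctp.right.right.right.right.left.left.right RtB18_7.Ce.right.right.left.right.right.left.right.right RtB18_7.CTp RtB18_7.CEr 0xfe352cd28fd1ef3d4577c407d86c08f81d8cb2e1f7cbf61dfc893939f250d100addd559fd250741f77ce7a094ce8f8181a78e6e59bf62b5d2827f250d4e7b36aef8fd213b68277cf7408c298f825275b6ae2ebf640d3217 = true := by decide +kernel

theorem cB18_7_3_55 : chunkOkM (LB18_7.ctx true true 295 271 128 7 16 3409 11427 16 32) muQ true true 64 RtB18_7.Cx.left.right.right RtB18_7.CX RtB18_7.Ctp.right.right.right.right.left.left RtB18_7.Ce.right.right.left.right.right.left.right RtB18_7.CTp RtB18_7.CEr 0x975794368fd17ff5f077c13837f9189f88cb4898a5aaf61aa46ed1ceaf550de90add238fd203ce9977ceb3646278f813aa819c2d0bf640dc0f5a4fd8fd1ea08cf77c12f95e7489f81702fef2996bf6ac293fc169f550dd64b24838fd199ee3877cbb6109af8f814becc76be6bf6426996de69f550d437bb4122968fd197809b77cdb0891828f8128ee1157cebf640d4c17870cc8fd1ea17c977c15404e0e19f8221b821972af6200b743405af550d3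 = true := by decide +kernel

theorem cB18_7_3_56 : chunkOkM (LB18_7.ctx true true 265 67 32 7 16 861 1417 16 32) muQ true true 64 RtB18_7.Cx.left.right RtB18_7.CX RtB18_7.Ctp.right.right.right.right.left.right RtB18_7.Ce.right.right.left.right.right.left RtB18_7.CTp RtB18_7.CEr 0x11ef9dda39fd2a9868077c14f14de8e9f897fd2dfe49f62a38e907e1af250d = true := by decide +kernel

theorem cB18_7_3_57 : chunkOkM (LB18_7.ctx true true 109 1 1 1 1 1 1 1 1) muQ true true 64 RtB18_7.Cx.left.left RtB18_7.CX RtB18_7.Ctp.right.right.right.right.left RtB18_7.Ce.right.right.left.right.right.right RtB18_7.CTp RtB18_7.CEr 0x21 = true := by decide +kernel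

theorem cB18_7_3_58 : chunkOkM (LB18_7.ctx true true 109 1 1 1 1 1 1 1 1) muQ true true 64 RtB18_7.Cx.left.right.left RtB18_7.CX RtB18_7.Ctp.right.right.right.right.left RtB18_7.Ce.right.right.left.right.right.right RtB18_7.CTp RtB18_7.CEr 0x21 = true := by decide +kernel

theorem cB18_7_3_59 : chunkOkM (LB18_7.ctx true true 295 271 128 7 16 3409 11479 16 32) muQ true true 64 RtB18_7.Cx.left.right.right RtB18_7.CX RtB18_7.Ctp.right.right.right.right.left.left RtB18_7.Ce.right.right.left.right.right.right RtB18_7.CTp RtB18_7.CEr 0x69e3353ac78fd2246d0e77c112649dac9f85791a6360baf61cc1f9c405af550d697c9e56a8e8fd1f73bfc77c1385875639f86844dcd2a9af616a24c0dd4af550df34ee8d88fd185fca377c22f739caad2bf630df0726d5a8fd21b1c4977ce3f2fe928f81d5ccc2f170bf640d4c9f7508a8fd1c860e877cf778b4648f88f4c81f41daf61bcdc91a47af550d3742d93871abdaf05b34 = true := by decide +kernel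

theorem cB18_7_3_60 : chunkOkM (LB18_7.ctx true true 291 271 128 7 16 1715 11479 16 32) muQ true true 64 RtB18_7.Cx.left.right.right RtB18_7.CX RtB18_7.Ctp.right.right.right.right.left.right.left RtB18_7.Ce.right.right.left.right.right.right.left.left RtB18_7.CTp RtB18_7.CEr 0xc37fe76419f06b101c2db249fd277d8b477c104c432de9f815201330382bf6d62779d7a9f250df202504e8fd249ea1a77c10f6c30f19f8e728986359af6fe71b72519f250d47 = true := by decide +kernel

theorem cB18_7_3_61 : chunkOkM (LB18_7.ctx true true 301 539 256 7 16 3437 11531 16 32) muQ true true 64 RtB18_7.Cx.left.right.right RtB18_7.CX RtB18_7.Ctp.right.right.right.right.left.right.left RtB18_7.Ce.right.right.left.right.right.right.left.right RtB18_7.CTp RtB18_7.CEr 0x11513dbf09fd312556277c173b55ca39f8118ead08231bf663375f8409f250dd7fc55e38fd24db16c77c174a4ae7f9f816479984adfbf640da9e3675b8fd2de6e5077c22f2020539f81b7ba55b471bf640d4315250b9719fd1f01b6877cf1639d88e5af635de7d429daf240dfd59d6eb8fd25f652177cf439a5368f819514dc48d4bf6615f74a38f250d32177 = true := by decide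 +kernel

theorem cB18_7_3_62 : chunkOkM (LB18_7.ctx true true 278 135 64 7 16 1729 2873 16 32) muQ true true 64 RtB18_7.Cx.left.right.right RtB18_7.CX RtB18_7.Ctp.right.right.right.right.left.right.right RtB18_7.Ce.right.right.left.right.right.right.left RtB18_7.CTp RtB18_7.CEr 0x1cc797190aaf00b = true := by decide +kernel

end Vale.Agent.helper4.Q4
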