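import Vale.Agent.helper4.Q4TreeM
import Vale.Agent.helper4.Q4G.PB18_7

/-!
Checks for pairs of intervals of second moments.
-/

set_option maxRecDepth 100000
set_option linter.unusedVariables false

namespace Vale.Agent.helper4.Q4

theorem cB18_7_3_63 : chunkOkM (LB18_7.ctx true true 295 271 128 7 16 3437 11583 16 32) muQ true true 64 RtB18_7.Cx.left.right.right RtB18_7.CX RtB18_7.Ctp.right.right.right.right.left.right RtB18_7.Ce.right.right.left.right.right.right.right RtB18_7.CTp RtB18_7.CEr 0x3ce0431861af02be83a14e98fd26ba53177c110eb3f309f821c1977cb6bbf6db4a90fc79f250d950513318fd1a7145377ca6e93dc88f81b2232ace28bf640d1156f00f49fd274acbb77cd91aba808f8185142a1282bf62d760f28d9f250d469d3862a1e8fd1ed99a877c8c13f1e18f8247e1a3c583bf640d4343217 = true := by decide +kernel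

theorem cB18_7_3_64 : chunkOkM (LB18_7.ctx true true 109 1 1 1 1 1 1 1 1) muQ true true 64 RtB18_7.Cx.left RtB18_7.CX RtB18_7.Ctp.right.right.right.right.right RtB18_7.Ce.right.right.left.right.right RtB18_7.CTp RtB18_7.CEr 0x01 = true := by decide +kernel

theorem cB18_7_3_65 : chunkOkM (LB18_7.ctx true true 255 35 16 7 16 427 1417 16 32) muQ true true 64 RtB18_7.Cx.right RtB18_7.CX RtB18_7.Ctp.right.right.right.right.left RtB18_7.Ce.right.right.left.right.right.left RtB18_7.CTp RtB18_7.CEr 0x5fa0ef858fd3d4093028f827e61d1829af61f77d94664af540d = true := by decide +kernel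

theorem cB18_7_3_66 : chunkOkM (LB18_7.ctx true true 274 139 64 7 16 847 2899 16 32) muQ true true 64 RtB18_7.Cx.right.left RtB18_7.CX RtB18_7.Ctp.right.right.right.right.left.left RtB18_7.Ce.right.right.left.right.right.right RtB18_7.CTp RtB18_7.CEr 0x772347ae8fd169a6e577cc3df9d118f81855f90ec9af62739521175af550d4581b4228fd3e6c229c29af6296f436a7baf530d9897bf598fd249229a77c19e49ab749f824586efbdbaf623a534978faf550d74 = true := by decide +kernel

theorem cB18_7_3_67 : chunkOkM (LB18_7.ctx true true 268 69 32 7 16 861 2873 16 32) muQ true true 64 RtB18_7.Cx.right.left RtB18_7.CX RtB18_7.Ctp.right.right.right.right.left.right RtB18_7.Ce.right.right.left.right.right.right.left RtB18_7.CTp RtB18_7.CEr 0x0 = true := by decide +kernel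

theorem cB18_7_3_68 : chunkOkM (LB18_7.ctx true true 295 275 128 7 16 3437 11635 16 32) muQ true true 64 RtB18_7.Cx.right.left.left RtB18_7.CX RtB18_7.Ctp.right.right.right.right.left.right.left RtB18_7.Ce.right.right.left.right.right.right.right RtB18_7.CTp RtB18_7.CEr 0xabaa4bab8fd2a2949777c20d6a9f729f86b09ef9127af61b54945893af550dc7c3daf18fd205e93077cda40aaf68f81e827f0046fbf640dd17bcf7f8fd231023077c122a72e9f9f815e9bcd2891bf640d4ae7b49cb8fd2b8ecbb77c21d8823ec9f8647621504eaf622641db6f0af550d370116e985ae9fd23d117e77ca49712bf8f81285c395833bf640ddbfcdf758fd23bae6077c1138048e79f861bc824c56af61a49a06569af550d374 = true := by decide +kernel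

theorem cB18_7_3_69 : chunkOkM (LB18_7.ctx true true 279 137 64 7 16 1729 2899 16 32) muQ true true 64 RtB18_7.Cx.right.left.left RtB18_7.CX RtB18_7.Ctp.right.right.right.right.left.right.right RtB18_7.Ce.right.right.left.right.right.right.right RtB18_7.CTp RtB18_7.CEr 0xf79a04968fd27ae77177c130ab3dcf9f86a515e3cc4af61920843720af250d = true := by decide +kernel

theorem cB18_7_3_70 : chunkOkM (LB18_7.ctx true true 274 139 64 7 16 861 2899 16 32) muQ true true 64 RtB18_7.Cx.right.left.right RtB18_7.CX RtB18_7.Ctp.right.right.right.right.left.right RtB18_7.Ce.right.right.left.right.right.right.right RtB18_7.CTp RtB18_7.CEr 0x0 = true := by decide +kernel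

theorem cB18_7_3_71 : chunkOkM (LB18_7.ctx true true 261 71 32 7 16 427 1443 16 32) muQ true true 64 RtB18_7.Cx.right.right RtB18_7.CX RtB18_7.Ctp.right.right.right.right.left RtB18_7.Ce.right.right.left.right.right.right RtB18_7.CTp RtB18_7.CEr 0x9860c1a7fd969ccf558f8925d32d7f71c062cd169af627fd8b5537af550d = true := by decide +kernel

theorem cB18_7_3_72 : chunkOkM (LB18_7.ctx true true 109 1 1 1 1 1 1 1 1) muQ true true 64 RtB18_7.Cx.right RtB18_7.CX RtB18_7.Ctp.right.right.right.right.right RtB18_7.Ce.right.right.left.right.right RtB18_7.CTp RtB18_7.CEr 0x11 = true := by decide +kernel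

theorem cB18_7_3_73 : chunkOkM (LB18_7.ctx true true 109 1 1 1 1 1 1 1 1) muQ true true 64 RtB18_7.Cx RtB18_7.CX RtB18_7.Ctp.right.right.left RtB18_7.Ce.right.right.right RtB18_7.CTp RtB18_7.CEr 0x59 = true := by decide +kernel

theorem cB18_7_3_74 : chunkOkM (LB18_7.ctx true true 109 1 1 1 1 1 1 1 1) muQ true true 64 RtB18_7.Cx.left RtB18_7.CX RtB18_7.Ctp.right.right.right RtB18_7.Ce.right.right.right.left RtB18_7.CTp RtB18_7.CEr 0x21 = true := by decide +kernel

theorem cB18_7_3_75 : chunkOkM (LB18_7.ctx true true 252 35 16 7 16 413 741 16 32) muQ true true 64 RtB18_7.Cx.right RtB18_7.CX RtB18_7.Ctp.right.right.right.left RtB18_7.Ce.right.right.right.left RtB18_7.CTp RtB18_7.CEr 0x591c0260028fd8e7a26288f81e497f0a8f7d25bca6529f635a0f35a18af52dacbdcbe2af460d4934 = true := by decide +kernel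

theorem cB18_7_3_76 : chunkOkM (LB18_7.ctx true true 265 69 32 7 16 847 1469 16 32) muQ true true 64 RtB18_7.Cx.right.left RtB18_7.CX RtB18_7.Ctp.right.right.right.right.left.left RtB18_7.Ce.right.right.right.left.left.left RtB18_7.CTp RtB18_7.CEr 0x5b6b6f7c8fd17b8b5377c16019a7cf9f81918574542af629a75ce57aaf550d = true := by decide +kernel

theorem cB18_7_3_77 : chunkOkM (LB18_7.ctx true true 288 275 128 7 16 1715 5863 16 32) muQ true true 64 RtB18_7.Cx.right.left.left RtB18_7.CX RtB18_7.Ctp.right.right.right.right.left.right.left RtB18_7.Ce.right.right.right.left.left.left.left RtB18_7.CTp RtB18_7.CEr 0xa432ad4f8fd1fc624377c140f306239f8a4685a1aaeaf62379dd9051af550ddd13662c8fd288630677c163e083259f83da178b6a8af61ef336a9a3af550dd737dc458fd2ac75b877c1ab7108ae9f895736f98bcaf618bad3de5eaf550d74 = true := by decide +kernel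

theorem cB18_7_3_78 : chunkOkM (LB18_7.ctx true true 296 275 128 7 16 3465 11739 16 32) muQ true true 64 RtB18_7.Cx.right.left.left RtB18_7.CX RtB18_7.Ctp.right.right.right.right.left.right.right RtB18_7.Ce.right.right.right.left.left.left.left RtB18_7.CTp RtB18_7.CEr 0xdde6a85e8fd29a878a77c1530189989f8abe0a852aeaf61c976b711faf250d9a1f5d288fd2604f1e77c16eab2bcd9f8404a8ed4536bf640dcc5080428fd2f8027c77c211cbd4839f81a7c3f60376bf640d43217e2f4c2d38fd26b0ce277c141f15a4c9f8fee854a312af640d2e8b89d2eaaf02bfec4c3db8fd314a60377c1e5c69a539f81fac153ae3ebf640deb90aecb8fd2933c4d77c135d037b49f81adae610bcebf6dc9e118829f250d4374 = true := by decide +kernel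

theorem cB18_7_3_79 : chunkOkM (LB18_7.ctx true true 279 139 64 7 16 1729 2925 16 32) muQ true true 64 RtB18_7.Cx.right.left.right RtB18_7.CX RtB18_7.Ctp.right.right.right.right.left.right RtB18_7.Ce.right.right.right.left.left.left.left RtB18_7.CTp RtB18_7.CEr 0xaec307398fd29a159377c1e8fc1d439f867f1983d0aaf615940582adaf550d8cf862848fd2a73b1677c24e137e889f8268d5a872baf620ae8efa06af550d3 = true := by decide +kernel

theorem cB18_7_3_80 : chunkOkM (LB18_7.ctx true true 292 279 128 7 16 3465 5915 16 32) muQ true true 64 RtB18_7.Cx.right.left RtB18_7.CX RtB18_7.Ctp.right.right.right.right.left.right RtB18_7.Ce.right.right.right.left.left.left.right RtB18_7.CTp RtB18_7.CEr 0xaa74a72b8fd2671cb377c1deb7709d9f84b3d14a65caf61aaa6fe857af550de3822f5a8fd2c78e9d77c1758843779f85f2a24eee2af61a62485c04af550d7af43f8bc8fd1e9c0d777c16d101feb9f8a22f038bf1af61198dae67faf550dd76953428fd298b1b077c16846f1e99f8ef7f4528edaf6b3b3d432b9f550dd46492588fd2a03e8077c194b3b33a9f82324692c26af6214a1777ebaf550d3744ec097f38fdb2a2a987f82b8972298daf623cb19c9baaf540d321ebc908708fd2a1487177c14bb8bb7f9f816aa780916fbf6f104b1fb79f250d69321745937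 = true := by decide +kernel

end Vale.Agent.helper4.Q4
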