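import Vale.Agent.helper4.Q4TreeM
import Vale.Agent.helper4.Q4G.PB18_7

/-!
Checks for pairs of intervals of second moments.
-/

set_option maxRecDepth 100000
set_option linter.unusedVariables false

namespace Vale.Agent.helper4.Q4

theorem cB18_7_3_86 : chunkOkM (LB18_7.ctx true true 282 143 64 7 16 1757 6019 16 32) muQ true true 64 RtB18_7.Cx.right.right RtB18_7.CX RtB18_7.Ctp.right.right.right.right.right.left RtB18_7.Ce.right.right.right.left.left.right.right RtB18_7.CTp RtB18_7.CEr 0x8ee64fd08fd1095cbc77c268563e18f83ac470e076af61e3bd6afc9af550ddc1700b48fd1f0ac6277c5e3c04b78f8333ca4af30af617010e697faf51047d88655af260d10a7a501c9fd22ba0e977c4601c6208f8733c9a4cecaf620046ca9b7af250d4dacba4b28fd1eb27d777c311666138f82edecb5c46af622d6680647af550df184b6f08fd28bc9be77cb6352d7d8f8361f184934af620d828d328af550d437 = true := by decide +kernel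

theorem cB18_7_3_87 : chunkOkM (LB18_7.ctx true true 266 71 32 7 16 889 1495 16 32) muQ true true 64 RtB18_7.Cx.right.right RtB18_7.CX RtB18_7.Ctp.right.right.right.right.right.right RtB18_7.Ce.right.right.right.left.left.right RtB18_7.CTp RtB18_7.CEr 0x1064b533b8af00b = true := by decide +kernel

theorem cB18_7_3_88 : chunkOkM (LB18_7.ctx true true 109 1 1 1 1 1 1 1 1) muQ true true 64 RtB18_7.Cx.right.left RtB18_7.CX RtB18_7.Ctp.right.right.right.right RtB18_7.Ce.right.right.right.left.right RtB18_7.CTp RtB18_7.CEr 0x21 = true := by decide +kernel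

theorem cB18_7_3_89 : chunkOkM (LB18_7.ctx true true 259 71 32 7 16 427 767 16 32) muQ true true 64 RtB18_7.Cx.right.right RtB18_7.CX RtB18_7.Ctp.right.right.right.right.left RtB18_7.Ce.right.right.right.left.right RtB18_7.CTp RtB18_7.CEr 0xb4f9cff98fdffce458c1e33ca0d4aaf62f56de22e1af540d = true := by decide +kernel

theorem cB18_7_3_90 : chunkOkM (LB18_7.ctx true true 288 283 128 7 16 1757 6071 16 32) muQ true true 64 RtB18_7.Cx.right.right RtB18_7.CX RtB18_7.Ctp.right.right.right.right.right.left RtB18_7.Ce.right.right.right.left.right.left RtB18_7.CTp RtB18_7.CEr 0xe01cfa2b8fd1f4806277c3203d6da24af62472c3d92caf540d217ef214bd58fd298a0f477c860022618f83cc1a6e337af6216afb494baf550de7b2facb8fd1abe19b77c7a1dc765a9af616c5988902af540d4a2a24e7d8fd16fae7277c1ec8ea7886af62710c63298af540d3d1af2d848fd21c958377c6cad2f638f8a00621292caf61355a34ba1af51536f79454af260dced48dc38fd290131377c11e1eecff9f863cde6ea06af6172ff459e6af5a4d1e0c489f260d49d35c4378fd3240f4277c248329a889f81300540859af627f64fcceeaf550d321774 = true := by decide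 +kernel

end Vale.Agent.helper4.Q4
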