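import Vale.Agent.helper4.Q4TreeM
import Vale.Agent.helper4.Q4G.PB18_7

/-!
Checks for pairs of intervals of second moments.
-/

set_option maxRecDepth 100000
set_option linter.unusedVariables false

namespace Vale.Agent.helper4.Q4

theorem cB18_7_1_5 : chunkOkM (LB18_7.ctx true false 277 67 32 7 16 413 1339 32 512) muQ true false 64 RtB18_7.Cx RtB18_7.CX RtB18_7.Ctp.right.right.right RtB18_7.Ce.right.right.left.left RtB18_7.CTn.left.left.left RtB18_7.CEr.left.left.left.left 0x1103bb9277739fd26ede668c1b62405ae6af61a6f993d33af540d1f58d68622af62b123d797caf5126403a075af430d4373a58c2b431b52f7af62f7e9536dcaf530d7165172e59eaf6274320c012af520d4376943 = true := by decide +kernel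

theorem cB18_7_1_6 : chunkOkM (LB18_7.ctx true false 277 67 32 7 16 399 1391 32 512) muQ true false 64 RtB18_7.Cx.left RtB18_7.CX RtB18_7.Ctp.right.right.right.left.left RtB18_7.Ce.right.right.left.right.left RtB18_7.CTn.left.left.left RtB18_7.CEr.left.left.left.left 0x3931b20563af05b1226b95651af63257db6555af5adb7461ea9f430d312990eec1af05b74 = true := by decide +kernel

theorem cB18_7_1_7 : chunkOkM (LB18_7.ctx true false 294 131 64 7 16 1673 2743 32 512) muQ true false 64 RtB18_7.Cx.left RtB18_7.CX RtB18_7.Ctp.right.right.right.left.right RtB18_7.Ce.right.right.left.right.left.left RtB18_7.CTn.left.left.left RtB18_7.CEr.left.left.left.left 0x32ee014ae5af6229ac2686caf520d17430e40a1af05b986e1e28b9fd29bed068c15fceb0170af611aa4286ebaf5e1c9ba9f29f250d2c28f8877ce799d06709f61d6dc7054daf530d374781496139fd1bc7cf68c292dd8d844af6135831b22aaf540d4e56ea3118fd4543e168c13b9f3e9fbaf620e1656458af540d37 = true := by decide +kernel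

theorem cB18_7_1_8 : chunkOkM (LB18_7.ctx true false 290 131 64 7 16 833 2795 32 512) muQ true false 64 RtB18_7.Cx.left RtB18_7.CX RtB18_7.Ctp.right.right.right.left.right RtB18_7.Ce.right.right.left.right.left.right RtB18_7.CTn.left.left.left RtB18_7.CEr.left.left.left.left 0xd973172729fd93420168cdbef50b549f6230d653264af540d2179d58c7f76e9c6f9f629962ca2efaf530d3222d354251afd3e5b0068c2b1f2e7925af61ddb28f7e5af540d65ff02d939fd3189858c1f4df22934af617b7e84610af540d743c2023b9fdfa67758c35a2f106f6af613f72d464aaf5b0618e6239f250d742d1cba5f2aaf05b37 = true := by decide +kernel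

theorem cB18_7_1_9 : chunkOkM (LB18_7.ctx true false 268 35 16 7 16 413 689 32 512) muQ true false 64 RtB18_7.Cx.right RtB18_7.CX RtB18_7.Ctp.right.right.right.left RtB18_7.Ce.right.right.left.right.left RtB18_7.CTn.left.left.left RtB18_7.CEr.left.left.left.left 0x14bda49923af62c2d6ec3a1af520d493 = true := by decide +kernel

theorem cB18_7_1_10 : chunkOkM (LB18_7.ctx true false 282 71 32 7 16 833 1443 32 512) muQ true false 64 RtB18_7.Cx RtB18_7.CX RtB18_7.Ctp.right.right.right.left RtB18_7.Ce.right.right.left.right.right RtB18_7.CTn.left.left.left RtB18_7.CEr.left.left.left.left 0x55b3558c1a6297b753af62addb11c6daf52c30b68098af440d1ae0a58c1839ad78ddaf63591711bf7af530d781864f995faf04b70f5458ce7e5b573c9f627ac904c83af530d8146a04959f62fb80d9ae3af5f6e8d53f49f430d37421311b0d39fd816ee58cf7ae20b879f629db0c307faf540d77f4c758c25f7affcecdbf5794231aff20bf430d3 = true := by decide +kernel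

theorem cB18_7_1_11 : chunkOkM (LB18_7.ctx true false 284 67 32 7 16 847 2795 32 512) muQ true false 64 RtB18_7.Cx RtB18_7.CX RtB18_7.Ctp.right.right.right.right RtB18_7.Ce.right.right.left.right.left RtB18_7.CTn.left.left.left RtB18_7.CEr.left.left.left.left 0x1101ef175a40a9f05b015c2f9584a9fd26ec1068c1862878047af613aa3bf5b7af5cc96a9d6b9f250d31915568c148339bbaaaf81567513747af61320933ea7af5efe18ee4c9f250d437314a9ec3622af00b47 = true := by decide +kernel

theorem cB18_7_1_12 : chunkOkM (LB18_7.ctx true false 290 135 64 7 16 861 2847 32 512) muQ true false 64 RtB18_7.Cx.left RtB18_7.CX RtB18_7.Ctp.right.right.right.right RtB18_7.Ce.right.right.left.right.right RtB18_7.CTn.left.left.left RtB18_7.CEr.left.left.left.left 0x01466709e719fd301fcd68c152daf493caf6179427c333af5e313446be9f250d1be5c4e89bafde3a03668cda1e2fe6b9f62527c0b211af540d32172172466bd178faf02b3451ef7ed9fd173ec368c2263bafacdaf618ca1d8356af540d505a0fb769fd127ed768c200d1bb6e8af618d2d3430caf582286caf79f250d74946cce9b9fd1ba0c068c2bc374f384af615b36d053aaf54335a81e09f250d4394cc162919fd2259a968c1b41516a17af61511cc8fdfaf51473078a7eaf250d743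 = true := by decide +kernel

end Vale.Agent.helper4.Q4
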