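import Vale.Agent.helper4.Q4TreeM
import Vale.Agent.helper4.Q4G.PB18_7

/-!
Checks for pairs of intervals of second moments.
-/

set_option maxRecDepth 100000
set_option linter.unusedVariables false

namespace Vale.Agent.helper4.Q4

theorem cB18_7_1_13 : chunkOkM (LB18_7.ctx true false 281 71 32 7 16 861 1443 32 512) muQ true false 64 RtB18_7.Cx.right RtB18_7.CX RtB18_7.Ctp.right.right.right.right RtB18_7.Ce.right.right.left.right.right RtB18_7.CTn.left.left.left RtB18_7.CEr.left.left.left.left 0x111307f0fb02af05b2b9f7c8959fd39041e68c140b23a691af61a387f0b83af58687f46f49f250d3534c1a029fdb67c958ce03b78eaa9f6223be5e9aeaf540d379f1e7d53a9f05b43 = true := by decide +kernel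

theorem cB18_7_1_14 : chunkOkM (LB18_7.ctx true false 109 1 1 1 1 1 1 1 1) muQ true false 64 RtB18_7.Cx RtB18_7.CX RtB18_7.Ctp.right.right.left RtB18_7.Ce.right.right.right RtB18_7.CTn.left.left.left RtB18_7.CEr.left.left.left.left 0x59 = true := by decide +kernel

theorem cB18_7_1_15 : chunkOkM (LB18_7.ctx true false 109 1 1 1 1 1 1 1 1) muQ true false 64 RtB18_7.Cx.left RtB18_7.CX RtB18_7.Ctp.right.right.right RtB18_7.Ce.right.right.right.left RtB18_7.CTn.left.left.left RtB18_7.CEr.left.left.left.left 0x21 = true := by decide +kernel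

theorem cB18_7_1_16 : chunkOkM (LB18_7.ctx true false 261 35 16 7 16 203 377 32 512) muQ true false 64 RtB18_7.Cx.right RtB18_7.CX RtB18_7.Ctp.right.right.right.left RtB18_7.Ce.right.right.right.left RtB18_7.CTn.left.left.left RtB18_7.CEr.left.left.left.left 0x13e2a1d13eaf63d6e2cb667af5215714f76aaf430d = true := by decide +kernel

theorem cB18_7_1_17 : chunkOkM (LB18_7.ctx true false 285 71 32 7 16 861 2951 32 512) muQ true false 64 RtB18_7.Cx.right RtB18_7.CX RtB18_7.Ctp.right.right.right.right.left RtB18_7.Ce.right.right.right.left.left.left RtB18_7.CTn.left.left.left RtB18_7.CEr.left.left.left.left 0xeed3ed198fd92c9158c183b4862d7af62456276ca8af540d15a4fb68c75b040cf09f62c532fbc9daf530d356d16d68c24ba54160baf61cf91cd690af530d895f68d549fd1d8e8a68c2077e457e0af61ae1e9286baf547c50f96b9f250d42c8e51faa5af05b37 = true := by decide +kernel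

theorem cB18_7_1_18 : chunkOkM (LB18_7.ctx true false 282 71 32 7 16 861 1495 32 512) muQ true false 64 RtB18_7.Cx.right RtB18_7.CX RtB18_7.Ctp.right.right.right.right.left RtB18_7.Ce.right.right.right.left.left.right RtB18_7.CTn.left.left.left RtB18_7.CEr.left.left.left.left 0x61cf78ad49fd46824768c7116348c59f62912f7d3efaf540d33db18881aaf05b36a57c2bb89fd349e8e68c1e1620daa6af623727821d0af540d7 = true := by decide +kernel

theorem cB18_7_1_19 : chunkOkM (LB18_7.ctx true false 278 71 32 7 16 441 1495 32 512) muQ true false 64 RtB18_7.Cx.right RtB18_7.CX RtB18_7.Ctp.right.right.right.right.right RtB18_7.Ce.right.right.right.left.left RtB18_7.CTn.left.left.left RtB18_7.CEr.left.left.left.left 0x98cc6c0e89fd37353d68c1e00ad8221af61b92329ae1af5814c3e9669f250d7f5d4ea759fd3ed20968c16e4181538af619a3c24f86af514ba06249daf250d759eda22c69fd8f33e468c3b2fc55029f611bbd73384af518e4ffd71baf250d4 = true := by decide +kernel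

theorem cB18_7_1_20 : chunkOkM (LB18_7.ctx true false 282 71 32 7 16 889 1547 32 512) muQ true false 64 RtB18_7.Cx.right RtB18_7.CX RtB18_7.Ctp.right.right.right.right RtB18_7.Ce.right.right.right.left.right RtB18_7.CTn.left.left.left RtB18_7.CEr.left.left.left.left 0xc6c27d68c2a91010992af62264e640b0af5ef5da41809f240d38877968c17dc624646af619e813c073af5e0733188a9f240dd1b1854639fd3aedc368c1dbc0ace26af6214c0f24c5af540d343c2bcf73c7af05b3217 = true := by decide +kernel

theorem cB18_7_1_21 : chunkOkM (LB18_7.ctx true false 109 1 1 1 1 1 1 1 1) muQ true false 64 RtB18_7.Cx RtB18_7.CX RtB18_7.Ctp.right.right.right RtB18_7.Ce.right.right.right.right RtB18_7.CTn.left.left.left RtB18_7.CEr.left.left.left.left 0x21 = true := by decide +kernel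

theorem cB18_7_1_22 : chunkOkM (LB18_7.ctx true false 109 1 1 1 1 1 1 1 1) muQ true false 64 RtB18_7.Cx RtB18_7.CX RtB18_7.Ctp.right.right RtB18_7.Ce.right RtB18_7.CTn.left.left.left RtB18_7.CEr.left.left.left.right 0x5a = true := by decide +kernel

theorem cB18_7_1_23 : chunkOkM (LB18_7.ctx true false 109 1 1 1 1 1 1 1 1) muQ true false 64 RtB18_7.Cx RtB18_7.CX RtB18_7.Ctp.right.right RtB18_7.Ce.right RtB18_7.CTn.left.left.left RtB18_7.CEr.left.left.right 0x5a = true := by decide +kernel

theorem cB18_7_1_24 : chunkOkM (LB18_7.ctx true false 109 1 1 1 1 1 1 1 1) muQ true false 64 RtB18_7.Cx RtB18_7.CX RtB18_7.Ctp.right.right RtB18_7.Ce.right RtB18_7.CTn.left.left.left RtB18_7.CEr.left.right 0x5a = true := by decide +kernel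

theorem cB18_7_1_25 : chunkOkM (LB18_7.ctx true false 109 1 1 1 1 1 1 1 1) muQ true false 64 RtB18_7.Cx RtB18_7.CX RtB18_7.Ctp.right.right RtB18_7.Ce.right RtB18_7.CTn.left.left.left RtB18_7.CEr.right 0x52 = true := by decide +kernel

theorem cB18_7_1_26 : chunkOkM (LB18_7.ctx true false 109 1 1 1 1 1 1 1 1) muQ true false 64 RtB18_7.Cx RtB18_7.CX RtB18_7.Ctp.right.right RtB18_7.Ce.right RtB18_7.CTn.left.left.right RtB18_7.CEr 0x5a = true := by decide +kernel

theorem cB18_7_1_27 : chunkOkM (LB18_7.ctx true false 109 1 1 1 1 1 1 1 1) muQ true false 64 RtB18_7.Cx RtB18_7.CX RtB18_7.Ctp.right.right RtB18_7.Ce.right RtB18_7.CTn.left.right RtB18_7.CEr 0x5a = true := by decide +kernel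

theorem cB18_7_1_28 : chunkOkM (LB18_7.ctx true false 109 1 1 1 1 1 1 1 1) muQ true false 64 RtB18_7.Cx RtB18_7.CX RtB18_7.Ctp.right.right RtB18_7.Ce.right RtB18_7.CTn.right RtB18_7.CEr 0x5a = true := by decide +kernel

theorem cB18_7_0_0 : chunkOkM (LB18_7.ctx false false 109 1 1 1 1 1 1 1 1) muQ false false 64 RtB18_7.Cx RtB18_7.CX RtB18_7.Ctn RtB18_7.Ce RtB18_7.CTn RtB18_7.CEr 0x49 = true := by decide +kernel

end Vale.Agent.helper4.Q4
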