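import Vale.Agent.helper4.Q4TreeM
import Vale.Agent.helper4.Q4G.PB18_7_0
import Vale.Agent.helper4.Q4G.PB18_7_1
import Vale.Agent.helper4.Q4G.PB18_7_2
import Vale.Agent.helper4.Q4G.PB18_7_3
import Vale.Agent.helper4.Q4G.PB18_7_4
import Vale.Agent.helper4.Q4G.PB18_7_5
import Vale.Agent.helper4.Q4G.PB18_7_6_0
import Vale.Agent.helper4.Q4G.PB18_7_6_1
import Vale.Agent.helper4.Q4G.PB18_7_6_2
import Vale.Agent.helper4.Q4G.PB18_7_6_3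
import Vale.Agent.helper4.Q4G.PB18_7_7
import Vale.Agent.helper4.Q4G.PB18_7_8

/-!
Checks for pairs of intervals of second moments.
-/

set_option maxRecDepth 100000
set_option linter.unusedVariables false

namespace Vale.Agent.helper4.Q4

theorem covB18_7 : LB18_7.Full muQ.val RtB18_7 := ⟨(LitT.Cov.split_t (LitT.cov_of_chunkM cB18_7_3_0) (LitT.Cov.split_t (LitT.cov_of_chunkM cB18_7_3_1) (LitT.Cov.split_e (LitT.cov_of_chunkM cB18_7_3_2) (LitT.Cov.split_e (LitT.cov_of_chunkM cB18_7_3_3) (LitT.Cov.split_e (LitT.Cov.split_t (LitT.cov_of_chunkM cB18_7_3_4) (LitT.Cov.split_e (LitT.Cov.split_t (LitT.Cov.split_e (LitT.cov_of_chunkM cB18_7_3_5) (LitT.Cov.split_t (LitT.cov_of_chunkM cB18_7_3_6) (LitT.cov_of_chunkM cB18_7_3_7))) (LitT.cov_of_chunkM cB18_7_3_8)) (LitT.Cov.split_t (LitT.Cov.split_e (LitT.Cov.split_x (LitT.Cov.split_t (LitT.cov_of_chunkM cB18_7_3_9)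 (LitT.Cov.split_e (LitT.Cov.split_x (LitT.Cov.split_t (LitT.Cov.split_e (LitT.Cov.split_x (LitT.Cov.split_t (LitT.cov_of_chunkM cB18_7_3_10) (LitT.Cov.split_e (LitT.cov_of_chunkM cB18_7_3_11) (LitT.cov_of_chunkM cB18_7_3_12))) (LitT.cov_of_chunkM cB18_7_3_13)) (LitT.cov_of_chunkM cB18_7_3_14)) (LitT.Cov.split_e (LitT.Cov.split_x (LitT.Cov.split_e (LitT.cov_of_chunkM cB18_7_3_15) (LitT.Cov.split_t (LitT.cov_of_chunkM cB18_7_3_16) (LitT.cov_of_chunkM cB18_7_3_17))) (LitT.cov_of_chunkM cB18_7_3_18)) (LitT.Cov.split_x (LitT.Cov.split_t (LitT.Cov.split_e (LitT.Cov.split_x (LitT.cov_of_chunkM cB18_7_3_19) (LitT.cov_of_chunkM cB18_7_3_20)) (LitT.cov_of_chunkM cB18_7_3_21)) (LitT.Cov.split_e (LitT.cov_of_chunkM cB18_7_3_22) (LitT.cov_of_chunkM cB18_7_3_23))) (LitT.cov_of_chunkM cB18_7_3_24)))) (LitT.cov_of_chunkM cB18_7_3_25)) (LitT.Cov.split_x (LitT.Cov.split_t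 (LitT.cov_of_chunkM cB18_7_3_26) (LitT.Cov.split_e (LitT.Cov.split_x (LitT.cov_of_chunkM cB18_7_3_27) (LitT.Cov.split_t (LitT.cov_of_chunkM cB18_7_3_28) (LitT.Cov.split_e (LitT.cov_of_chunkM cB18_7_3_29) (LitT.cov_of_chunkM cB18_7_3_30)))) (LitT.cov_of_chunkM cB18_7_3_31))) (LitT.cov_of_chunkM cB18_7_3_32)))) (LitT.cov_of_chunkM cB18_7_3_33)) (LitT.Cov.split_t (LitT.cov_of_chunkM cB18_7_3_34) (LitT.Cov.split_x (LitT.cov_of_chunkM cB18_7_3_35) (LitT.cov_of_chunkM cB18_7_3_36)))) (LitT.Cov.split_e (LitT.Cov.split_x (LitT.Cov.split_e (LitT.cov_of_chunkM cB18_7_3_37) (LitT.Cov.split_t (LitT.Cov.split_x (LitT.Cov.split_t (LitT.Cov.split_e (LitT.cov_of_chunkM cB18_7_3_38) (LitT.Cov.split_x (LitT.cov_of_chunkM cB18_7_3_39) (LitT.Cov.split_t (LitT.Cov.split_e (LitT.cov_of_chunkM cB18_7_3_40) (LitT.cov_of_chunkM cB18_7_3_41)) (LitT.cov_of_chunkM cB18_7_3_42))))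 (LitT.cov_of_chunkM cB18_7_3_43)) (LitT.cov_of_chunkM cB18_7_3_44)) (LitT.cov_of_chunkM cB18_7_3_45))) (LitT.cov_of_chunkM cB18_7_3_46)) (LitT.Cov.split_x (LitT.Cov.split_t (LitT.Cov.split_e (LitT.Cov.split_x (LitT.cov_of_chunkM cB18_7_3_47) (LitT.Cov.split_t (LitT.Cov.split_e (LitT.Cov.split_x (LitT.Cov.split_t (LitT.Cov.split_e (LitT.cov_of_chunkM cB18_7_3_48) (LitT.cov_of_chunkM cB18_7_3_49)) (LitT.cov_of_chunkM cB18_7_3_50)) (LitT.cov_of_chunkM cB18_7_3_51)) (LitT.Cov.split_x (LitT.Cov.split_t (LitT.cov_of_chunkM cB18_7_3_52) (LitT.Cov.split_e (LitT.cov_of_chunkM cB18_7_3_53) (LitT.cov_of_chunkM cB18_7_3_54))) (LitT.cov_of_chunkM cB18_7_3_55))) (LitT.cov_of_chunkM cB18_7_3_56))) (LitT.Cov.split_x (LitT.cov_of_chunkM cB18_7_3_57) (LitT.Cov.split_x (LitT.cov_of_chunkM cB18_7_3_58) (LitT.Cov.split_t (LitT.cov_of_chunkM cB18_7_3_59) (LitT.Cov.split_e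 (LitT.Cov.split_t (LitT.Cov.split_e (LitT.cov_of_chunkM cB18_7_3_60) (LitT.cov_of_chunkM cB18_7_3_61)) (LitT.cov_of_chunkM cB18_7_3_62)) (LitT.cov_of_chunkM cB18_7_3_63)))))) (LitT.cov_of_chunkM cB18_7_3_64)) (LitT.Cov.split_t (LitT.Cov.split_e (LitT.cov_of_chunkM cB18_7_3_65) (LitT.Cov.split_x (LitT.Cov.split_t (LitT.cov_of_chunkM cB18_7_3_66) (LitT.Cov.split_e (LitT.cov_of_chunkM cB18_7_3_67) (LitT.Cov.split_x (LitT.Cov.split_t (LitT.cov_of_chunkM cB18_7_3_68) (LitT.cov_of_chunkM cB18_7_3_69)) (LitT.cov_of_chunkM cB18_7_3_70)))) (LitT.cov_of_chunkM cB18_7_3_71))) (LitT.cov_of_chunkM cB18_7_3_72))))))) (LitT.Cov.split_t (LitT.cov_of_chunkM cB18_7_3_73) (LitT.Cov.split_e (LitT.Cov.split_x (LitT.cov_of_chunkM cB18_7_3_74) (LitT.Cov.split_t (LitT.cov_of_chunkM cB18_7_3_75) (LitT.Cov.split_e (LitT.Cov.split_t (LitT.Cov.split_e (LitT.Cov.split_x (LitT.Cov.split_t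 (LitT.cov_of_chunkM cB18_7_3_76) (LitT.Cov.split_e (LitT.Cov.split_x (LitT.Cov.split_t (LitT.cov_of_chunkM cB18_7_3_77) (LitT.cov_of_chunkM cB18_7_3_78)) (LitT.cov_of_chunkM cB18_7_3_79)) (LitT.cov_of_chunkM cB18_7_3_80))) (LitT.cov_of_chunkM cB18_7_3_81)) (LitT.cov_of_chunkM cB18_7_3_82)) (LitT.Cov.split_e (LitT.cov_of_chunkM cB18_7_3_83) (LitT.Cov.split_x (LitT.cov_of_chunkM cB18_7_3_84) (LitT.Cov.split_t (LitT.Cov.split_e (LitT.cov_of_chunkM cB18_7_3_85) (LitT.cov_of_chunkM cB18_7_3_86)) (LitT.cov_of_chunkM cB18_7_3_87))))) (LitT.Cov.split_x (LitT.cov_of_chunkM cB18_7_3_88) (LitT.Cov.split_t (LitT.cov_of_chunkM cB18_7_3_89) (LitT.Cov.split_e (LitT.Cov.split_t (LitT.cov_of_chunkM cB18_7_3_90) (LitT.cov_of_chunkM cB18_7_3_91)) (LitT.cov_of_chunkM cB18_7_3_92))))))) (LitT.cov_of_chunkM cB18_7_3_93)))))))), (LitT.Cov.split_t (LitT.cov_of_chunkM cB18_7_1_0)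 (LitT.Cov.split_t (LitT.cov_of_chunkM cB18_7_1_1) (LitT.Cov.split_e (LitT.cov_of_chunkM cB18_7_1_2) (LitT.Cov.split_T (LitT.Cov.split_T (LitT.Cov.split_T (LitT.Cov.split_E (LitT.Cov.split_E (LitT.Cov.split_E (LitT.Cov.split_E (LitT.Cov.split_e (LitT.cov_of_chunkM cB18_7_1_3) (LitT.Cov.split_e (LitT.Cov.split_t (LitT.cov_of_chunkM cB18_7_1_4) (LitT.Cov.split_e (LitT.cov_of_chunkM cB18_7_1_5) (LitT.Cov.split_t (LitT.Cov.split_e (LitT.Cov.split_x (LitT.Cov.split_t (LitT.cov_of_chunkM cB18_7_1_6) (LitT.Cov.split_e (LitT.cov_of_chunkM cB18_7_1_7) (LitT.cov_of_chunkM cB18_7_1_8))) (LitT.cov_of_chunkM cB18_7_1_9)) (LitT.cov_of_chunkM cB18_7_1_10)) (LitT.Cov.split_e (LitT.cov_of_chunkM cB18_7_1_11) (LitT.Cov.split_x (LitT.cov_of_chunkM cB18_7_1_12) (LitT.cov_of_chunkM cB18_7_1_13)))))) (LitT.Cov.split_t (LitT.cov_of_chunkM cB18_7_1_14) (LitT.Cov.split_e (LitT.Cov.split_x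 (LitT.cov_of_chunkM cB18_7_1_15) (LitT.Cov.split_t (LitT.cov_of_chunkM cB18_7_1_16) (LitT.Cov.split_e (LitT.Cov.split_t (LitT.Cov.split_e (LitT.cov_of_chunkM cB18_7_1_17) (LitT.cov_of_chunkM cB18_7_1_18)) (LitT.cov_of_chunkM cB18_7_1_19)) (LitT.cov_of_chunkM cB18_7_1_20)))) (LitT.cov_of_chunkM cB18_7_1_21))))) (LitT.cov_of_chunkM cB18_7_1_22)) (LitT.cov_of_chunkM cB18_7_1_23)) (LitT.cov_of_chunkM cB18_7_1_24)) (LitT.cov_of_chunkM cB18_7_1_25)) (LitT.cov_of_chunkM cB18_7_1_26)) (LitT.cov_of_chunkM cB18_7_1_27)) (LitT.cov_of_chunkM cB18_7_1_28))))), (LitT.cov_of_chunkM cB18_7_2_0), (LitT.cov_of_chunkM cB18_7_0_0)⟩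

end Vale.Agent.helper4.Q4
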