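import Vale.Agent.helper4.Q4TreeM
import Vale.Agent.helper4.Q4G.PB18_8

/-!
Checks for pairs of intervals of second moments.
-/

set_option maxRecDepth 100000
set_option linter.unusedVariables false

namespace Vale.Agent.helper4.Q4

theorem cB18_8_3_0 : chunkOkM (LB18_8.ctx true true 106 1 1 1 1 1 1 1 1) muQ true true 64 RtB18_8.Cx RtB18_8.CX RtB18_8.Ctp.left RtB18_8.Ce RtB18_8.CTp RtB18_8.CEr 0x41 = true := by decide +kernel

theorem cB18_8_3_1 : chunkOkM (LB18_8.ctx true true 106 1 1 1 1 1 1 1 1) muQ true true 64 RtB18_8.Cx RtB18_8.CX RtB18_8.Ctp.right.left RtB18_8.Ce RtB18_8.CTp RtB18_8.CEr 0x41 = true := by decide +kernel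

theorem cB18_8_3_2 : chunkOkM (LB18_8.ctx true true 106 1 1 1 1 1 1 1 1) muQ true true 64 RtB18_8.Cx RtB18_8.CX RtB18_8.Ctp.right.right RtB18_8.Ce.left RtB18_8.CTp RtB18_8.CEr 0x11 = true := by decide +kernel

theorem cB18_8_3_3 : chunkOkM (LB18_8.ctx true true 207 17 8 9 16 49 65 2 16) muQ true true 64 RtB18_8.Cx RtB18_8.CX RtB18_8.Ctp.right.right RtB18_8.Ce.right.left RtB18_8.CTp RtB18_8.CEr 0xc496b297fd54dc62558f866258807a9ebf484b98be1a8af140d = true := by decide +kernel

theorem cB18_8_3_4 : chunkOkM (LB18_8.ctx true true 106 1 1 1 1 1 1 1 1) muQ true true 64 RtB18_8.Cx RtB18_8.CX RtB18_8.Ctp.right.right.left.left RtB18_8.Ce.right.right.left RtB18_8.CTp RtB18_8.CEr 0x49 = true := by decide +kernel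

theorem cB18_8_3_5 : chunkOkM (LB18_8.ctx true true 106 1 1 1 1 1 1 1 1) muQ true true 64 RtB18_8.Cx RtB18_8.CX RtB18_8.Ctp.right.right.left.right.left RtB18_8.Ce.right.right.left RtB18_8.CTp RtB18_8.CEr 0x49 = true := by decide +kernel

theorem cB18_8_3_6 : chunkOkM (LB18_8.ctx true true 253 65 32 9 16 1561 2587 2 16) muQ true true 64 RtB18_8.Cx.left.left RtB18_8.CX RtB18_8.Ctp.right.right.left.right.right RtB18_8.Ce.right.right.left.left.left RtB18_8.CTp RtB18_8.CEr 0xc8e8f087fd83647f66cec6e7db7f84b6bb2c619f65fff254159f550daf257b77fd352b7866c14f5effd8f82db14d36d9f65ca96beb09f517b9ca32a9f460d350065307fd1a5b27218f8a9c723cf79f67d2c5b1c59f540d450c91c37fd1baaef048f83a6ce7c819f668de90def9f530b19465b9f450d3104e049de6af04b4 = true := by decide +kernel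

theorem cB18_8_3_7 : chunkOkM (LB18_8.ctx true true 256 131 64 9 16 777 2639 2 16) muQ true true 64 RtB18_8.Cx.left.left RtB18_8.CX RtB18_8.Ctp.right.right.left.right.right RtB18_8.Ce.right.right.left.left.right RtB18_8.CTp RtB18_8.CEr 0x592977fe27fd1744b9ce8f846ca772e59f66d5ca103b9f5226e323739f450d7ff9ab07fd1b08a06c8f84ea6cab7e9f6682bbd4e79f522986eb569f450da6214137fd118190a76c1a347f3a8f85c8c56a369f6739a8e9039f550d743bb174ad8f8b6f1500609f5444b693591af430d34 = true := by decide +kernel

theorem cB18_8_3_8 : chunkOkM (LB18_8.ctx true true 106 1 1 1 1 1 1 1 1) muQ true true 64 RtB18_8.Cx.left.right RtB18_8.CX RtB18_8.Ctp.right.right.left.right.right RtB18_8.Ce.right.right.left.left RtB18_8.CTp RtB18_8.CEr 0x49 = true := by decide +kernel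

theorem cB18_8_3_9 : chunkOkM (LB18_8.ctx true true 106 1 1 1 1 1 1 1 1) muQ true true 64 RtB18_8.Cx.left RtB18_8.CX RtB18_8.Ctp.right.right.left.right.right RtB18_8.Ce.right.right.left.right RtB18_8.CTp RtB18_8.CEr 0x59 = true := by decide +kernel

theorem cB18_8_3_10 : chunkOkM (LB18_8.ctx true true 106 1 1 1 1 1 1 1 1) muQ true true 64 RtB18_8.Cx.right RtB18_8.CX RtB18_8.Ctp.right.right.left.right.right RtB18_8.Ce.right.right.left RtB18_8.CTp RtB18_8.CEr 0x49 = true := by decide +kernel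

theorem cB18_8_3_11 : chunkOkM (LB18_8.ctx true true 106 1 1 1 1 1 1 1 1) muQ true true 64 RtB18_8.Cx RtB18_8.CX RtB18_8.Ctp.right.right.right.left RtB18_8.Ce.right.right.left.left.left RtB18_8.CTp RtB18_8.CEr 0x69 = true := by decide +kernel

theorem cB18_8_3_12 : chunkOkM (LB18_8.ctx true true 263 131 64 9 16 1589 5291 2 16) muQ true true 64 RtB18_8.Cx.left.left RtB18_8.CX RtB18_8.Ctp.right.right.right.left.left.left RtB18_8.Ce.right.right.left.left.right.left RtB18_8.CTp RtB18_8.CEr 0xa5786977fd9a021566c147dcbdc8f8533a9c48e9f65f7d4b98d9f550d13ed21c08fd134e52476cac43a597f851f0846db9f655613e8c69f550d1609bd618fd1479fea76cacbbf087f84e62dbfbe9f65002988549f550d4d46a2ef7fdb25f9366cf756a897f84d563b2829f663a55effa9f550d37691312fce78fd2e3efb66c4303373b29f64638a49e69f540d12eccaf98fd15bd00a76c122533118f837a3939359f654f3aa8de9f550d374 = true := by decide +kernel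

theorem cB18_8_3_13 : chunkOkM (LB18_8.ctx true true 267 129 64 9 16 1603 5291 4 16) muQ true true 64 RtB18_8.Cx.left.left RtB18_8.CX RtB18_8.Ctp.right.right.right.left.left.right RtB18_8.Ce.right.right.left.left.right.left RtB18_8.CTp RtB18_8.CEr 0x6969f00af1a7fd1ef8014b8f862234440e9f63ee62a79a9f540d2a66603d8fd321f31276c7f5c57e809f64648657dd9f540d512afcc2b8f06c437694 = true := by decide +kernel

theorem cB18_8_3_14 : chunkOkM (LB18_8.ctx true true 243 67 32 9 16 399 1313 2 16) muQ true true 64 RtB18_8.Cx.left.right RtB18_8.CX RtB18_8.Ctp.right.right.right.left.left RtB18_8.Ce.right.right.left.left.right.left RtB18_8.CTp RtB18_8.CEr 0x4af277d2d9f04b = true := by decide +kernel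

theorem cB18_8_3_15 : chunkOkM (LB18_8.ctx true true 256 131 64 9 16 791 2691 2 16) muQ true true 64 RtB18_8.Cx.left.left RtB18_8.CX RtB18_8.Ctp.right.right.right.left.left.left RtB18_8.Ce.right.right.left.left.right.right RtB18_8.CTp RtB18_8.CEr 0x56842d57fd169078ec8f86142361659f66dcd331729f540dcd17b327fd13e3cfc76c1b82eb9b8f85ef2f99269f66cf9deea69f550d108962a88fdad8ee266cd12db217f861f135b389f6604b228ca9f550d74 = true := by decide +kernel

theorem cB18_8_3_16 : chunkOkM (LB18_8.ctx true true 286 515 256 9 16 3213 10673 4 16) muQ true true 64 RtB18_8.Cx.left.left.left RtB18_8.CX RtB18_8.Ctp.right.right.right.left.left.right.left RtB18_8.Ce.right.right.left.left.right.right.left RtB18_8.CTp RtB18_8.CEr 0x150e0e738fd16f761f76cd8dbf207f85431654b89f6533378e1f9f550d59172f1eb48fddf94da66c34cc0807f89430fa6759f64ff0341969f550d5974593715e9b1ae8fdeedfba66c773d1a07f8637544bed9f64f53ed4659f550d9793dd77fd1dada2b48f8cf652c9939f64f434dc6c9f540d23a50bd28fd2ffbc0a76c52a34f4e49f649e7984209f540d574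 = true := by decide +kernel

theorem cB18_8_3_17 : chunkOkM (LB18_8.ctx true true 276 259 128 9 16 1617 5343 4 32) muQ true true 64 RtB18_8.Cx.left.left.left RtB18_8.CX RtB18_8.Ctp.right.right.right.left.left.right.right RtB18_8.Ce.right.right.left.left.right.right.left RtB18_8.CTp RtB18_8.CEr 0x11213d3d8fd13c2bebc8f8990ac45459f640b03950f9f540d261c8ea38fd289e14476c1004c963aaaf64accd31e99f540d87310ac48fd5c9d9e276c8fe8279ee9f63bdace5899f540d6db210a48fd5566aae76cf2a6859b40c3c03d89f6445630dda9f550d67511fbf77b8fd13b9981e8f868f07a3c59f6394b3ae159f540d51c05c5832c3458fd3129e4876c892039d109f64319ed7a39f540d654 = true := by decide +kernel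

theorem cB18_8_3_18 : chunkOkM (LB18_8.ctx true true 256 131 64 9 16 805 2665 2 16) muQ true true 64 RtB18_8.Cx.left.left.right RtB18_8.CX RtB18_8.Ctp.right.right.right.left.left.right RtB18_8.Ce.right.right.left.left.right.right.left RtB18_8.CTp RtB18_8.CEr 0x11c6dad38fd10a2c6876cec898a07f88df0e696f9f656969b7359f550d = true := by decide +kernel

theorem cB18_8_3_19 : chunkOkM (LB18_8.ctx true true 260 129 64 9 16 1603 2691 2 16) muQ true true 64 RtB18_8.Cx.left.left.left RtB18_8.CX RtB18_8.Ctp.right.right.right.left.left.right.left RtB18_8.Ce.right.right.left.left.right.right.right RtB18_8.CTp RtB18_8.CEr 0x105aa9908fdd38a4c6f8450ebea1e9f6594af8c4a9f540d = true := by decide +kernel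

theorem cB18_8_3_20 : chunkOkM (LB18_8.ctx true true 280 259 128 9 16 3241 5369 4 32) muQ true true 64 RtB18_8.Cx.left.left.left RtB18_8.CX RtB18_8.Ctp.right.right.right.left.left.right.right RtB18_8.Ce.right.right.left.left.right.right.right.left RtB18_8.CTp RtB18_8.CEr 0x111defbc8fd10851f078f86d78cf63c9f647336216a9f540d2411a3f38fd324609976c5c32a28d09f647883e7ed9f540d5128e34588fd1554f1428f89393fc1a69f63a97543859f540dd572c2118fd6e6634076c20571ad609f6412fd9d8d9f540d46f02f9c8fd2d65e8276ce730d469b35b6ade2d9f647db7387b9f550d62c16aed68fd38540ad76c3f5a18f1b9f64643c30eb9f540d357 = true := by decide +kernel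

theorem cB18_8_3_21 : chunkOkM (LB18_8.ctx true true 273 259 128 9 16 1617 5395 4 16) muQ true true 64 RtB18_8.Cx.left.left.left RtB18_8.CX RtB18_8.Ctp.right.right.right.left.left.right.right RtB18_8.Ce.right.right.left.left.right.right.right.right RtB18_8.CTp RtB18_8.CEr 0x126a82f08fd19c9ac4b8f86fecf41349f63ed2e099d9f540d20ed769e8fd298e00476c2960ec39a9f64b9fb79449f540d5597 = true := by decide +kernel

end Vale.Agent.helper4.Q4
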