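import Vale.Agent.helper4.Q4TreeM
import Vale.Agent.helper4.Q4G.PB18_8

/-!
Checks for pairs of intervals of second moments.
-/

set_option maxRecDepth 100000
set_option linter.unusedVariables false

namespace Vale.Agent.helper4.Q4

theorem cB18_8_3_22 : chunkOkM (LB18_8.ctx true true 263 131 64 9 16 1617 5395 2 16) muQ true true 64 RtB18_8.Cx.left.left.right RtB18_8.CX RtB18_8.Ctp.right.right.right.left.left.right RtB18_8.Ce.right.right.left.left.right.right.right RtB18_8.CTp RtB18_8.CEr 0x151ad34b8fd1528e3476cc2bfff97f88289e64cb9f65343226069f550d13b944b88fd38c895f8974c59d4b9f64b8962a149f540d411889b878fd7bb91fb7f838292566e9f65203716769f540d3 = true := by decide +kernel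

theorem cB18_8_3_23 : chunkOkM (LB18_8.ctx true true 251 67 32 9 16 1589 1339 2 16) muQ true true 64 RtB18_8.Cx.left.right RtB18_8.CX RtB18_8.Ctp.right.right.right.left.left RtB18_8.Ce.right.right.left.left.right.right RtB18_8.CTp RtB18_8.CEr 0xe228de27fdfbe05387f84fac64bb69f657975d55b9f540d676869e7fd1d2211ce8f83e0139c499f65d101887c9f5124ec593b9f450d4933 = true := by decide +kernel

theorem cB18_8_3_24 : chunkOkM (LB18_8.ctx true true 106 1 1 1 1 1 1 1 1) muQ true true 64 RtB18_8.Cx.left RtB18_8.CX RtB18_8.Ctp.right.right.right.left.right RtB18_8.Ce.right.right.left.left.right.left RtB18_8.CTp RtB18_8.CEr 0x69 = true := by decide +kernel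

theorem cB18_8_3_25 : chunkOkM (LB18_8.ctx true true 263 129 64 9 16 819 2665 4 32) muQ true true 64 RtB18_8.Cx.left.left RtB18_8.CX RtB18_8.Ctp.right.right.right.left.right.left RtB18_8.Ce.right.right.left.left.right.right.left RtB18_8.CTp RtB18_8.CEr 0x6915a581b88f06c51c05c63f528418fd432063d76c16df235029f530d657 = true := by decide +kernel

theorem cB18_8_3_26 : chunkOkM (LB18_8.ctx true true 270 129 64 9 16 1631 5369 4 32) muQ true true 64 RtB18_8.Cx.left.left.left RtB18_8.CX RtB18_8.Ctp.right.right.right.left.right.left.left RtB18_8.Ce.right.right.left.left.right.right.right.left RtB18_8.CTp RtB18_8.CEr 0x16f09bba8fd19caac3b8f839c22df009f62dd8f77579f540d48957ec38fd64c6a3e76c3e641383d9f631a4662c79f540d7a7f6b868fd4a9013076c10807d779b4dd35ff9d9f6385b4e3369f550d65 = true := by decide +kernel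

theorem cB18_8_3_27 : chunkOkM (LB18_8.ctx true true 276 259 128 9 16 1631 5395 4 32) muQ true true 64 RtB18_8.Cx.left.left.left RtB18_8.CX RtB18_8.Ctp.right.right.right.left.right.left.left RtB18_8.Ce.right.right.left.left.right.right.right.right RtB18_8.CTp RtB18_8.CEr 0x154a6c0c8fd1761c4f48f86dc881ad19f633bb28efc9f540d3d7f11d18fd4d2a11476c514e6f8989f63562fc0d69f540d4a7c41ba8fd43f6e3c76ce27d993eb9f63c35afd089f540d644474eab8fd5314fed76c396c7f2399f530d8326f1e28fd517e2db76c89a8cc69b70c1c12a69f63930e243a9f550d675 = true := by decide +kernel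

theorem cB18_8_3_28 : chunkOkM (LB18_8.ctx true true 288 259 128 9 16 3297 10803 8 32) muQ true true 64 RtB18_8.Cx.left.left.left RtB18_8.CX RtB18_8.Ctp.right.right.right.left.right.left.right RtB18_8.Ce.right.right.left.left.right.right.right RtB18_8.CTp.left RtB18_8.CEr 0x12007dca8fd682839576c798311f039f62c060c71a9f540d08f6d08b88fd676a8f776c362fe68befaf630d3498eb988fd516edd66c1f7c59888baf6c2cd00428f540d89a036838fd56e21f676c105ee2d79bf1564e7b89f62a2f365b49f550d5742324838fd4ce700376c6aedda69b2dbd0bbf7eaf61b7d567bd9f550d437046 = true := by decide +kernel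

theorem cB18_8_3_29 : chunkOkM (LB18_8.ctx true true 267 129 64 9 16 1645 2691 4 32) muQ true true 64 RtB18_8.Cx.left.left.left RtB18_8.CX RtB18_8.Ctp.right.right.right.left.right.left.right RtB18_8.Ce.right.right.left.left.right.right.right RtB18_8.CTp.right RtB18_8.CEr 0x135f38088fdd9828a27f8c0753b61e9f61944dfddf9f540d6a6 = true := by decide +kernel

theorem cB18_8_3_30 : chunkOkM (LB18_8.ctx true true 256 131 64 9 16 819 2691 2 16) muQ true true 64 RtB18_8.Cx.left.left.right RtB18_8.CX RtB18_8.Ctp.right.right.right.left.right.left RtB18_8.Ce.right.right.left.left.right.right.right RtB18_8.CTp RtB18_8.CEr 0x149ff7d28fd2f45b966c2a925b6039f6244916b5f9f540d = true := by decide +kernel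

theorem cB18_8_3_31 : chunkOkM (LB18_8.ctx true true 106 1 1 1 1 1 1 1 1) muQ true true 64 RtB18_8.Cx.left.left RtB18_8.CX RtB18_8.Ctp.right.right.right.left.right.right RtB18_8.Ce.right.right.left.left.right.right RtB18_8.CTp RtB18_8.CEr 0x69 = true := by decide +kernel

theorem cB18_8_3_32 : chunkOkM (LB18_8.ctx true true 106 1 1 1 1 1 1 1 1) muQ true true 64 RtB18_8.Cx.left.right RtB18_8.CX RtB18_8.Ctp.right.right.right.left.right RtB18_8.Ce.right.right.left.left.right.right RtB18_8.CTp RtB18_8.CEr 0x69 = true := by decide +kernel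

theorem cB18_8_3_33 : chunkOkM (LB18_8.ctx true true 230 35 16 9 16 203 663 2 16) muQ true true 64 RtB18_8.Cx.right RtB18_8.CX RtB18_8.Ctp.right.right.right.left RtB18_8.Ce.right.right.left.left.right RtB18_8.CTp RtB18_8.CEr 0x3f072a5d99f04b = true := by decide +kernel

theorem cB18_8_3_34 : chunkOkM (LB18_8.ctx true true 106 1 1 1 1 1 1 1 1) muQ true true 64 RtB18_8.Cx RtB18_8.CX RtB18_8.Ctp.right.right.right.right RtB18_8.Ce.right.right.left.left RtB18_8.CTp RtB18_8.CEr 0x11 = true := by decide +kernel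

theorem cB18_8_3_35 : chunkOkM (LB18_8.ctx true true 259 135 64 9 16 805 2743 2 16) muQ true true 64 RtB18_8.Cx.left RtB18_8.CX RtB18_8.Ctp.right.right.right.left.left RtB18_8.Ce.right.right.left.right.left RtB18_8.CTp RtB18_8.CEr 0x8fffb647fd21540e5c8f8522fc1d339f6626de23819f519e70d52c9f450d59759360ffa067fd1a03ff298f87869d38729f6681f580459f51726877199f450d9e4eeb37fd1659f9c98f8a777014f59f66b7f55dc99f540d7732710a7fd1470a9858f892b70a4349f66bc1fb2c59f52fbedbee99f450dbb810aa7fdeac15e66c191172958f852b57a3fa9f65ea52ca479f550d74238e0d87fd24d00faa8f85cb7a62553af643b8d80c37abf5dba3a7225d1bf450d359120aacb88fd1253d1276ce6076bc7f86176376f49f65ac56db0e9f550d597459374 = true := by decide +kernel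

theorem cB18_8_3_36 : chunkOkM (LB18_8.ctx true true 293 515 256 9 16 6545 10829 4 32) muQ true true 64 RtB18_8.Cx.left.left.left RtB18_8.CX RtB18_8.Ctp.right.right.right.left.right.left.left RtB18_8.Ce.right.right.left.right.left.left.left.left RtB18_8.CTp RtB18_8.CEr 0x11dc8ae58fd153c7d468f89cd5b51e69f6416af14a59f540d1a61edb58fd41b488076c3fbcc54669f530d896aeb2f8fd5ce5c9f76c71b92a61b9f63b3214ff79f540d620613a188fd28f50ae76c3f62c0ad99f64b51863929f540d355912c930bb8fd17c8458e8f8156b2e0019af636f3279d39f540d24bdb3dd8fd3bd196376c14596032b8af61fa8212b89f540d769906658fd69fdbdd76c4117487b69f530d6559359745937 = true := by decide +kernel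

theorem cB18_8_3_37 : chunkOkM (LB18_8.ctx true true 296 519 256 9 16 6545 21749 4 32) muQ true true 64 RtB18_8.Cx.left.left.left RtB18_8.CX RtB18_8.Ctp.right.right.right.left.right.left.left RtB18_8.Ce.right.right.left.right.left.left.left.right RtB18_8.CTp RtB18_8.CEr 0x59591436f4d28fd154c5e828f810f1f2512caf6307b733589f540d517713a68fd40bd19876c4860abd98f63c0f52bb49f540d64d96c788fd524881f76c42c4681879f530d6545935974593597 = true := by decide +kernel

end Vale.Agent.helper4.Q4
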