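import Vale.Agent.helper4.Q4TreeM
import Vale.Agent.helper4.Q4G.PB18_8

/-!
Checks for pairs of intervals of second moments.
-/

set_option maxRecDepth 100000
set_option linter.unusedVariables false

namespace Vale.Agent.helper4.Q4

theorem cB18_8_3_148 : chunkOkM (LB18_8.ctx true true 284 263 128 9 16 3395 11219 4 32) muQ true true 64 RtB18_8.Cx.left.left.right RtB18_8.CX RtB18_8.Ctp.right.right.right.right.left.left RtB18_8.Ce.right.right.left.right.left.right.right.right RtB18_8.CTp.left RtB18_8.CEr 0x0112556a1669fd135cd04286c27988fa376af6a400594a8f240d60c32bff8fd599e02d76c178b5c079b89b1a0caa9f643babb8bb9f250d63145f44c58fd625e0ac76c1db7eb2291af619afe5448f540d6f6d33908fd51b8e0976c129489b79b353d06a449af640d7031bd758fd655091f76ced5ae969bea656c37f82b0aced024af650d460442ef58fd50225ff76cb2c1c069b56b936ba09af640d6b8787e48fd4a42eba76ce68d0569b25ab67a065af640d4363217 = true := by decide +kernel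

theorem cB18_8_3_149 : chunkOkM (LB18_8.ctx true true 276 263 128 9 16 1701 5603 4 32) muQ true true 64 RtB18_8.Cx.left.left.right RtB18_8.CX RtB18_8.Ctp.right.right.right.right.left.left RtB18_8.Ce.right.right.left.right.left.right.right RtB18_8.CTp.right RtB18_8.CEr 0x2b74973e8fd2bafa8e779f68837390e19f219d8019069f140d1d08a8ff8fd22ec4266c142c8a1afaaf65518b6928f540d2171ae2b75f8fd2b2b02e76c1b6985728f8ff1aeeea89f640d1eb590108fd74ed97176c3a96a0198f8122e9ff542af69a51a1d08f250d7436a6 = true := by decide +kernel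

theorem cB18_8_3_150 : chunkOkM (LB18_8.ctx true true 106 1 1 1 1 1 1 1 1) muQ true true 64 RtB18_8.Cx.left.left RtB18_8.CX RtB18_8.Ctp.right.right.right.right.left.right RtB18_8.Ce.right.right.left.right.left.right RtB18_8.CTp RtB18_8.CEr 0x01 = true := by decide +kernel

theorem cB18_8_3_151 : chunkOkM (LB18_8.ctx true true 280 265 128 9 16 1687 11219 4 32) muQ true true 64 RtB18_8.Cx.left.right RtB18_8.CX RtB18_8.Ctp.right.right.right.right.left RtB18_8.Ce.right.right.left.right.left.right RtB18_8.CTp RtB18_8.CEr 0x1111691b5d51ce8fd50145fd7f825b2697899f6249ecd2e49f540d6a669310c23a18fd5b8c1c776c1c38eef26baf630d63112eda8fd405db4076ced665569b29ead4cc8daf640d683805b78fd4aeb70f76cec62c569b1e8c7d13d0af640d46729965f558fd4df150b76c11a5db69b30d45733114 = true := by decide +kernel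

theorem cB18_8_3_152 : chunkOkM (LB18_8.ctx true true 106 1 1 1 1 1 1 1 1) muQ true true 64 RtB18_8.Cx.right RtB18_8.CX RtB18_8.Ctp.right.right.right.right.left RtB18_8.Ce.right.right.left.right.left RtB18_8.CTp RtB18_8.CEr 0x11 = true := by decide +kernel

theorem cB18_8_3_153 : chunkOkM (LB18_8.ctx true true 106 1 1 1 1 1 1 1 1) muQ true true 64 RtB18_8.Cx RtB18_8.CX RtB18_8.Ctp.right.right.right.right.right RtB18_8.Ce.right.right.left.right.left RtB18_8.CTp RtB18_8.CEr 0x11 = true := by decide +kernel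

theorem cB18_8_3_154 : chunkOkM (LB18_8.ctx true true 300 1055 512 9 16 6769 11245 4 32) muQ true true 64 RtB18_8.Cx.left.left RtB18_8.CX RtB18_8.Ctp.right.right.right.right.left RtB18_8.Ce.right.right.left.right.right.left RtB18_8.CTp RtB18_8.CEr 0x212101011c42af858fd7b2534f7f8348d77c1a0af630d6a61062b047fd5bcfe6876c1cd4466f72af64133ddcee9f240d665f41b68fd47d110776c154721c79b21dab9ecd8af629ea4d1859f250d6536918a2094a8fd1997e4e88f8471e0cd6d4af630d58cc2d3e8fd69e9c1576c181bcad525af630d521598698fd508aa5576cf8fb5a69b227e7cadedaf640d6569769346933321742174217 = true := by decide +kernel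

theorem cB18_8_3_155 : chunkOkM (LB18_8.ctx true true 290 531 256 9 16 3381 11271 4 32) muQ true true 64 RtB18_8.Cx.left.right.left.left RtB18_8.CX RtB18_8.Ctp.right.right.right.right.left.left.left RtB18_8.Ce.right.right.left.right.right.left.left.left RtB18_8.CTp.left RtB18_8.CEr 0x6b6b8d67fd5dcb5c076c19ef7fc0b2af630d539a885c8fd497c8c076cc62fce69b46f165eb7aaf640d75afd12b8fd4f2030476c11da3f279b231428ad0daf640d46b21362c7fd588cc3976c11584a437aaf630d4e684ad68fd3f0cb4076c4c1f56c5adaf630d66973d8bc9b18fd40d4b1d76c2511e37424af630d55340e618fd445aa3176c383b2969b393fc43847af641a210348f550d643 = true := by decide +kernel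

theorem cB18_8_3_156 : chunkOkM (LB18_8.ctx true true 276 267 128 9 16 1687 5629 4 32) muQ true true 64 RtB18_8.Cx.left.right.left.right RtB18_8.CX RtB18_8.Ctp.right.right.right.right.left.left.left RtB18_8.Ce.right.right.left.right.right.left.left.left RtB18_8.CTp.left RtB18_8.CEr 0xa43d83358fd86f3dad76cd2516d2929f62647a8b879f540d5dab2b318fd37a6c9976c114b19779b104c91700daf6289f55ce19f550d6 = true := by decide +kernel

theorem cB18_8_3_157 : chunkOkM (LB18_8.ctx true true 270 133 64 9 16 1687 5629 4 32) muQ true true 64 RtB18_8.Cx.left.right.left RtB18_8.CX RtB18_8.Ctp.right.right.right.right.left.left.left RtB18_8.Ce.right.right.left.right.right.left.left.left RtB18_8.CTp.right RtB18_8.CEr 0x1a6882fc8fd33708ec7f89b8d05dfb9f616e34a1829f540d6a6 = true := by decide +kernel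

theorem cB18_8_3_158 : chunkOkM (LB18_8.ctx true true 290 531 256 9 16 3381 11297 4 32) muQ true true 64 RtB18_8.Cx.left.right.left.left RtB18_8.CX RtB18_8.Ctp.right.right.right.right.left.left.left RtB18_8.Ce.right.right.left.right.right.left.left.right RtB18_8.CTp RtB18_8.CEr 0x69166041c88fda8021b87f83904d0b6f3af630d6a65647ded7fd69d7a3176c11206bea93af630d4630be5a8fd2c6550e76cc39beb69b26a791c80caf640d654697693 = true := by decide +kernel

theorem cB18_8_3_159 : chunkOkM (LB18_8.ctx true true 290 535 256 9 16 3367 11323 4 32) muQ true true 64 RtB18_8.Cx.left.right.left.right RtB18_8.CX RtB18_8.Ctp.right.right.right.right.left.left.left.left RtB18_8.Ce.right.right.left.right.right.left.left.right RtB18_8.CTp.left RtB18_8.CEr 0x418e0cf76c1c55aa32e9af620d4adf38098fd348998f76cd75ba469beeb5da9b89f63495b24e89f550d669747740fd76c4aac415ea9f6397e293f39f530d42f60abd8fd34085aa76ca5b41869bcc7967cd79f639206aff39f550d687c8760c8fd7faadc476c2245b8a297af630d5643eb008fd471aa1b76c26e1cc5664af616921baa59f540d674 = true :=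 by decide +kernel

end Vale.Agent.helper4.Q4
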