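import Vale.Agent.helper4.Q4TreeM
import Vale.Agent.helper4.Q4G.PB18_8

/-!
Checks for pairs of intervals of second moments.
-/

set_option maxRecDepth 100000
set_option linter.unusedVariables false

namespace Vale.Agent.helper4.Q4

theorem cB18_8_3_160 : chunkOkM (LB18_8.ctx true true 284 267 128 9 16 3381 11323 4 32) muQ true true 64 RtB18_8.Cx.left.right.left.right RtB18_8.CX RtB18_8.Ctp.right.right.right.right.left.left.left.right RtB18_8.Ce.right.right.left.right.right.left.left.right RtB18_8.CTp.left RtB18_8.CEr 0x623b78be8fd5cf622a76c1b86369726af6f896e9b48f540d5952df878fd42ffc4b76c6bc0da69b237d790e9aaf6bbe99e1f8f550d62bcbd8a08fd4dae5fa76c1b3c8594d8af630d5167bc388fd3ddf8f076ca3208e69b23ec3c111daf640d64 = true := by decide +kernel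

theorem cB18_8_3_161 : chunkOkM (LB18_8.ctx true true 276 267 128 9 16 1687 5655 4 32) muQ true true 64 RtB18_8.Cx.left.right.left.right RtB18_8.CX RtB18_8.Ctp.right.right.right.right.left.left.left RtB18_8.Ce.right.right.left.right.right.left.left.right RtB18_8.CTp.right RtB18_8.CEr 0x194624b38fd65f60d57f841c52d4139f6320c9fc1b9f540d6a6 = true := by decide +kernel

theorem cB18_8_3_162 : chunkOkM (LB18_8.ctx true true 271 133 64 9 16 1701 5629 4 32) muQ true true 64 RtB18_8.Cx.left.right.left RtB18_8.CX RtB18_8.Ctp.right.right.right.right.left.left.right RtB18_8.Ce.right.right.left.right.right.left.left.left RtB18_8.CTp.left RtB18_8.CEr 0x636889d7fd60c3e8076c1692f4bb51af630d6a8f89e78fd4a2dfc476c116321579b1626a0d838af6646e8ec78f250d6 = true := by decide +kernel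

theorem cB18_8_3_163 : chunkOkM (LB18_8.ctx true true 284 267 128 9 16 3409 11323 4 32) muQ true true 64 RtB18_8.Cx.left.right.left RtB18_8.CX RtB18_8.Ctp.right.right.right.right.left.left.right RtB18_8.Ce.right.right.left.right.right.left.left.right RtB18_8.CTp.left RtB18_8.CEr 0x39ebacb7fd51c117676c1b859f6757af630d3fbc34568fd39f17e876cdf9a9d69b2fcb51ae9eaf640d6597228798fd6b14a8976c155344c77eaf6cecf8d998f240d5965919d8fd5c0011976c1500bdbe7aaf647e65b8ad9f240d58453ab78fd40de09076c152001b79b430a84d025af69227dc608f250d579c66f68fd573b24976c64e1c569b3d760d7a5aaf640d4367 = true := by decide +kernel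

theorem cB18_8_3_164 : chunkOkM (LB18_8.ctx true true 267 133 64 9 16 1701 2821 4 32) muQ true true 64 RtB18_8.Cx.left.right.left RtB18_8.CX RtB18_8.Ctp.right.right.right.right.left.left.right RtB18_8.Ce.right.right.left.right.right.left.left RtB18_8.CTp.right RtB18_8.CEr 0x1f267c988fd3809dc776c1c780c508f8335dbbf889f61e59e0feb9f5f1912c3a8f260d6a6 = true := by decide +kernel

theorem cB18_8_3_165 : chunkOkM (LB18_8.ctx true true 285 269 128 9 16 3381 11323 4 32) muQ true true 64 RtB18_8.Cx.left.right.right RtB18_8.CX RtB18_8.Ctp.right.right.right.right.left.left RtB18_8.Ce.right.right.left.right.right.left.left RtB18_8.CTp RtB18_8.CEr 0x691c38b9ec8fd700b9afa39f630e361b1b9f530d6a66931c05c421e39ea8fd3e11cf476cc07daea67caf630d62a61c67f8fd3cb00ed76c41c5fde599f6308d607de9f540d3c2dba1a8fd470684576c577e7a69b16505a238f81151be8c94af63c22bb55c9f560d6321c05c5100562a8fd44b4c8776c1a0889cb8f8cf0ba5e7d9f61f1d51c769f550d64753694 = true := by decide +kernel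

theorem cB18_8_3_166 : chunkOkM (LB18_8.ctx true true 292 535 256 9 16 3381 11375 4 32) muQ true true 64 RtB18_8.Cx.left.right.left RtB18_8.CX RtB18_8.Ctp.right.right.right.right.left.left.left RtB18_8.Ce.right.right.left.right.right.left.right RtB18_8.CTp RtB18_8.CEr 0x5913c668678fd773c42f7f881df2db699f62be96d9a99f540d6a622cd9b238fd40b72f076c203b64b890bbf630df8b04ed7fd393bb8d76c122a118e21af630d407a668e8fd3f73c4f76c880d0b69bd12b4c67f858a0ddbff5af650d6456976935974 = true := by decide +kernel

theorem cB18_8_3_167 : chunkOkM (LB18_8.ctx true true 296 1063 512 9 16 3409 11349 4 32) muQ true true 64 RtB18_8.Cx.left.right.left.left RtB18_8.CX RtB18_8.Ctp.right.right.right.right.left.left.right RtB18_8.Ce.right.right.left.right.right.left.right.left RtB18_8.CTp.left RtB18_8.CEr 0x2155f386f28fd7962a4376c189c696195af630d44e170298fd3e8180076c140d2c679b379bc71ed5af640d62174217693 = true := by decide +kernel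

theorem cB18_8_3_168 : chunkOkM (LB18_8.ctx true true 284 267 128 9 16 3409 11375 4 32) muQ true true 64 RtB18_8.Cx.left.right.left.right RtB18_8.CX RtB18_8.Ctp.right.right.right.right.left.left.right RtB18_8.Ce.right.right.left.right.right.left.right.left RtB18_8.CTp.left RtB18_8.CEr 0x64332b276c1ba7d3fbd8af620d5154cac68fd4984af876c136f6de79b2506c7d927af6178a2da38f250d632069c118fd5b09e3b76c18ce9c3d8caf630d52d82fb78fd410ebff76c11e0c9279b300d643dbcaf640d638dbe606fd5df6ffc76c1ec4d2966aaf630d581dfe078fd3c6460476c130559d79b25de0475dcaf640d64 = true := by decide +kernel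

theorem cB18_8_3_169 : chunkOkM (LB18_8.ctx true true 270 133 64 9 16 1701 5681 4 32) muQ true true 64 RtB18_8.Cx.left.right.left RtB18_8.CX RtB18_8.Ctp.right.right.right.right.left.left.right RtB18_8.Ce.right.right.left.right.right.left.right.left RtB18_8.CTp.right RtB18_8.CEr 0x1d37fd968fd2e20c1276c19fc28eb8f84405025f79f61e345ebc19f5f48c70d78f260d6a6 = true := by decide +kernel

theorem cB18_8_3_170 : chunkOkM (LB18_8.ctx true true 317 2143 1024 9 16 13601 45565 4 32) muQ true true 64 RtB18_8.Cx.left.right.left RtB18_8.CX RtB18_8.Ctp.right.right.right.right.left.left.right RtB18_8.Ce.right.right.left.right.right.left.right.right RtB18_8.CTp RtB18_8.CEr 0x1ccccc638fd61360fe76c330c7f068f8840c53a289f620ca080689f5aa3ef5db8f260d6a6691026fa0c09fdbf70bcb76c50f3e20652af630d512b32978fd4b321ab76c111a67679b2d1e7f8244af640d642176932176c2b45676c4b0f7ca087af620d4ce152778fd4a1b53a76ce9ad7569b3ead9694dfaf6202bd3538f250d6459696926d708768fd4cec1f5c85c115069cca24bf630d46936974697693459735217 = true := by decide +kernel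

end Vale.Agent.helper4.Q4
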