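import Vale.Agent.helper4.Q4TreeM
import Vale.Agent.helper4.Q4G.PB18_8

/-!
Checks for pairs of intervals of second moments.
-/

set_option maxRecDepth 100000
set_option linter.unusedVariables false

namespace Vale.Agent.helper4.Q4

theorem cB18_8_3_171 : chunkOkM (LB18_8.ctx true true 290 539 256 9 16 3367 11375 4 32) muQ true true 64 RtB18_8.Cx.left.right.right.left RtB18_8.CX RtB18_8.Ctp.right.right.right.right.left.left.left.left RtB18_8.Ce.right.right.left.right.right.left.right.left RtB18_8.CTp.left RtB18_8.CEr 0x19ea1f1c8fd263976076cd803adaa09f644aaa54939f540d1d01c5c08fd2a9616a76c55e2a98989f530d759f47e768fd4d2382076cb001fec0c9f631bb5db829f540d4c1cb9368fd4d87b5f76c30b6361b1faf632472b7cd9f540d63ff28d576c1c249dd75baf620d430136a98fd27a464f76c9e700a69b104f649b4faf63052fd1829f550d674 = true := by decide +kernel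

theorem cB18_8_3_172 : chunkOkM (LB18_8.ctx true true 291 539 256 9 16 3381 11375 4 32) muQ true true 64 RtB18_8.Cx.left.right.right.left RtB18_8.CX RtB18_8.Ctp.right.right.right.right.left.left.left.right RtB18_8.Ce.right.right.left.right.right.left.right.left RtB18_8.CTp.left RtB18_8.CEr 0x122b9caa8fd456b86a76c7028cfb8cbaf630d4f2e8e298fd185083976c13c769879b1a10abf77faf618fc738fc9f550d6186d51468fd3987d1a76c20b62b8779af630d3936dd578fd26106e276cddfa9469b1d9743c9ccaf6303e02ad99f550d67a65e4e5f8fd837443376c9e39745ce9f62f9a1fc6a9f540d436a4ee08fd262ecbf76cfb0b2669b15ccabf9d5af629f82a5169f550d64 = true := by decide +kernel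

theorem cB18_8_3_173 : chunkOkM (LB18_8.ctx true true 281 271 128 9 16 3381 11375 4 16) muQ true true 64 RtB18_8.Cx.left.right.right.right RtB18_8.CX RtB18_8.Ctp.right.right.right.right.left.left.left RtB18_8.Ce.right.right.left.right.right.left.right.left RtB18_8.CTp.left RtB18_8.CEr 0x1986285a8fd20fb75076c1d670b8b19f530d147bd9e28fd205d29876ca44ed64fb9f64746d92289f540d31bae61768fd1f6d8f376cc9e1171de9f633fda14e29f540d4 = true := by decide +kernel

theorem cB18_8_3_174 : chunkOkM (LB18_8.ctx true true 270 135 64 9 16 1687 5681 4 32) muQ true true 64 RtB18_8.Cx.left.right.right RtB18_8.CX RtB18_8.Ctp.right.right.right.right.left.left.left RtB18_8.Ce.right.right.left.right.right.left.right.left RtB18_8.CTp.right RtB18_8.CEr 0x18b2f4d68fd8b844f66c6740936129f6355e8b3219f540d6a6 = true := by decide +kernel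

theorem cB18_8_3_175 : chunkOkM (LB18_8.ctx true true 317 2151 1024 9 16 13545 45565 4 32) muQ true true 64 RtB18_8.Cx.left.right.right.left RtB18_8.CX RtB18_8.Ctp.right.right.right.right.left.left.left RtB18_8.Ce.right.right.left.right.right.left.right.right RtB18_8.CTp RtB18_8.CEr 0x1315b6378fda8d7e787f821bd0cc919f6398a4d9da9f540d6a659541c1aa7fd2738f7f685c39acef32a5af630d4204a0748fd426ba7676c446f93c75daf630d6459759359736761fdd8fd3bf696d76c9d58af6899f6226ddae069f540d372be1a18fd308cc0076cc9306269b16494eef8f8b698e2a8a9f63592a781c9f560d6596920d5d1e08fd36cafaa985c9c5274897daf630d46976934597593745593 = true := by decide +kernel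

theorem cB18_8_3_176 : chunkOkM (LB18_8.ctx true true 294 543 256 9 16 6769 11427 4 32) muQ true true 64 RtB18_8.Cx.left.right.right.right RtB18_8.CX RtB18_8.Ctp.right.right.right.right.left.left.left RtB18_8.Ce.right.right.left.right.right.left.right.right RtB18_8.CTp.left RtB18_8.CEr 0x182e63508fd23ed71776c1790dfbd97af63f48212c69f540d1045e9b68fd17c380776cdb59230f39f637a2277b79f540d5231f4c88fd4be35cd76c17253e6e3daf631b1a82569f540d6198849348fd240161b585c9a20f30639f6417bf0d9d9f540d375f7a0247fd22b467d76cd2d2b83299f630bad4f8d9f540d2f85bffb8fd1c4ebd976c1e363e3431af62ea9fce819f540d64d3517367fd141dff876c427fc2dc19f64b86a5bb99f540d3 = true := by decide +kernel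

theorem cB18_8_3_177 : chunkOkM (LB18_8.ctx true true 277 271 128 9 16 1687 5707 4 32) muQ true true 64 RtB18_8.Cx.left.right.right.right RtB18_8.CX RtB18_8.Ctp.right.right.right.right.left.left.left RtB18_8.Ce.right.right.left.right.right.left.right.right RtB18_8.CTp.right RtB18_8.CEr 0x1894208d8fd120c6b276c18b97b4f8f8aca06852c9f62096202519f550d6a6 = true := by decide +kernel

theorem cB18_8_3_178 : chunkOkM (LB18_8.ctx true true 281 269 128 9 16 3395 5681 4 32) muQ true true 64 RtB18_8.Cx.left.right.right RtB18_8.CX RtB18_8.Ctp.right.right.right.right.left.left.right RtB18_8.Ce.right.right.left.right.right.left.right.left RtB18_8.CTp.left RtB18_8.CEr 0x69691242a437fd3eca55f76c21ea8a424daf630d4843f5028fd306a22376cfb0c7269b21ea8a424daf640d637 = true := by decide +kernel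

theorem cB18_8_3_179 : chunkOkM (LB18_8.ctx true true 305 1075 512 9 16 6797 22841 4 32) muQ true true 64 RtB18_8.Cx.left.right.right.left RtB18_8.CX RtB18_8.Ctp.right.right.right.right.left.left.right.left RtB18_8.Ce.right.right.left.right.right.left.right.right RtB18_8.CTp.left RtB18_8.CEr 0x445dd1776c78129d1a39f6392c3daea9f530d3a5d2f3e8fd318c73076cbc1c5169b25b19bead6af6e9c22f798f550d66964c22c9285c21d3ed83b78bf620d413186708fd388fe4076cb2203469b87b288e8e7af640d646976937134f09b7fd452f03476c2b7ce5c495af630d455eaa0c8fd492df4376c1acaea8edeaf612fa0501f9f540d64 = true := by decide +kernel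

theorem cB18_8_3_180 : chunkOkM (LB18_8.ctx true true 281 269 128 9 16 3409 5707 4 32) muQ true true 64 RtB18_8.Cx.left.right.right.left RtB18_8.CX RtB18_8.Ctp.right.right.right.right.left.left.right.right RtB18_8.Ce.right.right.left.right.right.left.right.right RtB18_8.CTp.left RtB18_8.CEr 0x2953c6a68fd53d5b1276c139203c067af630d51f01a958fd33774a676c11ed5d579b2693da6f8baf640d6 = true := by decide +kernel

end Vale.Agent.helper4.Q4
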