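import Vale.Agent.helper4.Q4TreeM
import Vale.Agent.helper4.Q4G.PB18_8

/-!
Checks for pairs of intervals of second moments.
-/

set_option maxRecDepth 100000
set_option linter.unusedVariables false

namespace Vale.Agent.helper4.Q4

theorem cB18_8_3_181 : chunkOkM (LB18_8.ctx true true 280 271 128 9 16 1701 11427 4 32) muQ true true 64 RtB18_8.Cx.left.right.right.right RtB18_8.CX RtB18_8.Ctp.right.right.right.right.left.left.right RtB18_8.Ce.right.right.left.right.right.left.right.right RtB18_8.CTp.left RtB18_8.CEr 0x31c05c3b88adcb8fd38fe7b976cc658d969b133f16af8f82ea26434acaf61a0effd5f9f560d6122e04c4 = true := by decide +kernel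

theorem cB18_8_3_182 : chunkOkM (LB18_8.ctx true true 267 135 64 9 16 1701 2847 4 32) muQ true true 64 RtB18_8.Cx.left.right.right RtB18_8.CX RtB18_8.Ctp.right.right.right.right.left.left.right RtB18_8.Ce.right.right.left.right.right.left.right RtB18_8.CTp.right RtB18_8.CEr 0x20b9afe88fd50ff8427f82841774c19f62761187f29f540d6a6 = true := by decide +kernel

theorem cB18_8_3_183 : chunkOkM (LB18_8.ctx true true 298 535 256 9 16 6839 11427 8 32) muQ true true 64 RtB18_8.Cx.left.right RtB18_8.CX RtB18_8.Ctp.right.right.right.right.left.right RtB18_8.Ce.right.right.left.right.right.left RtB18_8.CTp RtB18_8.CEr 0x1983f8e88f06c6a61111116e765a97fdc0cc3366c17548c69b48aa56fa0caf640d4f2e52c7fd3b8739676c319961c266af630d573311411450101011bc373e48fd94b3b287f8242ade57f7af630d6a668a2df476c2d3753bb68af620d50d6933f8fd496206876c136227479bcd6de74679f6431f171809f250d6511433301701772ba768558fd21f8c3876cb778d8bd49f1231447e25daf040d4 = true := by decide +kernel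

theorem cB18_8_3_184 : chunkOkM (LB18_8.ctx true true 106 1 1 1 1 1 1 1 1) muQ true true 64 RtB18_8.Cx.left.left RtB18_8.CX RtB18_8.Ctp.right.right.right.right.left RtB18_8.Ce.right.right.left.right.right.right RtB18_8.CTp RtB18_8.CEr 0x21 = true := by decide +kernel

theorem cB18_8_3_185 : chunkOkM (LB18_8.ctx true true 106 1 1 1 1 1 1 1 1) muQ true true 64 RtB18_8.Cx.left.right.left RtB18_8.CX RtB18_8.Ctp.right.right.right.right.left RtB18_8.Ce.right.right.left.right.right.right RtB18_8.CTp RtB18_8.CEr 0x21 = true := by decide +kernel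

theorem cB18_8_3_186 : chunkOkM (LB18_8.ctx true true 307 1087 512 9 16 13545 22945 4 32) muQ true true 64 RtB18_8.Cx.left.right.right RtB18_8.CX RtB18_8.Ctp.right.right.right.right.left.left.left RtB18_8.Ce.right.right.left.right.right.right.left RtB18_8.CTp RtB18_8.CEr 0x595912f3e9408fd1d21098e8f822cb47d36eaf62f34ca7c59f540d195dd3518fd238a7ebd85c3c848c2af9f64f6b6941f9f540d55934597593597f81c9737fdc1ba58f7f83b58c0e649f63aa1ec7bc9f540d6a616b498ed8fd220526976caaab7990b9f6462b4db3b9f540d545935974 = true := by decide +kernel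

theorem cB18_8_3_187 : chunkOkM (LB18_8.ctx true true 304 1079 512 9 16 6797 22893 4 32) muQ true true 64 RtB18_8.Cx.left.right.right.left RtB18_8.CX RtB18_8.Ctp.right.right.right.right.left.left.right.left RtB18_8.Ce.right.right.left.right.right.right.left.left RtB18_8.CTp.left RtB18_8.CEr 0x59692ac2276fd4347accc85c1ebdd86a6eaf630d2bf2dd038fd3be36df76c76e06bfcecaf630d646976934597 = true := by decide +kernel

theorem cB18_8_3_188 : chunkOkM (LB18_8.ctx true true 303 1079 512 9 16 6825 22893 4 32) muQ true true 64 RtB18_8.Cx.left.right.right.left RtB18_8.CX RtB18_8.Ctp.right.right.right.right.left.left.right.right RtB18_8.Ce.right.right.left.right.right.right.left.left RtB18_8.CTp.left RtB18_8.CEr 0x31fa186c8fd436776ee85c1c7bed7e44af630d4af844098fd3e2c3ce76cf73cc069b3971da0cc9af640d669769369714f025948fd394524f76c3c7dbc4594af630d480874a68fd3fa1a7076ccbc87d69b2c1ce3d028af640d6693ab7f8f08fd5651da2c85c2720a3cee7af630d4a357d4d8fd432fe2176cfcedc769b334cd74c4daf640d6469769374 = true := by decide +kernel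

theorem cB18_8_3_189 : chunkOkM (LB18_8.ctx true true 276 269 128 9 16 1701 5733 4 32) muQ true true 64 RtB18_8.Cx.left.right.right.left RtB18_8.CX RtB18_8.Ctp.right.right.right.right.left.left.right RtB18_8.Ce.right.right.left.right.right.right.left.left RtB18_8.CTp.right RtB18_8.CEr 0x21675c2b8fd7a290e66c6426090119f621b05d4939f540d6a6 = true := by decide +kernel

theorem cB18_8_3_190 : chunkOkM (LB18_8.ctx true true 290 543 256 9 16 3395 11453 4 32) muQ true true 64 RtB18_8.Cx.left.right.right.right RtB18_8.CX RtB18_8.Ctp.right.right.right.right.left.left.right.left RtB18_8.Ce.right.right.left.right.right.right.left.left.left RtB18_8.CTp.left RtB18_8.CEr 0x21c05c2c56510c8fd88b97966c1211c5479b1891c8be54af62afe39f3c9f550d61b2545bf8fd2a88a3976cc45b0e6ab9f635c9156c69f540d55532e8e8fd535169a76c35a6de230eaf612d5180479f540d67 = true := by decide +kernel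

theorem cB18_8_3_191 : chunkOkM (LB18_8.ctx true true 301 1083 512 9 16 6797 11479 4 32) muQ true true 64 RtB18_8.Cx.left.right.right.right RtB18_8.CX RtB18_8.Ctp.right.right.right.right.left.left.right.left RtB18_8.Ce.right.right.left.right.right.right.left.left.right RtB18_8.CTp.left RtB18_8.CEr 0x323cc2276cd644d72169f637b1801a19f530d553594b88fd4ff39d076c185af2c040af62ccc94df79f540d64844536785c18460e5484af620d2961994e8fd36f46af76c3893d6b7f3af6154b241109f540d61b5b51888fd29d634076cda35813334af630d36977 = true := by decide +kernel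

theorem cB18_8_3_192 : chunkOkM (LB18_8.ctx true true 294 543 256 9 16 3409 11479 8 32) muQ true true 64 RtB18_8.Cx.left.right.right.right RtB18_8.CX RtB18_8.Ctp.right.right.right.right.left.left.right.right RtB18_8.Ce.right.right.left.right.right.right.left.left RtB18_8.CTp.left RtB18_8.CEr 0x436d16d7fd508e5d67f845a9eb61ceaf630d21c05c5129a4c098fd345646b76c49ac842319af630d3dde780f8fd321403e76cda987269b32d47afd51af640d675e8e6d17fdff111b6f83764beb8daaf630d461878a7fd20f994876c2a200469b336c3f0715af640d54 = true := by decide +kernel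

theorem cB18_8_3_193 : chunkOkM (LB18_8.ctx true true 276 271 128 9 16 1701 5733 4 32) muQ true true 64 RtB18_8.Cx.left.right.right.right RtB18_8.CX RtB18_8.Ctp.right.right.right.right.left.left.right RtB18_8.Ce.right.right.left.right.right.right.left.left RtB18_8.CTp.right RtB18_8.CEr 0x20615e618fd376ca6a7f818bbd194e9f62f8215f6b9f540d6a6 = true := by decide +kernel

theorem cB18_8_3_194 : chunkOkM (LB18_8.ctx true true 106 1 1 1 1 1 1 1 1) muQ true true 64 RtB18_8.Cx.left.right.right.left RtB18_8.CX RtB18_8.Ctp.right.right.right.right.left.left.right RtB18_8.Ce.right.right.left.right.right.right.left.right RtB18_8.CTp RtB18_8.CEr 0x69 = true := by decide +kernel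

end Vale.Agent.helper4.Q4
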