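import Vale.Agent.helper4.Q4TreeM
import Vale.Agent.helper4.Q4G.PB18_8

/-!
Checks for pairs of intervals of second moments.
-/

set_option maxRecDepth 100000
set_option linter.unusedVariables false

namespace Vale.Agent.helper4.Q4

theorem cB18_8_3_195 : chunkOkM (LB18_8.ctx true true 297 543 256 9 16 6797 23023 4 32) muQ true true 64 RtB18_8.Cx.left.right.right.right RtB18_8.CX RtB18_8.Ctp.right.right.right.right.left.left.right.left RtB18_8.Ce.right.right.left.right.right.right.left.right RtB18_8.CTp.left RtB18_8.CEr 0x591a7a2ffe8fd282508e985c2fbeebdebfaf62eb1e303a9f540d38aad2b385c36f1092ac1af620d31c8cfe18fd129e28e76c57d4abda6caf630d64176f2eab8fd204a66476c53bdafd7c9f6451b0e06e9f540d34597 = true := by decide +kernel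

theorem cB18_8_3_196 : chunkOkM (LB18_8.ctx true true 304 1087 512 9 16 6825 23049 4 32) muQ true true 64 RtB18_8.Cx.left.right.right.right RtB18_8.CX RtB18_8.Ctp.right.right.right.right.left.left.right.right RtB18_8.Ce.right.right.left.right.right.right.left.right RtB18_8.CTp.left RtB18_8.CEr 0x43b2483f85c95ef5f6944af620d4c9763838fd30df9e676c1a344db79b5f61bd1dd8af640d659164718a08fd269338bd85c9fe5b113fdaf630d45973697399d50676c27b4984d02af6a097265b8f530d54f94c0d8fd362425276cb451bf69b1cc2ba63caaf640d6a12e1b97fd20bf15376c36d830c87baf630d361f3c2a8fd36c5ddc76cbb18b469b1b9188428f85c113580feaf650d674 = true := by decide +kernel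

theorem cB18_8_3_197 : chunkOkM (LB18_8.ctx true true 276 271 128 9 16 1701 5759 4 32) muQ true true 64 RtB18_8.Cx.left.right.right.right RtB18_8.CX RtB18_8.Ctp.right.right.right.right.left.left.right RtB18_8.Ce.right.right.left.right.right.right.left.right RtB18_8.CTp.right RtB18_8.CEr 0x1b08f6a18fd6949dd77f81c25fe1239f639a7ca4169f540d6a6 = true := by decide +kernel

theorem cB18_8_3_198 : chunkOkM (LB18_8.ctx true true 106 1 1 1 1 1 1 1 1) muQ true true 64 RtB18_8.Cx.left.right.right RtB18_8.CX RtB18_8.Ctp.right.right.right.right.left.left RtB18_8.Ce.right.right.left.right.right.right.right RtB18_8.CTp RtB18_8.CEr 0x69 = true := by decide +kernel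

theorem cB18_8_3_199 : chunkOkM (LB18_8.ctx true true 281 271 128 9 16 1715 5733 8 32) muQ true true 64 RtB18_8.Cx.left.right.right RtB18_8.CX RtB18_8.Ctp.right.right.right.right.left.right RtB18_8.Ce.right.right.left.right.right.right.left.left RtB18_8.CTp.left RtB18_8.CEr 0x1160019d67fd25fd7666c29a8baa17daf630d31c05c5a186bf9c8fd9e3895376c1456db22caaf622a97637f240d4f1929e28fd31e941c76c12a973479b1310288128af6214b0e0a59f250d673 = true := by decide +kernel

theorem cB18_8_3_200 : chunkOkM (LB18_8.ctx true true 317 2159 1024 9 16 13741 46085 4 32) muQ true true 64 RtB18_8.Cx.left.right.right.left RtB18_8.CX RtB18_8.Ctp.right.right.right.right.left.right.left RtB18_8.Ce.right.right.left.right.right.right.left.right RtB18_8.CTp.left RtB18_8.CEr 0x012121267cbbd28fd561f742985ccfb1958835af645e1f9a809f240d6934217421768cad6276c2e320e534aaf620d613a989f8fd62ecd4776c5303224f1baf62477c54729f240d643695f0f01576c4639a78314af620d4f167e8c8fd5153e3b76c1082f5379b300188109faf640d643217 = true := by decide +kernel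

theorem cB18_8_3_201 : chunkOkM (LB18_8.ctx true true 280 271 128 9 16 1715 11505 4 32) muQ true true 64 RtB18_8.Cx.left.right.right.right RtB18_8.CX RtB18_8.Ctp.right.right.right.right.left.right.left RtB18_8.Ce.right.right.left.right.right.right.left.right.left RtB18_8.CTp.left RtB18_8.CEr 0x99c196548fd8426fb476c2592b1d4a4af630d3011cc258fd27bf16c76cffb8b169b3b8922cab1af640d6 = true := by decide +kernel

theorem cB18_8_3_202 : chunkOkM (LB18_8.ctx true true 294 543 256 9 16 3437 11531 8 32) muQ true true 64 RtB18_8.Cx.left.right.right.right RtB18_8.CX RtB18_8.Ctp.right.right.right.right.left.right.left RtB18_8.Ce.right.right.left.right.right.right.left.right.right RtB18_8.CTp.left RtB18_8.CEr 0x5f807d57fd59480566c2525ac11b6af6100a3bb8a9f240d5be922e7fd26a425b76c1cc34dd79b28d7a117a3af640d53a03a5198fd49616f876c1a8e93fd07af630d40b3f1aa8fd3555a0e76cf3587169b328463707aaf640d62aed581a8fd5a763e876c134ea0522aaf630d4963d9b88fd3a2345a76c114f0ac79b23b86dc1bfaf640d673 = true := by decide +kernel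

theorem cB18_8_3_203 : chunkOkM (LB18_8.ctx true true 268 135 64 9 16 1729 5759 4 16) muQ true true 64 RtB18_8.Cx.left.right.right RtB18_8.CX RtB18_8.Ctp.right.right.right.right.left.right.right RtB18_8.Ce.right.right.left.right.right.right.left.right RtB18_8.CTp.left RtB18_8.CEr 0x11b70b0d8fd265f42476c1caae4979b60a08602d9f115100f4867af050d = true := by decide +kernel

theorem cB18_8_3_204 : chunkOkM (LB18_8.ctx true true 264 135 64 9 16 861 2873 4 32) muQ true true 64 RtB18_8.Cx.left.right.right RtB18_8.CX RtB18_8.Ctp.right.right.right.right.left.right RtB18_8.Ce.right.right.left.right.right.right.left RtB18_8.CTp.right RtB18_8.CEr 0x1f663ead8fd211a33a76c123b6cd58f830bdbc7299f61fb12d7419f510ba6b5219f260d6a6 = true := by decide +kernel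

theorem cB18_8_3_205 : chunkOkM (LB18_8.ctx true true 106 1 1 1 1 1 1 1 1) muQ true true 64 RtB18_8.Cx.left.right.right.left RtB18_8.CX RtB18_8.Ctp.right.right.right.right.left.right RtB18_8.Ce.right.right.left.right.right.right.right RtB18_8.CTp RtB18_8.CEr 0x21 = true := by decide +kernel

theorem cB18_8_3_206 : chunkOkM (LB18_8.ctx true true 290 543 256 9 16 3437 11583 4 32) muQ true true 64 RtB18_8.Cx.left.right.right.right RtB18_8.CX RtB18_8.Ctp.right.right.right.right.left.right.left RtB18_8.Ce.right.right.left.right.right.right.right.left RtB18_8.CTp RtB18_8.CEr 0x20e043ab8fd67ec94b76c3212baa48f8669abe3cd9f621e90d8fd9f539b0df1b8f260d6a62b4498e58fd5113da776c14e64e8ac9af630d503fd9328fd447309376c1271e7d79b3380634857af640d621710abecf38fd41c84cb76c28df41338eaf630d44395af18fd3cc475176c1353b2079b28df41338eaf6b27deb368f250d646938cfc7c48fd5411bcb76c16b04d03b9af630d30f76bcd8fd1dbd75376c1503f6979b134bbebe8f83394f60a46af650d6469735 = true := by decide +kernel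

theorem cB18_8_3_207 : chunkOkM (LB18_8.ctx true true 328 4351 2048 9 16 27545 92781 4 16) muQ true true 64 RtB18_8.Cx.left.right.right.right RtB18_8.CX RtB18_8.Ctp.right.right.right.right.left.right.left RtB18_8.Ce.right.right.left.right.right.right.right.right RtB18_8.CTp RtB18_8.CEr 0x2121696916bf7d2c8fd1b6bfdc48f8166284bf858bf630d215ebece8fd4d4b726185c22a405c563bbf630d54693697469321742176934217593 = true := by decide +kernel

end Vale.Agent.helper4.Q4
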