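import Vale.Agent.helper4.Q4TreeM
import Vale.Agent.helper4.Q4G.PB18_8

/-!
Checks for pairs of intervals of second moments.
-/

set_option maxRecDepth 100000
set_option linter.unusedVariables false

namespace Vale.Agent.helper4.Q4

theorem cB18_8_3_208 : chunkOkM (LB18_8.ctx true true 311 2175 1024 9 16 13783 23205 4 16) muQ true true 64 RtB18_8.Cx.left.right.right.right RtB18_8.CX RtB18_8.Ctp.right.right.right.right.left.right.right RtB18_8.Ce.right.right.left.right.right.right.right RtB18_8.CTp RtB18_8.CEr 0x01010121211759c06e8fd1c780aac8f88fb9397ee8af6ca68e7238f240d1f0f7cb98fd398a9e2185cda004969bacb2a1188eaf67c06468f8f250d52174217417f77a038fd1d2cd76d8f825a08ba796af644fde49b89f240d2213029f8fd49d15cd76c45c8a369bd755866039f65acc0ab9b9f250d51144333017 = true := by decide +kernel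

theorem cB18_8_3_209 : chunkOkM (LB18_8.ctx true true 106 1 1 1 1 1 1 1 1) muQ true true 64 RtB18_8.Cx.left RtB18_8.CX RtB18_8.Ctp.right.right.right.right.right RtB18_8.Ce.right.right.left.right.right RtB18_8.CTp RtB18_8.CEr 0x01 = true := by decide +kernel

theorem cB18_8_3_210 : chunkOkM (LB18_8.ctx true true 268 137 64 9 16 1687 5707 4 16) muQ true true 64 RtB18_8.Cx.right RtB18_8.CX RtB18_8.Ctp.right.right.right.right.left RtB18_8.Ce.right.right.left.right.right.left RtB18_8.CTp RtB18_8.CEr 0x11116969138313468fd203742318f823555c8399f6352b9ad019f540d10911f678fdb761cb66c1743e37ca6af642d4b3be79f540d53769436947 = true := by decide +kernel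

theorem cB18_8_3_211 : chunkOkM (LB18_8.ctx true true 274 275 128 9 16 1687 5733 4 16) muQ true true 64 RtB18_8.Cx.right.left.left RtB18_8.CX RtB18_8.Ctp.right.right.right.right.left.left.left RtB18_8.Ce.right.right.left.right.right.right.left.left RtB18_8.CTp RtB18_8.CEr 0x13469f0a8fd218f60c28f81fe9cd1079f633f297efc9f540d135908638baf660bdfb5d49f520d5145504828fd1ec1482a8f8a61b39db49f6375b69d819f540d129e1e478fd1b362b676cbb55aef2b9f64824414029f540d57 = true := by decide +kernel

theorem cB18_8_3_212 : chunkOkM (LB18_8.ctx true true 313 2191 1024 9 16 13545 46085 4 16) muQ true true 64 RtB18_8.Cx.right.left.left.left RtB18_8.CX RtB18_8.Ctp.right.right.right.right.left.left.left RtB18_8.Ce.right.right.left.right.right.right.left.right RtB18_8.CTp RtB18_8.CEr 0x595916c335d88fd16f5fde38f832b4fc1449f530d35089ec379f05b545975935974593597139350178fd1eed7a6b8f8e2c64a4219f63bc0e036c9f540d4feb2b1349f05b54593 = true := by decide +kernel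

theorem cB18_8_3_213 : chunkOkM (LB18_8.ctx true true 281 275 128 9 16 3381 11531 4 16) muQ true true 64 RtB18_8.Cx.right.left.left.right RtB18_8.CX RtB18_8.Ctp.right.right.right.right.left.left.left RtB18_8.Ce.right.right.left.right.right.right.left.right RtB18_8.CTp RtB18_8.CEr 0x11a4f2e98fd1d5a153c8f81122c272dcaf642cf611619f540d5d174d47fd82d515cb99f64b25c23f89f530d511c0a1938fd10b46b348f8122afb3243af657bc23b599f540d105544df8fd1e1f50ae8f81523435bb9af655e3dabc79f540d4dba125f59f05b543 = true := by decide +kernel

theorem cB18_8_3_214 : chunkOkM (LB18_8.ctx true true 281 273 128 9 16 3395 11479 4 16) muQ true true 64 RtB18_8.Cx.right.left.left RtB18_8.CX RtB18_8.Ctp.right.right.right.right.left.left.right RtB18_8.Ce.right.right.left.right.right.right.left.left RtB18_8.CTp RtB18_8.CEr 0x142aab8f8fd1dc739ed8f86f5bb709b9f62aa57bcd49f540d696919ef0ae88fd2325e4e76c194028e08aaf62e6175b7d9f540d30475 = true := by decide +kernel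

theorem cB18_8_3_215 : chunkOkM (LB18_8.ctx true true 291 547 256 9 16 6797 11531 4 16) muQ true true 64 RtB18_8.Cx.right.left.left.left RtB18_8.CX RtB18_8.Ctp.right.right.right.right.left.left.right.left RtB18_8.Ce.right.right.left.right.right.right.left.right RtB18_8.CTp.left RtB18_8.CEr 0x13292a308fd1d6bb5376c6b74bbdc19f643624617e9f540d129eae7f8fdf0277466c1e2bb57963af62faeda7c19f540d18e9219d8fd26e40a676c112db458d0af63b57fbc209f540d12ba75d78fd183182a76c9c555ade99f642e0d1fd29f540d374 = true := by decide +kernel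

theorem cB18_8_3_216 : chunkOkM (LB18_8.ctx true true 290 547 256 9 16 3409 11531 4 32) muQ true true 64 RtB18_8.Cx.right.left.left.left RtB18_8.CX RtB18_8.Ctp.right.right.right.right.left.left.right.right RtB18_8.Ce.right.right.left.right.right.right.left.right RtB18_8.CTp.left RtB18_8.CEr 0x17882f538fd22b0b9b76c30864ccde3af6272bf4ffc9f540d2f767c876c1840d30bedaf61cfc549239f530d40fda0558fd41f90b076c1014df5650af638491fb859f540d671960d89c8fd271d8b976c3b676855a6af6112eb8f5c9f540d4 = true := by decide +kernel

theorem cB18_8_3_217 : chunkOkM (LB18_8.ctx true true 274 275 128 9 16 1701 5759 4 16) muQ true true 64 RtB18_8.Cx.right.left.left.right RtB18_8.CX RtB18_8.Ctp.right.right.right.right.left.left.right RtB18_8.Ce.right.right.left.right.right.right.left.right RtB18_8.CTp.left RtB18_8.CEr 0xbb34f3f7fd8bb13966c17c06ee6abaf63aa6d62fc9f540d = true := by decide +kernel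

theorem cB18_8_3_218 : chunkOkM (LB18_8.ctx true true 271 137 64 9 16 1701 5759 4 32) muQ true true 64 RtB18_8.Cx.right.left.left RtB18_8.CX RtB18_8.Ctp.right.right.right.right.left.left.right RtB18_8.Ce.right.right.left.right.right.right.left.right RtB18_8.CTp.right RtB18_8.CEr 0x1abe19678fdf751a517f870353d5149f62ab0244009f540d6a6 = true := by decide +kernel

theorem cB18_8_3_219 : chunkOkM (LB18_8.ctx true true 268 139 64 9 16 1687 5759 4 16) muQ true true 64 RtB18_8.Cx.right.left.right RtB18_8.CX RtB18_8.Ctp.right.right.right.right.left.left RtB18_8.Ce.right.right.left.right.right.right.left RtB18_8.CTp RtB18_8.CEr 0x69124eebb88fd2424d25a8f81057fb2a83af63dc3d49d29f540d1576214f20af676d2fa39c9f520d53694 = true := by decide +kernel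

theorem cB18_8_3_220 : chunkOkM (LB18_8.ctx true true 310 2207 1024 9 16 13545 23153 4 16) muQ true true 64 RtB18_8.Cx.right.left.left RtB18_8.CX RtB18_8.Ctp.right.right.right.right.left.left.left RtB18_8.Ce.right.right.left.right.right.right.right RtB18_8.CTp RtB18_8.CEr 0x5959147cc05b8fd6aaeb927f85cb4508499f530d5975935974593597128e6aff8fd1e36b6bb8f8f17f089319f63d6e0f6bb9f540d517ccf9c19f05b545935974 = true := by decide +kernel

theorem cB18_8_3_221 : chunkOkM (LB18_8.ctx true true 291 547 256 9 16 6797 11557 4 16) muQ true true 64 RtB18_8.Cx.right.left.left.left RtB18_8.CX RtB18_8.Ctp.right.right.right.right.left.left.right.left RtB18_8.Ce.right.right.left.right.right.right.right.left RtB18_8.CTp RtB18_8.CEr 0x5913d80d4b8fd1ebb8f4a8f810717512eaaf63cca2b5639f540d4e1c4d97a9f05b55935974 = true := by decide +kernel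

end Vale.Agent.helper4.Q4
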