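import Vale.Agent.helper4.Q4TreeM
import Vale.Agent.helper4.Q4G.PB18_8

/-!
Checks for pairs of intervals of second moments.
-/

set_option maxRecDepth 100000
set_option linter.unusedVariables false

namespace Vale.Agent.helper4.Q4

theorem cB18_8_3_222 : chunkOkM (LB18_8.ctx true true 294 547 256 9 16 6825 11557 4 32) muQ true true 64 RtB18_8.Cx.right.left.left.left RtB18_8.CX RtB18_8.Ctp.right.right.right.right.left.left.right.right RtB18_8.Ce.right.right.left.right.right.right.right.left.left RtB18_8.CTp.left RtB18_8.CEr 0x21c05c4e97690c8fd43e57ef76c26a1012245af61b162eae99f540d617414b918fd212e87776c1aad8347d0af62e786b12e9f540d3130837098fd10fc79bd85c3f3ad49877af630d59646ac48fd5656fcb76cc1c40a69b1cf81e278daf61873071639f550d6176c5fe08fd24115a276c12df8f5f19af63faa1a78a9f540d37 = true := by decide +kernel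

theorem cB18_8_3_223 : chunkOkM (LB18_8.ctx true true 294 547 256 9 16 6825 23179 4 16) muQ true true 64 RtB18_8.Cx.right.left.left.left RtB18_8.CX RtB18_8.Ctp.right.right.right.right.left.left.right.right RtB18_8.Ce.right.right.left.right.right.right.right.left.right RtB18_8.CTp.left RtB18_8.CEr 0x175082b68fd243863e085c183143cb6baf63da2f2c0c9f540d190fd1d38fd26c3d2276c2ccffd2f4daf62668b49f89f540d44f8889df19f05b3697 = true := by decide +kernel

theorem cB18_8_3_224 : chunkOkM (LB18_8.ctx true true 281 273 128 9 16 3409 5785 4 32) muQ true true 64 RtB18_8.Cx.right.left.left.left RtB18_8.CX RtB18_8.Ctp.right.right.right.right.left.left.right.right RtB18_8.Ce.right.right.left.right.right.right.right.left RtB18_8.CTp.right RtB18_8.CEr 0x1ce852428fd91b297b76c4ab48c468f828341ea6f9f6383d23fff9f550d6a6 = true := by decide +kernel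

theorem cB18_8_3_225 : chunkOkM (LB18_8.ctx true true 281 275 128 9 16 3409 5785 4 32) muQ true true 64 RtB18_8.Cx.right.left.left.right RtB18_8.CX RtB18_8.Ctp.right.right.right.right.left.left.right RtB18_8.Ce.right.right.left.right.right.right.right.left RtB18_8.CTp RtB18_8.CEr 0x173c0d8f8fde1379737f847558b4829f63571e14499f540d6a6164c43c98fd21bc7dd76c9974d9b879f63bb2e591a9f540dd8a14487fd1185eb176c78ed107a99f6493f974529f540d35 = true := by decide +kernel

theorem cB18_8_3_226 : chunkOkM (LB18_8.ctx true true 336 8767 4096 9 16 27321 92781 4 32) muQ true true 64 RtB18_8.Cx.right.left.left RtB18_8.CX RtB18_8.Ctp.right.right.right.right.left.left.right RtB18_8.Ce.right.right.left.right.right.right.right.right RtB18_8.CTp RtB18_8.CEr 0x1a5f7e1b8fd809929076c45134ae38f82ce567bc59f63b9acae839f550d6a68ccf0f27fdf805dd66c4c831c0a59f64607fc6889f540d559111813c48fd1fe6de5b8f81253267560af646799d7619f540d504b1bd519f05b5593597435959595913d0c5b28fd1ce7ee898f894c8afce04af630d6901de63c5af06b569745975934597593459759359745937 = true := by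 decide +kernel

theorem cB18_8_3_227 : chunkOkM (LB18_8.ctx true true 281 279 128 9 16 3381 11583 4 16) muQ true true 64 RtB18_8.Cx.right.left.right RtB18_8.CX RtB18_8.Ctp.right.right.right.right.left.left.left RtB18_8.Ce.right.right.left.right.right.right.right.left RtB18_8.CTp RtB18_8.CEr 0x1173596a8fd248290198f825c049f599f63d63ce4f09f540dd99afba7f8efd9147fb9f6645c06dd99f530d51042c4568fd1e19210a8f8de983b0ed9f64e5ee01509f540d914fd866c15939e508f81ea84fc673af65ec7af5799f540d5c38e8a57fd1aa85c918f817a173256daf66a5f239159f540dfd27c4f7fd12da61548f8efe722e8b9f65be789e2e9f540d437 = true := by decide +kernel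

theorem cB18_8_3_228 : chunkOkM (LB18_8.ctx true true 281 279 128 9 16 3381 11635 4 16) muQ true true 64 RtB18_8.Cx.right.left.right RtB18_8.CX RtB18_8.Ctp.right.right.right.right.left.left.left RtB18_8.Ce.right.right.left.right.right.right.right.right RtB18_8.CTp RtB18_8.CEr 0xece92ae7fd1f224c128f8fa41f11eb9f6589db70e59f540d4a99a66ea9f05b5a8dfd627fd1eb9dd6b8f8141252008aaf66bd52e6059f540db759e3f7fd1dd0b1388f814e64dfe57af6684710baf9f540d43f19d86a7fd106183258f87dc6dde08f6733c3bcc19f540d115b61c08fd16e407918f817bb65f7f4af677df168fe9f540d533f2d96d9f05b545937 = true := by decide +kernel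

theorem cB18_8_3_229 : chunkOkM (LB18_8.ctx true true 271 139 64 9 16 1701 5811 4 32) muQ true true 64 RtB18_8.Cx.right.left.right RtB18_8.CX RtB18_8.Ctp.right.right.right.right.left.left.right RtB18_8.Ce.right.right.left.right.right.right.right RtB18_8.CTp RtB18_8.CEr 0x10fcb0618fd19767e028f83df9f57f79f632f0f6aff9f540d6a6199bd117fd16a0b666c94d187c7b9f6497853e479f540d51223f08d8fd1f6c54aa8f8876ce6748f62fc7f88d19f540d31a497f819f05b54 = true := by decide +kernel

theorem cB18_8_3_230 : chunkOkM (LB18_8.ctx true true 255 69 32 9 16 861 2873 4 16) muQ true true 64 RtB18_8.Cx.right.left RtB18_8.CX RtB18_8.Ctp.right.right.right.right.left.right RtB18_8.Ce.right.right.left.right.right.right.left RtB18_8.CTp RtB18_8.CEr 0x1519d5418fd1c1bc79e8f8484e59abc8af630d1d83ba828fd330ede776c37095a1ef6af630d5 = true := by decide +kernel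

end Vale.Agent.helper4.Q4
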