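import Vale.Agent.helper4.Q4TreeM
import Vale.Agent.helper4.Q4G.PB18_8

/-!
Checks for pairs of intervals of second moments.
-/

set_option maxRecDepth 100000
set_option linter.unusedVariables false

namespace Vale.Agent.helper4.Q4

theorem cB18_8_3_231 : chunkOkM (LB18_8.ctx true true 291 547 256 9 16 3437 11557 4 32) muQ true true 64 RtB18_8.Cx.right.left.left.left RtB18_8.CX RtB18_8.Ctp.right.right.right.right.left.right.left RtB18_8.Ce.right.right.left.right.right.right.right.left.left RtB18_8.CTp.left RtB18_8.CEr 0x1ee84be38fd4037bdc76c7d49b4d9cfaf630d842a05c8f4c67df8fd82f3b9776c2f4354c56daf630d47e3a54d8fd55c660676c12aa44b79b21a86a448f8402817aa7aaf650d673 = true := by decide +kernel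

theorem cB18_8_3_232 : chunkOkM (LB18_8.ctx true true 295 547 256 9 16 3437 11583 8 32) muQ true true 64 RtB18_8.Cx.right.left.left.left RtB18_8.CX RtB18_8.Ctp.right.right.right.right.left.right.left RtB18_8.Ce.right.right.left.right.right.right.right.left.right RtB18_8.CTp.left RtB18_8.CEr 0x41d73317fd24696e66c35bd15d907af630dd99e116fd27cd92f76c3b7849b31dc53ff4eaf640d51c9918c78fd27143bd76c2430f3078caf630d405df76f8fd2fe509c76c11f6e2d79b13e008928f8342b85922aaf650d622966fb76c931e58fa6eaf620d3e1c32de8fd431022e76cd44beb69b1d64e5688f84fa8660fcfaf650d673 = true := by decide +kernel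

theorem cB18_8_3_233 : chunkOkM (LB18_8.ctx true true 274 275 128 9 16 1715 5785 4 16) muQ true true 64 RtB18_8.Cx.right.left.left.right RtB18_8.CX RtB18_8.Ctp.right.right.right.right.left.right.left RtB18_8.Ce.right.right.left.right.right.right.right.left RtB18_8.CTp.left RtB18_8.CEr 0x0 = true := by decide +kernel

theorem cB18_8_3_234 : chunkOkM (LB18_8.ctx true true 106 1 1 1 1 1 1 1 1) muQ true true 64 RtB18_8.Cx.right.left.left RtB18_8.CX RtB18_8.Ctp.right.right.right.right.left.right.right RtB18_8.Ce.right.right.left.right.right.right.right.left RtB18_8.CTp.left RtB18_8.CEr 0x69 = true := by decide +kernel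

theorem cB18_8_3_235 : chunkOkM (LB18_8.ctx true true 299 547 256 9 16 6853 23231 4 32) muQ true true 64 RtB18_8.Cx.right.left.left.left RtB18_8.CX RtB18_8.Ctp.right.right.right.right.left.right.left.left RtB18_8.Ce.right.right.left.right.right.right.right.right RtB18_8.CTp.left RtB18_8.CEr 0x1b00e8ff8fd3017ccb76c9c669c7553af630d55f318e7fd295e75d76c45c526f6d6af630d3ba3e6cb8fd30f665d76c91183269b324ee85637af640d617fda92c8fd29379b3d85c72e46aa28faf630d196036fd8fd2701156885c54eb197d88af630d43195d3d728fd29f922176c9242fe69b2211efedaa5bf640d74 = true := by decide +kernel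

theorem cB18_8_3_236 : chunkOkM (LB18_8.ctx true true 308 1091 512 9 16 6881 23257 8 32) muQ true true 64 RtB18_8.Cx.right.left.left.left RtB18_8.CX RtB18_8.Ctp.right.right.right.right.left.right.left.right RtB18_8.Ce.right.right.left.right.right.right.right.right RtB18_8.CTp.left RtB18_8.CEr 0x579e4fa7fd31750ca76c3c021c40b2af630d40fd0ed18fd37bcbae76cc1fa2969b2bc55d737aaf640d6691eda81cc8fd4301de4485cd7d6d958edaf630d46976937354cc0652aaf06b97a5ac6fd20b6ffe76c27983769b4c4f657b9daf640d55041e757fd36d68d276c3e4e157d38af630d518612918fd3b0776c76c186668e79b6212783b24af640d674 = true := by decide +kernel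

theorem cB18_8_3_237 : chunkOkM (LB18_8.ctx true true 290 551 256 9 16 3437 11609 4 32) muQ true true 64 RtB18_8.Cx.right.left.left.right RtB18_8.CX RtB18_8.Ctp.right.right.right.right.left.right.left RtB18_8.Ce.right.right.left.right.right.right.right.right.left RtB18_8.CTp.left RtB18_8.CEr 0x21e04c0bd437a77fd1a0870c76c25984ef4f0af650d017d18f540d44490f4a8fd15a059c76c20e66b679b2dd004e325af61199e62b29f550d673 = true := by decide +kernel

theorem cB18_8_3_238 : chunkOkM (LB18_8.ctx true true 299 551 256 9 16 6853 23283 8 16) muQ true true 64 RtB18_8.Cx.right.left.left.right RtB18_8.CX RtB18_8.Ctp.right.right.right.right.left.right.left RtB18_8.Ce.right.right.left.right.right.right.right.right.right RtB18_8.CTp.left RtB18_8.CEr 0x03ad2818a45af06b1a8129e76c3ce406459aaf620d57e318ef57fd15bf81376c236ae876d9af63235bcf8f9f540d180bf98a8fd25e2113285c4b9eb6d692af6c8496e6f8f540d1571548d8fd22cf61b76c4a158f06b5af630d414e91e968fd1e2fff8d85cc530a25cf9f638aace7c89f540d373 = true := by decide +kernel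

theorem cB18_8_3_239 : chunkOkM (LB18_8.ctx true true 288 273 128 9 16 3451 11635 8 32) muQ true true 64 RtB18_8.Cx.right.left.left RtB18_8.CX RtB18_8.Ctp.right.right.right.right.left.right.right RtB18_8.Ce.right.right.left.right.right.right.right.right RtB18_8.CTp.left RtB18_8.CEr 0x693e4139fd8fd4e15c9376c82af934629f642c8664b19f240d48b143158fd2a58d6076c1c1f45f79b25f2455305af61b7ca362d9f250d61147a11a27fd5c382c66c27118373c5af6a42ef8688f240d714d95d7fd2da72ee76c47462b5c59af630d5347 = true := by decide +kernel

theorem cB18_8_3_240 : chunkOkM (LB18_8.ctx true true 268 137 64 9 16 1729 2899 4 32) muQ true true 64 RtB18_8.Cx.right.left.left RtB18_8.CX RtB18_8.Ctp.right.right.right.right.left.right RtB18_8.Ce.right.right.left.right.right.right.right RtB18_8.CTp.right RtB18_8.CEr 0x22eafc1d8fd62a28f66c2cf0ab0c79f644632a6149f240d2053fcff8fd52dad7976c286367fc8f845f97a61f9f629c1186649f550d36a6 = true := by decide +kernel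

end Vale.Agent.helper4.Q4
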