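import Vale.Agent.helper4.Q4TreeM
import Vale.Agent.helper4.Q4G.PB18_8

/-!
Checks for pairs of intervals of second moments.
-/

set_option maxRecDepth 100000
set_option linter.unusedVariables false

namespace Vale.Agent.helper4.Q4

theorem cB18_8_3_241 : chunkOkM (LB18_8.ctx true true 261 139 64 9 16 861 2899 4 16) muQ true true 64 RtB18_8.Cx.right.left.right RtB18_8.CX RtB18_8.Ctp.right.right.right.right.left.right RtB18_8.Ce.right.right.left.right.right.right.right RtB18_8.CTp RtB18_8.CEr 0x1a9a62508f06c05 = true := by decide +kernel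

theorem cB18_8_3_242 : chunkOkM (LB18_8.ctx true true 274 281 128 9 16 1687 5811 4 16) muQ true true 64 RtB18_8.Cx.right.right RtB18_8.CX RtB18_8.Ctp.right.right.right.right.left RtB18_8.Ce.right.right.left.right.right.right RtB18_8.CTp RtB18_8.CEr 0x116969691082b6848fd252d592a8f83c60c5b799f6449c6493e9f540d11f2db8f8f811bff94801af66e126e0ef9f530d57769436943 = true := by decide +kernel

theorem cB18_8_3_243 : chunkOkM (LB18_8.ctx true true 106 1 1 1 1 1 1 1 1) muQ true true 64 RtB18_8.Cx.right RtB18_8.CX RtB18_8.Ctp.right.right.right.right.right RtB18_8.Ce.right.right.left.right.right RtB18_8.CTp RtB18_8.CEr 0x11 = true := by decide +kernel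

theorem cB18_8_3_244 : chunkOkM (LB18_8.ctx true true 106 1 1 1 1 1 1 1 1) muQ true true 64 RtB18_8.Cx RtB18_8.CX RtB18_8.Ctp.right.right.left RtB18_8.Ce.right.right.right RtB18_8.CTp RtB18_8.CEr 0x59 = true := by decide +kernel

theorem cB18_8_3_245 : chunkOkM (LB18_8.ctx true true 106 1 1 1 1 1 1 1 1) muQ true true 64 RtB18_8.Cx.left RtB18_8.CX RtB18_8.Ctp.right.right.right RtB18_8.Ce.right.right.right.left RtB18_8.CTp RtB18_8.CEr 0x21 = true := by decide +kernel

theorem cB18_8_3_246 : chunkOkM (LB18_8.ctx true true 293 1129 512 9 16 6713 11661 2 16) muQ true true 64 RtB18_8.Cx.right RtB18_8.CX RtB18_8.Ctp.right.right.right.left RtB18_8.Ce.right.right.right.left RtB18_8.CTp RtB18_8.CEr 0x595949592baf17168f838a67c7771af5cb49f15d93af430d49495969205537fd1ed6cca88f8221caff906af6a99da97949f5c1936b998f450d4774934935cff4a47fd1cfb82c88f819e90ce289f678516ebc79f540d744749349359744934 = true := by decide +kernel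

theorem cB18_8_3_247 : chunkOkM (LB18_8.ctx true true 336 8831 4096 9 16 54649 93197 4 16) muQ true true 64 RtB18_8.Cx.right.left.left RtB18_8.CX RtB18_8.Ctp.right.right.right.right.left.left RtB18_8.Ce.right.right.right.left.left.left.left RtB18_8.CTp RtB18_8.CEr 0x595959595911e3992a8fd1d4722218f84b7944a949f530d0559759345975934597593597459359745935974593 = true := by decide +kernel

theorem cB18_8_3_248 : chunkOkM (LB18_8.ctx true true 281 279 128 9 16 3381 11687 4 16) muQ true true 64 RtB18_8.Cx.right.left.right RtB18_8.CX RtB18_8.Ctp.right.right.right.right.left.left.left RtB18_8.Ce.right.right.right.left.left.left.left RtB18_8.CTp RtB18_8.CEr 0x59ab6234e7fd1a8608c18f870a942dcd9f530d109380208fd1f017e548f8d9e191a5c9f65f2c9aed29f540d55292627e9f05b545935974 = true := by decide +kernel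

theorem cB18_8_3_249 : chunkOkM (LB18_8.ctx true true 294 555 256 9 16 6797 11661 4 32) muQ true true 64 RtB18_8.Cx.right.left.right RtB18_8.CX RtB18_8.Ctp.right.right.right.right.left.left.right RtB18_8.Ce.right.right.right.left.left.left.left.left RtB18_8.CTp RtB18_8.CEr 0x118d2e578fd223783ad8f8bba5764289f644f32a4719f540d1209cd828f8d36846c099f64719ce64a9f530d5873055e7fd96c6aca7f83a8a3877f766836d0b49f64224f44fc9f550d6a6530a8f07fda0adf587f8b824ab3259f64a3512c369f540d559132e5a818fd15722f0c8f820781b1b62af6576fe72c29f540d51debf6079f05b5593597437 = true := by decide +kernel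

theorem cB18_8_3_250 : chunkOkM (LB18_8.ctx true true 300 1119 512 9 16 6797 23413 4 16) muQ true true 64 RtB18_8.Cx.right.left.right RtB18_8.CX RtB18_8.Ctp.right.right.right.right.left.left.right RtB18_8.Ce.right.right.right.left.left.left.left.right RtB18_8.CTp RtB18_8.CEr 0x1256458d8fd230c4b4c8f890a6b6b629f646d0efffd9f540d4ff25c4d69f05b55959fb621987fd182086338f86ab744fab9f530d40685e26d9f05b5597459359743597 = true := by decide +kernel

theorem cB18_8_3_251 : chunkOkM (LB18_8.ctx true true 106 1 1 1 1 1 1 1 1) muQ true true 64 RtB18_8.Cx.right.left RtB18_8.CX RtB18_8.Ctp.right.right.right.right.left.left RtB18_8.Ce.right.right.right.left.left.left.right RtB18_8.CTp RtB18_8.CEr 0x59 = true := by decide +kernel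

theorem cB18_8_3_252 : chunkOkM (LB18_8.ctx true true 301 1095 512 9 16 6881 23309 4 16) muQ true true 64 RtB18_8.Cx.right.left.left.left RtB18_8.CX RtB18_8.Ctp.right.right.right.right.left.right.left RtB18_8.Ce.right.right.right.left.left.left.left.left RtB18_8.CTp RtB18_8.CEr 0x5969164d13a98fd1d77262e8f8759ce66369af630d1b8c33988fd3a13e36b85c83e3231acbaf630d546976934217593 = true := by decide +kernel

theorem cB18_8_3_253 : chunkOkM (LB18_8.ctx true true 287 551 256 9 16 3423 11687 4 16) muQ true true 64 RtB18_8.Cx.right.left.left.right RtB18_8.CX RtB18_8.Ctp.right.right.right.right.left.right.left.left RtB18_8.Ce.right.right.right.left.left.left.left.left RtB18_8.CTp.left RtB18_8.CEr 0xc9c5d107fd14157a576c168b7c56a8af642f4296949f540d136d980e8fd1ef6bc376c1906ecdec6af63584338959f540d1518c3768fd231cc3176c1c520528baaf6394cbe2e59f540d74 = true := by decide +kernel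

theorem cB18_8_3_254 : chunkOkM (LB18_8.ctx true true 298 551 256 9 16 6881 23335 4 32) muQ true true 64 RtB18_8.Cx.right.left.left.right RtB18_8.CX RtB18_8.Ctp.right.right.right.right.left.right.left.right RtB18_8.Ce.right.right.right.left.left.left.left.left.left RtB18_8.CTp.left RtB18_8.CEr 0x13c6bc438fd210daa776c4b8f0e7a8eaf630d3ea277c76c309a3d4056af620d56fa0ee58fd5de45e976c54ea3de1dcaf630d6154ef00e8fd29e0ed1a85c6913cec775af630d19b1b9c38fd2d4653276c6ab2dc166baf630d437 = true := by decide +kernel

theorem cB18_8_3_255 : chunkOkM (LB18_8.ctx true true 298 1099 512 9 16 6881 11687 4 16) muQ true true 64 RtB18_8.Cx.right.left.left.right RtB18_8.CX RtB18_8.Ctp.right.right.right.right.left.right.left.right RtB18_8.Ce.right.right.right.left.left.left.left.left.right RtB18_8.CTp.left RtB18_8.CEr 0x17a8c38e8fd2929f3876c55d26482deaf630d14554e208fd224016976c20362d2cb7af62c1df2bed9f540d31b1a1a838fd3185c40f85c5f4b139bd6af630d6976937 = true := by decide +kernel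

theorem cB18_8_3_256 : chunkOkM (LB18_8.ctx true true 277 275 128 9 16 1715 5837 4 32) muQ true true 64 RtB18_8.Cx.right.left.left.right RtB18_8.CX RtB18_8.Ctp.right.right.right.right.left.right.left RtB18_8.Ce.right.right.right.left.left.left.left.left RtB18_8.CTp.right RtB18_8.CEr 0x22eca8f68fd2d62deb7f83370ee6c09f62e77d23b89f540d6a6 = true := by decide +kernel

theorem cB18_8_3_257 : chunkOkM (LB18_8.ctx true true 301 1103 512 9 16 6881 11713 4 32) muQ true true 64 RtB18_8.Cx.right.left.left RtB18_8.CX RtB18_8.Ctp.right.right.right.right.left.right.left RtB18_8.Ce.right.right.right.left.left.left.left.right RtB18_8.CTp RtB18_8.CEr 0x59142746f88fd75c2b8b7f82e528c4870af630d6a6177d89518fd2716d6a785c5aee79724eaf630d5115d7252faf06b356974597593217 = true := by decide +kernel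

end Vale.Agent.helper4.Q4
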