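import Vale.Agent.helper4.Q4TreeM
import Vale.Agent.helper4.Q4G.PB18_8

/-!
Checks for pairs of intervals of second moments.
-/

set_option maxRecDepth 100000
set_option linter.unusedVariables false

namespace Vale.Agent.helper4.Q4

theorem cB18_8_3_38 : chunkOkM (LB18_8.ctx true true 293 515 256 9 16 3283 10855 8 32) muQ true true 64 RtB18_8.Cx.left.left.left.left RtB18_8.CX RtB18_8.Ctp.right.right.right.left.right.left.right.left RtB18_8.Ce.right.right.left.right.left.left.left.left RtB18_8.CTp.left RtB18_8.CEr.left 0x75a724b58fd453e7ec76c95d94969b94717b5d29f6326099d6a9f550d7d0931428fd4ffb93776ca15f6b69baae20a65b9f634868351e9f550d2a60f1ca8fd3094262c40af64697e9858f530d7f69a54c8fd55cdd0a76cfd5b8369baee56af8f9f638ba1ace79f550d574 = true := by decide +kernel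

theorem cB18_8_3_39 : chunkOkM (LB18_8.ctx true true 293 515 256 9 16 3297 10855 8 32) muQ true true 64 RtB18_8.Cx.left.left.left.left RtB18_8.CX RtB18_8.Ctp.right.right.right.left.right.left.right.right RtB18_8.Ce.right.right.left.right.left.left.left.left RtB18_8.CTp.left RtB18_8.CEr.left 0x872e680f8fd5315ff976c7f847f69b291e58c499af6d3403a068f550d2fea56078fdd8c34266c303fa01f05af630d891fdaa08fd668ff1576c4c8b9069b24adf38892af640d5764a898968fd37df8d276c759a3669b1af2def252af640d8f3bd9a48fd5e5b86b76c9cf5d469b23d1e5e288af640d54 = true := by decide +kernel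

theorem cB18_8_3_40 : chunkOkM (LB18_8.ctx true true 276 257 128 9 16 1645 5421 4 32) muQ true true 64 RtB18_8.Cx.left.left.left.left RtB18_8.CX RtB18_8.Ctp.right.right.right.left.right.left.right RtB18_8.Ce.right.right.left.right.left.left.left.left RtB18_8.CTp.left RtB18_8.CEr.right 0xacb1809c8fd96320b376c728e43d9a9f62cbe8a14d9f540d = true := by decide +kernel

theorem cB18_8_3_41 : chunkOkM (LB18_8.ctx true true 276 259 128 9 16 1645 5421 4 32) muQ true true 64 RtB18_8.Cx.left.left.left.right RtB18_8.CX RtB18_8.Ctp.right.right.right.left.right.left.right RtB18_8.Ce.right.right.left.right.left.left.left.left RtB18_8.CTp.left RtB18_8.CEr 0xaaf074e08fd96acd7f76c4c3690ccd9f631dfc9bc39f540d77f90ea38fd4b46d8d76c94912369b11eed97c57af6314bc67ef9f550d6 = true := by decide +kernel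

theorem cB18_8_3_42 : chunkOkM (LB18_8.ctx true true 270 129 64 9 16 1645 5421 4 32) muQ true true 64 RtB18_8.Cx.left.left.left RtB18_8.CX RtB18_8.Ctp.right.right.right.left.right.left.right RtB18_8.Ce.right.right.left.right.left.left.left.left RtB18_8.CTp.right RtB18_8.CEr 0x17b6b75b8fd321a5f276c1ff8b7158f86671f739d9f6213c2257b9f550d6a6 = true := by decide +kernel

theorem cB18_8_3_43 : chunkOkM (LB18_8.ctx true true 295 515 256 9 16 3297 10907 8 32) muQ true true 64 RtB18_8.Cx.left.left.left.left RtB18_8.CX RtB18_8.Ctp.right.right.right.left.right.left.right RtB18_8.Ce.right.right.left.right.left.left.left.right RtB18_8.CTp.left RtB18_8.CEr 0x66bbd97f8fd6f4b34676c207a2eef09f631e13dca49f540d615208ef8fd4277b4576cbc97f169b77dd5eae61af640d26f5234f8fd381804b7f8383e6971ccaf630d89b1d3de8fd595e4b476cba03e369b1fb5f9a80faf615e76db979f550d547f2e2fb8fd35f7b6e76c144720279b115c4592c0bbf640d744ff2b5cd8fd4cc974976ca6a8898c19f63dfb2a4fa9f540d36 = true := by decide +kernel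

theorem cB18_8_3_44 : chunkOkM (LB18_8.ctx true true 283 259 128 9 16 3297 10907 4 32) muQ true true 64 RtB18_8.Cx.left.left.left.right RtB18_8.CX RtB18_8.Ctp.right.right.right.left.right.left.right RtB18_8.Ce.right.right.left.right.left.left.left.right RtB18_8.CTp.left RtB18_8.CEr 0x4731960b8fd5f1fcc676c391e8fbe39f530d5828706f8fd311b29d76c1372b5079bd5e151ad89f6320e854059f550d80baf0e68fd4d4d8ca76cc38d1369be078ad4389f62bfbfe9ff9f550d4456ff9768fd31cbf8976c9d517901f9f632807385d9f540d36 = true := by decide +kernel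

theorem cB18_8_3_45 : chunkOkM (LB18_8.ctx true true 270 129 64 9 16 1645 5447 4 32) muQ true true 64 RtB18_8.Cx.left.left.left RtB18_8.CX RtB18_8.Ctp.right.right.right.left.right.left.right RtB18_8.Ce.right.right.left.right.left.left.left.right RtB18_8.CTp.right RtB18_8.CEr 0x14ab69c18fd734b2f77f83788b83459f62f3c07f489f540d6a6 = true := by decide +kernel

theorem cB18_8_3_46 : chunkOkM (LB18_8.ctx true true 280 263 128 9 16 3269 5421 4 32) muQ true true 64 RtB18_8.Cx.left.left.right RtB18_8.CX RtB18_8.Ctp.right.right.right.left.right.left.left RtB18_8.Ce.right.right.left.right.left.left.left.left RtB18_8.CTp RtB18_8.CEr 0xe5d5c337fd1ca8b0e98f8b4356b1489f642b4100c09f540dc5622df7f06c41c05c334ceb468fd22fd0ab76c15ebf69561af658473a4629f540d61e473e5e8fd2372a1176cd6f94dc489f64866d2e0a9f540d375 = true := by decide +kernel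

theorem cB18_8_3_47 : chunkOkM (LB18_8.ctx true true 273 263 128 9 16 1631 5447 4 16) muQ true true 64 RtB18_8.Cx.left.left.right RtB18_8.CX RtB18_8.Ctp.right.right.right.left.right.left.left RtB18_8.Ce.right.right.left.right.left.left.left.right RtB18_8.CTp RtB18_8.CEr 0x17a2924c8fd293192976c1d7e50bf8f89745605099f64ebe11b369f550d128026a98fd16ee24f48f8511adff9e9f642a39c2149f540d204a0faa8fd2cebe3c76c53cd7f1939f6492a8b7fd9f540d57 = true := by decide +kernel

theorem cB18_8_3_48 : chunkOkM (LB18_8.ctx true true 270 131 64 9 16 1645 5447 4 32) muQ true true 64 RtB18_8.Cx.left.left.right RtB18_8.CX RtB18_8.Ctp.right.right.right.left.right.left.right RtB18_8.Ce.right.right.left.right.left.left.left RtB18_8.CTp RtB18_8.CEr 0x14df71c08fd1a386d7f8f81b5615d939f62e37d569a9f540d4421736d8fd53d1c1e76c657550d1d9f631d341e889f540d4bfe09478fd4d506e376c10653798baaf6418ec2bd39f540d61aef97bd8fd1c639d776c20d45 = true := by decide +kernel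

theorem cB18_8_3_49 : chunkOkM (LB18_8.ctx true true 307 1039 512 9 16 13209 21905 4 32) muQ true true 64 RtB18_8.Cx.left.left.left RtB18_8.CX RtB18_8.Ctp.right.right.right.left.right.left RtB18_8.Ce.right.right.left.right.left.left.right RtB18_8.CTp RtB18_8.CEr 0x59129935c68fd70350b17f885ebb21b79f627f8ca6149f540d6a6593e34805f8fd480bee476c1170f8b139af61f4bf1fd59f540d59fc90648fd3bd8ff276c4e01558b64af630d659345975935975b8c16d18fd5fe0ae276c38ef2618d9f631b10fc189f540d52b49a248fd30abd3a76cbf743c69bdc23148b09f633573586b9f550d6455935974593 = true := by decide +kernel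

end Vale.Agent.helper4.Q4
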