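import Vale.Agent.helper4.Q4TreeM
import Vale.Agent.helper4.Q4G.PB18_8

/-!
Checks for pairs of intervals of second moments.
-/

set_option maxRecDepth 100000
set_option linter.unusedVariables false

namespace Vale.Agent.helper4.Q4

theorem cB18_8_3_258 : chunkOkM (LB18_8.ctx true true 304 1095 512 9 16 6909 23361 4 32) muQ true true 64 RtB18_8.Cx.right.left.left.left RtB18_8.CX RtB18_8.Ctp.right.right.right.right.left.right.right RtB18_8.Ce.right.right.right.left.left.left.left.left RtB18_8.CTp.left RtB18_8.CEr 0x2235cdfd8fd4832f7076c59ec98d6c9f6620c73b639f240d691e9f50bb8fd40715f8085c4de2b769ba40d8d12bdaf640d42176932172b2575f7fd3c38d9776c3be019e205af630d4628b25d8fd3c3667976c12ca1e079b3be019e205af640d621743 = true := by decide +kernel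

theorem cB18_8_3_259 : chunkOkM (LB18_8.ctx true true 295 551 256 9 16 3465 11687 8 32) muQ true true 64 RtB18_8.Cx.right.left.left.right RtB18_8.CX RtB18_8.Ctp.right.right.right.right.left.right.right RtB18_8.Ce.right.right.right.left.left.left.left.left RtB18_8.CTp.left RtB18_8.CEr 0x1d7fcebd8fd430dedc76c2473c111a6af63708b83879f240d18ea1cb28fd31da82e76c4f74894656af630d37ae3bd76c493c62bd5faf620d3b3c80558fd32aad9776c105dc4779b312cd56049af640d6731f7f85a76caf06b21c05c54 = true := by decide +kernel

theorem cB18_8_3_260 : chunkOkM (LB18_8.ctx true true 271 137 64 9 16 1729 5837 4 32) muQ true true 64 RtB18_8.Cx.right.left.left RtB18_8.CX RtB18_8.Ctp.right.right.right.right.left.right.right RtB18_8.Ce.right.right.right.left.left.left.left.left RtB18_8.CTp.right RtB18_8.CEr 0x21ad94c18fda7aca966c815fdf37f816dc045c09f625880f09c9f5fba74a088f260d6a6 = true := by decide +kernel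

theorem cB18_8_3_261 : chunkOkM (LB18_8.ctx true true 106 1 1 1 1 1 1 1 1) muQ true true 64 RtB18_8.Cx.right.left.left.left RtB18_8.CX RtB18_8.Ctp.right.right.right.right.left.right.right RtB18_8.Ce.right.right.right.left.left.left.left.right RtB18_8.CTp RtB18_8.CEr 0x21 = true := by decide +kernel

theorem cB18_8_3_262 : chunkOkM (LB18_8.ctx true true 295 551 256 9 16 6909 11739 4 32) muQ true true 64 RtB18_8.Cx.right.left.left.right RtB18_8.CX RtB18_8.Ctp.right.right.right.right.left.right.right.left RtB18_8.Ce.right.right.right.left.left.left.left.right RtB18_8.CTp.left RtB18_8.CEr 0x94f933ac8fd969902fd85c3027a25c19af630d4252af818fd33d2a2176cf481b869b35bf3f8e54af640d614d454238fd266856476ca5866c9f74af630d3697380f90876c1198dac7c7af620d584d03608fd5e3f38a76c39ce61193eaf630d6569a7e076c9c989b0057af620d426e10218fd281d8ea76c162508a79b3db4e72cfaaf640d674 = true := by decide +kernel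

theorem cB18_8_3_263 : chunkOkM (LB18_8.ctx true true 301 1099 512 9 16 3465 23465 8 16) muQ true true 64 RtB18_8.Cx.right.left.left.right RtB18_8.CX RtB18_8.Ctp.right.right.right.right.left.right.right.right RtB18_8.Ce.right.right.right.left.left.left.left.right RtB18_8.CTp.left RtB18_8.CEr 0x299b75d7fd2d548866c2a5064dd64af6a50ec3f18f240d30caa5d76c36ec01940aaf677757ead8f230d5211ebf41818fd41ce99676c4ca5b487f5af62f9f608b99f240d4217721e6e737fd45cbce66c2ae70aede2af61ae39fdeb9f240d35daae87fd2a0179776c2b3cfc7c7aaf6106cbb9369f240d54 = true := by decide +kernel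

theorem cB18_8_3_264 : chunkOkM (LB18_8.ctx true true 277 275 128 9 16 1729 5863 4 32) muQ true true 64 RtB18_8.Cx.right.left.left.right RtB18_8.CX RtB18_8.Ctp.right.right.right.right.left.right.right RtB18_8.Ce.right.right.right.left.left.left.left.right RtB18_8.CTp.right RtB18_8.CEr 0x189916c28fd2dc6a267f877566893a9f6224d000259f5a392e1788f250d6a6 = true := by decide +kernel

theorem cB18_8_3_265 : chunkOkM (LB18_8.ctx true true 281 279 128 9 16 3437 5837 4 32) muQ true true 64 RtB18_8.Cx.right.left.right RtB18_8.CX RtB18_8.Ctp.right.right.right.right.left.right.left RtB18_8.Ce.right.right.right.left.left.left.left.left RtB18_8.CTp RtB18_8.CEr 0x266a5dd48fd13a7c0d76c5f9fa47079f63545146e19f540d6a601249f9a98fd1c9460076c1e7ccd7915af626bb557dc9f540d4cc2e0f7fd87cf3766cf5380476c9f63f2d350699f540d375 = true := by decide +kernel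

theorem cB18_8_3_266 : chunkOkM (LB18_8.ctx true true 294 555 256 9 16 6881 11739 4 32) muQ true true 64 RtB18_8.Cx.right.left.right.left RtB18_8.CX RtB18_8.Ctp.right.right.right.right.left.right.left RtB18_8.Ce.right.right.right.left.left.left.left.right RtB18_8.CTp RtB18_8.CEr 0x141b9ded8fd62de86676c3a17c12a8f8970995bd89f629c44d8e69f550d6a69e93a0e7fd1348b1476c122d1333d9af63be4fdf059f540d29dfeb27fd1be82b2cceaf630d8bfd469f530d13bea8078fd1ee6b1c76c3947f7dbfcaf6e5a804678f540d7f7d49f7fdba35a966ccc29625429f63d3788da09f540d3744d8d1987fdfa261ef509f64a67feda09f530d35 = true := by decide +kernel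

theorem cB18_8_3_267 : chunkOkM (LB18_8.ctx true true 277 279 128 9 16 1715 5863 4 32) muQ true true 64 RtB18_8.Cx.right.left.right.right RtB18_8.CX RtB18_8.Ctp.right.right.right.right.left.right.left RtB18_8.Ce.right.right.right.left.left.left.left.right RtB18_8.CTp RtB18_8.CEr 0x117a24c68fd16c4a6b18f8db990c54b9f628522f8599f540d6a6527038e7fd18e59dbacaaf6395a744109f530d5 = true := by decide +kernel

end Vale.Agent.helper4.Q4
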