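import Vale.Agent.helper4.Q4TreeM
import Vale.Agent.helper4.Q4G.PB18_8

/-!
Checks for pairs of intervals of second moments.
-/

set_option maxRecDepth 100000
set_option linter.unusedVariables false

namespace Vale.Agent.helper4.Q4

theorem cB18_8_3_276 : chunkOkM (LB18_8.ctx true true 295 559 256 9 16 6937 11843 4 32) muQ true true 64 RtB18_8.Cx.right.left.right.right RtB18_8.CX RtB18_8.Ctp.right.right.right.right.left.right.right RtB18_8.Ce.right.right.right.left.left.left.right.right RtB18_8.CTp RtB18_8.CEr 0x18f18d0a8fd6aa49287f84d7576e109f638893808f9f540d6a63518e999caaf06bddb3d707fd1e92b4f76c58ecc0703aaf630d4f650fb7fd9b2c49675c4326f80d19af630d37af6ab477fd146d40076c384db3ff43af630d421956b37fd70503066cc548458a09f63d3574e0b9f540d35 = true := by decide +kernel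

theorem cB18_8_3_277 : chunkOkM (LB18_8.ctx true true 278 283 128 9 16 3381 5837 4 16) muQ true true 64 RtB18_8.Cx.right.right.left RtB18_8.CX RtB18_8.Ctp.right.right.right.right.left.left.left RtB18_8.Ce.right.right.right.left.left.left.left.left RtB18_8.CTp RtB18_8.CEr 0xfa500737fd24c7505d8f8422a2828a9f64c713a3579f540d1442dce38f8133820fd95af67880618089f530d5133cb46d8fd179c2f1e8f8b67350df49f66504d95749f540d4c9c000ec9f05b5b4797fe7fd260de0788f8b78a476e79f665749cd969f540d57ec647a69f05b537 = true := by decide +kernel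

theorem cB18_8_3_278 : chunkOkM (LB18_8.ctx true true 281 283 128 9 16 3381 11713 4 16) muQ true true 64 RtB18_8.Cx.right.right.left RtB18_8.CX RtB18_8.Ctp.right.right.right.right.left.left.left RtB18_8.Ce.right.right.right.left.left.left.left.right RtB18_8.CTp RtB18_8.CEr 0x131b8c258fd1fe523c98f8f2e308b559f659b1aae259f540d4f54d8d579f05b5b1095c67fd2769deb68f8901035efa9f66ba2eb4eb9f540d5aeacc5f69f05b5359f58fe2e7fd2412bc168f8137113136aaf66c46b335e9f540d577dac2229f05b545937 = true := by decide +kernel

theorem cB18_8_3_279 : chunkOkM (LB18_8.ctx true true 274 283 128 9 16 1701 5863 4 16) muQ true true 64 RtB18_8.Cx.right.right.left RtB18_8.CX RtB18_8.Ctp.right.right.right.right.left.left.right RtB18_8.Ce.right.right.right.left.left.left.left RtB18_8.CTp RtB18_8.CEr 0x10c185868fd22ba8a778f821acea15e2af664fff8a739f540d32bf7beba9f05b511014f238fd24b815648f8bbb00b2209f64a39af4b29f540d4b29c157f870ef338049f653e1e2fe69f530d571159b3928fd22341d668f8172b246ebdaf65a81ac2469f540d304aaf5479f05b54 = true := by decide +kernel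

theorem cB18_8_3_280 : chunkOkM (LB18_8.ctx true true 269 143 64 9 16 3381 2925 4 16) muQ true true 64 RtB18_8.Cx.right.right.right RtB18_8.CX RtB18_8.Ctp.right.right.right.right.left.left RtB18_8.Ce.right.right.right.left.left.left.left RtB18_8.CTp RtB18_8.CEr 0x69b87e15b7fd24c7d0cc8f863da938f69f63f8b9cf009f56f4cff0439f450d7ade3714e9f04b54933 = true := by decide +kernel

theorem cB18_8_3_281 : chunkOkM (LB18_8.ctx true true 287 567 256 9 16 3381 11765 4 16) muQ true true 64 RtB18_8.Cx.right.right.left RtB18_8.CX RtB18_8.Ctp.right.right.right.right.left.left.left RtB18_8.Ce.right.right.right.left.left.left.right RtB18_8.CTp RtB18_8.CEr 0x5959af79e907fd21db27bb8f8d35492a0d9f676131b6ec9f540d562afb4749f05b559745935974 = true := by decide +kernel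

theorem cB18_8_3_282 : chunkOkM (LB18_8.ctx true true 301 1127 512 9 16 6797 23517 4 16) muQ true true 64 RtB18_8.Cx.right.right.left RtB18_8.CX RtB18_8.Ctp.right.right.right.right.left.left.right RtB18_8.Ce.right.right.right.left.left.left.right.left RtB18_8.CTp RtB18_8.CEr 0x1000c4698fd263148ee8f8afbdc447e9f65232e69469f540d843ec5fd10ade57c8f87af9855e19f657872e0af9f540d512725d128fd22f5850a8f8f18dedcac9f6483a67a309f540d51ac0ddad9f05b55959fe10a807fd19fe92058f849dd9bd797af6b38b83d6c9f540d41746a4d09f05b55974593597437 = true := by decide +kernel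

theorem cB18_8_3_283 : chunkOkM (LB18_8.ctx true true 301 1135 512 9 16 6797 23621 4 16) muQ true true 64 RtB18_8.Cx.right.right.left RtB18_8.CX RtB18_8.Ctp.right.right.right.right.left.left.right RtB18_8.Ce.right.right.right.left.left.left.right.right RtB18_8.CTp RtB18_8.CEr 0x117d25058fd23b004588f8e2bfe9ae19f6513f4802b9f540d53d8eb7669f05b55959d9f9b027fd1f61c13d8f88c70286a97af614b58c7568af540d44687460a9f05b5597459359743597 = true := by decide +kernel

theorem cB18_8_3_284 : chunkOkM (LB18_8.ctx true true 304 1141 512 9 16 13545 23621 4 16) muQ true true 64 RtB18_8.Cx.right.right.right RtB18_8.CX RtB18_8.Ctp.right.right.right.right.left.left.left RtB18_8.Ce.right.right.right.left.left.left.right RtB18_8.CTp RtB18_8.CEr 0x49594959a01caf67fd23bd23758f828a2965e88af6c09c3180a9f5102a1948b9f450d3850f57549f05b5474934935974e3affdf7fd23a22bc28f89c89e967e9f661a4a90d89f5ec520ba7f450d2709db598f8e954da0ba9f665b71611c9f511526adb49f440d547493 = true := by decide +kernel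

end Vale.Agent.helper4.Q4
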