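import Vale.Agent.helper4.Q4TreeM
import Vale.Agent.helper4.Q4G.PB18_8

/-!
Checks for pairs of intervals of second moments.
-/

set_option maxRecDepth 100000
set_option linter.unusedVariables false

namespace Vale.Agent.helper4.Q4

theorem cB18_8_3_285 : chunkOkM (LB18_8.ctx true true 268 143 64 9 16 1701 5889 4 16) muQ true true 64 RtB18_8.Cx.right.right.right RtB18_8.CX RtB18_8.Ctp.right.right.right.right.left.left.right RtB18_8.Ce.right.right.right.left.left.left.right.left RtB18_8.CTp RtB18_8.CEr 0xe2b09ff7fd231ce30c8f819f8e05963af67bc8945299f540d368c8eae69f05b5 = true := by decide +kernel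

theorem cB18_8_3_286 : chunkOkM (LB18_8.ctx true true 278 287 128 9 16 3409 5915 4 16) muQ true true 64 RtB18_8.Cx.right.right.right RtB18_8.CX RtB18_8.Ctp.right.right.right.right.left.left.right RtB18_8.Ce.right.right.right.left.left.left.right.right RtB18_8.CTp RtB18_8.CEr 0xecd9d197fd22e119c78f82a1cf13239f6494fa22d09f540d3c73a7ead9f05b5e16a1b77fd23776c908f8f55b2be2b9f6625f664239f540d44249316b9f05b5123159c58fd1db985958f811db8a89b9af661c11f5619f540d54acbe86c9f05b537 = true := by decide +kernel

theorem cB18_8_3_287 : chunkOkM (LB18_8.ctx true true 255 71 32 9 16 861 2925 4 16) muQ true true 64 RtB18_8.Cx.right.right RtB18_8.CX RtB18_8.Ctp.right.right.right.right.left.right RtB18_8.Ce.right.right.right.left.left.left.left RtB18_8.CTp RtB18_8.CEr 0x189a4aed8f06c05 = true := by decide +kernel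

theorem cB18_8_3_288 : chunkOkM (LB18_8.ctx true true 268 141 64 9 16 1715 5889 4 16) muQ true true 64 RtB18_8.Cx.right.right.left RtB18_8.CX RtB18_8.Ctp.right.right.right.right.left.right.left RtB18_8.Ce.right.right.right.left.left.left.right.left RtB18_8.CTp RtB18_8.CEr 0x15519ee08fd2549ee2c8f863ca360cb9f6386e6645f9f540da06af56fd2073f8d7f8d99b004b49f64d68cf0d59f540d5 = true := by decide +kernel

theorem cB18_8_3_289 : chunkOkM (LB18_8.ctx true true 307 1127 512 9 16 13713 23673 4 32) muQ true true 64 RtB18_8.Cx.right.right.left.left RtB18_8.CX RtB18_8.Ctp.right.right.right.right.left.right.left RtB18_8.Ce.right.right.right.left.left.left.right.right RtB18_8.CTp RtB18_8.CEr 0x1627691c8fd10c6a0a48f83a490dc609f63c9453bdc9f540d6a645c2356c617ca76539f64b51bad369f530d559f7e069d7fd21acca488f81f471c4307af65ef75f0b99f540d3a3888c829f05b55935974593597109d41958fd1ec725a48f81455586a1baf65c007f6ac9f540d505fe33389f05b543 = true := by decide +kernel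

theorem cB18_8_3_290 : chunkOkM (LB18_8.ctx true true 274 283 128 9 16 1715 5915 4 16) muQ true true 64 RtB18_8.Cx.right.right.left.right RtB18_8.CX RtB18_8.Ctp.right.right.right.right.left.right.left RtB18_8.Ce.right.right.right.left.left.left.right.right RtB18_8.CTp RtB18_8.CEr 0x152f097f8fd26df98e68f83f15df4559f63cf949cf99f540d79ed4666c160786edf6af65fb0930279f530d5 = true := by decide +kernel

theorem cB18_8_3_291 : chunkOkM (LB18_8.ctx true true 268 141 64 9 16 1729 2951 4 32) muQ true true 64 RtB18_8.Cx.right.right.left RtB18_8.CX RtB18_8.Ctp.right.right.right.right.left.right.right RtB18_8.Ce.right.right.right.left.left.left.right RtB18_8.CTp RtB18_8.CEr 0x15c2d46d8fdaa13fb07f8625e40208f630f1428ba9f540d6a62009af66ce611e59629f637f0ba52b9f530d5 = true := by decide +kernel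

theorem cB18_8_3_292 : chunkOkM (LB18_8.ctx true true 261 143 64 9 16 861 2951 4 16) muQ true true 64 RtB18_8.Cx.right.right.right RtB18_8.CX RtB18_8.Ctp.right.right.right.right.left.right RtB18_8.Ce.right.right.right.left.left.left.right RtB18_8.CTp RtB18_8.CEr 0x116af72f8fd1e5a50768f8afcf72aa69f65653057379f540d05 = true := by decide +kernel

theorem cB18_8_3_293 : chunkOkM (LB18_8.ctx true true 317 2239 1024 9 16 13825 47437 4 32) muQ true true 64 RtB18_8.Cx.right.left RtB18_8.CX RtB18_8.Ctp.right.right.right.right.left RtB18_8.Ce.right.right.right.left.left.right RtB18_8.CTp RtB18_8.CEr 0x215914c82d5a8fd896262476c48beb4f98f85c7ea2a159f6348a1bbfb9f550d6a6109da8d7fd7999ec66c1926713ad6af639a8c8c399f540d58b87ed7fdc85c4d66c30e035afaaaf61a46ecf709f540d5844e587fdc85c4d66c5820ebb373af630d7455959592e9524118fd23f13b37f83867e25569f530d6a637129ed269f05b5459759345975935974359745932174593 = true := by decide +kernel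

theorem cB18_8_3_294 : chunkOkM (LB18_8.ctx true true 106 1 1 1 1 1 1 1 1) muQ true true 64 RtB18_8.Cx.right.right.left RtB18_8.CX RtB18_8.Ctp.right.right.right.right.left.left RtB18_8.Ce.right.right.right.left.left.right.left RtB18_8.CTp RtB18_8.CEr 0x59 = true := by decide +kernel

theorem cB18_8_3_295 : chunkOkM (LB18_8.ctx true true 261 143 64 9 16 1687 2977 2 16) muQ true true 64 RtB18_8.Cx.right.right.right RtB18_8.CX RtB18_8.Ctp.right.right.right.right.left.left.left RtB18_8.Ce.right.right.right.left.left.right.left RtB18_8.CTp RtB18_8.CEr 0x13ca8cb38fd28ad539c8f83768d0b52caf5c3cec0f228af440d = true := by decide +kernel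

theorem cB18_8_3_296 : chunkOkM (LB18_8.ctx true true 305 1143 512 9 16 13601 23725 4 16) muQ true true 64 RtB18_8.Cx.right.right.right.left RtB18_8.CX RtB18_8.Ctp.right.right.right.right.left.left.right RtB18_8.Ce.right.right.right.left.left.right.left.left RtB18_8.CTp RtB18_8.CEr 0x11b6a5ba8fd24d948908f8f4a2dbf689f655afb483f9f540d5651324149f05b55959f1fb6f87fd1a3b88cf8f8398041eae1af6f19dd8a8a9f540d399f2f1629f05b5593597459359743 = true := by decide +kernel

theorem cB18_8_3_297 : chunkOkM (LB18_8.ctx true true 284 573 256 9 16 3409 5941 4 16) muQ true true 64 RtB18_8.Cx.right.right.right.right RtB18_8.CX RtB18_8.Ctp.right.right.right.right.left.left.right RtB18_8.Ce.right.right.right.left.left.right.left.left RtB18_8.CTp RtB18_8.CEr 0xdc870637fd20feaef78f8d30bf41219f66ac73fb639f540d47aa42ea79f05b549f451ec17fd1eee5bb78f812744dff4daf6736539e359f540d5a3587a479f05b573 = true := by decide +kernel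

theorem cB18_8_3_298 : chunkOkM (LB18_8.ctx true true 278 287 128 9 16 3409 5967 4 16) muQ true true 64 RtB18_8.Cx.right.right.right RtB18_8.CX RtB18_8.Ctp.right.right.right.right.left.left.right RtB18_8.Ce.right.right.right.left.left.right.left.right RtB18_8.CTp RtB18_8.CEr 0xd5a55167fd27020b4e8f8fad5e53189f668a8dd1f09f540d5941ce6159f05b5309ccebf8f83e3214cf7baf5eb8362ed45af430d3597 = true := by decide +kernel

theorem cB18_8_3_299 : chunkOkM (LB18_8.ctx true true 106 1 1 1 1 1 1 1 1) muQ true true 64 RtB18_8.Cx.right.right RtB18_8.CX RtB18_8.Ctp.right.right.right.right.left.left RtB18_8.Ce.right.right.right.left.left.right.right RtB18_8.CTp RtB18_8.CEr 0x59 = true := by decide +kernel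

end Vale.Agent.helper4.Q4
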