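import Vale.Agent.helper4.Q4TreeM
import Vale.Agent.helper4.Q4G.PB18_8

/-!
Checks for pairs of intervals of second moments.
-/

set_option maxRecDepth 100000
set_option linter.unusedVariables false

namespace Vale.Agent.helper4.Q4

theorem cB18_8_3_300 : chunkOkM (LB18_8.ctx true true 287 563 256 9 16 3437 11869 4 16) muQ true true 64 RtB18_8.Cx.right.right.left RtB18_8.CX RtB18_8.Ctp.right.right.right.right.left.right.left RtB18_8.Ce.right.right.right.left.left.right.left.left RtB18_8.CTp RtB18_8.CEr 0x12b114b58fd24a7137b8f8c418b8e0f9f645bd897d19f540d24170b66c43ab2ff7f8610df013c9f64fd39ac449f540d5105768fb8fd22ef613a8f8b9fd0971c9f656631b75f9f540d55f6c91439f05b53591271eb138fd22e3c2578f81351140cabaf647fb4dbe39f540d50c4be6759f05b559745937 = true := by decide +kernel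

theorem cB18_8_3_301 : chunkOkM (LB18_8.ctx true true 291 567 256 9 16 6881 11921 4 16) muQ true true 64 RtB18_8.Cx.right.right.left RtB18_8.CX RtB18_8.Ctp.right.right.right.right.left.right.left RtB18_8.Ce.right.right.right.left.left.right.left.right RtB18_8.CTp RtB18_8.CEr 0x59f7de82b7fd24d64ac58f814f5595e5baf655a8ecfc89f540d4d52e5b1b9f05b55935974593597 = true := by decide +kernel

theorem cB18_8_3_302 : chunkOkM (LB18_8.ctx true true 284 283 128 9 16 3465 11895 4 32) muQ true true 64 RtB18_8.Cx.right.right.left RtB18_8.CX RtB18_8.Ctp.right.right.right.right.left.right.right RtB18_8.Ce.right.right.right.left.left.right.left.left RtB18_8.CTp RtB18_8.CEr 0x14c50fc18fd6a026847f898c0dffff9f633d48908d9f540d6a613259f75e1af645c0803db9f520d197e3166c2427152d82af62a62ffde79f530d9ad35666c28aeea58adaf643f248f959f530d46a5fb817f8ae2963f7a9f6494dee1b79f530d375 = true := by decide +kernel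

theorem cB18_8_3_303 : chunkOkM (LB18_8.ctx true true 320 2255 1024 9 16 27657 47645 4 32) muQ true true 64 RtB18_8.Cx.right.right.left RtB18_8.CX RtB18_8.Ctp.right.right.right.right.left.right.right RtB18_8.Ce.right.right.right.left.left.right.left.right RtB18_8.CTp RtB18_8.CEr 0x141b67c48fd89b453b7f8f3a64d8079f639432227e9f540d6a686fac366cb059467d49f648cd5bd2b9f530d5defa7bd7fdb72c16a7f843820eab39f63daad80999f540d6a66f898266ca87cd35939f64500600619f530d559595913dfe0dc8fd22c051918f8381c29fce9f530d1a651e2739f05b559345975935974593597437 = true := by decide +kernel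

theorem cB18_8_3_304 : chunkOkM (LB18_8.ctx true true 268 143 64 9 16 1715 5941 4 16) muQ true true 64 RtB18_8.Cx.right.right.right RtB18_8.CX RtB18_8.Ctp.right.right.right.right.left.right.left RtB18_8.Ce.right.right.right.left.left.right.left.left RtB18_8.CTp RtB18_8.CEr 0x13cc9e448fd29d0230a8f830e314c269f642524e2599f540dc35d5e97f8d77f254f89f6591021fa79f530d5 = true := by decide +kernel

theorem cB18_8_3_305 : chunkOkM (LB18_8.ctx true true 278 287 128 9 16 3437 5967 4 16) muQ true true 64 RtB18_8.Cx.right.right.right RtB18_8.CX RtB18_8.Ctp.right.right.right.right.left.right.left RtB18_8.Ce.right.right.right.left.left.right.left.right RtB18_8.CTp RtB18_8.CEr 0x139230858fd2985a0348f845f415d059f646ed9407a9f540d11c0b366cbf3fcf77f8dd1fedc689f660cca17939f540d51100619a8fd243225df8f8e6785f90f9f651b2a77689f540d672a4117f8be61fba999f6518b52a9f9f530d5ed1b65b7fd21cc11e08f8c26c5a9b09f6648a5b3769f540d585d73f4f9f05b537 = true := by decide +kernel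

theorem cB18_8_3_306 : chunkOkM (LB18_8.ctx true true 265 143 64 9 16 1729 2977 4 16) muQ true true 64 RtB18_8.Cx.right.right.right RtB18_8.CX RtB18_8.Ctp.right.right.right.right.left.right.right RtB18_8.Ce.right.right.right.left.left.right.left RtB18_8.CTp RtB18_8.CEr 0x1429323b8fd261cf65b8f833ecec6959f63877570389f540d43325297f8f9b94d6359f645012a0879f530d5 = true := by decide +kernel

theorem cB18_8_3_307 : chunkOkM (LB18_8.ctx true true 320 2271 1024 9 16 27657 47853 4 32) muQ true true 64 RtB18_8.Cx.right.right.left RtB18_8.CX RtB18_8.Ctp.right.right.right.right.left.right RtB18_8.Ce.right.right.right.left.left.right.right RtB18_8.CTp RtB18_8.CEr 0x59d0be2427fd3f7d67976c28b5c8ed8f856126a5709f64008cf2ee9f550d6a6262045d7f8cee9b044d9f649f2d0a889f530d559595912708ca68fd23de5e328f83ad2783a09f530d11d98b4469f05b559345975935974593597435974593 = true := by decide +kernel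

theorem cB18_8_3_308 : chunkOkM (LB18_8.ctx true true 291 571 256 9 16 6881 11973 4 16) muQ true true 64 RtB18_8.Cx.right.right.right RtB18_8.CX RtB18_8.Ctp.right.right.right.right.left.right.left RtB18_8.Ce.right.right.right.left.left.right.right.left RtB18_8.CTp RtB18_8.CEr 0x10de3c538fd23da187b8f8cc85a8f149f658ad420cf9f540d74774247fd12e66ec76c24a0bc858f89ffc495839f655d39fb449f550d5f05d0297fd20a74e848f812991502caaf6742125f1e9f540d5af1c2c519f05b5359ed4b9cc7fd260afc148f81253a3e664af65c64259b29f540d4f5ddfd789f05b559359745937 = true := by decide +kernel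

theorem cB18_8_3_309 : chunkOkM (LB18_8.ctx true true 291 575 256 9 16 6881 12025 4 16) muQ true true 64 RtB18_8.Cx.right.right.right RtB18_8.CX RtB18_8.Ctp.right.right.right.right.left.right.left RtB18_8.Ce.right.right.right.left.left.right.right.right RtB18_8.CTp RtB18_8.CEr 0x59ef5d6607fd247351ef8f813df3eef61af666ce764e89f540d517bccbfb9f05b55935974593597 = true := by decide +kernel

end Vale.Agent.helper4.Q4
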