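import Vale.Agent.helper4.Q4TreeM
import Vale.Agent.helper4.Q4G.PB18_8

/-!
Checks for pairs of intervals of second moments.
-/

set_option maxRecDepth 100000
set_option linter.unusedVariables false

namespace Vale.Agent.helper4.Q4

theorem cB18_8_3_310 : chunkOkM (LB18_8.ctx true true 271 143 64 9 16 1729 5993 4 32) muQ true true 64 RtB18_8.Cx.right.right.right RtB18_8.CX RtB18_8.Ctp.right.right.right.right.left.right.right RtB18_8.Ce.right.right.right.left.left.right.right.left RtB18_8.CTp RtB18_8.CEr 0xda75c497fd199c4237f88b9cd3cc09f64bf8f8bee9f540d6a64e150fa7f8a7cff1fa89f6455c516529f530d5 = true := by decide +kernel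

theorem cB18_8_3_311 : chunkOkM (LB18_8.ctx true true 329 4575 2048 9 16 27657 96109 4 32) muQ true true 64 RtB18_8.Cx.right.right.right RtB18_8.CX RtB18_8.Ctp.right.right.right.right.left.right.right RtB18_8.Ce.right.right.right.left.left.right.right.right RtB18_8.CTp RtB18_8.CEr 0x16dc58fc8fd1e9384c78f838af012a69f64227453259f540d6a61c7a0866c9e8cf6e7f898e1ac52d9f64be510fa99f540d5c0f67417fd14b1c2788f8b81c58058f6474e40ed19f540d6a6ae57756c125f264e10af659229df129f530d5595959591561101e8fd1f6338fd8f847bee93699f530d05459759359745935974593597437 = true := by decide +kernel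

theorem cB18_8_3_312 : chunkOkM (LB18_8.ctx true true 255 69 32 9 16 1743 2925 2 16) muQ true true 64 RtB18_8.Cx.right.left RtB18_8.CX RtB18_8.Ctp.right.right.right.right.right.left.left RtB18_8.Ce.right.right.right.left.left.left.left RtB18_8.CTp RtB18_8.CEr 0x2f5266ff8fde7249c776ca78e91778f820788e4519af160a60222dbaf050d = true := by decide +kernel

theorem cB18_8_3_313 : chunkOkM (LB18_8.ctx true true 324 4415 2048 9 16 55559 23543 4 16) muQ true true 64 RtB18_8.Cx.right.left.left RtB18_8.CX RtB18_8.Ctp.right.right.right.right.right.left.left RtB18_8.Ce.right.right.right.left.left.left.right RtB18_8.CTp RtB18_8.CEr 0x2121010101010117e697928fd1dcda4a38f8406fbed0c9f230d152b05c53333311401701701740174017 = true := by decide +kernel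

theorem cB18_8_3_314 : chunkOkM (LB18_8.ctx true true 291 555 256 9 16 3479 11843 4 32) muQ true true 64 RtB18_8.Cx.right.left.right RtB18_8.CX RtB18_8.Ctp.right.right.right.right.right.left.left RtB18_8.Ce.right.right.right.left.left.left.right RtB18_8.CTp RtB18_8.CEr 0x1efaff018fd2300c947f82f3d156f71d57324c79f626b3b23219f5f95653b48f260d6a611aa59f077fd1dcfbad76c4b491462aaaf630d36940131d9da176c1bf4c9c1a7af620d30adf0968fd1d0489076cf452c769b3b98b14623af640d62171ac038738fd3aea3be76c4636f6af45af630d18dfba3e8fd368b20a76c347e8e9940af63ba8f50b19f240d74371118ecd1718fd3856eb276c1652c9e8b4af644a14bc519f240d745 = true := by decide +kernel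

theorem cB18_8_3_315 : chunkOkM (LB18_8.ctx true true 106 1 1 1 1 1 1 1 1) muQ true true 64 RtB18_8.Cx.right.left RtB18_8.CX RtB18_8.Ctp.right.right.right.right.right.left.right RtB18_8.Ce.right.right.right.left.left.left RtB18_8.CTp RtB18_8.CEr 0x01 = true := by decide +kernel

theorem cB18_8_3_316 : chunkOkM (LB18_8.ctx true true 106 1 1 1 1 1 1 1 1) muQ true true 64 RtB18_8.Cx.right.right RtB18_8.CX RtB18_8.Ctp.right.right.right.right.right.left RtB18_8.Ce.right.right.right.left.left.left RtB18_8.CTp RtB18_8.CEr 0x11 = true := by decide +kernel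

theorem cB18_8_3_317 : chunkOkM (LB18_8.ctx true true 106 1 1 1 1 1 1 1 1) muQ true true 64 RtB18_8.Cx.right RtB18_8.CX RtB18_8.Ctp.right.right.right.right.right.right RtB18_8.Ce.right.right.right.left.left.left RtB18_8.CTp RtB18_8.CEr 0x11 = true := by decide +kernel

theorem cB18_8_3_318 : chunkOkM (LB18_8.ctx true true 106 1 1 1 1 1 1 1 1) muQ true true 64 RtB18_8.Cx.right.left.left RtB18_8.CX RtB18_8.Ctp.right.right.right.right.right RtB18_8.Ce.right.right.right.left.left.right RtB18_8.CTp RtB18_8.CEr 0x21 = true := by decide +kernel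

theorem cB18_8_3_319 : chunkOkM (LB18_8.ctx true true 306 2223 1024 9 16 3479 47437 4 16) muQ true true 64 RtB18_8.Cx.right.left.right.left RtB18_8.CX RtB18_8.Ctp.right.right.right.right.right.left.left RtB18_8.Ce.right.right.right.left.left.right.left.left RtB18_8.CTp.left RtB18_8.CEr 0x21212101137e6edd8fd2f9484ca85c65b26df0d1af630d3421742174217 = true := by decide +kernel

theorem cB18_8_3_320 : chunkOkM (LB18_8.ctx true true 294 559 256 9 16 3479 23803 4 32) muQ true true 64 RtB18_8.Cx.right.left.right.right RtB18_8.CX RtB18_8.Ctp.right.right.right.right.right.left.left.left RtB18_8.Ce.right.right.right.left.left.right.left.left RtB18_8.CTp.left RtB18_8.CEr 0xb097b2a7fd1c66d6676c4d7b243f9caf630dd76215b7fd220efcd76c3d5c3e6aa4af630d4db5d6787fd23b8c4876c66f81aca5daf630d71019bfd98fd23b9c0776c4dfda11eacaf630d357fbca76c47098af785af620d3b0860d78fd2ea945776cfbc7e269b347f9fc1faaf640d674 = true := by decide +kernel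

theorem cB18_8_3_321 : chunkOkM (LB18_8.ctx true true 288 559 256 9 16 3493 11895 4 16) muQ true true 64 RtB18_8.Cx.right.left.right.right RtB18_8.CX RtB18_8.Ctp.right.right.right.right.right.left.left.right RtB18_8.Ce.right.right.right.left.left.right.left.left RtB18_8.CTp.left RtB18_8.CEr 0x9be641b7fd224ed0a76c47a7d9598faf630d13e4eeb76c4a5747484baf65bc3c56fb9f230d7d7b52da7fd28dfb5876c16fefda9b5af65dcd50f719f240d4 = true := by decide +kernel

theorem cB18_8_3_322 : chunkOkM (LB18_8.ctx true true 271 139 64 9 16 1743 5941 4 32) muQ true true 64 RtB18_8.Cx.right.left.right RtB18_8.CX RtB18_8.Ctp.right.right.right.right.right.left.left RtB18_8.Ce.right.right.right.left.left.right.left.left RtB18_8.CTp.right RtB18_8.CEr 0x1af6e8438fd1bfb95a7f83e8c162ee9f6288dacc229f592f20dba8f250d6a6 = true := by decide +kernel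

theorem cB18_8_3_323 : chunkOkM (LB18_8.ctx true true 291 559 256 9 16 3493 11947 4 32) muQ true true 64 RtB18_8.Cx.right.left.right RtB18_8.CX RtB18_8.Ctp.right.right.right.right.right.left.left RtB18_8.Ce.right.right.right.left.left.right.left.right RtB18_8.CTp RtB18_8.CEr 0x17c75ad18fd2399aa67f8fa69793ba9f620b70ed5f9f51071d89c39f250d6a6a6e704e7fd1f9176b76c44ed6df381af61942c7c3a9f240d307bf9876cfafaa0bf09f64c1f1ff689f230d34680a498fd30bc55b76c12024ba79b8835cce7f82dda829266af650d64691dc83217fddb2a0c66c5a2951b0d1af630d435217217 = true := by decide +kernel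

theorem cB18_8_3_324 : chunkOkM (LB18_8.ctx true true 106 1 1 1 1 1 1 1 1) muQ true true 64 RtB18_8.Cx.right.left.right RtB18_8.CX RtB18_8.Ctp.right.right.right.right.right.left.right RtB18_8.Ce.right.right.right.left.left.right.left RtB18_8.CTp RtB18_8.CEr 0x01 = true := by decide +kernel

theorem cB18_8_3_325 : chunkOkM (LB18_8.ctx true true 106 1 1 1 1 1 1 1 1) muQ true true 64 RtB18_8.Cx.right.left.right RtB18_8.CX RtB18_8.Ctp.right.right.right.right.right.right RtB18_8.Ce.right.right.right.left.left.right.left RtB18_8.CTp RtB18_8.CEr 0x01 = true := by decide +kernel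

theorem cB18_8_3_326 : chunkOkM (LB18_8.ctx true true 106 1 1 1 1 1 1 1 1) muQ true true 64 RtB18_8.Cx.right.left.right RtB18_8.CX RtB18_8.Ctp.right.right.right.right.right RtB18_8.Ce.right.right.right.left.left.right.right RtB18_8.CTp RtB18_8.CEr 0x21 = true := by decide +kernel

theorem cB18_8_3_327 : chunkOkM (LB18_8.ctx true true 264 141 64 9 16 875 5941 4 16) muQ true true 64 RtB18_8.Cx.right.right.left RtB18_8.CX RtB18_8.Ctp.right.right.right.right.right.left RtB18_8.Ce.right.right.right.left.left.right.left.left RtB18_8.CTp.left RtB18_8.CEr 0x1bc6f77d65af06b = true := by decide +kernel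

end Vale.Agent.helper4.Q4
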