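import Vale.Agent.helper4.Q4TreeM
import Vale.Agent.helper4.Q4G.PB18_8

/-!
Checks for pairs of intervals of second moments.
-/

set_option maxRecDepth 100000
set_option linter.unusedVariables false

namespace Vale.Agent.helper4.Q4

theorem cB18_8_3_328 : chunkOkM (LB18_8.ctx true true 288 563 256 9 16 3493 11947 4 16) muQ true true 64 RtB18_8.Cx.right.right.left.left RtB18_8.CX RtB18_8.Ctp.right.right.right.right.right.left.left RtB18_8.Ce.right.right.right.left.left.right.left.right RtB18_8.CTp.left RtB18_8.CEr 0x12cc5e3280af06b5f3f8247fd171d9f476c3ffdb3bd2baf630d7a12a05c4a05a1c66c368d7ed6c7af628ccf3da69f530d69b0c766c3e676e033caf6bd3410d98f530d71cd6d06359f05b70b15d66c332f72a6ccaf611b5695499f530d743 = true := by decide +kernel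

theorem cB18_8_3_329 : chunkOkM (LB18_8.ctx true true 274 283 128 9 16 1743 5967 4 16) muQ true true 64 RtB18_8.Cx.right.right.left.right RtB18_8.CX RtB18_8.Ctp.right.right.right.right.right.left.left RtB18_8.Ce.right.right.right.left.left.right.left.right RtB18_8.CTp.left RtB18_8.CEr 0x141984ed29f05b = true := by decide +kernel

theorem cB18_8_3_330 : chunkOkM (LB18_8.ctx true true 268 141 64 9 16 1757 5967 4 16) muQ true true 64 RtB18_8.Cx.right.right.left RtB18_8.CX RtB18_8.Ctp.right.right.right.right.right.left.right RtB18_8.Ce.right.right.right.left.left.right.left.right RtB18_8.CTp.left RtB18_8.CEr 0x4a9692f879f00b = true := by decide +kernel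

theorem cB18_8_3_331 : chunkOkM (LB18_8.ctx true true 264 141 64 9 16 875 2977 4 32) muQ true true 64 RtB18_8.Cx.right.right.left RtB18_8.CX RtB18_8.Ctp.right.right.right.right.right.left RtB18_8.Ce.right.right.right.left.left.right.left RtB18_8.CTp.right RtB18_8.CEr 0x1dade7e08fd8da5c46f84550d77009f62adde00da9f540d6a6 = true := by decide +kernel

theorem cB18_8_3_332 : chunkOkM (LB18_8.ctx true true 106 1 1 1 1 1 1 1 1) muQ true true 64 RtB18_8.Cx.right.right.right RtB18_8.CX RtB18_8.Ctp.right.right.right.right.right.left RtB18_8.Ce.right.right.right.left.left.right.left RtB18_8.CTp RtB18_8.CEr 0x69 = true := by decide +kernel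

theorem cB18_8_3_333 : chunkOkM (LB18_8.ctx true true 292 563 256 9 16 6993 11999 4 16) muQ true true 64 RtB18_8.Cx.right.right.left.left RtB18_8.CX RtB18_8.Ctp.right.right.right.right.right.left.left RtB18_8.Ce.right.right.right.left.left.right.right.left RtB18_8.CTp.left RtB18_8.CEr 0xa6170d66c4515ba04e2af620d697855dd766c3bc977b3edaf620d117d39976c4a6c16bee5af6896777fe8f230d8f4abdf75c407da4e2bcaf620d374814f6566c1449a8fc86af63a2c2bfd69f530d6973 = true := by decide +kernel

theorem cB18_8_3_334 : chunkOkM (LB18_8.ctx true true 282 283 128 9 16 3493 11999 4 16) muQ true true 64 RtB18_8.Cx.right.right.left.right RtB18_8.CX RtB18_8.Ctp.right.right.right.right.right.left.left RtB18_8.Ce.right.right.right.left.left.right.right.left RtB18_8.CTp.left RtB18_8.CEr 0x6df44a66c2d30dcb683af613b0a27019f530d0499578f66cb7cd3106f9f63f76e00989f530d3 = true := by decide +kernel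

theorem cB18_8_3_335 : chunkOkM (LB18_8.ctx true true 271 141 64 9 16 1743 5993 4 32) muQ true true 64 RtB18_8.Cx.right.right.left RtB18_8.CX RtB18_8.Ctp.right.right.right.right.right.left.left RtB18_8.Ce.right.right.right.left.left.right.right.left RtB18_8.CTp.right RtB18_8.CEr 0x18a13fbb8fd22de7ca7f84b2b045849f6307f3d8f69f540d6a6 = true := by decide +kernel

theorem cB18_8_3_336 : chunkOkM (LB18_8.ctx true true 291 567 256 9 16 3493 12051 4 32) muQ true true 64 RtB18_8.Cx.right.right.left RtB18_8.CX RtB18_8.Ctp.right.right.right.right.right.left.left RtB18_8.Ce.right.right.right.left.left.right.right.right RtB18_8.CTp RtB18_8.CEr 0x1a41043a8fd53cf70f76c2d3987e58f86571af3a79f62fea14c149f550d6a6a6eeda66c16fb07300faf63256751bb9f530d2d9730fc06af06ba7916366c365e0254f1af619296f5ce9f530d742e89c466cc66f726909f64166d642a9f530d35697 = true := by decide +kernel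

theorem cB18_8_3_337 : chunkOkM (LB18_8.ctx true true 282 283 128 9 16 3507 11999 4 16) muQ true true 64 RtB18_8.Cx.right.right.left RtB18_8.CX RtB18_8.Ctp.right.right.right.right.right.left.right RtB18_8.Ce.right.right.right.left.left.right.right.left RtB18_8.CTp.left RtB18_8.CEr 0x0012048616fddd902466c25ec4d76e1af62fb3e6eb69f240d102ce3976c3a1a82b460af629db924639f230d437 = true := by decide +kernel

theorem cB18_8_3_338 : chunkOkM (LB18_8.ctx true true 294 1127 512 9 16 3521 12051 4 16) muQ true true 64 RtB18_8.Cx.right.right.left RtB18_8.CX RtB18_8.Ctp.right.right.right.right.right.left.right RtB18_8.Ce.right.right.right.left.left.right.right.right RtB18_8.CTp.left RtB18_8.CEr 0x197546376c155b02d247af664e3895de9f230ded99e366c4055386086af620ded98bf66c425f56d998af624485b2b8f230d7311c457e566c3dfb36810baf620d3421018b561e6fd103e4b476c4accd91f4daf62c47de8f69f240d321742177 = true := by decide +kernel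

theorem cB18_8_3_339 : chunkOkM (LB18_8.ctx true true 268 141 64 9 16 1757 3003 4 32) muQ true true 64 RtB18_8.Cx.right.right.left RtB18_8.CX RtB18_8.Ctp.right.right.right.right.right.left.right RtB18_8.Ce.right.right.right.left.left.right.right RtB18_8.CTp.right RtB18_8.CEr 0x1d308d018fd26e03ff7f92fb96bf7f73d1a084f59f62694a69989f5f995383c8f260d6a6 = true := by decide +kernel

theorem cB18_8_3_340 : chunkOkM (LB18_8.ctx true true 277 287 128 9 16 1757 6019 4 32) muQ true true 64 RtB18_8.Cx.right.right.right RtB18_8.CX RtB18_8.Ctp.right.right.right.right.right.left RtB18_8.Ce.right.right.right.left.left.right.right RtB18_8.CTp RtB18_8.CEr 0x17e951278fd106509118f828cca87dc9f62e404e9679f540d6a6003e0cb666c12ed3c4c22af637285669f9f530d756d18a9f8f05b435 = true := by decide +kernel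

theorem cB18_8_3_341 : chunkOkM (LB18_8.ctx true true 248 71 32 9 16 889 1495 2 16) muQ true true 64 RtB18_8.Cx.right.right RtB18_8.CX RtB18_8.Ctp.right.right.right.right.right.right RtB18_8.Ce.right.right.right.left.left.right RtB18_8.CTp RtB18_8.CEr 0x2b5749ff8fde800e597f8abde5bfdf9f122936cdc57af040d = true := by decide +kernel

theorem cB18_8_3_342 : chunkOkM (LB18_8.ctx true true 106 1 1 1 1 1 1 1 1) muQ true true 64 RtB18_8.Cx.right.left RtB18_8.CX RtB18_8.Ctp.right.right.right.right RtB18_8.Ce.right.right.right.left.right RtB18_8.CTp RtB18_8.CEr 0x21 = true := by decide +kernel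

end Vale.Agent.helper4.Q4
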