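import Vale.Agent.helper4.Q4TreeM
import Vale.Agent.helper4.Q4G.PB18_8

/-!
Checks for pairs of intervals of second moments.
-/

set_option maxRecDepth 100000
set_option linter.unusedVariables false

namespace Vale.Agent.helper4.Q4

theorem cB18_8_3_343 : chunkOkM (LB18_8.ctx true true 333 4607 2048 9 16 55321 96525 4 32) muQ true true 64 RtB18_8.Cx.right.right RtB18_8.CX RtB18_8.Ctp.right.right.right.right.left RtB18_8.Ce.right.right.right.left.right RtB18_8.CTp RtB18_8.CEr 0x59595963d5f807fda95baf17f855702f87f71114bc62d8af660ec3e6bd9f550d6a6e022c966cc678df97f8a385c66db9f6576e172769f540d559595959f687e437fd25def7df8f88ac7fc6de9f530d0559345975935974593597459359743597459359745934 = true := by decide +kernel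

theorem cB18_8_3_344 : chunkOkM (LB18_8.ctx true true 106 1 1 1 1 1 1 1 1) muQ true true 64 RtB18_8.Cx.right.right.left.left RtB18_8.CX RtB18_8.Ctp.right.right.right.right.right.left RtB18_8.Ce.right.right.right.left.right.left.left RtB18_8.CTp RtB18_8.CEr 0x21 = true := by decide +kernel

theorem cB18_8_3_345 : chunkOkM (LB18_8.ctx true true 317 2271 1024 9 16 13993 48269 4 32) muQ true true 64 RtB18_8.Cx.right.right.left.right RtB18_8.CX RtB18_8.Ctp.right.right.right.right.right.left.left RtB18_8.Ce.right.right.right.left.right.left.left RtB18_8.CTp RtB18_8.CEr 0x595959692d3ebcb88fd5837ee66c7036a80971af630d6a6286a9b8e79f05b54697693459759359745934 = true := by decide +kernel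

theorem cB18_8_3_346 : chunkOkM (LB18_8.ctx true true 291 567 256 9 16 3521 12103 4 32) muQ true true 64 RtB18_8.Cx.right.right.left.right RtB18_8.CX RtB18_8.Ctp.right.right.right.right.right.left.right RtB18_8.Ce.right.right.right.left.right.left.left.left RtB18_8.CTp RtB18_8.CEr 0x178ad17b8fd4c599af7f8e4e4e568c9f624e6b7de39f59d9f28a58f250d6a611440e376c35295ea3b2af63c6cfaaa39f230dd84eee6fd108d6a376caa39463a79f659e6d75799f240d411440e376c78b0070af0af620dd3668c66c4d5c739f58af620d118235876c60653561beaf648555b018f230d7435 = true := by decide +kernel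

theorem cB18_8_3_347 : chunkOkM (LB18_8.ctx true true 340 9087 4096 9 16 56357 96941 4 16) muQ true true 64 RtB18_8.Cx.right.right.left.right RtB18_8.CX RtB18_8.Ctp.right.right.right.right.right.left.right RtB18_8.Ce.right.right.right.left.right.left.left.right RtB18_8.CTp RtB18_8.CEr 0x2121212101011737b3338fd209f7cfa8f84b286dd157bbf630d389fca9c59f02b5693332174217401740176934217593 = true := by decide +kernel

theorem cB18_8_3_348 : chunkOkM (LB18_8.ctx true true 303 1143 512 9 16 6993 24245 4 32) muQ true true 64 RtB18_8.Cx.right.right.right RtB18_8.CX RtB18_8.Ctp.right.right.right.right.right.left.left RtB18_8.Ce.right.right.right.left.right.left.left RtB18_8.CTp RtB18_8.CEr 0x1622c9a58fd37a580d76c25e760458f8658c0cfb99f63a781015f9f550d6a6c7411766c4a259ba7f8a602ac0b19f64804e81a99f540d55959485a23658fdaed97066c4c35ac5d29f530d6a64198d222c9f05b5597459359745937106dc9188fd800c7ca7f837b6969829f63f6736ed39f540d6a667d4e066ce21aaf4e09f64278bdc139f530d97af7b66ca43bd32dc9f641e8867629f530d754 = true := by decide +kernel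

theorem cB18_8_3_349 : chunkOkM (LB18_8.ctx true true 282 285 128 9 16 3521 12103 4 16) muQ true true 64 RtB18_8.Cx.right.right.right RtB18_8.CX RtB18_8.Ctp.right.right.right.right.right.left.right RtB18_8.Ce.right.right.right.left.right.left.left.left RtB18_8.CTp.left RtB18_8.CEr 0x691122eda76c5492781d1caf620db21df166c24e382d6feaf62120e57ea9f530d3bca46766c374f71f96baf620d47 = true := by decide +kernel

theorem cB18_8_3_350 : chunkOkM (LB18_8.ctx true true 288 571 256 9 16 3521 12155 4 16) muQ true true 64 RtB18_8.Cx.right.right.right RtB18_8.CX RtB18_8.Ctp.right.right.right.right.right.left.right RtB18_8.Ce.right.right.right.left.right.left.left.right RtB18_8.CTp.left RtB18_8.CEr 0xcd0f4866c126bef61aaaf63445466ae9f530d12fa18676c542c17edd2af620d135ff4c76c51f0e8073caf620d7103f86b76c4ee143b91eaf620d12a4db676c4552fd3afeaf620d74deca4166c15d824cf28af63f9000b9c9f530ddcb27e66c1c00bf6e77af630e0fe5299f530d437 = true := by decide +kernel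

theorem cB18_8_3_351 : chunkOkM (LB18_8.ctx true true 268 143 64 9 16 1757 3029 4 32) muQ true true 64 RtB18_8.Cx.right.right.right RtB18_8.CX RtB18_8.Ctp.right.right.right.right.right.left.right RtB18_8.Ce.right.right.right.left.right.left.left RtB18_8.CTp.right RtB18_8.CEr 0x1fdcbd728fd71a4836f829eac76749f633f0dd9f99f540d6a6 = true := by decide +kernel

theorem cB18_8_3_352 : chunkOkM (LB18_8.ctx true true 106 1 1 1 1 1 1 1 1) muQ true true 64 RtB18_8.Cx.right.right.left RtB18_8.CX RtB18_8.Ctp.right.right.right.right.right.left RtB18_8.Ce.right.right.right.left.right.left.right RtB18_8.CTp RtB18_8.CEr 0x21 = true := by decide +kernel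

theorem cB18_8_3_353 : chunkOkM (LB18_8.ctx true true 303 1151 512 9 16 6993 24349 4 32) muQ true true 64 RtB18_8.Cx.right.right.right RtB18_8.CX RtB18_8.Ctp.right.right.right.right.right.left.left RtB18_8.Ce.right.right.right.left.right.left.right RtB18_8.CTp RtB18_8.CEr 0x595959432253418fd49a36866c4f20c8c839f530d6a6425f7543a9f05b5597459359745935974 = true := by decide +kernel

end Vale.Agent.helper4.Q4
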