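import Vale.Agent.helper4.Q4TreeM
import Vale.Agent.helper4.Q4G.PB18_8

/-!
Checks for pairs of intervals of second moments.
-/

set_option maxRecDepth 100000
set_option linter.unusedVariables false

namespace Vale.Agent.helper4.Q4

theorem cB18_8_3_354 : chunkOkM (LB18_8.ctx true true 291 575 256 9 16 3521 12233 4 32) muQ true true 64 RtB18_8.Cx.right.right.right RtB18_8.CX RtB18_8.Ctp.right.right.right.right.right.left.right RtB18_8.Ce.right.right.right.left.right.left.right RtB18_8.CTp RtB18_8.CEr 0x6919d180498fd7fcca7f7f944704087f756cd2d3229f637322d5bc9f550d6a6d8b44d66cbffe3ae099f63aa7b1a6a9f530d569745932171d1292368fddda9536f9578bb877f73f75cd41a9f6345cc958c9f550d6a6f481cd66c1cb56bdc69af62d0968d759f530d1182d5d76c218d557f9aaf62634f7c2c9f530d4d3f9a866caf250c5ff9f647a03f0ee9f530d36910a6cbc76c548a1ef252af6e0c006798f530d4217593754 = true := by decide +kernel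

theorem cB18_8_3_355 : chunkOkM (LB18_8.ctx true true 106 1 1 1 1 1 1 1 1) muQ true true 64 RtB18_8.Cx.right.right.left RtB18_8.CX RtB18_8.Ctp.right.right.right.right.right.right RtB18_8.Ce.right.right.right.left.right.left RtB18_8.CTp RtB18_8.CEr 0x01 = true := by decide +kernel

theorem cB18_8_3_356 : chunkOkM (LB18_8.ctx true true 268 143 64 9 16 1771 3029 4 32) muQ true true 64 RtB18_8.Cx.right.right.right RtB18_8.CX RtB18_8.Ctp.right.right.right.right.right.right.left RtB18_8.Ce.right.right.right.left.right.left.left RtB18_8.CTp RtB18_8.CEr 0x1c9061578fdc1f58d67f8936a577659f68981e15da9f2120e4171b9f150d6a620e057c76c5dd75469b11ec781f2caf65baf08e0d9f240d5 = true := by decide +kernel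

theorem cB18_8_3_357 : chunkOkM (LB18_8.ctx true true 296 571 256 9 16 7063 12207 4 32) muQ true true 64 RtB18_8.Cx.right.right.right RtB18_8.CX RtB18_8.Ctp.right.right.right.right.right.right.left RtB18_8.Ce.right.right.right.left.right.left.right.left RtB18_8.CTp.left RtB18_8.CEr 0xf3371d66c286708f95aaf65fd544108f230d3db09ba78fd402ee1076c11f547c79b2caefd1cb1af69c9227bc8f250d62f736ef9b9af06b4010118d570a76cb3dd374e99af620d150be2a76c32b51cecebaf61d10637509f230d4332177 = true := by decide +kernel

theorem cB18_8_3_358 : chunkOkM (LB18_8.ctx true true 288 575 256 9 16 3549 12259 4 16) muQ true true 64 RtB18_8.Cx.right.right.right RtB18_8.CX RtB18_8.Ctp.right.right.right.right.right.right.left RtB18_8.Ce.right.right.right.left.right.left.right.right RtB18_8.CTp.left RtB18_8.CEr 0x1b23b7d76cce879272e9f656764f9db9f230d12690dd76c3ea0f768b7af6b26a74da8f530d217106efe076c3544d69660af620d14d916276c42efb8f229af6833705488f230d743217 = true := by decide +kernel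

theorem cB18_8_3_359 : chunkOkM (LB18_8.ctx true true 271 143 64 9 16 1771 6123 4 32) muQ true true 64 RtB18_8.Cx.right.right.right RtB18_8.CX RtB18_8.Ctp.right.right.right.right.right.right.left RtB18_8.Ce.right.right.right.left.right.left.right RtB18_8.CTp.right RtB18_8.CEr 0x1bdb49838fd2c77e24309f631f8870719f580ad48018f240d23fdcea08fd8e07e1e7f932493987f7131452a5f9f6293f9c1e99f5129e7a5909f260d46a6 = true := by decide +kernel

theorem cB18_8_3_360 : chunkOkM (LB18_8.ctx true true 106 1 1 1 1 1 1 1 1) muQ true true 64 RtB18_8.Cx.right.right.right RtB18_8.CX RtB18_8.Ctp.right.right.right.right.right.right.right RtB18_8.Ce.right.right.right.left.right.left RtB18_8.CTp RtB18_8.CEr 0x01 = true := by decide +kernel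

theorem cB18_8_3_361 : chunkOkM (LB18_8.ctx true true 297 1151 512 9 16 3549 12285 4 32) muQ true true 64 RtB18_8.Cx.right.right RtB18_8.CX RtB18_8.Ctp.right.right.right.right.right RtB18_8.Ce.right.right.right.left.right.right RtB18_8.CTp RtB18_8.CEr 0x212121011d1c0a278fdbbfd876f959808f67f73e54d55c89f62c741bb6f9f5be6582f18f260d6a6215625376c4ba8c41403af638fd91a809f230d1079f7f76c39ee1efa5aaf620d353217421742170174593 = true := by decide +kernel

theorem cB18_8_3_362 : chunkOkM (LB18_8.ctx true true 106 1 1 1 1 1 1 1 1) muQ true true 64 RtB18_8.Cx RtB18_8.CX RtB18_8.Ctp.right.right.right RtB18_8.Ce.right.right.right.right RtB18_8.CTp RtB18_8.CEr 0x21 = true := by decide +kernel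

theorem cB18_8_2_0 : chunkOkM (LB18_8.ctx false true 106 1 1 1 1 1 1 1 1) muQ false true 64 RtB18_8.Cx RtB18_8.CX RtB18_8.Ctn RtB18_8.Ce RtB18_8.CTp RtB18_8.CEr 0x49 = true := by decide +kernel

theorem cB18_8_1_0 : chunkOkM (LB18_8.ctx true false 106 1 1 1 1 1 1 1 1) muQ true false 64 RtB18_8.Cx RtB18_8.CX RtB18_8.Ctp.left RtB18_8.Ce RtB18_8.CTn RtB18_8.CEr 0x41 = true := by decide +kernel

theorem cB18_8_1_1 : chunkOkM (LB18_8.ctx true false 106 1 1 1 1 1 1 1 1) muQ true false 64 RtB18_8.Cx RtB18_8.CX RtB18_8.Ctp.right.left RtB18_8.Ce RtB18_8.CTn RtB18_8.CEr.left.left.left.left.left 0x41 = true := by decide +kernel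

theorem cB18_8_1_2 : chunkOkM (LB18_8.ctx true false 106 1 1 1 1 1 1 1 1) muQ true false 64 RtB18_8.Cx RtB18_8.CX RtB18_8.Ctp.right.right RtB18_8.Ce.left RtB18_8.CTn RtB18_8.CEr.left.left.left.left.left 0x11 = true := by decide +kernel

theorem cB18_8_1_3 : chunkOkM (LB18_8.ctx true false 331 17 8 513 1024 49 65 16384 65536) muQ true false 64 RtB18_8.Cx RtB18_8.CX.left.left.left.left.left.left RtB18_8.Ctp.right.right RtB18_8.Ce.right.left RtB18_8.CTn.left.left.left.left.left.left.left.left.left.left.left.left RtB18_8.CEr.left.left.left.left.left.left.left.left.left.left.left.left 0x176ef5d077bbfd1e1f4ac60a2f8d4a86bf47d5ff7965faf140d = true := by decide +kernel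

theorem cB18_8_1_4 : chunkOkM (LB18_8.ctx true false 363 65 32 513 1024 385 663 16384 65536) muQ true false 64 RtB18_8.Cx RtB18_8.CX.left.left.left.left.left.left RtB18_8.Ctp.right.right.left RtB18_8.Ce.right.right.left RtB18_8.CTn.left.left.left.left.left.left.left.left.left.left.left.left RtB18_8.CEr.left.left.left.left.left.left.left.left.left.left.left.left 0x495949f59f3b938f65e770017e9f52a095b6479f430d1881ca8ce9f6558dde9819f5ed8738a48f430d4747493493 = true := by decide +kernel

theorem cB18_8_1_5 : chunkOkM (LB18_8.ctx true false 361 35 16 513 1024 413 1339 16384 65536) muQ true false 64 RtB18_8.Cx RtB18_8.CX.left.left.left.left.left.left RtB18_8.Ctp.right.right.right RtB18_8.Ce.right.right.left.left RtB18_8.CTn.left.left.left.left.left.left.left.left.left.left.left.left RtB18_8.CEr.left.left.left.left.left.left.left.left.left.left.left.left 0x11078aa06208bafd462b49c2f052c3d79f630ad8f5509f540d119049c12142b6bb22020ee9e9f650e3a88369f540d267dd57809f646e0a87d09f520d4376943 = true := by decide +kernel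

theorem cB18_8_1_6 : chunkOkM (LB18_8.ctx true false 358 33 16 513 1024 399 689 16384 65536) muQ true false 64 RtB18_8.Cx.left RtB18_8.CX.left.left.left.left.left.left RtB18_8.Ctp.right.right.right.left.left RtB18_8.Ce.right.right.left.right.left RtB18_8.CTn.left.left.left.left.left.left.left.left.left.left.left.left RtB18_8.CEr.left.left.left.left.left.left.left.left.left.left.left.left 0x4653bb1fff8f0429f6657211c0b9f530d = true := by decide +kernel

theorem cB18_8_1_7 : chunkOkM (LB18_8.ctx true false 371 65 32 513 1024 819 1365 16384 65536) muQ true false 64 RtB18_8.Cx.left.left RtB18_8.CX.left.left.left.left.left.left RtB18_8.Ctp.right.right.right.left.right.left RtB18_8.Ce.right.right.left.right.left.left RtB18_8.CTn.left.left.left.left.left.left.left.left.left.left.left.left RtB18_8.CEr.left.left.left.left.left.left.left.left.left.left.left.left 0x42c1ff9eb9f05b = true := by decide +kernel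

end Vale.Agent.helper4.Q4
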