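import Vale.Agent.helper4.Q4TreeM
import Vale.Agent.helper4.Q4G.PB18_8

/-!
Checks for pairs of intervals of second moments.
-/

set_option maxRecDepth 100000
set_option linter.unusedVariables false

namespace Vale.Agent.helper4.Q4

theorem cB18_8_3_50 : chunkOkM (LB18_8.ctx true true 269 263 128 9 16 1631 5499 2 16) muQ true true 64 RtB18_8.Cx.left.left.right RtB18_8.CX RtB18_8.Ctp.right.right.right.left.right.left.left RtB18_8.Ce.right.right.left.right.left.left.right RtB18_8.CTp RtB18_8.CEr 0x106956308fd1f3e13b76c1afd31a68f86890ebc779f663a7453e29f550d1827a3078fd239c02876c1a8c8ee58f86a91438619f64c731c7d09f550d1577a6448fd17d5d1b76cef1684b7f83b6f10dc99f658e0e8cb39f550d74 = true := by decide +kernel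

theorem cB18_8_3_51 : chunkOkM (LB18_8.ctx true true 283 263 128 9 16 3297 10959 4 32) muQ true true 64 RtB18_8.Cx.left.left.right RtB18_8.CX RtB18_8.Ctp.right.right.right.left.right.left.right RtB18_8.Ce.right.right.left.right.left.left.right.left RtB18_8.CTp.left RtB18_8.CEr 0xa4f1760f8fd7c9c4fa76c411fde3d79f63d456f8df9f540d62a4a7ac8fd3b451f976cee56c841e9f63818acb9b9f540d68b9586718fd62dcd6e76c51f1a189e9f63508a8f659f540d5889d80e8fd480e89476cc768564c59f62ef7715529f540d6206897878fd2abc54976c4c8f5f5579f64a5c6c9af9f540d5c77af428fd414573376c3c63b9b589f530d7549b0998fd5233e0476c982c5f1f09f63d4a301459f540d6437 = true := by decide +kernel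

theorem cB18_8_3_52 : chunkOkM (LB18_8.ctx true true 267 131 64 9 16 1645 5473 4 16) muQ true true 64 RtB18_8.Cx.left.left.right RtB18_8.CX RtB18_8.Ctp.right.right.right.left.right.left.right RtB18_8.Ce.right.right.left.right.left.left.right.left RtB18_8.CTp.right RtB18_8.CEr 0x181a7f4d8fd1414177b8f8625c407899f63535ac95c9f540d = true := by decide +kernel

theorem cB18_8_3_53 : chunkOkM (LB18_8.ctx true true 315 2095 1024 9 16 13209 44005 4 32) muQ true true 64 RtB18_8.Cx.left.left.right.left RtB18_8.CX RtB18_8.Ctp.right.right.right.left.right.left.right RtB18_8.Ce.right.right.left.right.left.left.right.right RtB18_8.CTp RtB18_8.CEr 0x1633d13e8fd16ddb2248f8e2ebd9bf29f62db7911d39f540d595941c05c5d6bf57f8fd51361c076c42ea0a1209f530d645975934597593597f55e3cc7fd3d2b77a76c41eb06fde9f530d2bd597a48fd285cfea76cfdfcb093e9f63274811a09f540d645593 = true := by decide +kernel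

theorem cB18_8_3_54 : chunkOkM (LB18_8.ctx true true 283 263 128 9 16 3297 11011 4 32) muQ true true 64 RtB18_8.Cx.left.left.right.right RtB18_8.CX RtB18_8.Ctp.right.right.right.left.right.left.right RtB18_8.Ce.right.right.left.right.left.left.right.right RtB18_8.CTp RtB18_8.CEr 0x14d4e3c78fd161975968f8a47ba35a19f6353bc8c2b9f540da349c6b7fd32f3e3d76c189f44e4f9f643bb8ba5c9f540d5f9524278fd3ef8bbd76c9a789183f9f64155e22d59f540d68a51ebd28fd689a4bf76c61e4c36949f63bfb15bf89f540d46468a0f8fd472507376c17cdc24630af6532cc1d039f540d641459c5e58fd185028776c2ae93c05c9f64abe3f9ae9f540d35 = true := by decide +kernel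

theorem cB18_8_3_55 : chunkOkM (LB18_8.ctx true true 280 257 128 9 16 1659 5421 8 32) muQ true true 64 RtB18_8.Cx.left.left.left RtB18_8.CX RtB18_8.Ctp.right.right.right.left.right.right RtB18_8.Ce.right.right.left.right.left.left.left.left RtB18_8.CTp.left RtB18_8.CEr.left 0x1169578acec38fd3faa45e76c1b2912e493af630d8da4d1db8fd610a27476cf488ef69b1d060f8f9aaf640d573 = true := by decide +kernel

theorem cB18_8_3_56 : chunkOkM (LB18_8.ctx true true 295 515 256 9 16 3325 10907 8 32) muQ true true 64 RtB18_8.Cx.left.left.left.left RtB18_8.CX RtB18_8.Ctp.right.right.right.left.right.right.left RtB18_8.Ce.right.right.left.right.left.left.left.right RtB18_8.CTp.left RtB18_8.CEr.left 0x414e570d8fd453334976c245be1aa32af630d948c51288fd64444c676c16c204379b21ab619f39af640d58f496fca8fd65a166676ce59f9a69b2d1bb493a7af640d48701b5458fd5868d7076ca783fe69b3b24af18e8af640d80a376ca8fd5d34a7676c14072f979ba4a106bebdaf640d774f0a2638fd51d0bc676c367e517c9eaf630d851146798fd58f153b76c103922d79b2e2e8712eeaf640d543 = true := by decide +kernel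

theorem cB18_8_3_57 : chunkOkM (LB18_8.ctx true true 276 259 128 9 16 1659 5447 4 32) muQ true true 64 RtB18_8.Cx.left.left.left.right RtB18_8.CX RtB18_8.Ctp.right.right.right.left.right.right.left RtB18_8.Ce.right.right.left.right.left.left.left.right RtB18_8.CTp.left RtB18_8.CEr.left 0x806368648fd50acc2476c8d699769b23c5322ef7af640d = true := by decide +kernel

theorem cB18_8_3_58 : chunkOkM (LB18_8.ctx true true 270 129 64 9 16 1673 5447 4 32) muQ true true 64 RtB18_8.Cx.left.left.left RtB18_8.CX RtB18_8.Ctp.right.right.right.left.right.right.right RtB18_8.Ce.right.right.left.right.left.left.left.right RtB18_8.CTp.left RtB18_8.CEr.left 0x8e5df6a08fd6be8ce276c1209c8479b21e7a9c54baf640d = true := by decide +kernel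

theorem cB18_8_3_59 : chunkOkM (LB18_8.ctx true true 263 129 64 9 16 833 2717 4 32) muQ true true 64 RtB18_8.Cx.left.left.left RtB18_8.CX RtB18_8.Ctp.right.right.right.left.right.right RtB18_8.Ce.right.right.left.right.left.left.left RtB18_8.CTp.left RtB18_8.CEr.right 0x8f6b6f458fdaa4a51476c5a71858c39f61bdce31be9f540d = true := by decide +kernel

theorem cB18_8_3_60 : chunkOkM (LB18_8.ctx true true 267 129 64 9 16 1673 2717 4 32) muQ true true 64 RtB18_8.Cx.left.left.left RtB18_8.CX RtB18_8.Ctp.right.right.right.left.right.right RtB18_8.Ce.right.right.left.right.left.left.left RtB18_8.CTp.right RtB18_8.CEr 0x1d1b69058f06c1ba1276c8fd3b861cb7f85b272a9e99f6193fab6f29f540d36a6 = true := by decide +kernel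

theorem cB18_8_3_61 : chunkOkM (LB18_8.ctx true true 106 1 1 1 1 1 1 1 1) muQ true true 64 RtB18_8.Cx.left.left.right RtB18_8.CX RtB18_8.Ctp.right.right.right.left.right.right RtB18_8.Ce.right.right.left.right.left.left.left RtB18_8.CTp RtB18_8.CEr 0x69 = true := by decide +kernel

theorem cB18_8_3_62 : chunkOkM (LB18_8.ctx true true 290 515 256 9 16 3325 10959 4 32) muQ true true 64 RtB18_8.Cx.left.left.left.left RtB18_8.CX RtB18_8.Ctp.right.right.right.left.right.right.left RtB18_8.Ce.right.right.left.right.left.left.right.left RtB18_8.CTp.left RtB18_8.CEr 0x7800c8958fd88e8cdb76c153b11fb4caf6a2134eb18f540d7526bb748fd4ecbc6f76c122c00979b500708bb46af640d853e940b8fd5db270676ceea90369b27a5d7bb95af640d540fa3888fd4e0008b76cfd071a69b5924afa235af640d745964ff07b68fd477be0976cdd064969b8bdd45a12eaf640d469736 = true := by decide +kernel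

end Vale.Agent.helper4.Q4
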