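import Vale.Agent.helper4.Q4TreeM
import Vale.Agent.helper4.Q4G.PB18_8

/-!
Checks for pairs of intervals of second moments.
-/

set_option maxRecDepth 100000
set_option linter.unusedVariables false

namespace Vale.Agent.helper4.Q4

theorem cB18_8_1_14 : chunkOkM (LB18_8.ctx true false 395 135 64 513 1024 1701 5629 16384 65536) muQ true false 64 RtB18_8.Cx.left RtB18_8.CX.left.left.left.left.left.left RtB18_8.Ctp.right.right.right.right.left RtB18_8.Ce.right.right.left.right.right.left RtB18_8.CTn.left.left.left.left.left.left.left.left.left.left.left.left RtB18_8.CEr.left.left.left.left.left.left.left.left.left.left.left.left 0x491be62c29f02b1790b9f3a41f7dfdad582a69c25a2b3d0e9f637fcf51da9f540d2e68952d19fd79d39c184aa5bb3619b61d19f63109e02849f5101bcc4809f260d71f7497b149f05b21f39caf1695bb1ab90b9889f62dcb006b19f512fd971209f250d22e2629609f633c13474b9f520d3743212112d4040313dbfd563249c6e83bb51ebe889f9f628f7cc7d59f51ff1c310b9f260d421747 = true := by decide +kernel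

theorem cB18_8_1_15 : chunkOkM (LB18_8.ctx true false 377 135 64 513 1024 861 1443 16384 65536) muQ true false 64 RtB18_8.Cx.left RtB18_8.CX.left.left.left.left.left.left RtB18_8.Ctp.right.right.right.right.left RtB18_8.Ce.right.right.left.right.right.right RtB18_8.CTn.left.left.left.left.left.left.left.left.left.left.left.left RtB18_8.CEr.left.left.left.left.left.left.left.left.left.left.left.left 0x667749c28fc4bb1a8a29d669f62f6f0dd969f5185165a319f250d30739c149d25bb16a26cd359f63fa3c60d49f540d3217217 = true := by decide +kernel

theorem cB18_8_1_16 : chunkOkM (LB18_8.ctx true false 106 1 1 1 1 1 1 1 1) muQ true false 64 RtB18_8.Cx.left RtB18_8.CX.left.left.left.left.left.left RtB18_8.Ctp.right.right.right.right.right RtB18_8.Ce.right.right.left.right.right RtB18_8.CTn.left.left.left.left.left.left.left.left.left.left.left.left RtB18_8.CEr.left.left.left.left.left.left.left.left.left.left.left.left 0x01 = true := by decide +kernel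

theorem cB18_8_1_17 : chunkOkM (LB18_8.ctx true false 380 71 32 513 1024 861 1443 16384 65536) muQ true false 64 RtB18_8.Cx.right RtB18_8.CX.left.left.left.left.left.left RtB18_8.Ctp.right.right.right.right RtB18_8.Ce.right.right.left.right.right RtB18_8.CTn.left.left.left.left.left.left.left.left.left.left.left.left RtB18_8.CEr.left.left.left.left.left.left.left.left.left.left.left.left 0x1124834004f9f05bb7caa35fd0afd390e49c2a88146f69f630fa23af89f5a9ab3be28f250d3014faad85d83dfd161cd8779cecf0d9738f646e4d72b89f540d371ba4729a79f05b43 = true := by decide +kernel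

theorem cB18_8_1_18 : chunkOkM (LB18_8.ctx true false 106 1 1 1 1 1 1 1 1) muQ true false 64 RtB18_8.Cx RtB18_8.CX.left.left.left.left.left.left RtB18_8.Ctp.right.right.left RtB18_8.Ce.right.right.right RtB18_8.CTn.left.left.left.left.left.left.left.left.left.left.left.left RtB18_8.CEr.left.left.left.left.left.left.left.left.left.left.left.left 0x59 = true := by decide +kernel

theorem cB18_8_1_19 : chunkOkM (LB18_8.ctx true false 106 1 1 1 1 1 1 1 1) muQ true false 64 RtB18_8.Cx.left RtB18_8.CX.left.left.left.left.left.left RtB18_8.Ctp.right.right.right RtB18_8.Ce.right.right.right.left RtB18_8.CTn.left.left.left.left.left.left.left.left.left.left.left.left RtB18_8.CEr.left.left.left.left.left.left.left.left.left.left.left.left 0x21 = true := by decide +kernel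

theorem cB18_8_1_20 : chunkOkM (LB18_8.ctx true false 351 35 16 513 1024 203 377 16384 65536) muQ true false 64 RtB18_8.Cx.right RtB18_8.CX.left.left.left.left.left.left RtB18_8.Ctp.right.right.right.left RtB18_8.Ce.right.right.right.left RtB18_8.CTn.left.left.left.left.left.left.left.left.left.left.left.left RtB18_8.CEr.left.left.left.left.left.left.left.left.left.left.left.left 0x226be90ac9f6747acfc669f548aee70c69f430d = true := by decide +kernel

theorem cB18_8_1_21 : chunkOkM (LB18_8.ctx true false 375 71 32 513 1024 861 2951 16384 65536) muQ true false 64 RtB18_8.Cx.right RtB18_8.CX.left.left.left.left.left.left RtB18_8.Ctp.right.right.right.right.left RtB18_8.Ce.right.right.right.left.left RtB18_8.CTn.left.left.left.left.left.left.left.left.left.left.left.left RtB18_8.CEr.left.left.left.left.left.left.left.left.left.left.left.left 0x276a49c363cfc6669f657345f7bc9f530d5cf129dcc9f05b7431249c54bb13ccd9f650ba7d87e9f530d482eb509f9f05bb7caa35fcbafd390e49c38017a1269f6376acea789f5c8fffc0e8f250d4538d497069f05b374 = true := by decide +kernel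

theorem cB18_8_1_22 : chunkOkM (LB18_8.ctx true false 379 71 32 513 1024 889 1495 16384 65536) muQ true false 64 RtB18_8.Cx.right RtB18_8.CX.left.left.left.left.left.left RtB18_8.Ctp.right.right.right.right.right RtB18_8.Ce.right.right.right.left.left RtB18_8.CTn.left.left.left.left.left.left.left.left.left.left.left.left RtB18_8.CEr.left.left.left.left.left.left.left.left.left.left.left.left 0xc8f105938f00bdaaaaae352a7cfd64a63869c1a60f9f6a9f63b469815d9f511d9fb92c9f250d35ac74bb1b685192a9f62fd07494d9f526464f4809f240d756510959efafd1070459c73544bb4c3f92528f61b4f7ba049f53c49760499f260d4 = true := by decide +kernel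

theorem cB18_8_1_23 : chunkOkM (LB18_8.ctx true false 373 71 32 513 1024 889 1547 16384 65536) muQ true false 64 RtB18_8.Cx.right RtB18_8.CX.left.left.left.left.left.left RtB18_8.Ctp.right.right.right.right RtB18_8.Ce.right.right.right.left.right RtB18_8.CTn.left.left.left.left.left.left.left.left.left.left.left.left RtB18_8.CEr.left.left.left.left.left.left.left.left.left.left.left.left 0x2c2f49c35db946a59f640ee1c25b9f52e7d276f99f240dc8ced5cfcdafd473349c2528528049f637a1fd1519f524b1340299f250df9cc9d8f89fd299549c1b7825bb204c127e99f642aa58dc79f5754124438f260d347500cb5e29f05b3217 = true := by decide +kernel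

theorem cB18_8_1_24 : chunkOkM (LB18_8.ctx true false 106 1 1 1 1 1 1 1 1) muQ true false 64 RtB18_8.Cx RtB18_8.CX.left.left.left.left.left.left RtB18_8.Ctp.right.right.right RtB18_8.Ce.right.right.right.right RtB18_8.CTn.left.left.left.left.left.left.left.left.left.left.left.left RtB18_8.CEr.left.left.left.left.left.left.left.left.left.left.left.left 0x21 = true := by decide +kernel

theorem cB18_8_1_25 : chunkOkM (LB18_8.ctx true false 106 1 1 1 1 1 1 1 1) muQ true false 64 RtB18_8.Cx RtB18_8.CX.left.left.left.left.left.right RtB18_8.Ctp.right.right RtB18_8.Ce.right RtB18_8.CTn.left.left.left.left.left.left.left.left.left.left.left.left RtB18_8.CEr.left.left.left.left.left.left.left.left.left.left.left.left 0x42 = true := by decide +kernel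

theorem cB18_8_1_26 : chunkOkM (LB18_8.ctx true false 106 1 1 1 1 1 1 1 1) muQ true false 64 RtB18_8.Cx RtB18_8.CX.left.left.left.left.right RtB18_8.Ctp.right.right RtB18_8.Ce.right RtB18_8.CTn.left.left.left.left.left.left.left.left.left.left.left.left RtB18_8.CEr.left.left.left.left.left.left.left.left.left.left.left.left 0x42 = true := by decide +kernel

theorem cB18_8_1_27 : chunkOkM (LB18_8.ctx true false 106 1 1 1 1 1 1 1 1) muQ true false 64 RtB18_8.Cx RtB18_8.CX.left.left.left.left RtB18_8.Ctp.right.right RtB18_8.Ce.right RtB18_8.CTn.left.left.left.left.left.left.left.left.left.left.left.left RtB18_8.CEr.left.left.left.left.left.left.left.left.left.left.left.right 0x5a = true := by decide +kernel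

theorem cB18_8_1_28 : chunkOkM (LB18_8.ctx true false 106 1 1 1 1 1 1 1 1) muQ true false 64 RtB18_8.Cx RtB18_8.CX.left.left.left.left RtB18_8.Ctp.right.right RtB18_8.Ce.right RtB18_8.CTn.left.left.left.left.left.left.left.left.left.left.left.right RtB18_8.CEr.left.left.left.left.left.left.left.left.left.left.left 0x5a = true := by decide +kernel

end Vale.Agent.helper4.Q4
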