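import Vale.Agent.helper4.Q4TreeM
import Vale.Agent.helper4.Q4G.PB18_8

/-!
Checks for pairs of intervals of second moments.
-/

set_option maxRecDepth 100000
set_option linter.unusedVariables false

namespace Vale.Agent.helper4.Q4

theorem cB18_8_1_29 : chunkOkM (LB18_8.ctx true false 106 1 1 1 1 1 1 1 1) muQ true false 64 RtB18_8.Cx RtB18_8.CX.left.left.left.left RtB18_8.Ctp.right.right RtB18_8.Ce.right RtB18_8.CTn.left.left.left.left.left.left.left.left.left.left.right RtB18_8.CEr.left.left.left.left.left.left.left.left.left.left.left 0x5a = true := by decide +kernel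

theorem cB18_8_1_30 : chunkOkM (LB18_8.ctx true false 106 1 1 1 1 1 1 1 1) muQ true false 64 RtB18_8.Cx RtB18_8.CX.left.left.left.right RtB18_8.Ctp.right.right RtB18_8.Ce.right RtB18_8.CTn.left.left.left.left.left.left.left.left.left.left RtB18_8.CEr.left.left.left.left.left.left.left.left.left.left.left 0x42 = true := by decide +kernel

theorem cB18_8_1_31 : chunkOkM (LB18_8.ctx true false 106 1 1 1 1 1 1 1 1) muQ true false 64 RtB18_8.Cx RtB18_8.CX.left.left.left RtB18_8.Ctp.right.right RtB18_8.Ce.right RtB18_8.CTn.left.left.left.left.left.left.left.left.left.left RtB18_8.CEr.left.left.left.left.left.left.left.left.left.left.right 0x5a = true := by decide +kernel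

theorem cB18_8_1_32 : chunkOkM (LB18_8.ctx true false 106 1 1 1 1 1 1 1 1) muQ true false 64 RtB18_8.Cx RtB18_8.CX.left.left.left RtB18_8.Ctp.right.right RtB18_8.Ce.right RtB18_8.CTn.left.left.left.left.left.left.left.left.left.left RtB18_8.CEr.left.left.left.left.left.left.left.left.left.right 0x5a = true := by decide +kernel

theorem cB18_8_1_33 : chunkOkM (LB18_8.ctx true false 106 1 1 1 1 1 1 1 1) muQ true false 64 RtB18_8.Cx RtB18_8.CX.left.left.left RtB18_8.Ctp.right.right RtB18_8.Ce.right RtB18_8.CTn.left.left.left.left.left.left.left.left.left.right RtB18_8.CEr.left.left.left.left.left.left.left.left.left 0x5a = true := by decide +kernel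

theorem cB18_8_1_34 : chunkOkM (LB18_8.ctx true false 106 1 1 1 1 1 1 1 1) muQ true false 64 RtB18_8.Cx RtB18_8.CX.left.left.left RtB18_8.Ctp.right.right RtB18_8.Ce.right RtB18_8.CTn.left.left.left.left.left.left.left.left.right RtB18_8.CEr.left.left.left.left.left.left.left.left.left 0x5a = true := by decide +kernel

theorem cB18_8_1_35 : chunkOkM (LB18_8.ctx true false 106 1 1 1 1 1 1 1 1) muQ true false 64 RtB18_8.Cx RtB18_8.CX.left.left.right RtB18_8.Ctp.right.right RtB18_8.Ce.right RtB18_8.CTn.left.left.left.left.left.left.left.left RtB18_8.CEr.left.left.left.left.left.left.left.left.left 0x42 = true := by decide +kernel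

theorem cB18_8_1_36 : chunkOkM (LB18_8.ctx true false 106 1 1 1 1 1 1 1 1) muQ true false 64 RtB18_8.Cx RtB18_8.CX.left.left RtB18_8.Ctp.right.right RtB18_8.Ce.right RtB18_8.CTn.left.left.left.left.left.left.left.left RtB18_8.CEr.left.left.left.left.left.left.left.left.right 0x5a = true := by decide +kernel

theorem cB18_8_1_37 : chunkOkM (LB18_8.ctx true false 106 1 1 1 1 1 1 1 1) muQ true false 64 RtB18_8.Cx RtB18_8.CX.left.left RtB18_8.Ctp.right.right RtB18_8.Ce.right RtB18_8.CTn.left.left.left.left.left.left.left.left RtB18_8.CEr.left.left.left.left.left.left.left.right 0x5a = true := by decide +kernel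

theorem cB18_8_1_38 : chunkOkM (LB18_8.ctx true false 106 1 1 1 1 1 1 1 1) muQ true false 64 RtB18_8.Cx RtB18_8.CX.left.left RtB18_8.Ctp.right.right RtB18_8.Ce.right RtB18_8.CTn.left.left.left.left.left.left.left.right RtB18_8.CEr.left.left.left.left.left.left.left 0x5a = true := by decide +kernel

theorem cB18_8_1_39 : chunkOkM (LB18_8.ctx true false 106 1 1 1 1 1 1 1 1) muQ true false 64 RtB18_8.Cx RtB18_8.CX.left.left RtB18_8.Ctp.right.right RtB18_8.Ce.right RtB18_8.CTn.left.left.left.left.left.left.right RtB18_8.CEr.left.left.left.left.left.left.left 0x5a = true := by decide +kernel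

theorem cB18_8_1_40 : chunkOkM (LB18_8.ctx true false 106 1 1 1 1 1 1 1 1) muQ true false 64 RtB18_8.Cx RtB18_8.CX.left.right RtB18_8.Ctp.right.right RtB18_8.Ce.right RtB18_8.CTn.left.left.left.left.left.left RtB18_8.CEr.left.left.left.left.left.left.left 0x42 = true := by decide +kernel

theorem cB18_8_1_41 : chunkOkM (LB18_8.ctx true false 106 1 1 1 1 1 1 1 1) muQ true false 64 RtB18_8.Cx RtB18_8.CX.left RtB18_8.Ctp.right.right RtB18_8.Ce.right RtB18_8.CTn.left.left.left.left.left.left RtB18_8.CEr.left.left.left.left.left.left.right 0x5a = true := by decide +kernel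

theorem cB18_8_1_42 : chunkOkM (LB18_8.ctx true false 106 1 1 1 1 1 1 1 1) muQ true false 64 RtB18_8.Cx RtB18_8.CX.left RtB18_8.Ctp.right.right RtB18_8.Ce.right RtB18_8.CTn.left.left.left.left.left.left RtB18_8.CEr.left.left.left.left.left.right 0x5a = true := by decide +kernel

theorem cB18_8_1_43 : chunkOkM (LB18_8.ctx true false 106 1 1 1 1 1 1 1 1) muQ true false 64 RtB18_8.Cx RtB18_8.CX.right RtB18_8.Ctp.right.right RtB18_8.Ce.right RtB18_8.CTn.left.left.left.left.left.left RtB18_8.CEr.left.left.left.left.left 0x42 = true := by decide +kernel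

end Vale.Agent.helper4.Q4
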