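import Vale.Agent.helper4.Q4TreeM
import Vale.Agent.helper4.Q4G.PB18_8

/-!
Checks for pairs of intervals of second moments.
-/

set_option maxRecDepth 100000
set_option linter.unusedVariables false

namespace Vale.Agent.helper4.Q4

theorem cB18_8_3_63 : chunkOkM (LB18_8.ctx true true 290 519 256 9 16 3325 10959 4 32) muQ true true 64 RtB18_8.Cx.left.left.left.right RtB18_8.CX RtB18_8.Ctp.right.right.right.left.right.right.left RtB18_8.Ce.right.right.left.right.left.left.right.left RtB18_8.CTp.left RtB18_8.CEr 0xe9d336e7fd6b6d8f276c8f85ca5e19f6237b625979f540d827894858fd560f6e476cb0a6e669b2e11102018af640d6d4b120e8fd53ab2c376cb846e069b3893d41341af640d47a191c828fd4cb57f076cc398ed69b16d50e169faf627f89c96f9f550d636d77948fd433bc6576c78e89e69b434b3b75b5af640d755b41f558fd48a24d876c3651158b32af611c286dbf9f540d7cea4f6c8fd518613676c7f60c169b3568d2d1abaf640d7436 = true := by decide +kernel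

theorem cB18_8_3_64 : chunkOkM (LB18_8.ctx true true 290 519 256 9 16 3325 11011 4 32) muQ true true 64 RtB18_8.Cx.left.left.left RtB18_8.CX RtB18_8.Ctp.right.right.right.left.right.right.left RtB18_8.Ce.right.right.left.right.left.left.right.right RtB18_8.CTp.left RtB18_8.CEr 0x611779578fd718014576c9cc53d3159f61ea6371069f540d52f8bc318fd35ef62876c133c44579b4942f185fbaf640d785d7dde8fd59c96b276c5b8c8069b56f3b99f03af640d5a87febe8fd5bd7ef376c761b7186b6af630d7475c7caec8fd479914476cc5054c69b816e690989f6396b4b2de9f550d36697 = true := by decide +kernel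

theorem cB18_8_3_65 : chunkOkM (LB18_8.ctx true true 297 515 256 9 16 3353 10959 8 64) muQ true true 64 RtB18_8.Cx.left.left.left RtB18_8.CX RtB18_8.Ctp.right.right.right.left.right.right.right RtB18_8.Ce.right.right.left.right.left.left.right.left RtB18_8.CTp.left RtB18_8.CEr.left 0x572a88e28fd51185c476c11bd8b179b2724a938c7af640d78435def8fd6577dec76cead02969b17b085545eaf62fccf8b759f250d872ba7668fd62b87db76c11442f379b26a2856ef8af640d78178af48fd635ab1576ce9ada869b38c3823aeeaf640d7358bbc7748fd352775f76c136f64979b1d3240ae43af640d82e257398fd929c36476cddc1fc69b1a34e23143af640d4ba3f65e8fd2e9867676c169932b79b1d8211c976af640d6547 = true := by decide +kernel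

theorem cB18_8_3_66 : chunkOkM (LB18_8.ctx true true 270 129 64 9 16 1673 5473 4 32) muQ true true 64 RtB18_8.Cx.left.left.left RtB18_8.CX RtB18_8.Ctp.right.right.right.left.right.right.right RtB18_8.Ce.right.right.left.right.left.left.right.left RtB18_8.CTp.left RtB18_8.CEr.right 0x52421e378fd8c0cfd276c105e24b15eaf630d = true := by decide +kernel

theorem cB18_8_3_67 : chunkOkM (LB18_8.ctx true true 290 515 256 9 16 3353 11011 4 32) muQ true true 64 RtB18_8.Cx.left.left.left.left RtB18_8.CX RtB18_8.Ctp.right.right.right.left.right.right.right RtB18_8.Ce.right.right.left.right.left.left.right.right RtB18_8.CTp.left RtB18_8.CEr 0xd3d7be338fdc7c5f5776c1b0f9c0a42af630d6ba58c5d8fd5e5f35c76c131188479b385a63c79daf640d88bd121b8fd662f7b876c1423d7879b32dc02e0f5af611360b8919f250d4699c35d95c8fd745df3276cb887e069b47e83edab7af640d436217 = true := by decide +kernel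

theorem cB18_8_3_68 : chunkOkM (LB18_8.ctx true true 294 519 256 9 16 3353 11011 8 32) muQ true true 64 RtB18_8.Cx.left.left.left.right RtB18_8.CX RtB18_8.Ctp.right.right.right.left.right.right.right RtB18_8.Ce.right.right.left.right.left.left.right.right RtB18_8.CTp.left RtB18_8.CEr 0xec764e07fd780ef2676c186e4b6921af630d81d4c7858fd74829d276c80860869b2a2173a07aaf640d807273ee8fd557446d76c10fcec079b41bfc21a20af640d7e258abf8fd656cf1f76ccacf2b69b36bad5649eaf640d737e3acaf38fd5a17fa176cac39ad69b22e83f12b1af640d8cb058b68fd5ecc1f476c160db0c79b23e1915e67af640d546 = true := by decide +kernel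

theorem cB18_8_3_69 : chunkOkM (LB18_8.ctx true true 276 259 128 9 16 1673 5499 4 32) muQ true true 64 RtB18_8.Cx.left.left.left RtB18_8.CX RtB18_8.Ctp.right.right.right.left.right.right RtB18_8.Ce.right.right.left.right.left.left.right RtB18_8.CTp.right RtB18_8.CEr 0x2236ca1c8fd4b43f266cffb8265789f630d1c5c2fe98fd45e71b66c365450d7f811cf9b7008af618cd4cd349f250d71f3ec7f08fd3839aab76c1991af638f81534ff2469af640d41d7af9d78fd2474f6a76c144f040d8f8bcf2b98c19f612f1600289f550d1d2f8f7f8fd27d5b7376c154254958f87be0edd9a9f61c85c34339f550d436a6 = true := by decide +kernel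

theorem cB18_8_3_70 : chunkOkM (LB18_8.ctx true true 266 131 64 9 16 833 5473 4 32) muQ true true 64 RtB18_8.Cx.left.left.right RtB18_8.CX RtB18_8.Ctp.right.right.right.left.right.right RtB18_8.Ce.right.right.left.right.left.left.right.left RtB18_8.CTp.left RtB18_8.CEr 0x8004a827fd5f839ba76c8827f778f9f62f51188899f540d6a16979b8fd45cbc2d76ccc720369b10107bd086af628de9748f9f550d6 = true := by decide +kernel

end Vale.Agent.helper4.Q4
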