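import Vale.Agent.helper4.Q4TreeM
import Vale.Agent.helper4.Q4G.PB18_8

/-!
Checks for pairs of intervals of second moments.
-/

set_option maxRecDepth 100000
set_option linter.unusedVariables false

namespace Vale.Agent.helper4.Q4

theorem cB18_8_3_71 : chunkOkM (LB18_8.ctx true true 284 263 128 9 16 3325 11011 4 32) muQ true true 64 RtB18_8.Cx.left.left.right RtB18_8.CX RtB18_8.Ctp.right.right.right.left.right.right.left RtB18_8.Ce.right.right.left.right.left.left.right.right RtB18_8.CTp.left RtB18_8.CEr 0x41c05c6e3c85b48fd53948f276ca3e26a7709f6327725c1a9f540d677b9111d8fd73acaa476c87ae47b109f6280b75e389f540d7acad6988fd4aa7d1f76c8b7a8b69b1f7b2598beaf610b744a4d9f550d716d22298fd52743bd76c2cf2cb41dfaf630d4760e25d88fd49c34ca76c95c96669b83e981d2c9f6329a04bdf9f550d367 = true := by decide +kernel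

theorem cB18_8_3_72 : chunkOkM (LB18_8.ctx true true 278 131 64 9 16 3339 11011 4 32) muQ true true 64 RtB18_8.Cx.left.left.right RtB18_8.CX RtB18_8.Ctp.right.right.right.left.right.right.right RtB18_8.Ce.right.right.left.right.left.left.right.right RtB18_8.CTp.left RtB18_8.CEr 0x6961c05c4c48dc828fd3f801c876c10d928179b4323f22b80af640d66943 = true := by decide +kernel

theorem cB18_8_3_73 : chunkOkM (LB18_8.ctx true true 263 131 64 9 16 833 2743 4 32) muQ true true 64 RtB18_8.Cx.left.left.right RtB18_8.CX RtB18_8.Ctp.right.right.right.left.right.right RtB18_8.Ce.right.right.left.right.left.left.right RtB18_8.CTp.right RtB18_8.CEr 0x156c31048fdbff20827f852cd5cc8b9f626f16b1d19f540d6a6 = true := by decide +kernel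

theorem cB18_8_3_74 : chunkOkM (LB18_8.ctx true true 267 135 64 9 16 1645 5499 4 16) muQ true true 64 RtB18_8.Cx.left.right RtB18_8.CX RtB18_8.Ctp.right.right.right.left.right RtB18_8.Ce.right.right.left.right.left.left RtB18_8.CTp RtB18_8.CEr 0x6912437f868fd1917b4a48f81d6ccde1a9f639ff1cb9c9f540d11a723678fd1c59e9a58f88dd653ffb9f63990a8d1b9f540d1951c72c8fd20f20e176cedaf9c9129f65361667149f540d5e1e0efd7f06c410db16528fd11c43b476c1162d95a8f862eca62109f653cf4705d9f550d37f0f46617fdb7c51937f87aaaea3e49f6491bb9e449f540d43 = true := by decide +kernel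

theorem cB18_8_3_75 : chunkOkM (LB18_8.ctx true true 277 263 128 9 16 3297 5525 4 16) muQ true true 64 RtB18_8.Cx.left.left RtB18_8.CX RtB18_8.Ctp.right.right.right.left.right.left RtB18_8.Ce.right.right.left.right.left.right RtB18_8.CTp RtB18_8.CEr 0x5959158542658fd19c5d7de8f871946d1b09f63e418b80e9f540d1bd85e338fd23f934b76c5bd31e9839f64b576c0169f540d559359745935974 = true := by decide +kernel

theorem cB18_8_3_76 : chunkOkM (LB18_8.ctx true true 294 519 256 9 16 3353 11063 8 32) muQ true true 64 RtB18_8.Cx.left.left.left RtB18_8.CX RtB18_8.Ctp.right.right.right.left.right.right RtB18_8.Ce.right.right.left.right.left.right.left RtB18_8.CTp RtB18_8.CEr 0x691d0128f68fd793cd5f81d6e359045af630d6a67ff037a38fd939ba5e76c174605ea8caf630d828d9d698fd5edf3b176c11ef48779b347d93a4a2af640d39fb29b18fd2bd07ff76cf630c769b2a49ef9e45af640d8a63dccc8fd6a9cbca76c14d235a79b3c4c4badbdaf640d54696618110f8fd63200db76c3762b6cf7daf630d46973654217693 = true := by decide +kernel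

theorem cB18_8_3_77 : chunkOkM (LB18_8.ctx true true 294 523 256 9 16 6629 11063 4 32) muQ true true 64 RtB18_8.Cx.left.left.right.left RtB18_8.CX RtB18_8.Ctp.right.right.right.left.right.right.left RtB18_8.Ce.right.right.left.right.left.right.left.left RtB18_8.CTp.left RtB18_8.CEr 0x11aa05fd8fd547e93a76c3d570edf31af630d60634c8d8fd41b18ca76ca0eb5a69bac27d6ffa9f6359025bb89f550d66974f93b4958fd661674476c5c00c939e9f620abd48cd9f540d75cb00748fd487d7cb76cbdf55169b130e779c8caf623b36bbda9f550d645955925927fd4cfcda876c261de1de41af630d531a1a078fd55f925c76c12d11e820eaf62f3735eee9f540d659345973 = true := by decide +kernel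

theorem cB18_8_3_78 : chunkOkM (LB18_8.ctx true true 283 263 128 9 16 3325 11063 4 32) muQ true true 64 RtB18_8.Cx.left.left.right.right RtB18_8.CX RtB18_8.Ctp.right.right.right.left.right.right.left RtB18_8.Ce.right.right.left.right.left.right.left.left RtB18_8.CTp.left RtB18_8.CEr 0x43f358f78fd557d9fc76c77320fa699f62985b8e049f540d7cf2f3468fd4f53c8d76c767fe969b87e9be1af9f6336533e1b9f550d684806b258fd682ba6476c3dd1d5d8f9f530d42fe0de78fd31a064076ca6221869b520c6dc099f6439697fc49f550d6a70678728fd7c2171c76c58d4a91f79f638b56be9e9f540d44ae4e388fd41f182c76c11f61d39b3af636e1b9d2c9f540d643 = true := by decide +kernel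

theorem cB18_8_3_79 : chunkOkM (LB18_8.ctx true true 270 131 64 9 16 1659 5525 4 32) muQ true true 64 RtB18_8.Cx.left.left.right RtB18_8.CX RtB18_8.Ctp.right.right.right.left.right.right.left RtB18_8.Ce.right.right.left.right.left.right.left.left RtB18_8.CTp.right RtB18_8.CEr 0x190ecbf48fd6e77d7b7f822d21bf209f634a6cfe769f540d6a6 = true := by decide +kernel

theorem cB18_8_3_80 : chunkOkM (LB18_8.ctx true true 106 1 1 1 1 1 1 1 1) muQ true true 64 RtB18_8.Cx.left.left.right.left RtB18_8.CX RtB18_8.Ctp.right.right.right.left.right.right.left RtB18_8.Ce.right.right.left.right.left.right.left.right RtB18_8.CTp RtB18_8.CEr 0x69 = true := by decide +kernel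

theorem cB18_8_3_81 : chunkOkM (LB18_8.ctx true true 293 527 256 9 16 6629 11089 4 32) muQ true true 64 RtB18_8.Cx.left.left.right.right RtB18_8.CX RtB18_8.Ctp.right.right.right.left.right.right.left.left RtB18_8.Ce.right.right.left.right.left.right.left.right RtB18_8.CTp.left RtB18_8.CEr 0x595d38a22b8fd478e22976c4b5670e679f637b0f24fc9f540d678f564c8fd5468f7576c435d242439f530d65935974 = true := by decide +kernel

end Vale.Agent.helper4.Q4
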