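import Vale.Agent.helper4.Q4TreeM
import Vale.Agent.helper4.Q4G.PB18_8

/-!
Checks for pairs of intervals of second moments.
-/

set_option maxRecDepth 100000
set_option linter.unusedVariables false

namespace Vale.Agent.helper4.Q4

theorem cB18_8_3_82 : chunkOkM (LB18_8.ctx true true 339 8415 4096 9 16 53305 88829 4 32) muQ true true 64 RtB18_8.Cx.left.left.right.right RtB18_8.CX RtB18_8.Ctp.right.right.right.left.right.right.left.right RtB18_8.Ce.right.right.left.right.left.right.left.right RtB18_8.CTp.left RtB18_8.CEr 0xc7384e57fd4427f5676c3f9bd42257af630d6ece5b5b8fd2f75db076c13a8b9179ba5d507fdd9f63a8cd92639f550d659595951c05c4842049a8fd48bf327885c6b9ce7f7f84ee77cddecaf640d659359745935974597593459759379ae4b1268fd823791476c1719692f29f63e7f159b69f540d4055317a8fd3429d2276c63f92c69bcede4df629f62dd8023a89f550d64 = true := by decide +kernel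

theorem cB18_8_3_83 : chunkOkM (LB18_8.ctx true true 276 263 128 9 16 1659 5551 4 32) muQ true true 64 RtB18_8.Cx.left.left.right.right RtB18_8.CX RtB18_8.Ctp.right.right.right.left.right.right.left RtB18_8.Ce.right.right.left.right.left.right.left.right RtB18_8.CTp.right RtB18_8.CEr 0x1f5ac9c78fd208d7c66c6fda722799f626f27dac19f540d6a6 = true := by decide +kernel

theorem cB18_8_3_84 : chunkOkM (LB18_8.ctx true true 284 263 128 9 16 3353 11063 4 32) muQ true true 64 RtB18_8.Cx.left.left.right RtB18_8.CX RtB18_8.Ctp.right.right.right.left.right.right.right RtB18_8.Ce.right.right.left.right.left.right.left.left RtB18_8.CTp.left RtB18_8.CEr 0x51c05c70fff6bb8fd723562876c4bf6636265af630d65b47b9008fd6f16f1476cab3c25d519f613c6aa3739f540d7bdccf358fd52ac20876cede62d69b1a76f346c4af640d744c78188fd4ad00da76cc10bcd69b34398f2d4caf640d7baf27918fd4e0ffa876cc55a4469b2a94855bd4af640d4367 = true := by decide +kernel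

theorem cB18_8_3_85 : chunkOkM (LB18_8.ctx true true 284 261 128 9 16 3353 11115 4 32) muQ true true 64 RtB18_8.Cx.left.left.right.left RtB18_8.CX RtB18_8.Ctp.right.right.right.left.right.right.right RtB18_8.Ce.right.right.left.right.left.right.left.right RtB18_8.CTp.left RtB18_8.CEr 0x682fdc748fd79806cd76c1394f88943af63e11aebe8f540d76ad5a3d8fd4ff026a76cf4a2e969b2bf74fe6a6af640d78c938758fd51a128876cf3375c69b283824ccc8af640d4697a56d2fd8fd50708a176c9d9c2f69b334d224f87af640d436 = true := by decide +kernel

theorem cB18_8_3_86 : chunkOkM (LB18_8.ctx true true 284 263 128 9 16 3353 11115 4 32) muQ true true 64 RtB18_8.Cx.left.left.right.right RtB18_8.CX RtB18_8.Ctp.right.right.right.left.right.right.right RtB18_8.Ce.right.right.left.right.left.right.left.right RtB18_8.CTp.left RtB18_8.CEr 0x5af5f20e8fd5fc9dc276c82396f1779f61f0b57d679f540d534aeae98fd3571a5c76ce9370c69b26b3dbf925af640d65af064f8fd3d97d7f76cee008169bb53aaf2779f62c9b0bb429f550d6f5f062b8fd4d8a25876c716b0669b266c6efb2daf621b04ed9d9f550d436 = true := by decide +kernel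

theorem cB18_8_3_87 : chunkOkM (LB18_8.ctx true true 270 131 64 9 16 1673 5551 4 32) muQ true true 64 RtB18_8.Cx.left.left.right RtB18_8.CX RtB18_8.Ctp.right.right.right.left.right.right.right RtB18_8.Ce.right.right.left.right.left.right.left RtB18_8.CTp.right RtB18_8.CEr 0x1d6c2f858fd2a1121476c15de94258f87636f69ce9f61d9bc7be89f550d1baacc3c8fd3a92ce276c206fc9128f86c7bfd08d9f62056f2ed89f550d46a6 = true := by decide +kernel

theorem cB18_8_3_88 : chunkOkM (LB18_8.ctx true true 106 1 1 1 1 1 1 1 1) muQ true true 64 RtB18_8.Cx.left.left.left RtB18_8.CX RtB18_8.Ctp.right.right.right.left.right.right RtB18_8.Ce.right.right.left.right.left.right.right RtB18_8.CTp RtB18_8.CEr 0x21 = true := by decide +kernel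

theorem cB18_8_3_89 : chunkOkM (LB18_8.ctx true true 106 1 1 1 1 1 1 1 1) muQ true true 64 RtB18_8.Cx.left.left.right RtB18_8.CX RtB18_8.Ctp.right.right.right.left.right.right.left RtB18_8.Ce.right.right.left.right.left.right.right RtB18_8.CTp RtB18_8.CEr 0x59 = true := by decide +kernel

theorem cB18_8_3_90 : chunkOkM (LB18_8.ctx true true 342 8383 4096 9 16 53753 89037 4 32) muQ true true 64 RtB18_8.Cx.left.left.right.left RtB18_8.CX RtB18_8.Ctp.right.right.right.left.right.right.right RtB18_8.Ce.right.right.left.right.left.right.right.left RtB18_8.CTp.left RtB18_8.CEr 0x5969696961c05c81be4ab28fd9170bc376c2fc2ae661cabf630d66936974693697469369746976934697593 = true := by decide +kernel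

theorem cB18_8_3_91 : chunkOkM (LB18_8.ctx true true 317 2111 1024 9 16 13377 44629 4 32) muQ true true 64 RtB18_8.Cx.left.left.right.right RtB18_8.CX RtB18_8.Ctp.right.right.right.left.right.right.right RtB18_8.Ce.right.right.left.right.left.right.right.left RtB18_8.CTp.left RtB18_8.CEr 0xd1a2c047fd52b744a76c165484971caf614994140b9f540d661247528fd40534a576cce613369b3b50cdc3dfaf640d68a28f4a8fd423bd9076cc8ef2869b34e736f2ddaf640d46596951c05c5cdb00078fd5ea9ef4485c9781ac4567af630d6469769345975935971206bd098fd497fb7876c2d5faf044daf630d605f89088fd3e23e8e76c9f4b0669b181542092faf620b57b1f99f550d643 = true := by decide +kernel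

theorem cB18_8_3_92 : chunkOkM (LB18_8.ctx true true 270 131 64 9 16 1673 5577 4 32) muQ true true 64 RtB18_8.Cx.left.left.right RtB18_8.CX RtB18_8.Ctp.right.right.right.left.right.right.right RtB18_8.Ce.right.right.left.right.left.right.right.left RtB18_8.CTp.right RtB18_8.CEr 0x1ef55cac8fd10e17d87f830ff831c39f62a20c546c9f540d6a6 = true := by decide +kernel

theorem cB18_8_3_93 : chunkOkM (LB18_8.ctx true true 303 1055 512 9 16 6713 22373 4 32) muQ true true 64 RtB18_8.Cx.left.left.right RtB18_8.CX RtB18_8.Ctp.right.right.right.left.right.right.right RtB18_8.Ce.right.right.left.right.left.right.right.right RtB18_8.CTp RtB18_8.CEr 0x596919c739d58fdf0397527f85ccf6582edaf630d46dbb3a38fd5868c6676c23b51696f4af630d4ebd1fa58fd423c2e076cbb6b76578b2c2e466cf3af640d6546976934597593217 = true := by decide +kernel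

end Vale.Agent.helper4.Q4
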