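import Vale.Agent.helper4.Q4TreeM
import Vale.Agent.helper4.Q4G.PB18_8

/-!
Checks for pairs of intervals of second moments.
-/

set_option maxRecDepth 100000
set_option linter.unusedVariables false

namespace Vale.Agent.helper4.Q4

theorem cB18_8_3_94 : chunkOkM (LB18_8.ctx true true 277 267 128 9 16 3297 5551 4 16) muQ true true 64 RtB18_8.Cx.left.right RtB18_8.CX RtB18_8.Ctp.right.right.right.left.right.left RtB18_8.Ce.right.right.left.right.left.right.left RtB18_8.CTp RtB18_8.CEr 0xcac2a7c7fd30b4da66c161df0278f877b3583b69f657ab0a5d69f550d158ee30a8fd1f505c776c1c34e7ea8f876ea42c829f64bbcf765c9f550d10e109d78fd23412d076c231e3af18f8b905849289f652fd5a0919f550d174271c88fd10be3f648f89100644409f648db2becf9f540df39d9b07fd1366bce76c48df004a79f64d8a4bb1d9f540d515e9d8718fdbddbfd66cdf4dea47f8c20a3feec9f65223852329f550d374e081d3f7fd13345afd8f850771deb59f65623f73899f540d37 = true := by decide +kernel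

theorem cB18_8_3_95 : chunkOkM (LB18_8.ctx true true 256 135 64 9 16 819 2795 2 16) muQ true true 64 RtB18_8.Cx.left.right RtB18_8.CX RtB18_8.Ctp.right.right.right.left.right.left RtB18_8.Ce.right.right.left.right.left.right.right RtB18_8.CTp RtB18_8.CEr 0xda801c17fd191607aa8f877e85e84d9f65822503559f540d127885a48fd1e72a8076c24353fe78f8682515ee79f655d97f5ef9f550d7 = true := by decide +kernel

theorem cB18_8_3_96 : chunkOkM (LB18_8.ctx true true 270 133 64 9 16 1659 5525 4 32) muQ true true 64 RtB18_8.Cx.left.right.left RtB18_8.CX RtB18_8.Ctp.right.right.right.left.right.right.left RtB18_8.Ce.right.right.left.right.left.right.left.left RtB18_8.CTp RtB18_8.CEr 0x13f1be438fd14c1b5478f8d12e693f79f635c428a679f540d31c05c3e46dbbe8fd222b7c476c59202d69b13fce31ebfaf648105b9269f550d65 = true := by decide +kernel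

theorem cB18_8_3_97 : chunkOkM (LB18_8.ctx true true 283 267 128 9 16 3325 11115 4 32) muQ true true 64 RtB18_8.Cx.left.right.left RtB18_8.CX RtB18_8.Ctp.right.right.right.left.right.right.left RtB18_8.Ce.right.right.left.right.left.right.left.right RtB18_8.CTp RtB18_8.CEr 0x13df42da8fd1b0ea01d8f87d3bdff459f63771037c69f540d1b6b81dc8fd202f7fe76cecf7bea899f6464ab99259f540dc7a7da718fd8bfa24b76c5a5671da29f63c321bc6f9f540d3dafa1448fd396b4f476c11eb00b0b3af63ac30cc2c9f540d61aeb154e8fd234945576c34691c31f9f649292b2839f540d1f4c86428fd2b8e87676c7cc871d519f643f0c15fe9f540d4375 = true := by decide +kernel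

theorem cB18_8_3_98 : chunkOkM (LB18_8.ctx true true 267 133 64 9 16 1673 2769 4 32) muQ true true 64 RtB18_8.Cx.left.right.left RtB18_8.CX RtB18_8.Ctp.right.right.right.left.right.right.right RtB18_8.Ce.right.right.left.right.left.right.left RtB18_8.CTp RtB18_8.CEr 0x19b801eb8f06c31c05c5c12a44f8fd5309a8176c164ea26e89f530d65 = true := by decide +kernel

theorem cB18_8_3_99 : chunkOkM (LB18_8.ctx true true 106 1 1 1 1 1 1 1 1) muQ true true 64 RtB18_8.Cx.left.right.right RtB18_8.CX RtB18_8.Ctp.right.right.right.left.right.right RtB18_8.Ce.right.right.left.right.left.right.left RtB18_8.CTp RtB18_8.CEr 0x69 = true := by decide +kernel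

theorem cB18_8_3_100 : chunkOkM (LB18_8.ctx true true 289 531 256 9 16 3325 11167 4 32) muQ true true 64 RtB18_8.Cx.left.right.left.left RtB18_8.CX RtB18_8.Ctp.right.right.right.left.right.right.left RtB18_8.Ce.right.right.left.right.left.right.right.left RtB18_8.CTp RtB18_8.CEr 0x1487e6ba8fd1aa563ca8f880f4c5aa19f63a2e0b1429f540d1b9c798a8fd25c726d76c54504f4399f649b8e2d0b9f540dc98915608fda71358076c389b9317b9f63e5fd846e9f540d3c20bc518fd3ad108176cd0a8cfa439f647c7b331f9f540d6bca3e7bb8fd6024eb876c7cd55eb639f63d29f453f9f540d2a537eb78fd2c56c9c76c1a8ef800c9af62f944991c9f540d674516f610208fd2e2a43b76c241afc428f8cc9ebdd529f650de488439f550d3 = true := by decide +kernel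

theorem cB18_8_3_101 : chunkOkM (LB18_8.ctx true true 273 267 128 9 16 1659 5577 4 16) muQ true true 64 RtB18_8.Cx.left.right.left.right RtB18_8.CX RtB18_8.Ctp.right.right.right.left.right.right.left RtB18_8.Ce.right.right.left.right.left.right.right.left RtB18_8.CTp RtB18_8.CEr 0x15159ac38fd175ea9a68f89a37ab0cb9f639ee607e39f540d19bbcbbb8fd266485e76c7e26ab7279f64812946d29f540d5 = true := by decide +kernel

theorem cB18_8_3_102 : chunkOkM (LB18_8.ctx true true 277 267 128 9 16 3325 5603 4 16) muQ true true 64 RtB18_8.Cx.left.right.left RtB18_8.CX RtB18_8.Ctp.right.right.right.left.right.right.left RtB18_8.Ce.right.right.left.right.left.right.right.right RtB18_8.CTp RtB18_8.CEr 0x14cc540c8fd1c58d1048f8c38a1146a9f62f396981c9f540d130ec0cf8fd11f3ec476c6a94d9eab9f649fa11bd99f540d51253e2068fdd90dd366c16bd74ab8f886bdae0399f65d5d2e9ce9f550d3597 = true := by decide +kernel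

theorem cB18_8_3_103 : chunkOkM (LB18_8.ctx true true 284 267 128 9 16 3353 11167 4 32) muQ true true 64 RtB18_8.Cx.left.right.left RtB18_8.CX RtB18_8.Ctp.right.right.right.left.right.right.right RtB18_8.Ce.right.right.left.right.left.right.right.left RtB18_8.CTp.left RtB18_8.CEr 0x1e0f0cd18fd24098ae76c1dff1012a9f530d7f237577fd451f40176c4e7404b185af630d69928d058fd3661c8376c7ca1cd69b2ab35cb7c2af640d681ce19da8fd5ff09bd76c74e2edbef9f634103b2789f540d4b4cd2e18fd3c2e08576ca777ac69b10f1089b5daf62ce242d2f9f550d63606b38368fd543ec1476c117f9b850aaf624488ea319f540d5f56723a8fd403b41176c7c79959b1015df437caf61f9cb7a0d9f550d647 = true := by decide +kernel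

theorem cB18_8_3_104 : chunkOkM (LB18_8.ctx true true 270 133 64 9 16 1673 5577 4 32) muQ true true 64 RtB18_8.Cx.left.right.left RtB18_8.CX RtB18_8.Ctp.right.right.right.left.right.right.right RtB18_8.Ce.right.right.left.right.left.right.right.left RtB18_8.CTp.right RtB18_8.CEr 0x1839c6308fd7ca98b57f877905ca2d9f62474fd10e9f540d6a6 = true := by decide +kernel

end Vale.Agent.helper4.Q4
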