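import Vale.Agent.helper4.Q4TreeM
import Vale.Agent.helper4.Q4G.PB18_8

/-!
Checks for pairs of intervals of second moments.
-/

set_option maxRecDepth 100000
set_option linter.unusedVariables false

namespace Vale.Agent.helper4.Q4

theorem cB18_8_3_105 : chunkOkM (LB18_8.ctx true true 307 1063 512 9 16 13377 22425 4 32) muQ true true 64 RtB18_8.Cx.left.right.left.left RtB18_8.CX RtB18_8.Ctp.right.right.right.left.right.right.right.left RtB18_8.Ce.right.right.left.right.left.right.right.right RtB18_8.CTp.left RtB18_8.CEr 0x5910b801cf8fd2738e42585c28cc44b4aaaf610a29c01d9f540d60be91fc8fd54b88bec85c437389c999f530d65934597593597518e28e76c2458c3a523af620d406b962a8fd383c40a76c5205f369baca197e7f8aef3119fb9f637cf7be0c9f560d659b6c042458fda7b4c8076c3ff68daf6baf630d4b8203ec8fd48fc75e585c4a1a323212af630d6593459759374 = true := by decide +kernel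

theorem cB18_8_3_106 : chunkOkM (LB18_8.ctx true true 283 265 128 9 16 3353 11219 4 32) muQ true true 64 RtB18_8.Cx.left.right.left.left RtB18_8.CX RtB18_8.Ctp.right.right.right.left.right.right.right.right RtB18_8.Ce.right.right.left.right.left.right.right.right RtB18_8.CTp.left RtB18_8.CEr 0x33e42dc58fd3ecf52f76c15851495a9f62d560a5a99f540d52916d7e8fd32b7fa376c13bc3c079b68eac46299f6405f424519f550d627daa297fd50878f776c72f753e529f63358ac3ba9f540d56832d0a8fd43d55ff76c16295b5763af6212b2f7519f540d64 = true := by decide +kernel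

theorem cB18_8_3_107 : chunkOkM (LB18_8.ctx true true 276 265 128 9 16 1673 5603 4 32) muQ true true 64 RtB18_8.Cx.left.right.left.left RtB18_8.CX RtB18_8.Ctp.right.right.right.left.right.right.right RtB18_8.Ce.right.right.left.right.left.right.right.right RtB18_8.CTp.right RtB18_8.CEr 0x1809e03d8fd2414fda76c1695eaa88f82b1f5520f9f6342e1b0899f550d6a6 = true := by decide +kernel

theorem cB18_8_3_108 : chunkOkM (LB18_8.ctx true true 290 535 256 9 16 3353 11219 4 32) muQ true true 64 RtB18_8.Cx.left.right.left.right RtB18_8.CX RtB18_8.Ctp.right.right.right.left.right.right.right RtB18_8.Ce.right.right.left.right.left.right.right.right RtB18_8.CTp.left RtB18_8.CEr 0x31c05c5b4e62fd8fd404306d76ce926b918c9f62afa532579f540d61c09f4b78fd27dbace76c113ca2d906af64414d6e279f540d274f542c8fd28ae12076c3563ec37e9f641065adde9f540d396b7e458fd28a1c1376cf0a4b77e89f63712a364c9f540d6747406d118fd432016976c95cc105549f636d94d2149f540d36cef4db8fd2917a9c76c1cc0e5d70daf63cddb05cb9f540d643 = true := by decide +kernel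

theorem cB18_8_3_109 : chunkOkM (LB18_8.ctx true true 273 267 128 9 16 1673 5603 4 16) muQ true true 64 RtB18_8.Cx.left.right.left.right RtB18_8.CX RtB18_8.Ctp.right.right.right.left.right.right.right RtB18_8.Ce.right.right.left.right.left.right.right.right RtB18_8.CTp.right RtB18_8.CEr 0x15eae0438fd1bd1f1e38f87948cf1479f62c739b0609f540d = true := by decide +kernel

theorem cB18_8_3_110 : chunkOkM (LB18_8.ctx true true 263 135 64 9 16 1673 5603 2 16) muQ true true 64 RtB18_8.Cx.left.right.right RtB18_8.CX RtB18_8.Ctp.right.right.right.left.right.right RtB18_8.Ce.right.right.left.right.left.right.right RtB18_8.CTp RtB18_8.CEr 0x147604f78fd3bb2e3d76c3465ce5b8f822b420e849f540d124ad9698fd1e6354676c21c77a0a8f8bba57487d9f64a4a17c6f9f550d115e66cf8fd1ff88e176c294af3938f8727bc24829f63d73d50309f550d43 = true := by decide +kernel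

theorem cB18_8_3_111 : chunkOkM (LB18_8.ctx true true 260 139 64 9 16 1645 2795 2 16) muQ true true 64 RtB18_8.Cx.right RtB18_8.CX RtB18_8.Ctp.right.right.right.left RtB18_8.Ce.right.right.left.right.left RtB18_8.CTp RtB18_8.CEr 0x6949c2534a2729f04bb648d6b7fd23888a3f8f8248bacd519f64352330ac9f540d6d537657fd20ac308e8f8839c74cc29f6655f2e7a39f5e2c033418f450d3776a1bdca7fd1d20896f8f849498b4109f64c228e8b49f5184b61c7b9f450d43694493 = true := by decide +kernel

theorem cB18_8_3_112 : chunkOkM (LB18_8.ctx true true 229 17 8 9 16 399 715 2 16) muQ true true 64 RtB18_8.Cx RtB18_8.CX RtB18_8.Ctp.right.right.right.left.left RtB18_8.Ce.right.right.left.right.right RtB18_8.CTp RtB18_8.CEr 0x2673b37c8fd3d90979f8f86268571367af514298baea97bf440d = true := by decide +kernel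

theorem cB18_8_3_113 : chunkOkM (LB18_8.ctx true true 106 1 1 1 1 1 1 1 1) muQ true true 64 RtB18_8.Cx.left.left RtB18_8.CX RtB18_8.Ctp.right.right.right.left.right RtB18_8.Ce.right.right.left.right.right.left RtB18_8.CTp RtB18_8.CEr 0x59 = true := by decide +kernel

theorem cB18_8_3_114 : chunkOkM (LB18_8.ctx true true 247 67 32 9 16 819 1417 2 16) muQ true true 64 RtB18_8.Cx.left.right RtB18_8.CX RtB18_8.Ctp.right.right.right.left.right.left RtB18_8.Ce.right.right.left.right.right.left RtB18_8.CTp RtB18_8.CEr 0xda8bfb17fd2409d3098f87b66721189f662c0c2bb49f540d = true := by decide +kernel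

theorem cB18_8_3_115 : chunkOkM (LB18_8.ctx true true 106 1 1 1 1 1 1 1 1) muQ true true 64 RtB18_8.Cx.left.right.left RtB18_8.CX RtB18_8.Ctp.right.right.right.left.right.right.left RtB18_8.Ce.right.right.left.right.right.left.left RtB18_8.CTp RtB18_8.CEr 0x59 = true := by decide +kernel

theorem cB18_8_3_116 : chunkOkM (LB18_8.ctx true true 290 531 256 9 16 3353 11245 4 32) muQ true true 64 RtB18_8.Cx.left.right.left.left RtB18_8.CX RtB18_8.Ctp.right.right.right.left.right.right.right RtB18_8.Ce.right.right.left.right.right.left.left.left RtB18_8.CTp RtB18_8.CEr 0x5918be53c88fd4d05b067f81f8b0ec9a6af630d6a649a01327fd3890e8076c2aece599bbaf630d3f2cbfb08fd19fbba176cc272d269b3d6025e3dbaf6cd09d78f8f550d655974593 = true := by decide +kernel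

theorem cB18_8_3_117 : chunkOkM (LB18_8.ctx true true 294 535 256 9 16 6713 11271 4 32) muQ true true 64 RtB18_8.Cx.left.right.left.right RtB18_8.CX RtB18_8.Ctp.right.right.right.left.right.right.right RtB18_8.Ce.right.right.left.right.right.left.left.left RtB18_8.CTp.left RtB18_8.CEr 0xf7dd16b68fdd409cfd76c354809c699f530d3fa7708e8fd30a638a76c136cd4ccb8af63b4062b3f9f540d6cb939977fd2d85aec76c230827fdc2af630d5ed617298fd446591c76c41c4d9cc07af630d65937e6ba36d7fd2c1438a76c196843ca0daf61e8e5a6229f540d3e4b9b1a8fd4730a2e76c18a986acb4af647963b8cc9f540d641524dd8d8fd1ea42c876c6155ce69a9f64d139704a9f540d3 = true := by decide +kernel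

theorem cB18_8_3_118 : chunkOkM (LB18_8.ctx true true 276 267 128 9 16 1673 5629 4 32) muQ true true 64 RtB18_8.Cx.left.right.left.right RtB18_8.CX RtB18_8.Ctp.right.right.right.left.right.right.right RtB18_8.Ce.right.right.left.right.right.left.left.left RtB18_8.CTp.right RtB18_8.CEr 0xb336a9e7fdd20e8fe7f840f7381139f63ad26f5619f540d6a6 = true := by decide +kernel

theorem cB18_8_3_119 : chunkOkM (LB18_8.ctx true true 293 535 256 9 16 6713 11297 4 32) muQ true true 64 RtB18_8.Cx.left.right.left RtB18_8.CX RtB18_8.Ctp.right.right.right.left.right.right.right RtB18_8.Ce.right.right.left.right.right.left.left.right RtB18_8.CTp RtB18_8.CEr 0x59144f13818fd1b7d89c38f8ffe78758d9f636b27846d9f540d2d522297fd2cfda6176c43ce9a3919f530d655478ad8fd711bf4176cb287625f99f64002952289f540d655935974593597 = true := by decide +kernel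

end Vale.Agent.helper4.Q4
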