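import Vale.Agent.helper4.Q4TreeM
import Vale.Agent.helper4.Q4G.PB18_8

/-!
Checks for pairs of intervals of second moments.
-/

set_option maxRecDepth 100000
set_option linter.unusedVariables false

namespace Vale.Agent.helper4.Q4

theorem cB18_8_3_120 : chunkOkM (LB18_8.ctx true true 263 135 64 9 16 1659 5655 2 16) muQ true true 64 RtB18_8.Cx.left.right.right RtB18_8.CX RtB18_8.Ctp.right.right.right.left.right.right.left RtB18_8.Ce.right.right.left.right.right.left.left RtB18_8.CTp RtB18_8.CEr 0xffd6e367fd13c14d1e8f8e0c2506139f65f2c470a09f540d12ba0f5e8fd11fd66476c1d12f8478f890d0c91c09f648913728b9f550d4 = true := by decide +kernel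

theorem cB18_8_3_121 : chunkOkM (LB18_8.ctx true true 278 271 128 9 16 3353 5629 4 16) muQ true true 64 RtB18_8.Cx.left.right.right RtB18_8.CX RtB18_8.Ctp.right.right.right.left.right.right.right RtB18_8.Ce.right.right.left.right.right.left.left.left RtB18_8.CTp RtB18_8.CEr 0x16b521348fd1c9c61048f8211f64c419f631c54ccfe9f540d8ddc39578f05b1bb3ed208fd25c820476c1173540645af63b12e1d1b9f540d8bea8a07fd105807176c6a047a6519f651da1b3d79f540d375 = true := by decide +kernel

theorem cB18_8_3_122 : chunkOkM (LB18_8.ctx true true 287 539 256 9 16 3353 11323 4 16) muQ true true 64 RtB18_8.Cx.left.right.right.left RtB18_8.CX RtB18_8.Ctp.right.right.right.left.right.right.right RtB18_8.Ce.right.right.left.right.right.left.left.right RtB18_8.CTp RtB18_8.CEr 0x14086d1f8fd1af999c98f8f99dd40989f6325a2b1419f540d1462324d8fd19b6a6276c625c7285d9f64449c57089f540d1a5824b08fd1cb051076c14d64a89daaf63afbb86549f540d1ca5dc608fd296d57376cc05aad26a9f64094e4e7f9f540d745130b47508fd2ea6a4d76c2ed7d2cc8f847c876058f668238775b9f550d14a832bd8fd220930376c258b66e28f8e8db4f5eb9f646779a6569f550d43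 = true := by decide +kernel

theorem cB18_8_3_123 : chunkOkM (LB18_8.ctx true true 273 271 128 9 16 1673 5655 4 16) muQ true true 64 RtB18_8.Cx.left.right.right.right RtB18_8.CX RtB18_8.Ctp.right.right.right.left.right.right.right RtB18_8.Ce.right.right.left.right.right.left.left.right RtB18_8.CTp RtB18_8.CEr 0x153a1b0d8fd1d9e05dc8f8b171232579f634ff175659f540d129a8f918fd1755dcf76c8f777d7f29f6492e5a51d9f540d5 = true := by decide +kernel

theorem cB18_8_3_124 : chunkOkM (LB18_8.ctx true true 291 539 256 9 16 6713 11349 4 16) muQ true true 64 RtB18_8.Cx.left.right RtB18_8.CX RtB18_8.Ctp.right.right.right.left.right.right RtB18_8.Ce.right.right.left.right.right.left.right RtB18_8.CTp RtB18_8.CEr 0x13599bc88fd10d49a976c1d035ec18f81259122a86af6525849c5f9f550d12a71a758fd1c6afadf8f8e22691fe09f64c4da43f49f540d131068188fdacf9b966c7d9c961009f6485ad22f49f540d510419dc88fd7479b066c1d7451cd8f8d9c0248f99f64e24380fe9f550d3591475255b8fd11610a698f815bc114ff4af64e88bdf8f9f540d11436aa98fd15ebfe576c452e805e79f6522fb4b469f540d5593597459374593597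 = true := by decide +kernel

theorem cB18_8_3_125 : chunkOkM (LB18_8.ctx true true 106 1 1 1 1 1 1 1 1) muQ true true 64 RtB18_8.Cx.left RtB18_8.CX RtB18_8.Ctp.right.right.right.left.right RtB18_8.Ce.right.right.left.right.right.right RtB18_8.CTp RtB18_8.CEr 0x59 = true := by decide +kernel

theorem cB18_8_3_126 : chunkOkM (LB18_8.ctx true true 264 139 64 9 16 1645 2847 2 16) muQ true true 64 RtB18_8.Cx.right.left RtB18_8.CX RtB18_8.Ctp.right.right.right.left.right.left RtB18_8.Ce.right.right.left.right.right.left RtB18_8.CTp RtB18_8.CEr 0x7dde8107fd21251b338f867e3267df9f663aef80ce9f53020055059f450d42211d97fd22ec40bc8f8c4a2c6cd89f67b5f4f6359f540d790a69b77fd1af2156d8f8d7cac31ca9f666eb651139f54ee24afc99f450d974cf517fd2064dc338f87cb6319089f65ee384f259f540d1fdbbfb58f8729a7c3abaaf65544d33d565bf512b1260d764bcf440d374 = true := by decide +kernel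

theorem cB18_8_3_127 : chunkOkM (LB18_8.ctx true true 261 137 64 9 16 1673 2821 2 16) muQ true true 64 RtB18_8.Cx.right.left RtB18_8.CX RtB18_8.Ctp.right.right.right.left.right.right RtB18_8.Ce.right.right.left.right.right.left.left RtB18_8.CTp RtB18_8.CEr 0x69de387b77fd4c7b9266c20e1aa6d8f8119cfa7074af650828dea59f550dc5657c97fd1dc633a48f87398402a89f6500a1d41c9f540d37 = true := by decide +kernel

theorem cB18_8_3_128 : chunkOkM (LB18_8.ctx true true 270 275 128 9 16 1673 5707 2 16) muQ true true 64 RtB18_8.Cx.right.left.left RtB18_8.CX RtB18_8.Ctp.right.right.right.left.right.right RtB18_8.Ce.right.right.left.right.right.left.right RtB18_8.CTp RtB18_8.CEr 0xfd188887fd12dd4ba28f8ca68720cc9f653ff5573a9f540d137e35d58fd41a4756cee458d77f8aedb70da99f64a92c36859f550d7f8c6a577fd4d03f666c1c88ba558f8bc56e9ce69f645d528b009f550d4a51414d7fd1f025fb78f8a803e6ff99f65fa5284e49f540dc98dcef7fd202009d18f89792e7aa39f653bcc19009f540d43 = true := by decide +kernel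

theorem cB18_8_3_129 : chunkOkM (LB18_8.ctx true true 270 279 128 9 16 1673 5707 2 16) muQ true true 64 RtB18_8.Cx.right.left.right RtB18_8.CX RtB18_8.Ctp.right.right.right.left.right.right RtB18_8.Ce.right.right.left.right.right.left.right RtB18_8.CTp RtB18_8.CEr 0xde5361a7fd17175f058f87f78f4fe89f65118739c89f540d832cf617fd21737fe08f87a31a15029f65725210d09f51201518bc9f450d83cb34b7fd1e4a92e58f8b9c8b0fec9f66a58600a39f540d784981087fd206af6758f83e0381b239f65034bee369f540d43 = true := by decide +kernel

theorem cB18_8_3_130 : chunkOkM (LB18_8.ctx true true 243 71 32 9 16 413 1417 2 16) muQ true true 64 RtB18_8.Cx.right.right RtB18_8.CX RtB18_8.Ctp.right.right.right.left.right RtB18_8.Ce.right.right.left.right.right.left RtB18_8.CTp RtB18_8.CEr 0x177c636894af04b = true := by decide +kernel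

theorem cB18_8_3_131 : chunkOkM (LB18_8.ctx true true 248 69 32 9 16 819 1443 2 16) muQ true true 64 RtB18_8.Cx.right.left RtB18_8.CX RtB18_8.Ctp.right.right.right.left.right.left RtB18_8.Ce.right.right.left.right.right.right RtB18_8.CTp RtB18_8.CEr 0x1f9875d98fd33566ec98f8482642e50faf5f04f8a4687af440d = true := by decide +kernel

theorem cB18_8_3_132 : chunkOkM (LB18_8.ctx true true 270 275 128 9 16 1673 5759 2 16) muQ true true 64 RtB18_8.Cx.right.left.left RtB18_8.CX RtB18_8.Ctp.right.right.right.left.right.right RtB18_8.Ce.right.right.left.right.right.right.left RtB18_8.CTp RtB18_8.CEr 0xddebfa47fd1c99a8828f8caafbe8039f660e125fcb9f540decde5bd7fd16fe93ad8f8b50189a929f655c55360d9f540dfc9f9c67fd19f97bd08f8ec926731a9f65f090e7289f540d74593 = true := by decide +kernel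

end Vale.Agent.helper4.Q4
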