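import Vale.Agent.helper4.Q4TreeM
import Vale.Agent.helper4.Q4G.PB18_8_0
import Vale.Agent.helper4.Q4G.PB18_8_1
import Vale.Agent.helper4.Q4G.PB18_8_2
import Vale.Agent.helper4.Q4G.PB18_8_3
import Vale.Agent.helper4.Q4G.PB18_8_4
import Vale.Agent.helper4.Q4G.PB18_8_5
import Vale.Agent.helper4.Q4G.PB18_8_6
import Vale.Agent.helper4.Q4G.PB18_8_7
import Vale.Agent.helper4.Q4G.PB18_8_8
import Vale.Agent.helper4.Q4G.PB18_8_9
import Vale.Agent.helper4.Q4G.PB18_8_10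
import Vale.Agent.helper4.Q4G.PB18_8_11
import Vale.Agent.helper4.Q4G.PB18_8_12
import Vale.Agent.helper4.Q4G.PB18_8_13
import Vale.Agent.helper4.Q4G.PB18_8_14
import Vale.Agent.helper4.Q4G.PB18_8_15
import Vale.Agent.helper4.Q4G.PB18_8_16
import Vale.Agent.helper4.Q4G.PB18_8_17
import Vale.Agent.helper4.Q4G.PB18_8_18
import Vale.Agent.helper4.Q4G.PB18_8_19
import Vale.Agent.helper4.Q4G.PB18_8_20
import Vale.Agent.helper4.Q4G.PB18_8_21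
import Vale.Agent.helper4.Q4G.PB18_8_22
import Vale.Agent.helper4.Q4G.PB18_8_23
import Vale.Agent.helper4.Q4G.PB18_8_24
import Vale.Agent.helper4.Q4G.PB18_8_25
import Vale.Agent.helper4.Q4G.PB18_8_26
import Vale.Agent.helper4.Q4G.PB18_8_27
import Vale.Agent.helper4.Q4G.PB18_8_28
import Vale.Agent.helper4.Q4G.PB18_8_29
import Vale.Agent.helper4.Q4G.PB18_8_30_0
import Vale.Agent.helper4.Q4G.PB18_8_30_1
import Vale.Agent.helper4.Q4G.PB18_8_30_2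

/-!
Checks for pairs of intervals of second moments.
-/

set_option maxRecDepth 100000
set_option linter.unusedVariables false

namespace Vale.Agent.helper4.Q4

theorem covB18_8 : LB18_8.Full muQ.val RtB18_8 := ⟨(LitT.Cov.split_t (LitT.cov_of_chunkM cB18_8_3_0) (LitT.Cov.split_t (LitT.cov_of_chunkM cB18_8_3_1) (LitT.Cov.split_e (LitT.cov_of_chunkM cB18_8_3_2) (LitT.Cov.split_e (LitT.cov_of_chunkM cB18_8_3_3) (LitT.Cov.split_e (LitT.Cov.split_t (LitT.Cov.split_t (LitT.cov_of_chunkM cB18_8_3_4) (LitT.Cov.split_t (LitT.cov_of_chunkM cB18_8_3_5) (LitT.Cov.split_x (LitT.Cov.split_e (LitT.Cov.split_x (LitT.Cov.split_e (LitT.cov_of_chunkM cB18_8_3_6) (LitT.cov_of_chunkM cB18_8_3_7)) (LitT.cov_of_chunkM cB18_8_3_8)) (LitT.cov_of_chunkM cB18_8_3_9)) (LitT.cov_of_chunkM cB18_8_3_10)))) (LitT.Cov.split_e (LitT.Cov.split_t (LitT.Cov.split_e (LitT.cov_of_chunkM cB18_8_3_11)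 (LitT.Cov.split_x (LitT.Cov.split_t (LitT.Cov.split_e (LitT.Cov.split_x (LitT.Cov.split_t (LitT.cov_of_chunkM cB18_8_3_12) (LitT.cov_of_chunkM cB18_8_3_13)) (LitT.cov_of_chunkM cB18_8_3_14)) (LitT.Cov.split_x (LitT.Cov.split_t (LitT.cov_of_chunkM cB18_8_3_15) (LitT.Cov.split_e (LitT.Cov.split_x (LitT.Cov.split_t (LitT.cov_of_chunkM cB18_8_3_16) (LitT.cov_of_chunkM cB18_8_3_17)) (LitT.cov_of_chunkM cB18_8_3_18)) (LitT.Cov.split_x (LitT.Cov.split_t (LitT.cov_of_chunkM cB18_8_3_19) (LitT.Cov.split_e (LitT.cov_of_chunkM cB18_8_3_20) (LitT.cov_of_chunkM cB18_8_3_21))) (LitT.cov_of_chunkM cB18_8_3_22)))) (LitT.cov_of_chunkM cB18_8_3_23))) (LitT.Cov.split_e (LitT.cov_of_chunkM cB18_8_3_24) (LitT.Cov.split_x (LitT.Cov.split_t (LitT.Cov.split_e (LitT.cov_of_chunkM cB18_8_3_25) (LitT.Cov.split_x (LitT.Cov.split_t (LitT.Cov.split_e (LitT.cov_of_chunkM cB18_8_3_26)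 (LitT.cov_of_chunkM cB18_8_3_27)) (LitT.Cov.split_T (LitT.cov_of_chunkM cB18_8_3_28) (LitT.cov_of_chunkM cB18_8_3_29))) (LitT.cov_of_chunkM cB18_8_3_30))) (LitT.cov_of_chunkM cB18_8_3_31)) (LitT.cov_of_chunkM cB18_8_3_32)))) (LitT.cov_of_chunkM cB18_8_3_33))) (LitT.cov_of_chunkM cB18_8_3_34)) (LitT.Cov.split_t (LitT.Cov.split_e (LitT.Cov.split_x (LitT.Cov.split_t (LitT.cov_of_chunkM cB18_8_3_35) (LitT.Cov.split_e (LitT.Cov.split_x (LitT.Cov.split_t (LitT.Cov.split_e (LitT.Cov.split_x (LitT.Cov.split_t (LitT.Cov.split_e (LitT.cov_of_chunkM cB18_8_3_36) (LitT.cov_of_chunkM cB18_8_3_37)) (LitT.Cov.split_e (LitT.Cov.split_T (LitT.Cov.split_x (LitT.Cov.split_E (LitT.Cov.split_t (LitT.cov_of_chunkM cB18_8_3_38) (LitT.cov_of_chunkM cB18_8_3_39)) (LitT.cov_of_chunkM cB18_8_3_40)) (LitT.cov_of_chunkM cB18_8_3_41)) (LitT.cov_of_chunkM cB18_8_3_42)) (LitT.Cov.split_T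 (LitT.Cov.split_x (LitT.cov_of_chunkM cB18_8_3_43) (LitT.cov_of_chunkM cB18_8_3_44)) (LitT.cov_of_chunkM cB18_8_3_45)))) (LitT.Cov.split_t (LitT.Cov.split_e (LitT.cov_of_chunkM cB18_8_3_46) (LitT.cov_of_chunkM cB18_8_3_47)) (LitT.cov_of_chunkM cB18_8_3_48))) (LitT.Cov.split_x (LitT.cov_of_chunkM cB18_8_3_49) (LitT.Cov.split_t (LitT.cov_of_chunkM cB18_8_3_50) (LitT.Cov.split_e (LitT.Cov.split_T (LitT.cov_of_chunkM cB18_8_3_51) (LitT.cov_of_chunkM cB18_8_3_52)) (LitT.Cov.split_x (LitT.cov_of_chunkM cB18_8_3_53) (LitT.cov_of_chunkM cB18_8_3_54)))))) (LitT.Cov.split_e (LitT.Cov.split_x (LitT.Cov.split_T (LitT.Cov.split_E (LitT.Cov.split_e (LitT.cov_of_chunkM cB18_8_3_55) (LitT.Cov.split_t (LitT.Cov.split_x (LitT.cov_of_chunkM cB18_8_3_56) (LitT.cov_of_chunkM cB18_8_3_57)) (LitT.cov_of_chunkM cB18_8_3_58))) (LitT.cov_of_chunkM cB18_8_3_59)) (LitT.cov_of_chunkM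 cB18_8_3_60)) (LitT.cov_of_chunkM cB18_8_3_61)) (LitT.Cov.split_x (LitT.Cov.split_T (LitT.Cov.split_t (LitT.Cov.split_e (LitT.Cov.split_x (LitT.cov_of_chunkM cB18_8_3_62) (LitT.cov_of_chunkM cB18_8_3_63)) (LitT.cov_of_chunkM cB18_8_3_64)) (LitT.Cov.split_e (LitT.Cov.split_E (LitT.cov_of_chunkM cB18_8_3_65) (LitT.cov_of_chunkM cB18_8_3_66)) (LitT.Cov.split_x (LitT.cov_of_chunkM cB18_8_3_67) (LitT.cov_of_chunkM cB18_8_3_68)))) (LitT.cov_of_chunkM cB18_8_3_69)) (LitT.Cov.split_T (LitT.Cov.split_e (LitT.cov_of_chunkM cB18_8_3_70) (LitT.Cov.split_t (LitT.cov_of_chunkM cB18_8_3_71) (LitT.cov_of_chunkM cB18_8_3_72))) (LitT.cov_of_chunkM cB18_8_3_73))))) (LitT.cov_of_chunkM cB18_8_3_74)) (LitT.Cov.split_x (LitT.Cov.split_t (LitT.cov_of_chunkM cB18_8_3_75) (LitT.Cov.split_e (LitT.Cov.split_x (LitT.cov_of_chunkM cB18_8_3_76) (LitT.Cov.split_t (LitT.Cov.split_e (LitT.Cov.split_T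 (LitT.Cov.split_x (LitT.cov_of_chunkM cB18_8_3_77) (LitT.cov_of_chunkM cB18_8_3_78)) (LitT.cov_of_chunkM cB18_8_3_79)) (LitT.Cov.split_x (LitT.cov_of_chunkM cB18_8_3_80) (LitT.Cov.split_T (LitT.Cov.split_t (LitT.cov_of_chunkM cB18_8_3_81) (LitT.cov_of_chunkM cB18_8_3_82)) (LitT.cov_of_chunkM cB18_8_3_83)))) (LitT.Cov.split_T (LitT.Cov.split_e (LitT.cov_of_chunkM cB18_8_3_84) (LitT.Cov.split_x (LitT.cov_of_chunkM cB18_8_3_85) (LitT.cov_of_chunkM cB18_8_3_86))) (LitT.cov_of_chunkM cB18_8_3_87)))) (LitT.Cov.split_x (LitT.cov_of_chunkM cB18_8_3_88) (LitT.Cov.split_t (LitT.cov_of_chunkM cB18_8_3_89) (LitT.Cov.split_e (LitT.Cov.split_T (LitT.Cov.split_x (LitT.cov_of_chunkM cB18_8_3_90) (LitT.cov_of_chunkM cB18_8_3_91)) (LitT.cov_of_chunkM cB18_8_3_92)) (LitT.cov_of_chunkM cB18_8_3_93)))))) (LitT.Cov.split_t (LitT.Cov.split_e (LitT.cov_of_chunkM cB18_8_3_94) (LitT.cov_of_chunkM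 cB18_8_3_95)) (LitT.Cov.split_e (LitT.Cov.split_x (LitT.Cov.split_t (LitT.Cov.split_e (LitT.cov_of_chunkM cB18_8_3_96) (LitT.cov_of_chunkM cB18_8_3_97)) (LitT.cov_of_chunkM cB18_8_3_98)) (LitT.cov_of_chunkM cB18_8_3_99)) (LitT.Cov.split_x (LitT.Cov.split_t (LitT.Cov.split_e (LitT.Cov.split_x (LitT.cov_of_chunkM cB18_8_3_100) (LitT.cov_of_chunkM cB18_8_3_101)) (LitT.cov_of_chunkM cB18_8_3_102)) (LitT.Cov.split_e (LitT.Cov.split_T (LitT.cov_of_chunkM cB18_8_3_103) (LitT.cov_of_chunkM cB18_8_3_104)) (LitT.Cov.split_x (LitT.Cov.split_T (LitT.Cov.split_t (LitT.cov_of_chunkM cB18_8_3_105) (LitT.cov_of_chunkM cB18_8_3_106)) (LitT.cov_of_chunkM cB18_8_3_107)) (LitT.Cov.split_T (LitT.cov_of_chunkM cB18_8_3_108) (LitT.cov_of_chunkM cB18_8_3_109))))) (LitT.cov_of_chunkM cB18_8_3_110))))))) (LitT.cov_of_chunkM cB18_8_3_111)) (LitT.Cov.split_t (LitT.cov_of_chunkM cB18_8_3_112)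 (LitT.Cov.split_x (LitT.Cov.split_e (LitT.Cov.split_x (LitT.cov_of_chunkM cB18_8_3_113) (LitT.Cov.split_t (LitT.cov_of_chunkM cB18_8_3_114) (LitT.Cov.split_e (LitT.Cov.split_x (LitT.Cov.split_t (LitT.cov_of_chunkM cB18_8_3_115) (LitT.Cov.split_e (LitT.Cov.split_x (LitT.cov_of_chunkM cB18_8_3_116) (LitT.Cov.split_T (LitT.cov_of_chunkM cB18_8_3_117) (LitT.cov_of_chunkM cB18_8_3_118))) (LitT.cov_of_chunkM cB18_8_3_119))) (LitT.Cov.split_t (LitT.cov_of_chunkM cB18_8_3_120) (LitT.Cov.split_e (LitT.cov_of_chunkM cB18_8_3_121) (LitT.Cov.split_x (LitT.cov_of_chunkM cB18_8_3_122) (LitT.cov_of_chunkM cB18_8_3_123))))) (LitT.cov_of_chunkM cB18_8_3_124)))) (LitT.cov_of_chunkM cB18_8_3_125)) (LitT.Cov.split_e (LitT.Cov.split_x (LitT.Cov.split_t (LitT.cov_of_chunkM cB18_8_3_126) (LitT.Cov.split_e (LitT.cov_of_chunkM cB18_8_3_127) (LitT.Cov.split_x (LitT.cov_of_chunkM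 cB18_8_3_128) (LitT.cov_of_chunkM cB18_8_3_129)))) (LitT.cov_of_chunkM cB18_8_3_130)) (LitT.Cov.split_x (LitT.Cov.split_t (LitT.cov_of_chunkM cB18_8_3_131) (LitT.Cov.split_e (LitT.Cov.split_x (LitT.cov_of_chunkM cB18_8_3_132) (LitT.cov_of_chunkM cB18_8_3_133)) (LitT.cov_of_chunkM cB18_8_3_134))) (LitT.Cov.split_t (LitT.cov_of_chunkM cB18_8_3_135) (LitT.Cov.split_t (LitT.cov_of_chunkM cB18_8_3_136) (LitT.Cov.split_e (LitT.cov_of_chunkM cB18_8_3_137) (LitT.Cov.split_x (LitT.Cov.split_e (LitT.cov_of_chunkM cB18_8_3_138) (LitT.cov_of_chunkM cB18_8_3_139)) (LitT.cov_of_chunkM cB18_8_3_140)))))))))) (LitT.Cov.split_e (LitT.Cov.split_t (LitT.Cov.split_x (LitT.Cov.split_e (LitT.cov_of_chunkM cB18_8_3_141) (LitT.Cov.split_x (LitT.Cov.split_t (LitT.Cov.split_e (LitT.Cov.split_x (LitT.cov_of_chunkM cB18_8_3_142) (LitT.cov_of_chunkM cB18_8_3_143)) (LitT.Cov.split_x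 (LitT.cov_of_chunkM cB18_8_3_144) (LitT.Cov.split_T (LitT.Cov.split_e (LitT.Cov.split_t (LitT.Cov.split_x (LitT.cov_of_chunkM cB18_8_3_145) (LitT.cov_of_chunkM cB18_8_3_146)) (LitT.cov_of_chunkM cB18_8_3_147)) (LitT.cov_of_chunkM cB18_8_3_148)) (LitT.cov_of_chunkM cB18_8_3_149)))) (LitT.cov_of_chunkM cB18_8_3_150)) (LitT.cov_of_chunkM cB18_8_3_151))) (LitT.cov_of_chunkM cB18_8_3_152)) (LitT.cov_of_chunkM cB18_8_3_153)) (LitT.Cov.split_x (LitT.Cov.split_t (LitT.Cov.split_e (LitT.Cov.split_x (LitT.cov_of_chunkM cB18_8_3_154) (LitT.Cov.split_t (LitT.Cov.split_e (LitT.Cov.split_x (LitT.Cov.split_t (LitT.Cov.split_e (LitT.Cov.split_T (LitT.Cov.split_x (LitT.cov_of_chunkM cB18_8_3_155) (LitT.cov_of_chunkM cB18_8_3_156)) (LitT.cov_of_chunkM cB18_8_3_157)) (LitT.Cov.split_x (LitT.cov_of_chunkM cB18_8_3_158) (LitT.Cov.split_T (LitT.Cov.split_t (LitT.cov_of_chunkM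 cB18_8_3_159) (LitT.cov_of_chunkM cB18_8_3_160)) (LitT.cov_of_chunkM cB18_8_3_161)))) (LitT.Cov.split_T (LitT.Cov.split_e (LitT.cov_of_chunkM cB18_8_3_162) (LitT.cov_of_chunkM cB18_8_3_163)) (LitT.cov_of_chunkM cB18_8_3_164))) (LitT.cov_of_chunkM cB18_8_3_165)) (LitT.Cov.split_x (LitT.Cov.split_t (LitT.cov_of_chunkM cB18_8_3_166) (LitT.Cov.split_e (LitT.Cov.split_T (LitT.Cov.split_x (LitT.cov_of_chunkM cB18_8_3_167) (LitT.cov_of_chunkM cB18_8_3_168)) (LitT.cov_of_chunkM cB18_8_3_169)) (LitT.cov_of_chunkM cB18_8_3_170))) (LitT.Cov.split_t (LitT.Cov.split_e (LitT.Cov.split_T (LitT.Cov.split_x (LitT.Cov.split_t (LitT.cov_of_chunkM cB18_8_3_171) (LitT.cov_of_chunkM cB18_8_3_172)) (LitT.cov_of_chunkM cB18_8_3_173)) (LitT.cov_of_chunkM cB18_8_3_174)) (LitT.Cov.split_x (LitT.cov_of_chunkM cB18_8_3_175) (LitT.Cov.split_T (LitT.cov_of_chunkM cB18_8_3_176) (LitT.cov_of_chunkM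 cB18_8_3_177)))) (LitT.Cov.split_T (LitT.Cov.split_e (LitT.cov_of_chunkM cB18_8_3_178) (LitT.Cov.split_x (LitT.Cov.split_t (LitT.cov_of_chunkM cB18_8_3_179) (LitT.cov_of_chunkM cB18_8_3_180)) (LitT.cov_of_chunkM cB18_8_3_181))) (LitT.cov_of_chunkM cB18_8_3_182))))) (LitT.cov_of_chunkM cB18_8_3_183))) (LitT.Cov.split_x (LitT.cov_of_chunkM cB18_8_3_184) (LitT.Cov.split_x (LitT.cov_of_chunkM cB18_8_3_185) (LitT.Cov.split_t (LitT.Cov.split_e (LitT.Cov.split_t (LitT.cov_of_chunkM cB18_8_3_186) (LitT.Cov.split_e (LitT.Cov.split_x (LitT.Cov.split_T (LitT.Cov.split_t (LitT.cov_of_chunkM cB18_8_3_187) (LitT.cov_of_chunkM cB18_8_3_188)) (LitT.cov_of_chunkM cB18_8_3_189)) (LitT.Cov.split_T (LitT.Cov.split_t (LitT.Cov.split_e (LitT.cov_of_chunkM cB18_8_3_190) (LitT.cov_of_chunkM cB18_8_3_191)) (LitT.cov_of_chunkM cB18_8_3_192)) (LitT.cov_of_chunkM cB18_8_3_193))) (LitT.Cov.split_x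 (LitT.cov_of_chunkM cB18_8_3_194) (LitT.Cov.split_T (LitT.Cov.split_t (LitT.cov_of_chunkM cB18_8_3_195) (LitT.cov_of_chunkM cB18_8_3_196)) (LitT.cov_of_chunkM cB18_8_3_197))))) (LitT.cov_of_chunkM cB18_8_3_198)) (LitT.Cov.split_e (LitT.Cov.split_T (LitT.Cov.split_e (LitT.cov_of_chunkM cB18_8_3_199) (LitT.Cov.split_t (LitT.Cov.split_x (LitT.cov_of_chunkM cB18_8_3_200) (LitT.Cov.split_e (LitT.cov_of_chunkM cB18_8_3_201) (LitT.cov_of_chunkM cB18_8_3_202))) (LitT.cov_of_chunkM cB18_8_3_203))) (LitT.cov_of_chunkM cB18_8_3_204)) (LitT.Cov.split_x (LitT.cov_of_chunkM cB18_8_3_205) (LitT.Cov.split_t (LitT.Cov.split_e (LitT.cov_of_chunkM cB18_8_3_206) (LitT.cov_of_chunkM cB18_8_3_207)) (LitT.cov_of_chunkM cB18_8_3_208)))))))) (LitT.cov_of_chunkM cB18_8_3_209)) (LitT.Cov.split_t (LitT.Cov.split_e (LitT.cov_of_chunkM cB18_8_3_210) (LitT.Cov.split_x (LitT.Cov.split_t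 (LitT.Cov.split_e (LitT.Cov.split_x (LitT.Cov.split_t (LitT.Cov.split_e (LitT.cov_of_chunkM cB18_8_3_211) (LitT.Cov.split_x (LitT.cov_of_chunkM cB18_8_3_212) (LitT.cov_of_chunkM cB18_8_3_213))) (LitT.Cov.split_e (LitT.cov_of_chunkM cB18_8_3_214) (LitT.Cov.split_T (LitT.Cov.split_x (LitT.Cov.split_t (LitT.cov_of_chunkM cB18_8_3_215) (LitT.cov_of_chunkM cB18_8_3_216)) (LitT.cov_of_chunkM cB18_8_3_217)) (LitT.cov_of_chunkM cB18_8_3_218)))) (LitT.cov_of_chunkM cB18_8_3_219)) (LitT.Cov.split_x (LitT.Cov.split_t (LitT.cov_of_chunkM cB18_8_3_220) (LitT.Cov.split_e (LitT.Cov.split_x (LitT.Cov.split_t (LitT.cov_of_chunkM cB18_8_3_221) (LitT.Cov.split_T (LitT.Cov.split_e (LitT.cov_of_chunkM cB18_8_3_222) (LitT.cov_of_chunkM cB18_8_3_223)) (LitT.cov_of_chunkM cB18_8_3_224))) (LitT.cov_of_chunkM cB18_8_3_225)) (LitT.cov_of_chunkM cB18_8_3_226))) (LitT.Cov.split_t (LitT.Cov.split_e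 (LitT.cov_of_chunkM cB18_8_3_227) (LitT.cov_of_chunkM cB18_8_3_228)) (LitT.cov_of_chunkM cB18_8_3_229)))) (LitT.Cov.split_e (LitT.cov_of_chunkM cB18_8_3_230) (LitT.Cov.split_x (LitT.Cov.split_T (LitT.Cov.split_e (LitT.Cov.split_t (LitT.Cov.split_x (LitT.Cov.split_e (LitT.cov_of_chunkM cB18_8_3_231) (LitT.cov_of_chunkM cB18_8_3_232)) (LitT.cov_of_chunkM cB18_8_3_233)) (LitT.cov_of_chunkM cB18_8_3_234)) (LitT.Cov.split_t (LitT.Cov.split_x (LitT.Cov.split_t (LitT.cov_of_chunkM cB18_8_3_235) (LitT.cov_of_chunkM cB18_8_3_236)) (LitT.Cov.split_e (LitT.cov_of_chunkM cB18_8_3_237) (LitT.cov_of_chunkM cB18_8_3_238))) (LitT.cov_of_chunkM cB18_8_3_239))) (LitT.cov_of_chunkM cB18_8_3_240)) (LitT.cov_of_chunkM cB18_8_3_241)))) (LitT.cov_of_chunkM cB18_8_3_242))) (LitT.cov_of_chunkM cB18_8_3_243))))))) (LitT.Cov.split_t (LitT.cov_of_chunkM cB18_8_3_244) (LitT.Cov.split_e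 (LitT.Cov.split_x (LitT.cov_of_chunkM cB18_8_3_245) (LitT.Cov.split_t (LitT.cov_of_chunkM cB18_8_3_246) (LitT.Cov.split_e (LitT.Cov.split_t (LitT.Cov.split_e (LitT.Cov.split_x (LitT.Cov.split_t (LitT.Cov.split_e (LitT.Cov.split_x (LitT.cov_of_chunkM cB18_8_3_247) (LitT.Cov.split_t (LitT.cov_of_chunkM cB18_8_3_248) (LitT.Cov.split_e (LitT.cov_of_chunkM cB18_8_3_249) (LitT.cov_of_chunkM cB18_8_3_250)))) (LitT.cov_of_chunkM cB18_8_3_251)) (LitT.Cov.split_e (LitT.Cov.split_x (LitT.Cov.split_t (LitT.Cov.split_e (LitT.Cov.split_x (LitT.cov_of_chunkM cB18_8_3_252) (LitT.Cov.split_T (LitT.Cov.split_t (LitT.cov_of_chunkM cB18_8_3_253) (LitT.Cov.split_e (LitT.cov_of_chunkM cB18_8_3_254) (LitT.cov_of_chunkM cB18_8_3_255))) (LitT.cov_of_chunkM cB18_8_3_256))) (LitT.cov_of_chunkM cB18_8_3_257)) (LitT.Cov.split_e (LitT.Cov.split_T (LitT.Cov.split_x (LitT.cov_of_chunkM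 cB18_8_3_258) (LitT.cov_of_chunkM cB18_8_3_259)) (LitT.cov_of_chunkM cB18_8_3_260)) (LitT.Cov.split_x (LitT.cov_of_chunkM cB18_8_3_261) (LitT.Cov.split_T (LitT.Cov.split_t (LitT.cov_of_chunkM cB18_8_3_262) (LitT.cov_of_chunkM cB18_8_3_263)) (LitT.cov_of_chunkM cB18_8_3_264))))) (LitT.Cov.split_t (LitT.Cov.split_e (LitT.cov_of_chunkM cB18_8_3_265) (LitT.Cov.split_x (LitT.cov_of_chunkM cB18_8_3_266) (LitT.cov_of_chunkM cB18_8_3_267))) (LitT.cov_of_chunkM cB18_8_3_268))) (LitT.Cov.split_x (LitT.cov_of_chunkM cB18_8_3_269) (LitT.Cov.split_t (LitT.cov_of_chunkM cB18_8_3_270) (LitT.Cov.split_e (LitT.Cov.split_T (LitT.Cov.split_x (LitT.Cov.split_t (LitT.cov_of_chunkM cB18_8_3_271) (LitT.cov_of_chunkM cB18_8_3_272)) (LitT.cov_of_chunkM cB18_8_3_273)) (LitT.cov_of_chunkM cB18_8_3_274)) (LitT.Cov.split_x (LitT.cov_of_chunkM cB18_8_3_275) (LitT.cov_of_chunkM cB18_8_3_276)))))))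 (LitT.Cov.split_t (LitT.Cov.split_e (LitT.Cov.split_x (LitT.Cov.split_t (LitT.Cov.split_e (LitT.cov_of_chunkM cB18_8_3_277) (LitT.cov_of_chunkM cB18_8_3_278)) (LitT.cov_of_chunkM cB18_8_3_279)) (LitT.cov_of_chunkM cB18_8_3_280)) (LitT.Cov.split_x (LitT.Cov.split_t (LitT.cov_of_chunkM cB18_8_3_281) (LitT.Cov.split_e (LitT.cov_of_chunkM cB18_8_3_282) (LitT.cov_of_chunkM cB18_8_3_283))) (LitT.Cov.split_t (LitT.cov_of_chunkM cB18_8_3_284) (LitT.Cov.split_e (LitT.cov_of_chunkM cB18_8_3_285) (LitT.cov_of_chunkM cB18_8_3_286))))) (LitT.Cov.split_e (LitT.cov_of_chunkM cB18_8_3_287) (LitT.Cov.split_x (LitT.Cov.split_t (LitT.Cov.split_e (LitT.cov_of_chunkM cB18_8_3_288) (LitT.Cov.split_x (LitT.cov_of_chunkM cB18_8_3_289) (LitT.cov_of_chunkM cB18_8_3_290))) (LitT.cov_of_chunkM cB18_8_3_291)) (LitT.cov_of_chunkM cB18_8_3_292))))) (LitT.Cov.split_x (LitT.cov_of_chunkM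 cB18_8_3_293) (LitT.Cov.split_t (LitT.Cov.split_e (LitT.Cov.split_x (LitT.cov_of_chunkM cB18_8_3_294) (LitT.Cov.split_t (LitT.cov_of_chunkM cB18_8_3_295) (LitT.Cov.split_e (LitT.Cov.split_x (LitT.cov_of_chunkM cB18_8_3_296) (LitT.cov_of_chunkM cB18_8_3_297)) (LitT.cov_of_chunkM cB18_8_3_298)))) (LitT.cov_of_chunkM cB18_8_3_299)) (LitT.Cov.split_e (LitT.Cov.split_x (LitT.Cov.split_t (LitT.Cov.split_e (LitT.cov_of_chunkM cB18_8_3_300) (LitT.cov_of_chunkM cB18_8_3_301)) (LitT.Cov.split_e (LitT.cov_of_chunkM cB18_8_3_302) (LitT.cov_of_chunkM cB18_8_3_303))) (LitT.Cov.split_t (LitT.Cov.split_e (LitT.cov_of_chunkM cB18_8_3_304) (LitT.cov_of_chunkM cB18_8_3_305)) (LitT.cov_of_chunkM cB18_8_3_306))) (LitT.Cov.split_x (LitT.cov_of_chunkM cB18_8_3_307) (LitT.Cov.split_t (LitT.Cov.split_e (LitT.cov_of_chunkM cB18_8_3_308) (LitT.cov_of_chunkM cB18_8_3_309)) (LitT.Cov.split_e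 (LitT.cov_of_chunkM cB18_8_3_310) (LitT.cov_of_chunkM cB18_8_3_311)))))))) (LitT.Cov.split_e (LitT.Cov.split_t (LitT.Cov.split_x (LitT.Cov.split_t (LitT.Cov.split_e (LitT.cov_of_chunkM cB18_8_3_312) (LitT.Cov.split_x (LitT.cov_of_chunkM cB18_8_3_313) (LitT.cov_of_chunkM cB18_8_3_314))) (LitT.cov_of_chunkM cB18_8_3_315)) (LitT.cov_of_chunkM cB18_8_3_316)) (LitT.cov_of_chunkM cB18_8_3_317)) (LitT.Cov.split_x (LitT.Cov.split_x (LitT.cov_of_chunkM cB18_8_3_318) (LitT.Cov.split_e (LitT.Cov.split_t (LitT.Cov.split_t (LitT.Cov.split_e (LitT.Cov.split_T (LitT.Cov.split_x (LitT.cov_of_chunkM cB18_8_3_319) (LitT.Cov.split_t (LitT.cov_of_chunkM cB18_8_3_320) (LitT.cov_of_chunkM cB18_8_3_321))) (LitT.cov_of_chunkM cB18_8_3_322)) (LitT.cov_of_chunkM cB18_8_3_323)) (LitT.cov_of_chunkM cB18_8_3_324)) (LitT.cov_of_chunkM cB18_8_3_325)) (LitT.cov_of_chunkM cB18_8_3_326)))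 (LitT.Cov.split_t (LitT.Cov.split_e (LitT.Cov.split_x (LitT.Cov.split_T (LitT.Cov.split_e (LitT.cov_of_chunkM cB18_8_3_327) (LitT.Cov.split_t (LitT.Cov.split_x (LitT.cov_of_chunkM cB18_8_3_328) (LitT.cov_of_chunkM cB18_8_3_329)) (LitT.cov_of_chunkM cB18_8_3_330))) (LitT.cov_of_chunkM cB18_8_3_331)) (LitT.cov_of_chunkM cB18_8_3_332)) (LitT.Cov.split_x (LitT.Cov.split_t (LitT.Cov.split_e (LitT.Cov.split_T (LitT.Cov.split_x (LitT.cov_of_chunkM cB18_8_3_333) (LitT.cov_of_chunkM cB18_8_3_334)) (LitT.cov_of_chunkM cB18_8_3_335)) (LitT.cov_of_chunkM cB18_8_3_336)) (LitT.Cov.split_T (LitT.Cov.split_e (LitT.cov_of_chunkM cB18_8_3_337) (LitT.cov_of_chunkM cB18_8_3_338)) (LitT.cov_of_chunkM cB18_8_3_339))) (LitT.cov_of_chunkM cB18_8_3_340))) (LitT.cov_of_chunkM cB18_8_3_341))))) (LitT.Cov.split_x (LitT.cov_of_chunkM cB18_8_3_342) (LitT.Cov.split_t (LitT.cov_of_chunkM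 cB18_8_3_343) (LitT.Cov.split_e (LitT.Cov.split_t (LitT.Cov.split_e (LitT.Cov.split_x (LitT.Cov.split_x (LitT.cov_of_chunkM cB18_8_3_344) (LitT.Cov.split_t (LitT.cov_of_chunkM cB18_8_3_345) (LitT.Cov.split_e (LitT.cov_of_chunkM cB18_8_3_346) (LitT.cov_of_chunkM cB18_8_3_347)))) (LitT.Cov.split_t (LitT.cov_of_chunkM cB18_8_3_348) (LitT.Cov.split_T (LitT.Cov.split_e (LitT.cov_of_chunkM cB18_8_3_349) (LitT.cov_of_chunkM cB18_8_3_350)) (LitT.cov_of_chunkM cB18_8_3_351)))) (LitT.Cov.split_x (LitT.cov_of_chunkM cB18_8_3_352) (LitT.Cov.split_t (LitT.cov_of_chunkM cB18_8_3_353) (LitT.cov_of_chunkM cB18_8_3_354)))) (LitT.Cov.split_x (LitT.cov_of_chunkM cB18_8_3_355) (LitT.Cov.split_t (LitT.Cov.split_e (LitT.cov_of_chunkM cB18_8_3_356) (LitT.Cov.split_T (LitT.Cov.split_e (LitT.cov_of_chunkM cB18_8_3_357) (LitT.cov_of_chunkM cB18_8_3_358)) (LitT.cov_of_chunkM cB18_8_3_359)))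 (LitT.cov_of_chunkM cB18_8_3_360)))) (LitT.cov_of_chunkM cB18_8_3_361))))))) (LitT.cov_of_chunkM cB18_8_3_362)))))))), (LitT.Cov.split_t (LitT.cov_of_chunkM cB18_8_1_0) (LitT.Cov.split_E (LitT.Cov.split_E (LitT.Cov.split_E (LitT.Cov.split_E (LitT.Cov.split_E (LitT.Cov.split_t (LitT.cov_of_chunkM cB18_8_1_1) (LitT.Cov.split_e (LitT.cov_of_chunkM cB18_8_1_2) (LitT.Cov.split_T (LitT.Cov.split_T (LitT.Cov.split_T (LitT.Cov.split_T (LitT.Cov.split_T (LitT.Cov.split_T (LitT.Cov.split_X (LitT.Cov.split_E (LitT.Cov.split_E (LitT.Cov.split_X (LitT.Cov.split_T (LitT.Cov.split_T (LitT.Cov.split_E (LitT.Cov.split_E (LitT.Cov.split_X (LitT.Cov.split_T (LitT.Cov.split_T (LitT.Cov.split_E (LitT.Cov.split_E (LitT.Cov.split_X (LitT.Cov.split_T (LitT.Cov.split_T (LitT.Cov.split_E (LitT.Cov.split_X (LitT.Cov.split_X (LitT.Cov.split_e (LitT.cov_of_chunkM cB18_8_1_3) (LitT.Cov.split_e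 (LitT.Cov.split_t (LitT.cov_of_chunkM cB18_8_1_4) (LitT.Cov.split_e (LitT.cov_of_chunkM cB18_8_1_5) (LitT.Cov.split_t (LitT.Cov.split_e (LitT.Cov.split_x (LitT.Cov.split_t (LitT.cov_of_chunkM cB18_8_1_6) (LitT.Cov.split_e (LitT.Cov.split_x (LitT.Cov.split_t (LitT.cov_of_chunkM cB18_8_1_7) (LitT.cov_of_chunkM cB18_8_1_8)) (LitT.cov_of_chunkM cB18_8_1_9)) (LitT.cov_of_chunkM cB18_8_1_10))) (LitT.cov_of_chunkM cB18_8_1_11)) (LitT.cov_of_chunkM cB18_8_1_12)) (LitT.Cov.split_e (LitT.cov_of_chunkM cB18_8_1_13) (LitT.Cov.split_x (LitT.Cov.split_t (LitT.Cov.split_e (LitT.cov_of_chunkM cB18_8_1_14) (LitT.cov_of_chunkM cB18_8_1_15)) (LitT.cov_of_chunkM cB18_8_1_16)) (LitT.cov_of_chunkM cB18_8_1_17)))))) (LitT.Cov.split_t (LitT.cov_of_chunkM cB18_8_1_18) (LitT.Cov.split_e (LitT.Cov.split_x (LitT.cov_of_chunkM cB18_8_1_19) (LitT.Cov.split_t (LitT.cov_of_chunkM cB18_8_1_20)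 (LitT.Cov.split_e (LitT.Cov.split_t (LitT.cov_of_chunkM cB18_8_1_21) (LitT.cov_of_chunkM cB18_8_1_22)) (LitT.cov_of_chunkM cB18_8_1_23)))) (LitT.cov_of_chunkM cB18_8_1_24))))) (LitT.cov_of_chunkM cB18_8_1_25)) (LitT.cov_of_chunkM cB18_8_1_26)) (LitT.cov_of_chunkM cB18_8_1_27)) (LitT.cov_of_chunkM cB18_8_1_28)) (LitT.cov_of_chunkM cB18_8_1_29)) (LitT.cov_of_chunkM cB18_8_1_30)) (LitT.cov_of_chunkM cB18_8_1_31)) (LitT.cov_of_chunkM cB18_8_1_32)) (LitT.cov_of_chunkM cB18_8_1_33)) (LitT.cov_of_chunkM cB18_8_1_34)) (LitT.cov_of_chunkM cB18_8_1_35)) (LitT.cov_of_chunkM cB18_8_1_36)) (LitT.cov_of_chunkM cB18_8_1_37)) (LitT.cov_of_chunkM cB18_8_1_38)) (LitT.cov_of_chunkM cB18_8_1_39)) (LitT.cov_of_chunkM cB18_8_1_40)) (LitT.cov_of_chunkM cB18_8_1_41)) (LitT.cov_of_chunkM cB18_8_1_42)) (LitT.cov_of_chunkM cB18_8_1_43)) (LitT.cov_of_chunkM cB18_8_1_44)) (LitT.cov_of_chunkM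 cB18_8_1_45)) (LitT.cov_of_chunkM cB18_8_1_46)) (LitT.cov_of_chunkM cB18_8_1_47)) (LitT.cov_of_chunkM cB18_8_1_48)) (LitT.cov_of_chunkM cB18_8_1_49)))) (LitT.cov_of_chunkM cB18_8_1_50)) (LitT.cov_of_chunkM cB18_8_1_51)) (LitT.cov_of_chunkM cB18_8_1_52)) (LitT.cov_of_chunkM cB18_8_1_53)) (LitT.cov_of_chunkM cB18_8_1_54))), (LitT.cov_of_chunkM cB18_8_2_0), (LitT.cov_of_chunkM cB18_8_0_0)⟩

end Vale.Agent.helper4.Q4
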