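import Vale.Agent.helper4.Q4TreeM
import Vale.Agent.helper4.Q4G.PB18_9

/-!
Checks for pairs of intervals of second moments.
-/

set_option maxRecDepth 100000
set_option linter.unusedVariables false

namespace Vale.Agent.helper4.Q4

theorem cB18_9_3_0 : chunkOkM (LB18_9.ctx true true 103 1 1 1 1 1 1 1 1) muQ true true 64 RtB18_9.Cx RtB18_9.CX RtB18_9.Ctp.left RtB18_9.Ce RtB18_9.CTp RtB18_9.CEr 0x41 = true := by decide +kernel

theorem cB18_9_3_1 : chunkOkM (LB18_9.ctx true true 103 1 1 1 1 1 1 1 1) muQ true true 64 RtB18_9.Cx RtB18_9.CX RtB18_9.Ctp.right.left RtB18_9.Ce RtB18_9.CTp RtB18_9.CEr 0x41 = true := by decide +kernel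

theorem cB18_9_3_2 : chunkOkM (LB18_9.ctx true true 103 1 1 1 1 1 1 1 1) muQ true true 64 RtB18_9.Cx RtB18_9.CX RtB18_9.Ctp.right.right RtB18_9.Ce.left RtB18_9.CTp RtB18_9.CEr 0x11 = true := by decide +kernel

theorem cB18_9_3_3 : chunkOkM (LB18_9.ctx true true 220 17 8 11 16 49 65 32 32) muQ true true 64 RtB18_9.Cx RtB18_9.CX RtB18_9.Ctp.right.right RtB18_9.Ce.right.left RtB18_9.CTp RtB18_9.CEr 0x2589b8238fd5ca4ab6ab280451fe8f8180a348106dbf41f4529a5a6af150d = true := by decide +kernel

theorem cB18_9_3_4 : chunkOkM (LB18_9.ctx true true 103 1 1 1 1 1 1 1 1) muQ true true 64 RtB18_9.Cx RtB18_9.CX RtB18_9.Ctp.right.right.left.left RtB18_9.Ce.right.right.left RtB18_9.CTp RtB18_9.CEr 0x49 = true := by decide +kernel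

theorem cB18_9_3_5 : chunkOkM (LB18_9.ctx true true 103 1 1 1 1 1 1 1 1) muQ true true 64 RtB18_9.Cx RtB18_9.CX RtB18_9.Ctp.right.right.left.right.left RtB18_9.Ce.right.right.left RtB18_9.CTp RtB18_9.CEr 0x49 = true := by decide +kernel

theorem cB18_9_3_6 : chunkOkM (LB18_9.ctx true true 257 65 32 11 16 385 1261 32 32) muQ true true 64 RtB18_9.Cx.left.left RtB18_9.CX RtB18_9.Ctp.right.right.left.right.right RtB18_9.Ce.right.right.left.left.left.left RtB18_9.CTp RtB18_9.CEr 0x4ace54076ce4a37869b31322468eeaf65d8b0f8f05af440d = true := by decide +kernel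

theorem cB18_9_3_7 : chunkOkM (LB18_9.ctx true true 282 65 32 21 32 777 2587 256 64) muQ true true 64 RtB18_9.Cx.left.left RtB18_9.CX RtB18_9.Ctp.right.right.left.right.right RtB18_9.Ce.right.right.left.left.left.right RtB18_9.CTp.left RtB18_9.CEr 0x4a6cd189e7fd6fc426f28f6119d7166b9f51057a60c8f440d12e943898fd8988b769b78ecaa8a8f611d789f249f5259ddf778f450d679852957fd63a14e69b2e261ff7f8603709cf8f610ace17189f550d477799e87fd422e9f69b3ed75287f85ea87ec28f611b8d4d669f5e3c2f4d78f460d34a58425 = true := by decide +kernel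

theorem cB18_9_3_8 : chunkOkM (LB18_9.ctx true true 295 513 256 11 16 3073 2561 64 64) muQ true true 64 RtB18_9.Cx.left.left RtB18_9.CX RtB18_9.Ctp.right.right.left.right.right.left RtB18_9.Ce.right.right.left.left.left.right RtB18_9.CTp.right RtB18_9.CEr 0x4949495942bc8e87fdb4241765c148011d7b9f6164ad52a69f540d136a83b08fd94cbd3f48f6141c7cab49f530d64777493493 = true := by decide +kernel

theorem cB18_9_3_9 : chunkOkM (LB18_9.ctx true true 280 131 64 11 16 1561 2587 64 64) muQ true true 64 RtB18_9.Cx.left.left RtB18_9.CX RtB18_9.Ctp.right.right.left.right.right.right RtB18_9.Ce.right.right.left.left.left.right RtB18_9.CTp.right RtB18_9.CEr 0xab6d1eb7fd9df8d647f8d492a0f4a9f61d1a6db5acaf440d3db58737fd29679666c64f0c9de8f6fced58b08f540d1bb62b4d8fd6ff7a5c08f61133542209f530d64a9e27c7fd288e84e75c7fb70b248f610fe94a169f556d6642b8f450d1568036b8fd1435ac8229f6189c134679f530d6373a302e97fd10bda066c8a640eda8f61089200569f540d10b7057d8f06c64 = true := by decide +kernel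

theorem cB18_9_3_10 : chunkOkM (LB18_9.ctx true true 259 65 32 11 16 763 1313 32 32) muQ true true 64 RtB18_9.Cx.left.left RtB18_9.CX RtB18_9.Ctp.right.right.left.right.right.left RtB18_9.Ce.right.right.left.left.right.left RtB18_9.CTp RtB18_9.CEr 0x22f9ac276cb5151a6479f523e95f1363af430d = true := by decide +kernel

theorem cB18_9_3_11 : chunkOkM (LB18_9.ctx true true 285 131 64 21 32 777 2639 256 32) muQ true true 64 RtB18_9.Cx.left.left RtB18_9.CX RtB18_9.Ctp.right.right.left.right.right.right RtB18_9.Ce.right.right.left.left.right.left RtB18_9.CTp.left RtB18_9.CEr 0x4a63091ee7fd94413369b36665777f850426c438f613f5b93999f55be50f778f460d645bd057fd7d3da369b37b9b887f815bfb80af9f616b613a0b9f57ae85b1a8f460d744508e7fd41815869b2511e3f7f8117164f109f616c54fb329f550d7484a5425 = true := by decide +kernel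

theorem cB18_9_3_12 : chunkOkM (LB18_9.ctx true true 292 261 128 11 16 3101 5213 64 64) muQ true true 64 RtB18_9.Cx.left.left RtB18_9.CX RtB18_9.Ctp.right.right.left.right.right.right RtB18_9.Ce.right.right.left.left.right.left.left RtB18_9.CTp.right RtB18_9.CEr 0x493bab2a07fd219106775c5c9db9318f611b644c3e9f53c1553e38f450d1116d6358fdbac0d5b98f6135d7ca3b9f546cdb8588f440d6749343aa34e7fd22e7af475c818c92e08f612c5e5fa19f540d144a08208fd86a3479d8f612dd0c50f9f530d659365f8287fd123827775c2cc3cc37e9f62508a47da9f511fe115c19f450d115cded28fd341906be8f61202970a69f526f44f6d8f440d6493597437 = true := by decide +kernel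

theorem cB18_9_3_13 : chunkOkM (LB18_9.ctx true true 334 2079 1024 11 16 25081 84045 64 64) muQ true true 64 RtB18_9.Cx.left.left RtB18_9.CX RtB18_9.Ctp.right.right.left.right.right.right RtB18_9.Ce.right.right.left.left.right.left.right RtB18_9.CTp.right RtB18_9.CEr 0x49592dee66d7fd1044f0075c151aa64b39f617231de0c9f542afcfb28f450d106331498fdc7b363518f6149ce7d159f5218537408f440d64759595959593d62cc17f06c2694fb0b8f01c6459359745935974593597459359747a490b717f87099fc69c9f5128e4d321aaf430d3 = true := by decide +kernel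

theorem cB18_9_3_14 : chunkOkM (LB18_9.ctx true true 103 1 1 1 1 1 1 1 1) muQ true true 64 RtB18_9.Cx.left.left RtB18_9.CX RtB18_9.Ctp.right.right.left.right.right RtB18_9.Ce.right.right.left.left.right.right RtB18_9.CTp RtB18_9.CEr 0x59 = true := by decide +kernel

theorem cB18_9_3_15 : chunkOkM (LB18_9.ctx true true 103 1 1 1 1 1 1 1 1) muQ true true 64 RtB18_9.Cx.left.right RtB18_9.CX RtB18_9.Ctp.right.right.left.right.right RtB18_9.Ce.right.right.left.left RtB18_9.CTp RtB18_9.CEr 0x49 = true := by decide +kernel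

theorem cB18_9_3_16 : chunkOkM (LB18_9.ctx true true 103 1 1 1 1 1 1 1 1) muQ true true 64 RtB18_9.Cx.left RtB18_9.CX RtB18_9.Ctp.right.right.left.right.right RtB18_9.Ce.right.right.left.right RtB18_9.CTp RtB18_9.CEr 0x59 = true := by decide +kernel

theorem cB18_9_3_17 : chunkOkM (LB18_9.ctx true true 103 1 1 1 1 1 1 1 1) muQ true true 64 RtB18_9.Cx.right RtB18_9.CX RtB18_9.Ctp.right.right.left.right.right RtB18_9.Ce.right.right.left RtB18_9.CTp RtB18_9.CEr 0x49 = true := by decide +kernel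

theorem cB18_9_3_18 : chunkOkM (LB18_9.ctx true true 103 1 1 1 1 1 1 1 1) muQ true true 64 RtB18_9.Cx RtB18_9.CX RtB18_9.Ctp.right.right.right.left RtB18_9.Ce.right.right.left.left.left RtB18_9.CTp RtB18_9.CEr 0x69 = true := by decide +kernel

theorem cB18_9_3_19 : chunkOkM (LB18_9.ctx true true 289 131 64 21 32 805 2639 256 64) muQ true true 64 RtB18_9.Cx.left RtB18_9.CX RtB18_9.Ctp.right.right.right.left.left RtB18_9.Ce.right.right.left.left.right.left RtB18_9.CTp.left RtB18_9.CEr 0x4a24301eee09f04b13618d178fdcd742366c7029759b79a2b3578f6dceb74d98f550d1bdee47c8fd10f895176c12847e6a99f6e095ec408f540d6694699525d7fd72928969b1c64cc37f811e17b8d39f614ac73d969f550d58537b6a8fd5126bbc76c2548bece8f6e1f934de8f540df5aad0e7fd27f300b7f8365b46ee49f618906d29e9f540d671ac4fb668fd10dfa2076c2efaa069ba1fd34f18f61040035dd9f550dfbfbf817fd3dfbe537f810a90854c9f6124e5cc199f540d643784a5425 = true := by decide +kernel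

theorem cB18_9_3_20 : chunkOkM (LB18_9.ctx true true 275 129 64 11 16 791 2613 64 64) muQ true true 64 RtB18_9.Cx.left.left RtB18_9.CX RtB18_9.Ctp.right.right.right.left.left.left RtB18_9.Ce.right.right.left.left.right.left.left RtB18_9.CTp.right RtB18_9.CEr 0x6955dd1227fd69c54066c87bb93638f6e751e2558f540d2469996a8fdb8aacdb88f61087b39cc9f530d67 = true := by decide +kernel

theorem cB18_9_3_21 : chunkOkM (LB18_9.ctx true true 279 131 64 11 16 1589 2639 64 64) muQ true true 64 RtB18_9.Cx.left.left RtB18_9.CX RtB18_9.Ctp.right.right.right.left.left.left RtB18_9.Ce.right.right.left.left.right.left.right RtB18_9.CTp.right RtB18_9.CEr 0x625a70f7fd1f90b866cafa183128f530dd6d56187f06c642761637fd2bd42766cb393f1428f6131aea9449f540d2b7ea8528fd10a076a649f511e33577f430d6357e53c87fd691da0375c31a052d48f6d3bdc1368f540dedf57697fd6af1e4e68f6f7ae53238f530d637b66d37fd466ebfe75cf9f4f77e8f612fe80ca89f540deb357b27fd7cee1f138f61189e567b9f530d637 = true := by decide +kernel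

theorem cB18_9_3_22 : chunkOkM (LB18_9.ctx true true 269 65 32 11 16 805 2639 64 64) muQ true true 64 RtB18_9.Cx.left.left RtB18_9.CX RtB18_9.Ctp.right.right.right.left.left.right RtB18_9.Ce.right.right.left.left.right.left RtB18_9.CTp.right RtB18_9.CEr 0x618c6177fd8dd4cf66ccb0626e68f6c877611c8f540d2ba9398e8fdb141ea838f6da5602da8f530d6694 = true := by decide +kernel

theorem cB18_9_3_23 : chunkOkM (LB18_9.ctx true true 261 67 32 11 16 399 1313 64 32) muQ true true 64 RtB18_9.Cx.left.right RtB18_9.CX RtB18_9.Ctp.right.right.right.left.left RtB18_9.Ce.right.right.left.left.right.left RtB18_9.CTp.right RtB18_9.CEr 0x19e16e668fd27d771be8f91193abad21af6373a1919f9af440d = true := by decide +kernel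

theorem cB18_9_3_24 : chunkOkM (LB18_9.ctx true true 103 1 1 1 1 1 1 1 1) muQ true true 64 RtB18_9.Cx.left RtB18_9.CX RtB18_9.Ctp.right.right.right.left.left RtB18_9.Ce.right.right.left.left.right.right RtB18_9.CTp.left.left RtB18_9.CEr 0x42 = true := by decide +kernel

theorem cB18_9_3_25 : chunkOkM (LB18_9.ctx true true 103 1 1 1 1 1 1 1 1) muQ true true 64 RtB18_9.Cx.left RtB18_9.CX RtB18_9.Ctp.right.right.right.left.left RtB18_9.Ce.right.right.left.left.right.right RtB18_9.CTp.left.right.left RtB18_9.CEr 0x4a = true := by decide +kernel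

end Vale.Agent.helper4.Q4
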