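import Vale.Agent.helper4.Q4TreeM
import Vale.Agent.helper4.Q4G.PB18_9

/-!
Checks for pairs of intervals of second moments.
-/

set_option maxRecDepth 100000
set_option linter.unusedVariables false

namespace Vale.Agent.helper4.Q4

theorem cB18_9_3_26 : chunkOkM (LB18_9.ctx true true 289 131 64 21 32 1589 2691 256 32) muQ true true 64 RtB18_9.Cx.left.left RtB18_9.CX.left RtB18_9.Ctp.right.right.right.left.left.left RtB18_9.Ce.right.right.left.left.right.right RtB18_9.CTp.left.right.right RtB18_9.CEr 0x5a140867fd6b0f0269b1b457277f81002abc139f6154f30d439f550d643b6107fd828c1a69bf95c686f83bfce07a8f610b0a1b2d9f550d6341df67fd5664c369b287c2f07f88049f68e8f6136590eed9f51de9522a8f460d3698ee4e7fd2170e56c47321569bfaedc3558f612ae4c2469f550d74 = true := by decide +kernel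

theorem cB18_9_3_27 : chunkOkM (LB18_9.ctx true true 288 131 64 21 32 805 2691 256 64) muQ true true 64 RtB18_9.Cx.left.left RtB18_9.CX.left RtB18_9.Ctp.right.right.right.left.left.right RtB18_9.Ce.right.right.left.left.right.right RtB18_9.CTp.left.right.right RtB18_9.CEr 0xf8f1926fd137cf1e385c126f7dbb8f6e6cfd1e28f540ddb8b5f57fd15283669b221765f87436642d8f6f307cb1a8f550d68e870bd7fdab65ae66c7b8559718f6ce87a5db8f540ddb6a6777fd54561266c7d2f0869b46d29bec8f6e47ab2548f550d672ddba19b8fd21be37f76c890718aa8f6cac488448f540dbac02ff7fd1e615be7f890b897038f6d5b276c88f540d64 = true := by decide +kernel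

theorem cB18_9_3_28 : chunkOkM (LB18_9.ctx true true 280 67 32 21 32 1589 1339 256 32) muQ true true 64 RtB18_9.Cx.left.right RtB18_9.CX.left RtB18_9.Ctp.right.right.right.left.left RtB18_9.Ce.right.right.left.left.right.right RtB18_9.CTp.left.right.right RtB18_9.CEr 0x5fb2e0a7fd50747e69bda8a1f6f889ff06838f6109e7252e9f550d593a2e47fd751eb469b29af6477f8679907288f611eef82039f54d3cff178f460d4933 = true := by decide +kernel

theorem cB18_9_3_29 : chunkOkM (LB18_9.ctx true true 103 1 1 1 1 1 1 1 1) muQ true true 64 RtB18_9.Cx.left RtB18_9.CX.right RtB18_9.Ctp.right.right.right.left.left RtB18_9.Ce.right.right.left.left.right.right RtB18_9.CTp.left.right.right RtB18_9.CEr 0x4a = true := by decide +kernel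

theorem cB18_9_3_30 : chunkOkM (LB18_9.ctx true true 302 527 256 11 16 3157 10673 64 64) muQ true true 64 RtB18_9.Cx.left.left RtB18_9.CX RtB18_9.Ctp.right.right.right.left.left.left RtB18_9.Ce.right.right.left.left.right.right.left RtB18_9.CTp.right RtB18_9.CEr 0x4c9a0647fd42cc21075cfcac38468f6137d784919f540d15e98e3c8fd1188fd6a85c79ba55658f611a54588d9f540d6592abc5ce7fdf0ede065c3baf65aaf9f62291f8a709f540d14f986e88fdf73aee175ca50241c58f613d0006209f51ef2aa168f450d659745935974166d987fd13d655375c73ac93fe8f61347c72cb9f52e03003b8f450decfc1b47fdf8d226238f615c53fb779f530d643594e5f9107fd50360f975c32e09ab58f6e2a909f58f540d15de31068fd428ea5a98f6fba278bd8f530d645937 = true := by decide +kernel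

theorem cB18_9_3_31 : chunkOkM (LB18_9.ctx true true 288 263 128 11 16 1589 5369 64 64) muQ true true 64 RtB18_9.Cx.left.left RtB18_9.CX RtB18_9.Ctp.right.right.right.left.left.left RtB18_9.Ce.right.right.left.left.right.right.right RtB18_9.CTp.right RtB18_9.CEr 0x5938dbbfb7fd2b7143b75c157a660999f616098a4769f540ddde588e7fd207c75475cfbc6576b8f614569d4a79f540d65974593597 = true := by decide +kernel

theorem cB18_9_3_32 : chunkOkM (LB18_9.ctx true true 297 259 128 11 16 3241 5343 128 64) muQ true true 64 RtB18_9.Cx.left.left.left RtB18_9.CX RtB18_9.Ctp.right.right.right.left.left.right RtB18_9.Ce.right.right.left.left.right.right.left RtB18_9.CTp.right RtB18_9.CEr 0x5ed26967fd776fd1e75c156a9f0569f6dbd7f3848f540d38856d67fd99cf1765c681683088f6c3195d2c8f540d82c945f7fdaef202775c1094b3bbf9f6aa4a42b48f540d564431ac7fd891c96f75c45502d7d8f6c1d5e0d98f540d3765e2af87fd8bf1a0b75c14f59e1319f6bfc81d868f540d45f6fe517fd7edb14375ccd64edbb8f6e020d5ad8f540d3a81d2c47fd7238ace88f6d73166098f530d6 = true := by decide +kernel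

theorem cB18_9_3_33 : chunkOkM (LB18_9.ctx true true 275 131 64 11 16 805 2665 64 64) muQ true true 64 RtB18_9.Cx.left.left.right RtB18_9.CX RtB18_9.Ctp.right.right.right.left.left.right RtB18_9.Ce.right.right.left.left.right.right.left RtB18_9.CTp.right RtB18_9.CEr 0x430a8137fd5d6eae66c10044439d9f6f45a8f5c8f540d1309dd198fde838da66c111bb966d9f6111efb89a9f540d6 = true := by decide +kernel

theorem cB18_9_3_34 : chunkOkM (LB18_9.ctx true true 301 519 256 11 16 3241 10725 64 64) muQ true true 64 RtB18_9.Cx.left.left.left RtB18_9.CX RtB18_9.Ctp.right.right.right.left.left.right RtB18_9.Ce.right.right.left.left.right.right.right RtB18_9.CTp.right RtB18_9.CEr 0x5d2859c7fd8a5e10875c4d5e997f8f6cde691678f540d5b6896e7fd86c091f75cd79138568f6c84d8e4e8f540d655faeb7fd946107d75c67b605448f6b9cdcb618f540d5c0a87b7fd7dfa41475c13bdeeeb8f6cf715e238f540d374218060378fde3f995de8f520d659594cfb20e7fd68b111675cd0c481aa8f530d1b244b688fd98d16c0f8f6f17bce048f530d6597459359743 = true := by decide +kernel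

theorem cB18_9_3_35 : chunkOkM (LB18_9.ctx true true 283 131 64 11 16 1617 5395 64 64) muQ true true 64 RtB18_9.Cx.left.left.right RtB18_9.CX RtB18_9.Ctp.right.right.right.left.left.right RtB18_9.Ce.right.right.left.left.right.right.right RtB18_9.CTp.right RtB18_9.CEr 0x5bdf5327fd71e00766c6bc4014b8f6d97b629c8f540d23b6c4688fd5f48cd838f6e41d45518f530d63d076d87fd4b1fbbb75ce2a2270d8f61217e5c729f540d1ba9943f8fd4e4d42068f6106f58eba9f530d656a73c07fd5c6adf175c9a0e07988f610acdca2a9f540de2f7dd27fda63061f58f610753b2229f530d643 = true := by decide +kernel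

theorem cB18_9_3_36 : chunkOkM (LB18_9.ctx true true 283 133 64 11 16 1603 5395 64 64) muQ true true 64 RtB18_9.Cx.left.right RtB18_9.CX RtB18_9.Ctp.right.right.right.left.left RtB18_9.Ce.right.right.left.left.right.right RtB18_9.CTp.right RtB18_9.CEr 0x696939d8ae87fd337f4d66c1ccdb437f9f42983248f61182814d19f550d198f62548fd9d6afb568f612005883b9f530d6736944930161d37fd1f1198575c5969997f8f61249dc1f79f54a328d258f450d175b7c4a8fdf48119aa8f615a3703599f52cfce7178f440d63acaa0c7fd266b41675c123232a009f614bc310449f55b57b3b68f450d123563188fd60110f948f61283b94609f51612f29f8f440d64741a40187fd13d69966c177e4b4209f617432ac429f540ddeda5fb7fd1b9e8166c415d8b358f61188022c79f5193f1cb48f450d644933 = true := by decide +kernel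

theorem cB18_9_3_37 : chunkOkM (LB18_9.ctx true true 103 1 1 1 1 1 1 1 1) muQ true true 64 RtB18_9.Cx.left RtB18_9.CX RtB18_9.Ctp.right.right.right.left.right.left RtB18_9.Ce.right.right.left.left.right.left RtB18_9.CTp RtB18_9.CEr 0x69 = true := by decide +kernel

end Vale.Agent.helper4.Q4
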