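import Vale.Agent.helper4.Q4TreeM
import Vale.Agent.helper4.Q4G.PB18_9

/-!
Checks for pairs of intervals of second moments.
-/

set_option maxRecDepth 100000
set_option linter.unusedVariables false

namespace Vale.Agent.helper4.Q4

theorem cB18_9_3_162 : chunkOkM (LB18_9.ctx true true 306 531 256 11 16 3353 11245 128 64) muQ true true 64 RtB18_9.Cx.left.right.left.left RtB18_9.CX RtB18_9.Ctp.right.right.right.left.right.right.right RtB18_9.Ce.right.right.left.right.right.left.left.left RtB18_9.CTp.right RtB18_9.CEr.right 0x59237e6507fd3b4597f75c2de22cdb89f69f4985198f540d6a1e6447fda5763a675c1cc9db4409f694b287be8f540d55974593 = true := by decide +kernel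

theorem cB18_9_3_163 : chunkOkM (LB18_9.ctx true true 310 535 256 11 16 6713 11271 128 64) muQ true true 64 RtB18_9.Cx.left.right.left.right RtB18_9.CX RtB18_9.Ctp.right.right.right.left.right.right.right RtB18_9.Ce.right.right.left.right.right.left.left.left RtB18_9.CTp.right RtB18_9.CEr.right 0xa6a738dc8f05b68981907fda08dfef75c93b9a5018f6b68da9118f540d5b69fb0608f05b5db11487fdbde449975c2846118289f6a3e8fae88f540d55937ad5768fe8f05b66e387e7fda29393c75c1c0170cd19f6a29660518f540d544f524197fd96c84e075c7d4cc72b8f6bda75e7c8f540d3 = true := by decide +kernel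

theorem cB18_9_3_164 : chunkOkM (LB18_9.ctx true true 302 535 256 11 16 3353 11297 64 64) muQ true true 64 RtB18_9.Cx.left.right.left RtB18_9.CX RtB18_9.Ctp.right.right.right.left.right.right.right RtB18_9.Ce.right.right.left.right.right.left.left.right RtB18_9.CTp.right RtB18_9.CEr.right 0x594b052157fd9cc271275c3eceb5218f6bcb305e98f540d5974593597 = true := by decide +kernel

theorem cB18_9_3_165 : chunkOkM (LB18_9.ctx true true 293 271 128 11 16 1659 5655 128 64) muQ true true 64 RtB18_9.Cx.left.right.right RtB18_9.CX RtB18_9.Ctp.right.right.right.left.right.right.left RtB18_9.Ce.right.right.left.right.right.left.left RtB18_9.CTp.right RtB18_9.CEr 0x11d18767fd79a28f65c70cf756f9fab512ab8f6fde26be08f550d83224ef7fda37472775c6f33059959f6176e3a74e9f540dd87210e7fdac1aec375cbccd98eb8f6100f5dea49f540d6559713b9fc37fdc40fc06f8b732c5928f6f5016f478f540d4fffd107fd7ddd07875ccba7b86e8f6deee571e8f540d10ca932d8fdc392dce18f6fc6253fb8f530d64ae880a7fd8a2178975c69a2257b8f6cb21fffa8f540d1e58f9c58fde1e6e9608f6f4ca0f158f530d6754 = true :=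 by decide +kernel

theorem cB18_9_3_166 : chunkOkM (LB18_9.ctx true true 283 135 64 11 16 1673 5655 64 64) muQ true true 64 RtB18_9.Cx.left.right.right RtB18_9.CX RtB18_9.Ctp.right.right.right.left.right.right.right RtB18_9.Ce.right.right.left.right.right.left.left RtB18_9.CTp.right RtB18_9.CEr 0x45060097fd96f77d475cae430bcd8f6c4aabbfc8f540d136a4ad38fde7cdca418f6c328e8058f530d6492952b7fd95a21f66cdbde7d968f6ba40ba958f540d363e97608fdb3ea902c8f6e43fbc258f530d64 = true := by decide +kernel

theorem cB18_9_3_167 : chunkOkM (LB18_9.ctx true true 319 1087 512 11 16 6713 22789 128 64) muQ true true 64 RtB18_9.Cx.left.right RtB18_9.CX RtB18_9.Ctp.right.right.right.left.right.right RtB18_9.Ce.right.right.left.right.right.left.right RtB18_9.CTp.right RtB18_9.CEr 0x148affb7fddc692265c71cc914c8f6cf9034588f540d595944d9b9d7fd9c15f2a75cc77f74d48f530d2604653c8fd9bfc6a87f6e81744d68f530d65974593597459359745e81347fd93da7dd75c3bda22838f6cd5b30f88f540d8e2bb7a7fd1d05e3775ced490a9d8f530d645593597 = true := by decide +kernel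

theorem cB18_9_3_168 : chunkOkM (LB18_9.ctx true true 103 1 1 1 1 1 1 1 1) muQ true true 64 RtB18_9.Cx.left RtB18_9.CX RtB18_9.Ctp.right.right.right.left.right RtB18_9.Ce.right.right.left.right.right.right RtB18_9.CTp RtB18_9.CEr 0x59 = true := by decide +kernel

theorem cB18_9_3_169 : chunkOkM (LB18_9.ctx true true 286 139 64 21 32 819 2847 256 32) muQ true true 64 RtB18_9.Cx.right.left RtB18_9.CX RtB18_9.Ctp.right.right.right.left.right.left RtB18_9.Ce.right.right.left.right.right.left RtB18_9.CTp.left RtB18_9.CEr 0x4a2d817fc7fd8e615d69b12d52397f89e03f75d8f61507457b49f55d9ff74c8f460d21345fb7fde80fc269b164401a7f82610c10319f614dfaf18e9f511f82deaa9f460d32d7c197fda0862969b4d59396f810c3d7fd49f6163a8431b9f515820dc78f460d7484a5425 = true := by decide +kernel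

theorem cB18_9_3_170 : chunkOkM (LB18_9.ctx true true 280 137 64 11 16 1631 2821 64 32) muQ true true 64 RtB18_9.Cx.right.left.left RtB18_9.CX RtB18_9.Ctp.right.right.right.left.right.left.left RtB18_9.Ce.right.right.left.right.right.left.left RtB18_9.CTp.right RtB18_9.CEr 0x371c0b27fd5f68df17f81318652de9af6ec26b18b04af533d88355335bf450d = true := by decide +kernel

theorem cB18_9_3_171 : chunkOkM (LB18_9.ctx true true 298 275 128 11 16 3297 5629 128 64) muQ true true 64 RtB18_9.Cx.right.left.left RtB18_9.CX RtB18_9.Ctp.right.right.right.left.right.left.right RtB18_9.Ce.right.right.left.right.right.left.left.left RtB18_9.CTp.right.left RtB18_9.CEr 0x2c209b37fd45e5a7275cff1fa7088f612794d6d39f540d90294d17f06c6437e55a7fd6c8ef1b75cac1fbd5229f63d35c3da89f540d106867048fd5a06740f8f6126a1e2b59f517d9e22d8f440d6359c641b7fd8c875f275c99242ddef9f62a9d985769f540dc9126867fd7abbb0e75ca37dbab58f611cfb3c389f540d62ae55067fd5168b1475c27253d3fd9f616a76780d9f540d106074a18fd11c3f8c629f520d637 = true := by decide +kernel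

theorem cB18_9_3_172 : chunkOkM (LB18_9.ctx true true 284 137 64 11 16 1645 5629 128 32) muQ true true 64 RtB18_9.Cx.right.left.left RtB18_9.CX RtB18_9.Ctp.right.right.right.left.right.left.right RtB18_9.Ce.right.right.left.right.right.left.left.left RtB18_9.CTp.right.right RtB18_9.CEr 0x175567c7fd1049796f822f72237f7957fcebd8f610e5a110e9f550d = true := by decide +kernel

theorem cB18_9_3_173 : chunkOkM (LB18_9.ctx true true 310 547 256 11 16 6601 11297 128 64) muQ true true 64 RtB18_9.Cx.right.left.left RtB18_9.CX RtB18_9.Ctp.right.right.right.left.right.left.right RtB18_9.Ce.right.right.left.right.right.left.left.right RtB18_9.CTp.right RtB18_9.CEr 0x113d5e84a9f05b21c37797fd40a232c75cd0aaf21a8f611e4694fd9f540dc7f02007fd8241efc75cccd854518f61374f596c9f540d63a3940b7fd20a30fb75c15bc223d69f615a043faf9f597f2791c8f450da8e45c67fd2f83aee75c1208f8ea19f53e1087978f440d6359bd47aa07fd406786675cf0bc84598f530dd7decfb7fd223e92d5d9f6165a3c0b29f530d6593597459375 = true := by decide +kernel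

theorem cB18_9_3_174 : chunkOkM (LB18_9.ctx true true 287 139 64 11 16 3297 5655 64 64) muQ true true 64 RtB18_9.Cx.right.left.right RtB18_9.CX RtB18_9.Ctp.right.right.right.left.right.left RtB18_9.Ce.right.right.left.right.right.left.left RtB18_9.CTp.right RtB18_9.CEr 0x19487307fdd5bf556ce9a3e46f949385a1849f61eb9635609f5b5dcb3498f460d197b59508fd234158976c2e1502608f611c4f708e9f529700e328f450d6694493493 = true := by decide +kernel

theorem cB18_9_3_175 : chunkOkM (LB18_9.ctx true true 271 69 32 11 16 1631 2847 64 32) muQ true true 64 RtB18_9.Cx.right.left RtB18_9.CX RtB18_9.Ctp.right.right.right.left.right.left.left RtB18_9.Ce.right.right.left.right.right.left.right RtB18_9.CTp.right RtB18_9.CEr 0x2b511091e9f5d6781574d9f420d = true := by decide +kernel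

end Vale.Agent.helper4.Q4
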