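import Vale.Agent.helper4.Q4TreeM
import Vale.Agent.helper4.Q4G.PB18_9

/-!
Checks for pairs of intervals of second moments.
-/

set_option maxRecDepth 100000
set_option linter.unusedVariables false

namespace Vale.Agent.helper4.Q4

theorem cB18_9_3_176 : chunkOkM (LB18_9.ctx true true 310 553 256 11 16 6601 11375 128 64) muQ true true 64 RtB18_9.Cx.right.left RtB18_9.CX RtB18_9.Ctp.right.right.right.left.right.left.right RtB18_9.Ce.right.right.left.right.right.left.right RtB18_9.CTp.right RtB18_9.CEr 0x494959107e105269f05b2b4bcb67fd308f6ca75c7a7c340d8f6128b513c19f513ae6b2479f450db711ddf7fd1091f28c59f614c68e54e9f51b3bccd28f440d659319850e37fd23920ca75c266824bbc9f6168ae8ee39f524bb5b8d8f450d9ee5e1a7fd354928f75c114d478959f614a8626a79f5268a8e908f450d6454774935959fb1e9fdb8f05bb0855137fd324c0d775cf6b7a4ff8f530da0370837fd3742ff675c1daa788cf9f6177cf18789f540d65593597459359747 = true := by decide +kernel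

theorem cB18_9_3_177 : chunkOkM (LB18_9.ctx true true 290 139 64 21 32 1673 2847 256 32) muQ true true 64 RtB18_9.Cx.right.left RtB18_9.CX RtB18_9.Ctp.right.right.right.left.right.right RtB18_9.Ce.right.right.left.right.right.left RtB18_9.CTp.left RtB18_9.CEr 0x4a2e33ff77fd2bc8a56ccd9caf69bf6d1e7848f61398ad2379f550d3db050f7fd3359b9175c93260a69b89d2d05a8f6fd1253318f550d2237a5a7fd10e83e379b24371d6f846dc23358f611882c7789f550d3747ae7a07fd1fa63166c64ecbd69bf13971be8f610895adea9f550d484a5425 = true := by decide +kernel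

theorem cB18_9_3_178 : chunkOkM (LB18_9.ctx true true 283 137 64 11 16 1659 5629 64 64) muQ true true 64 RtB18_9.Cx.right.left.left RtB18_9.CX RtB18_9.Ctp.right.right.right.left.right.right.left RtB18_9.Ce.right.right.left.right.right.left.left.left RtB18_9.CTp.right RtB18_9.CEr 0x22e10137fd543ab566cc7d97a478f61012ea3469f540dc362c507fd76787066c12289d0e49f611e5fe2fe9f540d6 = true := by decide +kernel

theorem cB18_9_3_179 : chunkOkM (LB18_9.ctx true true 297 275 128 11 16 3325 5655 128 64) muQ true true 64 RtB18_9.Cx.right.left.left RtB18_9.CX RtB18_9.Ctp.right.right.right.left.right.right.left RtB18_9.Ce.right.right.left.right.right.left.left.right RtB18_9.CTp.right RtB18_9.CEr 0x17846b77fd49926566c15ae1be329f61254751b79f540d1a40ab2d8fdfa54e1748f6125d32ef49f530d6f4723d038f05b36d65497fd7f8b81b75c17f1199b69f6ff7dffed8f540d231eb8478fdb5c6428a8f610587cdc69f530d633580657fd688c9dc75cd0aa5b0e8f61098490bf9f540d1bf5991f8fd58bcc1108f610d3905489f530d6357 = true := by decide +kernel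

theorem cB18_9_3_180 : chunkOkM (LB18_9.ctx true true 103 1 1 1 1 1 1 1 1) muQ true true 64 RtB18_9.Cx.right.left.right RtB18_9.CX RtB18_9.Ctp.right.right.right.left.right.right.left RtB18_9.Ce.right.right.left.right.right.left.left RtB18_9.CTp.right RtB18_9.CEr 0x69 = true := by decide +kernel

theorem cB18_9_3_181 : chunkOkM (LB18_9.ctx true true 274 69 32 11 16 1673 2821 64 64) muQ true true 64 RtB18_9.Cx.right.left RtB18_9.CX RtB18_9.Ctp.right.right.right.left.right.right.right RtB18_9.Ce.right.right.left.right.right.left.left RtB18_9.CTp.right RtB18_9.CEr 0x370a9507fd793b2b66c11c6b31ed9f6101c4d9b89f540d15546c368f01c6 = true := by decide +kernel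

theorem cB18_9_3_182 : chunkOkM (LB18_9.ctx true true 297 275 128 11 16 3325 5681 128 64) muQ true true 64 RtB18_9.Cx.right.left.left RtB18_9.CX RtB18_9.Ctp.right.right.right.left.right.right.left RtB18_9.Ce.right.right.left.right.right.left.right.left RtB18_9.CTp.right RtB18_9.CEr 0xfdc3aa918f05b2d44d307fd68d86ea75cc3c330508f6fb81e2168f540dbe5e0417fd3756e1c28f6104a8b65d9f530d63a81dbd7fd570a16675c10cf6acd29f614a8e16229f540d16f6ffc08fd969d3aaf8f61258317479f530d633f8ce767fd6076ecd75cab60adc58f6f500e0838f540d1b0e0d098fd4716d0508f6104a46f519f530d640a22fe7fd13b48ea7f82476a7f28f6106cab0859f540d375 = true := by decide +kernel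

theorem cB18_9_3_183 : chunkOkM (LB18_9.ctx true true 297 275 128 11 16 3325 5707 128 64) muQ true true 64 RtB18_9.Cx.right.left.left RtB18_9.CX RtB18_9.Ctp.right.right.right.left.right.right.left RtB18_9.Ce.right.right.left.right.right.left.right.right RtB18_9.CTp.right RtB18_9.CEr 0xf23adda88f05b2cad36e7fd691601075cf2bf298a8f610fa9b05e9f540d1dd744ec8fd4d85e4918f61157afa769f530d65593597 = true := by decide +kernel

theorem cB18_9_3_184 : chunkOkM (LB18_9.ctx true true 283 137 64 11 16 1673 5681 64 64) muQ true true 64 RtB18_9.Cx.right.left.left RtB18_9.CX RtB18_9.Ctp.right.right.right.left.right.right.right RtB18_9.Ce.right.right.left.right.right.left.right.left RtB18_9.CTp.right RtB18_9.CEr 0x24727747fd816f2666cf7e065718f6e6b08a938f540dfbe874b7fd11eeb0a585cfe12f0128f61026f44369f540d6 = true := by decide +kernel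

theorem cB18_9_3_185 : chunkOkM (LB18_9.ctx true true 306 547 256 11 16 3353 11401 128 64) muQ true true 64 RtB18_9.Cx.right.left.left RtB18_9.CX RtB18_9.Ctp.right.right.right.left.right.right.right RtB18_9.Ce.right.right.left.right.right.left.right.right RtB18_9.CTp.right RtB18_9.CEr 0x34392567fd6a9cee175c12167fc8b9f610c37e09e9f540d152b2fc48fd1c059e6085c2f4292858f6f6091e088f540d6e9e9d9738f05b487ac547fd82ce46e75cd151110d8f530d745b4ff7fd12b6f2f3f9f6f25eb6fe8f530d65937d1a567fd7f272b475c8c9926968f6dd86b6e88f540d1d9aff548fdcf3729ad8f61078fd67b9f530d65974357 = true := by decide +kernel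

theorem cB18_9_3_186 : chunkOkM (LB18_9.ctx true true 287 139 64 11 16 3325 5681 64 64) muQ true true 64 RtB18_9.Cx.right.left.right RtB18_9.CX RtB18_9.Ctp.right.right.right.left.right.right.left RtB18_9.Ce.right.right.left.right.right.left.right.left RtB18_9.CTp.right RtB18_9.CEr 0x31b05cf167e547f01c65977fd6fd382d8966c12c471ab69f612c5450909f540da1d392d7fd458a4a66cba13c9c68f613043b4959f523a5e0bf8f450d63 = true := by decide +kernel

end Vale.Agent.helper4.Q4
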