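import Vale.Agent.helper4.Q4TreeM
import Vale.Agent.helper4.Q4G.PB18_9

/-!
Checks for pairs of intervals of second moments.
-/

set_option maxRecDepth 100000
set_option linter.unusedVariables false

namespace Vale.Agent.helper4.Q4

theorem cB18_9_3_187 : chunkOkM (LB18_9.ctx true true 307 555 256 11 16 3325 11427 128 64) muQ true true 64 RtB18_9.Cx.right.left.right.left RtB18_9.CX RtB18_9.Ctp.right.right.right.left.right.right.left RtB18_9.Ce.right.right.left.right.right.left.right.right RtB18_9.CTp.right RtB18_9.CEr 0x1619aad7fd2bae77b75c1c7d727139f61361cda929f540d11c24b3c8fd6022d9268f611efc2a9e9f530d6100549b189f05b363e1507fd43d96d175c14802a1cabaf65a4eaf45d9f540d10c923f98fded6aa82f8f61462f3b6d9f5182e7aec8f440d659715d4f7f7fd43b46ed75c121d80eb39f612edbe9f29f51c7c3ae18f450def311f87fd1e23f9d599f6181bc2c599f530d6453 = true := by decide +kernel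

theorem cB18_9_3_188 : chunkOkM (LB18_9.ctx true true 302 279 128 11 16 13265 5707 64 64) muQ true true 64 RtB18_9.Cx.right.left.right.right RtB18_9.CX RtB18_9.Ctp.right.right.right.left.right.right.left RtB18_9.Ce.right.right.left.right.right.left.right.right RtB18_9.CTp.right RtB18_9.CEr 0x112a05cf78fad57f01c611eb96e7fd180e97675c4f6f7df389f62048295349f540d1432cb518f01c64934933 = true := by decide +kernel

theorem cB18_9_3_189 : chunkOkM (LB18_9.ctx true true 280 139 64 11 16 1673 2847 64 64) muQ true true 64 RtB18_9.Cx.right.left.right RtB18_9.CX RtB18_9.Ctp.right.right.right.left.right.right.right RtB18_9.Ce.right.right.left.right.right.left.right RtB18_9.CTp.right RtB18_9.CEr 0x1b111e67fd50a9a766c19244e9269f612600c5fd9f540d13c3668b8f01c6 = true := by decide +kernel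

theorem cB18_9_3_190 : chunkOkM (LB18_9.ctx true true 257 71 32 11 16 413 1417 32 32) muQ true true 64 RtB18_9.Cx.right.right RtB18_9.CX RtB18_9.Ctp.right.right.right.left.right RtB18_9.Ce.right.right.left.right.right.left RtB18_9.CTp RtB18_9.CEr 0xd77cb566c1a5a21d79b177aa7d14baf638dda26e8baf440d = true := by decide +kernel

theorem cB18_9_3_191 : chunkOkM (LB18_9.ctx true true 261 69 32 11 16 819 1443 32 32) muQ true true 64 RtB18_9.Cx.right.left RtB18_9.CX RtB18_9.Ctp.right.right.right.left.right.left RtB18_9.Ce.right.right.left.right.right.right RtB18_9.CTp RtB18_9.CEr 0xdc270ff7fdc99fcd66c114ad2579b11e922b5aeaf53d310b5298af450d = true := by decide +kernel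

theorem cB18_9_3_192 : chunkOkM (LB18_9.ctx true true 290 139 64 21 32 1673 2899 256 32) muQ true true 64 RtB18_9.Cx.right.left RtB18_9.CX RtB18_9.Ctp.right.right.right.left.right.right RtB18_9.Ce.right.right.left.right.right.right RtB18_9.CTp.left RtB18_9.CEr 0x4a1ff75107fd21099666ca4945b69b121e8b0729f614e7be74e9f550d37bde007fd124663f75c5b12cc69b873b97128f6112e503499f550d2c4d04a7fd7d5ba769b3c0e8c6f810ea1eb369f61567d67e69f537c37dd18f460d327a0b557fd28f7f266cc064ac69b14a6faa799f613452bde39f550d7484a5425 = true := by decide +kernel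

theorem cB18_9_3_193 : chunkOkM (LB18_9.ctx true true 320 1095 512 11 16 6713 22893 128 64) muQ true true 64 RtB18_9.Cx.right.left.left RtB18_9.CX RtB18_9.Ctp.right.right.right.left.right.right RtB18_9.Ce.right.right.left.right.right.right.left RtB18_9.CTp.right RtB18_9.CEr 0xfcc546368f05b3992ee87fd36d33165c457f5bb08f610357aaa79f540d35630fd7fd8ca43de75c5f0695d48f6e1a0dcbb8f540d942c6837fd4c78bc675c596e9f3a8f6fb33a1358f540d63ad4bc87fd597e636f843d05ca58f6103f30e5d9f540d35959b95842a7fd75be0be75cd85e7c008f530d7145a997fd7521525db9f61263d1bb89f530d659745935974593745593 = true := by decide +kernel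

theorem cB18_9_3_194 : chunkOkM (LB18_9.ctx true true 300 279 128 11 16 3325 11479 128 64) muQ true true 64 RtB18_9.Cx.right.left.right RtB18_9.CX RtB18_9.Ctp.right.right.right.left.right.right.left RtB18_9.Ce.right.right.left.right.right.right.left.left RtB18_9.CTp.right.left RtB18_9.CEr 0x1d78b647fd1d33aed75c11c4a7dbc9f6134d9c7e19f58b425547f450d102752c58fd12da35c6b9f520d621171937fd3b4680175cd860a0f28f61398ce8269f540a134fb8f450d13685be68fd13f5a2c409f6154c4e2099f590ffcd17f440d643571a497fd24b3f6c7f881f4ab198f6128af32829f55842d7148f450d335d441a7fd18f7fbc7f8228c949de9f616abaa2c29f540d2adcead7fd41453c875c11f3c978e9f613c8cd9649f540d1751d93e8fdc5756c398f613758602e9f530d645937 = true := by decide +kernel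

theorem cB18_9_3_195 : chunkOkM (LB18_9.ctx true true 284 139 64 11 16 1659 5733 128 32) muQ true true 64 RtB18_9.Cx.right.left.right RtB18_9.CX RtB18_9.Ctp.right.right.right.left.right.right.left RtB18_9.Ce.right.right.left.right.right.right.left.left RtB18_9.CTp.right.right RtB18_9.CEr 0x1225b347fdf87b7f6f98d31906f75e0199d28f611382185c9f55b1bb8f48f460d = true := by decide +kernel

theorem cB18_9_3_196 : chunkOkM (LB18_9.ctx true true 303 279 128 11 16 3325 11531 128 64) muQ true true 64 RtB18_9.Cx.right.left.right RtB18_9.CX RtB18_9.Ctp.right.right.right.left.right.right.left RtB18_9.Ce.right.right.left.right.right.right.left.right RtB18_9.CTp.right RtB18_9.CEr 0x112d5a02e9f05b2d71aa37fd3f377bd7f8ec068d4587af5377feb38561bf440d21dd7ab7fd25b863175c120f419d39f6125a7944a9f51cc68deb8f450dbd434607fdbca220168f6139f8d4739f523c4c5aa8f440d645593597 = true := by decide +kernel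

theorem cB18_9_3_197 : chunkOkM (LB18_9.ctx true true 294 279 128 11 16 3353 5733 64 64) muQ true true 64 RtB18_9.Cx.right.left.right RtB18_9.CX RtB18_9.Ctp.right.right.right.left.right.right.right RtB18_9.Ce.right.right.left.right.right.right.left.left RtB18_9.CTp.right RtB18_9.CEr 0x119d0f47fd4bfc9866c23d870b169f617098704d9f540d6c3abfd7f06c634240047fd931d11375c73e35a84e9f61a4cdda8a9f540d115ac44d8fdc07eed775c8d15c31c8f61102337b99f540d61ec6b577fd4ed520975c99267e508f61049f63e19f540dd0fb9b37fdb784bed75c34e939388f610d8cef639f540d637 = true := by decide +kernel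

theorem cB18_9_3_198 : chunkOkM (LB18_9.ctx true true 301 277 128 11 16 3353 11531 128 64) muQ true true 64 RtB18_9.Cx.right.left.right.left RtB18_9.CX RtB18_9.Ctp.right.right.right.left.right.right.right RtB18_9.Ce.right.right.left.right.right.right.left.right RtB18_9.CTp.right RtB18_9.CEr 0xf77df9298f05b349362e7fd3f7da86f8691155138f610ad0097a9f540d7ae209875c3d80a29c69f616795270f9f530d1aa000738fde4b0f0908f611366744a9f530d64348b5957fdf480636f8ae5a6b9a8f6118588d8b9f540d35 = true := by decide +kernel

end Vale.Agent.helper4.Q4
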