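import Vale.Agent.helper4.Q4TreeM
import Vale.Agent.helper4.Q4G.PB18_9

/-!
Checks for pairs of intervals of second moments.
-/

set_option maxRecDepth 100000
set_option linter.unusedVariables false

namespace Vale.Agent.helper4.Q4

theorem cB18_9_3_199 : chunkOkM (LB18_9.ctx true true 293 279 128 11 16 3353 5759 64 64) muQ true true 64 RtB18_9.Cx.right.left.right.right RtB18_9.CX RtB18_9.Ctp.right.right.right.left.right.right.right RtB18_9.Ce.right.right.left.right.right.right.left.right RtB18_9.CTp.right RtB18_9.CEr 0x1017e1c7fd528c1c275c1389bbbfd9f611bb9ae229f540d191405928fdf48614428f612917c7039f530d6107ea097fd415d01a75c7b38b8af8f610fd75d779f540d6f0877e7fdae0c92328f6130a80ad89f530d63 = true := by decide +kernel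

theorem cB18_9_3_200 : chunkOkM (LB18_9.ctx true true 280 139 64 11 16 1673 2899 64 64) muQ true true 64 RtB18_9.Cx.right.left RtB18_9.CX RtB18_9.Ctp.right.right.right.left.right.right RtB18_9.Ce.right.right.left.right.right.right.right RtB18_9.CTp.right RtB18_9.CEr 0x11111d17fd5804c766c119fc2b059f613aada3509f540d8ae22047fd118951f75c8c62d17a8f61289a30e79f540d6593597 = true := by decide +kernel

theorem cB18_9_3_201 : chunkOkM (LB18_9.ctx true true 103 1 1 1 1 1 1 1 1) muQ true true 64 RtB18_9.Cx.right.right RtB18_9.CX RtB18_9.Ctp.right.right.right.left.right.left RtB18_9.Ce.right.right.left.right.right.right RtB18_9.CTp RtB18_9.CEr 0x49 = true := by decide +kernel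

theorem cB18_9_3_202 : chunkOkM (LB18_9.ctx true true 103 1 1 1 1 1 1 1 1) muQ true true 64 RtB18_9.Cx.right.right RtB18_9.CX RtB18_9.Ctp.right.right.right.left.right.right.left RtB18_9.Ce.right.right.left.right.right.right RtB18_9.CTp RtB18_9.CEr 0x49 = true := by decide +kernel

theorem cB18_9_3_203 : chunkOkM (LB18_9.ctx true true 276 71 32 11 16 1673 1443 256 32) muQ true true 64 RtB18_9.Cx.right.right RtB18_9.CX RtB18_9.Ctp.right.right.right.left.right.right.right RtB18_9.Ce.right.right.left.right.right.right RtB18_9.CTp.left RtB18_9.CEr 0x28ca56c7fd1439d166cf1f41869b7295d8158f6123dc93099f52f2a53168f460d4a5425 = true := by decide +kernel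

theorem cB18_9_3_204 : chunkOkM (LB18_9.ctx true true 293 281 128 11 16 3353 5811 64 64) muQ true true 64 RtB18_9.Cx.right.right RtB18_9.CX RtB18_9.Ctp.right.right.right.left.right.right.right RtB18_9.Ce.right.right.left.right.right.right RtB18_9.CTp.right RtB18_9.CEr 0x4918f524a7fd4eb5a56c2f433057f9856e2fe28f61201e73a39f532885e008f460dd2897807fdda8cc266ca4b752968f612acf9b929f540d669b10fe76fd254f65575cd451f56f9ab2e5b4e8f6116e16e2d9f550d1ade82838fd1910ec6899f61686c32589f530d67491b816897fdc62c5765c1971abd7f910de318e09f612d02ba159f550df4a81b37fdb2593e5d8f613041a05a9f530d6734749c80b256fd2b2d4366c1c64ed6f91ef7fc5ae9f61654235889f550d70383427f06c676944 = true := by decide +kernel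

theorem cB18_9_3_205 : chunkOkM (LB18_9.ctx true true 103 1 1 1 1 1 1 1 1) muQ true true 64 RtB18_9.Cx.left RtB18_9.CX RtB18_9.Ctp.right.right.right.right.left RtB18_9.Ce.right.right.left.right.left RtB18_9.CTp.left.left RtB18_9.CEr 0x42 = true := by decide +kernel

theorem cB18_9_3_206 : chunkOkM (LB18_9.ctx true true 103 1 1 1 1 1 1 1 1) muQ true true 64 RtB18_9.Cx.left RtB18_9.CX RtB18_9.Ctp.right.right.right.right.left RtB18_9.Ce.right.right.left.right.left RtB18_9.CTp.left.right.left RtB18_9.CEr 0x4a = true := by decide +kernel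

theorem cB18_9_3_207 : chunkOkM (LB18_9.ctx true true 269 33 16 21 32 427 1365 256 32) muQ true true 64 RtB18_9.Cx.left RtB18_9.CX.left RtB18_9.Ctp.right.right.right.right.left RtB18_9.Ce.right.right.left.right.left.left RtB18_9.CTp.left.right.right RtB18_9.CEr 0x6fe3bb87fd97a13966c9e31d569b15a297858f6b1399b1245af11dde4ff3756bf060d = true := by decide +kernel

theorem cB18_9_3_208 : chunkOkM (LB18_9.ctx true true 312 131 64 21 32 847 5551 1024 1024) muQ true true 64 RtB18_9.Cx.left.left RtB18_9.CX.left RtB18_9.Ctp.right.right.right.right.left.left RtB18_9.Ce.right.right.left.right.left.right.left RtB18_9.CTp.left.right.right RtB18_9.CEr 0x525a5a5a7d52a397fd9e58f866c455d3369b2bb5fe4669f664a0eed58f250d1420750cc9f02b7665a55a566b6bc1777fddfe72466c4b3adc69b3eb4089d39f62c93534e8f250d0491cc8c87fd95a95a66c4e918569bc0af2aeb8f611a08bd2a9f250d76a61266 = true := by decide +kernel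

theorem cB18_9_3_209 : chunkOkM (LB18_9.ctx true true 103 1 1 1 1 1 1 1 1) muQ true true 64 RtB18_9.Cx.left.left.left RtB18_9.CX.left RtB18_9.Ctp.right.right.right.right.left.left RtB18_9.Ce.right.right.left.right.left.right.right RtB18_9.CTp.left.right.right RtB18_9.CEr 0x21 = true := by decide +kernel

theorem cB18_9_3_210 : chunkOkM (LB18_9.ctx true true 312 263 128 21 32 3381 5603 256 256) muQ true true 64 RtB18_9.Cx.left.left.right RtB18_9.CX.left RtB18_9.Ctp.right.right.right.right.left.left RtB18_9.Ce.right.right.left.right.left.right.right RtB18_9.CTp.left.right.right RtB18_9.CEr.left 0xdd8fd5d08f02bfcf64657fd12097af76c5396d6178b4a139e18b9f640d9178ba27fda9f10066c53c9de378b6bb0b677a9f640d321711c25f108fdd5d98f66c7293ed69b47415a5f69f640dd0869587fdfe87f766c4c5250878b582a688d79f633b6e9008f250d7436a6126 = true := by decide +kernel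

theorem cB18_9_3_211 : chunkOkM (LB18_9.ctx true true 322 263 128 21 32 1701 5603 1024 1024) muQ true true 64 RtB18_9.Cx.left.left.right RtB18_9.CX.left RtB18_9.Ctp.right.right.right.right.left.left RtB18_9.Ce.right.right.left.right.left.right.right RtB18_9.CTp.left.right.right RtB18_9.CEr.right 0x525a5a5adc94b3628f00ba1b77527fdb11a4c66c41b88669b6f8ca05f49f640d2174196409169f06bc78e5f66c418d2369b4e8a203189f61cc4dec88f240d743665a55a566 = true := by decide +kernel

theorem cB18_9_3_212 : chunkOkM (LB18_9.ctx true true 103 1 1 1 1 1 1 1 1) muQ true true 64 RtB18_9.Cx.left.left RtB18_9.CX.left RtB18_9.Ctp.right.right.right.right.left.right RtB18_9.Ce.right.right.left.right.left.right RtB18_9.CTp.left.right.right RtB18_9.CEr 0x01 = true := by decide +kernel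

theorem cB18_9_3_213 : chunkOkM (LB18_9.ctx true true 282 67 32 21 32 427 2795 256 128) muQ true true 64 RtB18_9.Cx.left.right RtB18_9.CX.left RtB18_9.Ctp.right.right.right.right.left RtB18_9.Ce.right.right.left.right.left.right RtB18_9.CTp.left.right.right RtB18_9.CEr 0x1603b9138fd1d6738d76c2b414469bc2610f3a8f686f5c19c8f550d545ee217fd368c8866c86b67869bfd5a78a98f68e135d3d8f550d1266114 = true := by decide +kernel

theorem cB18_9_3_214 : chunkOkM (LB18_9.ctx true true 103 1 1 1 1 1 1 1 1) muQ true true 64 RtB18_9.Cx.left RtB18_9.CX.right RtB18_9.Ctp.right.right.right.right.left RtB18_9.Ce.right.right.left.right.left RtB18_9.CTp.left.right.right RtB18_9.CEr 0x4a = true := by decide +kernel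

theorem cB18_9_3_215 : chunkOkM (LB18_9.ctx true true 256 33 16 11 16 427 1365 64 32) muQ true true 64 RtB18_9.Cx.left RtB18_9.CX RtB18_9.Ctp.right.right.right.right.left RtB18_9.Ce.right.right.left.right.left.left RtB18_9.CTp.right RtB18_9.CEr 0x71acaeb7fd6e662066c11090038f93bf12de8800ea1abf040d = true := by decide +kernel

theorem cB18_9_3_216 : chunkOkM (LB18_9.ctx true true 313 1039 512 11 16 3367 11089 128 64) muQ true true 64 RtB18_9.Cx.left.left.left RtB18_9.CX RtB18_9.Ctp.right.right.right.right.left.left RtB18_9.Ce.right.right.left.right.left.right.left RtB18_9.CTp.right RtB18_9.CEr 0x0101212e3d24b7fd33581ee75cab73324559f630d928665c7fd1245b89d85c668c88c7e9f6484b1857f240d521742173b61e697fd4809a5c75c5701ed1269f64512a9408f240d9f259127fd10c36a9785c29750b8179f6bde034ea8f240d54183b9cfc8fd795bae5c8f614206e7c99f230d633017 = true := by decide +kernel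

theorem cB18_9_3_217 : chunkOkM (LB18_9.ctx true true 296 263 128 11 16 1687 5551 128 128) muQ true true 64 RtB18_9.Cx.left.left.right RtB18_9.CX RtB18_9.Ctp.right.right.right.right.left.left RtB18_9.Ce.right.right.left.right.left.right.left RtB18_9.CTp.right RtB18_9.CEr 0x11353386c7fd379384275c24ed252569f650af69a68f240d141f5f518fd13e253fb85c24c7089429f6526abbb28f240d31e04c83676c17fdd182dee75c186251b78b3ef05f8ae9f6234dd0868f250d771e04c465324de1cdb8fd2a663c3459f668f6b8378f230d6 = true := by decide +kernel

theorem cB18_9_3_218 : chunkOkM (LB18_9.ctx true true 103 1 1 1 1 1 1 1 1) muQ true true 64 RtB18_9.Cx.left.left.left RtB18_9.CX RtB18_9.Ctp.right.right.right.right.left.left RtB18_9.Ce.right.right.left.right.left.right.right RtB18_9.CTp.right RtB18_9.CEr 0x21 = true := by decide +kernel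

theorem cB18_9_3_219 : chunkOkM (LB18_9.ctx true true 335 131 64 41 64 1701 5603 4096 4096) muQ true true 64 RtB18_9.Cx.left.left.right RtB18_9.CX RtB18_9.Ctp.right.right.right.right.left.left RtB18_9.Ce.right.right.left.right.left.right.right RtB18_9.CTp.right RtB18_9.CEr.left 0x6a6a1212126a6a6ad9333da68f00b22d10ae78fd122b2936f9f67d2a6e4c8f52f76cbdf8f240d20d039db8fd15200915b9f672ff15eb8f526734cd88f240d435555556a66a66a612612688126 = true := by decide +kernel

end Vale.Agent.helper4.Q4
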