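import Vale.Agent.helper4.Q4TreeM
import Vale.Agent.helper4.Q4G.PB18_9

/-!
Checks for pairs of intervals of second moments.
-/

set_option maxRecDepth 100000
set_option linter.unusedVariables false

namespace Vale.Agent.helper4.Q4

theorem cB18_9_3_220 : chunkOkM (LB18_9.ctx true true 323 1047 512 11 16 6741 22321 128 128) muQ true true 64 RtB18_9.Cx.left.left.right RtB18_9.CX RtB18_9.Ctp.right.right.right.right.left.left.left RtB18_9.Ce.right.right.left.right.left.right.right.left RtB18_9.CTp.right RtB18_9.CEr.right 0x2a9fc9d7fd32de88675c4cb6dd6d59f630de611a337fd138b893585c73dda88509f630d85efea37fdd74c66775c1bf7bdb78b5413536819f640d6535fe4a67fd409a0d875c2f1274b9a9f6937ff6188f240d844a5f27fd1104312f85c28e29b4129f69b06eb778f240d56960d32917fdca4e20f75c1513c087a4af630d46976932171b74b087fd29e2c5275c80ce09a9b9f630d7e366ec7fdecd685e75cb7818468b61584a3219f640d5437 = true := by decide +kernel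

theorem cB18_9_3_221 : chunkOkM (LB18_9.ctx true true 323 1055 512 11 16 6741 22425 128 128) muQ true true 64 RtB18_9.Cx.left.left.right RtB18_9.CX RtB18_9.Ctp.right.right.right.right.left.left.left RtB18_9.Ce.right.right.left.right.left.right.right.right RtB18_9.CTp.right RtB18_9.CEr.right 0x3a292527fd4bd53a275c70a5662889f630d130740ee8fd139c016b85c5313217ce9f614246207f240d80c42897fdcfb1afc75c1fbcc0b78b5ec428f469f640d65695824a4f7fdbb0d87575c16012de42daf630d46976936973801dd17fd41649bc75c742746d299f630d7d4755f7fde38054975c7893f73d69f630d543217 = true := by decide +kernel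

theorem cB18_9_3_222 : chunkOkM (LB18_9.ctx true true 280 131 64 11 16 1701 2795 64 64) muQ true true 64 RtB18_9.Cx.left.left.right RtB18_9.CX RtB18_9.Ctp.right.right.right.right.left.left.right RtB18_9.Ce.right.right.left.right.left.right.right RtB18_9.CTp.right RtB18_9.CEr.right 0x5dd200c7fdd22be9275c7222fd6f8f6d2e1d00c8f240d = true := by decide +kernel

theorem cB18_9_3_223 : chunkOkM (LB18_9.ctx true true 103 1 1 1 1 1 1 1 1) muQ true true 64 RtB18_9.Cx.left.left RtB18_9.CX RtB18_9.Ctp.right.right.right.right.left.right RtB18_9.Ce.right.right.left.right.left.right RtB18_9.CTp.right RtB18_9.CEr 0x01 = true := by decide +kernel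

theorem cB18_9_3_224 : chunkOkM (LB18_9.ctx true true 296 265 128 11 16 1687 5603 128 128) muQ true true 64 RtB18_9.Cx.left.right RtB18_9.CX RtB18_9.Ctp.right.right.right.right.left RtB18_9.Ce.right.right.left.right.left.right RtB18_9.CTp.right RtB18_9.CEr 0x11691132a6f1f7fd363415575c27e2086f94c97a7a899f640d69e0a1a0a7fd1241953585c2c39aed839f67338c91f8f540d6f6d6127fdb383bd66c169d1f878b2dbb665899f64554a4d08f550d6755531b3d7fdb2b7ab66c20d43730b09adf8fda9f3d9458f69ce8baec8f530d63114 = true := by decide +kernel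

theorem cB18_9_3_225 : chunkOkM (LB18_9.ctx true true 103 1 1 1 1 1 1 1 1) muQ true true 64 RtB18_9.Cx.right RtB18_9.CX RtB18_9.Ctp.right.right.right.right.left RtB18_9.Ce.right.right.left.right.left RtB18_9.CTp RtB18_9.CEr 0x11 = true := by decide +kernel

theorem cB18_9_3_226 : chunkOkM (LB18_9.ctx true true 103 1 1 1 1 1 1 1 1) muQ true true 64 RtB18_9.Cx RtB18_9.CX RtB18_9.Ctp.right.right.right.right.right RtB18_9.Ce.right.right.left.right.left RtB18_9.CTp RtB18_9.CEr 0x11 = true := by decide +kernel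

theorem cB18_9_3_227 : chunkOkM (LB18_9.ctx true true 103 1 1 1 1 1 1 1 1) muQ true true 64 RtB18_9.Cx.left RtB18_9.CX RtB18_9.Ctp.right.right.right.right.left RtB18_9.Ce.right.right.left.right.right.left RtB18_9.CTp.left.left RtB18_9.CEr 0x42 = true := by decide +kernel

theorem cB18_9_3_228 : chunkOkM (LB18_9.ctx true true 103 1 1 1 1 1 1 1 1) muQ true true 64 RtB18_9.Cx.left RtB18_9.CX RtB18_9.Ctp.right.right.right.right.left RtB18_9.Ce.right.right.left.right.right.left RtB18_9.CTp.left.right.left RtB18_9.CEr 0x4a = true := by decide +kernel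

theorem cB18_9_3_229 : chunkOkM (LB18_9.ctx true true 328 527 256 21 32 1701 5629 1024 1024) muQ true true 64 RtB18_9.Cx.left.left RtB18_9.CX.left RtB18_9.Ctp.right.right.right.right.left RtB18_9.Ce.right.right.left.right.right.left RtB18_9.CTp.left.right.right RtB18_9.CEr 0x212101525a5a5a115296e7e9f02b6217257e69f06b3665a55a566dec25697fd59684e66cd06129d78b4863606cd9f6f1e53e168f250de7adcd37fd11625bc76c49ad9469b786bee5399f640d36a61266321742174217 = true := by decide +kernel

theorem cB18_9_3_230 : chunkOkM (LB18_9.ctx true true 308 267 128 21 32 1701 5655 256 256) muQ true true 64 RtB18_9.Cx.left.right.left RtB18_9.CX.left RtB18_9.Ctp.right.right.right.right.left.left RtB18_9.Ce.right.right.left.right.right.left.left RtB18_9.CTp.left.right.right RtB18_9.CEr.left 0xa2fd5967fdcecf3366c4e904169b5ba06f5d39f640d764079f7fda2452f66c5663f0478b5f2722f349f63af117148f250d71535ca798fd1e26e3d76c25fccd69b5760aae0c9f640d44adfc4f7fd39401566c5d489269b114aa72519f691679a9c8f550dc9540bf7fdf727ff66c4b2a0e69b53136ae8a9f6545e74f18f550d7a996c1f7fdbfef6666c41ea3069b166dd69839f6a08724638f550d7de256c7fd8cb57d66c55fa3ee78b33d7811f79f6650a24fe8f550d7436a6126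 = true := by decide +kernel

theorem cB18_9_3_231 : chunkOkM (LB18_9.ctx true true 322 267 128 21 32 1701 5655 1024 1024) muQ true true 64 RtB18_9.Cx.left.right.left RtB18_9.CX.left RtB18_9.Ctp.right.right.right.right.left.left RtB18_9.Ce.right.right.left.right.right.left.left RtB18_9.CTp.left.right.right RtB18_9.CEr.right 0x525a5a5a377d0ad669f06b50a5e3b7fd8353c866c4773ec69b4a93ad4439f61a21686b8f250d7373a523f19f06b4f609a427fd124b00a76c39b92c69b1a9a89e4b9f686db68828f550dbe39ee66c5cb9da69b1f11c36a69f67dfa9a5f8f540d43665a55a566 = true := by decide +kernel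

theorem cB18_9_3_232 : chunkOkM (LB18_9.ctx true true 289 135 64 21 32 847 2821 256 64) muQ true true 64 RtB18_9.Cx.left.right.right RtB18_9.CX.left RtB18_9.Ctp.right.right.right.right.left.left RtB18_9.Ce.right.right.left.right.right.left.left RtB18_9.CTp.left.right.right RtB18_9.CEr 0x4e4bd487fdb22a7f66c6b43f869b10e4fd16a9f6baa87a028f550dbfe8e167fd636d3f66c5fea9169bcb0c031f8f6b5fe98938f550d6 = true := by decide +kernel

theorem cB18_9_3_233 : chunkOkM (LB18_9.ctx true true 313 267 128 21 32 3409 5707 256 256) muQ true true 64 RtB18_9.Cx.left.right.left RtB18_9.CX.left RtB18_9.Ctp.right.right.right.right.left.left RtB18_9.Ce.right.right.left.right.right.left.right RtB18_9.CTp.left.right.right RtB18_9.CEr.left 0x72903f97fd97b94366c5ee35c878b5124567f59f637f02dbe8f250dbd294987fd1019c6c76c85754d69b8ece028f19f640d3217c7451bc7fd78805e66c821ce069b44326d6139f619f12a6d8f250dd13fa9d7fde4e33066c575fbc578b3d04fc3369f65fe130498f550d31077dbd78fd1636b4576c5a344f69b5d4ca00819f62610f6268f250d74c06e89c7fdcdd69666c4868f369bc86108008f6c7385d378f550d36a6126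 = true := by decide +kernel

end Vale.Agent.helper4.Q4
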