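import Vale.Agent.helper4.Q4TreeM
import Vale.Agent.helper4.Q4G.PB18_9

/-!
Checks for pairs of intervals of second moments.
-/

set_option maxRecDepth 100000
set_option linter.unusedVariables false

namespace Vale.Agent.helper4.Q4

theorem cB18_9_3_234 : chunkOkM (LB18_9.ctx true true 322 267 128 21 32 1701 5707 1024 1024) muQ true true 64 RtB18_9.Cx.left.right.left RtB18_9.CX.left RtB18_9.Ctp.right.right.right.right.left.left RtB18_9.Ce.right.right.left.right.right.left.right RtB18_9.CTp.left.right.right RtB18_9.CEr.right 0x525a5a5a54bf2c57fd7ec5c766c4a19b169b5815fecac9f62b00ee0f8f550d217bfbea517fde2943166c532f2c69b33e18db629f65c61075f8f550d1a02576e8fd16b2f6976c54cd3569b5b9745d089f670608c688f250d74cd671da7fddbbae566c583db869b3ef246df8f6cc4f78dc8f550d3665a55a566 = true := by decide +kernel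

theorem cB18_9_3_235 : chunkOkM (LB18_9.ctx true true 299 135 64 21 32 1701 5707 256 128) muQ true true 64 RtB18_9.Cx.left.right.right RtB18_9.CX.left RtB18_9.Ctp.right.right.right.right.left.left RtB18_9.Ce.right.right.left.right.right.left.right RtB18_9.CTp.left.right.right RtB18_9.CEr 0x12a537878fd17de893585c45a47e69b136f00f269f68eccb9aa8f550d714dfa87fd67374166c6f569269b1123177579f6990183a38f550d12662c4996c7fd1397900b85ccf3f90a38f6ce9e34658f540d70cd4cb7fd1bfefb775c66945669b501238978f6dc679f6e8f550d654e0af37fdb0344c375c48e9b969b787bcc798f6bb2176b68f550d6aae8267fd89c40069bd30c10bd8f6bdcc74df8f540d643 = true := by decide +kernel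

theorem cB18_9_3_236 : chunkOkM (LB18_9.ctx true true 283 67 32 21 32 861 2847 256 64) muQ true true 64 RtB18_9.Cx.left.right RtB18_9.CX.left RtB18_9.Ctp.right.right.right.right.left.right RtB18_9.Ce.right.right.left.right.right.left RtB18_9.CTp.left.right.right RtB18_9.CEr 0x145c33068fd138c05a76c44a99969bf7cae3b38f240db8498617fd95d42366c8260cd69b10cfafbab9f240d62b8bbfc7fd63e94c66c238a0da79b199b69e7f9f156a9c25599f050d4 = true := by decide +kernel

theorem cB18_9_3_237 : chunkOkM (LB18_9.ctx true true 103 1 1 1 1 1 1 1 1) muQ true true 64 RtB18_9.Cx.left RtB18_9.CX.right RtB18_9.Ctp.right.right.right.right.left RtB18_9.Ce.right.right.left.right.right.left RtB18_9.CTp.left.right.right RtB18_9.CEr 0x4a = true := by decide +kernel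

theorem cB18_9_3_238 : chunkOkM (LB18_9.ctx true true 317 1055 512 11 16 6769 11245 128 64) muQ true true 64 RtB18_9.Cx.left.left RtB18_9.CX RtB18_9.Ctp.right.right.right.right.left RtB18_9.Ce.right.right.left.right.right.left RtB18_9.CTp.right RtB18_9.CEr 0x2121010133f5de37fd48ff6d475c6337c469c9f64f4eb2ff8f240d7a7fb337fd107cced985c5836a75409f68cccc21e8f240d51a101b198fd9b7f3f0039f66ef27fa38f230d63695b2f6687fdc97820475cca7ea25409f630d159310a78fd1c1420ed85ceaa4bbf189f630d669769346933321742174217 = true := by decide +kernel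

theorem cB18_9_3_239 : chunkOkM (LB18_9.ctx true true 283 133 64 11 16 1687 5629 64 64) muQ true true 64 RtB18_9.Cx.left.right.left RtB18_9.CX RtB18_9.Ctp.right.right.right.right.left.left.left RtB18_9.Ce.right.right.left.right.right.left.left.left RtB18_9.CTp.right RtB18_9.CEr.left 0x27d899f48fd1700622399f68b1377068f530d = true := by decide +kernel

theorem cB18_9_3_240 : chunkOkM (LB18_9.ctx true true 310 531 256 11 16 3381 11271 128 128) muQ true true 64 RtB18_9.Cx.left.right.left.left RtB18_9.CX RtB18_9.Ctp.right.right.right.right.left.left.left RtB18_9.Ce.right.right.left.right.right.left.left.left RtB18_9.CTp.right RtB18_9.CEr.right 0x34356a57fd470730475c6203495819f619ffe7448f540d136113718fd142db95385c3eb35bb759f630d790cfaf7fdbf58f2975c198b87878b62be4eb599f640d652efeee07fd5420b4275cd3123be6c9f630d6f77a267fdd173fcb75c70fbec12f9f630d569731561547fd42b8bb375c5d50021c99f648aa11518f540d7a425a97fdd5ab17375c679e880f09f63d667bbe8f540d543 = true := by decide +kernel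

theorem cB18_9_3_241 : chunkOkM (LB18_9.ctx true true 293 267 128 11 16 1687 5629 128 64) muQ true true 64 RtB18_9.Cx.left.right.left.right RtB18_9.CX RtB18_9.Ctp.right.right.right.right.left.left.left RtB18_9.Ce.right.right.left.right.right.left.left.left RtB18_9.CTp.right RtB18_9.CEr.right 0x218588e7fd3a169d075c1a418f6089f693d078898f540d66ac14d7fdc806b0575c1c96f00359f676188b5f8f540d5 = true := by decide +kernel

theorem cB18_9_3_242 : chunkOkM (LB18_9.ctx true true 283 133 64 11 16 1687 5655 64 64) muQ true true 64 RtB18_9.Cx.left.right.left RtB18_9.CX RtB18_9.Ctp.right.right.right.right.left.left.left RtB18_9.Ce.right.right.left.right.right.left.left.right RtB18_9.CTp.right RtB18_9.CEr.left 0x13f8c3728fd1977d5fec9f6948e0d758f530d = true := by decide +kernel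

theorem cB18_9_3_243 : chunkOkM (LB18_9.ctx true true 307 531 256 11 16 3381 11297 128 64) muQ true true 64 RtB18_9.Cx.left.right.left.left RtB18_9.CX RtB18_9.Ctp.right.right.right.right.left.left.left RtB18_9.Ce.right.right.left.right.right.left.left.right RtB18_9.CTp.right RtB18_9.CEr.right 0x691e9856e7fd615babf75c88383bbcf9f630d9c900b57fdfd3530975cb6acf1e819f630d56974693 = true := by decide +kernel

theorem cB18_9_3_244 : chunkOkM (LB18_9.ctx true true 309 535 256 11 16 3381 11323 128 128) muQ true true 64 RtB18_9.Cx.left.right.left.right RtB18_9.CX RtB18_9.Ctp.right.right.right.right.left.left.left RtB18_9.Ce.right.right.left.right.right.left.left.right RtB18_9.CTp.right RtB18_9.CEr.right 0x2a14b9c7fd529eade75c1349ec18f9f6888faaa08f540d11e93c4d8fd1310558585c11417870b9f6825208288f540d6bc54327fdb81f90275c1d6ba9178b289abff089f66c4263c18f550d651add5037fd32b5a6775c1b63718f09f6859f71978f540d63e10267fda75f41375c1c0800cbc9f6a01ec4448f540d56973b6ac347fd2b699d475c437075668f6a940d1b58f540d609655e7fdc903bfc75cb0aad5468f6a4a6f5208f540d543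 = true := by decide +kernel

theorem cB18_9_3_245 : chunkOkM (LB18_9.ctx true true 280 133 64 11 16 1701 2821 64 64) muQ true true 64 RtB18_9.Cx.left.right.left RtB18_9.CX RtB18_9.Ctp.right.right.right.right.left.left.right RtB18_9.Ce.right.right.left.right.right.left.left RtB18_9.CTp.right RtB18_9.CEr.left 0x325984c08fd8ac58b8e8f68b9ca4a88f53c95721a8f240d = true := by decide +kernel

theorem cB18_9_3_246 : chunkOkM (LB18_9.ctx true true 301 267 128 11 16 3409 5655 128 128) muQ true true 64 RtB18_9.Cx.left.right.left RtB18_9.CX RtB18_9.Ctp.right.right.right.right.left.left.right RtB18_9.Ce.right.right.left.right.right.left.left RtB18_9.CTp.right RtB18_9.CEr.right 0x2e32d267fd462223e75c54a3c58429f630d6a2373f7fdd924eb875c973964e0a9f630d53485a0a7fd5e506d075c3a801ff079f6184e6bd08f240d11ec00848fd15b1277985c521dd6e609f630d78503337fde9b5baa75c2ad6fd878bdf058e168f240d78a73f77fdc8a608475c2009cdd78b5919758d19f6142ff9758f250d365732d00cc7fd49ae28e75c7211cf13f9f630d72d3eb57fdd7c17f975cd63e859b604317c529f640d54 = true := by decide +kernel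

theorem cB18_9_3_247 : chunkOkM (LB18_9.ctx true true 293 269 128 11 16 1687 5655 128 64) muQ true true 64 RtB18_9.Cx.left.right.right RtB18_9.CX RtB18_9.Ctp.right.right.right.right.left.left RtB18_9.Ce.right.right.left.right.right.left.left RtB18_9.CTp.right RtB18_9.CEr 0x696913be2057fd33c9a6475c14b6320899f6b03399de8f540d640cb277fda91802475c1be8989179f68a1eb4738f540d573288c47368fde479bfe98f6b28576448f530d6694 = true := by decide +kernel

end Vale.Agent.helper4.Q4
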