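import Vale.Agent.helper4.Q4TreeM
import Vale.Agent.helper4.Q4G.PB18_9

/-!
Checks for pairs of intervals of second moments.
-/

set_option maxRecDepth 100000
set_option linter.unusedVariables false

namespace Vale.Agent.helper4.Q4

theorem cB18_9_3_248 : chunkOkM (LB18_9.ctx true true 308 535 256 11 16 3381 11375 128 64) muQ true true 64 RtB18_9.Cx.left.right.left RtB18_9.CX RtB18_9.Ctp.right.right.right.right.left.left.left RtB18_9.Ce.right.right.left.right.right.left.right RtB18_9.CTp.right RtB18_9.CEr 0x594c3858c7fdaada58d75c3cc7cb91b1af630d2b6e3677fd59ef5af75c59402dad29f6378f7a198f540d69afa557fdad62d9d75cbdc7f4f5c9f630d54314226d18fd55eb710ec9f620d66976935974 = true := by decide +kernel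

theorem cB18_9_3_249 : chunkOkM (LB18_9.ctx true true 285 133 64 21 32 1701 2847 64 64) muQ true true 64 RtB18_9.Cx.left.right.left RtB18_9.CX RtB18_9.Ctp.right.right.right.right.left.left.right RtB18_9.Ce.right.right.left.right.right.left.right RtB18_9.CTp.right RtB18_9.CEr.left 0x6a2b69c7398fd93dceb608f696e86f428f532947b968f240d8 = true := by decide +kernel

theorem cB18_9_3_250 : chunkOkM (LB18_9.ctx true true 307 531 256 11 16 3409 11375 128 64) muQ true true 64 RtB18_9.Cx.left.right.left RtB18_9.CX RtB18_9.Ctp.right.right.right.right.left.left.right RtB18_9.Ce.right.right.left.right.right.left.right.left RtB18_9.CTp.right RtB18_9.CEr.right 0x34fe63e7fd52db69f75c2e6b96b6c9f652ab4a6b8f540d6a9f93c7fdd172bb175c125729178b586921c649f6a74a6eb7f250d7b6714c7fdca64dfc75c62f9f85569f630d5ed85407fdd24d70c75c7ac86db529f630d43521553a4b97fdc9f021075cc1ce6a6bf9f6784341d28f240d42176937 = true := by decide +kernel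

theorem cB18_9_3_251 : chunkOkM (LB18_9.ctx true true 307 535 256 11 16 3409 11427 128 64) muQ true true 64 RtB18_9.Cx.left.right.left RtB18_9.CX RtB18_9.Ctp.right.right.right.right.left.left.right RtB18_9.Ce.right.right.left.right.right.left.right.right RtB18_9.CTp.right RtB18_9.CEr.right 0x5090f5a7fdc430eb175cd073875d19f630d21734acf157fd6f4496575c4a2f6e4709f6105614bc8f240d6bcaadb7fdb897d0a75c31030da78b8f89b92e09f640d54594e3ed5d7fdbc3d14b75c16c763189eaf630d43217 = true := by decide +kernel

theorem cB18_9_3_252 : chunkOkM (LB18_9.ctx true true 283 135 64 11 16 1687 5681 64 64) muQ true true 64 RtB18_9.Cx.left.right.right RtB18_9.CX RtB18_9.Ctp.right.right.right.right.left.left.left RtB18_9.Ce.right.right.left.right.right.left.right.left RtB18_9.CTp.right RtB18_9.CEr.left 0x1a382ed08fdbb97e3fa8f6ba6195578f530d = true := by decide +kernel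

theorem cB18_9_3_253 : chunkOkM (LB18_9.ctx true true 300 271 128 11 16 3381 11375 128 64) muQ true true 64 RtB18_9.Cx.left.right.right RtB18_9.CX RtB18_9.Ctp.right.right.right.right.left.left.left RtB18_9.Ce.right.right.left.right.right.left.right.left RtB18_9.CTp.right RtB18_9.CEr.right 0x4322a367fd91f4d6a75c1891163159f6a88fe86f8f540d4dc784e7fd403fd197f9aaf3cd398f6a09f91588f540d566af237fdbfc83d075c29fab63c59f6855201078f540d529fc8547fd41eb49b75c3276cc7e79f6738bebd08f540d5ce9f9e7fdc47e59775c38aeec2799f66d03fd628f540d5446647af7fd9f1d99875ce4988a8e8f6baf8c3a68f540db75dad218f05b577b8317fdbc2247275c12117860d9f6a0208aa98f540d5437 = true := by decide +kernel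

theorem cB18_9_3_254 : chunkOkM (LB18_9.ctx true true 283 135 64 11 16 1687 5707 64 64) muQ true true 64 RtB18_9.Cx.left.right.right RtB18_9.CX RtB18_9.Ctp.right.right.right.right.left.left.left RtB18_9.Ce.right.right.left.right.right.left.right.right RtB18_9.CTp.right RtB18_9.CEr.left 0x8c76cd77fd10f6be7349f6c4ad9a518f530d = true := by decide +kernel

theorem cB18_9_3_255 : chunkOkM (LB18_9.ctx true true 321 1079 512 11 16 6769 22841 128 64) muQ true true 64 RtB18_9.Cx.left.right.right RtB18_9.CX RtB18_9.Ctp.right.right.right.right.left.left.left RtB18_9.Ce.right.right.left.right.right.left.right.right RtB18_9.CTp.right RtB18_9.CEr.right 0x4376cd47fda0e654d75c871417038f6aeb644998f540d4428bd37fd9b4a1eb75c1238025b79f69e8e49c48f540d442372987fd99fd11e75c72252c348f6c4e34d988f540d359b7acd88d8f05b4dcfd957fdbe34f3875c15ce6ff5d8af630d559745935971ede3057fd62259e075ce2c80df88f6a16ffffe8f540d57972f17fdc4c46c375c15cff67739f69b867efa8f540d5594732e747fda79c4f275c23abe2c2b6af630d4593745937 = true := by decide +kernel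

theorem cB18_9_3_256 : chunkOkM (LB18_9.ctx true true 287 135 64 11 16 1701 5681 128 64) muQ true true 64 RtB18_9.Cx.left.right.right RtB18_9.CX RtB18_9.Ctp.right.right.right.right.left.left.right RtB18_9.Ce.right.right.left.right.right.left.right.left RtB18_9.CTp.right RtB18_9.CEr 0x2af04807fd4b8b7c66c3856d9b239f6681349ea8f540d5cceb717fdccef8266c2f2557e8e9f64a5cffa38f540d52df849c08fd3b9b6cb4f9f658664bf98f530d6 = true := by decide +kernel

theorem cB18_9_3_257 : chunkOkM (LB18_9.ctx true true 283 135 64 11 16 1701 5707 64 64) muQ true true 64 RtB18_9.Cx.left.right.right RtB18_9.CX RtB18_9.Ctp.right.right.right.right.left.left.right RtB18_9.Ce.right.right.left.right.right.left.right.right RtB18_9.CTp.right RtB18_9.CEr.left 0x2391f6328fdde77417a8f6998b2ea88f530d = true := by decide +kernel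

theorem cB18_9_3_258 : chunkOkM (LB18_9.ctx true true 301 271 128 11 16 3409 11427 128 64) muQ true true 64 RtB18_9.Cx.left.right.right RtB18_9.CX RtB18_9.Ctp.right.right.right.right.left.left.right RtB18_9.Ce.right.right.left.right.right.left.right.right RtB18_9.CTp.right RtB18_9.CEr.right 0x1be1c267fd4ca13b575c4aee5ca829f68242b95d8f540d59082147fdaaa2d0c75c1064f1178b385d03fa79f66fffdf0d8f550d5271225d7fd7c5940975c54b4c3eeb9f630d608d9457fdbbdaa3275c1119c4878b6cde17b899f640d52b979517fd55c9d5275c556e5f6349f63546158d8f540d7a480867fdc974f0a75c4dcab3a149f64c5064218f540d52ab5f797fd4b5372d75c34cae01639f65879d11a8f540d904e5337fde09503e75c2bd058d8c9f66388dd028f540d5437 = true := by decide +kernel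

theorem cB18_9_3_259 : chunkOkM (LB18_9.ctx true true 289 535 256 11 16 861 2847 64 64) muQ true true 64 RtB18_9.Cx.left.right RtB18_9.CX RtB18_9.Ctp.right.right.right.right.left.right RtB18_9.Ce.right.right.left.right.right.left RtB18_9.CTp.right RtB18_9.CEr 0x4fb53917fdc63b1166c738ab9b749f63ffe0b87f240d119f857b8f01c64fb53917fdc63b11575c1b03e281b9f61006b11d39f240d143611628fd1cb5934385c250a119759f612e3ae93e9f240d601701775523aae7fd73415966c2f90a63f49f193fad918a9f040d4 = true := by decide +kernel

theorem cB18_9_3_260 : chunkOkM (LB18_9.ctx true true 103 1 1 1 1 1 1 1 1) muQ true true 64 RtB18_9.Cx.left.left RtB18_9.CX RtB18_9.Ctp.right.right.right.right.left RtB18_9.Ce.right.right.left.right.right.right RtB18_9.CTp RtB18_9.CEr 0x21 = true := by decide +kernel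

theorem cB18_9_3_261 : chunkOkM (LB18_9.ctx true true 103 1 1 1 1 1 1 1 1) muQ true true 64 RtB18_9.Cx.left.right.left RtB18_9.CX RtB18_9.Ctp.right.right.right.right.left RtB18_9.Ce.right.right.left.right.right.right RtB18_9.CTp RtB18_9.CEr 0x21 = true := by decide +kernel

theorem cB18_9_3_262 : chunkOkM (LB18_9.ctx true true 103 1 1 1 1 1 1 1 1) muQ true true 64 RtB18_9.Cx.left.right.right RtB18_9.CX RtB18_9.Ctp.right.right.right.right.left RtB18_9.Ce.right.right.left.right.right.right RtB18_9.CTp.left.left RtB18_9.CEr 0x42 = true := by decide +kernel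

theorem cB18_9_3_263 : chunkOkM (LB18_9.ctx true true 103 1 1 1 1 1 1 1 1) muQ true true 64 RtB18_9.Cx.left.right.right RtB18_9.CX RtB18_9.Ctp.right.right.right.right.left RtB18_9.Ce.right.right.left.right.right.right RtB18_9.CTp.left.right.left RtB18_9.CEr 0x4a = true := by decide +kernel

end Vale.Agent.helper4.Q4
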