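import Vale.Agent.helper4.Q4TreeM
import Vale.Agent.helper4.Q4G.PB18_9

/-!
Checks for pairs of intervals of second moments.
-/

set_option maxRecDepth 100000
set_option linter.unusedVariables false

namespace Vale.Agent.helper4.Q4

theorem cB18_9_3_264 : chunkOkM (LB18_9.ctx true true 312 271 128 21 32 3381 5759 256 256) muQ true true 64 RtB18_9.Cx.left.right.right RtB18_9.CX.left RtB18_9.Ctp.right.right.right.right.left.left RtB18_9.Ce.right.right.left.right.right.right RtB18_9.CTp.left.right.right RtB18_9.CEr 0x6912f042dc8fd180272676c47100c69b9afa87498f6a9fa5b568f5147214908f260d5ab38dc7fd6b9e3d66c7ba5fc69bb50fd2718f6d0bd85ca8f550d8efebe57fdbfd89066c43a9a869b892ce8248f6c130eb568f550da0245c97fdce198666c50eefc69b2b1fce3fa9f6764893508f550d746a6126659fd053f27fddc4d5c975c8ff7e5498f6c1a366a58f540d6c15b1b7fd3ad6ce69b3a3b806f84c6458668f6e49188b48f550d6593597434 = true := by decide +kernel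

theorem cB18_9_3_265 : chunkOkM (LB18_9.ctx true true 309 271 128 21 32 1729 5759 256 256) muQ true true 64 RtB18_9.Cx.left.right.right RtB18_9.CX.left RtB18_9.Ctp.right.right.right.right.left.right RtB18_9.Ce.right.right.left.right.right.right.left RtB18_9.CTp.left.right.right RtB18_9.CEr.left 0x8695559f8f00b9867e097fdb8b67f66c62f98e69b296393ceb9f667f4c77a8f550d96821b57fdce7b5f66c5b3f1969b7b1810e1e9f67485a8ab8f250d746e9595f8f06b119c3d3e8fd16d916476c4e7dca69b7475fed8a9f65b92292a8f250d7436a6126 = true := by decide +kernel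

theorem cB18_9_3_266 : chunkOkM (LB18_9.ctx true true 323 271 128 21 32 1729 5759 1024 1024) muQ true true 64 RtB18_9.Cx.left.right.right RtB18_9.CX.left RtB18_9.Ctp.right.right.right.right.left.right RtB18_9.Ce.right.right.left.right.right.right.left RtB18_9.CTp.left.right.right RtB18_9.CEr.right 0x525a5a5a67bdd8568f00b5d09a866c67403e69b53ff5405b9f63e0e230b8f540d28f1296fd335ab066c2b7e0969b6900e544c9f685a3eae88f250d7aaea72d7fde2bef066c3f3efc69b119eada069f67be8c6578f52d5a56d88f260d43665a55a566 = true := by decide +kernel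

theorem cB18_9_3_267 : chunkOkM (LB18_9.ctx true true 323 271 128 21 32 1729 5811 1024 1024) muQ true true 64 RtB18_9.Cx.left.right.right RtB18_9.CX.left RtB18_9.Ctp.right.right.right.right.left.right RtB18_9.Ce.right.right.left.right.right.right.right RtB18_9.CTp.left.right.right RtB18_9.CEr 0x525a5a5a11fc725ab9f02b816d043cf9f06ba41e4c6fd473b7f66c4469ac69b129d183a19f68e4529878f533f643668f260d43665a55a56615ec69f009f02b1872f6308fd18fe25f76ca402dc69ba74db9e5c9f640d96cb9077fdd53b8b66c58343a69b1f05302269f6814b191a8f51f9e27228f260d436a61266217 = true := by decide +kernel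

theorem cB18_9_3_268 : chunkOkM (LB18_9.ctx true true 103 1 1 1 1 1 1 1 1) muQ true true 64 RtB18_9.Cx.left.right.right RtB18_9.CX.right RtB18_9.Ctp.right.right.right.right.left RtB18_9.Ce.right.right.left.right.right.right RtB18_9.CTp.left.right.right RtB18_9.CEr 0x4a = true := by decide +kernel

theorem cB18_9_3_269 : chunkOkM (LB18_9.ctx true true 293 271 128 11 16 3381 5733 64 64) muQ true true 64 RtB18_9.Cx.left.right.right RtB18_9.CX RtB18_9.Ctp.right.right.right.right.left.left.left RtB18_9.Ce.right.right.left.right.right.right.left RtB18_9.CTp.right RtB18_9.CEr 0x5945055c57fda03635075cd9b9d8e38f6b4010f058f540d29c6a7cc8fde31d3537f6d891a9688f530d65935974 = true := by decide +kernel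

theorem cB18_9_3_270 : chunkOkM (LB18_9.ctx true true 283 135 64 11 16 1701 5733 64 64) muQ true true 64 RtB18_9.Cx.left.right.right RtB18_9.CX RtB18_9.Ctp.right.right.right.right.left.left.right RtB18_9.Ce.right.right.left.right.right.right.left.left RtB18_9.CTp.right RtB18_9.CEr.left 0x2d6ae1638fd8a13aa488f6b463025d8f530d = true := by decide +kernel

theorem cB18_9_3_271 : chunkOkM (LB18_9.ctx true true 314 539 256 11 16 6825 22893 128 64) muQ true true 64 RtB18_9.Cx.left.right.right.left RtB18_9.CX RtB18_9.Ctp.right.right.right.right.left.left.right RtB18_9.Ce.right.right.left.right.right.right.left.left RtB18_9.CTp.right RtB18_9.CEr.right 0x4ec3f1b7fdba1343b75ccf681906d9f630d693697290d67c7fd63431e375c9ecf9da129f630d61f32427fda9fffe075c277dad578bb1f10fdf59f640d5459694a201eb7fdabbafb375c159eb5303aaf630d469359743 = true := by decide +kernel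

theorem cB18_9_3_272 : chunkOkM (LB18_9.ctx true true 313 1083 512 11 16 3409 11479 128 64) muQ true true 64 RtB18_9.Cx.left.right.right.right RtB18_9.CX RtB18_9.Ctp.right.right.right.right.left.left.right RtB18_9.Ce.right.right.left.right.right.right.left.left RtB18_9.CTp.right RtB18_9.CEr.right 0x2506de07fd26a7c7975c7c8d80fd99f630d5e003b47fdb91038d75c1156df078b2221bfbd09f684626afc8f550d522bffa67fd4a2246f75c1201f1c339f6a5f74eca8f540d4c09fcf7fdbbe4bfe75c3b9d334eb9f68a8628fc8f540d51f268a775c11281a848eaf61dcc09fe8f530d5a651727fda480b2e75c1e8b938ba9f6a414f0008f540d5697742c2c927fd27f39c375c10b24fe779f6a4cf3da08f540d59755667fdbba5dcc75cd8e12b37f6af618b568f540d543 = true := by decide +kernel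

theorem cB18_9_3_273 : chunkOkM (LB18_9.ctx true true 307 543 256 11 16 3409 11531 128 64) muQ true true 64 RtB18_9.Cx.left.right.right RtB18_9.CX RtB18_9.Ctp.right.right.right.right.left.left.right RtB18_9.Ce.right.right.left.right.right.right.left.right RtB18_9.CTp.right RtB18_9.CEr 0x1dc5f3c7fd641213b75c5bc6062499f6376e85f98f540d5c658297fdb0b721975ced8feb68bd7522e48b9f640d5697262894a7fd5485c2175c289699d8d9f66d6db71f8f540d52dfc577fdada038975c136ae3c78b33f24c2e79f66848705c8f550d5459c7d377f48f05b4ab0f767fdbc0868775c202bb98489f6a4908d678f540d55974315a869cc8fd1dc0921bd9f6b381d6898f530d6697 = true := by decide +kernel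

theorem cB18_9_3_274 : chunkOkM (LB18_9.ctx true true 103 1 1 1 1 1 1 1 1) muQ true true 64 RtB18_9.Cx.left.right.right RtB18_9.CX RtB18_9.Ctp.right.right.right.right.left.left RtB18_9.Ce.right.right.left.right.right.right.right RtB18_9.CTp.right RtB18_9.CEr 0x69 = true := by decide +kernel

theorem cB18_9_3_275 : chunkOkM (LB18_9.ctx true true 297 271 128 11 16 1715 5733 128 128) muQ true true 64 RtB18_9.Cx.left.right.right RtB18_9.CX RtB18_9.Ctp.right.right.right.right.left.right.left RtB18_9.Ce.right.right.left.right.right.right.left.left RtB18_9.CTp.right RtB18_9.CEr 0x4701ed67fdba02f2b75ca9bb2ad049f630d2583da97fd6ba3b5b75c450b26f6f9f61c037de38f240d48e95c37fd1146db9885c34b1555849f6856ae6698f240d7d372977fdc75661275c24d3d7f78b4ff5ac4429f6465f42ae8f250d65721dd59048fd424c6d6e79f674ee6737f230d6 = true := by decide +kernel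

end Vale.Agent.helper4.Q4
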