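import Vale.Agent.helper4.Q4TreeM
import Vale.Agent.helper4.Q4G.PB18_9

/-!
Checks for pairs of intervals of second moments.
-/

set_option maxRecDepth 100000
set_option linter.unusedVariables false

namespace Vale.Agent.helper4.Q4

theorem cB18_9_3_276 : chunkOkM (LB18_9.ctx true true 310 539 256 11 16 3437 11505 128 128) muQ true true 64 RtB18_9.Cx.left.right.right RtB18_9.CX RtB18_9.Ctp.right.right.right.right.left.right.left RtB18_9.Ce.right.right.left.right.right.right.left.right RtB18_9.CTp.right RtB18_9.CEr 0x287ffdf7fd65bc1b675c20808722f9f6735133218f540d87d1a8f7fd12aa71a585c5b19508129f630d6469cbc7fdb7dc1266c2fdb4ae78b4fb9f7bd29f65f8ded898f250d60bae247fdab1138275c274702678b418cc8f5a9f647ddde548f550d36549ba5b67fdc600f5275c2a0cdbb08f614adff6179f240d694a8f14b7fdc448f1775cb41db37149f630d4321771ad3651f8fdc8f655d18f68517a80b8f52c86ebf58f240d6 = true := by decide +kernel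

theorem cB18_9_3_277 : chunkOkM (LB18_9.ctx true true 277 135 64 11 16 1729 2873 64 32) muQ true true 64 RtB18_9.Cx.left.right.right RtB18_9.CX RtB18_9.Ctp.right.right.right.right.left.right.right RtB18_9.Ce.right.right.left.right.right.right.left RtB18_9.CTp.right RtB18_9.CEr 0x5fd05497fd780efaa75c3302b951b9f1a0b0b61cf9f040d = true := by decide +kernel

theorem cB18_9_3_278 : chunkOkM (LB18_9.ctx true true 103 1 1 1 1 1 1 1 1) muQ true true 64 RtB18_9.Cx.left.right.right.left RtB18_9.CX RtB18_9.Ctp.right.right.right.right.left.right RtB18_9.Ce.right.right.left.right.right.right.right RtB18_9.CTp.right RtB18_9.CEr 0x21 = true := by decide +kernel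

theorem cB18_9_3_279 : chunkOkM (LB18_9.ctx true true 348 4351 2048 11 16 27545 92781 128 64) muQ true true 64 RtB18_9.Cx.left.right.right.right RtB18_9.CX RtB18_9.Ctp.right.right.right.right.left.right.left RtB18_9.Ce.right.right.left.right.right.right.right RtB18_9.CTp.right RtB18_9.CEr 0x212169692efc3f67fdefc6a5b75c6c8313e077af630da6eb5db7f01c6469769342176934217693421759344966677fdc4d5b9275cb7fb451719f630d2172e1aa837fd60a833b75c9ce86d9449f630d5d56a8b7fda7864b075c1e45a7c78b7adb7e0f29f668f956e7f250d5469223bbfe7fd5bea91b75c11c52703a9af630d5d63aa37fdd18587175c1325253871af630d569743208caa508fd3b2599db19f647ce7bf78f530d64 = true := by decide +kernel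

theorem cB18_9_3_280 : chunkOkM (LB18_9.ctx true true 327 2175 1024 11 16 13783 23205 64 64) muQ true true 64 RtB18_9.Cx.left.right.right.right RtB18_9.CX RtB18_9.Ctp.right.right.right.right.left.right.right RtB18_9.Ce.right.right.left.right.right.right.right RtB18_9.CTp.right RtB18_9.CEr 0x01010121213f8e42c7fdb37dd3f75c37c61aebcbaf630ddcd68c27f01c6217421744ef9b6f7fdc8b021575c3ed191cf49f6faeb8bdc8f240dec197b27f06c64333017 = true := by decide +kernel

theorem cB18_9_3_281 : chunkOkM (LB18_9.ctx true true 103 1 1 1 1 1 1 1 1) muQ true true 64 RtB18_9.Cx.left RtB18_9.CX RtB18_9.Ctp.right.right.right.right.right RtB18_9.Ce.right.right.left.right.right RtB18_9.CTp RtB18_9.CEr 0x01 = true := by decide +kernel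

theorem cB18_9_3_282 : chunkOkM (LB18_9.ctx true true 296 137 64 21 32 1687 5707 256 64) muQ true true 64 RtB18_9.Cx.right RtB18_9.CX RtB18_9.Ctp.right.right.right.right.left RtB18_9.Ce.right.right.left.right.right.left RtB18_9.CTp RtB18_9.CEr 0x116911693c96f6d7fd84767866cdd738b418f6c0b2faab8f540d11ce1ce38fd161fd6076c1265472319f6ecb10fe58f540d6774a114673df47fd435a8f66c7884f369b10e848a739f6d8bd474c8f550d784a5425569469433 = true := by decide +kernel

theorem cB18_9_3_283 : chunkOkM (LB18_9.ctx true true 103 1 1 1 1 1 1 1 1) muQ true true 64 RtB18_9.Cx.right.left RtB18_9.CX RtB18_9.Ctp.right.right.right.right.left RtB18_9.Ce.right.right.left.right.right.right RtB18_9.CTp.left.left RtB18_9.CEr 0x42 = true := by decide +kernel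

theorem cB18_9_3_284 : chunkOkM (LB18_9.ctx true true 103 1 1 1 1 1 1 1 1) muQ true true 64 RtB18_9.Cx.right.left RtB18_9.CX RtB18_9.Ctp.right.right.right.right.left RtB18_9.Ce.right.right.left.right.right.right RtB18_9.CTp.left.right.left RtB18_9.CEr 0x4a = true := by decide +kernel

theorem cB18_9_3_285 : chunkOkM (LB18_9.ctx true true 296 139 64 21 32 1701 5759 256 64) muQ true true 64 RtB18_9.Cx.right.left RtB18_9.CX.left RtB18_9.Ctp.right.right.right.right.left.left RtB18_9.Ce.right.right.left.right.right.right.left RtB18_9.CTp.left.right.right RtB18_9.CEr 0x2a172cc7fd2e93e566cd6fae269b1594504d19f6f7f273d58f550d48c31197fd82ab2ee75c8244c469b83eade3b8f6ca849f288f550d5bdcc9f7fd12cba3075c76ce0d69be4e9c2e18f6cb7bf5ef8f550d6bfd85947fdc8fae3175c33304569bc517792e8f6be2b91b28f550d88912fb7fd41056866c5d1ece69bbd67dbd38f6c950bd858f550d643f681847fd49c1ac575c8aa45669b7f3e38d18f6f0dbf2ea8f550d10b586f58fdf35657275c1dcbe52a8f6ddd8a0a68f540d59d383d7fd66120269b95942d6f8be2f06a38f6e1ec9d758f550d6437 = true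 := by decide +kernel

theorem cB18_9_3_286 : chunkOkM (LB18_9.ctx true true 296 139 64 21 32 1701 5811 256 64) muQ true true 64 RtB18_9.Cx.right.left RtB18_9.CX.left RtB18_9.Ctp.right.right.right.right.left.left RtB18_9.Ce.right.right.left.right.right.right.right RtB18_9.CTp.left.right.right RtB18_9.CEr 0x344f1ff7fd510ac166c9c724069b8522b5168f6ed1234d88f550d333f1ec7fd30ba83875ca8090869b13d78d40b9f6108fd7b489f550d34a9d5657fdd9899366cdf2a2a198f6c00b6a788f540d4e379357fd11978d675c8938e369bc7c506ce8f6c5fb5fbd8f550d6125d9b8d8fd142654bb85c23488b69b21cafe0e8f6d76017798f550d4d44f697fd6e356e69bbd73dbec8f6c91ccc658f540d6426c3c9c7fd36260e66c129e6d479b11e9cb74e9f6fccbd8358f550d37 = true := by decide +kernel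

theorem cB18_9_3_287 : chunkOkM (LB18_9.ctx true true 297 139 64 21 32 1729 5811 256 64) muQ true true 64 RtB18_9.Cx.right.left RtB18_9.CX.left RtB18_9.Ctp.right.right.right.right.left.right RtB18_9.Ce.right.right.left.right.right.right RtB18_9.CTp.left.right.right RtB18_9.CEr 0x24ac5ac7fd4d6f0766c1302c3d79b30de74b6ba7fd128cd91085c65b62a69b29e6333249f67f1ca4c18f250d74ddbdf7fd61579d66c71a4fe69b3476ed05c9f68b5488ae8f250d6a92f7797fdeaac1fc75c51c3dd69b1500825149f6981615dd8f5ba3cc5f7f260d7cd1b287fd608352875c7a1eb869b187de485b9f69ef51dbd8f526bd8fd7f260d681a059e7fdd4743d975c43414269b10630cfed9f6a3c2b4a88f550d46d7fd67fd1d7973875c86316969b1f48dc6639f697c7ac698f550d6437459d96f7fd66a59766c8b3f3869b12b5c6c070af640d4 = true := by decide +kernel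

theorem cB18_9_3_288 : chunkOkM (LB18_9.ctx true true 103 1 1 1 1 1 1 1 1) muQ true true 64 RtB18_9.Cx.right.left RtB18_9.CX.right RtB18_9.Ctp.right.right.right.right.left RtB18_9.Ce.right.right.left.right.right.right RtB18_9.CTp.left.right.right RtB18_9.CEr 0x4a = true := by decide +kernel

end Vale.Agent.helper4.Q4
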