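import Vale.Agent.helper4.Q4TreeM
import Vale.Agent.helper4.Q4G.PB18_9

/-!
Checks for pairs of intervals of second moments.
-/

set_option maxRecDepth 100000
set_option linter.unusedVariables false

namespace Vale.Agent.helper4.Q4

theorem cB18_9_3_38 : chunkOkM (LB18_9.ctx true true 283 65 32 21 32 819 2691 256 64) muQ true true 64 RtB18_9.Cx.left RtB18_9.CX RtB18_9.Ctp.right.right.right.left.right.left RtB18_9.Ce.right.right.left.left.right.right RtB18_9.CTp.left RtB18_9.CEr 0x4a69342438438fd34cd5ed76c47282d69bf4be2cbc8f692750cdc8f550d1336d7388fdb2bcce66c8bfde069ba29e86b28f6a793d5588f550d621c05ca80384d7f06c64784a5425 = true := by decide +kernel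

theorem cB18_9_3_39 : chunkOkM (LB18_9.ctx true true 273 65 32 11 16 819 2665 128 64) muQ true true 64 RtB18_9.Cx.left.left RtB18_9.CX RtB18_9.Ctp.right.right.right.left.right.left RtB18_9.Ce.right.right.left.left.right.right.left RtB18_9.CTp.right RtB18_9.CEr 0x126708e7f01c7ef785c7fdaf2aa366c772ecd738f530d520481a498f01c6 = true := by decide +kernel

theorem cB18_9_3_40 : chunkOkM (LB18_9.ctx true true 276 129 64 11 16 819 2691 64 64) muQ true true 64 RtB18_9.Cx.left.left.left RtB18_9.CX RtB18_9.Ctp.right.right.right.left.right.left RtB18_9.Ce.right.right.left.left.right.right.right RtB18_9.CTp.right RtB18_9.CEr.left 0x2c0b7d148fdc66dc3ad8f6aea8f7d18f530d = true := by decide +kernel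

theorem cB18_9_3_41 : chunkOkM (LB18_9.ctx true true 287 129 64 11 16 1631 5369 128 64) muQ true true 64 RtB18_9.Cx.left.left.left RtB18_9.CX RtB18_9.Ctp.right.right.right.left.right.left.left RtB18_9.Ce.right.right.left.left.right.right.right.left RtB18_9.CTp.right RtB18_9.CEr.right 0x32652037fd28f96f6f9468325f7cf1e60d28f6a27e79ff8f550d86bf11c7fdbf6276b75c99e085e88f69d35cbf78f540d5 = true := by decide +kernel

theorem cB18_9_3_42 : chunkOkM (LB18_9.ctx true true 300 257 128 11 16 3269 10803 128 64) muQ true true 64 RtB18_9.Cx.left.left.left.left RtB18_9.CX RtB18_9.Ctp.right.right.right.left.right.left.left RtB18_9.Ce.right.right.left.left.right.right.right.right RtB18_9.CTp.right RtB18_9.CEr.right 0x25d50897fd72594065c7a1de3828f6ad25f8918f540d87849e27fdc311ac875c64545d598f6a9b37f0d8f540d53c0c0d17fd11411e575c8e12ce6f99e47592a8f6b0f494ff8f550d89827417fdc494bd175c6013787d8f6a296f4688f540d545f66c0c7fd8f9195e75ce04f01408f530d29807147fd1d77e265cbeb1fe4e8f6aa76058a8f540d7abf8587fdacec91475c5358e00d8f6bab18f658f540d543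 = true := by decide +kernel

theorem cB18_9_3_43 : chunkOkM (LB18_9.ctx true true 293 259 128 11 16 1631 5395 128 64) muQ true true 64 RtB18_9.Cx.left.left.left.right RtB18_9.CX RtB18_9.Ctp.right.right.right.left.right.left.left RtB18_9.Ce.right.right.left.left.right.right.right.right RtB18_9.CTp.right RtB18_9.CEr.right 0x34dbfcc7fd3f31b8875c4294a39be9f6bc34dc3c8f540d79c5ad67fda9e6c5175c107d6c6fb9f6a0c43baa8f540d5 = true := by decide +kernel

theorem cB18_9_3_44 : chunkOkM (LB18_9.ctx true true 284 129 64 11 16 1645 2691 128 64) muQ true true 64 RtB18_9.Cx.left.left.left RtB18_9.CX RtB18_9.Ctp.right.right.right.left.right.left.right RtB18_9.Ce.right.right.left.left.right.right.right RtB18_9.CTp.right RtB18_9.CEr.right 0x369e5217fdfdfae56caa94456f911258e9059f68bbc80ed8f550d91a58db7fde26a2666c14c5e0c2b9f67e8893b88f540d5 = true := by decide +kernel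

theorem cB18_9_3_45 : chunkOkM (LB18_9.ctx true true 276 131 64 11 16 819 2691 64 64) muQ true true 64 RtB18_9.Cx.left.left.right RtB18_9.CX RtB18_9.Ctp.right.right.right.left.right.left RtB18_9.Ce.right.right.left.left.right.right.right RtB18_9.CTp.right RtB18_9.CEr 0x54593717fd73ac0466c9e27586f8f6a8af4fdc8f540d1f107c188f01c6 = true := by decide +kernel

theorem cB18_9_3_46 : chunkOkM (LB18_9.ctx true true 103 1 1 1 1 1 1 1 1) muQ true true 64 RtB18_9.Cx.left.right RtB18_9.CX RtB18_9.Ctp.right.right.right.left.right.left RtB18_9.Ce.right.right.left.left.right.right RtB18_9.CTp.right RtB18_9.CEr 0x69 = true := by decide +kernel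

theorem cB18_9_3_47 : chunkOkM (LB18_9.ctx true true 103 1 1 1 1 1 1 1 1) muQ true true 64 RtB18_9.Cx.left RtB18_9.CX RtB18_9.Ctp.right.right.right.left.right.right RtB18_9.Ce.right.right.left.left.right RtB18_9.CTp RtB18_9.CEr 0x69 = true := by decide +kernel

theorem cB18_9_3_48 : chunkOkM (LB18_9.ctx true true 243 35 16 11 16 203 663 32 32) muQ true true 64 RtB18_9.Cx.right RtB18_9.CX RtB18_9.Ctp.right.right.right.left RtB18_9.Ce.right.right.left.left.right RtB18_9.CTp RtB18_9.CEr 0x23b308418fd8f914766c335974a8deaf43e9b355c09f140d = true := by decide +kernel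

theorem cB18_9_3_49 : chunkOkM (LB18_9.ctx true true 103 1 1 1 1 1 1 1 1) muQ true true 64 RtB18_9.Cx RtB18_9.CX RtB18_9.Ctp.right.right.right.right RtB18_9.Ce.right.right.left.left RtB18_9.CTp RtB18_9.CEr 0x11 = true := by decide +kernel

theorem cB18_9_3_50 : chunkOkM (LB18_9.ctx true true 322 527 256 21 32 6433 21645 256 64) muQ true true 64 RtB18_9.Cx.left.left RtB18_9.CX RtB18_9.Ctp.right.right.right.left.left RtB18_9.Ce.right.right.left.right.left.left RtB18_9.CTp RtB18_9.CEr 0x59564b8d67fd4d4eb8d75c284f1fdd8f6fce6d64e8f540df47c8997fded26a3be8f520d65935975a739e07fd668241c75c112e05b4a9f610d247b7f9f540d220f13ec8fdb22bd6eb8f6f92718e58f530d645959593d6b7277fd3b4f51775c3646da9d8f6f71f48f28f540def151517fd51a05c9d8f610458f0609f530d645935974593597434a117ca0a88fd90dc8d66c59c63769bb40e15c58f610d90d3d19f550dae543347fd1a5c9966c620ac969b70b593e38f6fab640698f550d684a542555974593 = true := by decide +kernel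

theorem cB18_9_3_51 : chunkOkM (LB18_9.ctx true true 263 67 32 11 16 791 1365 32 32) muQ true true 64 RtB18_9.Cx.left.right RtB18_9.CX RtB18_9.Ctp.right.right.right.left.left.left RtB18_9.Ce.right.right.left.right.left.left RtB18_9.CTp RtB18_9.CEr 0x12abc6448fd17af04a76c65535669b1a5aac9dedaf6149b2b78594bf54309fc9d74bbf460d = true := by decide +kernel

theorem cB18_9_3_52 : chunkOkM (LB18_9.ctx true true 290 135 64 21 32 1617 2743 256 32) muQ true true 64 RtB18_9.Cx.left.right RtB18_9.CX RtB18_9.Ctp.right.right.right.left.left.right RtB18_9.Ce.right.right.left.right.left.left RtB18_9.CTp.left RtB18_9.CEr 0x4a44d86247fda7db2369b19ad1947f878ad5c498f6123617d1f9f550d4494f877fdb8eae869b2bda8f77f815db5b9069f6164de3e369f576cb6b738f460d34a986457fd7fcde269b25bfc26f8ec2b0dda8f6148b4e6df9f550d74d4209c7fd8098a369b1f83ced7f812afece009f61432ecc9f9f566d5ddbb8f460d63115b57fd348c5a69b19034b6f83584b61d8f6f9d057648f550d54455037fd6f83b769b161b63a7f8cb03005b8f6140db6f0b9f550d37484a5425 = true := by decide +kernel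

theorem cB18_9_3_53 : chunkOkM (LB18_9.ctx true true 287 133 64 11 16 1603 5447 128 64) muQ true true 64 RtB18_9.Cx.left.right.left RtB18_9.CX RtB18_9.Ctp.right.right.right.left.left.right.left RtB18_9.Ce.right.right.left.right.left.left.left RtB18_9.CTp.right RtB18_9.CEr 0x20c2bee7fd28d06d87f8118e17ad39f61484785839f540d5fd36bd7fd31cbbaf75c22842e7799f61afe9c9799f540de2163eb7fdf56ccd048f614c3e51f09f530d653091cc57fd3e2726575c454c7d8a8f6100ea22459f540dde8304d7fd156476b75c101450d949f530d64 = true := by decide +kernel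

theorem cB18_9_3_54 : chunkOkM (LB18_9.ctx true true 283 133 64 11 16 1617 5447 64 64) muQ true true 64 RtB18_9.Cx.left.right.left RtB18_9.CX RtB18_9.Ctp.right.right.right.left.left.right.right RtB18_9.Ce.right.right.left.right.left.left.left RtB18_9.CTp.right RtB18_9.CEr 0x3b7ebd47fd58439ed75c42495d5f8f6ed0d22e38f540da5a42987fd2dae3aa4f9f616cf40bd89f530d634141a17fd54fcc766ca9e144348f61087b791f9f540d1a0777bf8fdcd84b6b18f61167ef1c99f530d64 = true := by decide +kernel

theorem cB18_9_3_55 : chunkOkM (LB18_9.ctx true true 284 135 64 11 16 3213 2717 64 64) muQ true true 64 RtB18_9.Cx.left.right.right RtB18_9.CX RtB18_9.Ctp.right.right.right.left.left.right RtB18_9.Ce.right.right.left.right.left.left.left RtB18_9.CTp.right RtB18_9.CEr 0x691bef6867fd1a1c1166c944332048f6125e11e979f55151fe3f8f450df25d64c7fd797a1e66c1b8076028f611ac3958d9f51a96d32a8f450d64933 = true := by decide +kernel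

end Vale.Agent.helper4.Q4
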