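import Vale.Agent.helper4.Q4TreeM
import Vale.Agent.helper4.Q4G.PB18_9

/-!
Checks for pairs of intervals of second moments.
-/

set_option maxRecDepth 100000
set_option linter.unusedVariables false

namespace Vale.Agent.helper4.Q4

theorem cB18_9_3_289 : chunkOkM (LB18_9.ctx true true 289 275 128 11 16 1687 5759 64 64) muQ true true 64 RtB18_9.Cx.right.left.left RtB18_9.CX RtB18_9.Ctp.right.right.right.right.left.left.left RtB18_9.Ce.right.right.left.right.right.right.left RtB18_9.CTp.right RtB18_9.CEr 0x32cf00d7fd8be74af75c7d2857108f6d507d00d8f540d1f3c17428fd1d0c064d85cf2be02108f530d62e03ba07fd78f6edb75c10719c0d79f6d8d7338c8f540d219c033d8fd10de2d83c9f6f2988a5f8f530d63d1e7407fd938aeba75ca2e61ed58f6ca4052178f540d8f81ec97fd4e0e9c675c94b4e74a8f6d4ba758a8f540d674 = true := by decide +kernel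

theorem cB18_9_3_290 : chunkOkM (LB18_9.ctx true true 297 275 128 11 16 3409 5759 128 64) muQ true true 64 RtB18_9.Cx.right.left.left RtB18_9.CX RtB18_9.Ctp.right.right.right.right.left.left.right RtB18_9.Ce.right.right.left.right.right.right.left RtB18_9.CTp.right RtB18_9.CEr 0x369048c7fd8f2c4b975c9eca308e8f6b98e73d18f540d7e43046fd64407cb75c1ce73f5db9f6ae844edc8f540d4fdb8617fdca319d875cae6f5d2b8f6a1ae7f868f540d540e0d707fd9f8227475cde9a5fd58f6b115e6c28f540d3728bfc7b98fd9cfc60d28f6cf37c8558f530d63e4d4887fd99a6fc66c1198100359f6a2b1f1378f540d26cc95588fd745c3b4f8f6ca3a48208f530d64 = true := by decide +kernel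

theorem cB18_9_3_291 : chunkOkM (LB18_9.ctx true true 289 277 128 11 16 1687 5759 64 64) muQ true true 64 RtB18_9.Cx.right.left.right RtB18_9.CX RtB18_9.Ctp.right.right.right.right.left.left RtB18_9.Ce.right.right.left.right.right.right.left RtB18_9.CTp.right RtB18_9.CEr 0x696923bac947fd5bb579175cc0bcecaa8f6ed7616da8f540d11c1238d8fdea8c64875cec42e63e8f610210f1169f540d676943 = true := by decide +kernel

theorem cB18_9_3_292 : chunkOkM (LB18_9.ctx true true 297 275 128 11 16 3381 5785 128 64) muQ true true 64 RtB18_9.Cx.right.left.left RtB18_9.CX RtB18_9.Ctp.right.right.right.right.left.left.left RtB18_9.Ce.right.right.left.right.right.right.right RtB18_9.CTp.right RtB18_9.CEr 0x59df25aded8f05b37f23cb7fd98cc00975c425f7b598f6d000e9108f540dc3b33b47fdc1e7a3d75cf35058aa8f530d655935974 = true := by decide +kernel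

theorem cB18_9_3_293 : chunkOkM (LB18_9.ctx true true 307 547 256 11 16 3409 11583 128 64) muQ true true 64 RtB18_9.Cx.right.left.left RtB18_9.CX RtB18_9.Ctp.right.right.right.right.left.left.right RtB18_9.Ce.right.right.left.right.right.right.right.left RtB18_9.CTp.right RtB18_9.CEr 0x376f7b17fda0c817675cddbd58ee8f6ba4395c68f540d3adbc527fda930f3775c1f3a6e05d9f6a0c0cd698f540d6973c1a03c7fda2c405175c1b56579ad9f69cd9f7a58f540dca90196fd39a386a75c59803d8fd9f6238064e08f540d50c7c777fda3a1db775c1023c0e78b1c205429c9f6a705ad358f550d574384c52a7fd97b340375c101c376229f6c919e1eb8f540d375e962897fd4bb3cb028f6c5b6d0408f530d6 = true := by decide +kernel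

theorem cB18_9_3_294 : chunkOkM (LB18_9.ctx true true 283 137 64 11 16 1701 5811 64 64) muQ true true 64 RtB18_9.Cx.right.left.left RtB18_9.CX RtB18_9.Ctp.right.right.right.right.left.left.right RtB18_9.Ce.right.right.left.right.right.right.right.right RtB18_9.CTp.right RtB18_9.CEr 0x381a6c97fda5ec11d75c99d035128f6c4b5b6558f540d20c5b9d38fd24c649d88f6e4cdee488f530d6 = true := by decide +kernel

theorem cB18_9_3_295 : chunkOkM (LB18_9.ctx true true 294 279 128 11 16 3381 5811 64 64) muQ true true 64 RtB18_9.Cx.right.left.right RtB18_9.CX RtB18_9.Ctp.right.right.right.right.left.left.left RtB18_9.Ce.right.right.left.right.right.right.right RtB18_9.CTp.right RtB18_9.CEr 0x15f66fe7fd8042f4975c7b0113928f6fe6100dd8f540d1ea66de48fd872482ea8f610f904fe19f530d638897377fd5dcc8866c2729e94519f612bc14d3d9f540dde1fe977f01c634499b6fd6d3c63875c1191610bb9f6122adc5589f540d255f853a8fdb097252a8f6115bbace09f530d6330d301a7fd77797fe75c62d12f028f6ee2465a08f540d7ad773f7fd16b85ab0b9f6105f332d09f530d674 = true := by decide +kernel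

theorem cB18_9_3_296 : chunkOkM (LB18_9.ctx true true 290 279 128 11 16 1701 5811 64 64) muQ true true 64 RtB18_9.Cx.right.left.right RtB18_9.CX RtB18_9.Ctp.right.right.right.right.left.left.right RtB18_9.Ce.right.right.left.right.right.right.right RtB18_9.CTp.right RtB18_9.CEr 0x36adc8e7fd6516a466ca2a5b7d98f530d949207e7fd1707fff659f610d1692ec9f530d62ee69147fda0d599d75c201942c759f6d6ef23a58f540d11e9742e8fd19a85c4585c113df7f669f6e25af39f8f540d67279fe157fd8c5fee66c6955400a8f6ba3f816b8f540d23360df58fd8734f4de8f6f2459e968f530d64 = true := by decide +kernel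

theorem cB18_9_3_297 : chunkOkM (LB18_9.ctx true true 271 69 32 11 16 861 2873 64 64) muQ true true 64 RtB18_9.Cx.right.left RtB18_9.CX RtB18_9.Ctp.right.right.right.right.left.right RtB18_9.Ce.right.right.left.right.right.right.left RtB18_9.CTp.right RtB18_9.CEr 0x4ce74757fdad21bb66c10545ae7f9b911913209f640ddb6ccce7f01c6 = true := by decide +kernel

theorem cB18_9_3_298 : chunkOkM (LB18_9.ctx true true 301 275 128 11 16 3437 11583 128 64) muQ true true 64 RtB18_9.Cx.right.left.left RtB18_9.CX RtB18_9.Ctp.right.right.right.right.left.right.left RtB18_9.Ce.right.right.left.right.right.right.right.left RtB18_9.CTp.right RtB18_9.CEr 0x36a0c887fda0fec566c20d184eadd7fd658be7975c7bdea55349f630d539c2287fdd5d426475c795d83afe9f630d5245407e7fd5be6fa675c385a304e99f65b281da88f540d4e402ab7fda02ceef75c271230178b37132c2019f678c485098f550d5266c4d97fd8895d7a75c1028af7d56af630d535f99e7fdc76747575c9723fe1b79f630d543722c17a098fd2ac742a779f6b30021e08f530d6 = true := by decide +kernel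

end Vale.Agent.helper4.Q4
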