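import Vale.Agent.helper4.Q4TreeM
import Vale.Agent.helper4.Q4G.PB18_9

/-!
Checks for pairs of intervals of second moments.
-/

set_option maxRecDepth 100000
set_option linter.unusedVariables false

namespace Vale.Agent.helper4.Q4

theorem cB18_9_3_317 : chunkOkM (LB18_9.ctx true true 313 555 256 21 32 3465 5915 256 64) muQ true true 64 RtB18_9.Cx.right.left.right RtB18_9.CX.left RtB18_9.Ctp.right.right.right.right.left.right.right RtB18_9.Ce.right.right.right.left.left.left.right RtB18_9.CTp.left.right.right RtB18_9.CEr 0x124705258fd1728982a85c4fd04f69bd1eb710c8f540d7d6fee07fd99525c075c81f9b569bcea4dcba8f6cb4486a58f550d64a81cde7fdafedacc75c3e5d2969b1434335529f6be9fd0b68f550d1b918827fd867ab0678b184663f769f699e2adac8f540d669769373f25e777fdb72ec4f75c82dd5b69be08e6df28f6b555127e8f550d6604d067fd568e08075c7fc59b69b18a415f6a9f69ab044618f550d64 = true := by decide +kernel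

theorem cB18_9_3_318 : chunkOkM (LB18_9.ctx true true 103 1 1 1 1 1 1 1 1) muQ true true 64 RtB18_9.Cx.right.left RtB18_9.CX.right RtB18_9.Ctp.right.right.right.right.left RtB18_9.Ce.right.right.right.left.left.left RtB18_9.CTp.left.right.right RtB18_9.CEr 0x4a = true := by decide +kernel

theorem cB18_9_3_319 : chunkOkM (LB18_9.ctx true true 352 8831 4096 11 16 54649 93197 64 64) muQ true true 64 RtB18_9.Cx.right.left RtB18_9.CX RtB18_9.Ctp.right.right.right.right.left.left RtB18_9.Ce.right.right.right.left.left.left RtB18_9.CTp.right RtB18_9.CEr 0x591c4b6cc7fd6dae01d75c209a3ff959f6f334dc278f540d22cc23298fd391a85a28f6feaf05808f530d65972eb708e7fd94415e175c1122ba32c9f6e234f2878f540d532a1b27fde66aad668f6ed406f618f530d6459479417a7fd35eff8775c4d7163ff99f6183ddca259f540d1d9197988fd7cfcfdf48f610d9103959f530d65935974359595959592e391867fd94897ee75cce5c15ed8f530dcfff0d27f01c65975934597593597459359745935974593597459374 = true := by decide +kernel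

theorem cB18_9_3_320 : chunkOkM (LB18_9.ctx true true 307 551 256 11 16 3437 11713 128 64) muQ true true 64 RtB18_9.Cx.right.left.left RtB18_9.CX RtB18_9.Ctp.right.right.right.right.left.right.left RtB18_9.Ce.right.right.right.left.left.left.left RtB18_9.CTp.right RtB18_9.CEr 0x5935de58c7fdb2ee5cb75c37001ff949f68f062b558f540d59745932173819b347fdb24c9c875c31eb751b29f6844be1458f540d37bde697fdb1e6e1075cfb87dbfdf9f630d71f5f4e57fd6d2af3675c1a1f6ea6a9f69e18e5798f540d581df6a7fd96ae08c75c2415f6b78b1ccf34b759f6889ee1548f550d543b10bf77fdace5ce975c55cc1fc18f6be467c028f540d3593d7b6757fdbad4a5575ce54c681349f630d459374171f77d38fdb40ed2ca8f6b4cd8e008f530d6 = true := by decide +kernel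

theorem cB18_9_3_321 : chunkOkM (LB18_9.ctx true true 301 275 128 11 16 3465 11687 128 64) muQ true true 64 RtB18_9.Cx.right.left.left RtB18_9.CX RtB18_9.Ctp.right.right.right.right.left.right.right RtB18_9.Ce.right.right.right.left.left.left.left.left RtB18_9.CTp.right RtB18_9.CEr 0x14200b77fd68f28bc75c6117a07949f630d4fbbc8b7fda7fc61075c1d519ae78b58e822b1a9f611c9ffaa8f550d53d7c1587fdc76e92d75c2add23d78f615bed96989f240d3e56cd07fdc63bb8775ca6595c3b89f62b7e607a8f240d24bf7e27fd847a9ba75c76c8824529f619f77b6d8f240d4b339ed7fdba7a30875c243047a78b4e7d6cade9f623c0fcf98f250d54372309c79f8fd862087498f6a24a15698f53b193c528f240d6 = true := by decide +kernel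

theorem cB18_9_3_322 : chunkOkM (LB18_9.ctx true true 307 551 256 11 16 3465 11739 128 64) muQ true true 64 RtB18_9.Cx.right.left.left RtB18_9.CX RtB18_9.Ctp.right.right.right.right.left.right.right RtB18_9.Ce.right.right.right.left.left.left.left.right RtB18_9.CTp.right RtB18_9.CEr 0x15182b07fd5d4719275c3435bf06d9f68556df6b8f240d4d938997fdaaeb70575c1d7918a78b3d6c797df9f67a0082888f250d535cbd747fdb9cfbc175cab406c4e89f630d697399f5a87fd476211675c2deb5ca7f996b05c84c9f611a68917f550d47a43737fda50291875c2bef63178b8ad2d9b939f640d5431d54087f8fd1c07900d59f68a9844b38f569d788a7f240d6217 = true := by decide +kernel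

theorem cB18_9_3_323 : chunkOkM (LB18_9.ctx true true 290 279 128 11 16 1715 5863 64 64) muQ true true 64 RtB18_9.Cx.right.left.right RtB18_9.CX RtB18_9.Ctp.right.right.right.right.left.right.left RtB18_9.Ce.right.right.right.left.left.left.left RtB18_9.CTp.right RtB18_9.CEr 0x28d05a97fd938ca6d75ced7b98958f6c3a41f298f540d1792f6ca8fd10739750a9f6d3b4175d8f530d635cb1367fdadf587875c13c842d679f6ae6947ff8f540d28e666058fda0e956468f6cdafceb98f530d6738b7e1b7fda763a066cd23030f18f6ac885aeb8f540d4afb5037fd1639d42549f6c352f30a8f530d64 = true := by decide +kernel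

theorem cB18_9_3_324 : chunkOkM (LB18_9.ctx true true 294 277 128 11 16 1729 5863 128 64) muQ true true 64 RtB18_9.Cx.right.left.right RtB18_9.CX RtB18_9.Ctp.right.right.right.right.left.right.right RtB18_9.Ce.right.right.right.left.left.left.left RtB18_9.CTp.right RtB18_9.CEr 0x691eccee97fd2a19d6f75c3600c177f9e4f7bc738f6994c7fc98f550d4b50e0b7fd9c7762175c27589f278b2c4321aab9f6891cdc7c8f550d57242df89d8fd1e96b10fa9f6aef5a87a8f530d6694 = true := by decide +kernel

theorem cB18_9_3_325 : chunkOkM (LB18_9.ctx true true 303 551 256 11 16 3465 11765 64 64) muQ true true 64 RtB18_9.Cx.right.left.left RtB18_9.CX RtB18_9.Ctp.right.right.right.right.left.right RtB18_9.Ce.right.right.right.left.left.left.right RtB18_9.CTp.right RtB18_9.CEr 0x21213947f077fdc285d1775c9712e6bd29f61b68464a8f240d175e6c468fda709d26809f620d642176932174593 = true := by decide +kernel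

theorem cB18_9_3_326 : chunkOkM (LB18_9.ctx true true 281 139 64 11 16 1715 2951 64 64) muQ true true 64 RtB18_9.Cx.right.left.right RtB18_9.CX RtB18_9.Ctp.right.right.right.right.left.right.left RtB18_9.Ce.right.right.right.left.left.left.right RtB18_9.CTp.right RtB18_9.CEr 0x2e11e927fda987bf66c8a51065a8f6d018be188f540d1a5c5a488fd4b647bed8f6df0e4bfa8f530d6 = true := by decide +kernel

end Vale.Agent.helper4.Q4
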