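import Vale.Agent.helper4.Q4TreeM
import Vale.Agent.helper4.Q4G.PB18_9

/-!
Checks for pairs of intervals of second moments.
-/

set_option maxRecDepth 100000
set_option linter.unusedVariables false

namespace Vale.Agent.helper4.Q4

theorem cB18_9_3_327 : chunkOkM (LB18_9.ctx true true 307 555 256 11 16 3465 11791 128 64) muQ true true 64 RtB18_9.Cx.right.left.right RtB18_9.CX RtB18_9.Ctp.right.right.right.right.left.right.right RtB18_9.Ce.right.right.right.left.left.left.right.left RtB18_9.CTp.right RtB18_9.CEr 0x2f8551d7fdace032875ced388f6b8f6a6ea6b518f540d1ac782f7fd79e827375c9661d47c59f630d3f47c767fda23a66c75c3167ac578b5e8ec01089f6282e6e218f550d534b4bd87fdbaf02b375c9f3a09c279f630d431cd9937fdb73ad6775c399a54cc39f69250d4708f540d31aeb3c7fdb268be775c11df91b929f6a41fe3f18f540d32843b17fdb4234d675c9084c04ef9f643975e5c8f540d743731c2bbab8fdea823cee8f6bce704e48f530d6 = true := by decide +kernel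

theorem cB18_9_3_328 : chunkOkM (LB18_9.ctx true true 304 555 256 11 16 3465 11843 64 64) muQ true true 64 RtB18_9.Cx.right.left.right RtB18_9.CX RtB18_9.Ctp.right.right.right.right.left.right.right RtB18_9.Ce.right.right.right.left.left.left.right.right RtB18_9.CTp.right RtB18_9.CEr 0x2d857567fdbc28d8975c35ba9f1fd9f6821b21868f540d2e5ce287fdb62199375c28a2321749f6808c26448f540d433f950d7fdb24743775cef637c9b8f6a429690f8f540d32ff5d2c7fdb557ac375c150866ffafaf630d310c4507fdb7a95f775cb11961ece9f630d46976937225d79248fd3f848fd58f6d16194148f530d6 = true := by decide +kernel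

theorem cB18_9_3_329 : chunkOkM (LB18_9.ctx true true 287 143 64 21 32 847 2925 256 32) muQ true true 64 RtB18_9.Cx.right.right RtB18_9.CX RtB18_9.Ctp.right.right.right.right.left.left RtB18_9.Ce.right.right.right.left.left.left.left RtB18_9.CTp.left RtB18_9.CEr 0x4a2e178637fd66b4756c3c0b4b69b1e64fb66c9f610b0927b09f518e4759e19f460d34d88a07fd21d7cd66c4f4b3269be0fd30d98f611b5453a79f550d784a5425 = true := by decide +kernel

theorem cB18_9_3_330 : chunkOkM (LB18_9.ctx true true 297 283 128 11 16 3381 11687 64 64) muQ true true 64 RtB18_9.Cx.right.right.left RtB18_9.CX RtB18_9.Ctp.right.right.right.right.left.left.left RtB18_9.Ce.right.right.right.left.left.left.left.left RtB18_9.CTp.right RtB18_9.CEr 0x20046d17fdba69816f8207f4388c9f612d9cff4f9f540d2a097d6fd3ee2bb675c52b8a66f9a990b7be8f6120f598bc9f51138f0d38f460dcb2509f7fd122dac80e9f5bc550637f430d681d4176fd253c98b75ca90dca6f9df6aa72d8f612ca6ab6a9f550d15eb604c8fd1353c60a59f6150593c2d9f530d64317a29677fd606120b75c9f5c373d8f6107652a959f540d83a9e007fd58ae30b75c1491e155e9f613498d6f49f540d67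 = true := by decide +kernel

theorem cB18_9_3_331 : chunkOkM (LB18_9.ctx true true 284 141 64 11 16 1687 5863 64 64) muQ true true 64 RtB18_9.Cx.right.right.left RtB18_9.CX RtB18_9.Ctp.right.right.right.right.left.left.left RtB18_9.Ce.right.right.right.left.left.left.left.right RtB18_9.CTp.right RtB18_9.CEr 0xfd15926fd4e256e475cec8aa66f92bd061bdb9f6156e8d1419f550d1c553f358fd11a953cde9f613f79eae59f530d6 = true := by decide +kernel

theorem cB18_9_3_332 : chunkOkM (LB18_9.ctx true true 294 283 128 11 16 3409 5863 64 64) muQ true true 64 RtB18_9.Cx.right.right.left RtB18_9.CX RtB18_9.Ctp.right.right.right.right.left.left.right RtB18_9.Ce.right.right.right.left.left.left.left RtB18_9.CTp.right RtB18_9.CEr 0x1fe712b7fd27aa956c195d3af589f6109866b2f9f540d21a45cf7fd6fb96d575ccf0d887c8f530d25302c3c8fd4d59ffe68f6fcffc7298f530d6dcc3e56fd503ba1675cd40eaab28f6f9e765658f540d1ccc317c8fd90ffba928f611338fa4f9f530d6376999580866c9a3cb3c88f6ed2f91498f530d784e80b7fd1094cd1b99f6127a337159f530d634 = true := by decide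 +kernel

theorem cB18_9_3_333 : chunkOkM (LB18_9.ctx true true 282 143 64 11 16 3381 2925 64 32) muQ true true 64 RtB18_9.Cx.right.right.right RtB18_9.CX RtB18_9.Ctp.right.right.right.right.left.left RtB18_9.Ce.right.right.right.left.left.left.left RtB18_9.CTp.right RtB18_9.CEr 0x691a505fe7fd103bb1e7f81e55bb8619f613c3a99529f530ae763c8f450d4933 = true := by decide +kernel

theorem cB18_9_3_334 : chunkOkM (LB18_9.ctx true true 287 143 64 21 32 847 2951 256 32) muQ true true 64 RtB18_9.Cx.right.right RtB18_9.CX RtB18_9.Ctp.right.right.right.right.left.left RtB18_9.Ce.right.right.right.left.left.left.right RtB18_9.CTp.left RtB18_9.CEr 0x4a2666bcf7fd6445256c50fe7269be5bd89da8f6138a898c69f51c979e818f460d2460fcd7fd31235466c9166b769b1873f6ddc9f61431aa9ad9f550d784a5425 = true := by decide +kernel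

theorem cB18_9_3_335 : chunkOkM (LB18_9.ctx true true 290 283 128 11 16 1701 5915 64 64) muQ true true 64 RtB18_9.Cx.right.right.left RtB18_9.CX RtB18_9.Ctp.right.right.right.right.left.left RtB18_9.Ce.right.right.right.left.left.left.right RtB18_9.CTp.right RtB18_9.CEr 0x6b18196fd728cbf775c1fd6577df9f613403de149f540d287a0d388fda377ae418f6121808a6d9f530d65971d9ca8d7fd6c89c2e75ca1e7a6598f6106ee1a789f540d55ea7f77fd1aa37e66c76ed482a8f6f90005288f540d641b6cf337fd6f300a6f810da50bd09f6144249f2d9f540d3 = true := by decide +kernel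

theorem cB18_9_3_336 : chunkOkM (LB18_9.ctx true true 294 287 128 11 16 3409 5915 64 64) muQ true true 64 RtB18_9.Cx.right.right.right RtB18_9.CX RtB18_9.Ctp.right.right.right.right.left.left RtB18_9.Ce.right.right.right.left.left.left.right RtB18_9.CTp.right RtB18_9.CEr 0x1559fd87fd18ba9a6f81e3b15a2a9f613a24a6c29f57947dd078f450d197cd357fdc1f5556cc40527d28f610a310f769f540d158fa097fdfbac75f86f49bf828f611fa58a8b9f540d376918ded9f7fd51e3296f8aa7c3c2d8f6108f8bd5c9f540d3449150c4417fde6c9cf6f8c8b7fff08f613b87d2f79f5461880e88f450d58297f6fd407ae2375c11f49b86f9f61329ab5549f535f630e08f450d70a5e837fd41f15166cdab5de7f8f61341cc3ab9f5541f184d8f450d6474933 = true := by decide +kernel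

theorem cB18_9_3_337 : chunkOkM (LB18_9.ctx true true 291 143 64 21 32 1729 2951 256 32) muQ true true 64 RtB18_9.Cx.right.right RtB18_9.CX RtB18_9.Ctp.right.right.right.right.left.right RtB18_9.Ce.right.right.right.left.left.left RtB18_9.CTp.left RtB18_9.CEr 0x4a2d93de37f06c315e6337fd5ff5ea66c81994a69b183d023cb9f6cb457d7c8f550d2834bd17fd5ce04566cb9e1a269bce76609b8f6f77ec6b68f550d3723cacfa7fd39fc3066caa1ffd69bb2f841e08f6d0f821118f550d484a5425 = true := by decide +kernel

end Vale.Agent.helper4.Q4
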