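import Vale.Agent.helper4.Q4TreeM
import Vale.Agent.helper4.Q4G.PB18_9

/-!
Checks for pairs of intervals of second moments.
-/

set_option maxRecDepth 100000
set_option linter.unusedVariables false

namespace Vale.Agent.helper4.Q4

theorem cB18_9_3_338 : chunkOkM (LB18_9.ctx true true 271 71 32 11 16 861 2925 64 64) muQ true true 64 RtB18_9.Cx.right.right RtB18_9.CX RtB18_9.Ctp.right.right.right.right.left.right RtB18_9.Ce.right.right.right.left.left.left.left RtB18_9.CTp.right RtB18_9.CEr 0x81b05c6bdaf797f01c6 = true := by decide +kernel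

theorem cB18_9_3_339 : chunkOkM (LB18_9.ctx true true 294 283 128 11 16 3437 5889 64 64) muQ true true 64 RtB18_9.Cx.right.right.left RtB18_9.CX RtB18_9.Ctp.right.right.right.right.left.right.left RtB18_9.Ce.right.right.right.left.left.left.right.left RtB18_9.CTp.right RtB18_9.CEr 0x2441e237fd1c486266cb2fcd25f8f6d2fe6e548f540d2b06dff7fd91f299075c1ba9151b89f6e22fcfb88f540d4f3ee4b7f06c61d1c4c57fd7efab5075c14ad47f369f6d8cbcc298f540d61e58497fdb4082265cc16b2f9e8f530d637 = true := by decide +kernel

theorem cB18_9_3_340 : chunkOkM (LB18_9.ctx true true 294 283 128 11 16 3437 5915 64 64) muQ true true 64 RtB18_9.Cx.right.right.left RtB18_9.CX RtB18_9.Ctp.right.right.right.right.left.right.left RtB18_9.Ce.right.right.right.left.left.left.right.right RtB18_9.CTp.right RtB18_9.CEr 0x23201d67fd78c2b466cb51aac4f8f530d47e9fa07f06c69f5938675c3ff3d06f910f66ef519f6f02ed9758f540d146038d98fda8e7d89a8f6107dfb5e99f530d631bb495f7fd9f0f6b275c4ef7785a8f6d484b96e8f540d1d3343818fd657224208f6ed1514d28f530d67 = true :=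 by decide +kernel

theorem cB18_9_3_341 : chunkOkM (LB18_9.ctx true true 284 141 64 11 16 1729 5915 64 64) muQ true true 64 RtB18_9.Cx.right.right.left RtB18_9.CX RtB18_9.Ctp.right.right.right.right.left.right.right RtB18_9.Ce.right.right.right.left.left.left.right RtB18_9.CTp.right RtB18_9.CEr 0x35450407fd9bba1566c20eb025269f6af63b7438f540d206179888fdf7d08ed28f6d2d3ac4d8f530d6694 = true := by decide +kernel

theorem cB18_9_3_342 : chunkOkM (LB18_9.ctx true true 274 143 64 11 16 861 2951 64 32) muQ true true 64 RtB18_9.Cx.right.right.right RtB18_9.CX RtB18_9.Ctp.right.right.right.right.left.right RtB18_9.Ce.right.right.right.left.left.left.right RtB18_9.CTp.right RtB18_9.CEr 0x1c53c6e7fd11e53166cb8d6b09f8f6e327ff168f540d = true := by decide +kernel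

theorem cB18_9_3_343 : chunkOkM (LB18_9.ctx true true 310 279 128 21 32 3465 11895 256 64) muQ true true 64 RtB18_9.Cx.right.left RtB18_9.CX RtB18_9.Ctp.right.right.right.right.left RtB18_9.Ce.right.right.right.left.left.right RtB18_9.CTp RtB18_9.CEr 0x2159277f7857fdb1abb4275c60b61b7c29f695d64f218f540d2b879e67fdb74c97f75c4ce23968b34858906e9f683a3999c8f550d42b1c8127fda1db45675c55c7a40ce9f6a222d5958f540d314dfcc658fd9870f9188f6bf3e8f7c8f530d64a4dcfa107fd892d9d175c56420c69b10948428e9f6b9e1dc2c8f550d8b01de57fdb3bf2ec75c88bb1969b300c7c4f39f6bcbda1168f550d684a5425559745932174593 = true := by decide +kernel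

theorem cB18_9_3_344 : chunkOkM (LB18_9.ctx true true 289 143 64 11 16 1701 2977 256 64) muQ true true 64 RtB18_9.Cx.right.right RtB18_9.CX RtB18_9.Ctp.right.right.right.right.left.left RtB18_9.Ce.right.right.right.left.left.right RtB18_9.CTp RtB18_9.CEr 0x594b6a05fd418dc566c1b125727f9e6a0597f8f6128b8a1429f521cce2068f460d386920cb8fd311414958f6120f0ead29f530d623681969b896659bac9f51de90a6579af430d31dfcc5e7fd2b90fc66cb838e569b10f0611fc9f6150268ea69f53367c60d8f460d4a542555974 = true := by decide +kernel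

theorem cB18_9_3_345 : chunkOkM (LB18_9.ctx true true 294 143 64 21 32 1729 5967 256 32) muQ true true 64 RtB18_9.Cx.right.right RtB18_9.CX RtB18_9.Ctp.right.right.right.right.left.right RtB18_9.Ce.right.right.right.left.left.right RtB18_9.CTp.left RtB18_9.CEr 0x4a206fbd77fd5a7a8066c85ff4669b1001e36be9f61207419869f550d2e7a5387fd5d166a66c84438d69bdae1a1be8f6f6585b0f8f550d726252167fd4c66fd66c8fcd8e69badf7989a8f6101995e3c9f550d287993d7fd704d6dc75cab2aca69bc3eb1eed8f6eb578fc28f550d29b9be17fd737544775cb18a6669bcbbb615b8f6e31e57e28f550d424272047fd4ca61e66c98bd0869b9bc5f3f78f610806cb039f550d37484a5425 = true := by decide +kernel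

theorem cB18_9_3_346 : chunkOkM (LB18_9.ctx true true 290 283 128 11 16 1729 5967 64 64) muQ true true 64 RtB18_9.Cx.right.right.left RtB18_9.CX RtB18_9.Ctp.right.right.right.right.left.right RtB18_9.Ce.right.right.right.left.left.right.left RtB18_9.CTp.right RtB18_9.CEr 0x27359077fdb1948a075c14904e77f9f6c9ca95898f540d23e29b0a8fd7bf7c7e18f6f41df5cf8f530d61cad7207fd949df466ca755f9178f6c7ac131b8f540d280d583e8fd10f9b607d9f6e4a8dc528f530d625b0ae57fdb75b4b075c106a781cf9f6af7890548f540d739fb807fd6a4f06a75c2719435349f67dd117558f540d6749b211f66cbb0d916c8f6e954f1c18f530d2a84ab748fd31f138c28f6fa96bd738f530d63 = true := by decide +kernel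

theorem cB18_9_3_347 : chunkOkM (LB18_9.ctx true true 294 287 128 11 16 3437 5967 64 64) muQ true true 64 RtB18_9.Cx.right.right.right RtB18_9.CX RtB18_9.Ctp.right.right.right.right.left.right RtB18_9.Ce.right.right.right.left.left.right.left RtB18_9.CTp.right RtB18_9.CEr 0xb571ec6fd88a36a66c136d2211c9f6e1c87f038f540d22eae21f8fd3a201b92f9f6ed3227a78f530d6694901dd966c6bae7e158f6f8d9c47b8f530d562a5e17fd45949566cc39a8ec08f611ce81ad59f540d61456b6a7fd7361a56c205656cf99f6138eb5ed29f540d213e6f67fd2fd77c66cfe21cd418f6fbc894288f540d1c9659b7fd1cc07466c442e20438f6f8cc01608f540d3743 = true := by decide +kernel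

theorem cB18_9_3_348 : chunkOkM (LB18_9.ctx true true 290 283 128 11 16 1729 5993 64 64) muQ true true 64 RtB18_9.Cx.right.right.left RtB18_9.CX RtB18_9.Ctp.right.right.right.right.left.right RtB18_9.Ce.right.right.right.left.left.right.right RtB18_9.CTp.right RtB18_9.CEr 0x5918b18b17fd91ee97375c14234d2c69f6c73ffb2b8f540d4454ef218fd183308af8f6fef4cc2d8f530d65974593 = true := by decide +kernel

end Vale.Agent.helper4.Q4
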