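import Vale.Agent.helper4.Q4TreeM
import Vale.Agent.helper4.Q4G.PB18_9

/-!
Checks for pairs of intervals of second moments.
-/

set_option maxRecDepth 100000
set_option linter.unusedVariables false

namespace Vale.Agent.helper4.Q4

theorem cB18_9_3_349 : chunkOkM (LB18_9.ctx true true 290 287 128 11 16 1729 6019 64 64) muQ true true 64 RtB18_9.Cx.right.right.right RtB18_9.CX RtB18_9.Ctp.right.right.right.right.left.right RtB18_9.Ce.right.right.right.left.left.right.right RtB18_9.CTp.right RtB18_9.CEr 0x744e0d6fda8273f675ca6c8dea58f6efb146508f540d306b2f228fdd4a0df158f610979d6169f530d61ad1a6d7fd3562f066c19c7168009f6fb817b3c8f540d13dcb597fd9d7c67475c9dbbe0a18f6d48fb0518f540d4cf5c807fd46a06666cdeefc8b68f6e6e72dab8f540d67410b9d127fd26f1d866c26cde797f98509abc58f610abd95399f550d21912f828fda4a504ca8f612c6aa2929f530d63 = true := by decide +kernel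

theorem cB18_9_3_350 : chunkOkM (LB18_9.ctx true true 294 139 64 21 32 1743 2951 256 64) muQ true true 64 RtB18_9.Cx.right.left RtB18_9.CX RtB18_9.Ctp.right.right.right.right.right.left.left RtB18_9.Ce.right.right.right.left.left.left RtB18_9.CTp.left RtB18_9.CEr 0x4a50119357fd9f8083975c4f0e8d69b670f9ca48f68a3a49f58f55bc265e88f260d4ab58887fd47032b66c6a19f169b8c24edb18f6947681678f5503521af8f260d62a0a4987fd8c507a66c10e213679b6924b7a38f61a84a3c3b9f250d729c5f337fd21ccec779b47064e3259f1e5ac950d89f040d484a5425 = true := by decide +kernel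

theorem cB18_9_3_351 : chunkOkM (LB18_9.ctx true true 303 551 256 11 16 3479 11843 64 64) muQ true true 64 RtB18_9.Cx.right.left RtB18_9.CX RtB18_9.Ctp.right.right.right.right.right.left.left RtB18_9.Ce.right.right.right.left.left.left RtB18_9.CTp.right RtB18_9.CEr 0x35968807fdbbfd6e66c9e5a968c09f630d0131728df7fdc2ebd2d75c55e5b468b9cadd36ea9f647ff1b888f250d33db1c57fdbfabca175c91fd0468b7da0464b19f62e9e3d2b8f250d4372f9e89528fd8a2bf6d28f6a3447adf8f5415cd5578f240d634773b07fdc6554a66c621f2c1c8f610277baea9f240d49d1375d8fd5b73a57e19f67631dcf88f230d64212142150bd7fd7527e7775c2db6a4d58f61786ba9c09f240d401740177528dd487fd80989966c8dd35425a9f11a8abee3cdaf040d4 = true := by decide +kernel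

theorem cB18_9_3_352 : chunkOkM (LB18_9.ctx true true 103 1 1 1 1 1 1 1 1) muQ true true 64 RtB18_9.Cx.right.left RtB18_9.CX RtB18_9.Ctp.right.right.right.right.right.left.right RtB18_9.Ce.right.right.right.left.left.left RtB18_9.CTp RtB18_9.CEr 0x01 = true := by decide +kernel

theorem cB18_9_3_353 : chunkOkM (LB18_9.ctx true true 103 1 1 1 1 1 1 1 1) muQ true true 64 RtB18_9.Cx.right.right RtB18_9.CX RtB18_9.Ctp.right.right.right.right.right.left RtB18_9.Ce.right.right.right.left.left.left RtB18_9.CTp RtB18_9.CEr 0x11 = true := by decide +kernel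

theorem cB18_9_3_354 : chunkOkM (LB18_9.ctx true true 103 1 1 1 1 1 1 1 1) muQ true true 64 RtB18_9.Cx.right RtB18_9.CX RtB18_9.Ctp.right.right.right.right.right.right RtB18_9.Ce.right.right.right.left.left.left RtB18_9.CTp RtB18_9.CEr 0x11 = true := by decide +kernel

theorem cB18_9_3_355 : chunkOkM (LB18_9.ctx true true 103 1 1 1 1 1 1 1 1) muQ true true 64 RtB18_9.Cx.right.left.left RtB18_9.CX RtB18_9.Ctp.right.right.right.right.right RtB18_9.Ce.right.right.right.left.left.right RtB18_9.CTp RtB18_9.CEr 0x21 = true := by decide +kernel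

theorem cB18_9_3_356 : chunkOkM (LB18_9.ctx true true 309 559 256 21 32 1743 5967 256 64) muQ true true 64 RtB18_9.Cx.right.left.right RtB18_9.CX RtB18_9.Ctp.right.right.right.right.right.left.left RtB18_9.Ce.right.right.right.left.left.right.left RtB18_9.CTp.left RtB18_9.CEr 0x4a6e8be637fdb5f2db475c3caed669bcd531b528f6a7788f468f5366815518f260d45964ab7fd5b7ee1075c814efb69b1a650dc8b9f6a9419b9a8f5296c23778f260d6217217d2d40877fd1230330685c65c4a869b606b19908f6a82c1ffd8f537bcf69d8f260d48fbdf47fd48864df75c7485b369bc6ec4c8f8f6a0d1bd908f5418020058f260d6484a5425 = true := by decide +kernel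

theorem cB18_9_3_357 : chunkOkM (LB18_9.ctx true true 307 559 256 11 16 3493 11895 128 64) muQ true true 64 RtB18_9.Cx.right.left.right RtB18_9.CX RtB18_9.Ctp.right.right.right.right.right.left.left RtB18_9.Ce.right.right.right.left.left.right.left.left RtB18_9.CTp.right RtB18_9.CEr 0x39b286d7fdc53312575cb4705b998f6ec3896168f240d29bc7167fdbcac1a475cbbebf3d309f630d35fadbb7fdb03ff8e75c81fc953a49f630d794e06bf75c6e28f80929f620d4afd44f7fd86da4d775c24ee69c78b94bcbb2ec9f640d5432f52c9a7fdbe485d675c72aac768b7328d113f9f6e8d1cde38f250d71647bba58fdb70ab2788f6ababbefb8f536b47c1b8f240d6 = true := by decide +kernel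

theorem cB18_9_3_358 : chunkOkM (LB18_9.ctx true true 303 559 256 11 16 3493 11947 64 64) muQ true true 64 RtB18_9.Cx.right.left.right RtB18_9.CX RtB18_9.Ctp.right.right.right.right.right.left.left RtB18_9.Ce.right.right.right.left.left.right.left.right RtB18_9.CTp.right RtB18_9.CEr 0x229d0237fdca2b9c875ca2e0d629d9f6ac05d547f240d29ba7537fdbfe631d75cb055381bf9f6386d98988f240d4693075b0b7fdba9739275c9580f603b9f630d432b0b6a2e8fd2e2d04c6c9f67f0e2a9f8f530d6217217 = true := by decide +kernel

theorem cB18_9_3_359 : chunkOkM (LB18_9.ctx true true 103 1 1 1 1 1 1 1 1) muQ true true 64 RtB18_9.Cx.right.left.right RtB18_9.CX RtB18_9.Ctp.right.right.right.right.right.left.right RtB18_9.Ce.right.right.right.left.left.right.left RtB18_9.CTp RtB18_9.CEr 0x01 = true := by decide +kernel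

theorem cB18_9_3_360 : chunkOkM (LB18_9.ctx true true 103 1 1 1 1 1 1 1 1) muQ true true 64 RtB18_9.Cx.right.left.right RtB18_9.CX RtB18_9.Ctp.right.right.right.right.right.right RtB18_9.Ce.right.right.right.left.left.right.left RtB18_9.CTp RtB18_9.CEr 0x01 = true := by decide +kernel

theorem cB18_9_3_361 : chunkOkM (LB18_9.ctx true true 103 1 1 1 1 1 1 1 1) muQ true true 64 RtB18_9.Cx.right.left.right RtB18_9.CX RtB18_9.Ctp.right.right.right.right.right RtB18_9.Ce.right.right.right.left.left.right.right RtB18_9.CTp RtB18_9.CEr 0x21 = true := by decide +kernel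

theorem cB18_9_3_362 : chunkOkM (LB18_9.ctx true true 103 1 1 1 1 1 1 1 1) muQ true true 64 RtB18_9.Cx.right.right RtB18_9.CX RtB18_9.Ctp.right.right.right.right.right RtB18_9.Ce.right.right.right.left.left.right RtB18_9.CTp.left.left RtB18_9.CEr 0x42 = true := by decide +kernel

theorem cB18_9_3_363 : chunkOkM (LB18_9.ctx true true 103 1 1 1 1 1 1 1 1) muQ true true 64 RtB18_9.Cx.right.right RtB18_9.CX RtB18_9.Ctp.right.right.right.right.right RtB18_9.Ce.right.right.right.left.left.right RtB18_9.CTp.left.right.left RtB18_9.CEr 0x4a = true := by decide +kernel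

theorem cB18_9_3_364 : chunkOkM (LB18_9.ctx true true 297 141 64 21 32 1757 5967 256 64) muQ true true 64 RtB18_9.Cx.right.right RtB18_9.CX.left RtB18_9.Ctp.right.right.right.right.right.left RtB18_9.Ce.right.right.right.left.left.right.left RtB18_9.CTp.left.right.right RtB18_9.CEr 0x6939b65a97fdb3f12666c2a796669b1c42888fa0af153a4cbf84aaf050d5ecb2fa7fdb4740b875c52e81369b195107af39f69df459e38f550d8daae067fdb3737b66c71b8fa69b136c3916d9f6b1886f608f573e5a757f260d632ee83367fd6e71b166c8fcc5b69b96a8c94ae9f640d47 = true := by decide +kernel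

theorem cB18_9_3_365 : chunkOkM (LB18_9.ctx true true 303 283 128 21 32 1743 6019 256 64) muQ true true 64 RtB18_9.Cx.right.right.left RtB18_9.CX.left RtB18_9.Ctp.right.right.right.right.right.left.left RtB18_9.Ce.right.right.right.left.left.right.right RtB18_9.CTp.left.right.right RtB18_9.CEr 0x17554507fde4cf1ef75c280dbd69b8b29d9098f6dcb5b8748f550d1fd67e27fd166650e75c4cf43769ba17f32a48f6d31ef0df8f550d66972af4cda7fd7e4d4ba75c9a034069b19af67b019f6c7c0e0758f550d265e65d7fd106ac48f85c56afdc69bab1c59778f6c30dcf2d8f550d6550b4a7fd81799e575c5e478569b9f2af8588f6c8556c828f51910847f8f260d674 = true := by decide +kernel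

theorem cB18_9_3_366 : chunkOkM (LB18_9.ctx true true 312 563 256 21 32 1757 12025 256 64) muQ true true 64 RtB18_9.Cx.right.right.left RtB18_9.CX.left RtB18_9.Ctp.right.right.right.right.right.left.right RtB18_9.Ce.right.right.right.left.left.right.right RtB18_9.CTp.left.right.right RtB18_9.CEr 0x27fe8b338fd31f0915785c5f02d769b635821d819f640d444acfb7fd55d83ee75c5a887d69b1edfc0f839f69eed3ce98f52a67a1a28f260d6212d7f7e27fd881c53275c9b955d69b8f5fa1b0c9f66b3252de8f250d421772e08aed7fdc156f8d75c68ca7c69b169a4cd549f610dee2a529f250d52ca76d7fd70054966c654cd969b5bc66b198f6135f758aa9f250d64 = true := by decide +kernel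

theorem cB18_9_3_367 : chunkOkM (LB18_9.ctx true true 287 143 64 21 32 875 3003 256 32) muQ true true 64 RtB18_9.Cx.right.right.right RtB18_9.CX.left RtB18_9.Ctp.right.right.right.right.right.left RtB18_9.Ce.right.right.right.left.left.right.right RtB18_9.CTp.left.right.right RtB18_9.CEr 0x2cfe25e7fd7430bf66c7e9a3869b10ac366019f6ce2454368f550d = true := by decide +kernel

theorem cB18_9_3_368 : chunkOkM (LB18_9.ctx true true 278 71 32 21 32 889 1495 256 32) muQ true true 64 RtB18_9.Cx.right.right RtB18_9.CX.left RtB18_9.Ctp.right.right.right.right.right.right RtB18_9.Ce.right.right.right.left.left.right RtB18_9.CTp.left.right.right RtB18_9.CEr 0x1160812719f00b = true := by decide +kernel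

theorem cB18_9_3_369 : chunkOkM (LB18_9.ctx true true 103 1 1 1 1 1 1 1 1) muQ true true 64 RtB18_9.Cx.right.right RtB18_9.CX.right RtB18_9.Ctp.right.right.right.right.right RtB18_9.Ce.right.right.right.left.left.right RtB18_9.CTp.left.right.right RtB18_9.CEr 0x4a = true := by decide +kernel

end Vale.Agent.helper4.Q4
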