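import Vale.Agent.helper4.Q4TreeM
import Vale.Agent.helper4.Q4G.PB18_9

/-!
Checks for pairs of intervals of second moments.
-/

set_option maxRecDepth 100000
set_option linter.unusedVariables false

namespace Vale.Agent.helper4.Q4

theorem cB18_9_3_370 : chunkOkM (LB18_9.ctx true true 301 283 128 11 16 3493 11947 128 64) muQ true true 64 RtB18_9.Cx.right.right.left RtB18_9.CX RtB18_9.Ctp.right.right.right.right.right.left.left RtB18_9.Ce.right.right.right.left.left.right.left RtB18_9.CTp.right RtB18_9.CEr 0x2ee84557fd8b11d166c71da986f9e544204d8f6afbc66348f550d194fc047fd185b59a75c400b8137f92d88569a39f667c1f0278f550d42537117fd999618675c2b88f2a78b3542468fa9f683144e168f550d533dc9207fda42414475c380bc58b26dc8cd0f9f689858a8b8f550d25d5dc97fdb7b6a1775c41c5adb6f9f677ce0b558f540d43739372af58fdaea3182f8f6ca6d44e78f530d62634bfc7fdb2b2d166c61d9be8d09f631b5ebe38f540d692b6387f06c64 = true := by decide +kernel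

theorem cB18_9_3_371 : chunkOkM (LB18_9.ctx true true 279 141 64 11 16 1757 2977 64 32) muQ true true 64 RtB18_9.Cx.right.right.left RtB18_9.CX RtB18_9.Ctp.right.right.right.right.right.left.right RtB18_9.Ce.right.right.right.left.left.right.left RtB18_9.CTp.right RtB18_9.CEr 0x48b074176c177ac1688f84031815eb3af1bca45bee9baf040d = true := by decide +kernel

theorem cB18_9_3_372 : chunkOkM (LB18_9.ctx true true 103 1 1 1 1 1 1 1 1) muQ true true 64 RtB18_9.Cx.right.right.right RtB18_9.CX RtB18_9.Ctp.right.right.right.right.right.left RtB18_9.Ce.right.right.right.left.left.right.left RtB18_9.CTp.right RtB18_9.CEr 0x69 = true := by decide +kernel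

theorem cB18_9_3_373 : chunkOkM (LB18_9.ctx true true 304 563 256 11 16 3493 11999 64 64) muQ true true 64 RtB18_9.Cx.right.right.left RtB18_9.CX RtB18_9.Ctp.right.right.right.right.right.left.left RtB18_9.Ce.right.right.right.left.left.right.right.left RtB18_9.CTp.right RtB18_9.CEr 0x23db25a7fdbff15fe75c15c02a15f9f6a897ab5a8f540d2cf5f937fdbc315ee75cd666569a89f630d69724436ee7fdbd8573475ca8bcdd7949f630d35c4afc7fdc093d2f75cff12b1ee39f630d742f71c5c7fda9bf7dd75c28c6bf6f9103c043ac9f6b60f2fae8f550d373a15878b8fd2e8312c08f6dccf9a7d8f530d6 = true := by decide +kernel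

theorem cB18_9_3_374 : chunkOkM (LB18_9.ctx true true 294 283 128 11 16 3493 6019 64 64) muQ true true 64 RtB18_9.Cx.right.right.left RtB18_9.CX RtB18_9.Ctp.right.right.right.right.right.left.left RtB18_9.Ce.right.right.right.left.left.right.right.right RtB18_9.CTp.right RtB18_9.CEr 0x3ac32a67fd901f8e275c3795576f99a4056358f6b35b99df8f550d1d1ecc17fdab0300d75c2ffe67138f6d0bf4e848f540d322e355af8fdf0791fba8f6e32b0a328f530d6697 = true := by decide +kernel

theorem cB18_9_3_375 : chunkOkM (LB18_9.ctx true true 290 283 128 11 16 1757 5993 64 64) muQ true true 64 RtB18_9.Cx.right.right.left RtB18_9.CX RtB18_9.Ctp.right.right.right.right.right.left.right RtB18_9.Ce.right.right.right.left.left.right.right.left RtB18_9.CTp.right RtB18_9.CEr 0xd1b05c37141517fda66ed0d75c3e1fc85749f6987c4d388f240d74cca6b258fd6821d990a9f620d6 = true := by decide +kernel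

theorem cB18_9_3_376 : chunkOkM (LB18_9.ctx true true 308 563 256 11 16 3521 12051 128 64) muQ true true 64 RtB18_9.Cx.right.right.left RtB18_9.CX RtB18_9.Ctp.right.right.right.right.right.left.right RtB18_9.Ce.right.right.right.left.left.right.right.right RtB18_9.CTp.right RtB18_9.CEr 0x18f82ee7fdeb58f9375c29e3790da9f61405d7d979f26800a2b7f150d1c98db57fd15a354175c49d2ab37f93e4b61a139f6845d9afd8f550d370dcd77fd8f4d09275c2dda75378b4f72caf909f66fc9d8f78f550d53e51aad7fda52eba975cef63f35129f630d43213c4feb07fd992fbd475c84ab0cae49f684ce147e8f240d4217726234b6c8fd5dafc4278f6bd3862d28f53dbb0e468f240d6 = true := by decide +kernel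

theorem cB18_9_3_377 : chunkOkM (LB18_9.ctx true true 290 287 128 11 16 1757 6019 64 64) muQ true true 64 RtB18_9.Cx.right.right.right RtB18_9.CX RtB18_9.Ctp.right.right.right.right.right.left RtB18_9.Ce.right.right.right.left.left.right.right RtB18_9.CTp.right RtB18_9.CEr 0x298a00f7fd7141d066c20d1f0d02c7fd4e6bae66c25a2585c49f6dc54a28c8f540d1b07b157fdb69d9a175ce6bf3e678f6c01ed82e8f540d2a7dc5238fd65e133848f6e89664fe8f530d67171e1567fda9adaa66c218854b079f6e084ff798f540dc1c02ca78f05b643 = true := by decide +kernel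

theorem cB18_9_3_378 : chunkOkM (LB18_9.ctx true true 265 71 32 11 16 889 1495 64 32) muQ true true 64 RtB18_9.Cx.right.right RtB18_9.CX RtB18_9.Ctp.right.right.right.right.right.right RtB18_9.Ce.right.right.right.left.left.right RtB18_9.CTp.right RtB18_9.CEr 0xd4b3b6cd8f00b = true := by decide +kernel

theorem cB18_9_3_379 : chunkOkM (LB18_9.ctx true true 103 1 1 1 1 1 1 1 1) muQ true true 64 RtB18_9.Cx.right.left RtB18_9.CX RtB18_9.Ctp.right.right.right.right RtB18_9.Ce.right.right.right.left.right RtB18_9.CTp RtB18_9.CEr 0x21 = true := by decide +kernel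

theorem cB18_9_3_380 : chunkOkM (LB18_9.ctx true true 291 287 128 11 16 1729 6045 128 32) muQ true true 64 RtB18_9.Cx.right.right RtB18_9.CX RtB18_9.Ctp.right.right.right.right.left RtB18_9.Ce.right.right.right.left.right RtB18_9.CTp RtB18_9.CEr 0x595959195d37d7fd46a424875c1350ae2bf9f610ca5008d9f540d3346c067fdaa8f69275cd74da669bc58915518f611a341d5d9f550d4255597459359745934 = true := by decide +kernel

theorem cB18_9_3_381 : chunkOkM (LB18_9.ctx true true 103 1 1 1 1 1 1 1 1) muQ true true 64 RtB18_9.Cx.right.right RtB18_9.CX RtB18_9.Ctp.right.right.right.right.right RtB18_9.Ce.right.right.right.left.right.left RtB18_9.CTp.left.left RtB18_9.CEr 0x42 = true := by decide +kernel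

theorem cB18_9_3_382 : chunkOkM (LB18_9.ctx true true 103 1 1 1 1 1 1 1 1) muQ true true 64 RtB18_9.Cx.right.right RtB18_9.CX RtB18_9.Ctp.right.right.right.right.right RtB18_9.Ce.right.right.right.left.right.left RtB18_9.CTp.left.right.left RtB18_9.CEr 0x4a = true := by decide +kernel

theorem cB18_9_3_383 : chunkOkM (LB18_9.ctx true true 308 283 128 21 32 3521 6071 256 64) muQ true true 64 RtB18_9.Cx.right.right.left RtB18_9.CX.left RtB18_9.Ctp.right.right.right.right.right.left RtB18_9.Ce.right.right.right.left.right.left.left RtB18_9.CTp.left.right.right RtB18_9.CEr 0x28bbc997fd85f1d0175ca1370569bf7a60f3dc9f6194a74ba89f250d59314e5f7568fd1c0114b085c5fc17f69b50c134018f6b43eff3c8f5302ff1b48f260d11c873475c88a37c69b1c6b20d379f68f6f094e8f5fe893947f250d6428dfb117fd77a09b66c808f8069b12c8755699f6ea4bc4648f550d3217 = true := by decide +kernel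

theorem cB18_9_3_384 : chunkOkM (LB18_9.ctx true true 303 287 128 21 32 1757 6071 256 64) muQ true true 64 RtB18_9.Cx.right.right.right RtB18_9.CX.left RtB18_9.Ctp.right.right.right.right.right.left RtB18_9.Ce.right.right.right.left.right.left.left RtB18_9.CTp.left.right.right RtB18_9.CEr 0x2c20dda7fd7b67fe575c634dd569b117ef449a9f6d02dedd88f550d358a17c7fd9eec7cf75c4b34a269b127f7c0529f6b67b4e138f550d5410e547fd6354c3875c7ad99569bac943ebc8f6b945f27a8f52f83b4ca8f260d6730df2cc7fd9ab0e0e75c524acc69b10dd6ddee9f6c18b233d8f550d1bdc9b07fd408d2266c674df169b107ece0059f6cefd3cbb8f550d642626d327fd7489f1e75c83623769b945633df8f6f4d8d7d38f550d3 = true := by decide +kernel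

theorem cB18_9_3_385 : chunkOkM (LB18_9.ctx true true 300 287 128 21 32 1757 6123 256 32) muQ true true 64 RtB18_9.Cx.right.right RtB18_9.CX.left RtB18_9.Ctp.right.right.right.right.right.left RtB18_9.Ce.right.right.right.left.right.left.right RtB18_9.CTp.left.right.right RtB18_9.CEr 0x2a1dca47fd7f3f0266c5b8bf069b8fa71ad58f6ea9f37a68f550d28130ff7fd8371f4c75c69549a69b12968e1069f6d3ce5b3b8f550d2aa9f917fd8a5358e75c71e13369b1214a27c29f6cc083e678f518b4a9598f260d742188f517fd57d6de66c51a29b69b5daa8d8a8f6103ad7bbd9f550d3217 = true := by decide +kernel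

end Vale.Agent.helper4.Q4
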