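import Vale.Agent.helper4.Q4TreeM
import Vale.Agent.helper4.Q4G.PB18_9

/-!
Checks for pairs of intervals of second moments.
-/

set_option maxRecDepth 100000
set_option linter.unusedVariables false

namespace Vale.Agent.helper4.Q4

theorem cB18_9_3_386 : chunkOkM (LB18_9.ctx true true 303 287 128 21 32 1771 6123 256 64) muQ true true 64 RtB18_9.Cx.right.right RtB18_9.CX.left RtB18_9.Ctp.right.right.right.right.right.right RtB18_9.Ce.right.right.right.left.right.left RtB18_9.CTp.left.right.right RtB18_9.CEr 0x0171a0f1d7fdfaf743375c90724869b23d2ffdd29f6ba71f1968f550d2e1fe8e7fd702315c75c4d965569bf0d1dbe18f69b8996118f559349ae28f260d621729c91e37fd82f231f75c64314b69b29bd09e7a9f689ca8d3c8f53184ef388f260d29e357e7fd837232975c647edb69be443c8af8f6965fbf7a8f57f3a16008f260d74328f9ffa7fd8bd1f666c78cdaf69b64f0bfe18f613b0ce3cb9f250d4017 = true := by decide +kernel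

theorem cB18_9_3_387 : chunkOkM (LB18_9.ctx true true 103 1 1 1 1 1 1 1 1) muQ true true 64 RtB18_9.Cx.right.right RtB18_9.CX.right RtB18_9.Ctp.right.right.right.right.right RtB18_9.Ce.right.right.right.left.right.left RtB18_9.CTp.left.right.right RtB18_9.CEr 0x4a = true := by decide +kernel

theorem cB18_9_3_388 : chunkOkM (LB18_9.ctx true true 302 283 128 11 16 3521 12103 128 64) muQ true true 64 RtB18_9.Cx.right.right.left RtB18_9.CX RtB18_9.Ctp.right.right.right.right.right.left RtB18_9.Ce.right.right.right.left.right.left.left RtB18_9.CTp.right RtB18_9.CEr 0x1ba00847fdcb3660875c155bb3194aaf622f3b55ab9f240d59344c09f17fd7c3d6b575c72657b6f99acae1f1b9f66b6faf068f250d2f699c07fdc92065d75c8c5c6cfb79f626970d578f240d43ca8b827fd7f3fe6975c87b7326f9111ff84ad9af640d17cd3587fd19ed86675c525a58f7f91404543cd9f697eb0d868f51481c67e8f260d471fa417fd7fe9f6575c25c3a8178b265b2a1ba9f68c581caa8f550d54343fe785c7fd757da166cfc2c446f9a55c339a8f6c56116438f550d356cdd2428fd7a156ec98f6d3ba9e428f530d6217 = true := by decide +kernel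

theorem cB18_9_3_389 : chunkOkM (LB18_9.ctx true true 284 143 64 11 16 1743 6071 64 64) muQ true true 64 RtB18_9.Cx.right.right.right RtB18_9.CX RtB18_9.Ctp.right.right.right.right.right.left.left RtB18_9.Ce.right.right.right.left.right.left.left RtB18_9.CTp.right RtB18_9.CEr 0x121cac57fdb4cc3b075c9bd878c58f6d38e212c8f540df2c8ada08f05b62d63d807fd80e4c566cb2f0fa6f9cb1d2eb78f6c6a316248f550d428ac1b7fd492eb866c7a4986c48f6dde3967c8f540d64 = true := by decide +kernel

theorem cB18_9_3_390 : chunkOkM (LB18_9.ctx true true 297 285 128 11 16 3521 12103 64 64) muQ true true 64 RtB18_9.Cx.right.right.right RtB18_9.CX RtB18_9.Ctp.right.right.right.right.right.left.right RtB18_9.Ce.right.right.right.left.right.left.left.left RtB18_9.CTp.right RtB18_9.CEr 0x691f14df37fdbe76e966c939b97df49f630d3c7630f7fd7ae8a0775ca0f8af6f91e6d97d289f6984bdbda8f550d3aadf887fd74d1d9c75c99e3716f91e2b8b3999f68d9050b48f550d4373e6ab5288fdb4382cf38f6d3f5c4848f530d6 = true := by decide +kernel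

theorem cB18_9_3_391 : chunkOkM (LB18_9.ctx true true 284 143 64 11 16 1757 6071 64 64) muQ true true 64 RtB18_9.Cx.right.right.right RtB18_9.CX RtB18_9.Ctp.right.right.right.right.right.left.right RtB18_9.Ce.right.right.right.left.right.left.left.right RtB18_9.CTp.right RtB18_9.CEr.left 0x253cd34f8fd7aadac008f6d17ddfcd8f530d = true := by decide +kernel

theorem cB18_9_3_392 : chunkOkM (LB18_9.ctx true true 308 571 256 11 16 3521 12155 128 64) muQ true true 64 RtB18_9.Cx.right.right.right.left RtB18_9.CX RtB18_9.Ctp.right.right.right.right.right.left.right RtB18_9.Ce.right.right.right.left.right.left.left.right RtB18_9.CTp.right RtB18_9.CEr.right 0xd7cbb26fd254595a75c59edaf57f9df02851699f640d275dd097fdc28ad4175c94063c7b79f630d53c3ff2f7fd794413775cc9713a6f9bc341a90e9f640d716819887fd111540375c596f2787f94530f20289f66e15f0b28f550d20bb9e37fdb1abebb75c335bf9478b70140ed519f67fe4f06c8f550d543e0f7247fd6d1110f75cf544496f9e65683d18f6bc77a53f8f550d3a04c4c7fd6f4eced75cce8b006f913b4090729f6af133f308f550d3cf32dd7fd77e383375cb3681f6f9242e89e739f6a55519c68f550d743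 = true := by decide +kernel

theorem cB18_9_3_393 : chunkOkM (LB18_9.ctx true true 290 287 128 11 16 1757 6071 64 64) muQ true true 64 RtB18_9.Cx.right.right.right.right RtB18_9.CX RtB18_9.Ctp.right.right.right.right.right.left.right RtB18_9.Ce.right.right.right.left.right.left.left.right RtB18_9.CTp.right RtB18_9.CEr.right 0x31e91797fd73fe8866cf9a1ca6f9bdcac6a08f6b324284d8f550d = true := by decide +kernel

theorem cB18_9_3_394 : chunkOkM (LB18_9.ctx true true 103 1 1 1 1 1 1 1 1) muQ true true 64 RtB18_9.Cx.right.right.left RtB18_9.CX RtB18_9.Ctp.right.right.right.right.right.left RtB18_9.Ce.right.right.right.left.right.left.right RtB18_9.CTp.right RtB18_9.CEr 0x21 = true := by decide +kernel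

theorem cB18_9_3_395 : chunkOkM (LB18_9.ctx true true 277 143 64 11 16 875 3055 64 64) muQ true true 64 RtB18_9.Cx.right.right.right RtB18_9.CX RtB18_9.Ctp.right.right.right.right.right.left RtB18_9.Ce.right.right.right.left.right.left.right RtB18_9.CTp.right RtB18_9.CEr.left 0x1981d9d28fd897577b18f6e1745e368f530d = true := by decide +kernel

theorem cB18_9_3_396 : chunkOkM (LB18_9.ctx true true 281 143 64 11 16 1743 3055 64 64) muQ true true 64 RtB18_9.Cx.right.right.right RtB18_9.CX RtB18_9.Ctp.right.right.right.right.right.left.left RtB18_9.Ce.right.right.right.left.right.left.right RtB18_9.CTp.right RtB18_9.CEr.right 0x30398c67fd372a0e66c1d9feb17f9bff308d08f6dbc9376a8f550d = true := by decide +kernel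

theorem cB18_9_3_397 : chunkOkM (LB18_9.ctx true true 308 571 256 11 16 3521 12181 128 64) muQ true true 64 RtB18_9.Cx.right.right.right.left RtB18_9.CX RtB18_9.Ctp.right.right.right.right.right.left.right RtB18_9.Ce.right.right.right.left.right.left.right.left RtB18_9.CTp.right RtB18_9.CEr.right 0x69edb4b96fd1f4b0465c5fce9b87f93180affc89f68a9f5b208f550d79447197fdeb6ad0e75ce574d08a59f6f763d16f540d52174593 = true := by decide +kernel

theorem cB18_9_3_398 : chunkOkM (LB18_9.ctx true true 311 575 256 11 16 3521 12207 128 128) muQ true true 64 RtB18_9.Cx.right.right.right.right RtB18_9.CX RtB18_9.Ctp.right.right.right.right.right.left.right RtB18_9.Ce.right.right.right.left.right.left.right.left RtB18_9.CTp.right RtB18_9.CEr.right 0x20501d07fdc97dda775c5c8eb3f7f920170478f9f6aca7ab5d8f550d52f15b17fd4fa6d7175c544ade878b217c2269c9f6b21029b38f550d61b0e2d27fd66f57f27f9442095f7287be7fc09f6a264a7588f550d22a37a47fd9d04ed675c2de3ee078b18bdd6ece9f6c07a79d28f550d5733503187fd5059e6075c19c1f9f7f911089ca9a6af640d4e4ec66fd139d3fe75c6f771927f938d707f6e9f67a03920c8f550d6a6574b7fdd81398d75cae75017809f630d57436e86e97fd5ec8a5475c14b2c2f7f935e509058f6d0f351b68f550d3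 = true := by decide +kernel

theorem cB18_9_3_399 : chunkOkM (LB18_9.ctx true true 306 575 256 11 16 3521 12233 64 128) muQ true true 64 RtB18_9.Cx.right.right.right RtB18_9.CX RtB18_9.Ctp.right.right.right.right.right.left.right RtB18_9.Ce.right.right.right.left.right.left.right.right RtB18_9.CTp.right RtB18_9.CEr.right 0x6910650e57fdc56cbc375c58786137f9f5d720468f6b027dfe18f550d56098067fdebfb11e75c2a237e50e9f69018b5ff8f540d66974593217 = true := by decide +kernel

theorem cB18_9_3_400 : chunkOkM (LB18_9.ctx true true 103 1 1 1 1 1 1 1 1) muQ true true 64 RtB18_9.Cx.right.right.left RtB18_9.CX RtB18_9.Ctp.right.right.right.right.right.right RtB18_9.Ce.right.right.right.left.right.left RtB18_9.CTp.right RtB18_9.CEr 0x01 = true := by decide +kernel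

theorem cB18_9_3_401 : chunkOkM (LB18_9.ctx true true 274 143 64 11 16 889 3029 64 32) muQ true true 64 RtB18_9.Cx.right.right.right RtB18_9.CX RtB18_9.Ctp.right.right.right.right.right.right RtB18_9.Ce.right.right.right.left.right.left.left RtB18_9.CTp.right RtB18_9.CEr 0x2c9c4f77fd8bc28666cc77881f78f610667577b9f240d = true := by decide +kernel

end Vale.Agent.helper4.Q4
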