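import Vale.Agent.helper4.Q4TreeM
import Vale.Agent.helper4.Q4G.PB18_9

/-!
Checks for pairs of intervals of second moments.
-/

set_option maxRecDepth 100000
set_option linter.unusedVariables false

namespace Vale.Agent.helper4.Q4

theorem cB18_9_3_64 : chunkOkM (LB18_9.ctx true true 322 259 128 21 32 1673 5499 1024 1024) muQ true true 64 RtB18_9.Cx.left.left RtB18_9.CX.left RtB18_9.Ctp.right.right.right.left.right.right RtB18_9.Ce.right.right.left.right.left.left.right RtB18_9.CTp.left.right.right RtB18_9.CEr.right 0x525a5a5a10241a67fd3dfef769bf9e958a78f69a40c8318f540d44531c2f29f06b6ab5ab66c4cdd2cf6e9f620d7543f4e87fd5dfd3b66c421ac969b4590d72a59f640d45a2fe0b7fd7a1e3566c30735a69b24cdc57aa9f6758b41498f550d25db9c66c37c74769bdbd984718f692ac2e528f540d23114466c33d82869b5031a0a439f6230f36878f540d7437665a55a566 = true := by decide +kernel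

theorem cB18_9_3_65 : chunkOkM (LB18_9.ctx true true 293 135 64 21 32 1645 2743 256 64) muQ true true 64 RtB18_9.Cx.left.right RtB18_9.CX.left RtB18_9.Ctp.right.right.right.left.right RtB18_9.Ce.right.right.left.right.left.left RtB18_9.CTp.left.right.right RtB18_9.CEr 0x6948f98b77fd8fd2b769b7b2bce6f8102b022fa9f611eb8f9be9f550dda164597fdcd37b666c19d98e818f6d145a0e68f540dbc1d1c97fd1015f566c60a43469bb7772fa68f6df6526868f550d65527a2e7fd185b78c75c8106a769b89a7b7fe8f6fb23bbb68f550d374cb49937fdb3680869b3c65ed6f8120b8c3ed9f6f6b429da8f550d43 = true := by decide +kernel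

theorem cB18_9_3_66 : chunkOkM (LB18_9.ctx true true 103 1 1 1 1 1 1 1 1) muQ true true 64 RtB18_9.Cx.left RtB18_9.CX.right RtB18_9.Ctp.right.right.right.left.right RtB18_9.Ce.right.right.left.right.left.left RtB18_9.CTp.left.right.right RtB18_9.CEr 0x4a = true := by decide +kernel

theorem cB18_9_3_67 : chunkOkM (LB18_9.ctx true true 276 129 64 11 16 819 2717 64 64) muQ true true 64 RtB18_9.Cx.left.left.left RtB18_9.CX RtB18_9.Ctp.right.right.right.left.right.left RtB18_9.Ce.right.right.left.right.left.left.left RtB18_9.CTp.right RtB18_9.CEr.left 0x2e8d10f28fd6a1aa2388f6b5ac54188f530d = true := by decide +kernel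

theorem cB18_9_3_68 : chunkOkM (LB18_9.ctx true true 310 515 256 11 16 6545 10855 128 64) muQ true true 64 RtB18_9.Cx.left.left.left RtB18_9.CX RtB18_9.Ctp.right.right.right.left.right.left.left RtB18_9.Ce.right.right.left.right.left.left.left RtB18_9.CTp.right RtB18_9.CEr.right 0x5ee53267fd972c7066c882b20e98f6c34d13108f540d23cdcac7fd2eec926f95106ff6f717bbf6bb39f6bc31cc5b8f550d77e85687fdb01b0b875cb6f0a4ee8f530d5302e31d7fdf509e965c2e736cb7f6b1d2a01b8f540d7d61c467fdb561ae675c109a36e5d9f69b39c1328f540d545dfa2b67fd8ea1d9a75c3cc4c14e8f6c7491d4d8f540d359293b7e27fdb86e4965cee8669118f6a9ebeb428f540d7deef347fdbb148c975cb3e6ec648f530d5593597459374 = true := by decide +kernel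

theorem cB18_9_3_69 : chunkOkM (LB18_9.ctx true true 303 257 128 11 16 3297 10855 128 128) muQ true true 64 RtB18_9.Cx.left.left.left.left RtB18_9.CX RtB18_9.Ctp.right.right.right.left.right.left.right RtB18_9.Ce.right.right.left.right.left.left.left.left RtB18_9.CTp.right RtB18_9.CEr.right 0x39314ed7fd31c42e875ca9df90958f6951c09458f540d15cc2a888fd13cfc62685c124ae33609f676474b808f540da5930057fdd70028775c1dbeb726d9f65adb829a8f540d6530d28867fd142d40875c654f78ea8f6a08e20878f540d808bfa17fdc7babf175c88a24f048f6acd855a48f540d52f000027fd105b43475cc69d7fe88f692a8727a8f540d85cb3327fdcdfb32575c17643f5379f68750b6738f540d543 = true := by decide +kernel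

theorem cB18_9_3_70 : chunkOkM (LB18_9.ctx true true 293 259 128 11 16 1645 5421 128 64) muQ true true 64 RtB18_9.Cx.left.left.left.right RtB18_9.CX RtB18_9.Ctp.right.right.right.left.right.left.right RtB18_9.Ce.right.right.left.right.left.left.left.left RtB18_9.CTp.right RtB18_9.CEr.right 0x3a075d47fd130cd6175c25fd4e98a9f6866d4a4c8f540d7edeb357fdc0cfff375ceb13d9a98f68d6281308f540d5 = true := by decide +kernel

theorem cB18_9_3_71 : chunkOkM (LB18_9.ctx true true 356 8255 4096 11 16 52633 86957 128 64) muQ true true 64 RtB18_9.Cx.left.left.left.left RtB18_9.CX RtB18_9.Ctp.right.right.right.left.right.left.right RtB18_9.Ce.right.right.left.right.left.left.left.right RtB18_9.CTp.right RtB18_9.CEr.right 0x596923edf0418ed9147246f812b288a8dfaf630d7d5ec4d7fdc2e358c75cd851c842e9f630d54697693697459359733fc77a7fd2909f8e75c2a50fd9109f67ea8cc528f540d8be42527fddf8d35775c45dc2970e9f65a1625b48f540d54595959591a437267f06c7b6040e7fdc03dee175cb20927d08f530d559759345975935974593597459359743 = true := by decide +kernel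

theorem cB18_9_3_72 : chunkOkM (LB18_9.ctx true true 306 519 256 11 16 3297 10907 128 64) muQ true true 64 RtB18_9.Cx.left.left.left.right RtB18_9.CX RtB18_9.Ctp.right.right.right.left.right.left.right RtB18_9.Ce.right.right.left.right.left.left.left.right RtB18_9.CTp.right RtB18_9.CEr.right 0x2b33ab37fdaf78db65c1387fc87c9f6824658028f540d97a4d137fde8a8f9475ce1eaee0e8f69de880408f540d52f6e3757fd13dd37e75ca4f823228f6a8cf260f8f540d746c9cf7fdb37085e75cb4caf8b08f530d559725c70c57fdeda47e6f81cf2393889f6b6499f258f540d7c64c167fdbfc198a75c32d1426c8f6ae6040bf8f540d543 = true := by decide +kernel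

end Vale.Agent.helper4.Q4
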