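import Vale.Agent.helper4.Q4TreeM
import Vale.Agent.helper4.Q4G.PB18_9

/-!
Checks for pairs of intervals of second moments.
-/

set_option maxRecDepth 100000
set_option linter.unusedVariables false

namespace Vale.Agent.helper4.Q4

theorem cB18_9_3_73 : chunkOkM (LB18_9.ctx true true 287 131 64 11 16 1645 5447 128 64) muQ true true 64 RtB18_9.Cx.left.left.right RtB18_9.CX RtB18_9.Ctp.right.right.right.left.right.left RtB18_9.Ce.right.right.left.right.left.left.left RtB18_9.CTp.right RtB18_9.CEr 0xa4b4b7c98f05b75804777fdb41239a75ce3dbfd618f69eb850988f540d589b49e57f06c4a8783967fddfe2d4d18f6bc3984878f530d657cd3527fd8b56f2375c9970c0228f6c9c715f88f540d596d5477fd86c259875c16e6f8e299f6c3f9a46d8f540d4130c60f58fd10b2fb1685c9a55728d8f6d1cb3c038f540d63 = true := by decide +kernel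

theorem cB18_9_3_74 : chunkOkM (LB18_9.ctx true true 323 1039 512 11 16 13209 21905 128 64) muQ true true 64 RtB18_9.Cx.left.left.left RtB18_9.CX RtB18_9.Ctp.right.right.right.left.right.left RtB18_9.Ce.right.right.left.right.left.left.right RtB18_9.CTp.right RtB18_9.CEr 0x595932896987fd169ecba75cd4d2e5f0c9f630d76011f07fdbf0d6b175cb38d83818f530d559359745935972a41a747fd242771c75c15d736fe79f6a6ae7fa28f540d7cd69927fdc9b80e675cc228a48b8f6b035b3518f540d541b359b388fda27116cd8f6ba1843098f530d65935974593 = true := by decide +kernel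

theorem cB18_9_3_75 : chunkOkM (LB18_9.ctx true true 280 131 64 11 16 1631 2743 64 64) muQ true true 64 RtB18_9.Cx.left.left.right RtB18_9.CX RtB18_9.Ctp.right.right.right.left.right.left.left RtB18_9.Ce.right.right.left.right.left.left.right RtB18_9.CTp.right RtB18_9.CEr 0x4ea6f247fd8cd8af66c9044e6628f6e0f12e938f540d261785ba8fd6d31b9df8f6e72d8b2f8f530d6 = true := by decide +kernel

theorem cB18_9_3_76 : chunkOkM (LB18_9.ctx true true 280 131 64 11 16 1645 2743 64 64) muQ true true 64 RtB18_9.Cx.left.left.right RtB18_9.CX RtB18_9.Ctp.right.right.right.left.right.left.right RtB18_9.Ce.right.right.left.right.left.left.right RtB18_9.CTp.right RtB18_9.CEr.left 0x1b041c738fd331dbd1e8f6c9de07aa8f530d = true := by decide +kernel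

theorem cB18_9_3_77 : chunkOkM (LB18_9.ctx true true 300 263 128 11 16 3297 10959 128 64) muQ true true 64 RtB18_9.Cx.left.left.right RtB18_9.CX RtB18_9.Ctp.right.right.right.left.right.left.right RtB18_9.Ce.right.right.left.right.left.left.right.left RtB18_9.CTp.right RtB18_9.CEr.right 0x56797707fd914dd2e75ce4ba7f608f6b81f9f698f540d31e37f37fd1f4478f75c99ab75f9e636da27f6ae9ecabe8f550d77de0af7fdbcf14fd75cc683814e8f6998d2ae28f540d55a58c5e7fd9563d5475c584fbd8c8f6bf945e518f540db4fdee468f05b7016a397fdacfdd2775cb77622aa8f530d5437 = true := by decide +kernel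

theorem cB18_9_3_78 : chunkOkM (LB18_9.ctx true true 319 1047 512 11 16 6601 22009 128 64) muQ true true 64 RtB18_9.Cx.left.left.right RtB18_9.CX RtB18_9.Ctp.right.right.right.left.right.left.right RtB18_9.Ce.right.right.left.right.left.left.right.right RtB18_9.CTp.right RtB18_9.CEr.right 0x5532d527fd924d64675c696e739e8f6b56f7e958f540d53e812b7fd865c67c75c5c3793fe8f6ca7d65668f540d35958c6f417fd958605975cb84261718f530d5974593597b9933cf68f05b6d578a87fdaf1df8375c59b929578f6bb1983828f540d545937 = true := by decide +kernel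

theorem cB18_9_3_79 : chunkOkM (LB18_9.ctx true true 270 65 32 11 16 833 2717 64 64) muQ true true 64 RtB18_9.Cx.left.left RtB18_9.CX RtB18_9.Ctp.right.right.right.left.right.right RtB18_9.Ce.right.right.left.right.left.left.left RtB18_9.CTp.right RtB18_9.CEr.left 0x1da9f32a8fdecf2a61a8f671beeb768f530d = true := by decide +kernel

theorem cB18_9_3_80 : chunkOkM (LB18_9.ctx true true 283 129 64 11 16 833 5421 128 64) muQ true true 64 RtB18_9.Cx.left.left.left RtB18_9.CX RtB18_9.Ctp.right.right.right.left.right.right RtB18_9.Ce.right.right.left.right.left.left.left.left RtB18_9.CTp.right RtB18_9.CEr.right 0x3640d0e7fd1ab754275c4821792df9f630d913ceef7fdec813366c43e1133289f630d5 = true := by decide +kernel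

theorem cB18_9_3_81 : chunkOkM (LB18_9.ctx true true 303 259 128 11 16 3339 10907 128 128) muQ true true 64 RtB18_9.Cx.left.left.left RtB18_9.CX RtB18_9.Ctp.right.right.right.left.right.right RtB18_9.Ce.right.right.left.right.left.left.left.right RtB18_9.CTp.right RtB18_9.CEr.right 0x114493e017f06c9a535037fd10ce58bf85c78b76f6a09f630d569432dfcab97fd19a6b8175ca16f8f8159f630d83b6d697fdd84f44e75c62de1286f9f630d53c063c97fd268add975c23c2ee8ff9f64a5624058f540d14bbb4ce8fd132d8eab85c3b61893099f61cf633898f540daa12e667fdf8c0c0775c15bf76578b5523197f89f640d97b74e17fdd6981bf75c786ec568b5380e772d9f61e46e8198f550d36573 = true := by decide +kernel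

theorem cB18_9_3_82 : chunkOkM (LB18_9.ctx true true 103 1 1 1 1 1 1 1 1) muQ true true 64 RtB18_9.Cx.left.left.right RtB18_9.CX RtB18_9.Ctp.right.right.right.left.right.right RtB18_9.Ce.right.right.left.right.left.left.left RtB18_9.CTp.right RtB18_9.CEr.right 0x69 = true := by decide +kernel

theorem cB18_9_3_83 : chunkOkM (LB18_9.ctx true true 341 259 128 41 64 1673 5499 4096 4096) muQ true true 64 RtB18_9.Cx.left.left.left RtB18_9.CX RtB18_9.Ctp.right.right.right.left.right.right RtB18_9.Ce.right.right.left.right.left.left.right RtB18_9.CTp.right RtB18_9.CEr.left 0x6a6a1212126a6a6a34c65d1a29f06b36fb45d439f06b732222573c9f06b42c0835c68fdd42ee8f38f6a36d0e718f530d2285ee198fd223d4e7219f66781dd278f530d435555556a66a66a612681268126 = true := by decide +kernel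

theorem cB18_9_3_84 : chunkOkM (LB18_9.ctx true true 326 2063 1024 11 16 6657 21905 128 64) muQ true true 64 RtB18_9.Cx.left.left.left.left RtB18_9.CX RtB18_9.Ctp.right.right.right.left.right.right.left RtB18_9.Ce.right.right.left.right.left.left.right.left RtB18_9.CTp.right RtB18_9.CEr.right 0x6989a5c88999f06b85761bf7fdd2bb3bc75c15c34b190eaf630d546976936972bef4947fddae165f8a0c55868f9f630d822862e7fde4226a975c78e28d1229f630d545969e32f389ae9f06b84389857fddc9f4e475ccd400e20f9f630d5697469769369743 = true := by decide +kernel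

end Vale.Agent.helper4.Q4
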