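import Vale.Agent.helper4.Q4TreeM
import Vale.Agent.helper4.Q4G.PB18_9

/-!
Checks for pairs of intervals of second moments.
-/

set_option maxRecDepth 100000
set_option linter.unusedVariables false

namespace Vale.Agent.helper4.Q4

theorem cB18_9_3_85 : chunkOkM (LB18_9.ctx true true 300 259 128 11 16 3325 5473 128 128) muQ true true 64 RtB18_9.Cx.left.left.left.right RtB18_9.CX RtB18_9.Ctp.right.right.right.left.right.right.left RtB18_9.Ce.right.right.left.right.left.left.right.left RtB18_9.CTp.right RtB18_9.CEr.right 0x30eb4f97fd26af1d075c26f00f09d9f6656ffdc88f540d154b46b68fd13f43b9285c18ec0e3869f65f5ed4798f540d891d7407fdce703cc75c75cab07119f630d8f28c7a7fdd044a8d75c996bed68b24bb804ad9f6667592808f550d365 = true := by decide +kernel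

theorem cB18_9_3_86 : chunkOkM (LB18_9.ctx true true 313 1039 512 11 16 3325 11011 128 64) muQ true true 64 RtB18_9.Cx.left.left.left RtB18_9.CX RtB18_9.Ctp.right.right.right.left.right.right.left RtB18_9.Ce.right.right.left.right.left.left.right.right RtB18_9.CTp.right RtB18_9.CEr.right 0xccec1d6fd10e9db275caa0e99e879f630d8f51d7c7fde84b1bb75cd267c7d0c9f630d56973c9bb677fd2d66f7b75c8ed87902c9f630d87c4fd07fde0f185f75c89a70699f9f630d545923add727fd17239be75c150e7ff346af630d82d12b27fdd1ec07375c31d6fea929f67fcbce198f540d569759743697 = true := by decide +kernel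

theorem cB18_9_3_87 : chunkOkM (LB18_9.ctx true true 299 259 128 11 16 1673 10959 128 128) muQ true true 64 RtB18_9.Cx.left.left.left RtB18_9.CX RtB18_9.Ctp.right.right.right.left.right.right.right RtB18_9.Ce.right.right.left.right.left.left.right.left RtB18_9.CTp.right RtB18_9.CEr.right 0x3d0cbc27fd2c4a4aa75c36f4efda29f620bf4c57f240d15dfd63a8fd14cc606485c2cb055a9f9f6b49bbd47f240dc6a96257fd12e1f3176ca17bb43309f630d8cef3cb7fdd592d6675c1a92e2a78b54f9aab249f62b2e88868f250db82c5fc7fd13a4674085c4adc74ec89f639be2117f240d4765 = true := by decide +kernel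

theorem cB18_9_3_88 : chunkOkM (LB18_9.ctx true true 323 1031 512 11 16 6685 21957 128 128) muQ true true 64 RtB18_9.Cx.left.left.left RtB18_9.CX RtB18_9.Ctp.right.right.right.left.right.right.right RtB18_9.Ce.right.right.left.right.left.left.right.right RtB18_9.CTp.right RtB18_9.CEr.right 0x34e69ea7fd1dffb2075c3e758a6b99f630d145100528fd159049c085c45e52c1959f630d98ad81c7fde6e866775c1fded5178b4e52680599f640d936fb247fde00cec475c11878e778b5d760b5ec9f640d3653591f517fd326afb275c541f2dac79f6d1fa99128f240d9330b787fd108168b385c5e183da899f643449bc98f240d569696ce6103519f06b823ad9e7fde2f2a5e75ccc2390ecb9f630d54697693432177 = true := by decide +kernel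

theorem cB18_9_3_89 : chunkOkM (LB18_9.ctx true true 276 131 64 11 16 833 2743 64 64) muQ true true 64 RtB18_9.Cx.left.left.right RtB18_9.CX RtB18_9.Ctp.right.right.right.left.right.right RtB18_9.Ce.right.right.left.right.left.left.right RtB18_9.CTp.right RtB18_9.CEr.left 0x2acfa9e58fdc9f7d0858f6acd7a8c78f530d = true := by decide +kernel

theorem cB18_9_3_90 : chunkOkM (LB18_9.ctx true true 283 131 64 11 16 833 5473 128 64) muQ true true 64 RtB18_9.Cx.left.left.right RtB18_9.CX RtB18_9.Ctp.right.right.right.left.right.right RtB18_9.Ce.right.right.left.right.left.left.right.left RtB18_9.CTp.right RtB18_9.CEr.right 0x2b0ae767fd18f8ae66c18b542fdc9f6984c49c78f540d788e08d7fdc52b0d66c147ac0eeb9f685b266308f540d5 = true := by decide +kernel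

theorem cB18_9_3_91 : chunkOkM (LB18_9.ctx true true 300 263 128 11 16 3325 11011 128 64) muQ true true 64 RtB18_9.Cx.left.left.right RtB18_9.CX RtB18_9.Ctp.right.right.right.left.right.right.left RtB18_9.Ce.right.right.left.right.left.left.right.right RtB18_9.CTp.right RtB18_9.CEr.right 0x8075ce858f05b724aa017fdbc6f4be75c10dd0ba609f6a4faaa808f540d5305827c7fd25c72fd75c3c7995f9143b8f8a49f696ed9d2a8f550d887f1417fddb047c075c27030ceab9f66fe59f2d8f540d5214548e7fd3a7a166f81696b27149f6a19eebf68f540d73519db7fdbee930575cce9b95098f6a92bd9328f540d52a0d5537fd1bba5f875c4cbcc8048f6b72ec94f8f540d76cc3f07fdc76a0fa75c2ef465ae39f6772e04ec8f540d5437 = true := by decide +kernel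

theorem cB18_9_3_92 : chunkOkM (LB18_9.ctx true true 287 131 64 11 16 1673 5499 128 64) muQ true true 64 RtB18_9.Cx.left.left.right RtB18_9.CX RtB18_9.Ctp.right.right.right.left.right.right.right RtB18_9.Ce.right.right.left.right.left.left.right.right RtB18_9.CTp.right RtB18_9.CEr.right 0x46c6c4fc09f06b77771f37fdd1ed66a75c8e272083c9f630d5 = true := by decide +kernel

theorem cB18_9_3_93 : chunkOkM (LB18_9.ctx true true 270 67 32 11 16 819 2717 64 64) muQ true true 64 RtB18_9.Cx.left.right RtB18_9.CX RtB18_9.Ctp.right.right.right.left.right.left RtB18_9.Ce.right.right.left.right.left.left.left RtB18_9.CTp.right RtB18_9.CEr 0x444ee767fd64f6df66c12a19c64d9f6f4d149168f540d1ddd70cc8f01c6 = true := by decide +kernel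

theorem cB18_9_3_94 : chunkOkM (LB18_9.ctx true true 283 135 64 11 16 1645 5499 64 64) muQ true true 64 RtB18_9.Cx.left.right RtB18_9.CX RtB18_9.Ctp.right.right.right.left.right.left RtB18_9.Ce.right.right.left.right.left.left.right RtB18_9.CTp.right RtB18_9.CEr 0x27e39fb7fd395c0266c1caf039b99f613da334569f540da964b2c7f06c64bdf89e7fd7d62df66cb354dc848f6cd8b1ad98f540d1b71d4f18fd14fc662f79f61370171a89f530d63d74d057fd6c23f5975c26f604a48f6dda9f61e8f540d113cb2598fdd34d61c75c17c72d958f6f1c0df918f540d65dd8cb67fd3a71cde75c359bf757f9a8c3f29c8f6d7d8eb098f550d1006a8228fdc0a3b1775c2d91dde48f6e90eedc28f540d6437 = true := by decide +kernel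

theorem cB18_9_3_95 : chunkOkM (LB18_9.ctx true true 103 1 1 1 1 1 1 1 1) muQ true true 64 RtB18_9.Cx.left.right RtB18_9.CX RtB18_9.Ctp.right.right.right.left.right.right RtB18_9.Ce.right.right.left.right.left.left RtB18_9.CTp.right RtB18_9.CEr 0x69 = true := by decide +kernel

theorem cB18_9_3_96 : chunkOkM (LB18_9.ctx true true 103 1 1 1 1 1 1 1 1) muQ true true 64 RtB18_9.Cx.left.left RtB18_9.CX RtB18_9.Ctp.right.right.right.left.right RtB18_9.Ce.right.right.left.right.left.right RtB18_9.CTp.left.left RtB18_9.CEr 0x42 = true := by decide +kernel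

theorem cB18_9_3_97 : chunkOkM (LB18_9.ctx true true 103 1 1 1 1 1 1 1 1) muQ true true 64 RtB18_9.Cx.left.left RtB18_9.CX RtB18_9.Ctp.right.right.right.left.right RtB18_9.Ce.right.right.left.right.left.right RtB18_9.CTp.left.right.left RtB18_9.CEr 0x4a = true := by decide +kernel

theorem cB18_9_3_98 : chunkOkM (LB18_9.ctx true true 306 263 128 21 32 3297 5525 256 64) muQ true true 64 RtB18_9.Cx.left.left RtB18_9.CX.left RtB18_9.Ctp.right.right.right.left.right.left RtB18_9.Ce.right.right.left.right.left.right RtB18_9.CTp.left.right.right RtB18_9.CEr 0x5959122830ce8fd122d9a8785c39c8f169b3a2ed9428f6c8e9d3b08f550d20551fe88fd1822c96685c148624ca89f6d71f853b8f540d659359745935974 = true := by decide +kernel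

end Vale.Agent.helper4.Q4
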