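import Vale.Agent.helper4.Q4TreeM
import Vale.Agent.helper4.Q4G.PB18_9

/-!
Checks for pairs of intervals of second moments.
-/

set_option maxRecDepth 100000
set_option linter.unusedVariables false

namespace Vale.Agent.helper4.Q4

theorem cB18_9_3_99 : chunkOkM (LB18_9.ctx true true 312 259 128 21 32 3353 5525 256 256) muQ true true 64 RtB18_9.Cx.left.left.left RtB18_9.CX.left RtB18_9.Ctp.right.right.right.left.right.right RtB18_9.Ce.right.right.left.right.left.right.left RtB18_9.CTp.left.right.right RtB18_9.CEr 0x69136e78ce8fd16986c1d85c3ce53969b5fb73585c9f640d19a89b068fd1e21b8c76c497b6ce78b56197911c9f640de109c6d7fd101a0ee76c45d6ea978b86cff18179f640d36a612664217693 = true := by decide +kernel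

theorem cB18_9_3_100 : chunkOkM (LB18_9.ctx true true 326 263 128 21 32 3353 5551 1024 1024) muQ true true 64 RtB18_9.Cx.left.left.right RtB18_9.CX.left RtB18_9.Ctp.right.right.right.left.right.right RtB18_9.Ce.right.right.left.right.left.right.left RtB18_9.CTp.left.right.right RtB18_9.CEr 0x525a5a5a3e9d1af7fd6617f066c39085b69b205d18faa9f6674dba808f550d3751e1b7fd5a8ab166c31387069b20625c6129f65de8a4e68f550d4c82af1028f05b3665a55a566100731c38fdfa0a0f66c5d692569b1b4db7b239f67c993c618f550d22280bdc8fd1eca5b976c67fce5078b64f35ec969f640dc3e32067fdf4d88e66c471d06178b161353d6e9f6bb7ec8858f550d37fc31dde7fd122151376c44ebf169b2789490cf9f66ce8172a8f550d4c7808367fddeeee266c717e1669b2a3dfa8d8f6cb88c9488f550d36a61266 = true := by decide +kernel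

theorem cB18_9_3_101 : chunkOkM (LB18_9.ctx true true 324 263 128 21 32 1673 5603 1024 1024) muQ true true 64 RtB18_9.Cx.left.left RtB18_9.CX.left RtB18_9.Ctp.right.right.right.left.right.right RtB18_9.Ce.right.right.left.right.left.right.right RtB18_9.CTp.left.right.right RtB18_9.CEr 0x525a5a5ace4a64ad8f05b7a6ee307fda1107666c37548369b18542f1999f68b6344118f550d4665a55a566b4229967fdd25b3966c45336569b9c097e6719f6e486bff7f550de7165e37fd10d7eca76c54f71dd78b18ff439d49f69923cabf8f550d33caba2919af06b746a61266593217 = true := by decide +kernel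

theorem cB18_9_3_102 : chunkOkM (LB18_9.ctx true true 103 1 1 1 1 1 1 1 1) muQ true true 64 RtB18_9.Cx.left.left RtB18_9.CX.right RtB18_9.Ctp.right.right.right.left.right RtB18_9.Ce.right.right.left.right.left.right RtB18_9.CTp.left.right.right RtB18_9.CEr 0x4a = true := by decide +kernel

theorem cB18_9_3_103 : chunkOkM (LB18_9.ctx true true 293 263 128 11 16 3297 5525 64 64) muQ true true 64 RtB18_9.Cx.left.left RtB18_9.CX RtB18_9.Ctp.right.right.right.left.right.left RtB18_9.Ce.right.right.left.right.left.right RtB18_9.CTp.right RtB18_9.CEr 0x595957972c87fd8fdcfbd75cdfb378178f6bed480248f540d1ec928538fd6f4cece88f6d2c1ff378f530d659359745935974 = true := by decide +kernel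

theorem cB18_9_3_104 : chunkOkM (LB18_9.ctx true true 310 519 256 11 16 3353 11037 128 128) muQ true true 64 RtB18_9.Cx.left.left.left RtB18_9.CX RtB18_9.Ctp.right.right.right.left.right.right RtB18_9.Ce.right.right.left.right.left.right.left RtB18_9.CTp.right RtB18_9.CEr 0x693ea72097fd3929b9875c57840658d9f630d124eea0f8fd14899c4085c6848abfab9f622cff0aa8f240d8e07d9e7fde2ef37c75c14f57a278b65babab7f9f640d65693d997327fd3b7a62a75ced2a973639f630d92f41d47fdf50ceef75c6a3da31869f630d5697431d82f7728fd3861f38e69f620d64217693 = true := by decide +kernel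

theorem cB18_9_3_105 : chunkOkM (LB18_9.ctx true true 280 131 64 11 16 1659 2769 64 64) muQ true true 64 RtB18_9.Cx.left.left.right RtB18_9.CX RtB18_9.Ctp.right.right.right.left.right.right.left RtB18_9.Ce.right.right.left.right.left.right.left RtB18_9.CTp.right RtB18_9.CEr.left 0x2882d5a38fd7790b397f6c56e91ac8f530d = true := by decide +kernel

theorem cB18_9_3_106 : chunkOkM (LB18_9.ctx true true 310 523 256 11 16 6629 11063 128 64) muQ true true 64 RtB18_9.Cx.left.left.right.left RtB18_9.CX RtB18_9.Ctp.right.right.right.left.right.right.left RtB18_9.Ce.right.right.left.right.left.right.left.left RtB18_9.CTp.right RtB18_9.CEr.right 0x2f09ed87fd290fcc475cfc6f7d3f8f6a48de28f8f540d8284ee67fdda58e6b75c1a15e668b253fd6db99f692c9333e8f550d56972f834987fd2ba80a875c2e7d8c978f6ac80b7958f540d8267d1c7fdd9a504775c2c6b5b4cd9f66cc554998f540d5459b32636fa8f05b6cb91057fdb60b86275c150065a899f6a9e500c88f540d559359743 = true := by decide +kernel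

theorem cB18_9_3_107 : chunkOkM (LB18_9.ctx true true 300 263 128 11 16 3325 11063 128 64) muQ true true 64 RtB18_9.Cx.left.left.right.right RtB18_9.CX RtB18_9.Ctp.right.right.right.left.right.right.left RtB18_9.Ce.right.right.left.right.left.right.left.left RtB18_9.CTp.right RtB18_9.CEr.right 0x279b3317fd265e8af75c1e49f7e189f6896f761e8f540d73bea277fdc3dc0c775c121c92a389f6947e37a88f540d5b504b1ef8f05b6ce689a7fdb6a730075cb2b8f9df8f530d5a53ff5438f05b79280517fdb1e24af75c545d84e059f6657d92e48f540d543 = true := by decide +kernel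

theorem cB18_9_3_108 : chunkOkM (LB18_9.ctx true true 355 8415 4096 11 16 53305 88829 128 64) muQ true true 64 RtB18_9.Cx.left.left.right RtB18_9.CX RtB18_9.Ctp.right.right.right.left.right.right.left RtB18_9.Ce.right.right.left.right.left.right.left.right RtB18_9.CTp.right RtB18_9.CEr.right 0xb0c3cc478f05b64e34ff7fdb1340eb75c1b3d16ced9f6a115965e8f540d55959599605f2348f05b69dec577fdbe0442975c57d3455229f674f9c37e8f540d5597593459759359745935974593736a41a37fd35b886475c6f987ea88f6a9dd39238f540d656ed257fdaebf45575c1ef66d1fe9f6a0ee33e48f540d5453ccfc57fd98b370a75c906e25ee8f6c3b218d08f540d3697 = true := by decide +kernel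

theorem cB18_9_3_109 : chunkOkM (LB18_9.ctx true true 335 131 64 41 64 1673 5551 4096 4096) muQ true true 64 RtB18_9.Cx.left.left.right RtB18_9.CX RtB18_9.Ctp.right.right.right.left.right.right.right RtB18_9.Ce.right.right.left.right.left.right.left RtB18_9.CTp.right RtB18_9.CEr.left 0x6a6a1212126a6a6abd34a287fd27de9a7929f67255d8878f530d4e25abf9c9f06b45555556a66a66a612681268126 = true := by decide +kernel

end Vale.Agent.helper4.Q4
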