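import Vale.Agent.helper4.Q4TreeM
import Vale.Agent.helper4.Q4G.PB18_9

/-!
Checks for pairs of intervals of second moments.
-/

set_option maxRecDepth 100000
set_option linter.unusedVariables false

namespace Vale.Agent.helper4.Q4

theorem cB18_9_3_110 : chunkOkM (LB18_9.ctx true true 301 263 128 11 16 3353 5525 128 128) muQ true true 64 RtB18_9.Cx.left.left.right RtB18_9.CX RtB18_9.Ctp.right.right.right.left.right.right.right RtB18_9.Ce.right.right.left.right.left.right.left.left RtB18_9.CTp.right RtB18_9.CEr.right 0x32d03537fd2d4af0775c2046c8ea49f660bb81d58f540d1022c9958fd11ce91f185c2329e82809f66238eb018f540d8f9882d7fdda3e7b66c11f097d873af630dd5b882c7fd114fda5185c5aa2c14829f630d8f004a17fdcec3f7175cb4325768b423a5c9489f63089db4f8f550d3765 = true := by decide +kernel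

theorem cB18_9_3_111 : chunkOkM (LB18_9.ctx true true 307 523 256 11 16 3353 11115 128 64) muQ true true 64 RtB18_9.Cx.left.left.right.left RtB18_9.CX RtB18_9.Ctp.right.right.right.left.right.right.right RtB18_9.Ce.right.right.left.right.left.right.left.right RtB18_9.CTp.right RtB18_9.CEr.right 0x350f3a47fd3c0f5e675c4713ce5cb9f630d724af937fdd4e1a3875c9fc9388359f630d56973f142237fd376b89275c808fd49ec9f630d74447fe7fdd5c134075c7172d2a079f630d54692fe549f7fd1ed744775c5c7ae46f9909ff85049f640d7aca5437fdca5402075cb6cd06f409f630d569743 = true := by decide +kernel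

theorem cB18_9_3_112 : chunkOkM (LB18_9.ctx true true 296 263 128 11 16 1673 5551 128 128) muQ true true 64 RtB18_9.Cx.left.left.right.right RtB18_9.CX RtB18_9.Ctp.right.right.right.left.right.right.right RtB18_9.Ce.right.right.left.right.left.right.left.right RtB18_9.CTp.right RtB18_9.CEr.right 0x2eaaf497fd38a149375ce39205728f698f66f388f540d1b6d03ea8fd14b3243285c348a728349f64daeadc58f540d9cbf5e97fdecf8e4c75c1d2ca57339f67d2587ce8f540d65 = true := by decide +kernel

theorem cB18_9_3_113 : chunkOkM (LB18_9.ctx true true 103 1 1 1 1 1 1 1 1) muQ true true 64 RtB18_9.Cx.left.left.left RtB18_9.CX RtB18_9.Ctp.right.right.right.left.right.right RtB18_9.Ce.right.right.left.right.left.right.right RtB18_9.CTp.right RtB18_9.CEr 0x21 = true := by decide +kernel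

theorem cB18_9_3_114 : chunkOkM (LB18_9.ctx true true 103 1 1 1 1 1 1 1 1) muQ true true 64 RtB18_9.Cx.left.left.right RtB18_9.CX RtB18_9.Ctp.right.right.right.left.right.right.left RtB18_9.Ce.right.right.left.right.left.right.right RtB18_9.CTp.right RtB18_9.CEr 0x59 = true := by decide +kernel

theorem cB18_9_3_115 : chunkOkM (LB18_9.ctx true true 280 131 64 11 16 1673 2795 64 64) muQ true true 64 RtB18_9.Cx.left.left.right RtB18_9.CX RtB18_9.Ctp.right.right.right.left.right.right.right RtB18_9.Ce.right.right.left.right.left.right.right RtB18_9.CTp.right RtB18_9.CEr.left 0x17c0bc458fdd347a09d8f6adc7ef3d8f530d = true := by decide +kernel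

theorem cB18_9_3_116 : chunkOkM (LB18_9.ctx true true 293 261 128 11 16 1673 5577 64 64) muQ true true 64 RtB18_9.Cx.left.left.right.left RtB18_9.CX RtB18_9.Ctp.right.right.right.left.right.right.right RtB18_9.Ce.right.right.left.right.left.right.right.left RtB18_9.CTp.right RtB18_9.CEr.right 0x5c47c707fdbd25f4375cfe5effeb75af630d = true := by decide +kernel

theorem cB18_9_3_117 : chunkOkM (LB18_9.ctx true true 333 2111 1024 11 16 13377 44629 128 64) muQ true true 64 RtB18_9.Cx.left.left.right.right RtB18_9.CX RtB18_9.Ctp.right.right.right.left.right.right.right RtB18_9.Ce.right.right.left.right.left.right.right.left RtB18_9.CTp.right RtB18_9.CEr.right 0x2d73c6a7fd5a2cf5a75c663ef27309f626534edb8f540d79d37567fdcd3e2df75c8e4cb9b7f9f630d532177a17fd3cba24a75c4711bd93f9f634941f398f540d86dd98b7fde1fe18e75c60f14656f9f620613aa68f540d545969a45cedd819f06b6a3d88b7fdb34859375ce8eea068b1003346d23af640d54697693597459359725e24e87fd422073475c1fd0a24f69f6ae2f62f18f540d700ab5d7fdc151cba75c7050ddf98f6ad233f0b8f540d543 = true := by decide +kernel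

theorem cB18_9_3_118 : chunkOkM (LB18_9.ctx true true 316 1055 512 11 16 6713 22373 64 64) muQ true true 64 RtB18_9.Cx.left.left.right RtB18_9.CX RtB18_9.Ctp.right.right.right.left.right.right.right RtB18_9.Ce.right.right.left.right.left.right.right.right RtB18_9.CTp.right RtB18_9.CEr.right 0x596956435f07fdb011c7c75c17386188e0af630d69746935974593217 = true := by decide +kernel

theorem cB18_9_3_119 : chunkOkM (LB18_9.ctx true true 103 1 1 1 1 1 1 1 1) muQ true true 64 RtB18_9.Cx.left.right RtB18_9.CX RtB18_9.Ctp.right.right.right.left.right RtB18_9.Ce.right.right.left.right.left.right RtB18_9.CTp.left.left RtB18_9.CEr 0x42 = true := by decide +kernel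

theorem cB18_9_3_120 : chunkOkM (LB18_9.ctx true true 103 1 1 1 1 1 1 1 1) muQ true true 64 RtB18_9.Cx.left.right RtB18_9.CX RtB18_9.Ctp.right.right.right.left.right RtB18_9.Ce.right.right.left.right.left.right RtB18_9.CTp.left.right.left RtB18_9.CEr 0x4a = true := by decide +kernel

theorem cB18_9_3_121 : chunkOkM (LB18_9.ctx true true 293 135 64 21 32 1645 2795 256 64) muQ true true 64 RtB18_9.Cx.left.right RtB18_9.CX.left RtB18_9.Ctp.right.right.right.left.right.left RtB18_9.Ce.right.right.left.right.left.right RtB18_9.CTp.left.right.right RtB18_9.CEr 0x44463217fd1464a966c93f88469be11a6d8c8f6132c1ba929f550d416345a7fd18d62e66cdbe0d269b78dfc1128f610c8b76079f550d7570ece87fd1e52956c397fc669b109eea4d99f6116399fc69f550d49e8d2d785ce5d647bc8f520d145099a08fdf490d2f75c6a43d6b88f6f59d77b68f540d64bdfd757fd10ab2a66c8ddf3669b8101ff3c8f610f7bc22e9f550d374 = true := by decide +kernel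

theorem cB18_9_3_122 : chunkOkM (LB18_9.ctx true true 293 135 64 21 32 1673 2795 256 64) muQ true true 64 RtB18_9.Cx.left.right RtB18_9.CX.left RtB18_9.Ctp.right.right.right.left.right.right RtB18_9.Ce.right.right.left.right.left.right RtB18_9.CTp.left.right.right RtB18_9.CEr 0x4b89da67fd31c64266c962b7e69bab6239258f6b58231ab8f550d49310fd7fd31d956175c94a47f69b871dfc818f6ee916cdf8f550d3a65a04c7fdc3afe266c422f9969bb31165d98f6b5277e948f550dd2d35b97fd55d171275c7ed4b369b6611c48f8f6c0c1a0d48f550d6769ecca1e57fd11e478076c48ff4269b12d78fd859f6b091fa238f550db271f777fd16bbbd66ca0cf0869bac6197b18f6b9c4e7c38f550d674 = true := by decide +kernel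

theorem cB18_9_3_123 : chunkOkM (LB18_9.ctx true true 103 1 1 1 1 1 1 1 1) muQ true true 64 RtB18_9.Cx.left.right RtB18_9.CX.right RtB18_9.Ctp.right.right.right.left.right RtB18_9.Ce.right.right.left.right.left.right RtB18_9.CTp.left.right.right RtB18_9.CEr 0x4a = true := by decide +kernel

theorem cB18_9_3_124 : chunkOkM (LB18_9.ctx true true 367 34303 16384 11 16 52409 88621 128 64) muQ true true 64 RtB18_9.Cx.left.right.left RtB18_9.CX RtB18_9.Ctp.right.right.right.left.right.left.left RtB18_9.Ce.right.right.left.right.left.right.left RtB18_9.CTp.right RtB18_9.CEr 0x595959594fb2ed07f06c185c41228f01c659759759759345975935974593597459359745935971d2811e7fd10437217f89c6ed0ba8f6ff18e0378f540d4c786e47fd6917e9c75c1574321829f611f7794169f540d139af1548fd92300f458f6107055b339f530d654 = true := by decide +kernel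

theorem cB18_9_3_125 : chunkOkM (LB18_9.ctx true true 283 133 64 11 16 1645 5551 64 64) muQ true true 64 RtB18_9.Cx.left.right.left RtB18_9.CX RtB18_9.Ctp.right.right.right.left.right.left.right RtB18_9.Ce.right.right.left.right.left.right.left RtB18_9.CTp.right RtB18_9.CEr 0x409077d7fd8d5288975c48aa7cf48f6db5c270d8f540d2057ba378fddfa085e08f520d648e9b197fd8d3407975c87e0d76e8f6ceb647958f540d110a69a38fdf07c60675c342d4a828f6dd19661c8f540d64 = true := by decide +kernel

end Vale.Agent.helper4.Q4
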