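import Vale.Agent.helper4.Q4TreeM
import Vale.Agent.helper4.Q4G.PB18_9

/-!
Checks for pairs of intervals of second moments.
-/

set_option maxRecDepth 100000
set_option linter.unusedVariables false

namespace Vale.Agent.helper4.Q4

theorem cB18_9_3_126 : chunkOkM (LB18_9.ctx true true 287 135 64 11 16 1631 5551 128 64) muQ true true 64 RtB18_9.Cx.left.right.right RtB18_9.CX RtB18_9.Ctp.right.right.right.left.right.left.left RtB18_9.Ce.right.right.left.right.left.right.left RtB18_9.CTp.right RtB18_9.CEr 0x1eda3bb7fd13dfaea7f81597a211f9f61577df8b19f540d42f99c37fd7734f7f75c11ae4620b9f614962288c9f540d1c7cbe018fdbf5743398f612d577f369f530d6529093a77fd52d8a266c686991a38f6f42501a98f540dd7238cd7fd976786675c102da96e19f61344ee5c49f540d64 = true := by decide +kernel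

theorem cB18_9_3_127 : chunkOkM (LB18_9.ctx true true 283 135 64 11 16 1645 5551 64 64) muQ true true 64 RtB18_9.Cx.left.right.right RtB18_9.CX RtB18_9.Ctp.right.right.right.left.right.left.right RtB18_9.Ce.right.right.left.right.left.right.left RtB18_9.CTp.right RtB18_9.CEr 0x2fc5f8a7fd67359966ce1f49c348f6f7022eca8f540d2cb80dab8fdbc73f41c8f610ba3be9a9f530d6439b0a57f06c159c0fd48f01c64 = true := by decide +kernel

theorem cB18_9_3_128 : chunkOkM (LB18_9.ctx true true 302 535 256 11 16 3297 11141 64 64) muQ true true 64 RtB18_9.Cx.left.right.left RtB18_9.CX RtB18_9.Ctp.right.right.right.left.right.left RtB18_9.Ce.right.right.left.right.left.right.right RtB18_9.CTp.right RtB18_9.CEr 0x59593946bde7fd7839d8875c1387cb04c9f6e9d9eb5a8f540d17dbcd0f8fd3008560e8f6ed014f288f530d659745935974593 = true := by decide +kernel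

theorem cB18_9_3_129 : chunkOkM (LB18_9.ctx true true 293 271 128 11 16 1631 5577 128 64) muQ true true 64 RtB18_9.Cx.left.right.right RtB18_9.CX RtB18_9.Ctp.right.right.right.left.right.left.left RtB18_9.Ce.right.right.left.right.left.right.right RtB18_9.CTp.right RtB18_9.CEr 0x5910e0f5f7fd18420b67f81b0ca35e49f615babe5329f540d2cb85567fd5e8106575c292f1917b9f618775fc869f540ddb3b4927fdcce203668f612ddffb9c9f530d655974 = true := by decide +kernel

theorem cB18_9_3_130 : chunkOkM (LB18_9.ctx true true 306 539 256 11 16 3297 11193 128 64) muQ true true 64 RtB18_9.Cx.left.right.right RtB18_9.CX RtB18_9.Ctp.right.right.right.left.right.left.right RtB18_9.Ce.right.right.left.right.left.right.right RtB18_9.CTp.right RtB18_9.CEr 0x13e8eb77fdeac7556f8c5c0c1e38f610820f08e9f540d382f9da7fd67543c275cadb411318f6fc6878a68f540d90e03d17fd1063f03f39f611b5ce4619f530d65944e89087fd765cf2275cdbfd79118f6ec43f8668f540d139985688fda88894358f6ffb298998f530d65974593755875a677fd40a384b75c1e343e97f98d888a708f6f4ab2c538f550db56d5027fd3bdde3a75c8f6cb6538f61058717909f540d64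 = true := by decide +kernel

theorem cB18_9_3_131 : chunkOkM (LB18_9.ctx true true 297 267 128 11 16 3325 5551 128 64) muQ true true 64 RtB18_9.Cx.left.right.left RtB18_9.CX RtB18_9.Ctp.right.right.right.left.right.right.left RtB18_9.Ce.right.right.left.right.left.right.left RtB18_9.CTp.right RtB18_9.CEr 0x475e7937fd803294e75cc87209eb8f6c3bbfdb58f540d972f80958f05b68d9a887fdb6a201e75cc70a69e18f6a3f0406f8f540d553e9ac07fd8b4a6c375cb92f7cec8f6b849bda48f540d3751d9e4a7fd8e97ef66c13ac46ce69f6b0def52d8f540d42f16aeec8fdf6f3b2798f6cd14a5528f530d6 = true := by decide +kernel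

theorem cB18_9_3_132 : chunkOkM (LB18_9.ctx true true 284 133 64 11 16 1673 2769 128 64) muQ true true 64 RtB18_9.Cx.left.right.left RtB18_9.CX RtB18_9.Ctp.right.right.right.left.right.right.right RtB18_9.Ce.right.right.left.right.left.right.left RtB18_9.CTp.right RtB18_9.CEr 0x064f31027fdb74cdd66c7e8816768f530d51886c2e18f01c6 = true := by decide +kernel

theorem cB18_9_3_133 : chunkOkM (LB18_9.ctx true true 103 1 1 1 1 1 1 1 1) muQ true true 64 RtB18_9.Cx.left.right.right RtB18_9.CX RtB18_9.Ctp.right.right.right.left.right.right RtB18_9.Ce.right.right.left.right.left.right.left RtB18_9.CTp.right RtB18_9.CEr 0x69 = true := by decide +kernel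

theorem cB18_9_3_134 : chunkOkM (LB18_9.ctx true true 300 267 128 11 16 3325 11167 128 64) muQ true true 64 RtB18_9.Cx.left.right.left RtB18_9.CX RtB18_9.Ctp.right.right.right.left.right.right.left RtB18_9.Ce.right.right.left.right.left.right.right RtB18_9.CTp.right RtB18_9.CEr 0x4b8228b7fd7b1822a75cfdd849048f6d72d01578f540d267978f18fd5cbb78758f6dfdfeb3a8f530d65974bdeb177fd8bc609c75c9d673c3b8f6c7a427da8f540d4e78a267fd971614975cae879fc68f6c56f9b9a8f540db18771628f05b6328a777fdb27093d75cb8e5ca268f530d5447a74ff7fd8a4ae2475c4a98ce668f6c980a30b8f540d3712f702328fd159148ac85c99ac8d5e8f6cf8af15d8f540d64 = true := by decide +kernel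

theorem cB18_9_3_135 : chunkOkM (LB18_9.ctx true true 293 267 128 11 16 1673 5577 128 64) muQ true true 64 RtB18_9.Cx.left.right.left RtB18_9.CX RtB18_9.Ctp.right.right.right.left.right.right.right RtB18_9.Ce.right.right.left.right.left.right.right.left RtB18_9.CTp.right RtB18_9.CEr 0x4ac41e57fd8bd2dbf75c887d472f8f530d32655647fd272506475c17250777a9f681ebde5f8f540d68e6a9f7fdc3396d875c12f75bbe29f68d95ddec8f540d572900e3618fd214edd2c29f6c2d6007e8f530d6 = true := by decide +kernel

theorem cB18_9_3_136 : chunkOkM (LB18_9.ctx true true 283 133 64 11 16 1673 5603 64 64) muQ true true 64 RtB18_9.Cx.left.right.left RtB18_9.CX RtB18_9.Ctp.right.right.right.left.right.right.right RtB18_9.Ce.right.right.left.right.left.right.right.right RtB18_9.CTp.right RtB18_9.CEr.left 0x2b2cf7ef8fd27186d7cd9f6b02938de8f530d = true := by decide +kernel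

theorem cB18_9_3_137 : chunkOkM (LB18_9.ctx true true 324 1063 512 11 16 13377 22425 128 64) muQ true true 64 RtB18_9.Cx.left.right.left.left RtB18_9.CX RtB18_9.Ctp.right.right.right.left.right.right.right.left RtB18_9.Ce.right.right.left.right.left.right.right.right RtB18_9.CTp.right RtB18_9.CEr.right 0x59a9ea71568f05b6013ee57fdb7fe71075cba7d36f88f530d55935974593597ac9a3a868f05b60046bf7fdb00dc0075c1c5485afa9f6acdca5f38f540d559aec9bcc08f05b622b05c7fdb6e266875c8eb22565a9f63df447b48f540d5593597459374 = true := by decide +kernel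

end Vale.Agent.helper4.Q4
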