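import Vale.Agent.helper4.Q4TreeM
import Vale.Agent.helper4.Q4G.PB18_9_0
import Vale.Agent.helper4.Q4G.PB18_9_1
import Vale.Agent.helper4.Q4G.PB18_9_2
import Vale.Agent.helper4.Q4G.PB18_9_3
import Vale.Agent.helper4.Q4G.PB18_9_4
import Vale.Agent.helper4.Q4G.PB18_9_5
import Vale.Agent.helper4.Q4G.PB18_9_6
import Vale.Agent.helper4.Q4G.PB18_9_7
import Vale.Agent.helper4.Q4G.PB18_9_8
import Vale.Agent.helper4.Q4G.PB18_9_9
import Vale.Agent.helper4.Q4G.PB18_9_10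
import Vale.Agent.helper4.Q4G.PB18_9_11
import Vale.Agent.helper4.Q4G.PB18_9_12
import Vale.Agent.helper4.Q4G.PB18_9_13
import Vale.Agent.helper4.Q4G.PB18_9_14
import Vale.Agent.helper4.Q4G.PB18_9_15
import Vale.Agent.helper4.Q4G.PB18_9_16
import Vale.Agent.helper4.Q4G.PB18_9_17
import Vale.Agent.helper4.Q4G.PB18_9_18
import Vale.Agent.helper4.Q4G.PB18_9_19
import Vale.Agent.helper4.Q4G.PB18_9_20
import Vale.Agent.helper4.Q4G.PB18_9_21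
import Vale.Agent.helper4.Q4G.PB18_9_22
import Vale.Agent.helper4.Q4G.PB18_9_23
import Vale.Agent.helper4.Q4G.PB18_9_24
import Vale.Agent.helper4.Q4G.PB18_9_25
import Vale.Agent.helper4.Q4G.PB18_9_26
import Vale.Agent.helper4.Q4G.PB18_9_27
import Vale.Agent.helper4.Q4G.PB18_9_28

/-!
Checks for pairs of intervals of second moments.
-/

set_option maxRecDepth 100000
set_option linter.unusedVariables false

namespace Vale.Agent.helper4.Q4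

theorem covB18_9 : LB18_9.Full muQ.val RtB18_9 := ⟨(LitT.Cov.split_t (LitT.cov_of_chunkM cB18_9_3_0) (LitT.Cov.split_t (LitT.cov_of_chunkM cB18_9_3_1) (LitT.Cov.split_e (LitT.cov_of_chunkM cB18_9_3_2) (LitT.Cov.split_e (LitT.cov_of_chunkM cB18_9_3_3) (LitT.Cov.split_e (LitT.Cov.split_t (LitT.Cov.split_t (LitT.cov_of_chunkM cB18_9_3_4) (LitT.Cov.split_t (LitT.cov_of_chunkM cB18_9_3_5) (LitT.Cov.split_x (LitT.Cov.split_e (LitT.Cov.split_x (LitT.Cov.split_e (LitT.Cov.split_e (LitT.cov_of_chunkM cB18_9_3_6) (LitT.Cov.split_T (LitT.cov_of_chunkM cB18_9_3_7) (LitT.Cov.split_t (LitT.cov_of_chunkM cB18_9_3_8) (LitT.cov_of_chunkM cB18_9_3_9)))) (LitT.Cov.split_e (LitT.Cov.split_t (LitT.cov_of_chunkM cB18_9_3_10) (LitT.Cov.split_T (LitT.cov_of_chunkM cB18_9_3_11) (LitT.Cov.split_e (LitT.cov_of_chunkM cB18_9_3_12) (LitT.cov_of_chunkM cB18_9_3_13)))) (LitT.cov_of_chunkM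 cB18_9_3_14))) (LitT.cov_of_chunkM cB18_9_3_15)) (LitT.cov_of_chunkM cB18_9_3_16)) (LitT.cov_of_chunkM cB18_9_3_17)))) (LitT.Cov.split_e (LitT.Cov.split_t (LitT.Cov.split_e (LitT.cov_of_chunkM cB18_9_3_18) (LitT.Cov.split_x (LitT.Cov.split_t (LitT.Cov.split_e (LitT.Cov.split_T (LitT.cov_of_chunkM cB18_9_3_19) (LitT.Cov.split_x (LitT.Cov.split_t (LitT.Cov.split_e (LitT.cov_of_chunkM cB18_9_3_20) (LitT.cov_of_chunkM cB18_9_3_21)) (LitT.cov_of_chunkM cB18_9_3_22)) (LitT.cov_of_chunkM cB18_9_3_23))) (LitT.Cov.split_T (LitT.Cov.split_T (LitT.cov_of_chunkM cB18_9_3_24) (LitT.Cov.split_T (LitT.cov_of_chunkM cB18_9_3_25) (LitT.Cov.split_X (LitT.Cov.split_x (LitT.Cov.split_t (LitT.cov_of_chunkM cB18_9_3_26) (LitT.cov_of_chunkM cB18_9_3_27)) (LitT.cov_of_chunkM cB18_9_3_28)) (LitT.cov_of_chunkM cB18_9_3_29)))) (LitT.Cov.split_x (LitT.Cov.split_t (LitT.Cov.split_e (LitT.cov_of_chunkM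 cB18_9_3_30) (LitT.cov_of_chunkM cB18_9_3_31)) (LitT.Cov.split_e (LitT.Cov.split_x (LitT.cov_of_chunkM cB18_9_3_32) (LitT.cov_of_chunkM cB18_9_3_33)) (LitT.Cov.split_x (LitT.cov_of_chunkM cB18_9_3_34) (LitT.cov_of_chunkM cB18_9_3_35)))) (LitT.cov_of_chunkM cB18_9_3_36)))) (LitT.Cov.split_t (LitT.Cov.split_e (LitT.cov_of_chunkM cB18_9_3_37) (LitT.Cov.split_T (LitT.cov_of_chunkM cB18_9_3_38) (LitT.Cov.split_x (LitT.Cov.split_e (LitT.cov_of_chunkM cB18_9_3_39) (LitT.Cov.split_x (LitT.Cov.split_E (LitT.cov_of_chunkM cB18_9_3_40) (LitT.Cov.split_t (LitT.Cov.split_e (LitT.cov_of_chunkM cB18_9_3_41) (LitT.Cov.split_x (LitT.cov_of_chunkM cB18_9_3_42) (LitT.cov_of_chunkM cB18_9_3_43))) (LitT.cov_of_chunkM cB18_9_3_44))) (LitT.cov_of_chunkM cB18_9_3_45))) (LitT.cov_of_chunkM cB18_9_3_46)))) (LitT.cov_of_chunkM cB18_9_3_47))) (LitT.cov_of_chunkM cB18_9_3_48))) (LitT.cov_of_chunkM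 cB18_9_3_49)) (LitT.Cov.split_t (LitT.Cov.split_e (LitT.Cov.split_x (LitT.Cov.split_t (LitT.Cov.split_e (LitT.Cov.split_x (LitT.cov_of_chunkM cB18_9_3_50) (LitT.Cov.split_t (LitT.cov_of_chunkM cB18_9_3_51) (LitT.Cov.split_T (LitT.cov_of_chunkM cB18_9_3_52) (LitT.Cov.split_e (LitT.Cov.split_x (LitT.Cov.split_t (LitT.cov_of_chunkM cB18_9_3_53) (LitT.cov_of_chunkM cB18_9_3_54)) (LitT.cov_of_chunkM cB18_9_3_55)) (LitT.Cov.split_x (LitT.cov_of_chunkM cB18_9_3_56) (LitT.cov_of_chunkM cB18_9_3_57)))))) (LitT.cov_of_chunkM cB18_9_3_58)) (LitT.Cov.split_e (LitT.Cov.split_T (LitT.Cov.split_T (LitT.cov_of_chunkM cB18_9_3_59) (LitT.Cov.split_T (LitT.cov_of_chunkM cB18_9_3_60) (LitT.Cov.split_X (LitT.Cov.split_x (LitT.Cov.split_t (LitT.cov_of_chunkM cB18_9_3_61) (LitT.Cov.split_e (LitT.cov_of_chunkM cB18_9_3_62) (LitT.Cov.split_E (LitT.cov_of_chunkM cB18_9_3_63) (LitT.cov_of_chunkM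 cB18_9_3_64)))) (LitT.cov_of_chunkM cB18_9_3_65)) (LitT.cov_of_chunkM cB18_9_3_66)))) (LitT.Cov.split_x (LitT.Cov.split_t (LitT.Cov.split_e (LitT.Cov.split_x (LitT.Cov.split_E (LitT.cov_of_chunkM cB18_9_3_67) (LitT.Cov.split_t (LitT.cov_of_chunkM cB18_9_3_68) (LitT.Cov.split_e (LitT.Cov.split_x (LitT.cov_of_chunkM cB18_9_3_69) (LitT.cov_of_chunkM cB18_9_3_70)) (LitT.Cov.split_x (LitT.cov_of_chunkM cB18_9_3_71) (LitT.cov_of_chunkM cB18_9_3_72))))) (LitT.cov_of_chunkM cB18_9_3_73)) (LitT.Cov.split_x (LitT.cov_of_chunkM cB18_9_3_74) (LitT.Cov.split_t (LitT.cov_of_chunkM cB18_9_3_75) (LitT.Cov.split_E (LitT.cov_of_chunkM cB18_9_3_76) (LitT.Cov.split_e (LitT.cov_of_chunkM cB18_9_3_77) (LitT.cov_of_chunkM cB18_9_3_78)))))) (LitT.Cov.split_e (LitT.Cov.split_E (LitT.cov_of_chunkM cB18_9_3_79) (LitT.Cov.split_x (LitT.Cov.split_e (LitT.cov_of_chunkM cB18_9_3_80) (LitT.cov_of_chunkM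 cB18_9_3_81)) (LitT.cov_of_chunkM cB18_9_3_82))) (LitT.Cov.split_x (LitT.Cov.split_E (LitT.cov_of_chunkM cB18_9_3_83) (LitT.Cov.split_t (LitT.Cov.split_e (LitT.Cov.split_x (LitT.cov_of_chunkM cB18_9_3_84) (LitT.cov_of_chunkM cB18_9_3_85)) (LitT.cov_of_chunkM cB18_9_3_86)) (LitT.Cov.split_e (LitT.cov_of_chunkM cB18_9_3_87) (LitT.cov_of_chunkM cB18_9_3_88)))) (LitT.Cov.split_E (LitT.cov_of_chunkM cB18_9_3_89) (LitT.Cov.split_e (LitT.cov_of_chunkM cB18_9_3_90) (LitT.Cov.split_t (LitT.cov_of_chunkM cB18_9_3_91) (LitT.cov_of_chunkM cB18_9_3_92))))))) (LitT.Cov.split_t (LitT.Cov.split_e (LitT.cov_of_chunkM cB18_9_3_93) (LitT.cov_of_chunkM cB18_9_3_94)) (LitT.cov_of_chunkM cB18_9_3_95)))) (LitT.Cov.split_x (LitT.Cov.split_T (LitT.Cov.split_T (LitT.cov_of_chunkM cB18_9_3_96) (LitT.Cov.split_T (LitT.cov_of_chunkM cB18_9_3_97) (LitT.Cov.split_X (LitT.Cov.split_t (LitT.cov_of_chunkM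 cB18_9_3_98) (LitT.Cov.split_e (LitT.Cov.split_x (LitT.cov_of_chunkM cB18_9_3_99) (LitT.cov_of_chunkM cB18_9_3_100)) (LitT.cov_of_chunkM cB18_9_3_101))) (LitT.cov_of_chunkM cB18_9_3_102)))) (LitT.Cov.split_t (LitT.cov_of_chunkM cB18_9_3_103) (LitT.Cov.split_e (LitT.Cov.split_x (LitT.cov_of_chunkM cB18_9_3_104) (LitT.Cov.split_t (LitT.Cov.split_E (LitT.cov_of_chunkM cB18_9_3_105) (LitT.Cov.split_e (LitT.Cov.split_x (LitT.cov_of_chunkM cB18_9_3_106) (LitT.cov_of_chunkM cB18_9_3_107)) (LitT.cov_of_chunkM cB18_9_3_108))) (LitT.Cov.split_E (LitT.cov_of_chunkM cB18_9_3_109) (LitT.Cov.split_e (LitT.cov_of_chunkM cB18_9_3_110) (LitT.Cov.split_x (LitT.cov_of_chunkM cB18_9_3_111) (LitT.cov_of_chunkM cB18_9_3_112)))))) (LitT.Cov.split_x (LitT.cov_of_chunkM cB18_9_3_113) (LitT.Cov.split_t (LitT.cov_of_chunkM cB18_9_3_114) (LitT.Cov.split_E (LitT.cov_of_chunkM cB18_9_3_115)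 (LitT.Cov.split_e (LitT.Cov.split_x (LitT.cov_of_chunkM cB18_9_3_116) (LitT.cov_of_chunkM cB18_9_3_117)) (LitT.cov_of_chunkM cB18_9_3_118)))))))) (LitT.Cov.split_T (LitT.Cov.split_T (LitT.cov_of_chunkM cB18_9_3_119) (LitT.Cov.split_T (LitT.cov_of_chunkM cB18_9_3_120) (LitT.Cov.split_X (LitT.Cov.split_t (LitT.cov_of_chunkM cB18_9_3_121) (LitT.cov_of_chunkM cB18_9_3_122)) (LitT.cov_of_chunkM cB18_9_3_123)))) (LitT.Cov.split_t (LitT.Cov.split_e (LitT.Cov.split_x (LitT.Cov.split_t (LitT.cov_of_chunkM cB18_9_3_124) (LitT.cov_of_chunkM cB18_9_3_125)) (LitT.Cov.split_t (LitT.cov_of_chunkM cB18_9_3_126) (LitT.cov_of_chunkM cB18_9_3_127))) (LitT.Cov.split_x (LitT.cov_of_chunkM cB18_9_3_128) (LitT.Cov.split_t (LitT.cov_of_chunkM cB18_9_3_129) (LitT.cov_of_chunkM cB18_9_3_130)))) (LitT.Cov.split_e (LitT.Cov.split_x (LitT.Cov.split_t (LitT.cov_of_chunkM cB18_9_3_131)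 (LitT.cov_of_chunkM cB18_9_3_132)) (LitT.cov_of_chunkM cB18_9_3_133)) (LitT.Cov.split_x (LitT.Cov.split_t (LitT.cov_of_chunkM cB18_9_3_134) (LitT.Cov.split_e (LitT.cov_of_chunkM cB18_9_3_135) (LitT.Cov.split_E (LitT.cov_of_chunkM cB18_9_3_136) (LitT.Cov.split_x (LitT.Cov.split_t (LitT.cov_of_chunkM cB18_9_3_137) (LitT.cov_of_chunkM cB18_9_3_138)) (LitT.cov_of_chunkM cB18_9_3_139))))) (LitT.cov_of_chunkM cB18_9_3_140)))))))) (LitT.Cov.split_t (LitT.cov_of_chunkM cB18_9_3_141) (LitT.Cov.split_e (LitT.cov_of_chunkM cB18_9_3_142) (LitT.Cov.split_t (LitT.Cov.split_T (LitT.cov_of_chunkM cB18_9_3_143) (LitT.Cov.split_x (LitT.Cov.split_e (LitT.cov_of_chunkM cB18_9_3_144) (LitT.Cov.split_t (LitT.Cov.split_x (LitT.Cov.split_e (LitT.cov_of_chunkM cB18_9_3_145) (LitT.cov_of_chunkM cB18_9_3_146)) (LitT.cov_of_chunkM cB18_9_3_147)) (LitT.cov_of_chunkM cB18_9_3_148))) (LitT.cov_of_chunkM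 cB18_9_3_149))) (LitT.cov_of_chunkM cB18_9_3_150))))) (LitT.Cov.split_t (LitT.cov_of_chunkM cB18_9_3_151) (LitT.Cov.split_x (LitT.Cov.split_e (LitT.Cov.split_x (LitT.cov_of_chunkM cB18_9_3_152) (LitT.Cov.split_T (LitT.Cov.split_T (LitT.cov_of_chunkM cB18_9_3_153) (LitT.Cov.split_T (LitT.cov_of_chunkM cB18_9_3_154) (LitT.Cov.split_X (LitT.Cov.split_t (LitT.cov_of_chunkM cB18_9_3_155) (LitT.Cov.split_e (LitT.cov_of_chunkM cB18_9_3_156) (LitT.cov_of_chunkM cB18_9_3_157))) (LitT.cov_of_chunkM cB18_9_3_158)))) (LitT.Cov.split_t (LitT.cov_of_chunkM cB18_9_3_159) (LitT.Cov.split_e (LitT.Cov.split_x (LitT.Cov.split_t (LitT.cov_of_chunkM cB18_9_3_160) (LitT.Cov.split_E (LitT.cov_of_chunkM cB18_9_3_161) (LitT.Cov.split_e (LitT.Cov.split_x (LitT.cov_of_chunkM cB18_9_3_162) (LitT.cov_of_chunkM cB18_9_3_163)) (LitT.cov_of_chunkM cB18_9_3_164)))) (LitT.Cov.split_t (LitT.cov_of_chunkM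 cB18_9_3_165) (LitT.cov_of_chunkM cB18_9_3_166))) (LitT.cov_of_chunkM cB18_9_3_167))))) (LitT.cov_of_chunkM cB18_9_3_168)) (LitT.Cov.split_e (LitT.Cov.split_x (LitT.Cov.split_t (LitT.Cov.split_T (LitT.cov_of_chunkM cB18_9_3_169) (LitT.Cov.split_e (LitT.Cov.split_x (LitT.Cov.split_t (LitT.cov_of_chunkM cB18_9_3_170) (LitT.Cov.split_e (LitT.Cov.split_T (LitT.cov_of_chunkM cB18_9_3_171) (LitT.cov_of_chunkM cB18_9_3_172)) (LitT.cov_of_chunkM cB18_9_3_173))) (LitT.cov_of_chunkM cB18_9_3_174)) (LitT.Cov.split_t (LitT.cov_of_chunkM cB18_9_3_175) (LitT.cov_of_chunkM cB18_9_3_176)))) (LitT.Cov.split_T (LitT.cov_of_chunkM cB18_9_3_177) (LitT.Cov.split_e (LitT.Cov.split_t (LitT.Cov.split_x (LitT.Cov.split_e (LitT.cov_of_chunkM cB18_9_3_178) (LitT.cov_of_chunkM cB18_9_3_179)) (LitT.cov_of_chunkM cB18_9_3_180)) (LitT.cov_of_chunkM cB18_9_3_181)) (LitT.Cov.split_x (LitT.Cov.split_t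 (LitT.Cov.split_e (LitT.cov_of_chunkM cB18_9_3_182) (LitT.cov_of_chunkM cB18_9_3_183)) (LitT.Cov.split_e (LitT.cov_of_chunkM cB18_9_3_184) (LitT.cov_of_chunkM cB18_9_3_185))) (LitT.Cov.split_t (LitT.Cov.split_e (LitT.cov_of_chunkM cB18_9_3_186) (LitT.Cov.split_x (LitT.cov_of_chunkM cB18_9_3_187) (LitT.cov_of_chunkM cB18_9_3_188))) (LitT.cov_of_chunkM cB18_9_3_189)))))) (LitT.cov_of_chunkM cB18_9_3_190)) (LitT.Cov.split_x (LitT.Cov.split_t (LitT.cov_of_chunkM cB18_9_3_191) (LitT.Cov.split_T (LitT.cov_of_chunkM cB18_9_3_192) (LitT.Cov.split_e (LitT.Cov.split_x (LitT.cov_of_chunkM cB18_9_3_193) (LitT.Cov.split_t (LitT.Cov.split_e (LitT.Cov.split_T (LitT.cov_of_chunkM cB18_9_3_194) (LitT.cov_of_chunkM cB18_9_3_195)) (LitT.cov_of_chunkM cB18_9_3_196)) (LitT.Cov.split_e (LitT.cov_of_chunkM cB18_9_3_197) (LitT.Cov.split_x (LitT.cov_of_chunkM cB18_9_3_198) (LitT.cov_of_chunkM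 cB18_9_3_199))))) (LitT.cov_of_chunkM cB18_9_3_200)))) (LitT.Cov.split_t (LitT.cov_of_chunkM cB18_9_3_201) (LitT.Cov.split_t (LitT.cov_of_chunkM cB18_9_3_202) (LitT.Cov.split_T (LitT.cov_of_chunkM cB18_9_3_203) (LitT.cov_of_chunkM cB18_9_3_204))))))))) (LitT.Cov.split_e (LitT.Cov.split_t (LitT.Cov.split_x (LitT.Cov.split_T (LitT.Cov.split_T (LitT.cov_of_chunkM cB18_9_3_205) (LitT.Cov.split_T (LitT.cov_of_chunkM cB18_9_3_206) (LitT.Cov.split_X (LitT.Cov.split_e (LitT.cov_of_chunkM cB18_9_3_207) (LitT.Cov.split_x (LitT.Cov.split_t (LitT.Cov.split_e (LitT.cov_of_chunkM cB18_9_3_208) (LitT.Cov.split_x (LitT.cov_of_chunkM cB18_9_3_209) (LitT.Cov.split_E (LitT.cov_of_chunkM cB18_9_3_210) (LitT.cov_of_chunkM cB18_9_3_211)))) (LitT.cov_of_chunkM cB18_9_3_212)) (LitT.cov_of_chunkM cB18_9_3_213))) (LitT.cov_of_chunkM cB18_9_3_214)))) (LitT.Cov.split_e (LitT.cov_of_chunkM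 cB18_9_3_215) (LitT.Cov.split_x (LitT.Cov.split_t (LitT.Cov.split_e (LitT.Cov.split_x (LitT.cov_of_chunkM cB18_9_3_216) (LitT.cov_of_chunkM cB18_9_3_217)) (LitT.Cov.split_x (LitT.cov_of_chunkM cB18_9_3_218) (LitT.Cov.split_E (LitT.cov_of_chunkM cB18_9_3_219) (LitT.Cov.split_t (LitT.Cov.split_e (LitT.cov_of_chunkM cB18_9_3_220) (LitT.cov_of_chunkM cB18_9_3_221)) (LitT.cov_of_chunkM cB18_9_3_222))))) (LitT.cov_of_chunkM cB18_9_3_223)) (LitT.cov_of_chunkM cB18_9_3_224)))) (LitT.cov_of_chunkM cB18_9_3_225)) (LitT.cov_of_chunkM cB18_9_3_226)) (LitT.Cov.split_x (LitT.Cov.split_t (LitT.Cov.split_e (LitT.Cov.split_T (LitT.Cov.split_T (LitT.cov_of_chunkM cB18_9_3_227) (LitT.Cov.split_T (LitT.cov_of_chunkM cB18_9_3_228) (LitT.Cov.split_X (LitT.Cov.split_x (LitT.cov_of_chunkM cB18_9_3_229) (LitT.Cov.split_t (LitT.Cov.split_e (LitT.Cov.split_x (LitT.Cov.split_E (LitT.cov_of_chunkM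 cB18_9_3_230) (LitT.cov_of_chunkM cB18_9_3_231)) (LitT.cov_of_chunkM cB18_9_3_232)) (LitT.Cov.split_x (LitT.Cov.split_E (LitT.cov_of_chunkM cB18_9_3_233) (LitT.cov_of_chunkM cB18_9_3_234)) (LitT.cov_of_chunkM cB18_9_3_235))) (LitT.cov_of_chunkM cB18_9_3_236))) (LitT.cov_of_chunkM cB18_9_3_237)))) (LitT.Cov.split_x (LitT.cov_of_chunkM cB18_9_3_238) (LitT.Cov.split_t (LitT.Cov.split_e (LitT.Cov.split_x (LitT.Cov.split_t (LitT.Cov.split_e (LitT.Cov.split_E (LitT.cov_of_chunkM cB18_9_3_239) (LitT.Cov.split_x (LitT.cov_of_chunkM cB18_9_3_240) (LitT.cov_of_chunkM cB18_9_3_241))) (LitT.Cov.split_E (LitT.cov_of_chunkM cB18_9_3_242) (LitT.Cov.split_x (LitT.cov_of_chunkM cB18_9_3_243) (LitT.cov_of_chunkM cB18_9_3_244)))) (LitT.Cov.split_E (LitT.cov_of_chunkM cB18_9_3_245) (LitT.cov_of_chunkM cB18_9_3_246))) (LitT.cov_of_chunkM cB18_9_3_247)) (LitT.Cov.split_x (LitT.Cov.split_t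 (LitT.cov_of_chunkM cB18_9_3_248) (LitT.Cov.split_E (LitT.cov_of_chunkM cB18_9_3_249) (LitT.Cov.split_e (LitT.cov_of_chunkM cB18_9_3_250) (LitT.cov_of_chunkM cB18_9_3_251)))) (LitT.Cov.split_t (LitT.Cov.split_e (LitT.Cov.split_E (LitT.cov_of_chunkM cB18_9_3_252) (LitT.cov_of_chunkM cB18_9_3_253)) (LitT.Cov.split_E (LitT.cov_of_chunkM cB18_9_3_254) (LitT.cov_of_chunkM cB18_9_3_255))) (LitT.Cov.split_e (LitT.cov_of_chunkM cB18_9_3_256) (LitT.Cov.split_E (LitT.cov_of_chunkM cB18_9_3_257) (LitT.cov_of_chunkM cB18_9_3_258)))))) (LitT.cov_of_chunkM cB18_9_3_259)))) (LitT.Cov.split_x (LitT.cov_of_chunkM cB18_9_3_260) (LitT.Cov.split_x (LitT.cov_of_chunkM cB18_9_3_261) (LitT.Cov.split_T (LitT.Cov.split_T (LitT.cov_of_chunkM cB18_9_3_262) (LitT.Cov.split_T (LitT.cov_of_chunkM cB18_9_3_263) (LitT.Cov.split_X (LitT.Cov.split_t (LitT.cov_of_chunkM cB18_9_3_264) (LitT.Cov.split_e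 (LitT.Cov.split_E (LitT.cov_of_chunkM cB18_9_3_265) (LitT.cov_of_chunkM cB18_9_3_266)) (LitT.cov_of_chunkM cB18_9_3_267))) (LitT.cov_of_chunkM cB18_9_3_268)))) (LitT.Cov.split_t (LitT.Cov.split_e (LitT.Cov.split_t (LitT.cov_of_chunkM cB18_9_3_269) (LitT.Cov.split_e (LitT.Cov.split_E (LitT.cov_of_chunkM cB18_9_3_270) (LitT.Cov.split_x (LitT.cov_of_chunkM cB18_9_3_271) (LitT.cov_of_chunkM cB18_9_3_272))) (LitT.cov_of_chunkM cB18_9_3_273))) (LitT.cov_of_chunkM cB18_9_3_274)) (LitT.Cov.split_e (LitT.Cov.split_t (LitT.Cov.split_e (LitT.cov_of_chunkM cB18_9_3_275) (LitT.cov_of_chunkM cB18_9_3_276)) (LitT.cov_of_chunkM cB18_9_3_277)) (LitT.Cov.split_x (LitT.cov_of_chunkM cB18_9_3_278) (LitT.Cov.split_t (LitT.cov_of_chunkM cB18_9_3_279) (LitT.cov_of_chunkM cB18_9_3_280))))))))) (LitT.cov_of_chunkM cB18_9_3_281)) (LitT.Cov.split_t (LitT.Cov.split_e (LitT.cov_of_chunkM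 cB18_9_3_282) (LitT.Cov.split_x (LitT.Cov.split_T (LitT.Cov.split_T (LitT.cov_of_chunkM cB18_9_3_283) (LitT.Cov.split_T (LitT.cov_of_chunkM cB18_9_3_284) (LitT.Cov.split_X (LitT.Cov.split_t (LitT.Cov.split_e (LitT.cov_of_chunkM cB18_9_3_285) (LitT.cov_of_chunkM cB18_9_3_286)) (LitT.cov_of_chunkM cB18_9_3_287)) (LitT.cov_of_chunkM cB18_9_3_288)))) (LitT.Cov.split_t (LitT.Cov.split_e (LitT.Cov.split_x (LitT.Cov.split_t (LitT.cov_of_chunkM cB18_9_3_289) (LitT.cov_of_chunkM cB18_9_3_290)) (LitT.cov_of_chunkM cB18_9_3_291)) (LitT.Cov.split_x (LitT.Cov.split_t (LitT.cov_of_chunkM cB18_9_3_292) (LitT.Cov.split_e (LitT.cov_of_chunkM cB18_9_3_293) (LitT.cov_of_chunkM cB18_9_3_294))) (LitT.Cov.split_t (LitT.cov_of_chunkM cB18_9_3_295) (LitT.cov_of_chunkM cB18_9_3_296)))) (LitT.Cov.split_e (LitT.cov_of_chunkM cB18_9_3_297) (LitT.Cov.split_x (LitT.Cov.split_t (LitT.Cov.split_e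 (LitT.cov_of_chunkM cB18_9_3_298) (LitT.Cov.split_E (LitT.cov_of_chunkM cB18_9_3_299) (LitT.Cov.split_x (LitT.cov_of_chunkM cB18_9_3_300) (LitT.cov_of_chunkM cB18_9_3_301)))) (LitT.cov_of_chunkM cB18_9_3_302)) (LitT.cov_of_chunkM cB18_9_3_303))))) (LitT.cov_of_chunkM cB18_9_3_304))) (LitT.cov_of_chunkM cB18_9_3_305))))))) (LitT.Cov.split_t (LitT.cov_of_chunkM cB18_9_3_306) (LitT.Cov.split_e (LitT.Cov.split_x (LitT.cov_of_chunkM cB18_9_3_307) (LitT.Cov.split_t (LitT.cov_of_chunkM cB18_9_3_308) (LitT.Cov.split_e (LitT.Cov.split_t (LitT.Cov.split_e (LitT.Cov.split_x (LitT.Cov.split_T (LitT.Cov.split_T (LitT.cov_of_chunkM cB18_9_3_309) (LitT.Cov.split_T (LitT.cov_of_chunkM cB18_9_3_310) (LitT.Cov.split_X (LitT.Cov.split_t (LitT.cov_of_chunkM cB18_9_3_311) (LitT.Cov.split_e (LitT.Cov.split_x (LitT.Cov.split_t (LitT.cov_of_chunkM cB18_9_3_312) (LitT.cov_of_chunkM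 cB18_9_3_313)) (LitT.cov_of_chunkM cB18_9_3_314)) (LitT.Cov.split_x (LitT.cov_of_chunkM cB18_9_3_315) (LitT.Cov.split_t (LitT.cov_of_chunkM cB18_9_3_316) (LitT.cov_of_chunkM cB18_9_3_317))))) (LitT.cov_of_chunkM cB18_9_3_318)))) (LitT.Cov.split_t (LitT.cov_of_chunkM cB18_9_3_319) (LitT.Cov.split_e (LitT.Cov.split_x (LitT.Cov.split_t (LitT.cov_of_chunkM cB18_9_3_320) (LitT.Cov.split_e (LitT.cov_of_chunkM cB18_9_3_321) (LitT.cov_of_chunkM cB18_9_3_322))) (LitT.Cov.split_t (LitT.cov_of_chunkM cB18_9_3_323) (LitT.cov_of_chunkM cB18_9_3_324))) (LitT.Cov.split_x (LitT.cov_of_chunkM cB18_9_3_325) (LitT.Cov.split_t (LitT.cov_of_chunkM cB18_9_3_326) (LitT.Cov.split_e (LitT.cov_of_chunkM cB18_9_3_327) (LitT.cov_of_chunkM cB18_9_3_328))))))) (LitT.Cov.split_t (LitT.Cov.split_e (LitT.Cov.split_T (LitT.cov_of_chunkM cB18_9_3_329) (LitT.Cov.split_x (LitT.Cov.split_t (LitT.Cov.split_e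 (LitT.cov_of_chunkM cB18_9_3_330) (LitT.cov_of_chunkM cB18_9_3_331)) (LitT.cov_of_chunkM cB18_9_3_332)) (LitT.cov_of_chunkM cB18_9_3_333))) (LitT.Cov.split_T (LitT.cov_of_chunkM cB18_9_3_334) (LitT.Cov.split_x (LitT.cov_of_chunkM cB18_9_3_335) (LitT.cov_of_chunkM cB18_9_3_336)))) (LitT.Cov.split_T (LitT.cov_of_chunkM cB18_9_3_337) (LitT.Cov.split_e (LitT.cov_of_chunkM cB18_9_3_338) (LitT.Cov.split_x (LitT.Cov.split_t (LitT.Cov.split_e (LitT.cov_of_chunkM cB18_9_3_339) (LitT.cov_of_chunkM cB18_9_3_340)) (LitT.cov_of_chunkM cB18_9_3_341)) (LitT.cov_of_chunkM cB18_9_3_342)))))) (LitT.Cov.split_x (LitT.cov_of_chunkM cB18_9_3_343) (LitT.Cov.split_t (LitT.cov_of_chunkM cB18_9_3_344) (LitT.Cov.split_T (LitT.cov_of_chunkM cB18_9_3_345) (LitT.Cov.split_e (LitT.Cov.split_x (LitT.cov_of_chunkM cB18_9_3_346) (LitT.cov_of_chunkM cB18_9_3_347)) (LitT.Cov.split_x (LitT.cov_of_chunkM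 cB18_9_3_348) (LitT.cov_of_chunkM cB18_9_3_349))))))) (LitT.Cov.split_e (LitT.Cov.split_t (LitT.Cov.split_x (LitT.Cov.split_t (LitT.Cov.split_T (LitT.cov_of_chunkM cB18_9_3_350) (LitT.cov_of_chunkM cB18_9_3_351)) (LitT.cov_of_chunkM cB18_9_3_352)) (LitT.cov_of_chunkM cB18_9_3_353)) (LitT.cov_of_chunkM cB18_9_3_354)) (LitT.Cov.split_x (LitT.Cov.split_x (LitT.cov_of_chunkM cB18_9_3_355) (LitT.Cov.split_e (LitT.Cov.split_t (LitT.Cov.split_t (LitT.Cov.split_T (LitT.cov_of_chunkM cB18_9_3_356) (LitT.Cov.split_e (LitT.cov_of_chunkM cB18_9_3_357) (LitT.cov_of_chunkM cB18_9_3_358))) (LitT.cov_of_chunkM cB18_9_3_359)) (LitT.cov_of_chunkM cB18_9_3_360)) (LitT.cov_of_chunkM cB18_9_3_361))) (LitT.Cov.split_T (LitT.Cov.split_T (LitT.cov_of_chunkM cB18_9_3_362) (LitT.Cov.split_T (LitT.cov_of_chunkM cB18_9_3_363) (LitT.Cov.split_X (LitT.Cov.split_t (LitT.Cov.split_e (LitT.cov_of_chunkM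 cB18_9_3_364) (LitT.Cov.split_x (LitT.Cov.split_t (LitT.cov_of_chunkM cB18_9_3_365) (LitT.cov_of_chunkM cB18_9_3_366)) (LitT.cov_of_chunkM cB18_9_3_367))) (LitT.cov_of_chunkM cB18_9_3_368)) (LitT.cov_of_chunkM cB18_9_3_369)))) (LitT.Cov.split_t (LitT.Cov.split_e (LitT.Cov.split_x (LitT.Cov.split_t (LitT.cov_of_chunkM cB18_9_3_370) (LitT.cov_of_chunkM cB18_9_3_371)) (LitT.cov_of_chunkM cB18_9_3_372)) (LitT.Cov.split_x (LitT.Cov.split_t (LitT.Cov.split_e (LitT.cov_of_chunkM cB18_9_3_373) (LitT.cov_of_chunkM cB18_9_3_374)) (LitT.Cov.split_e (LitT.cov_of_chunkM cB18_9_3_375) (LitT.cov_of_chunkM cB18_9_3_376))) (LitT.cov_of_chunkM cB18_9_3_377))) (LitT.cov_of_chunkM cB18_9_3_378)))))) (LitT.Cov.split_x (LitT.cov_of_chunkM cB18_9_3_379) (LitT.Cov.split_t (LitT.cov_of_chunkM cB18_9_3_380) (LitT.Cov.split_e (LitT.Cov.split_T (LitT.Cov.split_T (LitT.cov_of_chunkM cB18_9_3_381)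 (LitT.Cov.split_T (LitT.cov_of_chunkM cB18_9_3_382) (LitT.Cov.split_X (LitT.Cov.split_t (LitT.Cov.split_e (LitT.Cov.split_x (LitT.cov_of_chunkM cB18_9_3_383) (LitT.cov_of_chunkM cB18_9_3_384)) (LitT.cov_of_chunkM cB18_9_3_385)) (LitT.cov_of_chunkM cB18_9_3_386)) (LitT.cov_of_chunkM cB18_9_3_387)))) (LitT.Cov.split_t (LitT.Cov.split_e (LitT.Cov.split_x (LitT.cov_of_chunkM cB18_9_3_388) (LitT.Cov.split_t (LitT.cov_of_chunkM cB18_9_3_389) (LitT.Cov.split_e (LitT.cov_of_chunkM cB18_9_3_390) (LitT.Cov.split_E (LitT.cov_of_chunkM cB18_9_3_391) (LitT.Cov.split_x (LitT.cov_of_chunkM cB18_9_3_392) (LitT.cov_of_chunkM cB18_9_3_393)))))) (LitT.Cov.split_x (LitT.cov_of_chunkM cB18_9_3_394) (LitT.Cov.split_E (LitT.cov_of_chunkM cB18_9_3_395) (LitT.Cov.split_t (LitT.cov_of_chunkM cB18_9_3_396) (LitT.Cov.split_e (LitT.Cov.split_x (LitT.cov_of_chunkM cB18_9_3_397) (LitT.cov_of_chunkM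 cB18_9_3_398)) (LitT.cov_of_chunkM cB18_9_3_399)))))) (LitT.Cov.split_x (LitT.cov_of_chunkM cB18_9_3_400) (LitT.Cov.split_e (LitT.cov_of_chunkM cB18_9_3_401) (LitT.Cov.split_t (LitT.Cov.split_e (LitT.cov_of_chunkM cB18_9_3_402) (LitT.cov_of_chunkM cB18_9_3_403)) (LitT.cov_of_chunkM cB18_9_3_404)))))) (LitT.cov_of_chunkM cB18_9_3_405))))))) (LitT.cov_of_chunkM cB18_9_3_406)))))))), (LitT.cov_of_chunkM cB18_9_1_0), (LitT.cov_of_chunkM cB18_9_2_0), (LitT.cov_of_chunkM cB18_9_0_0)⟩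

end Vale.Agent.helper4.Q4
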