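import Vale.Agent.helper4.Q4TreeM
import Vale.Agent.helper4.Q4G.PB19_10

/-!
Checks for pairs of intervals of second moments.
-/

set_option maxRecDepth 100000
set_option linter.unusedVariables false

namespace Vale.Agent.helper4.Q4

theorem cB19_10_3_0 : chunkOkM (LB19_10.ctx true true 103 1 1 1 1 1 1 1 1) muQ true true 64 RtB19_10.Cx RtB19_10.CX RtB19_10.Ctp.left RtB19_10.Ce RtB19_10.CTp RtB19_10.CEr 0x41 = true := by decide +kernel

theorem cB19_10_3_1 : chunkOkM (LB19_10.ctx true true 103 1 1 1 1 1 1 1 1) muQ true true 64 RtB19_10.Cx RtB19_10.CX RtB19_10.Ctp.right RtB19_10.Ce.left RtB19_10.CTp RtB19_10.CEr 0x69 = true := by decide +kernel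

theorem cB19_10_3_2 : chunkOkM (LB19_10.ctx true true 103 1 1 1 1 1 1 1 1) muQ true true 64 RtB19_10.Cx RtB19_10.CX RtB19_10.Ctp.right.left RtB19_10.Ce.right RtB19_10.CTp RtB19_10.CEr 0x49 = true := by decide +kernel

theorem cB19_10_3_3 : chunkOkM (LB19_10.ctx true true 103 1 1 1 1 1 1 1 1) muQ true true 64 RtB19_10.Cx RtB19_10.CX RtB19_10.Ctp.right.right RtB19_10.Ce.right.left RtB19_10.CTp RtB19_10.CEr 0x69 = true := by decide +kernel

theorem cB19_10_3_4 : chunkOkM (LB19_10.ctx true true 103 1 1 1 1 1 1 1 1) muQ true true 64 RtB19_10.Cx RtB19_10.CX RtB19_10.Ctp.right.right RtB19_10.Ce.right.right RtB19_10.CTp.left RtB19_10.CEr 0x42 = true := by decide +kernel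

theorem cB19_10_3_5 : chunkOkM (LB19_10.ctx true true 103 1 1 1 1 1 1 1 1) muQ true true 64 RtB19_10.Cx RtB19_10.CX RtB19_10.Ctp.right.right.left.left RtB19_10.Ce.right.right.left RtB19_10.CTp.right RtB19_10.CEr 0x49 = true := by decide +kernel

theorem cB19_10_3_6 : chunkOkM (LB19_10.ctx true true 103 1 1 1 1 1 1 1 1) muQ true true 64 RtB19_10.Cx RtB19_10.CX RtB19_10.Ctp.right.right.left.right RtB19_10.Ce.right.right.left.left RtB19_10.CTp.right RtB19_10.CEr 0x69 = true := by decide +kernel

theorem cB19_10_3_7 : chunkOkM (LB19_10.ctx true true 103 1 1 1 1 1 1 1 1) muQ true true 64 RtB19_10.Cx RtB19_10.CX RtB19_10.Ctp.right.right.left.right.left.left RtB19_10.Ce.right.right.left.right.left RtB19_10.CTp.right RtB19_10.CEr 0x49 = true := by decide +kernel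

theorem cB19_10_3_8 : chunkOkM (LB19_10.ctx true true 103 1 1 1 1 1 1 1 1) muQ true true 64 RtB19_10.Cx RtB19_10.CX RtB19_10.Ctp.right.right.left.right.left.right RtB19_10.Ce.right.right.left.right.left.left RtB19_10.CTp.right RtB19_10.CEr 0x69 = true := by decide +kernel

theorem cB19_10_3_9 : chunkOkM (LB19_10.ctx true true 280 289 128 13 16 854 5985 32 35) muQ true true 64 RtB19_10.Cx.left.left RtB19_10.CX RtB19_10.Ctp.right.right.left.right.left.right RtB19_10.Ce.right.right.left.right.left.right.left RtB19_10.CTp.right RtB19_10.CEr 0xc164156fdacbc9c66c46525bde8f6e84be75e8f540d61e04c6494912a355fc85c282861f6c9f6140d1192c9f5457120c38f440df29af8e88f05b621e8736fd161770b585c3afcc76f9cecffa3a8f610f4cd9209f52ebe423e8f460dc94881268f05b64781a59d0389b460f1120a9f87458a94b39f630d676944933 = true := by decide +kernel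

theorem cB19_10_3_10 : chunkOkM (LB19_10.ctx true true 250 73 32 13 16 214 1505 32 16) muQ true true 64 RtB19_10.Cx.left.left RtB19_10.CX RtB19_10.Ctp.right.right.left.right.left.right RtB19_10.Ce.right.right.left.right.left.right.right RtB19_10.CTp.right RtB19_10.CEr.left 0x9e8f5f1489b693569c4b9f8464bb1fd79f6133cfad679f440d = true := by decide +kernel

theorem cB19_10_3_11 : chunkOkM (LB19_10.ctx true true 276 289 128 13 16 854 3003 32 35) muQ true true 64 RtB19_10.Cx.left.left RtB19_10.CX RtB19_10.Ctp.right.right.left.right.left.right.left RtB19_10.Ce.right.right.left.right.left.right.right RtB19_10.CTp.right RtB19_10.CEr.right 0x4949591f461c97fd145710c785ca39a12d18f6122728b469f51c38b4e48f450d10d7fae0c9f05b6477493 = true := by decide +kernel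

theorem cB19_10_3_12 : chunkOkM (LB19_10.ctx true true 283 291 128 13 16 862 6013 32 35) muQ true true 64 RtB19_10.Cx.left.left.left RtB19_10.CX RtB19_10.Ctp.right.right.left.right.left.right.right RtB19_10.Ce.right.right.left.right.left.right.right.left RtB19_10.CTp.right RtB19_10.CEr.right 0xd76b906fd96dac366c65a3f5548f6f26a7c918f540d169726198fd245964176c860f3369bbd0dd7311daf685c32749ddaf450d14f6d81385c3cb9ef6f98ebeaa7f8f6106e4529d9f540df09199608f05b614695b5785c15cf85f549f6121312d439f530dd615c79f8f05b6473 = true := by decide +kernel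

theorem cB19_10_3_13 : chunkOkM (LB19_10.ctx true true 290 581 256 13 16 1718 6041 32 35) muQ true true 64 RtB19_10.Cx.left.left.left RtB19_10.CX RtB19_10.Ctp.right.right.left.right.left.right.right.left RtB19_10.Ce.right.right.left.right.left.right.right.right RtB19_10.CTp.right RtB19_10.CEr.right 0x49efe6c76fd14c517f085c4b34f43519f618c8002709f592176eae8f450df717cf5a8f05b6717a6f92585c25135d6f95a2439ba8f61022232de9f53a624bb98f450dc28382488f05b64493d38c906fd175a801685c158b65add9f612196433d9f540d1089b19049f05b67 = true := by decide +kernel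

theorem cB19_10_3_14 : chunkOkM (LB19_10.ctx true true 280 291 128 13 16 862 6041 32 35) muQ true true 64 RtB19_10.Cx.left.left.left RtB19_10.CX RtB19_10.Ctp.right.right.left.right.left.right.right.right RtB19_10.Ce.right.right.left.right.left.right.right.right RtB19_10.CTp.right RtB19_10.CEr.right 0x163e7df585cbe434aca8f61066bb8539f5c7776707f440dcca999858f05b6694133e978385cb09c3c6f91e4a83b039f61296d7fa69f540def7e7cf18f05b61796541285c4ff1b0968f6f084967b8f530ddba092508f05b647 = true := by decide +kernel

theorem cB19_10_3_15 : chunkOkM (LB19_10.ctx true true 260 147 64 13 16 430 1505 32 16) muQ true true 64 RtB19_10.Cx.left.left.right RtB19_10.CX RtB19_10.Ctp.right.right.left.right.left.right.right RtB19_10.Ce.right.right.left.right.left.right.right RtB19_10.CTp.right RtB19_10.CEr.right 0x2314e8e879f04b = true := by decide +kernel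

theorem cB19_10_3_16 : chunkOkM (LB19_10.ctx true true 103 1 1 1 1 1 1 1 1) muQ true true 64 RtB19_10.Cx.left.right RtB19_10.CX RtB19_10.Ctp.right.right.left.right.left.right RtB19_10.Ce.right.right.left.right.left.right RtB19_10.CTp.right RtB19_10.CEr 0x49 = true := by decide +kernel

theorem cB19_10_3_17 : chunkOkM (LB19_10.ctx true true 103 1 1 1 1 1 1 1 1) muQ true true 64 RtB19_10.Cx.right RtB19_10.CX RtB19_10.Ctp.right.right.left.right.left.right RtB19_10.Ce.right.right.left.right.left.right RtB19_10.CTp.right RtB19_10.CEr 0x49 = true := by decide +kernel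

theorem cB19_10_3_18 : chunkOkM (LB19_10.ctx true true 265 145 64 13 16 434 3017 32 16) muQ true true 64 RtB19_10.Cx RtB19_10.CX RtB19_10.Ctp.right.right.left.right.right RtB19_10.Ce.right.right.left.right.left RtB19_10.CTp.right RtB19_10.CEr 0x1111116969bded576fd9c281866cb6ac39888f6e6ef721b8f540d6227862389b382779d789f838e7e81fe3af6aaf077d9b9f540d676943769431147 = true := by decide +kernel

theorem cB19_10_3_19 : chunkOkM (LB19_10.ctx true true 103 1 1 1 1 1 1 1 1) muQ true true 64 RtB19_10.Cx RtB19_10.CX RtB19_10.Ctp.right.right.left.right.left.left RtB19_10.Ce.right.right.left.right.right RtB19_10.CTp.right RtB19_10.CEr 0x49 = true := by decide +kernel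

theorem cB19_10_3_20 : chunkOkM (LB19_10.ctx true true 247 73 32 13 16 214 763 32 16) muQ true true 64 RtB19_10.Cx.left.left RtB19_10.CX RtB19_10.Ctp.right.right.left.right.left.right RtB19_10.Ce.right.right.left.right.right.left RtB19_10.CTp.right RtB19_10.CEr.left 0x695384df89b5cfa811ee9f815841f87f9f530d = true := by decide +kernel

theorem cB19_10_3_21 : chunkOkM (LB19_10.ctx true true 254 73 32 13 16 426 1519 32 16) muQ true true 64 RtB19_10.Cx.left.left RtB19_10.CX RtB19_10.Ctp.right.right.left.right.left.right.left RtB19_10.Ce.right.right.left.right.right.left.left RtB19_10.CTp.right RtB19_10.CEr.right 0x2021c6f889f5ba533ce7f9f420d = true := by decide +kernel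

theorem cB19_10_3_22 : chunkOkM (LB19_10.ctx true true 300 1167 512 13 16 1726 12159 32 35) muQ true true 64 RtB19_10.Cx.left.left.left RtB19_10.CX RtB19_10.Ctp.right.right.left.right.left.right.right RtB19_10.Ce.right.right.left.right.right.left.left RtB19_10.CTp.right RtB19_10.CEr.right 0x5959121ddf6285c2a67aaa709f614399832b9f530df9b65e638f05b65974593597459359712fabbbe85c13846697f9b71d8e6c8f61108716999f540d1c1b3fae85c66707307f929367f676baf5a52472a4f2af440d394898966c34a38369b103287e939f6136d201a79f540d64 = true := by decide +kernel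

theorem cB19_10_3_23 : chunkOkM (LB19_10.ctx true true 297 585 256 13 16 1726 6097 64 35) muQ true true 64 RtB19_10.Cx.left.left.right RtB19_10.CX RtB19_10.Ctp.right.right.left.right.left.right.right RtB19_10.Ce.right.right.left.right.right.left.left RtB19_10.CTp.right RtB19_10.CEr.right 0x49498e03686f75ad66b9ee2af68605e6b373af520668894b24bf440d14b7fa4c85c1493d26f9de1406c88f611c417b4d9f53dbb2eef8f450df390b3c08f05b6477498e65106fd8e90c966c3d199d77f929f8c065e9f614d2303ea9f534300cbd8f460da5a478a75c340ec5c78ba61fda2d39f6239fb221e9f5ba2deb708f450d576944493493 = true := by decide +kernel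

theorem cB19_10_3_24 : chunkOkM (LB19_10.ctx true true 251 73 32 13 16 214 1533 32 16) muQ true true 64 RtB19_10.Cx.left.left RtB19_10.CX RtB19_10.Ctp.right.right.left.right.left.right RtB19_10.Ce.right.right.left.right.right.left.right RtB19_10.CTp.right RtB19_10.CEr.right 0x2c5e66f76c1431734a8aaf5507672ceccaf430d = true := by decide +kernel

theorem cB19_10_3_25 : chunkOkM (LB19_10.ctx true true 103 1 1 1 1 1 1 1 1) muQ true true 64 RtB19_10.Cx.left.left RtB19_10.CX RtB19_10.Ctp.right.right.left.right.left.right RtB19_10.Ce.right.right.left.right.right.right RtB19_10.CTp.right RtB19_10.CEr 0x59 = true := by decide +kernel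

theorem cB19_10_3_26 : chunkOkM (LB19_10.ctx true true 103 1 1 1 1 1 1 1 1) muQ true true 64 RtB19_10.Cx.left.right RtB19_10.CX RtB19_10.Ctp.right.right.left.right.left.right RtB19_10.Ce.right.right.left.right.right RtB19_10.CTp.right RtB19_10.CEr 0x49 = true := by decide +kernel

theorem cB19_10_3_27 : chunkOkM (LB19_10.ctx true true 103 1 1 1 1 1 1 1 1) muQ true true 64 RtB19_10.Cx.right RtB19_10.CX RtB19_10.Ctp.right.right.left.right.left.right RtB19_10.Ce.right.right.left.right.right RtB19_10.CTp.right RtB19_10.CEr 0x49 = true := by decide +kernel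

theorem cB19_10_3_28 : chunkOkM (LB19_10.ctx true true 251 73 32 13 16 218 1519 32 16) muQ true true 64 RtB19_10.Cx.left.left RtB19_10.CX RtB19_10.Ctp.right.right.left.right.right.left RtB19_10.Ce.right.right.left.right.right.left.left RtB19_10.CTp.right RtB19_10.CEr.left 0x71432a6989b41dce7c0b9f8f4adb1a7e9f668da26c58f540d = true := by decide +kernel

theorem cB19_10_3_29 : chunkOkM (LB19_10.ctx true true 280 291 128 13 16 870 6069 32 35) muQ true true 64 RtB19_10.Cx.left.left.left RtB19_10.CX RtB19_10.Ctp.right.right.left.right.right.left.left RtB19_10.Ce.right.right.left.right.right.left.left RtB19_10.CTp.right RtB19_10.CEr.right 0x152d050a85caefbf7ca8f6fe6dd8058f530d51b03e66c1478b369bf80eb9748f610dcbe0b99f540d669fe0366a75c252af6f729f6115b7c2dc9f530dd75863178f05b6ce31c06fd90244e66cb033f0478f6fc3043388f540d43c040f56fd8a925966cc548bf7e8f6df74618b8f540d13cefcfc85cb6d1356f910387f9fb9f610e5f8a7b9f540deb042b018f05b6374 = true := by decide +kernel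

end Vale.Agent.helper4.Q4
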