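import Vale.Agent.helper4.Q4TreeM
import Vale.Agent.helper4.Q4G.PB19_10

/-!
Checks for pairs of intervals of second moments.
-/

set_option maxRecDepth 100000
set_option linter.unusedVariables false

namespace Vale.Agent.helper4.Q4

theorem cB19_10_3_30 : chunkOkM (LB19_10.ctx true true 280 291 128 13 16 878 6097 32 35) muQ true true 64 RtB19_10.Cx.left.left.left RtB19_10.CX RtB19_10.Ctp.right.right.left.right.right.left.right RtB19_10.Ce.right.right.left.right.right.left.left RtB19_10.CTp.right RtB19_10.CEr.right 0x4a584b6fd8e898a66c1102821469f6e2a804008f540d14695ffe85c4d93754069f6b54b0b748f530d83783766c1a88cc69bb037cb2b99f6a8a8b7ed8f540d66948a5ca96fd8ca47c66c1dc2059b13effa02f9f6d981b8858f550dc0950f6fd915ceb66c1dab459b11f40767d9f6cbb165588f550d437c6a8746fd7ed86466c13f829a169f6cbaf47568f540d4 = true := by decide +kernel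

theorem cB19_10_3_31 : chunkOkM (LB19_10.ctx true true 280 293 128 13 16 870 6097 32 35) muQ true true 64 RtB19_10.Cx.left.left.right RtB19_10.CX RtB19_10.Ctp.right.right.left.right.right.left RtB19_10.Ce.right.right.left.right.right.left.left RtB19_10.CTp.right RtB19_10.CEr.right 0x69c4f11e6fd8b9c3466c7ed74c458f6ede3f0dc8f540d6916062b1985ca0e669658f6117e6c9ee9f552960697f440def4e93ae8f05b6f5adefd75ca4999d6f933862acfd9f616494712c9f540db50324068f05b64736943 = true := by decide +kernel

theorem cB19_10_3_32 : chunkOkM (LB19_10.ctx true true 251 73 32 13 16 218 1533 32 16) muQ true true 64 RtB19_10.Cx.left.left RtB19_10.CX RtB19_10.Ctp.right.right.left.right.right.left RtB19_10.Ce.right.right.left.right.right.left.right RtB19_10.CTp.right RtB19_10.CEr.left 0x5e3436ee89b3473700729f85b2d6811f9f611bbb37119f540d = true := by decide +kernel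

theorem cB19_10_3_33 : chunkOkM (LB19_10.ctx true true 277 291 128 13 16 870 3059 32 35) muQ true true 64 RtB19_10.Cx.left.left.left RtB19_10.CX RtB19_10.Ctp.right.right.left.right.right.left.left RtB19_10.Ce.right.right.left.right.right.left.right RtB19_10.CTp.right RtB19_10.CEr.right 0x59148ad66c85c1ae48df839f61118c315e9f530df6a6aad18f05b65935974 = true := by decide +kernel

theorem cB19_10_3_34 : chunkOkM (LB19_10.ctx true true 280 291 128 13 16 878 6125 32 35) muQ true true 64 RtB19_10.Cx.left.left.left RtB19_10.CX RtB19_10.Ctp.right.right.left.right.right.left.right RtB19_10.Ce.right.right.left.right.right.left.right RtB19_10.CTp.right RtB19_10.CEr.right 0x14108d4285cbe5a0b538f6dd9411608f530d4dc98866c2971c769bdf40eeb98f6ed1eb5c18f540d6535c9d6fd89dea266c12c6dea5e9f6cd68f6288f540d10cc212485cd5f6d58bdd3f5d638f6f4a20de38f540de3fbf6758f05b680b2fa6fd8f6fb166c12c129aab9f6e6f9bf8d8f540d43134864b085ca27032748f6d7104a2a8f530d6dadf566c3d62a069b917fae148f6e91d97dd8f540d674 = true := by decide +kernel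

theorem cB19_10_3_35 : chunkOkM (LB19_10.ctx true true 288 295 128 13 16 3470 6125 32 35) muQ true true 64 RtB19_10.Cx.left.left.right RtB19_10.CX RtB19_10.Ctp.right.right.left.right.right.left.left.left RtB19_10.Ce.right.right.left.right.right.left.right.left RtB19_10.CTp.right RtB19_10.CEr.right 0x140bba8185c33251705b9f61550fdd6b9f5367d17998f440dcd740cb78f05b66944934931a663aaa85c9716cac88f61147e85a69f51e731ca18f440d5673e366c18099f30a9f613abaaf109f5177a0b998f440d67 = true := by decide +kernel

theorem cB19_10_3_36 : chunkOkM (LB19_10.ctx true true 284 295 128 13 16 870 6125 64 35) muQ true true 64 RtB19_10.Cx.left.left.right RtB19_10.CX RtB19_10.Ctp.right.right.left.right.right.left.left.right RtB19_10.Ce.right.right.left.right.right.left.right.left RtB19_10.CTp.right RtB19_10.CEr.right 0xa2a8586fd9febbd66c383ea5f7f9711fb9f88f6fd2340388f550d712a05c56941076826985c9d2514308f6106cd64509f530dede1a6978f05b615ad4fde85caea2046a8f610e9e94de9f530dcef7d3548f05b647 = true := by decide +kernel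

theorem cB19_10_3_37 : chunkOkM (LB19_10.ctx true true 277 295 128 13 16 870 3073 32 35) muQ true true 64 RtB19_10.Cx.left.left.right RtB19_10.CX RtB19_10.Ctp.right.right.left.right.right.left.left RtB19_10.Ce.right.right.left.right.right.left.right.right RtB19_10.CTp.right RtB19_10.CEr.right 0x15a9f0c085cd4ebc0e48f611391ac689f522a472108f440d1780a8cc85c2ed6324bc9f61363e72d79f530d712c297f685c2727ab128f613e2f49fc9f512e9b4ef59f440d3a96b5966c14499369bd8700c458f6117271fc79f5255c504f8f450d6 = true := by decide +kernel

theorem cB19_10_3_38 : chunkOkM (LB19_10.ctx true true 276 293 128 13 16 874 6125 32 16) muQ true true 64 RtB19_10.Cx.left.left.right RtB19_10.CX RtB19_10.Ctp.right.right.left.right.right.left.right RtB19_10.Ce.right.right.left.right.right.left.right.left RtB19_10.CTp.right RtB19_10.CEr.right 0x6969b96b366fd86775066c155654f809f6f2c464dd8f540d76943 = true := by decide +kernel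

theorem cB19_10_3_39 : chunkOkM (LB19_10.ctx true true 280 295 128 13 16 874 6153 32 35) muQ true true 64 RtB19_10.Cx.left.left.right RtB19_10.CX RtB19_10.Ctp.right.right.left.right.right.left.right.left RtB19_10.Ce.right.right.left.right.right.left.right.right RtB19_10.CTp.right RtB19_10.CEr.right 0xf32027275c1c149c37f914148da4f9f610f4829ce9f540dbe0c167e8f05b669414e7681785c10aa2b72b9f6fe89d2458f530dedff8bec8f05b61054298485c2662abd939f6f2739bf08f530ddc0a4f398f05b647 = true := by decide +kernel

theorem cB19_10_3_40 : chunkOkM (LB19_10.ctx true true 280 293 128 13 16 878 6153 32 35) muQ true true 64 RtB19_10.Cx.left.left.right RtB19_10.CX RtB19_10.Ctp.right.right.left.right.right.left.right.right RtB19_10.Ce.right.right.left.right.right.left.right.right RtB19_10.CTp.right RtB19_10.CEr.right 0x691a89899685c41b4fe1e39f611ee2af879f530dca09ac9d8f05b681b05c47 = true := by decide +kernel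

theorem cB19_10_3_41 : chunkOkM (LB19_10.ctx true true 244 75 32 13 16 218 763 32 8) muQ true true 64 RtB19_10.Cx.left.right RtB19_10.CX RtB19_10.Ctp.right.right.left.right.right.left RtB19_10.Ce.right.right.left.right.right.left RtB19_10.CTp.right RtB19_10.CEr 0x3df8e6aba9f04b = true := by decide +kernel

theorem cB19_10_3_42 : chunkOkM (LB19_10.ctx true true 103 1 1 1 1 1 1 1 1) muQ true true 64 RtB19_10.Cx.left RtB19_10.CX RtB19_10.Ctp.right.right.left.right.right.right RtB19_10.Ce.right.right.left.right.right.left.left RtB19_10.CTp.right RtB19_10.CEr 0x69 = true := by decide +kernel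

theorem cB19_10_3_43 : chunkOkM (LB19_10.ctx true true 250 73 32 13 16 222 1533 32 16) muQ true true 64 RtB19_10.Cx.left.left RtB19_10.CX RtB19_10.Ctp.right.right.left.right.right.right RtB19_10.Ce.right.right.left.right.right.left.right RtB19_10.CTp.right RtB19_10.CEr.left 0xb0ddf6fe89b74e770e5a9f88a3277d08f6cda6f89e8f540d = true := by decide +kernel

theorem cB19_10_3_44 : chunkOkM (LB19_10.ctx true true 281 289 128 13 16 886 6125 32 35) muQ true true 64 RtB19_10.Cx.left.left.left RtB19_10.CX RtB19_10.Ctp.right.right.left.right.right.right.left RtB19_10.Ce.right.right.left.right.right.left.right.left RtB19_10.CTp.right RtB19_10.CEr.right 0x6991b05cd8944eb75c1577bc08c9f6b21222988f530d74b72566c1f691969b51afdded29f66499775e8f540d6147b981985c496dbcd549f68a634ff88f530d9ef03d66c45f78b69b19a3bc82d5af630d6437 = true := by decide +kernel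

end Vale.Agent.helper4.Q4
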