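import Vale.Agent.helper4.Q4TreeM
import Vale.Agent.helper4.Q4G.PB19_10

/-!
Checks for pairs of intervals of second moments.
-/

set_option maxRecDepth 100000
set_option linter.unusedVariables false

namespace Vale.Agent.helper4.Q4

theorem cB19_10_3_191 : chunkOkM (LB19_10.ctx true true 285 309 128 13 16 906 6517 64 35) muQ true true 64 RtB19_10.Cx.right.left.right RtB19_10.CX RtB19_10.Ctp.right.right.right.left.left.left.right RtB19_10.Ce.right.right.right.left.right.left.left.left RtB19_10.CTp.right RtB19_10.CEr.right 0x696915058f576c3b512053b9f611664f4899f530dc2b7b77f895c369f9589698b670c38db8f6118d3993f9f540d57e648566c25e5d969b120eab4e29f610525bb2f9f540d614cf0d376c816cf5938f6fd0342868f530d10dbcc5785c3a64d669b7167ffbc39f613eb171a89f540d5473 = true := by decide +kernel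

theorem cB19_10_3_192 : chunkOkM (LB19_10.ctx true true 271 155 64 13 16 454 3269 64 32) muQ true true 64 RtB19_10.Cx.right.left.right RtB19_10.CX RtB19_10.Ctp.right.right.right.left.left.left.right RtB19_10.Ce.right.right.right.left.right.left.left.right RtB19_10.CTp.right RtB19_10.CEr.right.left 0x102b4ce489f05b5eb87bc7fd137236c76c41ebfe69b110a42a8b9f610900984f9f550d5 = true := by decide +kernel

theorem cB19_10_3_193 : chunkOkM (LB19_10.ctx true true 285 309 128 13 16 910 6545 64 35) muQ true true 64 RtB19_10.Cx.right.left.right.left RtB19_10.CX RtB19_10.Ctp.right.right.right.left.left.left.right RtB19_10.Ce.right.right.right.left.right.left.left.right RtB19_10.CTp.right RtB19_10.CEr.right.right 0x13bf81676c750d7947f946711c9d99f6f07de0928f540d5af55c1f85c1694d19888b55c8b45dd9f6143d1f0b79f540d513af495b85c14998669b783c94e08f6f038c67b8f540d4117d5ae76c43a34ec7f985d5b9258f6103d6b9f09f540d6d7054d685c18cee0ef88b1ba19748b9f615b5a7afc9f540d53 = true := by decide +kernel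

theorem cB19_10_3_194 : chunkOkM (LB19_10.ctx true true 285 311 128 13 16 910 6545 64 35) muQ true true 64 RtB19_10.Cx.right.left.right.right RtB19_10.CX RtB19_10.Ctp.right.right.right.left.left.left.right RtB19_10.Ce.right.right.right.left.right.left.left.right RtB19_10.CTp.right RtB19_10.CEr.right.right 0x122b05c142245f76c3c6e64f7f9767caed18f611b9d69f79f540dd958d6a0195c3d07e285198b24391d148f61031f87889f540d5217ddf276ce46621f18f61292ff7699f530d10d4629e04a5c4bac880c198b1171ea4669f530d543 = true := by decide +kernel

theorem cB19_10_3_195 : chunkOkM (LB19_10.ctx true true 103 1 1 1 1 1 1 1 1) muQ true true 64 RtB19_10.Cx.right.left.left RtB19_10.CX RtB19_10.Ctp.right.right.right.left.left.left RtB19_10.Ce.right.right.right.left.right.left.right RtB19_10.CTp.right RtB19_10.CEr.right 0x59 = true := by decide +kernel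

theorem cB19_10_3_196 : chunkOkM (LB19_10.ctx true true 262 155 64 13 16 450 1645 32 16) muQ true true 64 RtB19_10.Cx.right.left.right RtB19_10.CX RtB19_10.Ctp.right.right.right.left.left.left.left RtB19_10.Ce.right.right.right.left.right.left.right RtB19_10.CTp.right RtB19_10.CEr.right 0x45b821c76c1e3cb6b1aeaf58e20c5a386af430d = true := by decide +kernel

theorem cB19_10_3_197 : chunkOkM (LB19_10.ctx true true 268 155 64 13 16 454 1645 64 32) muQ true true 64 RtB19_10.Cx.right.left.right RtB19_10.CX RtB19_10.Ctp.right.right.right.left.left.left.right RtB19_10.Ce.right.right.right.left.right.left.right RtB19_10.CTp.right RtB19_10.CEr.right.left 0x9c880f57fddd1e8366ca71edab68f61259d1d799f540d158520176c7f81bc69bd4f9adeb8f61316d44e59f540d5 = true := by decide +kernel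

theorem cB19_10_3_198 : chunkOkM (LB19_10.ctx true true 282 309 128 13 16 910 3283 64 35) muQ true true 64 RtB19_10.Cx.right.left.right.left RtB19_10.CX RtB19_10.Ctp.right.right.right.left.left.left.right RtB19_10.Ce.right.right.right.left.right.left.right.left RtB19_10.CTp.right RtB19_10.CEr.right.right 0xda427566c2d741997f917bfefd139f6119bb78a89f540deccd5715995c40a1dbb5e98b20d5120b6b6985c15746669bd25980d98f612ba6de5d9f540d3 = true := by decide +kernel

theorem cB19_10_3_199 : chunkOkM (LB19_10.ctx true true 285 311 128 13 16 910 6573 64 35) muQ true true 64 RtB19_10.Cx.right.left.right.right RtB19_10.CX RtB19_10.Ctp.right.right.right.left.left.left.right RtB19_10.Ce.right.right.right.left.right.left.right.left RtB19_10.CTp.right RtB19_10.CEr.right.right 0x147792876c5f193817f9107368dbc9f610ee2dfdf9f540d62ace05485c1819fa8b88b5e182e1bb9f6159e2f1d09f540d5202afcd76c4dcf980429f6f3400e198f530de2143caef95c3f79210b298b111ed64429f530d541219d2f76c589be197f922e059ceb9f61405316eb9f540de6ece93a295c40dfd4e5198b2d1e69138f61078c99139f5d37f51f7f450d53 = true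 := by decide +kernel

theorem cB19_10_3_200 : chunkOkM (LB19_10.ctx true true 282 311 128 13 16 910 3297 64 35) muQ true true 64 RtB19_10.Cx.right.left.right RtB19_10.CX RtB19_10.Ctp.right.right.right.left.left.left.right RtB19_10.Ce.right.right.right.left.right.left.right.right RtB19_10.CTp.right RtB19_10.CEr.right.right 0xe8fb9166c3605f037f9160378c379f612d797cfe9f540dffa0c049f95c47966f17a98b3b069810b9f6116be0d7a9f540d5593597 = true := by decide +kernel

theorem cB19_10_3_201 : chunkOkM (LB19_10.ctx true true 285 307 128 13 16 914 6517 64 35) muQ true true 64 RtB19_10.Cx.right.left.left RtB19_10.CX RtB19_10.Ctp.right.right.right.left.left.right.left RtB19_10.Ce.right.right.right.left.right.left.left.left RtB19_10.CTp.right RtB19_10.CEr.right 0x115628f5fdd2a0d266caede4813e9f6c67359ea8f540df6311f475c3fa55569b11b3cc70cfaf630d5114301141b52df85c1eb78cb78b7e29b7038f6c837f5868f51da12e6c8f250d118345c76c68109c69bca7e7b848f6cc1e92de8f52d9b94e38f250d637 = true := by decide +kernel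

theorem cB19_10_3_202 : chunkOkM (LB19_10.ctx true true 285 307 128 13 16 918 6545 64 35) muQ true true 64 RtB19_10.Cx.right.left.left RtB19_10.CX RtB19_10.Ctp.right.right.right.left.left.right.left RtB19_10.Ce.right.right.right.left.right.left.left.right RtB19_10.CTp.right RtB19_10.CEr.right 0x22f5e9076c4ba6db69bbc1a1aed09f1260a7ff4d5af040d231eaa276c58b0f7098f6e1e74a018f512f2a6628f240d800b5193195c23d8f74f998b155f9780a9f6d2b3702c8f5145fcdcd8f250d513c0124c85c1f837069b1577fd9dd9f6cd9095408f540d4314e76fdf85c24edc6878b112d3b1269f6ce4f6b7c8f531794d408f250d7126db0b76c5dfc6869bd0bb2a5a8f6d21db77c8f525911eb48f250d6 = true := by decide +kernel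

theorem cB19_10_3_203 : chunkOkM (LB19_10.ctx true true 103 1 1 1 1 1 1 1 1) muQ true true 64 RtB19_10.Cx.right.left.left RtB19_10.CX RtB19_10.Ctp.right.right.right.left.left.right.right RtB19_10.Ce.right.right.right.left.right.left.left RtB19_10.CTp.right RtB19_10.CEr.right 0x01 = true := by decide +kernel

theorem cB19_10_3_204 : chunkOkM (LB19_10.ctx true true 281 309 128 13 16 914 6545 64 16) muQ true true 64 RtB19_10.Cx.right.left.right RtB19_10.CX RtB19_10.Ctp.right.right.right.left.left.right RtB19_10.Ce.right.right.right.left.right.left.left RtB19_10.CTp.right RtB19_10.CEr.right 0x11111115379c876c101f6d8f8f6cc0b05348f530d13ca48c285c77075369b11a2476309f6edaf89b68f540d5769431143 = true := by decide +kernel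

theorem cB19_10_3_205 : chunkOkM (LB19_10.ctx true true 287 615 256 13 16 918 6559 32 35) muQ true true 64 RtB19_10.Cx.right.left.left RtB19_10.CX RtB19_10.Ctp.right.right.right.left.left.right RtB19_10.Ce.right.right.right.left.right.left.right RtB19_10.CTp.right RtB19_10.CEr.right 0x2101152090a385c25c540678b96b8d55e8f6d08699a18f51dc8f9bc8f250d69138a2d3485c1d5226a78b1dce367b69f6d5c3f3a98f540d431328a9276c5cb3ee69b1537fed4d9f6d690efe38f510d0b9828f250d632172174 = true := by decide +kernel

theorem cB19_10_3_206 : chunkOkM (LB19_10.ctx true true 288 309 128 13 16 918 6573 64 35) muQ true true 64 RtB19_10.Cx.right.left.right.left RtB19_10.CX RtB19_10.Ctp.right.right.right.left.left.right.left RtB19_10.Ce.right.right.right.left.right.left.right.left RtB19_10.CTp.right RtB19_10.CEr.right 0x13fa003385c2560d169b1294e5a5b9f6d4e313f08f596cf6147f250d13ea73a76c6cb5bc69bacea4faf8f6d658825b8f51b67b7168f250d651b05c104044b685c4a3fe169bcf992b780eaf630d5413f0e71b85c142658878bd3a9db268f6e5dc85728f540d14cd552a85c1e7ee469b11f698c8e9f6e74f7edf8f540d4138147a76c5f059c69b12a3804229f6e6c2c1598f540d63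 = true := by decide +kernel

end Vale.Agent.helper4.Q4
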