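import Vale.Agent.helper4.Q4TreeM
import Vale.Agent.helper4.Q4G.PB19_10

/-!
Checks for pairs of intervals of second moments.
-/

set_option maxRecDepth 100000
set_option linter.unusedVariables false

namespace Vale.Agent.helper4.Q4

theorem cB19_10_3_207 : chunkOkM (LB19_10.ctx true true 281 311 128 13 16 914 6573 64 16) muQ true true 64 RtB19_10.Cx.right.left.right.right RtB19_10.CX RtB19_10.Ctp.right.right.right.left.left.right.left RtB19_10.Ce.right.right.right.left.right.left.right.left RtB19_10.CTp.right RtB19_10.CEr.right 0x1114ff9ea76c19d0ea3b8f6dee91b0b8f530d1416b18985c5de16969b1fdf32e239f6f72a0bc58f540d56943 = true := by decide +kernel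

theorem cB19_10_3_208 : chunkOkM (LB19_10.ctx true true 271 155 64 13 16 458 3297 64 32) muQ true true 64 RtB19_10.Cx.right.left.right RtB19_10.CX RtB19_10.Ctp.right.right.right.left.left.right.left RtB19_10.Ce.right.right.right.left.right.left.right.right RtB19_10.CTp.right RtB19_10.CEr.right.left 0xfb4093a08f05bcc793266c9c741969b6b00cc0f8f6102ea8a409f540d5 = true := by decide +kernel

theorem cB19_10_3_209 : chunkOkM (LB19_10.ctx true true 291 619 256 13 16 918 6601 64 35) muQ true true 64 RtB19_10.Cx.right.left.right.left RtB19_10.CX RtB19_10.Ctp.right.right.right.left.left.right.left RtB19_10.Ce.right.right.right.left.right.left.right.right RtB19_10.CTp.right RtB19_10.CEr.right.right 0x151dabc585c1da096578be9bed8458f6dbe5316a8f54c5fba97f250d21714dca1f085c20dc25678bd491d4378f6d69457068f599d07697f250d412a21d776c2e48dc1dd9f612c83c5239f530d1076e9e991a5c4a1e6dd7298b11b225d519f61006420d09f540d53 = true := by decide +kernel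

theorem cB19_10_3_210 : chunkOkM (LB19_10.ctx true true 285 311 128 13 16 918 6601 64 35) muQ true true 64 RtB19_10.Cx.right.left.right.right RtB19_10.CX RtB19_10.Ctp.right.right.right.left.left.right.left RtB19_10.Ce.right.right.right.left.right.left.right.right RtB19_10.CTp.right RtB19_10.CEr.right.right 0x1578df876c1f8ea669b993888d38f6e320d9978f540d128363576c3331dce7f9e0d457cb8f611ab1d97a9f540d419ba0fb85c1902039988b49c1addd79f613f86278d9f540d516dc1f276c2e049bd4d9f6f9765aa88f530db696222fe95c3330e0dd398b1096b32af9f530d543 = true := by decide +kernel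

theorem cB19_10_3_211 : chunkOkM (LB19_10.ctx true true 261 155 64 13 16 462 1645 32 16) muQ true true 64 RtB19_10.Cx.right.left.right RtB19_10.CX RtB19_10.Ctp.right.right.right.left.left.right.right RtB19_10.Ce.right.right.right.left.right.left.right RtB19_10.CTp.right RtB19_10.CEr.right 0x40b1eb376c121f17d79b147972482eaf14375a7010daf040d = true := by decide +kernel

theorem cB19_10_3_212 : chunkOkM (LB19_10.ctx true true 103 1 1 1 1 1 1 1 1) muQ true true 64 RtB19_10.Cx.right.right RtB19_10.CX RtB19_10.Ctp.right.right.right.left.left.left.left RtB19_10.Ce.right.right.right.left.right.left RtB19_10.CTp.right RtB19_10.CEr.right 0x49 = true := by decide +kernel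

theorem cB19_10_3_213 : chunkOkM (LB19_10.ctx true true 103 1 1 1 1 1 1 1 1) muQ true true 64 RtB19_10.Cx.right.right RtB19_10.CX RtB19_10.Ctp.right.right.right.left.left.left.right RtB19_10.Ce.right.right.right.left.right.left.left RtB19_10.CTp.right RtB19_10.CEr.right 0x69 = true := by decide +kernel

theorem cB19_10_3_214 : chunkOkM (LB19_10.ctx true true 285 313 128 13 16 910 6573 64 35) muQ true true 64 RtB19_10.Cx.right.right.left RtB19_10.CX RtB19_10.Ctp.right.right.right.left.left.left.right RtB19_10.Ce.right.right.right.left.right.left.right.left RtB19_10.CTp.right RtB19_10.CEr.right 0x2dace96fd1592a0576c1bef67ed8f6f09d97da8f540d148cd2576c500dc469bc8a321348f530d5491c62d6076c23f32577f911e9a88989f6124694a2c9f5472299fd8f450deb7c9a10095c421e4428a98b3d2d9fba8f6109e49d909f534bbe3f78f450d5124bc1576cc0b5959b2764f7b229f651c4720ae9f440d41083e38149f05b708b0c57fd140ae2c76c600d9c69bf63998998f611f7e35099f55b55fc4e8f460d5673 = true := by decide +kernel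

theorem cB19_10_3_215 : chunkOkM (LB19_10.ctx true true 271 157 64 13 16 454 3297 64 32) muQ true true 64 RtB19_10.Cx.right.right.left RtB19_10.CX RtB19_10.Ctp.right.right.right.left.left.left.right RtB19_10.Ce.right.right.right.left.right.left.right.right RtB19_10.CTp.right RtB19_10.CEr.right.left 0x7763b887fd113784276c103050cd99f610eebc7e89f5c555b8d48f450d3261f417fd16b8b6076c9e15c769bb9d414e48f612d62ae789f56801afea8f460d5 = true := by decide +kernel

theorem cB19_10_3_216 : chunkOkM (LB19_10.ctx true true 287 315 128 13 16 910 6601 64 35) muQ true true 64 RtB19_10.Cx.right.right.left RtB19_10.CX RtB19_10.Ctp.right.right.right.left.left.left.right RtB19_10.Ce.right.right.right.left.right.left.right.right RtB19_10.CTp.right RtB19_10.CEr.right.right 0x23907287f888fe3c5d9caf6420677082eaf430d13fe51f76c5c477587f91354ab2889f612f9a00b29f540dc013af43895c35fcc521a98b594bbbba8f610be92cae9f540d51ca1f6a76c2f8edab7f9241eaa998f610d7eb7719f540df8cd78dea95c45da0f54798b1038911e59f61209203a89f540d5474912420d676c56ea92f7f916bbd49c39f612ecd13c29f582147d048f450dfb987dfb495c46bdbc40598b109d14b449f54fd698ec8f440d573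 = true := by decide +kernel

theorem cB19_10_3_217 : chunkOkM (LB19_10.ctx true true 103 1 1 1 1 1 1 1 1) muQ true true 64 RtB19_10.Cx.right.right.right RtB19_10.CX RtB19_10.Ctp.right.right.right.left.left.left.right RtB19_10.Ce.right.right.right.left.right.left.right RtB19_10.CTp.right RtB19_10.CEr.right 0x49 = true := by decide +kernel

theorem cB19_10_3_218 : chunkOkM (LB19_10.ctx true true 275 157 64 13 16 914 6601 64 16) muQ true true 64 RtB19_10.Cx.right.right RtB19_10.CX RtB19_10.Ctp.right.right.right.left.left.right RtB19_10.Ce.right.right.right.left.right.left RtB19_10.CTp.right RtB19_10.CEr.right 0x11116915df81e76c14d3bc528f6edcfcd4d8f530d1537b6b76c5c94d469b1a449e57b9f610436bd5a9f540d5694376943114 = true := by decide +kernel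

theorem cB19_10_3_219 : chunkOkM (LB19_10.ctx true true 238 39 16 13 16 114 833 32 16) muQ true true 64 RtB19_10.Cx.right RtB19_10.CX RtB19_10.Ctp.right.right.right.left.left RtB19_10.Ce.right.right.right.left.right.right RtB19_10.CTp.right RtB19_10.CEr.left 0xd7f54d2289b8e90514cf9f8ab4b53b58f6316ed312e9f240d = true := by decide +kernel

theorem cB19_10_3_220 : chunkOkM (LB19_10.ctx true true 103 1 1 1 1 1 1 1 1) muQ true true 64 RtB19_10.Cx.right.left RtB19_10.CX RtB19_10.Ctp.right.right.right.left.left.left RtB19_10.Ce.right.right.right.left.right.right RtB19_10.CTp.right RtB19_10.CEr.right 0x59 = true := by decide +kernel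

theorem cB19_10_3_221 : chunkOkM (LB19_10.ctx true true 103 1 1 1 1 1 1 1 1) muQ true true 64 RtB19_10.Cx.right.right RtB19_10.CX RtB19_10.Ctp.right.right.right.left.left.left.left RtB19_10.Ce.right.right.right.left.right.right RtB19_10.CTp.right RtB19_10.CEr.right 0x49 = true := by decide +kernel

theorem cB19_10_3_222 : chunkOkM (LB19_10.ctx true true 268 157 64 13 16 454 1659 64 32) muQ true true 64 RtB19_10.Cx.right.right.left RtB19_10.CX RtB19_10.Ctp.right.right.right.left.left.left.right RtB19_10.Ce.right.right.right.left.right.right.left RtB19_10.CTp.right RtB19_10.CEr.right.left 0x31668be7fd164171f76cff3134948f6129db94cb9f57fd49baa8f450d34d79037fd125c48976c7c90c969b799b16c08f6133b1d8af9f56aee0c798f460d5 = true := by decide +kernel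

theorem cB19_10_3_223 : chunkOkM (LB19_10.ctx true true 285 315 128 13 16 910 6629 64 35) muQ true true 64 RtB19_10.Cx.right.right.left RtB19_10.CX RtB19_10.Ctp.right.right.right.left.left.left.right RtB19_10.Ce.right.right.right.left.right.right.left.left RtB19_10.CTp.right RtB19_10.CEr.right.right 0x131e23e76c3d405597f9f8e9f7148f612bc3935f9f525f951b38f450dd19a22a4695c3ae214d4e98b1285b6b199f56eed00c7f440d51afa16176c4647e6c7f9d64d5e478f611ea8dc2c9f572cd459b8f450d10939f1517a5c4a7fddc7d98b41acf66c8f61149fdb7c9f53e8c49478f450d54e40a5166c42094c37f916c9d778d9f6140224bac9f540d1159752866a5c4e14d68ea98b32fa2bb98f6110e57fa69f540d57342ea7f76c7cd27f1fa9f5222aea6c31af430d3 = true := by decide +kernel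

theorem cB19_10_3_224 : chunkOkM (LB19_10.ctx true true 282 315 128 13 16 910 3325 64 35) muQ true true 64 RtB19_10.Cx.right.right.left RtB19_10.CX RtB19_10.Ctp.right.right.right.left.left.left.right RtB19_10.Ce.right.right.right.left.right.right.left.right RtB19_10.CTp.right RtB19_10.CEr.right.right 0x2925f7c76cf4b04b6f93f086bb2c9f61743aaa2d9f5b8c58dcf8f450d12cea90950a5c549d27a9e98b1112b92bc9f54f891f948f440d5493597 = true := by decide +kernel

theorem cB19_10_3_225 : chunkOkM (LB19_10.ctx true true 103 1 1 1 1 1 1 1 1) muQ true true 64 RtB19_10.Cx.right.right.left RtB19_10.CX RtB19_10.Ctp.right.right.right.left.left.left.right RtB19_10.Ce.right.right.right.left.right.right.right RtB19_10.CTp.right RtB19_10.CEr.right 0x59 = true := by decide +kernel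

theorem cB19_10_3_226 : chunkOkM (LB19_10.ctx true true 103 1 1 1 1 1 1 1 1) muQ true true 64 RtB19_10.Cx.right.right.right RtB19_10.CX RtB19_10.Ctp.right.right.right.left.left.left.right RtB19_10.Ce.right.right.right.left.right.right RtB19_10.CTp.right RtB19_10.CEr.right 0x49 = true := by decide +kernel

theorem cB19_10_3_227 : chunkOkM (LB19_10.ctx true true 103 1 1 1 1 1 1 1 1) muQ true true 64 RtB19_10.Cx.right.left.left RtB19_10.CX RtB19_10.Ctp.right.right.right.left.left.right RtB19_10.Ce.right.right.right.left.right.right.left RtB19_10.CTp.right RtB19_10.CEr.right 0x21 = true := by decide +kernel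

theorem cB19_10_3_228 : chunkOkM (LB19_10.ctx true true 285 311 128 13 16 918 6629 64 35) muQ true true 64 RtB19_10.Cx.right.left.right RtB19_10.CX RtB19_10.Ctp.right.right.right.left.left.right.left RtB19_10.Ce.right.right.right.left.right.right.left RtB19_10.CTp.right RtB19_10.CEr.right 0x152ba9276c237f9469b16081e3279f6fd0231118f540d1516d5af85c155b4fe78bb9755eab8f6eb8bce078f540d1508315a85c1ba5fbf78bd39bd1338f6e6dff6a28f540d459cdc12466c2fc07137f91fc483f349f611a143b469f540dd3c28927f95c3b7c9190398b20dc08b479f610ede718a9f540d54314bd65776c22d0a569b186c77f1c9f6e4a419b48f5144785018f250d741172ee6449f05b101b80976c9e7d1d69b8bc1fd6a8f611215ffdb9f540d56 = true := by decide +kernel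

end Vale.Agent.helper4.Q4
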