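import Vale.Agent.helper4.Q4TreeM
import Vale.Agent.helper4.Q4G.PB19_10

/-!
Checks for pairs of intervals of second moments.
-/

set_option maxRecDepth 100000
set_option linter.unusedVariables false

namespace Vale.Agent.helper4.Q4

theorem cB19_10_3_229 : chunkOkM (LB19_10.ctx true true 287 623 256 13 16 922 6657 32 35) muQ true true 64 RtB19_10.Cx.right.left.right RtB19_10.CX RtB19_10.Ctp.right.right.right.left.left.right.right RtB19_10.Ce.right.right.right.left.right.right.left RtB19_10.CTp.right RtB19_10.CEr.right 0x01158d70c585c271138578b110a21e689f6e351fd278f5fbc52cc7f250d1559534585c26344f378b14bbb0db79f6dd9f22008f552da5a97f250d413b176576c71f9b569b2259e91539f6e3bdeec98f5fa68d657f250d6217217162ef3876c253f7369b6f3287058f6d6b139768f515e697478f250d155e093e85c353dca888f62271daea49f230d7deed9366c54465169bd01d00ba8f6dbc5a2278f52ef89d3c8f250d643 = true := by decide +kernel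

theorem cB19_10_3_230 : chunkOkM (LB19_10.ctx true true 103 1 1 1 1 1 1 1 1) muQ true true 64 RtB19_10.Cx.right.left RtB19_10.CX RtB19_10.Ctp.right.right.right.left.left.right RtB19_10.Ce.right.right.right.left.right.right.right RtB19_10.CTp.right RtB19_10.CEr.right 0x21 = true := by decide +kernel

theorem cB19_10_3_231 : chunkOkM (LB19_10.ctx true true 285 315 128 13 16 914 6629 64 35) muQ true true 64 RtB19_10.Cx.right.right.left RtB19_10.CX RtB19_10.Ctp.right.right.right.left.left.right.left.left RtB19_10.Ce.right.right.right.left.right.right.left.left RtB19_10.CTp.right RtB19_10.CEr.right 0x189148976cce07da5c8f61167a568e9f530d15183f576c6ed6a569b830706658f610d4ecf389f540d5694fde4f766c330a7947f9100c5fcfa9f610a47ac8a9f540d9d5c2c31d95c2c11176c398b372eb5778f61210e99679f540d510b883776c3ea511d7f9137fb1bbc9f610e67b6689f540dcd738523095c39a08e0ec98b55a07acf8f6ffd3c62a8f540d541010469379f05b10cac8576c4b27f869b100b65cea9f610cad25139f540d567 = true := by decide +kernel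

theorem cB19_10_3_232 : chunkOkM (LB19_10.ctx true true 285 313 128 13 16 918 6629 64 35) muQ true true 64 RtB19_10.Cx.right.right.left RtB19_10.CX RtB19_10.Ctp.right.right.right.left.left.right.left.right RtB19_10.Ce.right.right.right.left.right.right.left.left RtB19_10.CTp.right RtB19_10.CEr.right 0x691dc0cc576c1e903db7f9155bc2508f6f2a07e358f540dd3c9bea0695c3b79a981398b10a4f679d9f530d5ba3f6d66c3cee1569b11c8909ff9f6fb1d3e648f540d611c05c154dca276c63b6a569b3922e476b9f6114368a3a9f540d547 = true := by decide +kernel

theorem cB19_10_3_233 : chunkOkM (LB19_10.ctx true true 271 157 64 13 16 458 3325 64 32) muQ true true 64 RtB19_10.Cx.right.right.left RtB19_10.CX RtB19_10.Ctp.right.right.right.left.left.right.left RtB19_10.Ce.right.right.right.left.right.right.left.right RtB19_10.CTp.right RtB19_10.CEr.right.left 0x1147a36499f05b13c000576c46e30a69ba1f5213c8f6108e807a79f540d5 = true := by decide +kernel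

theorem cB19_10_3_234 : chunkOkM (LB19_10.ctx true true 291 627 256 13 16 918 6643 64 35) muQ true true 64 RtB19_10.Cx.right.right.left.left RtB19_10.CX RtB19_10.Ctp.right.right.right.left.left.right.left RtB19_10.Ce.right.right.right.left.right.right.left.right RtB19_10.CTp.right RtB19_10.CEr.right.right 0x1ad9f8e76cd374fa508f61036c6dde9f530d51bd718885c20e40f2d88b39274315a9f6149ed1f339f540d5591c25b2876c48ae6067f9870732d68f610e302fb89f540da566e488c95c2e47a66f298b12a43b7789f530d559743 = true := by decide +kernel

theorem cB19_10_3_235 : chunkOkM (LB19_10.ctx true true 285 315 128 13 16 918 6657 64 35) muQ true true 64 RtB19_10.Cx.right.right.left.right RtB19_10.CX RtB19_10.Ctp.right.right.right.left.left.right.left RtB19_10.Ce.right.right.right.left.right.right.left.right RtB19_10.CTp.right RtB19_10.CEr.right.right 0x1e226aa76c288ceb27f9ff21490f8f530df5e365fd995c486776ce298b20d521c05c11c05c54153b83476c425d0f37f938fecfaa19f6156bf98cf9f540db0dad5e4a95c31a7f8d3498b346328ba8f610d6130629f540d51101a8a76c486e3227f91401ecd779f611b3d05a59f540de240845aa95c3f696e69098b7491187b8f611120f2689f540d543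 = true := by decide +kernel

theorem cB19_10_3_236 : chunkOkM (LB19_10.ctx true true 285 317 128 13 16 914 6657 64 35) muQ true true 64 RtB19_10.Cx.right.right.right RtB19_10.CX RtB19_10.Ctp.right.right.right.left.left.right.left RtB19_10.Ce.right.right.right.left.right.right.left RtB19_10.CTp.right RtB19_10.CEr.right 0x6949142c21c76c48fc7be7f9e5cf5b4d8f612bf166459f562fe90768f450d12da04de75a5c54c38217798b480085de49f430d573e575c3fa9f04b17d314676c8b70e669b779fa6518f61070ef8839f5487408078f450d566943694 = true := by decide +kernel

theorem cB19_10_3_237 : chunkOkM (LB19_10.ctx true true 278 313 128 13 16 926 3325 32 35) muQ true true 64 RtB19_10.Cx.right.right RtB19_10.CX RtB19_10.Ctp.right.right.right.left.left.right.right RtB19_10.Ce.right.right.right.left.right.right.left RtB19_10.CTp.right RtB19_10.CEr.right 0x1145e06e276c1555b2d79beccfb91ea9f130e27b0904af040d6916285db76c1fe10669ba4a7774b8f6e56f939a8f540d1548a9376c85bbc869bc22aea198f6f76ff2788f540d6737694 = true := by decide +kernel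

theorem cB19_10_3_238 : chunkOkM (LB19_10.ctx true true 268 157 64 13 16 458 1673 64 32) muQ true true 64 RtB19_10.Cx.right.right.left RtB19_10.CX RtB19_10.Ctp.right.right.right.left.left.right.left RtB19_10.Ce.right.right.right.left.right.right.right RtB19_10.CTp.right RtB19_10.CEr.right.left 0x135cbc2d39f05b4d76c427fd109f55a76c630f9e69b1248448129f612128e49e9f550d5 = true := by decide +kernel

theorem cB19_10_3_239 : chunkOkM (LB19_10.ctx true true 308 1263 512 13 16 3678 13391 64 35) muQ true true 64 RtB19_10.Cx.right.right.left RtB19_10.CX RtB19_10.Ctp.right.right.right.left.left.right.left RtB19_10.Ce.right.right.right.left.right.right.right RtB19_10.CTp.right RtB19_10.CEr.right.right 0x595912007aa76c2d43afc7f91d7b1b04b9f610ec158e79f540d451597d5c95c133310d4e98b344d5e1d39f6122865d119f540d5593597459359745935971405a3876c362c6cd7f91163d21659f61211dde879f540d6dffd33185c17c9076088b204872c5c9f615929271f9f540d515561ceb85c20c7a669b1d0cff8929f610b4d997b9f540d7591604d0b76c48bb66e7f92d263a8639f614c0295a89f540db9d7eb6c495c342801ea598b118b6ca449f530d5597459734 = true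 := by decide +kernel

theorem cB19_10_3_240 : chunkOkM (LB19_10.ctx true true 271 157 64 13 16 462 3339 64 32) muQ true true 64 RtB19_10.Cx.right.right.left RtB19_10.CX RtB19_10.Ctp.right.right.right.left.left.right.right RtB19_10.Ce.right.right.right.left.right.right.right.left RtB19_10.CTp.right RtB19_10.CEr.right.left 0xf6bff4f68f05b1a2c74176c9ae42569bddb356df8f610b6caa819f540d5 = true := by decide +kernel

end Vale.Agent.helper4.Q4
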