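import Vale.Agent.helper4.Q4TreeM
import Vale.Agent.helper4.Q4G.PB19_10

/-!
Checks for pairs of intervals of second moments.
-/

set_option maxRecDepth 100000
set_option linter.unusedVariables false

namespace Vale.Agent.helper4.Q4

theorem cB19_10_3_241 : chunkOkM (LB19_10.ctx true true 286 315 128 13 16 926 6685 64 35) muQ true true 64 RtB19_10.Cx.right.right.left RtB19_10.CX RtB19_10.Ctp.right.right.right.left.left.right.right RtB19_10.Ce.right.right.right.left.right.right.right.left RtB19_10.CTp.right RtB19_10.CEr.right.right 0x15e9f1776c3070f369b22c2ffb9e6af630d1ee92b076c1c783007f9ce31648a8f6eff866088f540dbec89ce6595c35981abbe98b39cb79498f6f471d2fd8f540d517845ff76c26d61169b4a44f5398f6f2c0150d8f540d431756b14b85c2b246169b9f07d6958f6dd263fae8f51145a3468f250d1b7c90776cadefda228f6f596037b8f530dd3217d3df95c3b7adefc998b7031a73d8f6e9e0ec348f540d537 = true := by decide +kernel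

theorem cB19_10_3_242 : chunkOkM (LB19_10.ctx true true 285 315 128 13 16 926 6713 64 35) muQ true true 64 RtB19_10.Cx.right.right.left RtB19_10.CX RtB19_10.Ctp.right.right.right.left.left.right.right RtB19_10.Ce.right.right.right.left.right.right.right.right RtB19_10.CTp.right RtB19_10.CEr.right 0x1710deeb85c26f43269b10fe9ac419f6ebe83f088f540d1736e43d85c2ee36269b106b06f409f6efdb2b958f540d41114cd676cd99896b38f6102c2d8719f530de643437f195c3eabc847e98b20d5317086bc385c2c2ae7c78bea53d97f8f6ea4782588f513b7cae28f250d593710a78cb929f05ba1b41466c302ad569b1f5c85d9b9f6da7fa38c8f540d56 = true := by decide +kernel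

theorem cB19_10_3_243 : chunkOkM (LB19_10.ctx true true 282 317 128 13 16 914 3339 64 35) muQ true true 64 RtB19_10.Cx.right.right.right RtB19_10.CX RtB19_10.Ctp.right.right.right.left.left.right.left.left RtB19_10.Ce.right.right.right.left.right.right.right.left RtB19_10.CTp.right RtB19_10.CEr.right 0x4914839db76c41eae307f9902a90388f612c9169089f5448d75198f450df3756521695c447cf439998b125d96a0f9f560f5576f440d5125a908c69f05bdb2dc866c84022769bc368fa008f6137eee1ce9f5575513a78f450d567 = true := by decide +kernel

theorem cB19_10_3_244 : chunkOkM (LB19_10.ctx true true 285 317 128 13 16 918 6685 64 35) muQ true true 64 RtB19_10.Cx.right.right.right RtB19_10.CX RtB19_10.Ctp.right.right.right.left.left.right.left.right RtB19_10.Ce.right.right.right.left.right.right.right.left RtB19_10.CTp.right RtB19_10.CEr.right 0x691c3f24a76c37b2f107f910fcd06509f530dff5d5bc8d95c47ac5449a98b22c4a25d8f612b541c049f540d528b3ddd7fd1c34ffa76c10605557f929ef2bf039f6128f5acdd9f550d11c05c54ea225db08f05b1b472797fd19c0b8b76c60762869b197710fe99f6fd7a8a9b8f550d567 = true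 := by decide +kernel

theorem cB19_10_3_245 : chunkOkM (LB19_10.ctx true true 288 319 128 13 16 918 6713 64 35) muQ true true 64 RtB19_10.Cx.right.right.right RtB19_10.CX RtB19_10.Ctp.right.right.right.left.left.right.left RtB19_10.Ce.right.right.right.left.right.right.right.right RtB19_10.CTp.right RtB19_10.CEr.right 0x1f00be076c28fa5947f97e5a10b88f612f9a0e9c9f540d112d7bd9cda5c4d3f1f3ac98b404520f58f611109312f9f534b8748d8f450d542386437fd9a5ab417f8c1cb9b4ff3af64aaa119100af440d41e9b05376c2dac1a07f986dc0c8c8f611544992c9f540de18c14c8c95c3f2750d1d98b3c1006b48f61109e538a9f540d57178f447885c2f0934dd72af5ee2fbe446baf430d317349f976c88e768b08f612cce7ee89f54e7add298f440d19de79e76c848ae069b13d373fe69f613c76ef9d9f54eea28a78f450d56 = true := by decide +kernel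

theorem cB19_10_3_246 : chunkOkM (LB19_10.ctx true true 285 317 128 13 16 926 6713 64 35) muQ true true 64 RtB19_10.Cx.right.right.right RtB19_10.CX RtB19_10.Ctp.right.right.right.left.left.right.right RtB19_10.Ce.right.right.right.left.right.right.right RtB19_10.CTp.right RtB19_10.CEr.right 0x1602fa576ccda403d78f520d16b2a4c76c6ced3269b3ea5f41f09f61005721d09f540d5691359a8a76c3c8ffcc7f9b657eef18f610ee62a399f540d782125fd85c1ea0c65488b6e58516769f6199066fec9f540d5eefdf166c281c8607f92330149739f613caed81f9f540d107db8c6bfa5c4a1fe377d98b1621a6618f611cc6d5349f540d54159cd1a76c6ba2b169ba97b980d8f610e6cdf0d9f540d673694 = true := by decide +kernel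

theorem cB19_10_3_247 : chunkOkM (LB19_10.ctx true true 233 39 16 13 16 118 413 32 8) muQ true true 64 RtB19_10.Cx.right RtB19_10.CX RtB19_10.Ctp.right.right.right.left.right RtB19_10.Ce.right.right.right.left.right RtB19_10.CTp.right RtB19_10.CEr 0x3e9a5166c6803dc69b1d9948358f629e79da1e2af18b10754e90af050d = true := by decide +kernel

theorem cB19_10_3_248 : chunkOkM (LB19_10.ctx true true 103 1 1 1 1 1 1 1 1) muQ true true 64 RtB19_10.Cx.left RtB19_10.CX RtB19_10.Ctp.right.right.right.left RtB19_10.Ce.right.right.right.right.left RtB19_10.CTp.right RtB19_10.CEr 0x21 = true := by decide +kernel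

theorem cB19_10_3_249 : chunkOkM (LB19_10.ctx true true 103 1 1 1 1 1 1 1 1) muQ true true 64 RtB19_10.Cx.right.left RtB19_10.CX RtB19_10.Ctp.right.right.right.left RtB19_10.Ce.right.right.right.right.left.left RtB19_10.CTp.right RtB19_10.CEr 0x21 = true := by decide +kernel

theorem cB19_10_3_250 : chunkOkM (LB19_10.ctx true true 103 1 1 1 1 1 1 1 1) muQ true true 64 RtB19_10.Cx.right.right RtB19_10.CX RtB19_10.Ctp.right.right.right.left.left.left RtB19_10.Ce.right.right.right.right.left.left RtB19_10.CTp.right RtB19_10.CEr 0x59 = true := by decide +kernel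

theorem cB19_10_3_251 : chunkOkM (LB19_10.ctx true true 248 79 32 13 16 230 847 32 16) muQ true true 64 RtB19_10.Cx.right.right RtB19_10.CX RtB19_10.Ctp.right.right.right.left.left.right RtB19_10.Ce.right.right.right.right.left.left RtB19_10.CTp.right RtB19_10.CEr.left 0x830b1e9189b4e88e64d39f831ddbc0ff9f527d8d9598f040d = true := by decide +kernel

theorem cB19_10_3_252 : chunkOkM (LB19_10.ctx true true 317 2543 1024 13 16 3678 26887 64 35) muQ true true 64 RtB19_10.Cx.right.right RtB19_10.CX RtB19_10.Ctp.right.right.right.left.left.right.left RtB19_10.Ce.right.right.right.right.left.left.left RtB19_10.CTp.right RtB19_10.CEr.right 0x15bf0a076c13920fcba0af55f5a4ac484af430d239a05376c41f4c1b7f911ac5b5ae9f612cc262329f5917601e98f450dbd803c50495c38a5bbfc098b1082f98159f548d77d118f440d55959591633c5376c74897a2409f61454cd2bb9f530d3827e54c85ca18e90178b6ef2cfcd79f61343c3a489f540d559745935974593597472a2aa017f95da09526b9f51854a529f1af430d342016b5f76cd020522c8f612bdcd7899f56e719df38f440d24a310f7fd175af7c76c8a60d469b9f0526a38f614488668d9f550185b058f460d56597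 = true := by decide +kernel

theorem cB19_10_3_253 : chunkOkM (LB19_10.ctx true true 282 315 128 13 16 926 3367 64 35) muQ true true 64 RtB19_10.Cx.right.right.left RtB19_10.CX RtB19_10.Ctp.right.right.right.left.left.right.right RtB19_10.Ce.right.right.right.right.left.left.left RtB19_10.CTp.right RtB19_10.CEr.right 0x211d382c076c9b8545278f6f54b45458f530dfe09add0695c476f103cc98b39f6d96e8f6f642858a8f540d5159dac976c6aacc269b188aa23219f6f2294f308f540d65932174 = true := by decide +kernel

end Vale.Agent.helper4.Q4
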