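import Vale.Agent.helper4.Q4TreeM
import Vale.Agent.helper4.Q4G.PB19_10

/-!
Checks for pairs of intervals of second moments.
-/

set_option maxRecDepth 100000
set_option linter.unusedVariables false

namespace Vale.Agent.helper4.Q4

theorem cB19_10_3_254 : chunkOkM (LB19_10.ctx true true 271 159 64 13 16 462 3367 64 32) muQ true true 64 RtB19_10.Cx.right.right.right RtB19_10.CX RtB19_10.Ctp.right.right.right.left.left.right.right RtB19_10.Ce.right.right.right.right.left.left.left.left RtB19_10.CTp.right RtB19_10.CEr.right.left 0x11119b2ca9f05b159396676c9692cc69bbaf09d838f612563d7a79f540d5 = true := by decide +kernel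

theorem cB19_10_3_255 : chunkOkM (LB19_10.ctx true true 285 317 128 13 16 926 6741 64 35) muQ true true 64 RtB19_10.Cx.right.right.right.left RtB19_10.CX RtB19_10.Ctp.right.right.right.left.left.right.right RtB19_10.Ce.right.right.right.right.left.left.left.left RtB19_10.CTp.right RtB19_10.CEr.right.right 0x124a82c76c2dfa2ec7f92e37e310b9f6bae5940a8f540d617cc4a285c17f7520f88b583ba34709f610e8278199f540d5273e3a976cb116284539f6119148dbf9f530ddabf8172595c3d674993298b1109491f19f530d545b900b6fdd6b3cb66c7755ecb7f9cffd1f2a8f6113180e699f550df76d357fc95c45ad3ead698b105c3648d9f530d53 = true := by decide +kernel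

theorem cB19_10_3_256 : chunkOkM (LB19_10.ctx true true 285 319 128 13 16 926 6741 64 35) muQ true true 64 RtB19_10.Cx.right.right.right.right RtB19_10.CX RtB19_10.Ctp.right.right.right.left.left.right.right RtB19_10.Ce.right.right.right.right.left.left.left.left RtB19_10.CTp.right RtB19_10.CEr.right.right 0x1d912d27fd1d1405176ce565f56f97efff9d68f6106bf9f4d9f550d11c05c52752df276c1edea207f92a7a44a299f6fe0f36e98f540d803dd53c85c203a9f3f88b76c1312079f61b4017ae69f540d52074a9576c76845b288f611c9c44529f530d120c2815e6a5c512636bdb98b124ee16a59f530d543 = true := by decide +kernel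

theorem cB19_10_3_257 : chunkOkM (LB19_10.ctx true true 271 159 64 13 16 462 3381 64 32) muQ true true 64 RtB19_10.Cx.right.right.right RtB19_10.CX RtB19_10.Ctp.right.right.right.left.left.right.right RtB19_10.Ce.right.right.right.right.left.left.left.right RtB19_10.CTp.right RtB19_10.CEr.right.left 0x123de89cf9f05b131383d76c6ba5ef69b121c6be679f61368c6bc79f540d5 = true := by decide +kernel

theorem cB19_10_3_258 : chunkOkM (LB19_10.ctx true true 285 319 128 13 16 926 6769 64 35) muQ true true 64 RtB19_10.Cx.right.right.right RtB19_10.CX RtB19_10.Ctp.right.right.right.left.left.right.right RtB19_10.Ce.right.right.right.right.left.left.left.right RtB19_10.CTp.right RtB19_10.CEr.right.right 0x11599f676c2a93f4f7f91276bd1559f6113c202529f540dbc99c95f095c34a29913498b2713e4f289f6f225b8488f540d516e898f76c1c3dbb51b9f612f8ce80d9f530df0513eb9495c4372c816598b152270b98f61210a84359f540d541b559be76c2b31047519f61622a43b59f530d110c29d37da5c4cb2ed2f998b113bbdf609f530d5314b1aec76c9fc077048f61059868159f530d1153432082a5c4d9c8abd098bf65677c98f530d55937 =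 true := by decide +kernel

theorem cB19_10_3_259 : chunkOkM (LB19_10.ctx true true 282 319 128 13 16 926 3395 64 35) muQ true true 64 RtB19_10.Cx.right.right RtB19_10.CX RtB19_10.Ctp.right.right.right.left.left.right RtB19_10.Ce.right.right.right.right.left.left.right RtB19_10.CTp.right RtB19_10.CEr.right 0x5925c8bb076c13a28f87f92055e46529f612230936a9f540d129f7a1f1ea5c535eff93498bf8908d8f8f530d51809e0376c88acb269b144541f429f612c668d109f540d65935974217593 = true := by decide +kernel

theorem cB19_10_3_260 : chunkOkM (LB19_10.ctx true true 253 79 32 13 16 466 847 32 16) muQ true true 64 RtB19_10.Cx.right.right RtB19_10.CX RtB19_10.Ctp.right.right.right.left.right.left.left RtB19_10.Ce.right.right.right.right.left.left RtB19_10.CTp.right RtB19_10.CEr.left 0x8ab3269489b5069622589f83228fddf89f62205f330b9f540d = true := by decide +kernel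

theorem cB19_10_3_261 : chunkOkM (LB19_10.ctx true true 292 631 256 13 16 3714 3367 32 35) muQ true true 64 RtB19_10.Cx.right.right.left RtB19_10.CX RtB19_10.Ctp.right.right.right.left.right.left.left RtB19_10.Ce.right.right.right.right.left.left.left RtB19_10.CTp.right RtB19_10.CEr.right 0x2101010117a40db285c2dd750e78b7bede46d8f6e8f11bc78f510c8d27a8f250d140805576cb0998869b123aadd509f6fa1947b18f540d63330170174 = true := by decide +kernel

theorem cB19_10_3_262 : chunkOkM (LB19_10.ctx true true 285 319 128 13 16 930 6741 64 35) muQ true true 64 RtB19_10.Cx.right.right.right RtB19_10.CX RtB19_10.Ctp.right.right.right.left.right.left.left RtB19_10.Ce.right.right.right.right.left.left.left RtB19_10.CTp.right RtB19_10.CEr.right 0x111882e2e76c2c1b6d69b7effef268f6f8442f4f8f540d1767abe76c7da7e569bf4b4e6ab8f6fd207fcb8f540d6301164f5ca76c26d07c27f9116be0dca9f61093421ca9f540daf8a54de395c3122e6b0398b10e0508d09f530d5febeb966c67f27369bfc521cfd8f61044d5e599f540d6371111179b81076c35d85469bd89f30b88f6eba840c98f540d12f136e76c6f5f2469b4d5852e98f6f56a6f248f540d6711434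 = true := by decide +kernel

theorem cB19_10_3_263 : chunkOkM (LB19_10.ctx true true 295 639 256 13 16 1862 6811 64 35) muQ true true 64 RtB19_10.Cx.right.right RtB19_10.CX RtB19_10.Ctp.right.right.right.left.right.left.left RtB19_10.Ce.right.right.right.right.left.left.right RtB19_10.CTp.right RtB19_10.CEr.right 0x19edd93d85c29946b69badb09a488f6f633dd2b8f53dea6ed7f250d59186454d685c2d3034778b124708cd99f6106fcda8d9f540d59359743217186523e76c3205c169ba78a9f848f6ea942f168f51138011a8f250df4f7ea66c22848407f91598909699f61132cbbeb9f540dc377ecff895c36f18a2e598b5489ac818f6fa82c1578f540d532119b68fc285c28218d69b12d8fa8cf9f6ee573a728f5ee870a87f250d474c7073c87fd1377e6376c85f7e01d8f611428afb69f540da7d01466c7898b669be37973288f61136b2d149f540d56217 = true := by decide +kernel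

theorem cB19_10_3_264 : chunkOkM (LB19_10.ctx true true 103 1 1 1 1 1 1 1 1) muQ true true 64 RtB19_10.Cx.right.right RtB19_10.CX RtB19_10.Ctp.right.right.right.left.right.left.right RtB19_10.Ce.right.right.right.right.left.left RtB19_10.CTp.right RtB19_10.CEr 0x01 = true := by decide +kernel

theorem cB19_10_3_265 : chunkOkM (LB19_10.ctx true true 103 1 1 1 1 1 1 1 1) muQ true true 64 RtB19_10.Cx.right.right RtB19_10.CX RtB19_10.Ctp.right.right.right.left.right.right RtB19_10.Ce.right.right.right.right.left.left RtB19_10.CTp.right RtB19_10.CEr 0x01 = true := by decide +kernel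

theorem cB19_10_3_266 : chunkOkM (LB19_10.ctx true true 103 1 1 1 1 1 1 1 1) muQ true true 64 RtB19_10.Cx.right RtB19_10.CX RtB19_10.Ctp.right.right.right.left RtB19_10.Ce.right.right.right.right.left.right RtB19_10.CTp.right RtB19_10.CEr 0x21 = true := by decide +kernel

theorem cB19_10_3_267 : chunkOkM (LB19_10.ctx true true 103 1 1 1 1 1 1 1 1) muQ true true 64 RtB19_10.Cx RtB19_10.CX RtB19_10.Ctp.right.right.right.left RtB19_10.Ce.right.right.right.right.right RtB19_10.CTp.right RtB19_10.CEr 0x21 = true := by decide +kernel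

theorem cB19_10_3_268 : chunkOkM (LB19_10.ctx true true 103 1 1 1 1 1 1 1 1) muQ true true 64 RtB19_10.Cx RtB19_10.CX RtB19_10.Ctp.right.right.right.right RtB19_10.Ce.right.right.right RtB19_10.CTp.right RtB19_10.CEr 0x01 = true := by decide +kernel

theorem cB19_10_2_0 : chunkOkM (LB19_10.ctx false true 103 1 1 1 1 1 1 1 1) muQ false true 64 RtB19_10.Cx RtB19_10.CX RtB19_10.Ctn RtB19_10.Ce RtB19_10.CTp RtB19_10.CEr 0x49 = true := by decide +kernel

theorem cB19_10_1_0 : chunkOkM (LB19_10.ctx true false 103 1 1 1 1 1 1 1 1) muQ true false 64 RtB19_10.Cx RtB19_10.CX RtB19_10.Ctp RtB19_10.Ce RtB19_10.CTn RtB19_10.CEr 0x4a = true := by decide +kernel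

theorem cB19_10_0_0 : chunkOkM (LB19_10.ctx false false 103 1 1 1 1 1 1 1 1) muQ false false 64 RtB19_10.Cx RtB19_10.CX RtB19_10.Ctn RtB19_10.Ce RtB19_10.CTn RtB19_10.CEr 0x49 = true := by decide +kernel

end Vale.Agent.helper4.Q4
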