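import Vale.Agent.helper4.Q4TreeM
import Vale.Agent.helper4.Q4G.PB19_10

/-!
Checks for pairs of intervals of second moments.
-/

set_option maxRecDepth 100000
set_option linter.unusedVariables false

namespace Vale.Agent.helper4.Q4

theorem cB19_10_3_45 : chunkOkM (LB19_10.ctx true true 284 289 128 13 16 886 6153 64 35) muQ true true 64 RtB19_10.Cx.left.left.left.left RtB19_10.CX RtB19_10.Ctp.right.right.left.right.right.right.left RtB19_10.Ce.right.right.left.right.right.left.right.right RtB19_10.CTp.right RtB19_10.CEr.right 0x101690a76ca971b06f9e75fa48f8f6cb6af3238f540d78659972595c21cda6c5b98bba03b60c8f530d5beec69a75c38b1b268b42db4d1f99f67610272a8f540d4daf3d6d75c8d4ca3278f6c2f277b88f530d3cdd05666c511e9769b1783e8eef9f6abf506128f540d6 = true := by decide +kernel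

theorem cB19_10_3_46 : chunkOkM (LB19_10.ctx true true 280 291 128 13 16 886 6153 32 35) muQ true true 64 RtB19_10.Cx.left.left.left.right RtB19_10.CX RtB19_10.Ctp.right.right.left.right.right.right.left RtB19_10.Ce.right.right.left.right.right.left.right.right RtB19_10.CTp.right RtB19_10.CEr.right 0x71b05c154be9f385c1f21017f89f6d434456b8f530d1fdf3a77fd76611866c5f5d7c69b34da33e7d9f6ca27e0398f550d6c3b683b75c8f78be68b655fa5d78f6c18320338f540d6e61ff66c3f48ac69b4149de2d99f6f69566378f540d643 = true := by decide +kernel

theorem cB19_10_3_47 : chunkOkM (LB19_10.ctx true true 262 145 64 13 16 446 1533 32 16) muQ true true 64 RtB19_10.Cx.left.left.left RtB19_10.CX RtB19_10.Ctp.right.right.left.right.right.right.right RtB19_10.Ce.right.right.left.right.right.left.right RtB19_10.CTp.right RtB19_10.CEr.right 0xb738ef66c9b41df5109af11d42543fde1bf030d = true := by decide +kernel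

theorem cB19_10_3_48 : chunkOkM (LB19_10.ctx true true 103 1 1 1 1 1 1 1 1) muQ true true 64 RtB19_10.Cx.left.left.right RtB19_10.CX RtB19_10.Ctp.right.right.left.right.right.right RtB19_10.Ce.right.right.left.right.right.left.right RtB19_10.CTp.right RtB19_10.CEr.right 0x69 = true := by decide +kernel

theorem cB19_10_3_49 : chunkOkM (LB19_10.ctx true true 103 1 1 1 1 1 1 1 1) muQ true true 64 RtB19_10.Cx.left.right RtB19_10.CX RtB19_10.Ctp.right.right.left.right.right.right RtB19_10.Ce.right.right.left.right.right.left.right RtB19_10.CTp.right RtB19_10.CEr 0x11 = true := by decide +kernel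

theorem cB19_10_3_50 : chunkOkM (LB19_10.ctx true true 247 73 32 13 16 218 777 32 16) muQ true true 64 RtB19_10.Cx.left.left RtB19_10.CX RtB19_10.Ctp.right.right.left.right.right.left RtB19_10.Ce.right.right.left.right.right.right RtB19_10.CTp.right RtB19_10.CEr.left 0x3d88144189b24b1698b79f828d1a6d789f630d = true := by decide +kernel

theorem cB19_10_3_51 : chunkOkM (LB19_10.ctx true true 277 295 128 13 16 870 3087 32 35) muQ true true 64 RtB19_10.Cx.left.left RtB19_10.CX RtB19_10.Ctp.right.right.left.right.right.left.left RtB19_10.Ce.right.right.left.right.right.right.left RtB19_10.CTp.right RtB19_10.CEr.right 0x5915d8a80285c10e49cc089f611db13f849f538b18d508f440d801ee766c2341a469b1a3a2e76f9f613cf324789f540d65935974597 = true := by decide +kernel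

theorem cB19_10_3_52 : chunkOkM (LB19_10.ctx true true 263 145 64 13 16 438 3087 32 16) muQ true true 64 RtB19_10.Cx.left.left.left RtB19_10.CX RtB19_10.Ctp.right.right.left.right.right.left.right RtB19_10.Ce.right.right.left.right.right.right.left RtB19_10.CTp.right RtB19_10.CEr.right 0x5988b5f466c1c64559b10d4b5fff9f6ed8a91588f540d4 = true := by decide +kernel

theorem cB19_10_3_53 : chunkOkM (LB19_10.ctx true true 284 295 128 13 16 878 6181 64 35) muQ true true 64 RtB19_10.Cx.left.left.right RtB19_10.CX RtB19_10.Ctp.right.right.left.right.right.left.right RtB19_10.Ce.right.right.left.right.right.right.left.left RtB19_10.CTp.right RtB19_10.CEr.right 0x146ee2f185c1070bb4a29f61003a8fcb9f530dd86433168f05b6122b05c61b05c5416d18f9a85ccdb7cd628f6107669d0a9f530d89594c66c4360b569bad4895308f610c79921e9f540d6315c7071885c1e735cfc79f61059febad9f530df42b8766c49d15e69bddc3a27f8f6f8391a148f540d67 = true := by decide +kernel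

theorem cB19_10_3_54 : chunkOkM (LB19_10.ctx true true 267 147 64 13 16 438 3101 32 35) muQ true true 64 RtB19_10.Cx.left.left.right RtB19_10.CX RtB19_10.Ctp.right.right.left.right.right.left.right RtB19_10.Ce.right.right.left.right.right.right.left.right RtB19_10.CTp.right RtB19_10.CEr.right 0x158d0b6d85c1335348779f610c2fb21a9f530d9c85dc66c38492469bf2383d8e8f61199844569f540d6 = true := by decide +kernel

theorem cB19_10_3_55 : chunkOkM (LB19_10.ctx true true 312 2367 1024 13 16 3518 24871 32 35) muQ true true 64 RtB19_10.Cx.left.left RtB19_10.CX RtB19_10.Ctp.right.right.left.right.right.left RtB19_10.Ce.right.right.left.right.right.right.right RtB19_10.CTp.right RtB19_10.CEr.right 0x59595959151077d585ce1a46969e9f617ddf7d0d9f530dd7f152258f05b65974593597459359745935974597593 = true := by decide +kernel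

theorem cB19_10_3_56 : chunkOkM (LB19_10.ctx true true 254 149 64 13 16 218 777 32 16) muQ true true 64 RtB19_10.Cx.left.right.left RtB19_10.CX RtB19_10.Ctp.right.right.left.right.right.left RtB19_10.Ce.right.right.left.right.right.right RtB19_10.CTp.right RtB19_10.CEr.left 0x1200c0bc89b133669be09f87be6998569f61c8771bcc9f540d = true := by decide +kernel

theorem cB19_10_3_57 : chunkOkM (LB19_10.ctx true true 296 297 128 13 16 13950 6181 32 35) muQ true true 64 RtB19_10.Cx.left.right.left RtB19_10.CX RtB19_10.Ctp.right.right.left.right.right.left.left RtB19_10.Ce.right.right.left.right.right.right.left RtB19_10.CTp.right RtB19_10.CEr.right 0x5a4b810fb9f520b1d42785af420d4914cee18685cecddfd228f61177b43699f528994e718f440dee5277fa8f05b676944493493493493493 = true := by decide +kernel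

theorem cB19_10_3_58 : chunkOkM (LB19_10.ctx true true 280 297 128 13 16 874 6181 32 35) muQ true true 64 RtB19_10.Cx.left.right.left RtB19_10.CX RtB19_10.Ctp.right.right.left.right.right.left.right RtB19_10.Ce.right.right.left.right.right.right.left.left RtB19_10.CTp.right RtB19_10.CEr.right 0x6949153b346d85cd52e06e58f610c43c39c9f5169e43b48f440de6d6a13f8f05b676943 = true := by decide +kernel

theorem cB19_10_3_59 : chunkOkM (LB19_10.ctx true true 284 297 128 13 16 878 6209 64 35) muQ true true 64 RtB19_10.Cx.left.right.left RtB19_10.CX RtB19_10.Ctp.right.right.left.right.right.left.right RtB19_10.Ce.right.right.left.right.right.right.left.right RtB19_10.CTp.right RtB19_10.CEr.right 0x69191b05ac85c1313c0b9b9f6f3f538e48f530dea4462838f05b68799326fda1e40266c2c4f36a7f95adc9330c9f616a6d50499f550ddaf7d5e75c3ce93469b2180155e39f613cf038ab9f540d5474911b747a76c35f60257f9f38a53168f612d8695869f545ca631e8f450d9c459ce4195c2be5ce10298b41a664be8f6f9356f468f531fbe8c28f450d515e51fcd85c19c7bb9b09f6124e8a0649f52312b03d8f440d4b89de966c3d9c5b69b1369178629f613d8edc869f540d673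 = true := by decide +kernel

theorem cB19_10_3_60 : chunkOkM (LB19_10.ctx true true 261 149 64 13 16 434 1561 32 16) muQ true true 64 RtB19_10.Cx.left.right.left RtB19_10.CX RtB19_10.Ctp.right.right.left.right.right.left.left RtB19_10.Ce.right.right.left.right.right.right.right RtB19_10.CTp.right RtB19_10.CEr.right 0x5ae01e27f95f26e2a969f515d600c6a4af430d = true := by decide +kernel

theorem cB19_10_3_61 : chunkOkM (LB19_10.ctx true true 284 299 128 13 16 878 6237 64 35) muQ true true 64 RtB19_10.Cx.left.right.left RtB19_10.CX RtB19_10.Ctp.right.right.left.right.right.left.right RtB19_10.Ce.right.right.left.right.right.right.right.left RtB19_10.CTp.right RtB19_10.CEr.right 0x128322476c45234ed7f9cbbe8d2d8f611f8337039f540db9cb3810795c340fc1c2b98b22acfe5af9f6123f88f579f52b7e94948f450d51485e95b85c10469eff39f610ef89d879f52579b25e8f440d415c8fe1685ccac7dc558f610e1ea1549f530d749159554d085c1625744649f61233676cb9f53cd9e36b8f440d7310ed1a55b9f05b60ec1587fd13891f776c5691e569ba13f89ca8f61232ac2759f550d56 = true := by decide +kernel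

end Vale.Agent.helper4.Q4
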