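import Vale.Agent.helper4.Q4TreeM
import Vale.Agent.helper4.Q4G.PB19_10

/-!
Checks for pairs of intervals of second moments.
-/

set_option maxRecDepth 100000
set_option linter.unusedVariables false

namespace Vale.Agent.helper4.Q4

theorem cB19_10_3_62 : chunkOkM (LB19_10.ctx true true 284 299 128 13 16 878 6265 64 35) muQ true true 64 RtB19_10.Cx.left.right.left RtB19_10.CX RtB19_10.Ctp.right.right.left.right.right.left.right RtB19_10.Ce.right.right.left.right.right.right.right.right RtB19_10.CTp.right RtB19_10.CEr.right 0x16a8715185c36a72477f9156f3160f9f6125ea2e6a9f58c9e52018f450dcad1d70ad95c38df7ae6998bf87106558f5128a0aa78f440d5a3d60a6fdf692c466c46519b47f91744712979f61249186079f562a768b98f460d8b748c66795c26e20759598b6ccf370f8f6100f862919f5ac15f7b7f450d5410c5557385ccfa2546e8f61289ba0ef9f530d76964aa3849f5194d19f1e6af420d3c4c9c266c4843d269bd191320e8f611ff1fb269f552709f138f450d6 = true := by decide +kernel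

theorem cB19_10_3_63 : chunkOkM (LB19_10.ctx true true 103 1 1 1 1 1 1 1 1) muQ true true 64 RtB19_10.Cx.left.right.right RtB19_10.CX RtB19_10.Ctp.right.right.left.right.right.left RtB19_10.Ce.right.right.left.right.right.right RtB19_10.CTp.right RtB19_10.CEr 0x49 = true := by decide +kernel

theorem cB19_10_3_64 : chunkOkM (LB19_10.ctx true true 248 73 32 13 16 222 777 32 16) muQ true true 64 RtB19_10.Cx.left.left RtB19_10.CX RtB19_10.Ctp.right.right.left.right.right.right RtB19_10.Ce.right.right.left.right.right.right RtB19_10.CTp.right RtB19_10.CEr.left 0x41272f8689b2962d38db9f82d542483e9f61330faeee9f540d = true := by decide +kernel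

theorem cB19_10_3_65 : chunkOkM (LB19_10.ctx true true 284 291 128 13 16 886 3101 64 35) muQ true true 64 RtB19_10.Cx.left.left.left RtB19_10.CX RtB19_10.Ctp.right.right.left.right.right.right.left RtB19_10.Ce.right.right.left.right.right.right.left RtB19_10.CTp.right RtB19_10.CEr.right 0xd90358075c5086c168b10ce808219f6ca58bbb58f540d62bd0b66c3580a569b1241182ea9f6d02333f18f540d6217ed2fc5175cfce3140c8f6aafcaa5e8f530d11e626fe85cd8d6a0c28f6d2a938e78f530d316280ff285c2778c147f95c5e9fd28f6c394eab88f540dd7b8d732b95c3c96787fd98b8e69d84e8f6bd45527d8f540d510dfb61f85cb4015f07acaf620d37cbf1a066c5139dd69be25855ca8f6c295f3868f540d64 = true := by decide +kernel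

theorem cB19_10_3_66 : chunkOkM (LB19_10.ctx true true 284 291 128 13 16 1778 6181 32 35) muQ true true 64 RtB19_10.Cx.left.left.left RtB19_10.CX RtB19_10.Ctp.right.right.left.right.right.right.right RtB19_10.Ce.right.right.left.right.right.right.left.left RtB19_10.CTp.right RtB19_10.CEr.right 0x11164337d285c1bf14768b8a29303779f630da0de8066c23c40069be4ac2c86e9f630d636940101d2416d675c744a9b68b74d5b2ab39f689746a418f240dd21f2c175c6d651d9019f69dcc6f1c8f230d4d2421566c4abff869bde30b4658f6a21f35b98f52e915ac38f250d6337 = true := by decide +kernel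

theorem cB19_10_3_67 : chunkOkM (LB19_10.ctx true true 293 583 256 13 16 894 6209 64 35) muQ true true 64 RtB19_10.Cx.left.left.left RtB19_10.CX RtB19_10.Ctp.right.right.left.right.right.right.right RtB19_10.Ce.right.right.left.right.right.right.left.right RtB19_10.CTp.right RtB19_10.CEr.right 0x3d7b2a976c16223e69b1c3caf4070af61a62393b360bf1504956fa9f8bf050d11347cbe85c3d42056f9343414a8b9f6dc598db68f51e110e3c8f250d902df8cd695c2873ff24f98bc5d8b7a78f6c1ebef6b8f540d5162e476a85c9cfb8268bfe8e0504f9f630d1347f8a085cffde3b6f9393f0574d9f6900935998f51c7bd43a8f250d1a6ac2b585c98a5696319f620d574cb96a666c3bab1d69bbb2bc0ef8f6ab34c0be8f523f8a1e48f250d63217 = true := by decide +kernel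

theorem cB19_10_3_68 : chunkOkM (LB19_10.ctx true true 280 293 128 13 16 886 6181 32 35) muQ true true 64 RtB19_10.Cx.left.left.right RtB19_10.CX RtB19_10.Ctp.right.right.left.right.right.right.left RtB19_10.Ce.right.right.left.right.right.right.left.left RtB19_10.CTp.right RtB19_10.CEr.right 0x81b05c69173f4e0e85c1a2d27a199f6b473d4848f530da0327566c318ce069b883beffc8f6e9af50f88f540d684b5dc66c1d216e6b09f6d260c9908f530d473 = true := by decide +kernel

theorem cB19_10_3_69 : chunkOkM (LB19_10.ctx true true 280 293 128 13 16 886 6209 32 35) muQ true true 64 RtB19_10.Cx.left.left.right.left RtB19_10.CX RtB19_10.Ctp.right.right.left.right.right.right.left RtB19_10.Ce.right.right.left.right.right.right.left.right RtB19_10.CTp.right RtB19_10.CEr.right 0xc9b944575c13bbd6bdc9f6cb68d3b88f530d8c880366c32d02a69b755dd9be8f6dcac56268f540d6edea77575c26876d2f29f6b50e5d1b8f530d10ccf2176c4498f769b1864e6a6e9f6cba7ae7f8f540d6411ac78b685c7a07b26d8f6ee0b4c748f530dcc05b366c44704a69b6dd7b5f18f6e06839a08f540d63 = true := by decide +kernel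

theorem cB19_10_3_70 : chunkOkM (LB19_10.ctx true true 284 295 128 13 16 1770 6209 32 35) muQ true true 64 RtB19_10.Cx.left.left.right.right RtB19_10.CX RtB19_10.Ctp.right.right.left.right.right.right.left RtB19_10.Ce.right.right.left.right.right.right.left.right RtB19_10.CTp.right RtB19_10.CEr.right 0x6911c05c3c3a020b8f05b63694e82118c75c194f7f4749f6e096e8298f530d7dfdec66c24ac5669b129650dfd9f6100ecf4b59f540d6128be60f85c15c0ddef59f6f6b7ac978f530dbcfd20078f05b643 = true := by decide +kernel

theorem cB19_10_3_71 : chunkOkM (LB19_10.ctx true true 281 293 128 13 16 890 6209 32 35) muQ true true 64 RtB19_10.Cx.left.left.right RtB19_10.CX RtB19_10.Ctp.right.right.left.right.right.right.right RtB19_10.Ce.right.right.left.right.right.right.left RtB19_10.CTp.right RtB19_10.CEr.right 0x1111ebf3c0b75ce1866868b3142497549f6ad475b7e8f540db8500866c4bb72869b1369a343a9af630d636947114 = true := by decide +kernel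

theorem cB19_10_3_72 : chunkOkM (LB19_10.ctx true true 291 583 256 13 16 894 6223 64 35) muQ true true 64 RtB19_10.Cx.left.left.left RtB19_10.CX RtB19_10.Ctp.right.right.left.right.right.right RtB19_10.Ce.right.right.left.right.right.right.right RtB19_10.CTp.right RtB19_10.CEr.right 0x2121173d460485c739829ff59f6c3487b1b8f230dfe996e275c14efa5d7f9a811c3e609f630d8bb605de595c2772e325a98b11762a409aaf630d53d7183c66c48eb0269b131a498169f6b59ec25b8f52f00c8558f250d621742174593 = true := by decide +kernel

end Vale.Agent.helper4.Q4
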