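import Vale.Agent.helper4.Q4TreeM
import Vale.Agent.helper4.Q4G.PB19_10

/-!
Checks for pairs of intervals of second moments.
-/

set_option maxRecDepth 100000
set_option linter.unusedVariables false

namespace Vale.Agent.helper4.Q4

theorem cB19_10_3_73 : chunkOkM (LB19_10.ctx true true 277 295 128 13 16 886 3129 32 35) muQ true true 64 RtB19_10.Cx.left.left.right RtB19_10.CX RtB19_10.Ctp.right.right.left.right.right.right.left RtB19_10.Ce.right.right.left.right.right.right.right RtB19_10.CTp.right RtB19_10.CEr.right 0x13bf2eb485c6d818df88f6df80a56a8f530d8eaa2966c261ef469b134f8de809f6f614559c8f540d65935971492515a85c1522a94379f6dc3a275c8f530df092bd275cf06fd5688f6daf704d18f530d7dd1a7366c6a54c369b1041e5d959f6f11889f18f540d64 = true := by decide +kernel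

theorem cB19_10_3_74 : chunkOkM (LB19_10.ctx true true 291 587 256 13 16 894 6237 64 35) muQ true true 64 RtB19_10.Cx.left.left.right.left RtB19_10.CX RtB19_10.Ctp.right.right.left.right.right.right.right RtB19_10.Ce.right.right.left.right.right.right.right.left RtB19_10.CTp.right RtB19_10.CEr.right 0x11c05ce5d63a475cdb43c068b18791a2e09f69f4b52fa8f51cf2a4ac8f250d7d1d74766c44728a69b9cebe64579f630d698f58a66c1a905869bf6a30102d9f630d414aaa3176c80ac31508f6d26c91008f530d7377deef395c1f2e06eed98b8a147354f9f630d5ee464e875c5d817c68b12c27471c9f6b13872148f540d4b19ea266c50729569b826386f88f6d376420f8f540d63 = true := by decide +kernel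

theorem cB19_10_3_75 : chunkOkM (LB19_10.ctx true true 280 295 128 13 16 890 6237 32 35) muQ true true 64 RtB19_10.Cx.left.left.right.right RtB19_10.CX RtB19_10.Ctp.right.right.left.right.right.right.right RtB19_10.Ce.right.right.left.right.right.right.right.left RtB19_10.CTp.right RtB19_10.CEr.right 0x11e39d48d75c1fdabf19a9f6c167a8e48f530dd4426766c45450169baccfa6fe8f6c8d712338f540d66943 = true := by decide +kernel

theorem cB19_10_3_76 : chunkOkM (LB19_10.ctx true true 271 147 64 13 16 446 3129 64 32) muQ true true 64 RtB19_10.Cx.left.left.right RtB19_10.CX RtB19_10.Ctp.right.right.left.right.right.right.right RtB19_10.Ce.right.right.left.right.right.right.right.right RtB19_10.CTp.right RtB19_10.CEr.right.left 0x156f74876c2a467f69b690965608f6d7bab3fa8f540d50b34717fdc9431a66c52703d178b15d474f5a9f6c85414b18f550d5 = true := by decide +kernel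

theorem cB19_10_3_77 : chunkOkM (LB19_10.ctx true true 291 587 256 13 16 894 6265 64 35) muQ true true 64 RtB19_10.Cx.left.left.right RtB19_10.CX RtB19_10.Ctp.right.right.left.right.right.right.right RtB19_10.Ce.right.right.left.right.right.right.right.right RtB19_10.CTp.right RtB19_10.CEr.right.right 0xef7363e75c9ae15e68b12bfc9eac9f6b0b910508f540d11e14fb085cc7c4ae888f6c47644628f530d31317d55885c10b6f307f9d4203ee58f6ad33c7b08f5f8474c57f250d6a0ca32eb95c1e4d0197998b14c9959269af630d5217143e12c76cc83d346f9ef832c128f6c18493508f5bef7f5a7f250d7bccaab9895c22b1f8f1698bdd1f4f018f6c14f67048f540d54e30890e75c644e2868bc2a9a2d68f6cb4497e38f540d37 = true := by decide +kernel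

theorem cB19_10_3_78 : chunkOkM (LB19_10.ctx true true 103 1 1 1 1 1 1 1 1) muQ true true 64 RtB19_10.Cx.left.right RtB19_10.CX RtB19_10.Ctp.right.right.left.right.right.right RtB19_10.Ce.right.right.left.right.right.right.left RtB19_10.CTp.right RtB19_10.CEr 0x69 = true := by decide +kernel

theorem cB19_10_3_79 : chunkOkM (LB19_10.ctx true true 252 75 32 13 16 222 1561 32 16) muQ true true 64 RtB19_10.Cx.left.right RtB19_10.CX RtB19_10.Ctp.right.right.left.right.right.right RtB19_10.Ce.right.right.left.right.right.right.right RtB19_10.CTp.right RtB19_10.CEr.left 0x892b0f6089b4efc488129f8182170a86aaf61ee287ab09f540d = true := by decide +kernel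

theorem cB19_10_3_80 : chunkOkM (LB19_10.ctx true true 280 297 128 13 16 886 6237 32 35) muQ true true 64 RtB19_10.Cx.left.right.left RtB19_10.CX RtB19_10.Ctp.right.right.left.right.right.right.left RtB19_10.Ce.right.right.left.right.right.right.right.left RtB19_10.CTp.right RtB19_10.CEr.right 0x69134d055185c19d767f4c9f6f51b4be58f530d8715e4948f05b676946914aa6cc585c66efccb68f6ef24c2478f530d36ffb966c1f54a469b339b81ae19f6f3a381158f540d6145ff99085cd0d156b98f6ff4ba1898f530dd054247d8f05b6473 = true := by decide +kernel

theorem cB19_10_3_81 : chunkOkM (LB19_10.ctx true true 280 297 128 13 16 886 6265 32 35) muQ true true 64 RtB19_10.Cx.left.right.left.left RtB19_10.CX RtB19_10.Ctp.right.right.left.right.right.right.left RtB19_10.Ce.right.right.left.right.right.right.right.right RtB19_10.CTp.right RtB19_10.CEr.right 0x133c6cb085c7e3806998f6e7e496708f530dd0cc6b66c4f8d7669b94229edf8f6f3a57bb28f540d614021dcd85c2433ab7e99f6d98b2bd98f530dc5f86b66c59d9ee69b194557a409f6f33e7f768f540d641578ac2885c17fb5b4049f61009b32639f530da7d80166c37321969b2cf4488bb9f6146483df99f540d63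 = true := by decide +kernel

theorem cB19_10_3_82 : chunkOkM (LB19_10.ctx true true 284 299 128 13 16 886 6265 64 35) muQ true true 64 RtB19_10.Cx.left.right.left.right RtB19_10.CX RtB19_10.Ctp.right.right.left.right.right.right.left RtB19_10.Ce.right.right.left.right.right.right.right.right RtB19_10.CTp.right RtB19_10.CEr.right 0x4d444a6fd13bce8376c50dac3ce8f6f46593b68f540df20d6fc75c47ce5f69b13665ec639f6117bacc5a9f540d569413978fd485c148b48e8d9f61173ca0fc9f5752223a7f440dcc6c3f66c2d021d69b7e5de4468f61087fed359f540d61378c5d585c16f740a429f611f205e269f530de72a5f508f05b643 = true := by decide +kernel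

theorem cB19_10_3_83 : chunkOkM (LB19_10.ctx true true 266 151 64 13 16 442 1561 32 16) muQ true true 64 RtB19_10.Cx.left.right.right RtB19_10.CX RtB19_10.Ctp.right.right.left.right.right.right.left RtB19_10.Ce.right.right.left.right.right.right.right RtB19_10.CTp.right RtB19_10.CEr.right 0xefbf7d66c502e7e34f1bbf61ba0916c610bf430d = true := by decide +kernel

theorem cB19_10_3_84 : chunkOkM (LB19_10.ctx true true 280 297 128 13 16 890 6265 32 35) muQ true true 64 RtB19_10.Cx.left.right RtB19_10.CX RtB19_10.Ctp.right.right.left.right.right.right.right RtB19_10.Ce.right.right.left.right.right.right.right RtB19_10.CTp.right RtB19_10.CEr.right 0x11696914aacffd85cefbfa3ec8f6d74849968f530d5bd62c66c585d3c69b4a2091a229f6113b488d19f540d6769437694 = true := by decide +kernel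

theorem cB19_10_3_85 : chunkOkM (LB19_10.ctx true true 232 39 16 13 16 110 385 32 8) muQ true true 64 RtB19_10.Cx.right RtB19_10.CX RtB19_10.Ctp.right.right.left.right.right RtB19_10.Ce.right.right.left.right.right RtB19_10.CTp.right RtB19_10.CEr 0x23a9769b19f04b = true := by decide +kernel

theorem cB19_10_3_86 : chunkOkM (LB19_10.ctx true true 257 147 64 13 16 226 1561 32 16) muQ true true 64 RtB19_10.Cx RtB19_10.CX RtB19_10.Ctp.right.right.right RtB19_10.Ce.right.right.left RtB19_10.CTp.right RtB19_10.CEr 0x01111101111009ea976c20ecb669b20bfb73a8f611af464fb9f240df9adf07b8f00b611401773114711431143 = true := by decide +kernel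

theorem cB19_10_3_87 : chunkOkM (LB19_10.ctx true true 103 1 1 1 1 1 1 1 1) muQ true true 64 RtB19_10.Cx RtB19_10.CX RtB19_10.Ctp.right.right.left.left RtB19_10.Ce.right.right.right RtB19_10.CTp.right RtB19_10.CEr 0x49 = true := by decide +kernel

theorem cB19_10_3_88 : chunkOkM (LB19_10.ctx true true 226 19 8 13 16 106 399 32 8) muQ true true 64 RtB19_10.Cx RtB19_10.CX RtB19_10.Ctp.right.right.left.right.left RtB19_10.Ce.right.right.right.left.left RtB19_10.CTp.right RtB19_10.CEr 0x2fd315c159f5132eb5344daf420d = true := by decide +kernel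

theorem cB19_10_3_89 : chunkOkM (LB19_10.ctx true true 238 37 16 13 16 110 791 32 16) muQ true true 64 RtB19_10.Cx.left RtB19_10.CX RtB19_10.Ctp.right.right.left.right.right RtB19_10.Ce.right.right.right.left.left.left RtB19_10.CTp.right RtB19_10.CEr.left 0x6fcae89189b4435d253b9f823df5bc6f9f537cfa9ae8f240d = true := by decide +kernel

theorem cB19_10_3_90 : chunkOkM (LB19_10.ctx true true 243 37 16 13 16 218 791 32 16) muQ true true 64 RtB19_10.Cx.left RtB19_10.CX RtB19_10.Ctp.right.right.left.right.right.left RtB19_10.Ce.right.right.right.left.left.left RtB19_10.CTp.right RtB19_10.CEr.right 0x64cbfd6fdcd09d166c6304205a99f66291186236af51b3ade6653ebf450d = true := by decide +kernel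

end Vale.Agent.helper4.Q4
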