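import Vale.Agent.helper4.Q4TreeM
import Vale.Agent.helper4.Q4G.PB19_10

/-!
Checks for pairs of intervals of second moments.
-/

set_option maxRecDepth 100000
set_option linter.unusedVariables false

namespace Vale.Agent.helper4.Q4

theorem cB19_10_3_91 : chunkOkM (LB19_10.ctx true true 284 295 128 13 16 894 6293 64 35) muQ true true 64 RtB19_10.Cx.left.left RtB19_10.CX RtB19_10.Ctp.right.right.left.right.right.right RtB19_10.Ce.right.right.right.left.left.left RtB19_10.CTp.right RtB19_10.CEr.right 0x21efb27066cfb08e59bff6044b58f6d1bca86e8f540d17cb616985c7aad4f908f6ced58e678f530d9e449606895c2bbbd9f1198b7e6c91edb9f630d5b20bae66c1ff4ec87f9b50831548f6d3ff80e88f540d76e55a3bf95c215a919c198b14a98f8259f6c1d596c68f540d54e2242ef75c76d9a58bac8c307c8f6db96175d8f540d32174f2ee11788f05b135cbdf7fd6e613466c61985d69bf71e11b08f6d887e18c8f550d565932174 = true := by decide +kernel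

theorem cB19_10_3_92 : chunkOkM (LB19_10.ctx true true 280 299 128 13 16 886 6307 32 35) muQ true true 64 RtB19_10.Cx.left.right.left RtB19_10.CX RtB19_10.Ctp.right.right.left.right.right.right.left RtB19_10.Ce.right.right.right.left.left.left.left RtB19_10.CTp.right RtB19_10.CEr.right 0x5915c1641985c1c6472f7e9f6fdee09b68f530d104dc059d9f05b6459359716d2911885c4208ea8e8f6f15ffc308f530d12ccb3de85c1cea521f69f612afad3809f530d146df4c485c1332ff1e59f611c831bfb9f530d43108d8d9685c164e705a09f6100b93a469f530d7b7716966c150b8669b10e77c3719f6107e49e5f9f540d64 = true := by decide +kernel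

theorem cB19_10_3_93 : chunkOkM (LB19_10.ctx true true 280 299 128 13 16 894 6293 32 35) muQ true true 64 RtB19_10.Cx.left.right.left RtB19_10.CX RtB19_10.Ctp.right.right.left.right.right.right.right RtB19_10.Ce.right.right.right.left.left.left.left.left RtB19_10.CTp.right RtB19_10.CEr.right 0x69147689c985c12124085d9f6ebdd6b278f530d65297966c58e89569b46a0b50ae9f61237297bf9f540d66943e3d949e75c2c206768bc7139ab88f6c22d22618f540da791b466c25edba69b1adcc66999f6bed723e28f540d6eefca1f75c13ae514a19f6c8c2917c8f530dcc8c8566c4c12ec69b119e541569f6db8661f28f540d6410f2eaba85c9dd25f458f6d5626d808f530d9c722766c217d3969bdcd893798f6e5180d478f540d637 = true := by decide +kernel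

theorem cB19_10_3_94 : chunkOkM (LB19_10.ctx true true 277 299 128 13 16 894 3157 32 35) muQ true true 64 RtB19_10.Cx.left.right.left RtB19_10.CX RtB19_10.Ctp.right.right.left.right.right.right.right RtB19_10.Ce.right.right.right.left.left.left.left.right RtB19_10.CTp.right RtB19_10.CEr.right 0x13acbcd585cea76b5d68f6def25a4d8f530df3c73f775c9b8aab7e8f6d175d8598f530d150383cb85c6a3a9b0e8f6e3b7e0de8f530d37f7dc0f66c37551669bb7dfb0cf8f6e02c4c198f540d6 = true := by decide +kernel

theorem cB19_10_3_95 : chunkOkM (LB19_10.ctx true true 284 301 128 13 16 886 6293 64 35) muQ true true 64 RtB19_10.Cx.left.right.right RtB19_10.CX RtB19_10.Ctp.right.right.left.right.right.right.left RtB19_10.Ce.right.right.right.left.left.left.left.left RtB19_10.CTp.right RtB19_10.CEr.right 0x692f1fdf6fd110d0db76c9388626f96f153938a9f616bccda149f550d10cf684b85c49c8a369b17c20bf709f61267b40929f540d5769449ded28366c39d79e87f9868c6e8a8f6123fb8c719f555d2d4ac8f450d9d9edae9f95c2c24dd9e298b35a1717a8f6f6b5db698f540d5b9e2a066c2c503a69b1699007a69f611a823c9d9f5465bf0ef8f450d61667e7876c37a36a87f91d639fa969f612fa990479f52081b7858f450dd2d09a69495c3b1daba0c98bfc6889748f61470a25c29f541b1c5418f450d5ac4d0666c35f4c569b1479c66fe9f61211b4a5a9f515cd060b8f450d6473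 = true := by decide +kernel

theorem cB19_10_3_96 : chunkOkM (LB19_10.ctx true true 281 301 128 13 16 882 3157 64 35) muQ true true 64 RtB19_10.Cx.left.right.right RtB19_10.CX RtB19_10.Ctp.right.right.left.right.right.right.left.left RtB19_10.Ce.right.right.right.left.left.left.left.right RtB19_10.CTp.right RtB19_10.CEr.right 0x4913920e576c2d2d86b7f96351dc998f61237546bf9f57982d6128f450df63ae96b495c45362802498bf665693f8f530d5ca230a66c436a7069ba7614fd18f611e2ca06c9f55ab4ff778f450d67 = true := by decide +kernel

theorem cB19_10_3_97 : chunkOkM (LB19_10.ctx true true 284 303 128 13 16 886 6321 64 35) muQ true true 64 RtB19_10.Cx.left.right.right RtB19_10.CX RtB19_10.Ctp.right.right.left.right.right.right.left.right RtB19_10.Ce.right.right.right.left.left.left.left.right RtB19_10.CTp.right RtB19_10.CEr.right 0x23c7a5fd12afb3376cac55b36f91f05d71799f612b7199ab9f55b4cfc918f460d10cce89485c4a579569b146b60e869f611fbdf2e99f543a6f37e8f450d569425a099b76c17aabeb019f612715635b9f530d8e0619d5795c27c44e25d98b862223de8f610428dfd79f540d518c81ac76c2f7b29d7f9f0e2e62e8f6110175f769f540dad0bd5ba85c27256a5b88be635820f8f530d54b05e0666c14f55269b5f08a9a38f61044b7c659f540d67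 = true := by decide +kernel

theorem cB19_10_3_98 : chunkOkM (LB19_10.ctx true true 284 301 128 13 16 890 6321 64 35) muQ true true 64 RtB19_10.Cx.left.right.right RtB19_10.CX RtB19_10.Ctp.right.right.left.right.right.right.right RtB19_10.Ce.right.right.right.left.left.left.left RtB19_10.CTp.right RtB19_10.CEr.right 0x6969189001c485ca91e830e8f6fa2b11c28f530df60e3166c5cf16c69b1670cc6909f6108969ced9f540d611c05c51b05c5473694 = true := by decide +kernel

theorem cB19_10_3_99 : chunkOkM (LB19_10.ctx true true 103 1 1 1 1 1 1 1 1) muQ true true 64 RtB19_10.Cx.left.right.left RtB19_10.CX RtB19_10.Ctp.right.right.left.right.right.right.left RtB19_10.Ce.right.right.right.left.left.left.right RtB19_10.CTp.right RtB19_10.CEr.right 0x59 = true := by decide +kernel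

theorem cB19_10_3_100 : chunkOkM (LB19_10.ctx true true 268 151 64 13 16 442 1589 64 32) muQ true true 64 RtB19_10.Cx.left.right.right RtB19_10.CX RtB19_10.Ctp.right.right.left.right.right.right.left RtB19_10.Ce.right.right.right.left.left.left.right RtB19_10.CTp.right RtB19_10.CEr.right.left 0xfbd5baa7fd10545d576c7740a1408f61234544909f5686d1e928f450d9bfeb666c4a7e2169b93df2c9f8f612a42c5749f56c9b77ea8f450d5 = true := by decide +kernel

end Vale.Agent.helper4.Q4
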