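import Vale.Agent.helper4.Q4TreeM
import Vale.Agent.helper4.Q4G.PB19_10

/-!
Checks for pairs of intervals of second moments.
-/

set_option maxRecDepth 100000
set_option linter.unusedVariables false

namespace Vale.Agent.helper4.Q4

theorem cB19_10_3_101 : chunkOkM (LB19_10.ctx true true 290 603 256 13 16 886 6349 64 35) muQ true true 64 RtB19_10.Cx.left.right.right RtB19_10.CX RtB19_10.Ctp.right.right.left.right.right.right.left RtB19_10.Ce.right.right.right.left.left.left.right.left RtB19_10.CTp.right RtB19_10.CEr.right.right 0x1bd48e676c357ee1d7f91264d011e9f611871b3d19f552db72438f450da058bf8e595c2cfbfb8d098bddf345098f6116f3510a9f51760eb9f8f450d51173ebd76c3e547297f9310e9e6ed9f6130a8a36d9f54b45fc028f450dbad794f7f95c348478b0498bb973653b8f61038675059f533c312b38f450d54591b50eebf85c23cc1597f94d5697f559f618f41f2dc9f540d9746bd6b895c2a60318bc98b1df4db0529f612a26474d9f540d55974720831dc76ca08dc7b7f976b232d8c9f51ce9d6595faf440d3 = true := by decide +kernel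

theorem cB19_10_3_102 : chunkOkM (LB19_10.ctx true true 308 1213 512 13 16 3550 12719 64 35) muQ true true 64 RtB19_10.Cx.left.right.right RtB19_10.CX RtB19_10.Ctp.right.right.left.right.right.right.left RtB19_10.Ce.right.right.right.left.left.left.right.right RtB19_10.CTp.right RtB19_10.CEr.right.right 0x5949591b4cc42d85c2b409bf7f9d6e7259ab9f62540550599f56299e1d38f450d384a4fcab95cf9b2c7b088b1e21fbf779f612cff60819f558734dc38f450d5474934935974493597 = true := by decide +kernel

theorem cB19_10_3_103 : chunkOkM (LB19_10.ctx true true 277 299 128 13 16 894 3185 32 35) muQ true true 64 RtB19_10.Cx.left.right.left RtB19_10.CX RtB19_10.Ctp.right.right.left.right.right.right.right RtB19_10.Ce.right.right.right.left.left.left.right RtB19_10.CTp.right RtB19_10.CEr.right 0xefe9a266cdce6259bc80ea2858f6fddd55bb8f540d1258416e85c963c1f2d8f6de2ed0d68f530de5e299775c22d8da1799f61128d144b9f530d3efd928c75ceef2a59b14347b2589f6d9ff21198f540d74f8172c66c626ef969b101a331f29f6f82f49a78f540d6 = true := by decide +kernel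

theorem cB19_10_3_104 : chunkOkM (LB19_10.ctx true true 280 301 128 13 16 894 6349 32 35) muQ true true 64 RtB19_10.Cx.left.right.right.left RtB19_10.CX RtB19_10.Ctp.right.right.left.right.right.right.right RtB19_10.Ce.right.right.right.left.left.left.right.left RtB19_10.CTp.right RtB19_10.CEr.right 0xfda33fd75c104107e689f6ec67c2768f530da8114366c301b1769b29a32cce79f6113be4e2a9f540d61572040f85c39cee80b8f6e40f2e008f530d111d48476c50785069b49a2083bb9f6f02a53188f540d6414b7704085c865df6fd8f6fc1ea67e8f530dbf20a066c31dec169bbe1862d78f610c9b10509f540d63 = true := by decide +kernel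

theorem cB19_10_3_105 : chunkOkM (LB19_10.ctx true true 284 303 128 13 16 890 6349 64 35) muQ true true 64 RtB19_10.Cx.left.right.right.right RtB19_10.CX RtB19_10.Ctp.right.right.left.right.right.right.right RtB19_10.Ce.right.right.right.left.left.left.right.left RtB19_10.CTp.right RtB19_10.CEr.right 0x6918596c476c30d0e8b7f9118d8b8cf9f61162f07a19f540dc50198a8d95c378bd53f498bb3c916b7f6f29990048f540d5b9bddc66c3dd64769b12e5806c49f61123fc2a69f540d68095c5fd10f888076c1584a937f93525ca028f6f6677dbe8f550d10e7feb885c31925b69ba3099bc28f530d543 = true := by decide +kernel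

theorem cB19_10_3_106 : chunkOkM (LB19_10.ctx true true 271 151 64 13 16 446 3185 64 32) muQ true true 64 RtB19_10.Cx.left.right.right RtB19_10.CX RtB19_10.Ctp.right.right.left.right.right.right.right RtB19_10.Ce.right.right.right.left.left.left.right.right RtB19_10.CTp.right RtB19_10.CEr.right.left 0x105e487789f05b131609876c5f728169b8ea341ed8f610964560e9f540d5 = true := by decide +kernel

theorem cB19_10_3_107 : chunkOkM (LB19_10.ctx true true 284 303 128 13 16 894 6377 64 35) muQ true true 64 RtB19_10.Cx.left.right.right RtB19_10.CX RtB19_10.Ctp.right.right.left.right.right.right.right RtB19_10.Ce.right.right.right.left.left.left.right.right RtB19_10.CTp.right RtB19_10.CEr.right.right 0x1126d3dc85c8f5801068f6fa5551498f530d13ebf5476c376607d7f91731fa8279f613238b6019f540dba54db9d395c3446c59e198b1d6ff5d6a9f6126e95a639f540d520e97c976c10398d57f9e8104c728f6113285bbf9f540d94dadf12a95c29d60492998b381f7d778f6fcae0f668f540d543128b9ddb85c105c2ed399f6ee7cf55d8f530df4bad7a75c2269656599f611e9634c69f530d37 = true := by decide +kernel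

theorem cB19_10_3_108 : chunkOkM (LB19_10.ctx true true 308 1215 512 13 16 3566 12775 64 35) muQ true true 64 RtB19_10.Cx.left RtB19_10.CX RtB19_10.Ctp.right.right.left.right.right RtB19_10.Ce.right.right.right.left.left.right RtB19_10.CTp.right RtB19_10.CEr 0x59591175066a85c175560dec9f61103104c39f530d18cfeb976c194c1c37f93d672f8289f61528c9f749f540d4f8ed06f85c110d4f1188b1f9a639529f6158ab994e9f540d5459591d24532885c3cf212e7f9fef650a4e9f621c1745009f540d2681441b85c525be9478b11b2abe549f530d5593597459359743eff9f866c502d0869b1b2d804449f61245a10e19f540d657786fbb89b325c741269f88016072169f625a3b6a8d9f540d659745975934217593 = true := by decide +kernel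

theorem cB19_10_3_109 : chunkOkM (LB19_10.ctx true true 103 1 1 1 1 1 1 1 1) muQ true true 64 RtB19_10.Cx.right RtB19_10.CX RtB19_10.Ctp.right.right.left.right.right.left RtB19_10.Ce.right.right.right.left.left RtB19_10.CTp.right RtB19_10.CEr 0x49 = true := by decide +kernel

theorem cB19_10_3_110 : chunkOkM (LB19_10.ctx true true 103 1 1 1 1 1 1 1 1) muQ true true 64 RtB19_10.Cx.right RtB19_10.CX RtB19_10.Ctp.right.right.left.right.right.right.left RtB19_10.Ce.right.right.right.left.left RtB19_10.CTp.right RtB19_10.CEr 0x49 = true := by decide +kernel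

theorem cB19_10_3_111 : chunkOkM (LB19_10.ctx true true 288 305 128 13 16 890 6377 64 35) muQ true true 64 RtB19_10.Cx.right RtB19_10.CX RtB19_10.Ctp.right.right.left.right.right.right.right RtB19_10.Ce.right.right.right.left.left.left RtB19_10.CTp.right RtB19_10.CEr 0x11496949122b3b276c53c44937f91f7676c6b9f61144e07f19f564d9e45e8f450ddc2ad690f95c3dbc1d1e698b116f8ac7e9f611725bfea9f51f1ce35d8f450d5d7865066c37f50069b2527ae93d9f612e683f669f535c24bef8f450d646209307fd157c46a695fbf6af4c017f4faf430d4737694ae25b6b989b99a15721f9f810fe5d7f79f530d67694 = true := by decide +kernel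

theorem cB19_10_3_112 : chunkOkM (LB19_10.ctx true true 258 153 64 13 16 446 805 32 16) muQ true true 64 RtB19_10.Cx.right.left.left RtB19_10.CX RtB19_10.Ctp.right.right.left.right.right.right.right RtB19_10.Ce.right.right.right.left.left.right RtB19_10.CTp.right RtB19_10.CEr.left 0x691e90a689b3ce5f22509f83652236b29f627732d1099f540d = true := by decide +kernel

theorem cB19_10_3_113 : chunkOkM (LB19_10.ctx true true 284 305 128 13 16 890 6405 64 35) muQ true true 64 RtB19_10.Cx.right.left.left RtB19_10.CX RtB19_10.Ctp.right.right.left.right.right.right.right.left RtB19_10.Ce.right.right.right.left.left.right.left.left RtB19_10.CTp.right RtB19_10.CEr.right 0x491b1fd1d76c236bae47f929f4a63a39f6159448df39f56bd862718f450dcf725d26d95c3a3ea33f498beb6d2c588f6124b925af9f54bb7a5fe8f450d518e5a0876c39fce827f91d6eb7e8e9f61292e9b729f5467f04ea8f450da4cf5888395c2e2da03d098bf9d3003e8f530d54116c5d0e99f05bf52ca066c587755578bcf4dbcac8f612f68423c9f539a8df098f450d567 = true := by decide +kernel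

end Vale.Agent.helper4.Q4
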