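import Vale.Agent.helper4.Q4TreeM
import Vale.Agent.helper4.Q4G.PB19_10

/-!
Checks for pairs of intervals of second moments.
-/

set_option maxRecDepth 100000
set_option linter.unusedVariables false

namespace Vale.Agent.helper4.Q4

theorem cB19_10_3_114 : chunkOkM (LB19_10.ctx true true 284 305 128 13 16 894 6405 64 35) muQ true true 64 RtB19_10.Cx.right.left.left RtB19_10.CX RtB19_10.Ctp.right.right.left.right.right.right.right.right RtB19_10.Ce.right.right.right.left.left.right.left.left RtB19_10.CTp.right RtB19_10.CEr.right 0x69186f44576c3df63677f9c27257948f611007626c9f540db28d73c1d95c3220becd998b9643af248f61059c911f9f540d5d61c4866c42ec6069b24457d7d59f6133c644199f540d64e6de377fd1c885a476c2cf0adb7f912a2b7a939f61141ebb0f9f550de4b84019c95c4039dd3b898b133bdd77f6110366e119f540d5d87acb66c56fa2369b140b31b229f611fd71ab89f540d647 = true := by decide +kernel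

theorem cB19_10_3_115 : chunkOkM (LB19_10.ctx true true 271 153 64 13 16 446 3213 64 32) muQ true true 64 RtB19_10.Cx.right.left.left RtB19_10.CX RtB19_10.Ctp.right.right.left.right.right.right.right RtB19_10.Ce.right.right.right.left.left.right.left.right RtB19_10.CTp.right RtB19_10.CEr.right.left 0x2136ab27fdeeb82466c761968928f611b0a48549f53ec851998f450db90ca266c7d407369bc4224ffe8f613c2ed0489f53dd166438f450d5 = true := by decide +kernel

theorem cB19_10_3_116 : chunkOkM (LB19_10.ctx true true 285 307 128 13 16 894 6433 64 35) muQ true true 64 RtB19_10.Cx.right.left.left RtB19_10.CX RtB19_10.Ctp.right.right.left.right.right.right.right RtB19_10.Ce.right.right.right.left.left.right.left.right RtB19_10.CTp.right RtB19_10.CEr.right.right 0x12ffd6176c34413e67f9f3b596ea8f6125c1c6f99f587dc74eb8f450dc46734ab495c3737ef80298b361679b18f6fde1eaf78f546a0145e8f450d51647ba876c4da7d067f96d8312d18f6111f335929f567d4828e8f450df78d76eed95c458992b8c98b11376145c9f52f6cd3c88f440d5414cfa0276c3d135ee7f910c7f03a79f6126859a4c9f540dcf66da40f95c37f02869598bf568894bd9f630d571c967f2785ce4122ae869f53e5269eadaaf430d3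 = true := by decide +kernel

theorem cB19_10_3_117 : chunkOkM (LB19_10.ctx true true 281 307 128 13 16 894 3227 64 35) muQ true true 64 RtB19_10.Cx.right.left.left RtB19_10.CX RtB19_10.Ctp.right.right.left.right.right.right.right RtB19_10.Ce.right.right.right.left.left.right.right RtB19_10.CTp.right RtB19_10.CEr.right 0x591b3eff776c138f4ae7f925af6cd259f6173412e0c9f53d961b148f450dfd771168a95c471a6fa8a98b10359d34d9f530d5122906b579f05b1c7fbfa7fd1418fc076c67d411078b43e745278f6126601fc69f52a9434748f460d564935974 = true := by decide +kernel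

theorem cB19_10_3_118 : chunkOkM (LB19_10.ctx true true 103 1 1 1 1 1 1 1 1) muQ true true 64 RtB19_10.Cx.right.left.right RtB19_10.CX RtB19_10.Ctp.right.right.left.right.right.right.right RtB19_10.Ce.right.right.right.left.left.right RtB19_10.CTp.right RtB19_10.CEr 0x49 = true := by decide +kernel

theorem cB19_10_3_119 : chunkOkM (LB19_10.ctx true true 103 1 1 1 1 1 1 1 1) muQ true true 64 RtB19_10.Cx.right.right RtB19_10.CX RtB19_10.Ctp.right.right.left.right.right.right.right RtB19_10.Ce.right.right.right.left.left.right RtB19_10.CTp.right RtB19_10.CEr 0x49 = true := by decide +kernel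

theorem cB19_10_3_120 : chunkOkM (LB19_10.ctx true true 223 19 8 13 16 54 413 32 8) muQ true true 64 RtB19_10.Cx RtB19_10.CX RtB19_10.Ctp.right.right.left.right RtB19_10.Ce.right.right.right.left.right RtB19_10.CTp.right RtB19_10.CEr 0x39f4bb17ab4a7cde138f842baef5c59af512ea614bb15bf440d = true := by decide +kernel

theorem cB19_10_3_121 : chunkOkM (LB19_10.ctx true true 103 1 1 1 1 1 1 1 1) muQ true true 64 RtB19_10.Cx RtB19_10.CX RtB19_10.Ctp.right.right.left.right RtB19_10.Ce.right.right.right.right RtB19_10.CTp.right RtB19_10.CEr 0x59 = true := by decide +kernel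

theorem cB19_10_3_122 : chunkOkM (LB19_10.ctx true true 103 1 1 1 1 1 1 1 1) muQ true true 64 RtB19_10.Cx.left.left.left RtB19_10.CX RtB19_10.Ctp.right.right.right.left.left.left RtB19_10.Ce.right.right.right.left.left.left.left RtB19_10.CTp.right RtB19_10.CEr 0x01 = true := by decide +kernel

theorem cB19_10_3_123 : chunkOkM (LB19_10.ctx true true 265 147 64 13 16 898 1575 32 16) muQ true true 64 RtB19_10.Cx.left.left.right RtB19_10.CX RtB19_10.Ctp.right.right.right.left.left.left.left.left RtB19_10.Ce.right.right.right.left.left.left.left RtB19_10.CTp.right RtB19_10.CEr.left 0x736c99cc89b4ef0f547d9f85337ee5fe9f530d = true := by decide +kernel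

theorem cB19_10_3_124 : chunkOkM (LB19_10.ctx true true 286 591 256 13 16 898 6293 32 35) muQ true true 64 RtB19_10.Cx.left.left.right RtB19_10.CX RtB19_10.Ctp.right.right.right.left.left.left.left.left RtB19_10.Ce.right.right.right.left.left.left.left.left RtB19_10.CTp.right RtB19_10.CEr.right 0xf3fdf1675c126bc2478b1909590239f6aaf0a0978f51721026f8f250deec992575c12bb16a78b5c5892d9c9f6637246808f53c87a8108f250d7ea904566c41671d69b19c56a24d9f6a80c440b8f5413e4f2c8f250d611c5f91185c1dedb0278b428798a98f6135278dc59f240de6f4bc66c3f10f869b56d460878f61151ef7059f240d64017 = true := by decide +kernel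

theorem cB19_10_3_125 : chunkOkM (LB19_10.ctx true true 290 591 256 13 16 898 6321 64 35) muQ true true 64 RtB19_10.Cx.left.left.right RtB19_10.CX RtB19_10.Ctp.right.right.right.left.left.left.left.left RtB19_10.Ce.right.right.right.left.left.left.left.right RtB19_10.CTp.right RtB19_10.CEr.right 0xfbc4ef375c14600fd78b2caade10e9f6a12f72a38f51a9c31e48f250d1252b52a85c19d113c7f96d6efef659f630d65117dcf695c1c55ce9c898b1152832d69f6b669e1118f523c755718f250d5410f42fd76c59b46169bcd355ca58f6b7f01b1c8f5279133048f250d6217017 = true := by decide +kernel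

theorem cB19_10_3_126 : chunkOkM (LB19_10.ctx true true 103 1 1 1 1 1 1 1 1) muQ true true 64 RtB19_10.Cx.left.left.right RtB19_10.CX RtB19_10.Ctp.right.right.right.left.left.left.left.right RtB19_10.Ce.right.right.right.left.left.left.left RtB19_10.CTp.right RtB19_10.CEr 0x01 = true := by decide +kernel

theorem cB19_10_3_127 : chunkOkM (LB19_10.ctx true true 103 1 1 1 1 1 1 1 1) muQ true true 64 RtB19_10.Cx.left.left.right RtB19_10.CX RtB19_10.Ctp.right.right.right.left.left.left.right RtB19_10.Ce.right.right.right.left.left.left.left RtB19_10.CTp.right RtB19_10.CEr 0x01 = true := by decide +kernel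

theorem cB19_10_3_128 : chunkOkM (LB19_10.ctx true true 103 1 1 1 1 1 1 1 1) muQ true true 64 RtB19_10.Cx.left.left RtB19_10.CX RtB19_10.Ctp.right.right.right.left.left.left RtB19_10.Ce.right.right.right.left.left.left.right RtB19_10.CTp.right RtB19_10.CEr 0x21 = true := by decide +kernel

theorem cB19_10_3_129 : chunkOkM (LB19_10.ctx true true 251 75 32 13 16 226 1575 32 16) muQ true true 64 RtB19_10.Cx.left.right RtB19_10.CX RtB19_10.Ctp.right.right.right.left.left.left RtB19_10.Ce.right.right.right.left.left.left.left RtB19_10.CTp.right RtB19_10.CEr.left 0x9fc2790089b8c5e24cf99f8b8697b308f530d = true := by decide +kernel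

theorem cB19_10_3_130 : chunkOkM (LB19_10.ctx true true 264 149 64 13 16 450 3143 32 16) muQ true true 64 RtB19_10.Cx.left.right.left RtB19_10.CX RtB19_10.Ctp.right.right.right.left.left.left.left RtB19_10.Ce.right.right.right.left.left.left.left.left RtB19_10.CTp.right RtB19_10.CEr.right 0x71b05c = true := by decide +kernel

theorem cB19_10_3_131 : chunkOkM (LB19_10.ctx true true 293 595 256 13 16 902 6321 64 35) muQ true true 64 RtB19_10.Cx.left.right.left RtB19_10.CX RtB19_10.Ctp.right.right.right.left.left.left.left RtB19_10.Ce.right.right.right.left.left.left.left.right RtB19_10.CTp.right RtB19_10.CEr.right 0xa1b05c114fdd676ce392056fc9f620579f567eabf163ee577c3c1bf040de5418f375c7435c268b1d61406139f6ae21b2e48f540dd42d1366cd4f0a86f9272fd690a9f6a09345f38f540d4ff1056c795c1583d6dc598bdba2e22ee9f630d57a439f166c3609fd69b18121c2139f6c8f72a848f540d6f11e2e775cef810c68b1b7a892f89f6af6052868f540dd69f6e66c42554f69b2067faeef9f6bcdc4cd48f540d6437 = true := by decide +kernel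

theorem cB19_10_3_132 : chunkOkM (LB19_10.ctx true true 103 1 1 1 1 1 1 1 1) muQ true true 64 RtB19_10.Cx.left.right.right RtB19_10.CX RtB19_10.Ctp.right.right.right.left.left.left.left RtB19_10.Ce.right.right.right.left.left.left.left RtB19_10.CTp.right RtB19_10.CEr.right 0x11 = true := by decide +kernel

theorem cB19_10_3_133 : chunkOkM (LB19_10.ctx true true 103 1 1 1 1 1 1 1 1) muQ true true 64 RtB19_10.Cx.left.right RtB19_10.CX RtB19_10.Ctp.right.right.right.left.left.left.right RtB19_10.Ce.right.right.right.left.left.left.left RtB19_10.CTp.right RtB19_10.CEr.right 0x11 = true := by decide +kernel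

theorem cB19_10_3_134 : chunkOkM (LB19_10.ctx true true 251 75 32 13 16 226 1589 32 16) muQ true true 64 RtB19_10.Cx.left.right RtB19_10.CX RtB19_10.Ctp.right.right.right.left.left.left RtB19_10.Ce.right.right.right.left.left.left.right RtB19_10.CTp.right RtB19_10.CEr.left 0x8fbefada89b5417c37a19f837047bc549f6411bd60e19f56aa855e78f050d = true := by decide +kernel

theorem cB19_10_3_135 : chunkOkM (LB19_10.ctx true true 290 595 256 13 16 902 6349 64 35) muQ true true 64 RtB19_10.Cx.left.right.left.left RtB19_10.CX RtB19_10.Ctp.right.right.right.left.left.left.left RtB19_10.Ce.right.right.right.left.left.left.right.left RtB19_10.CTp.right RtB19_10.CEr.right 0x10d9134185c1897d5678b1356822859f6b6e8d6428f5218911418f250d217101af5c685c192d63578b8b5e7b5c8f61305aa0569f240d4b2f88a66c2c911457f9910eddfc8f6d067908c8f540dcffae814295c3a8928a8198b12f7623529f6c8abb7d48f540d53ed07c966c4d223d69b15f3d364b9f6bdaf43e88f522c7fe348f250d6 = true := by decide +kernel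

theorem cB19_10_3_136 : chunkOkM (LB19_10.ctx true true 281 299 128 13 16 902 6349 32 35) muQ true true 64 RtB19_10.Cx.left.right.left.right RtB19_10.CX RtB19_10.Ctp.right.right.right.left.left.left.left RtB19_10.Ce.right.right.right.left.left.left.right.left RtB19_10.CTp.right RtB19_10.CEr.right 0xfcfc5a275c17a427178b431f916b19f694644b5b8f540dc014fc66c5078f569be9c655c599f630d61141026098d85cba02e968b209b2b18e9f6c15761988f540d7b904b66c577d8b69b21b5cb0899f6ce7a4cb28f540d6fa3659a75cc00ded68b1625839579f6c33d149c8f540dcbe11e66c39e3de69b57b09441d9f6a1b4c3af8f540d643 = true := by decide +kernel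

theorem cB19_10_3_137 : chunkOkM (LB19_10.ctx true true 271 149 64 13 16 450 3185 64 32) muQ true true 64 RtB19_10.Cx.left.right.left RtB19_10.CX RtB19_10.Ctp.right.right.right.left.left.left.left RtB19_10.Ce.right.right.right.left.left.left.right.right RtB19_10.CTp.right RtB19_10.CEr.right.left 0xea2de39c8f05b1322f6a76c88a79a378ba0bf71d58f6e44c6fe78f535feedc7f250d5 = true := by decide +kernel

end Vale.Agent.helper4.Q4
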