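import Vale.Agent.helper4.Q4TreeM
import Vale.Agent.helper4.Q4G.PB19_10

/-!
Checks for pairs of intervals of second moments.
-/

set_option maxRecDepth 100000
set_option linter.unusedVariables false

namespace Vale.Agent.helper4.Q4

theorem cB19_10_3_138 : chunkOkM (LB19_10.ctx true true 291 599 256 13 16 902 6377 64 35) muQ true true 64 RtB19_10.Cx.left.right.left RtB19_10.CX RtB19_10.Ctp.right.right.right.left.left.left.left RtB19_10.Ce.right.right.right.left.left.left.right.right RtB19_10.CTp.right RtB19_10.CEr.right.right 0x1d63e1f76c4c0953b38f6d2e395568f51cbaf34a8f240d81a3bf84a95c246e5460298bbda8063c8f6d3651d8a8f540d5104d8e1085c14802f278b14444d35c9f6c08109808f540d116ef2a76cfb511d6f937ed909ac9f68e494ca78f540d2ad8c18285c14cf9271bfaf620d574101f751785c9eea2668bc1ad014a8f6d964ab628f540d3103ba80b85c15b33ce78b1fbac47de9f6a89e832b8f53ecdc3ce8f250d5937 = true := by decide +kernel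

theorem cB19_10_3_139 : chunkOkM (LB19_10.ctx true true 262 149 64 13 16 454 1589 32 16) muQ true true 64 RtB19_10.Cx.left.right.left RtB19_10.CX RtB19_10.Ctp.right.right.right.left.left.left.right RtB19_10.Ce.right.right.right.left.left.left.right RtB19_10.CTp.right RtB19_10.CEr.right 0xc998fb66c2ea13869b7ab1c9b7f69c16c269bdaf11e7c8fa2e3abf050d = true := by decide +kernel

theorem cB19_10_3_140 : chunkOkM (LB19_10.ctx true true 281 301 128 13 16 898 6349 64 16) muQ true true 64 RtB19_10.Cx.left.right.right RtB19_10.CX RtB19_10.Ctp.right.right.right.left.left.left.left RtB19_10.Ce.right.right.right.left.left.left.right.left RtB19_10.CTp.right RtB19_10.CEr.right 0x111181b05c51b05c576943 = true := by decide +kernel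

theorem cB19_10_3_141 : chunkOkM (LB19_10.ctx true true 284 303 128 13 16 902 6377 64 35) muQ true true 64 RtB19_10.Cx.left.right.right RtB19_10.CX RtB19_10.Ctp.right.right.right.left.left.left.left RtB19_10.Ce.right.right.right.left.left.left.right.right RtB19_10.CTp.right RtB19_10.CEr.right 0x1111c05c11a32a676c3d554d69b1dc808e68f6c10b4fd98f540d53107601fc85c157f8b69b1e469da8a9f6cd28f0388f540d12286cd76c712c8f69b1083094bc9f6def8c3c78f540d669410b8ed3085ca3f932548f6d81d1e068f530d91484d66c52322e69b1be0532249f6e410c29e8f540d61b938dbe85c783fd768b1038bfbda9f6d9475af08f540ddf118d66c7a0bde69b137848cb79f6fbef43c68f540d6437 = true := by decide +kernel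

theorem cB19_10_3_142 : chunkOkM (LB19_10.ctx true true 103 1 1 1 1 1 1 1 1) muQ true true 64 RtB19_10.Cx.left.right.right RtB19_10.CX RtB19_10.Ctp.right.right.right.left.left.left.right RtB19_10.Ce.right.right.right.left.left.left.right RtB19_10.CTp.right RtB19_10.CEr.right 0x11 = true := by decide +kernel

theorem cB19_10_3_143 : chunkOkM (LB19_10.ctx true true 103 1 1 1 1 1 1 1 1) muQ true true 64 RtB19_10.Cx.left.left RtB19_10.CX RtB19_10.Ctp.right.right.right.left.left.left RtB19_10.Ce.right.right.right.left.left.right RtB19_10.CTp.right RtB19_10.CEr 0x21 = true := by decide +kernel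

theorem cB19_10_3_144 : chunkOkM (LB19_10.ctx true true 248 75 32 13 16 226 805 32 16) muQ true true 64 RtB19_10.Cx.left.right RtB19_10.CX RtB19_10.Ctp.right.right.right.left.left.left RtB19_10.Ce.right.right.right.left.left.right RtB19_10.CTp.right RtB19_10.CEr.left 0x6306d0d489b3aededfa69f83649f999f9f630d = true := by decide +kernel

theorem cB19_10_3_145 : chunkOkM (LB19_10.ctx true true 295 599 256 13 16 1810 6391 64 35) muQ true true 64 RtB19_10.Cx.left.right.left RtB19_10.CX RtB19_10.Ctp.right.right.right.left.left.left RtB19_10.Ce.right.right.right.left.left.right.left RtB19_10.CTp.right RtB19_10.CEr.right 0x21010111482e3b85c174815878ba44694e88f6bcad917c8f5202d71448f250d108e71c76c5ebd7b69bde3f83a58f6bdc460378f51fcad6e88f250d633691abab5d585c6d583039b9f6a1bc39d18f530d810a8161195c244e5d18a98b9890eae38f6be72a1b88f540d5a5141866c5426e069b1a08bab769f6c01fac188f540d6459332172174 = true := by decide +kernel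

theorem cB19_10_3_146 : chunkOkM (LB19_10.ctx true true 280 303 128 13 16 902 6405 32 35) muQ true true 64 RtB19_10.Cx.left.right.right RtB19_10.CX RtB19_10.Ctp.right.right.right.left.left.left.left RtB19_10.Ce.right.right.right.left.left.right.left.left RtB19_10.CTp.right RtB19_10.CEr.right 0x10b7d51a85ce8e5259bd54ba9fc8f6dd90f31e8f540dfec28166c644b8e69bd049cad88f6e2f8ec518f540d6694120b171485c69da71dd8f6eb72b3678f530df2ebc966c47af4269b10485aaba9f6f6a2e94b8f540d6310c94a4485c104a59b78b13e7121e59f6d019fd9b8f540d10c3a4ed85cea558f68b165086a059f6c50394828f540d4f9f593775cb1060c538f6e888234d8f530d31155ce676c764f7169b1c555ed049f6e5cc099a8f540d67 = true := by decide +kernel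

theorem cB19_10_3_147 : chunkOkM (LB19_10.ctx true true 277 303 128 13 16 902 3213 32 35) muQ true true 64 RtB19_10.Cx.left.right.right RtB19_10.CX RtB19_10.Ctp.right.right.right.left.left.left.left RtB19_10.Ce.right.right.right.left.left.right.left.right RtB19_10.CTp.right RtB19_10.CEr.right 0x11b6badf85c4cacc468bb3825eea8f6deed073e8f540d1075082d85c10c0780159f6fa1002008f530d310ce7fcf85c1127f669b148d38a319f6e10f23288f540d710d4b8576c64a17669b1534092459f6f40eb2fc8f540d6 = true := by decide +kernel

theorem cB19_10_3_148 : chunkOkM (LB19_10.ctx true true 281 301 128 13 16 906 6405 32 35) muQ true true 64 RtB19_10.Cx.left.right.right RtB19_10.CX RtB19_10.Ctp.right.right.right.left.left.left.right RtB19_10.Ce.right.right.right.left.left.right.left.left RtB19_10.CTp.right RtB19_10.CEr.right 0x111111a001e185c196f3fd78b12ba29b199f6ba67e5f88f5da6a0067f250d10ca12776c4f9d1969b1cacb943f9f6c652f4898f5c58a20f7f250d611c05ce71c8466c86e2f769b1ef9aee0cfaf630d6473 = true := by decide +kernel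

theorem cB19_10_3_149 : chunkOkM (LB19_10.ctx true true 291 603 256 13 16 910 6433 64 35) muQ true true 64 RtB19_10.Cx.left.right.right.left RtB19_10.CX RtB19_10.Ctp.right.right.right.left.left.left.right RtB19_10.Ce.right.right.right.left.left.right.left.right RtB19_10.CTp.right RtB19_10.CEr.right 0x495a93175c1a84b7fda1af1553dd17b42af030d15f543a76c20b03a5219f6b7c7208c8f530d6eb23205695c1f01adf6e98b1f94dcabb9f6ba9c3a188f58ce65c6f250d52171b7681076c10d74777f938f47b238f6df5657ac8f540d799abe8a095c22178892798b153066b4a9f6c9164ec58f51985f81a8f250d54310546c376c530aeb69b13c1497209f6bdf741b08f51aae8ba48f250d6 = true := by decide +kernel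

theorem cB19_10_3_150 : chunkOkM (LB19_10.ctx true true 286 303 128 13 16 906 6433 64 35) muQ true true 64 RtB19_10.Cx.left.right.right.right RtB19_10.CX RtB19_10.Ctp.right.right.right.left.left.left.right RtB19_10.Ce.right.right.right.left.left.right.left.right RtB19_10.CTp.right RtB19_10.CEr.right 0x1111ad6aa785c152169978b17f5ad4d49f6c6b50d508f540dfb6bb766c4fcc8d69b146da7f439f6ceddac9c8f540d611c05ce757ae675c3517da69b257d04aa60af630d543 = true := by decide +kernel

theorem cB19_10_3_151 : chunkOkM (LB19_10.ctx true true 103 1 1 1 1 1 1 1 1) muQ true true 64 RtB19_10.Cx.left.right.left RtB19_10.CX RtB19_10.Ctp.right.right.right.left.left.left RtB19_10.Ce.right.right.right.left.left.right.right RtB19_10.CTp.right RtB19_10.CEr.right 0x21 = true := by decide +kernel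

theorem cB19_10_3_152 : chunkOkM (LB19_10.ctx true true 286 607 256 13 16 902 6447 32 35) muQ true true 64 RtB19_10.Cx.left.right.right RtB19_10.CX RtB19_10.Ctp.right.right.right.left.left.left.left RtB19_10.Ce.right.right.right.left.left.right.right RtB19_10.CTp.right RtB19_10.CEr.right 0x59591120daf185c71d74b68b14998a0a69f6e5629a778f540d71ced966c52a33c69b22311bd119f6f8ea9a328f540d659745935974 = true := by decide +kernel

theorem cB19_10_3_153 : chunkOkM (LB19_10.ctx true true 268 151 64 13 16 454 1617 64 32) muQ true true 64 RtB19_10.Cx.left.right.right RtB19_10.CX RtB19_10.Ctp.right.right.right.left.left.left.right RtB19_10.Ce.right.right.right.left.left.right.right RtB19_10.CTp.right RtB19_10.CEr.right.left 0xa171f787fde7f4e966ca76573358f6d7e76e7a8f59c3efaa7f250d12f2e4f7fd162927b76c87d21469babda10db8f6de4854188f51d6697128f260d5 = true := by decide +kernel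

end Vale.Agent.helper4.Q4
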