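import Vale.Agent.helper4.Q4TreeM
import Vale.Agent.helper4.Q4G.PB19_10

/-!
Checks for pairs of intervals of second moments.
-/

set_option maxRecDepth 100000
set_option linter.unusedVariables false

namespace Vale.Agent.helper4.Q4

theorem cB19_10_3_154 : chunkOkM (LB19_10.ctx true true 308 2415 1024 13 16 910 25767 64 35) muQ true true 64 RtB19_10.Cx.left.right.right RtB19_10.CX RtB19_10.Ctp.right.right.right.left.left.left.right RtB19_10.Ce.right.right.right.left.left.right.right.left RtB19_10.CTp.right RtB19_10.CEr.right.right 0x12e45b3485c1db928178bbb55ad688f6c50b92f48f5195c7ee38f250d117fd38385c1d119169bec3c12af8f6bd04df3e8f514be72978f250d419544ea76c1dd19287f92b41db64e9f6dd7f93678f540d9895526db95c29b9f630e98b20d5cdd5e666c246663e7f97ff94e2f8f6f0f567bc8f540d7a107f62c95c2236db7f798b198f0f4ea9f6d9cc51118f540d54321212111978aed85c2af243278b95409aa18f230d1225106b85c1fa6f3878b15c8b913e9f6d00e84ba8f540d32174217421747 = true := by decide +kernel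

theorem cB19_10_3_155 : chunkOkM (LB19_10.ctx true true 286 607 256 13 16 910 6489 32 35) muQ true true 64 RtB19_10.Cx.left.right.right RtB19_10.CX RtB19_10.Ctp.right.right.right.left.left.left.right RtB19_10.Ce.right.right.right.left.left.right.right.right RtB19_10.CTp.right RtB19_10.CEr.right.right 0x123d2c3d85c1b1419678b19b29319f9f6c5a886d48f51d8f915b8f250d12730de885c1c3855878b19b588eb69f6c2d96aff8f51195b6d68f250d41150495b85c188c6ac78b170295e129f6e11a6f358f540d3217217 = true := by decide +kernel

theorem cB19_10_3_156 : chunkOkM (LB19_10.ctx true true 103 1 1 1 1 1 1 1 1) muQ true true 64 RtB19_10.Cx.left RtB19_10.CX RtB19_10.Ctp.right.right.right.left.left.right RtB19_10.Ce.right.right.right.left.left RtB19_10.CTp.right RtB19_10.CEr 0x01 = true := by decide +kernel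

theorem cB19_10_3_157 : chunkOkM (LB19_10.ctx true true 103 1 1 1 1 1 1 1 1) muQ true true 64 RtB19_10.Cx.left RtB19_10.CX RtB19_10.Ctp.right.right.right.left.right RtB19_10.Ce.right.right.right.left.left RtB19_10.CTp.right RtB19_10.CEr 0x01 = true := by decide +kernel

theorem cB19_10_3_158 : chunkOkM (LB19_10.ctx true true 103 1 1 1 1 1 1 1 1) muQ true true 64 RtB19_10.Cx.right RtB19_10.CX RtB19_10.Ctp.right.right.right.left.left RtB19_10.Ce.right.right.right.left.left.left RtB19_10.CTp.right RtB19_10.CEr 0x69 = true := by decide +kernel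

theorem cB19_10_3_159 : chunkOkM (LB19_10.ctx true true 253 77 32 13 16 226 1603 32 16) muQ true true 64 RtB19_10.Cx.right.left RtB19_10.CX RtB19_10.Ctp.right.right.right.left.left.left RtB19_10.Ce.right.right.right.left.left.right.left RtB19_10.CTp.right RtB19_10.CEr.left 0xa1cdecea89b60194d6ff9f84a536c56dcaf6362f62ede9f540d = true := by decide +kernel

theorem cB19_10_3_160 : chunkOkM (LB19_10.ctx true true 275 153 64 13 16 898 6405 64 16) muQ true true 64 RtB19_10.Cx.right.left.left RtB19_10.CX RtB19_10.Ctp.right.right.right.left.left.left.left RtB19_10.Ce.right.right.right.left.left.right.left.left RtB19_10.CTp.right RtB19_10.CEr.right 0x69146313676c753fad388f6fab969df8f530d11de28976c3dff6669b7cd0faf7f6e85dc2ec8f540d56943 = true := by decide +kernel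

theorem cB19_10_3_161 : chunkOkM (LB19_10.ctx true true 284 307 128 13 16 898 6433 64 35) muQ true true 64 RtB19_10.Cx.right.left.left RtB19_10.CX RtB19_10.Ctp.right.right.right.left.left.left.left.left RtB19_10.Ce.right.right.right.left.left.right.left.right RtB19_10.CTp.right RtB19_10.CEr.right 0xe3780366c22f3b557f915551c15c9f611e6dcc3d9f540d121822676c3a9a4b69b11092d2c59f6118b126879f540d5ff4e3e66c46c07167f91d6d8cb7c9f61063493819f540d518af7e485c1273b96388b1d86b34169f61733b4dc09f540d510ac14d76c420ef357f98dfa96648f610ae395a69f540db9abbdbaa95c344b6509898bf18c10af8f530d5411599a476c4766b769b97675b348f6ff774adb8f540d67 = true := by decide +kernel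

theorem cB19_10_3_162 : chunkOkM (LB19_10.ctx true true 280 305 128 13 16 902 6433 32 35) muQ true true 64 RtB19_10.Cx.right.left.left RtB19_10.CX RtB19_10.Ctp.right.right.right.left.left.left.left.right RtB19_10.Ce.right.right.right.left.left.right.left.right RtB19_10.CTp.right RtB19_10.CEr.right 0x691194276f85cf2bcb59bcd07a1b88f6f1632ec78f540d104eafd76c6e5ab469b15db8b23b9f6102cadf659f540d67694 = true := by decide +kernel

theorem cB19_10_3_163 : chunkOkM (LB19_10.ctx true true 103 1 1 1 1 1 1 1 1) muQ true true 64 RtB19_10.Cx.right.left.right RtB19_10.CX RtB19_10.Ctp.right.right.right.left.left.left.left RtB19_10.Ce.right.right.right.left.left.right.left RtB19_10.CTp.right RtB19_10.CEr.right 0x69 = true := by decide +kernel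

theorem cB19_10_3_164 : chunkOkM (LB19_10.ctx true true 103 1 1 1 1 1 1 1 1) muQ true true 64 RtB19_10.Cx.right.left RtB19_10.CX RtB19_10.Ctp.right.right.right.left.left.left.right RtB19_10.Ce.right.right.right.left.left.right.left RtB19_10.CTp.right RtB19_10.CEr.right 0x69 = true := by decide +kernel

theorem cB19_10_3_165 : chunkOkM (LB19_10.ctx true true 251 77 32 13 16 226 1617 32 16) muQ true true 64 RtB19_10.Cx.right.left RtB19_10.CX RtB19_10.Ctp.right.right.right.left.left.left RtB19_10.Ce.right.right.right.left.left.right.right RtB19_10.CTp.right RtB19_10.CEr.left 0xa1cc5b9589b8f31f7d899f844d70a4e99f630d = true := by decide +kernel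

theorem cB19_10_3_166 : chunkOkM (LB19_10.ctx true true 271 153 64 13 16 450 3227 64 32) muQ true true 64 RtB19_10.Cx.right.left.left RtB19_10.CX RtB19_10.Ctp.right.right.right.left.left.left.left RtB19_10.Ce.right.right.right.left.left.right.right.left RtB19_10.CTp.right RtB19_10.CEr.right.left 0x1054231379f05b301ba057fdc8e19f66c5599c869b929adc358f61093e64469f550d5 = true := by decide +kernel

theorem cB19_10_3_167 : chunkOkM (LB19_10.ctx true true 284 305 128 13 16 902 6461 64 35) muQ true true 64 RtB19_10.Cx.right.left.left.left RtB19_10.CX RtB19_10.Ctp.right.right.right.left.left.left.left RtB19_10.Ce.right.right.right.left.left.right.right.left RtB19_10.CTp.right RtB19_10.CEr.right.right 0x1165703085c1f4cff68b9dff359e8f6f4ec66a78f540d1192a37085c8f613368beecfb3dc8f6f29bf2e08f540d4ac9a6766c3b6742a7f9176f6ee3a9f6126bee4109f540d10158b07fca5c4833ff28998bd17a26e28f61056b3cfc9f540d53 = true := by decide +kernel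

theorem cB19_10_3_168 : chunkOkM (LB19_10.ctx true true 284 307 128 13 16 902 6461 64 35) muQ true true 64 RtB19_10.Cx.right.left.left.right RtB19_10.CX RtB19_10.Ctp.right.right.right.left.left.left.left RtB19_10.Ce.right.right.right.left.left.right.right.left RtB19_10.CTp.right RtB19_10.CEr.right.right 0x125e73276c264b5277f9266ad82639f6130917a719f540dd7b40a19295c3c96987b498b108cb5b799f530d5694135190376c3b0902d7f91cb9993d19f61240f44509f540d572eab7785c18fa317dc9f61526975669f530d5199750776c276ad0e7f9639181498f611eaed4a29f540dd027b33ae95c3a76a8b0198b4ed355ee8f6101e4cfa99f540d543 = true := by decide +kernel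

theorem cB19_10_3_169 : chunkOkM (LB19_10.ctx true true 271 153 64 13 16 450 3241 64 32) muQ true true 64 RtB19_10.Cx.right.left.left RtB19_10.CX RtB19_10.Ctp.right.right.right.left.left.left.left RtB19_10.Ce.right.right.right.left.left.right.right.right RtB19_10.CTp.right RtB19_10.CEr.right.left 0x116d55cbd9f05b10048467fdfed1a966c743fdf69b989610018f61180b762d9f550d5 = true := by decide +kernel

theorem cB19_10_3_170 : chunkOkM (LB19_10.ctx true true 285 307 128 13 16 902 6489 64 35) muQ true true 64 RtB19_10.Cx.right.left.left RtB19_10.CX RtB19_10.Ctp.right.right.right.left.left.left.left RtB19_10.Ce.right.right.right.left.left.right.right.right RtB19_10.CTp.right RtB19_10.CEr.right.right 0x151f9e676c4a26d9c7f91e3f4725b9f61264bade89f540da76136c6095c2f023afef98b1d6bcf1539f6124110fe39f540d528f0f4d76c353fffead9f61043e9f719f530d5f50068d85c1770d3e188b5caac1cb39f617add20849f540d54103c1f076c405a3b87f91a4e9227b9f613e5a91fc9f540d118ea2dea1a5c4ec294ba998b9eaec68f8f6110810e2f9f540d53112a08b76cca0df59b17aca30aa9f610b9ac87e9f540d7 = true := by decide +kernel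

theorem cB19_10_3_171 : chunkOkM (LB19_10.ctx true true 284 305 128 13 16 906 6461 64 35) muQ true true 64 RtB19_10.Cx.right.left.left RtB19_10.CX RtB19_10.Ctp.right.right.right.left.left.left.right RtB19_10.Ce.right.right.right.left.left.right.right.left RtB19_10.CTp.right RtB19_10.CEr.right 0x6969136ae32e85c17f90969bf25c6b388f6e556ec6c8f540dcfc16c66c3e482469b13f65b5639f6e18adfb48f540d611c05c123495c185c4d828a69b2f14d7e5b9f6fda735d28f540d5473 = true := by decide +kernel

end Vale.Agent.helper4.Q4
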