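import Vale.Agent.helper4.Q4TreeM
import Vale.Agent.helper4.Q4G.PB19_10_0
import Vale.Agent.helper4.Q4G.PB19_10_1
import Vale.Agent.helper4.Q4G.PB19_10_2
import Vale.Agent.helper4.Q4G.PB19_10_3
import Vale.Agent.helper4.Q4G.PB19_10_4
import Vale.Agent.helper4.Q4G.PB19_10_5
import Vale.Agent.helper4.Q4G.PB19_10_6
import Vale.Agent.helper4.Q4G.PB19_10_7
import Vale.Agent.helper4.Q4G.PB19_10_8
import Vale.Agent.helper4.Q4G.PB19_10_9
import Vale.Agent.helper4.Q4G.PB19_10_10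
import Vale.Agent.helper4.Q4G.PB19_10_11
import Vale.Agent.helper4.Q4G.PB19_10_12
import Vale.Agent.helper4.Q4G.PB19_10_13
import Vale.Agent.helper4.Q4G.PB19_10_14
import Vale.Agent.helper4.Q4G.PB19_10_15

/-!
Checks for pairs of intervals of second moments.
-/

set_option maxRecDepth 100000
set_option linter.unusedVariables false

namespace Vale.Agent.helper4.Q4

theorem covB19_10 : LB19_10.Full muQ.val RtB19_10 := ⟨(LitT.Cov.split_t (LitT.cov_of_chunkM cB19_10_3_0) (LitT.Cov.split_e (LitT.cov_of_chunkM cB19_10_3_1) (LitT.Cov.split_t (LitT.cov_of_chunkM cB19_10_3_2) (LitT.Cov.split_e (LitT.cov_of_chunkM cB19_10_3_3) (LitT.Cov.split_T (LitT.cov_of_chunkM cB19_10_3_4) (LitT.Cov.split_e (LitT.Cov.split_t (LitT.Cov.split_t (LitT.cov_of_chunkM cB19_10_3_5) (LitT.Cov.split_e (LitT.cov_of_chunkM cB19_10_3_6) (LitT.Cov.split_e (LitT.Cov.split_t (LitT.Cov.split_t (LitT.cov_of_chunkM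 cB19_10_3_7) (LitT.Cov.split_e (LitT.cov_of_chunkM cB19_10_3_8) (LitT.Cov.split_x (LitT.Cov.split_x (LitT.Cov.split_e (LitT.cov_of_chunkM cB19_10_3_9) (LitT.Cov.split_E (LitT.cov_of_chunkM cB19_10_3_10) (LitT.Cov.split_t (LitT.cov_of_chunkM cB19_10_3_11) (LitT.Cov.split_x (LitT.Cov.split_e (LitT.cov_of_chunkM cB19_10_3_12) (LitT.Cov.split_t (LitT.cov_of_chunkM cB19_10_3_13) (LitT.cov_of_chunkM cB19_10_3_14))) (LitT.cov_of_chunkM cB19_10_3_15))))) (LitT.cov_of_chunkM cB19_10_3_16)) (LitT.cov_of_chunkM cB19_10_3_17)))) (LitT.cov_of_chunkM cB19_10_3_18)) (LitT.Cov.split_t (LitT.Cov.split_t (LitT.cov_of_chunkM cB19_10_3_19) (LitT.Cov.split_x (LitT.Cov.split_x (LitT.Cov.split_e (LitT.Cov.split_E (LitT.cov_of_chunkM cB19_10_3_20) (LitT.Cov.split_e (LitT.Cov.split_t (LitT.cov_of_chunkM cB19_10_3_21) (LitT.Cov.split_x (LitT.cov_of_chunkM cB19_10_3_22) (LitT.cov_of_chunkM cB19_10_3_23)))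 (LitT.cov_of_chunkM cB19_10_3_24))) (LitT.cov_of_chunkM cB19_10_3_25)) (LitT.cov_of_chunkM cB19_10_3_26)) (LitT.cov_of_chunkM cB19_10_3_27))) (LitT.Cov.split_x (LitT.Cov.split_e (LitT.Cov.split_t (LitT.Cov.split_x (LitT.Cov.split_e (LitT.Cov.split_E (LitT.cov_of_chunkM cB19_10_3_28) (LitT.Cov.split_x (LitT.Cov.split_t (LitT.cov_of_chunkM cB19_10_3_29) (LitT.cov_of_chunkM cB19_10_3_30)) (LitT.cov_of_chunkM cB19_10_3_31))) (LitT.Cov.split_E (LitT.cov_of_chunkM cB19_10_3_32) (LitT.Cov.split_x (LitT.Cov.split_t (LitT.cov_of_chunkM cB19_10_3_33) (LitT.cov_of_chunkM cB19_10_3_34)) (LitT.Cov.split_t (LitT.Cov.split_e (LitT.Cov.split_t (LitT.cov_of_chunkM cB19_10_3_35) (LitT.cov_of_chunkM cB19_10_3_36)) (LitT.cov_of_chunkM cB19_10_3_37)) (LitT.Cov.split_e (LitT.cov_of_chunkM cB19_10_3_38) (LitT.Cov.split_t (LitT.cov_of_chunkM cB19_10_3_39) (LitT.cov_of_chunkM cB19_10_3_40)))))))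 (LitT.cov_of_chunkM cB19_10_3_41)) (LitT.Cov.split_e (LitT.cov_of_chunkM cB19_10_3_42) (LitT.Cov.split_x (LitT.Cov.split_E (LitT.cov_of_chunkM cB19_10_3_43) (LitT.Cov.split_x (LitT.Cov.split_t (LitT.Cov.split_e (LitT.cov_of_chunkM cB19_10_3_44) (LitT.Cov.split_x (LitT.cov_of_chunkM cB19_10_3_45) (LitT.cov_of_chunkM cB19_10_3_46))) (LitT.cov_of_chunkM cB19_10_3_47)) (LitT.cov_of_chunkM cB19_10_3_48))) (LitT.cov_of_chunkM cB19_10_3_49)))) (LitT.Cov.split_t (LitT.Cov.split_x (LitT.Cov.split_E (LitT.cov_of_chunkM cB19_10_3_50) (LitT.Cov.split_e (LitT.Cov.split_t (LitT.cov_of_chunkM cB19_10_3_51) (LitT.Cov.split_x (LitT.cov_of_chunkM cB19_10_3_52) (LitT.Cov.split_e (LitT.cov_of_chunkM cB19_10_3_53) (LitT.cov_of_chunkM cB19_10_3_54)))) (LitT.cov_of_chunkM cB19_10_3_55))) (LitT.Cov.split_x (LitT.Cov.split_E (LitT.cov_of_chunkM cB19_10_3_56) (LitT.Cov.split_e (LitT.Cov.split_t (LitT.cov_of_chunkM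 cB19_10_3_57) (LitT.Cov.split_e (LitT.cov_of_chunkM cB19_10_3_58) (LitT.cov_of_chunkM cB19_10_3_59))) (LitT.Cov.split_t (LitT.cov_of_chunkM cB19_10_3_60) (LitT.Cov.split_e (LitT.cov_of_chunkM cB19_10_3_61) (LitT.cov_of_chunkM cB19_10_3_62))))) (LitT.cov_of_chunkM cB19_10_3_63))) (LitT.Cov.split_x (LitT.Cov.split_E (LitT.cov_of_chunkM cB19_10_3_64) (LitT.Cov.split_e (LitT.Cov.split_x (LitT.Cov.split_t (LitT.cov_of_chunkM cB19_10_3_65) (LitT.Cov.split_e (LitT.cov_of_chunkM cB19_10_3_66) (LitT.cov_of_chunkM cB19_10_3_67))) (LitT.Cov.split_t (LitT.Cov.split_e (LitT.cov_of_chunkM cB19_10_3_68) (LitT.Cov.split_x (LitT.cov_of_chunkM cB19_10_3_69) (LitT.cov_of_chunkM cB19_10_3_70))) (LitT.cov_of_chunkM cB19_10_3_71))) (LitT.Cov.split_x (LitT.cov_of_chunkM cB19_10_3_72) (LitT.Cov.split_t (LitT.cov_of_chunkM cB19_10_3_73) (LitT.Cov.split_e (LitT.Cov.split_x (LitT.cov_of_chunkM cB19_10_3_74)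 (LitT.cov_of_chunkM cB19_10_3_75)) (LitT.Cov.split_E (LitT.cov_of_chunkM cB19_10_3_76) (LitT.cov_of_chunkM cB19_10_3_77))))))) (LitT.Cov.split_e (LitT.cov_of_chunkM cB19_10_3_78) (LitT.Cov.split_E (LitT.cov_of_chunkM cB19_10_3_79) (LitT.Cov.split_t (LitT.Cov.split_x (LitT.Cov.split_e (LitT.cov_of_chunkM cB19_10_3_80) (LitT.Cov.split_x (LitT.cov_of_chunkM cB19_10_3_81) (LitT.cov_of_chunkM cB19_10_3_82))) (LitT.cov_of_chunkM cB19_10_3_83)) (LitT.cov_of_chunkM cB19_10_3_84))))))) (LitT.cov_of_chunkM cB19_10_3_85)))))) (LitT.cov_of_chunkM cB19_10_3_86)) (LitT.Cov.split_t (LitT.Cov.split_t (LitT.cov_of_chunkM cB19_10_3_87) (LitT.Cov.split_e (LitT.Cov.split_e (LitT.Cov.split_t (LitT.cov_of_chunkM cB19_10_3_88) (LitT.Cov.split_x (LitT.Cov.split_e (LitT.Cov.split_E (LitT.cov_of_chunkM cB19_10_3_89) (LitT.Cov.split_t (LitT.cov_of_chunkM cB19_10_3_90) (LitT.Cov.split_x (LitT.cov_of_chunkM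 cB19_10_3_91) (LitT.Cov.split_e (LitT.Cov.split_x (LitT.Cov.split_t (LitT.cov_of_chunkM cB19_10_3_92) (LitT.Cov.split_e (LitT.cov_of_chunkM cB19_10_3_93) (LitT.cov_of_chunkM cB19_10_3_94))) (LitT.Cov.split_t (LitT.Cov.split_e (LitT.cov_of_chunkM cB19_10_3_95) (LitT.Cov.split_t (LitT.cov_of_chunkM cB19_10_3_96) (LitT.cov_of_chunkM cB19_10_3_97))) (LitT.cov_of_chunkM cB19_10_3_98))) (LitT.Cov.split_t (LitT.Cov.split_x (LitT.cov_of_chunkM cB19_10_3_99) (LitT.Cov.split_E (LitT.cov_of_chunkM cB19_10_3_100) (LitT.Cov.split_e (LitT.cov_of_chunkM cB19_10_3_101) (LitT.cov_of_chunkM cB19_10_3_102)))) (LitT.Cov.split_x (LitT.cov_of_chunkM cB19_10_3_103) (LitT.Cov.split_e (LitT.Cov.split_x (LitT.cov_of_chunkM cB19_10_3_104) (LitT.cov_of_chunkM cB19_10_3_105)) (LitT.Cov.split_E (LitT.cov_of_chunkM cB19_10_3_106) (LitT.cov_of_chunkM cB19_10_3_107))))))))) (LitT.cov_of_chunkM cB19_10_3_108))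 (LitT.Cov.split_t (LitT.cov_of_chunkM cB19_10_3_109) (LitT.Cov.split_t (LitT.cov_of_chunkM cB19_10_3_110) (LitT.Cov.split_e (LitT.cov_of_chunkM cB19_10_3_111) (LitT.Cov.split_x (LitT.Cov.split_x (LitT.Cov.split_E (LitT.cov_of_chunkM cB19_10_3_112) (LitT.Cov.split_e (LitT.Cov.split_e (LitT.Cov.split_t (LitT.cov_of_chunkM cB19_10_3_113) (LitT.cov_of_chunkM cB19_10_3_114)) (LitT.Cov.split_E (LitT.cov_of_chunkM cB19_10_3_115) (LitT.cov_of_chunkM cB19_10_3_116))) (LitT.cov_of_chunkM cB19_10_3_117))) (LitT.cov_of_chunkM cB19_10_3_118)) (LitT.cov_of_chunkM cB19_10_3_119))))))) (LitT.cov_of_chunkM cB19_10_3_120)) (LitT.cov_of_chunkM cB19_10_3_121))) (LitT.Cov.split_t (LitT.Cov.split_e (LitT.Cov.split_e (LitT.Cov.split_x (LitT.Cov.split_t (LitT.Cov.split_t (LitT.Cov.split_e (LitT.Cov.split_x (LitT.Cov.split_e (LitT.Cov.split_x (LitT.cov_of_chunkM cB19_10_3_122) (LitT.Cov.split_t (LitT.Cov.split_t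 (LitT.Cov.split_E (LitT.cov_of_chunkM cB19_10_3_123) (LitT.Cov.split_e (LitT.cov_of_chunkM cB19_10_3_124) (LitT.cov_of_chunkM cB19_10_3_125))) (LitT.cov_of_chunkM cB19_10_3_126)) (LitT.cov_of_chunkM cB19_10_3_127))) (LitT.cov_of_chunkM cB19_10_3_128)) (LitT.Cov.split_e (LitT.Cov.split_E (LitT.cov_of_chunkM cB19_10_3_129) (LitT.Cov.split_t (LitT.Cov.split_x (LitT.Cov.split_e (LitT.cov_of_chunkM cB19_10_3_130) (LitT.cov_of_chunkM cB19_10_3_131)) (LitT.cov_of_chunkM cB19_10_3_132)) (LitT.cov_of_chunkM cB19_10_3_133))) (LitT.Cov.split_E (LitT.cov_of_chunkM cB19_10_3_134) (LitT.Cov.split_x (LitT.Cov.split_t (LitT.Cov.split_e (LitT.Cov.split_x (LitT.cov_of_chunkM cB19_10_3_135) (LitT.cov_of_chunkM cB19_10_3_136)) (LitT.Cov.split_E (LitT.cov_of_chunkM cB19_10_3_137) (LitT.cov_of_chunkM cB19_10_3_138))) (LitT.cov_of_chunkM cB19_10_3_139)) (LitT.Cov.split_t (LitT.Cov.split_e (LitT.cov_of_chunkM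 cB19_10_3_140) (LitT.cov_of_chunkM cB19_10_3_141)) (LitT.cov_of_chunkM cB19_10_3_142)))))) (LitT.Cov.split_x (LitT.cov_of_chunkM cB19_10_3_143) (LitT.Cov.split_E (LitT.cov_of_chunkM cB19_10_3_144) (LitT.Cov.split_e (LitT.Cov.split_x (LitT.cov_of_chunkM cB19_10_3_145) (LitT.Cov.split_t (LitT.Cov.split_e (LitT.cov_of_chunkM cB19_10_3_146) (LitT.cov_of_chunkM cB19_10_3_147)) (LitT.Cov.split_e (LitT.cov_of_chunkM cB19_10_3_148) (LitT.Cov.split_x (LitT.cov_of_chunkM cB19_10_3_149) (LitT.cov_of_chunkM cB19_10_3_150))))) (LitT.Cov.split_x (LitT.cov_of_chunkM cB19_10_3_151) (LitT.Cov.split_t (LitT.cov_of_chunkM cB19_10_3_152) (LitT.Cov.split_E (LitT.cov_of_chunkM cB19_10_3_153) (LitT.Cov.split_e (LitT.cov_of_chunkM cB19_10_3_154) (LitT.cov_of_chunkM cB19_10_3_155))))))))) (LitT.cov_of_chunkM cB19_10_3_156)) (LitT.cov_of_chunkM cB19_10_3_157)) (LitT.Cov.split_t (LitT.Cov.split_e (LitT.cov_of_chunkM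 cB19_10_3_158) (LitT.Cov.split_t (LitT.Cov.split_x (LitT.Cov.split_e (LitT.Cov.split_E (LitT.cov_of_chunkM cB19_10_3_159) (LitT.Cov.split_t (LitT.Cov.split_x (LitT.Cov.split_e (LitT.cov_of_chunkM cB19_10_3_160) (LitT.Cov.split_t (LitT.cov_of_chunkM cB19_10_3_161) (LitT.cov_of_chunkM cB19_10_3_162))) (LitT.cov_of_chunkM cB19_10_3_163)) (LitT.cov_of_chunkM cB19_10_3_164))) (LitT.Cov.split_E (LitT.cov_of_chunkM cB19_10_3_165) (LitT.Cov.split_x (LitT.Cov.split_t (LitT.Cov.split_e (LitT.Cov.split_E (LitT.cov_of_chunkM cB19_10_3_166) (LitT.Cov.split_x (LitT.cov_of_chunkM cB19_10_3_167) (LitT.cov_of_chunkM cB19_10_3_168))) (LitT.Cov.split_E (LitT.cov_of_chunkM cB19_10_3_169) (LitT.cov_of_chunkM cB19_10_3_170))) (LitT.Cov.split_e (LitT.cov_of_chunkM cB19_10_3_171) (LitT.Cov.split_x (LitT.cov_of_chunkM cB19_10_3_172) (LitT.cov_of_chunkM cB19_10_3_173)))) (LitT.Cov.split_t (LitT.Cov.split_e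 (LitT.cov_of_chunkM cB19_10_3_174) (LitT.Cov.split_t (LitT.cov_of_chunkM cB19_10_3_175) (LitT.cov_of_chunkM cB19_10_3_176))) (LitT.cov_of_chunkM cB19_10_3_177))))) (LitT.cov_of_chunkM cB19_10_3_178)) (LitT.cov_of_chunkM cB19_10_3_179))) (LitT.cov_of_chunkM cB19_10_3_180))) (LitT.Cov.split_x (LitT.cov_of_chunkM cB19_10_3_181) (LitT.Cov.split_t (LitT.Cov.split_e (LitT.Cov.split_E (LitT.cov_of_chunkM cB19_10_3_182) (LitT.Cov.split_x (LitT.Cov.split_t (LitT.Cov.split_e (LitT.Cov.split_x (LitT.Cov.split_t (LitT.cov_of_chunkM cB19_10_3_183) (LitT.Cov.split_E (LitT.cov_of_chunkM cB19_10_3_184) (LitT.Cov.split_e (LitT.cov_of_chunkM cB19_10_3_185) (LitT.cov_of_chunkM cB19_10_3_186)))) (LitT.Cov.split_t (LitT.Cov.split_e (LitT.Cov.split_E (LitT.cov_of_chunkM cB19_10_3_187) (LitT.Cov.split_t (LitT.cov_of_chunkM cB19_10_3_188) (LitT.cov_of_chunkM cB19_10_3_189))) (LitT.cov_of_chunkM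 cB19_10_3_190)) (LitT.Cov.split_e (LitT.cov_of_chunkM cB19_10_3_191) (LitT.Cov.split_E (LitT.cov_of_chunkM cB19_10_3_192) (LitT.Cov.split_x (LitT.cov_of_chunkM cB19_10_3_193) (LitT.cov_of_chunkM cB19_10_3_194)))))) (LitT.Cov.split_x (LitT.cov_of_chunkM cB19_10_3_195) (LitT.Cov.split_t (LitT.cov_of_chunkM cB19_10_3_196) (LitT.Cov.split_E (LitT.cov_of_chunkM cB19_10_3_197) (LitT.Cov.split_e (LitT.Cov.split_x (LitT.cov_of_chunkM cB19_10_3_198) (LitT.cov_of_chunkM cB19_10_3_199)) (LitT.cov_of_chunkM cB19_10_3_200)))))) (LitT.Cov.split_e (LitT.Cov.split_x (LitT.Cov.split_t (LitT.Cov.split_e (LitT.cov_of_chunkM cB19_10_3_201) (LitT.cov_of_chunkM cB19_10_3_202)) (LitT.cov_of_chunkM cB19_10_3_203)) (LitT.cov_of_chunkM cB19_10_3_204)) (LitT.Cov.split_x (LitT.cov_of_chunkM cB19_10_3_205) (LitT.Cov.split_t (LitT.Cov.split_e (LitT.Cov.split_x (LitT.cov_of_chunkM cB19_10_3_206) (LitT.cov_of_chunkM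 cB19_10_3_207)) (LitT.Cov.split_E (LitT.cov_of_chunkM cB19_10_3_208) (LitT.Cov.split_x (LitT.cov_of_chunkM cB19_10_3_209) (LitT.cov_of_chunkM cB19_10_3_210)))) (LitT.cov_of_chunkM cB19_10_3_211))))) (LitT.Cov.split_t (LitT.Cov.split_t (LitT.cov_of_chunkM cB19_10_3_212) (LitT.Cov.split_e (LitT.cov_of_chunkM cB19_10_3_213) (LitT.Cov.split_x (LitT.Cov.split_e (LitT.cov_of_chunkM cB19_10_3_214) (LitT.Cov.split_E (LitT.cov_of_chunkM cB19_10_3_215) (LitT.cov_of_chunkM cB19_10_3_216))) (LitT.cov_of_chunkM cB19_10_3_217)))) (LitT.cov_of_chunkM cB19_10_3_218)))) (LitT.Cov.split_E (LitT.cov_of_chunkM cB19_10_3_219) (LitT.Cov.split_t (LitT.Cov.split_x (LitT.cov_of_chunkM cB19_10_3_220) (LitT.Cov.split_t (LitT.cov_of_chunkM cB19_10_3_221) (LitT.Cov.split_x (LitT.Cov.split_e (LitT.Cov.split_E (LitT.cov_of_chunkM cB19_10_3_222) (LitT.Cov.split_e (LitT.cov_of_chunkM cB19_10_3_223) (LitT.cov_of_chunkM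 cB19_10_3_224))) (LitT.cov_of_chunkM cB19_10_3_225)) (LitT.cov_of_chunkM cB19_10_3_226)))) (LitT.Cov.split_x (LitT.Cov.split_e (LitT.Cov.split_x (LitT.cov_of_chunkM cB19_10_3_227) (LitT.Cov.split_t (LitT.cov_of_chunkM cB19_10_3_228) (LitT.cov_of_chunkM cB19_10_3_229))) (LitT.cov_of_chunkM cB19_10_3_230)) (LitT.Cov.split_e (LitT.Cov.split_t (LitT.Cov.split_x (LitT.Cov.split_e (LitT.Cov.split_t (LitT.cov_of_chunkM cB19_10_3_231) (LitT.cov_of_chunkM cB19_10_3_232)) (LitT.Cov.split_E (LitT.cov_of_chunkM cB19_10_3_233) (LitT.Cov.split_x (LitT.cov_of_chunkM cB19_10_3_234) (LitT.cov_of_chunkM cB19_10_3_235)))) (LitT.cov_of_chunkM cB19_10_3_236)) (LitT.cov_of_chunkM cB19_10_3_237)) (LitT.Cov.split_x (LitT.Cov.split_t (LitT.Cov.split_E (LitT.cov_of_chunkM cB19_10_3_238) (LitT.cov_of_chunkM cB19_10_3_239)) (LitT.Cov.split_e (LitT.Cov.split_E (LitT.cov_of_chunkM cB19_10_3_240) (LitT.cov_of_chunkM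 cB19_10_3_241)) (LitT.cov_of_chunkM cB19_10_3_242))) (LitT.Cov.split_t (LitT.Cov.split_e (LitT.Cov.split_t (LitT.cov_of_chunkM cB19_10_3_243) (LitT.cov_of_chunkM cB19_10_3_244)) (LitT.cov_of_chunkM cB19_10_3_245)) (LitT.cov_of_chunkM cB19_10_3_246)))))))) (LitT.cov_of_chunkM cB19_10_3_247)))) (LitT.Cov.split_e (LitT.Cov.split_x (LitT.cov_of_chunkM cB19_10_3_248) (LitT.Cov.split_e (LitT.Cov.split_x (LitT.cov_of_chunkM cB19_10_3_249) (LitT.Cov.split_t (LitT.Cov.split_t (LitT.cov_of_chunkM cB19_10_3_250) (LitT.Cov.split_E (LitT.cov_of_chunkM cB19_10_3_251) (LitT.Cov.split_e (LitT.Cov.split_t (LitT.cov_of_chunkM cB19_10_3_252) (LitT.Cov.split_x (LitT.cov_of_chunkM cB19_10_3_253) (LitT.Cov.split_e (LitT.Cov.split_E (LitT.cov_of_chunkM cB19_10_3_254) (LitT.Cov.split_x (LitT.cov_of_chunkM cB19_10_3_255) (LitT.cov_of_chunkM cB19_10_3_256))) (LitT.Cov.split_E (LitT.cov_of_chunkM cB19_10_3_257)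 (LitT.cov_of_chunkM cB19_10_3_258))))) (LitT.cov_of_chunkM cB19_10_3_259)))) (LitT.Cov.split_t (LitT.Cov.split_t (LitT.Cov.split_E (LitT.cov_of_chunkM cB19_10_3_260) (LitT.Cov.split_e (LitT.Cov.split_x (LitT.cov_of_chunkM cB19_10_3_261) (LitT.cov_of_chunkM cB19_10_3_262)) (LitT.cov_of_chunkM cB19_10_3_263))) (LitT.cov_of_chunkM cB19_10_3_264)) (LitT.cov_of_chunkM cB19_10_3_265)))) (LitT.cov_of_chunkM cB19_10_3_266))) (LitT.cov_of_chunkM cB19_10_3_267))) (LitT.cov_of_chunkM cB19_10_3_268))))))))), (LitT.cov_of_chunkM cB19_10_1_0), (LitT.cov_of_chunkM cB19_10_2_0), (LitT.cov_of_chunkM cB19_10_0_0)⟩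

end Vale.Agent.helper4.Q4
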