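import Vale.Agent.helper4.Q4TreeM
import Vale.Agent.helper4.Q4G.PB19_11

/-!
Checks for pairs of intervals of second moments.
-/

set_option maxRecDepth 100000
set_option linter.unusedVariables false

namespace Vale.Agent.helper4.Q4

theorem cB19_11_3_0 : chunkOkM (LB19_11.ctx true true 100 1 1 1 1 1 1 1 1) muQ true true 64 RtB19_11.Cx RtB19_11.CX RtB19_11.Ctp.left RtB19_11.Ce RtB19_11.CTp RtB19_11.CEr 0x41 = true := by decide +kernel

theorem cB19_11_3_1 : chunkOkM (LB19_11.ctx true true 100 1 1 1 1 1 1 1 1) muQ true true 64 RtB19_11.Cx RtB19_11.CX RtB19_11.Ctp.right RtB19_11.Ce.left RtB19_11.CTp RtB19_11.CEr 0x69 = true := by decide +kernel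

theorem cB19_11_3_2 : chunkOkM (LB19_11.ctx true true 100 1 1 1 1 1 1 1 1) muQ true true 64 RtB19_11.Cx RtB19_11.CX RtB19_11.Ctp.right.left RtB19_11.Ce.right RtB19_11.CTp RtB19_11.CEr 0x49 = true := by decide +kernel

theorem cB19_11_3_3 : chunkOkM (LB19_11.ctx true true 100 1 1 1 1 1 1 1 1) muQ true true 64 RtB19_11.Cx RtB19_11.CX RtB19_11.Ctp.right.right RtB19_11.Ce.right.left RtB19_11.CTp RtB19_11.CEr 0x69 = true := by decide +kernel

theorem cB19_11_3_4 : chunkOkM (LB19_11.ctx true true 100 1 1 1 1 1 1 1 1) muQ true true 64 RtB19_11.Cx RtB19_11.CX RtB19_11.Ctp.right.right RtB19_11.Ce.right.right RtB19_11.CTp.left RtB19_11.CEr 0x42 = true := by decide +kernel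

theorem cB19_11_3_5 : chunkOkM (LB19_11.ctx true true 100 1 1 1 1 1 1 1 1) muQ true true 64 RtB19_11.Cx RtB19_11.CX RtB19_11.Ctp.right.right RtB19_11.Ce.right.right RtB19_11.CTp.right RtB19_11.CEr.left 0x6a = true := by decide +kernel

theorem cB19_11_3_6 : chunkOkM (LB19_11.ctx true true 100 1 1 1 1 1 1 1 1) muQ true true 64 RtB19_11.Cx RtB19_11.CX RtB19_11.Ctp.right.right.left.left RtB19_11.Ce.right.right.left RtB19_11.CTp.right RtB19_11.CEr.right 0x49 = true := by decide +kernel

theorem cB19_11_3_7 : chunkOkM (LB19_11.ctx true true 100 1 1 1 1 1 1 1 1) muQ true true 64 RtB19_11.Cx RtB19_11.CX RtB19_11.Ctp.right.right.left.right RtB19_11.Ce.right.right.left.left RtB19_11.CTp.right RtB19_11.CEr.right 0x69 = true := by decide +kernel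

theorem cB19_11_3_8 : chunkOkM (LB19_11.ctx true true 100 1 1 1 1 1 1 1 1) muQ true true 64 RtB19_11.Cx RtB19_11.CX RtB19_11.Ctp.right.right.left.right.left.left RtB19_11.Ce.right.right.left.right.left RtB19_11.CTp.right RtB19_11.CEr.right 0x49 = true := by decide +kernel

theorem cB19_11_3_9 : chunkOkM (LB19_11.ctx true true 100 1 1 1 1 1 1 1 1) muQ true true 64 RtB19_11.Cx RtB19_11.CX RtB19_11.Ctp.right.right.left.right.left.right RtB19_11.Ce.right.right.left.right.left.left RtB19_11.CTp.right RtB19_11.CEr.right 0x69 = true := by decide +kernel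

theorem cB19_11_3_10 : chunkOkM (LB19_11.ctx true true 268 145 64 15 16 854 2989 35 33) muQ true true 64 RtB19_11.Cx.left.left RtB19_11.CX RtB19_11.Ctp.right.right.left.right.left.right RtB19_11.Ce.right.right.left.right.left.right.left RtB19_11.CTp.right RtB19_11.CEr.right 0x6922d85c77ed24be74e75c2caf586f91141c1c58f622b840f98f550d1e767aa75c1c0c06a78b78528e728f63793851e8f540d576944928961af7ed233899175c322d8f6f91109f37f8f625ff787f8f571acc7a7f460d259676575c20ff12778b7d8167e7f623e0e7d58f5534c7bd7f450d576944933 = true := by decide +kernel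

theorem cB19_11_3_11 : chunkOkM (LB19_11.ctx true true 278 289 128 15 16 854 3017 35 77) muQ true true 64 RtB19_11.Cx.left.left RtB19_11.CX RtB19_11.Ctp.right.right.left.right.left.right RtB19_11.Ce.right.right.left.right.left.right.right RtB19_11.CTp.right RtB19_11.CEr.right 0x68bc962e8f04b31b486e75c407ca56f9f39ff127f625b11d088f52ae0b3d7f450d6a6249e2af75c1e198ce78b22b2019b8f6264461ca8f559a3d737f450d5366924975c14e5546f9dc469667f6230ca20f8f540d6a62176eca75c166977978bd84921e7f6237af0ec8f540d5474949591ae70897ed2510ab575c194ce06f9202206ad8f62a6760cd8f5815f63f7f460d28da34675c203461a78b44320457f6253ae3db8f5ee4775a7f450d54774933 = true := by decide +kernel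

theorem cB19_11_3_12 : chunkOkM (LB19_11.ctx true true 100 1 1 1 1 1 1 1 1) muQ true true 64 RtB19_11.Cx.left.right RtB19_11.CX RtB19_11.Ctp.right.right.left.right.left.right RtB19_11.Ce.right.right.left.right.left.right RtB19_11.CTp.right RtB19_11.CEr.right 0x49 = true := by decide +kernel

theorem cB19_11_3_13 : chunkOkM (LB19_11.ctx true true 100 1 1 1 1 1 1 1 1) muQ true true 64 RtB19_11.Cx.right RtB19_11.CX RtB19_11.Ctp.right.right.left.right.left.right RtB19_11.Ce.right.right.left.right.left.right RtB19_11.CTp.right RtB19_11.CEr.right 0x49 = true := by decide +kernel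

theorem cB19_11_3_14 : chunkOkM (LB19_11.ctx true true 268 145 64 15 16 866 3017 35 33) muQ true true 64 RtB19_11.Cx RtB19_11.CX RtB19_11.Ctp.right.right.left.right.right RtB19_11.Ce.right.right.left.right.left RtB19_11.CTp.right RtB19_11.CEr.right 0x1111116969692b5a866ed25759fe75c296443d88f62526431b8f540d26bd49675c1b90ee478b1297acb08f621176e738f540d5376943769431147 = true := by decide +kernel

theorem cB19_11_3_15 : chunkOkM (LB19_11.ctx true true 287 147 64 57 64 430 1533 256 77) muQ true true 64 RtB19_11.Cx RtB19_11.CX RtB19_11.Ctp.right.right.left.right.left RtB19_11.Ce.right.right.left.right.right RtB19_11.CTp.right RtB19_11.CEr.right 0x494959822ef4d75c28ab5ce78b2e0fad4039f5b8264359b9f440d13f2646fd33d9f0e75c4635286f9123ab2c38f624b63ffa8f51323822d8f460d6e29d06fd2bae75e75c5f14bd6f92750ff238f62c2a8e4d8f5deb5756f460d71a505377f945e664fb8f51919969519f430d36a64a4a1ed7c5375c12ecfea08f6261a374d8f5bfee4567f440d2a71cde75cb8c7136e8f526a2dfff19f430d3884a54a542554477493 = true := by decide +kernel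

theorem cB19_11_3_16 : chunkOkM (LB19_11.ctx true true 281 289 128 15 16 874 6069 35 77) muQ true true 64 RtB19_11.Cx.left.left.left RtB19_11.CX RtB19_11.Ctp.right.right.left.right.right.left RtB19_11.Ce.right.right.left.right.right.left.left RtB19_11.CTp.right RtB19_11.CEr.right 0x112c4197ed29e9f5375c6276c5f928a45b738f61d708cd18f550d269a7c375c1741de778b2573f46a8f61bc6ce6f8f540d56969362a05c21b05c5694331d09265c7d89f668b2ff168ed8f61f30338c8f540d67430c59e075c117dbd6f919fec7de8f622d6c7338f540d6a6276208475c1cc14bc78b19d92bb88f621f7a86e8f540d53 = true := by decide +kernel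

theorem cB19_11_3_17 : chunkOkM (LB19_11.ctx true true 268 147 64 15 16 434 3045 35 77) muQ true true 64 RtB19_11.Cx.left.left.right RtB19_11.CX RtB19_11.Ctp.right.right.left.right.right.left RtB19_11.Ce.right.right.left.right.right.left.left RtB19_11.CTp.right RtB19_11.CEr.right 0x6963d74b6fd377364775c35cb666f91b1303e18f62570c8328f550d6a62e1a41975c244d78478b762f0a47f62358f4838f524972607f450d56943 = true := by decide +kernel

theorem cB19_11_3_18 : chunkOkM (LB19_11.ctx true true 290 147 64 57 64 438 3073 256 77) muQ true true 64 RtB19_11.Cx.left.left RtB19_11.CX RtB19_11.Ctp.right.right.left.right.right.left RtB19_11.Ce.right.right.left.right.right.left.right RtB19_11.CTp.right RtB19_11.CEr.right 0x2fca0a275c8c48da6f91dfb46f38f61f522c4f8f540d2fb426a75c2476236f918ee972f8f61f2292ff8f540d732efbd6fd33db38475c26213f6f91b68c8de8f6275835458f57a9a2db7f460d1fdcd36fd33d044775c4e64f46f91beb31d78f626f3b2318f53953bcd7f460d4391449875c186005838f624dd15e18f530d736a64a4a305e81c75c1669f769b14ba990a8f62049bec98f540d2cb1df075c15abb569b2c9b4a848f62a0e56838f5276d1b77f450d3285041b75c1e01ef328f6220e1e768f530d7884a54a54255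 = true := by decide +kernel

theorem cB19_11_3_19 : chunkOkM (LB19_11.ctx true true 246 75 32 15 16 218 763 16 33) muQ true true 64 RtB19_11.Cx.left.right RtB19_11.CX RtB19_11.Ctp.right.right.left.right.right.left RtB19_11.Ce.right.right.left.right.right.left RtB19_11.CTp.right RtB19_11.CEr.right 0x231cac875c10ffc4578b8b2cbdf379f6868d444449f440d = true := by decide +kernel

theorem cB19_11_3_20 : chunkOkM (LB19_11.ctx true true 283 289 128 15 16 446 3073 128 77) muQ true true 64 RtB19_11.Cx.left RtB19_11.CX RtB19_11.Ctp.right.right.left.right.right.right RtB19_11.Ce.right.right.left.right.right.left RtB19_11.CTp.right RtB19_11.CEr.right 0x11691ed5a9875c2272f91673af167c4a5eb4aaf030dec7785fd2a5031275c50a3976f91da4ca808f618c19c0d8f550d6a62b53b6275ccb0fe568b1f70a7828f618af12ed8f54c96c26f250d4a54255693bf5146fd2e8a96075c486c9b6f9253eada48f616e9389d8f550d35bfe7d75c7394b168b48833e0d8f617c120e48f540d56a7f749e77edccd88265c113cdeb78b3c7511658f618f3b48e8f550d5674376947 = true := by decide +kernel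

theorem cB19_11_3_21 : chunkOkM (LB19_11.ctx true true 281 73 32 57 64 438 1561 256 77) muQ true true 64 RtB19_11.Cx.left.left RtB19_11.CX RtB19_11.Ctp.right.right.left.right.right.left RtB19_11.Ce.right.right.left.right.right.right RtB19_11.CTp.right RtB19_11.CEr.right 0x1a927c6fd321069475c52c9566f928223af88f623def4988f550d2b8dbf6fd3621af675c1082908f8f6240d87c68f540d1bfa036fd382554a75c1e871e6f92f7005ee8f62cfb1d768f550d346a64a4a308c62675ce674059b22fe80f08f625c5a2b68f540d242bc5b75c1a2dccd08f622537b578f530d1ec4bac75c200d21bd8f6259131908f5b7fe3a27f440d34884a54a54255 = true := by decide +kernel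

end Vale.Agent.helper4.Q4
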