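import Vale.Agent.helper4.Q4TreeM
import Vale.Agent.helper4.Q4G.PB19_11

/-!
Checks for pairs of intervals of second moments.
-/

set_option maxRecDepth 100000
set_option linter.unusedVariables false

namespace Vale.Agent.helper4.Q4

theorem cB19_11_3_22 : chunkOkM (LB19_11.ctx true true 290 145 64 57 64 446 3101 256 77) muQ true true 64 RtB19_11.Cx.left.left.left RtB19_11.CX RtB19_11.Ctp.right.right.left.right.right.right RtB19_11.Ce.right.right.left.right.right.right.left RtB19_11.CTp.right RtB19_11.CEr.right 0x334683375c3aff856f916fac1358f616c971f58f57b799a57f250d2ec89a075c325eb36f91a791bfa8f61598388a8f587fbf047f250d4148b066fd321783275c2676066f9148be6e08f61b38c4be8f550d36a64a4a385f69675c1a9c4368b1d3fc0528f616843d358f58be3c2a7f250d2df187675c74a3759b15c604318f6182e7c298f57a88b8e7f250d6285059f75c13cf800f8f61bb5e1758f530d3884a54a54255 = true := by decide +kernel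

theorem cB19_11_3_23 : chunkOkM (LB19_11.ctx true true 282 293 128 15 16 890 6209 35 77) muQ true true 64 RtB19_11.Cx.left.left.right RtB19_11.CX RtB19_11.Ctp.right.right.left.right.right.right RtB19_11.Ce.right.right.left.right.right.right.left RtB19_11.CTp.right RtB19_11.CEr.right 0x1111453551675c649c958b13582dc559f6da748a67f540d28c0d17c84c36be39077b1c87d0f28f61b0dbe2d8f540d53a8246765c77969c68b398f0ac58f6196c30258f540d6769411435d685175c1437986f92501c6d18f6202569068f540d6a62dcbc2375c1a7404678b1fe687438f61d8fc82f8f540d5be5cfd6ed2bd3b9375c27def1778f61d5779bd8f540d2a9cac775c182d4f978b1e1fed918f61cdbac698f540d543 = true := by decide +kernel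

theorem cB19_11_3_24 : chunkOkM (LB19_11.ctx true true 290 147 64 57 64 446 3129 256 77) muQ true true 64 RtB19_11.Cx.left.left RtB19_11.CX RtB19_11.Ctp.right.right.left.right.right.right RtB19_11.Ce.right.right.left.right.right.right.right RtB19_11.CTp.right RtB19_11.CEr.right 0x33f73a775c1c6d056f91b7cbbf48f61aafa49f8f566e1826f250d2c72e3775c4090946f934ec68928f618e227908f540d41d23016fd3d654d575c1b295c168f620daff258f540d33316b6975c37383d6f91f073dfd8f617d80f8b8f57f71ced7f250d59376a64a4a2f5691db8ed598748875c15c6e7278be6801d27f61bebc66f8f550d388f61d75c594fe59b873c1427f61c28455d8f52578e637f250d62ab27e775c11e260b48f6202d14978f530d3297f09b75c4863959b261513658f617b698858f59ca7ac17f250d5937884a54a54255 = true := by decide +kernel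

theorem cB19_11_3_25 : chunkOkM (LB19_11.ctx true true 318 4737 2048 15 16 13950 3101 35 77) muQ true true 64 RtB19_11.Cx.left.right.left RtB19_11.CX RtB19_11.Ctp.right.right.left.right.right.left RtB19_11.Ce.right.right.left.right.right.right.left RtB19_11.CTp.right RtB19_11.CEr.right 0x396c81d75c44a5556f922710ff88f626e063c38f52e08a2e7f450d6a62ce44eb75c1ffe9d778b196cde898f626acb24c8f52ad15ea7f450d51a82926fd36ce0e375c2ad9006f927782f328f628551ce68f52d648b07f460d6a62e84dd575c20a61ed78b229e9e1b8f624964a748f59767e3b7f450d544949495949493e7ad4875c2a33e9548f628665dff8f5b315cfb7f440d6a62f4180875c21c7aa978b24edef208f54b2d1297f440d57747774934934934934933 = true := by decide +kernel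

theorem cB19_11_3_26 : chunkOkM (LB19_11.ctx true true 290 149 64 57 64 438 3129 256 77) muQ true true 64 RtB19_11.Cx.left.right.left RtB19_11.CX RtB19_11.Ctp.right.right.left.right.right.left RtB19_11.Ce.right.right.left.right.right.right.right RtB19_11.CTp.right RtB19_11.CEr.right 0x2ea92b6fd3529ea875c23d6b16f91488a1658f62849881e8f5a360a137f460d2634ca6fd3a7286475cb15135f91dfe73678f627b85d2b8f57e95fac7f460d41d7840b7f9d160fec18f52f5b9d1ae9f430d36a64a4a2d3e0c275c4e55959b18acb1218f627b025bd8f57f3146b7f450d1874e7975c2f7d8ad08f523121a7ed9f430d3884a54a54255 = true := by decide +kernel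

theorem cB19_11_3_27 : chunkOkM (LB19_11.ctx true true 100 1 1 1 1 1 1 1 1) muQ true true 64 RtB19_11.Cx.left.right.right RtB19_11.CX RtB19_11.Ctp.right.right.left.right.right.left RtB19_11.Ce.right.right.left.right.right.right RtB19_11.CTp.right RtB19_11.CEr.right 0x49 = true := by decide +kernel

theorem cB19_11_3_28 : chunkOkM (LB19_11.ctx true true 274 151 64 15 16 446 3129 35 77) muQ true true 64 RtB19_11.Cx.left.right RtB19_11.CX RtB19_11.Ctp.right.right.left.right.right.right RtB19_11.Ce.right.right.left.right.right.right RtB19_11.CTp.right RtB19_11.CEr.right 0x111d79066ed2cc6b2b75c22d2ab4c8f61d9f81028f540d35902a875c1dc1c0f78b16e039c78f61dae99778f540d57694151d82c75c4f193368b1101bf845ebbf65dc892b0a2af440d356ebc675c2cfec66f911af52b68f6243d7c828f540d6a62f91e8d75c1dfaced78b157e1d1f8f6232ef55c8f540d539d557d75c63c1d5f924299c3f8f6239028328f540d6a62eb6c5675c1d0b10678b1b7d1dcd8f62298c16b8f540d5473694 = true := by decide +kernel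

theorem cB19_11_3_29 : chunkOkM (LB19_11.ctx true true 231 39 16 15 16 110 385 16 33) muQ true true 64 RtB19_11.Cx.right RtB19_11.CX RtB19_11.Ctp.right.right.left.right.right RtB19_11.Ce.right.right.left.right.right RtB19_11.CTp.right RtB19_11.CEr.right 0x57100e908f04b = true := by decide +kernel

theorem cB19_11_3_30 : chunkOkM (LB19_11.ctx true true 100 1 1 1 1 1 1 1 1) muQ true true 64 RtB19_11.Cx RtB19_11.CX RtB19_11.Ctp.right.right.right RtB19_11.Ce.right.right.left RtB19_11.CTp.right RtB19_11.CEr.right 0x01111101110101110173311411401773711411431143 = true := by decide +kernel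

theorem cB19_11_3_31 : chunkOkM (LB19_11.ctx true true 100 1 1 1 1 1 1 1 1) muQ true true 64 RtB19_11.Cx RtB19_11.CX RtB19_11.Ctp.right.right.left.left RtB19_11.Ce.right.right.right RtB19_11.CTp.right RtB19_11.CEr.right 0x49 = true := by decide +kernel

theorem cB19_11_3_32 : chunkOkM (LB19_11.ctx true true 225 19 8 15 16 106 399 16 33) muQ true true 64 RtB19_11.Cx RtB19_11.CX RtB19_11.Ctp.right.right.left.right.left RtB19_11.Ce.right.right.right.left.left RtB19_11.CTp.right RtB19_11.CEr.right 0x6ac397048f52a6d7eb7d9f420d = true := by decide +kernel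

theorem cB19_11_3_33 : chunkOkM (LB19_11.ctx true true 240 37 16 15 16 218 791 16 33) muQ true true 64 RtB19_11.Cx.left RtB19_11.CX RtB19_11.Ctp.right.right.left.right.right.left RtB19_11.Ce.right.right.right.left.left.left RtB19_11.CTp.right RtB19_11.CEr.right 0x1442c4178b126bcc6f8e1fc21468f6d3a9af7f39f53a748ca93daf450d = true := by decide +kernel

theorem cB19_11_3_34 : chunkOkM (LB19_11.ctx true true 273 147 64 15 16 446 1575 128 77) muQ true true 64 RtB19_11.Cx.left.left RtB19_11.CX RtB19_11.Ctp.right.right.left.right.right.right RtB19_11.Ce.right.right.right.left.left.left RtB19_11.CTp.right RtB19_11.CEr.right 0x213590d2375ccd94d5f91194518a8f61da527c18f540d6a630b604d75c1152dfd78b15c017d18f61d2cf3d38f55c04e46f250d4a542555932174 = true := by decide +kernel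

theorem cB19_11_3_35 : chunkOkM (LB19_11.ctx true true 283 151 64 57 64 446 1575 256 33) muQ true true 64 RtB19_11.Cx.left.right RtB19_11.CX RtB19_11.Ctp.right.right.left.right.right.right RtB19_11.Ce.right.right.right.left.left.left.left RtB19_11.CTp.right.left RtB19_11.CEr.right 0x4a4a352b1b875c1cc2a469b1b8312738f6245368bf8f540d2b34d2675c17de559b1e49d9038f627724b3d8f5481502f7f450d32de985575c56aa059b1c8a624a8f61f73846e8f540d313554275c1a072f69b1ea33d468f62653e6b28f540d37884a54a5425 = true := by decide +kernel

theorem cB19_11_3_36 : chunkOkM (LB19_11.ctx true true 273 151 64 15 16 886 3157 35 77) muQ true true 64 RtB19_11.Cx.left.right RtB19_11.CX RtB19_11.Ctp.right.right.left.right.right.right RtB19_11.Ce.right.right.right.left.left.left.left RtB19_11.CTp.right.right RtB19_11.CEr.right 0x3b144fd3a1183675c27bb966f9206e98cc8f6234d7b198f550d39f5a3e75c27bdf36f91ee5868c8f61e7d86608f540d73e2ec9875c3a3f686f9a6413927f6237b2c4e8f540d3d5e4a375c3e283e6f91abcbb418f6270c70918f5e66f9147f450d33d23a5375c43bdf06f91e0fdd968f62530a96a8f553ca7d57f450d43c3a5ab75c3e44876f91978db728f625220b748f540d736a6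 = true := by decide +kernel

end Vale.Agent.helper4.Q4
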