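import Vale.Agent.helper4.Q4TreeM
import Vale.Agent.helper4.Q4G.PB19_11

/-!
Checks for pairs of intervals of second moments.
-/

set_option maxRecDepth 100000
set_option linter.unusedVariables false

namespace Vale.Agent.helper4.Q4

theorem cB19_11_3_37 : chunkOkM (LB19_11.ctx true true 283 151 64 57 64 446 1589 256 33) muQ true true 64 RtB19_11.Cx.left.right RtB19_11.CX RtB19_11.Ctp.right.right.left.right.right.right RtB19_11.Ce.right.right.right.left.left.left.right RtB19_11.CTp.right.left RtB19_11.CEr.right 0x4a4a2bfe76c75c4622c59b1b6224098f62480810f8f540d32bfda675c1093f469b1877f9228f6222102bc8f540d72f1fa4675c11cdd59b181baede8f6293546608f588dc71a7f450d5973884a54a5425 = true := by decide +kernel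

theorem cB19_11_3_38 : chunkOkM (LB19_11.ctx true true 272 151 64 15 16 446 3185 35 165) muQ true true 64 RtB19_11.Cx.left.right RtB19_11.CX RtB19_11.Ctp.right.right.left.right.right.right RtB19_11.Ce.right.right.right.left.left.left.right RtB19_11.CTp.right.right RtB19_11.CEr.right 0x3e425c275c321d0b6f929f718818f625a06fb28f540d3c54c4175c32aaec348f62764e90a8f530d43a5c36d75c21a24f6f9171379388f6223e46ce8f540d73993e5d75c45e94a6f96b11f867f628c112608f513829dda8f450d4d96c2175c51d41c6f98086db67f626857ce28f5c89ff0e7f450d3f4d7c175ca60aca37f626f08c618f5a48493b7f440d6459736a6 = true := by decide +kernel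

theorem cB19_11_3_39 : chunkOkM (LB19_11.ctx true true 275 303 128 15 16 446 3199 35 77) muQ true true 64 RtB19_11.Cx.left RtB19_11.CX RtB19_11.Ctp.right.right.left.right.right RtB19_11.Ce.right.right.right.left.left.right RtB19_11.CTp.right RtB19_11.CEr.right 0x5959440bbde75c18d1406f92c7bb6068f627de86b38f540d6a63cdec0f75c23de37878b3e8c41e88f62b3e70098f540d559745975934217593 = true := by decide +kernel

theorem cB19_11_3_40 : chunkOkM (LB19_11.ctx true true 100 1 1 1 1 1 1 1 1) muQ true true 64 RtB19_11.Cx.right RtB19_11.CX RtB19_11.Ctp.right.right.left.right.right.left RtB19_11.Ce.right.right.right.left.left RtB19_11.CTp.right RtB19_11.CEr.right 0x49 = true := by decide +kernel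

theorem cB19_11_3_41 : chunkOkM (LB19_11.ctx true true 100 1 1 1 1 1 1 1 1) muQ true true 64 RtB19_11.Cx.right RtB19_11.CX RtB19_11.Ctp.right.right.left.right.right.right.left RtB19_11.Ce.right.right.right.left.left RtB19_11.CTp.right RtB19_11.CEr.right 0x49 = true := by decide +kernel

theorem cB19_11_3_42 : chunkOkM (LB19_11.ctx true true 260 77 32 15 16 446 1589 35 77) muQ true true 64 RtB19_11.Cx.right RtB19_11.CX RtB19_11.Ctp.right.right.left.right.right.right.right RtB19_11.Ce.right.right.right.left.left.left RtB19_11.CTp.right RtB19_11.CEr.right 0x113f8018875c2cb0646f9239908238f624ad22c28f5b0983697f450d6a63512c4c75c1fd335b78b2369d2628f6251ec3d08f5c3eae857f450d57694 = true := by decide +kernel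

theorem cB19_11_3_43 : chunkOkM (LB19_11.ctx true true 298 153 64 57 64 894 3213 256 165) muQ true true 64 RtB19_11.Cx.right.left.left RtB19_11.CX RtB19_11.Ctp.right.right.left.right.right.right.right RtB19_11.Ce.right.right.right.left.left.right.left RtB19_11.CTp.right RtB19_11.CEr.right 0x43e213175c364c036f91ed860dc8f6294ad10d8f5b5d398e7f450d399db1d75cef0c99f7f6291e13338f563329fe7f440d6bbd135fd422cfff75c30324a6f910240b008f62442444a8f550dbf1cf5fd41a79dc75c1801ac218f6275f670a8f5e5ef1c87f450d346a64a4a4d268c275c293ee7608f62abb43af8f5770cadb7f440d2777dca78f05b641e326d75c1c250f248f62833b5d88f5591035d7f440d248e41e78f05b64884a54a54255 = true := by decide +kernel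

theorem cB19_11_3_44 : chunkOkM (LB19_11.ctx true true 279 307 128 15 16 894 3227 35 77) muQ true true 64 RtB19_11.Cx.right.left.left RtB19_11.CX RtB19_11.Ctp.right.right.left.right.right.right.right RtB19_11.Ce.right.right.right.left.left.right.right RtB19_11.CTp.right RtB19_11.CEr.right 0x592d2409475c7947b76f91a931d818f628f898f18f5d07a04a7f450d6a6394b61f75c208ede178b18134d318f628ab46768f5c775d7e7f450d54935974 = true := by decide +kernel

theorem cB19_11_3_45 : chunkOkM (LB19_11.ctx true true 100 1 1 1 1 1 1 1 1) muQ true true 64 RtB19_11.Cx.right.left.right RtB19_11.CX RtB19_11.Ctp.right.right.left.right.right.right.right RtB19_11.Ce.right.right.right.left.left.right RtB19_11.CTp.right RtB19_11.CEr.right 0x49 = true := by decide +kernel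

theorem cB19_11_3_46 : chunkOkM (LB19_11.ctx true true 100 1 1 1 1 1 1 1 1) muQ true true 64 RtB19_11.Cx.right.right RtB19_11.CX RtB19_11.Ctp.right.right.left.right.right.right.right RtB19_11.Ce.right.right.right.left.left.right RtB19_11.CTp.right RtB19_11.CEr.right 0x49 = true := by decide +kernel

theorem cB19_11_3_47 : chunkOkM (LB19_11.ctx true true 222 19 8 15 16 54 413 16 33) muQ true true 64 RtB19_11.Cx RtB19_11.CX RtB19_11.Ctp.right.right.left.right RtB19_11.Ce.right.right.right.left.right RtB19_11.CTp.right RtB19_11.CEr.right 0x2d210766c347bfb69b7cd0786889f52320eba506af440d = true := by decide +kernel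

theorem cB19_11_3_48 : chunkOkM (LB19_11.ctx true true 100 1 1 1 1 1 1 1 1) muQ true true 64 RtB19_11.Cx RtB19_11.CX RtB19_11.Ctp.right.right.left.right RtB19_11.Ce.right.right.right.right RtB19_11.CTp.right RtB19_11.CEr.right 0x59 = true := by decide +kernel

theorem cB19_11_3_49 : chunkOkM (LB19_11.ctx true true 277 147 64 15 16 898 1575 128 77) muQ true true 64 RtB19_11.Cx.left.left RtB19_11.CX RtB19_11.Ctp.right.right.right.left.left.left RtB19_11.Ce.right.right.right.left.left.left RtB19_11.CTp.right RtB19_11.CEr.right 0x210101377cbf175c272b3f6f911fd14f98f61857a6368f5796a9a57f250d6a62f9feab75c10df5eb78b11644a298f618fc1e818f58d81df87f250d4a54255330174 = true := by decide +kernel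

theorem cB19_11_3_50 : chunkOkM (LB19_11.ctx true true 272 149 64 15 16 450 3157 64 77) muQ true true 64 RtB19_11.Cx.left.right RtB19_11.CX RtB19_11.Ctp.right.right.right.left.left.left RtB19_11.Ce.right.right.right.left.left.left.left RtB19_11.CTp.right RtB19_11.CEr.right 0x1111370214c75c25a8696f922d60e068f6186570d68f54e9e4637f250d6a62f3b22575c113318878b2a6c43738f61943e31a8f51ffe6957f250d425521b05c255361275c1693d2e78b20d5473 = true := by decide +kernel

theorem cB19_11_3_51 : chunkOkM (LB19_11.ctx true true 291 149 64 57 64 454 3185 256 77) muQ true true 64 RtB19_11.Cx.left.right.left RtB19_11.CX RtB19_11.Ctp.right.right.right.left.left.left RtB19_11.Ce.right.right.right.left.left.left.right RtB19_11.CTp.right RtB19_11.CEr.right 0x38fe33175cfe6af5f911be6bd76baf1377dbe2964af040d37fbf4175cf528f5f91aebc93a8f61ca693e98f51582b517f250d362a6e375c1335a86f9211e6df98f61b021e948f511c720e7f250d436a64a4a36baba075cef5fb2d7f6eed24e9c29f12eb4e9e47eaf040d4b1ff7c75c29db4b778b325bbb148f61bad6b528f540d331456275c17abba69b8769aff7f61cebd98e8f551eddd27f250d63884a54a54255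 = true := by decide +kernel

theorem cB19_11_3_52 : chunkOkM (LB19_11.ctx true true 269 151 64 15 16 450 3185 35 77) muQ true true 64 RtB19_11.Cx.left.right.right RtB19_11.CX RtB19_11.Ctp.right.right.right.left.left.left RtB19_11.Ce.right.right.right.left.left.left.right RtB19_11.CTp.right RtB19_11.CEr.right 0x11476bd2475c269cb4298f61d444bc18f530d6a63412b9875c1ac5eac78b2171ea428f61f404f3b8f540d531b05c360e37475c1ba82f678b20d543 = true := by decide +kernel

theorem cB19_11_3_53 : chunkOkM (LB19_11.ctx true true 100 1 1 1 1 1 1 1 1) muQ true true 64 RtB19_11.Cx.left.left RtB19_11.CX RtB19_11.Ctp.right.right.right.left.left.left RtB19_11.Ce.right.right.right.left.left.right RtB19_11.CTp.right RtB19_11.CEr.right 0x21 = true := by decide +kernel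

theorem cB19_11_3_54 : chunkOkM (LB19_11.ctx true true 302 599 256 57 64 454 3199 256 77) muQ true true 64 RtB19_11.Cx.left.right RtB19_11.CX RtB19_11.Ctp.right.right.right.left.left.left RtB19_11.Ce.right.right.right.left.left.right.left RtB19_11.CTp.right RtB19_11.CEr.right 0x3d3168075ce8bab5f91a47c6e98f61af87e528f554d08bb7f250dc869e5fd3b771b975ceee135f919baba288f620f308088f550d3213b974fa75c1b17546f92cf7653f8f61b3a0aa78f58c954757f250d476a64a4a54b740175cf9ca4397f61da31fec8f5216fe897f240d2c9b7869b4868329d8f613b520e58f530d634072b875c7436859b175f06c88f6216d89108f540d321316254375c10e99769b1b4787ad8f618ec6b578f57b062057f250d2efa83575c2ba2b568b1dff8a008f61d33b1b68f540d321721747884a54a54255 = true := by decide +kernel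

theorem cB19_11_3_55 : chunkOkM (LB19_11.ctx true true 287 151 64 57 64 454 1617 256 77) muQ true true 64 RtB19_11.Cx.left.right RtB19_11.CX RtB19_11.Ctp.right.right.right.left.left.left RtB19_11.Ce.right.right.right.left.left.right.right RtB19_11.CTp.right RtB19_11.CEr.right 0x3a1710675c1a8c35958f61e276f728f534600887f240dbf4aa5fd41bfe7975c12d6276f913b5c7808f623761c398f550d36a64a4a70112c875c99fa359be012f5b7f62145927c8f540d210c69708f05b6310c66b75c99d3f59b264a296d8f62105a98a8f540d3884a54a54255217 = true := by decide +kernel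

theorem cB19_11_3_56 : chunkOkM (LB19_11.ctx true true 100 1 1 1 1 1 1 1 1) muQ true true 64 RtB19_11.Cx.left RtB19_11.CX RtB19_11.Ctp.right.right.right.left.left.right RtB19_11.Ce.right.right.right.left.left RtB19_11.CTp.right RtB19_11.CEr.right 0x01 = true := by decide +kernel

theorem cB19_11_3_57 : chunkOkM (LB19_11.ctx true true 100 1 1 1 1 1 1 1 1) muQ true true 64 RtB19_11.Cx.right RtB19_11.CX RtB19_11.Ctp.right.right.right.left.left RtB19_11.Ce.right.right.right.left.left.left RtB19_11.CTp.right RtB19_11.CEr.right 0x69 = true := by decide +kernel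

end Vale.Agent.helper4.Q4
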