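import Vale.Agent.helper4.Q4TreeM
import Vale.Agent.helper4.Q4G.PB19_11

/-!
Checks for pairs of intervals of second moments.
-/

set_option maxRecDepth 100000
set_option linter.unusedVariables false

namespace Vale.Agent.helper4.Q4

theorem cB19_11_3_58 : chunkOkM (LB19_11.ctx true true 266 153 64 15 16 450 1603 35 77) muQ true true 64 RtB19_11.Cx.right.left RtB19_11.CX RtB19_11.Ctp.right.right.right.left.left.left RtB19_11.Ce.right.right.right.left.left.right.left RtB19_11.CTp.right RtB19_11.CEr.right 0x69693e467ff75c116c5a6f929bc2ad68f624a642f58f540d6a6372df9175c21e81ce78b1d6c2ed88f623c175c88f540d573 = true := by decide +kernel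

theorem cB19_11_3_59 : chunkOkM (LB19_11.ctx true true 290 153 64 57 64 454 3241 256 77) muQ true true 64 RtB19_11.Cx.right.left.left RtB19_11.CX RtB19_11.Ctp.right.right.right.left.left.left RtB19_11.Ce.right.right.right.left.left.right.right RtB19_11.CTp.right RtB19_11.CEr.right 0x42db13f75c140795158f61f2c8f7d8f530da3adc5fd40d383375c1fba15f930e015188f62931d1cf8f550d431be8675c1cbce26f928b3c0c38f625d19cb38f540d436a64a4a343621775c60f3859b24c998488f61fe172758f540d31984e775c12243869b3def93a28f61ef12b478f540d445779e675c11b639578f6269ff4098f530d2563924b8f05b63884a54a54255 = true := by decide +kernel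

theorem cB19_11_3_60 : chunkOkM (LB19_11.ctx true true 294 155 64 57 64 902 3241 256 77) muQ true true 64 RtB19_11.Cx.right.left.right RtB19_11.CX RtB19_11.Ctp.right.right.right.left.left.left RtB19_11.Ce.right.right.right.left.left.right.right RtB19_11.CTp.right RtB19_11.CEr.right 0x694424e2675c3204d06f9150289f78f62526c4cf8f540d912ef5fd421156075c2014f28d8f6287a70ef8f5d1c8fce7f450d3427617175c185ca46f94027449d8f6b0b0a87d8f440d46a64a4a4a184c875c2a5113e48f6283eb6108f57b4af587f440d23d46d1c8f05b63ade19675c2146c10c8f6a5e092948f430d4884a54a542553 = true := by decide +kernel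

theorem cB19_11_3_61 : chunkOkM (LB19_11.ctx true true 100 1 1 1 1 1 1 1 1) muQ true true 64 RtB19_11.Cx.right.right RtB19_11.CX RtB19_11.Ctp.right.right.right.left.left.left RtB19_11.Ce.right.right.right.left.left.right RtB19_11.CTp.right RtB19_11.CEr.right 0x69 = true := by decide +kernel

theorem cB19_11_3_62 : chunkOkM (LB19_11.ctx true true 240 39 16 15 16 230 805 16 33) muQ true true 64 RtB19_11.Cx.right RtB19_11.CX RtB19_11.Ctp.right.right.right.left.left.right RtB19_11.Ce.right.right.right.left.left.right RtB19_11.CTp.right RtB19_11.CEr.right 0xcb406de75c4ef747978b10b26baf01af1351109cd2aaf040d = true := by decide +kernel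

theorem cB19_11_3_63 : chunkOkM (LB19_11.ctx true true 226 19 8 15 16 118 399 16 33) muQ true true 64 RtB19_11.Cx RtB19_11.CX RtB19_11.Ctp.right.right.right.left.right RtB19_11.Ce.right.right.right.left.left RtB19_11.CTp.right RtB19_11.CEr.right 0x287054f78f00b = true := by decide +kernel

theorem cB19_11_3_64 : chunkOkM (LB19_11.ctx true true 100 1 1 1 1 1 1 1 1) muQ true true 64 RtB19_11.Cx.left RtB19_11.CX RtB19_11.Ctp.right.right.right.left RtB19_11.Ce.right.right.right.left.right RtB19_11.CTp.right RtB19_11.CEr.right 0x21 = true := by decide +kernel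

theorem cB19_11_3_65 : chunkOkM (LB19_11.ctx true true 290 155 64 57 64 454 3269 256 77) muQ true true 64 RtB19_11.Cx.right.left RtB19_11.CX RtB19_11.Ctp.right.right.right.left.left.left RtB19_11.Ce.right.right.right.left.right.left.left RtB19_11.CTp.right.left RtB19_11.CEr.right 0x4a4a4e9ccdc75cabe79b68bcb9d9497f6254438388f540d22bf64c18f05b6411b0df75c16ebaf69b1df73e758f6253f7aa78f540d443e02a775c1555abc58f6235984168f530d240843e08f05b6748be7fc75c16193cf48f629cffe348f5ab809d77f440d3f9013c75c9332a59b1fb8b7e68f62b0e0d448f59e5f7c97f450d63e45d8775c139dfe69b21d1423c8f6295bea738f540d73884a54a5425 = true := by decide +kernel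

theorem cB19_11_3_66 : chunkOkM (LB19_11.ctx true true 100 1 1 1 1 1 1 1 1) muQ true true 64 RtB19_11.Cx.right.left RtB19_11.CX RtB19_11.Ctp.right.right.right.left.left.left RtB19_11.Ce.right.right.right.left.right.left.left RtB19_11.CTp.right.right RtB19_11.CEr.right.left 0x6a = true := by decide +kernel

theorem cB19_11_3_67 : chunkOkM (LB19_11.ctx true true 282 311 128 15 16 902 3269 35 165) muQ true true 64 RtB19_11.Cx.right.left RtB19_11.CX RtB19_11.Ctp.right.right.right.left.left.left.left RtB19_11.Ce.right.right.right.left.right.left.left RtB19_11.CTp.right.right RtB19_11.CEr.right.right 0x455c41475c5f543b6f91a7593e78f628c1999a8f5f5adee37f450dbfa0676fd39f818c75c1eca999d8f626b7e6e98f5edd4f8c7f450d644d121f75c1163146f92346cb298f627667d6d8f5812e5ad7f450d47bebce75c1d3faa6f8f627bf329b8f5284ba097f440d74bc5e8d75cbc6e5fa7f6273518168f516beb2588f440d344ec765e75c2e0182038f626637ce48f530d7 = true := by decide +kernel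

theorem cB19_11_3_68 : chunkOkM (LB19_11.ctx true true 269 155 64 15 16 454 3269 35 77) muQ true true 64 RtB19_11.Cx.right.left RtB19_11.CX RtB19_11.Ctp.right.right.right.left.left.left.right RtB19_11.Ce.right.right.right.left.right.left.left RtB19_11.CTp.right.right RtB19_11.CEr.right.right 0x475b0b675c1113ec6f91dd281418f6252e4dbb8f540d5152b9475c1f64841f8f622012add8f530d47b6f15fd3cfc9cf75c1d4c91e58f6231daa0d8f540d7 = true := by decide +kernel

theorem cB19_11_3_69 : chunkOkM (LB19_11.ctx true true 294 155 64 57 64 454 3297 256 165) muQ true true 64 RtB19_11.Cx.right.left RtB19_11.CX RtB19_11.Ctp.right.right.right.left.left.left RtB19_11.Ce.right.right.right.left.right.left.right RtB19_11.CTp.right RtB19_11.CEr.right 0x47c6b8575c313cb0d58f6289228298f530d8809d96fd59035e175c1e97f16f91068b1048f6266f2ff48f550d470ae3675c10760ebd8f627871e3b8f530d642a47f3a75ca59bfd6f9468e43bfe9f514baaada36af440d36a64a4a529b28175c34bdc669b17a669e28f629953f088f540d2793a9528f05b6685c63775c43a7797479f5139b95a8beaf430d3884a54a54255597 = true := by decide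 +kernel

theorem cB19_11_3_70 : chunkOkM (LB19_11.ctx true true 291 155 64 57 64 458 3269 256 77) muQ true true 64 RtB19_11.Cx.right.left RtB19_11.CX RtB19_11.Ctp.right.right.right.left.left.right RtB19_11.Ce.right.right.right.left.right.left.left RtB19_11.CTp.right RtB19_11.CEr.right 0x114bbc27975cee3ba0fb8f61bd33ba18f530d6a611433d7cd5175c2081d2d78b2136c2d88f61ffb9dc88f540d50146b2f2475c13f10c2f8f61b94a2f98f55a1a0617f240d6a64a4a4ccb12175ce6465777f61f89ef438f530d358f4c575c19de8569bb5ee0e57f61f18319d8f51487bf67f250d6884a54a5425537 = true := by decide +kernel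

theorem cB19_11_3_71 : chunkOkM (LB19_11.ctx true true 304 615 256 57 64 462 3283 256 77) muQ true true 64 RtB19_11.Cx.right.left RtB19_11.CX RtB19_11.Ctp.right.right.right.left.left.right RtB19_11.Ce.right.right.right.left.right.left.right RtB19_11.CTp.right RtB19_11.CEr.right 0x43e624c75c26f2d7d669f180cbb48379f030d426a53275c1b8873b28f620b50c5b8f530d3444da1c75c2eba59ae8f61cf5b3f08f59c80a6c7f240d76a64a4a8445946fd9e4e656f860167967b9f6841af9b18f12481604359f050d5a0054f75c44b89169b19aafacd8f623cf305e8f540d21a19faa8f05b632101383ce3d75ca999059b336147f78f61e7a92fa8f53dc1a0e7f250d321721747884a54a54255 = true := by decide +kernel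

theorem cB19_11_3_72 : chunkOkM (LB19_11.ctx true true 100 1 1 1 1 1 1 1 1) muQ true true 64 RtB19_11.Cx.right.right RtB19_11.CX RtB19_11.Ctp.right.right.right.left.left.left.left RtB19_11.Ce.right.right.right.left.right.left RtB19_11.CTp.right RtB19_11.CEr.right 0x49 = true := by decide +kernel

theorem cB19_11_3_73 : chunkOkM (LB19_11.ctx true true 100 1 1 1 1 1 1 1 1) muQ true true 64 RtB19_11.Cx.right.right RtB19_11.CX RtB19_11.Ctp.right.right.right.left.left.left.right RtB19_11.Ce.right.right.right.left.right.left.left RtB19_11.CTp.right RtB19_11.CEr.right 0x69 = true := by decide +kernel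

end Vale.Agent.helper4.Q4
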