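import Vale.Agent.helper4.Q4TreeM
import Vale.Agent.helper4.Q4G.PB19_11

/-!
Checks for pairs of intervals of second moments.
-/

set_option maxRecDepth 100000
set_option linter.unusedVariables false

namespace Vale.Agent.helper4.Q4

theorem cB19_11_3_74 : chunkOkM (LB19_11.ctx true true 291 157 64 57 64 454 3297 256 77) muQ true true 64 RtB19_11.Cx.right.right.left RtB19_11.CX RtB19_11.Ctp.right.right.right.left.left.left.right RtB19_11.Ce.right.right.right.left.right.left.right RtB19_11.CTp.right.left RtB19_11.CEr.right 0x4a4a4a6316b75c294a7dbd8f62ac8fea98f569528027f440d274624768f05b65b9f3c975c2b97a21e8f62a8117b78f5ae35fb67f440d21c03d328f05b64884a54a5425 = true := by decide +kernel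

theorem cB19_11_3_75 : chunkOkM (LB19_11.ctx true true 282 315 128 15 16 910 3297 35 77) muQ true true 64 RtB19_11.Cx.right.right.left RtB19_11.CX RtB19_11.Ctp.right.right.right.left.left.left.right RtB19_11.Ce.right.right.right.left.right.left.right RtB19_11.CTp.right.right RtB19_11.CEr.right 0x165ecae48fd219c18aa8baf6ff3570f579f430df9d24fd478b70575c163e21f38f6271b95308f521283067f450d7458250875c17b2fa608f62864f0aa8f511b180668f440d3442a05cdcf14fd447691275c1f7f70c78f6285b10d08f5bfcf9b67f450d346a6 = true := by decide +kernel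

theorem cB19_11_3_76 : chunkOkM (LB19_11.ctx true true 100 1 1 1 1 1 1 1 1) muQ true true 64 RtB19_11.Cx.right.right.right RtB19_11.CX RtB19_11.Ctp.right.right.right.left.left.left.right RtB19_11.Ce.right.right.right.left.right.left.right RtB19_11.CTp.right RtB19_11.CEr.right 0x49 = true := by decide +kernel

theorem cB19_11_3_77 : chunkOkM (LB19_11.ctx true true 269 157 64 15 16 458 3297 35 77) muQ true true 64 RtB19_11.Cx.right.right RtB19_11.CX RtB19_11.Ctp.right.right.right.left.left.right RtB19_11.Ce.right.right.right.left.right.left RtB19_11.CTp.right RtB19_11.CEr.right 0x11113d1f11775c439e84818f627db30b78f530d6a676943400e1bc75c27c140b78b16832b0a8f622c5e9878f540d5114 = true := by decide +kernel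

theorem cB19_11_3_78 : chunkOkM (LB19_11.ctx true true 300 315 128 57 64 454 3325 256 165) muQ true true 64 RtB19_11.Cx.right RtB19_11.CX RtB19_11.Ctp.right.right.right.left.left.left RtB19_11.Ce.right.right.right.left.right.right RtB19_11.CTp.right RtB19_11.CEr.right 0x495946c13a075c22e8881f8f6297892708f511fff3918f440d597492f13a75c3684d06f92c39e4e08f629581d7f8f5db248127f450dacb1c76fd3e8c38275c444594758f6298a102c8f511915ecb8f450d646a64a4a8e2e2e6fd511660575c73d1559b134403fd8f62b709a028f585ac7037f460d495537575caccb06b7f629c769468f5111bc4158f440d6884a54a5425547493597 = true := by decide +kernel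

theorem cB19_11_3_79 : chunkOkM (LB19_11.ctx true true 288 155 64 57 64 462 1659 256 77) muQ true true 64 RtB19_11.Cx.right.left RtB19_11.CX RtB19_11.Ctp.right.right.right.left.left.right RtB19_11.Ce.right.right.right.left.right.right RtB19_11.CTp.right RtB19_11.CEr.right 0x2146273c375c170da1c68f61dd703be8f55ed9ac27f240d43e624c75c1ecc6d308f623bb3b028f530d36a64a4a50238eb75c84e1759b1fc033bc8f620daf9e28f54c4ede17f250d316d62975ce98c259b4779a6268f62120e71f8f540d6884a54a542552174 = true := by decide +kernel

theorem cB19_11_3_80 : chunkOkM (LB19_11.ctx true true 294 159 64 57 64 458 3325 256 165) muQ true true 64 RtB19_11.Cx.right.right RtB19_11.CX RtB19_11.Ctp.right.right.right.left.left.right.left RtB19_11.Ce.right.right.right.left.right.right.left RtB19_11.CTp.right RtB19_11.CEr.right 0x4c6563a75c623795f920cb0a398f625e643fa8f5d38f0637f450d6a66944a4a5b7a65175c3684619a8f6281fd9688f5171397bf8f440d6f1b48f98f04b6886944a54a542554733e5775c57c68f6f93ad8b1dc8f628c821238f540d47a332f75c10730c4a8f6259c3f688f530d64b38d4275c139717308f624218c3b8f530d46a64a4a4541ec6fd49edc1375c4aded969b19dc66768f628fd10e88f550d2528323f8f05b6884a54a542557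 = true := by decide +kernel

theorem cB19_11_3_81 : chunkOkM (LB19_11.ctx true true 277 79 32 29 32 462 1659 256 77) muQ true true 64 RtB19_11.Cx.right.right RtB19_11.CX RtB19_11.Ctp.right.right.right.left.left.right.right RtB19_11.Ce.right.right.right.left.right.right.left RtB19_11.CTp.right RtB19_11.CEr.right 0x3fa101975c170d7a1b8f6201952f78f530d6a64a3faf96c75c12a65269b17393c448f62064fc658f540d84a54a54255 = true := by decide +kernel

theorem cB19_11_3_82 : chunkOkM (LB19_11.ctx true true 291 159 64 57 64 462 3353 256 77) muQ true true 64 RtB19_11.Cx.right.right RtB19_11.CX RtB19_11.Ctp.right.right.right.left.left.right RtB19_11.Ce.right.right.right.left.right.right.right RtB19_11.CTp.right.left RtB19_11.CEr.right 0x4a4a5e4e49175c10ed0ef28f6285049d78f530d1ebbbe3c8f05b669460a192d75cd286cd37f62a01cbc18f5dbc1d767f440d8f4c766fd322585875c1c52359bd606ab47f628fc352d8f5105a18a68f460d636f97d2375c15cc8fdd8f624856d8c8f530d23c801128f05b62c4ed56fd5203dd875c491b459b1735ffe48f6296559178f550d2a0cd03c8f05b637884a54a5425 = true := by decide +kernel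

theorem cB19_11_3_83 : chunkOkM (LB19_11.ctx true true 100 1 1 1 1 1 1 1 1) muQ true true 64 RtB19_11.Cx.right.right RtB19_11.CX RtB19_11.Ctp.right.right.right.left.left.right RtB19_11.Ce.right.right.right.left.right.right.right RtB19_11.CTp.right.right RtB19_11.CEr.right.left 0x6a = true := by decide +kernel

theorem cB19_11_3_84 : chunkOkM (LB19_11.ctx true true 270 157 64 15 16 458 1673 35 165) muQ true true 64 RtB19_11.Cx.right.right.left RtB19_11.CX RtB19_11.Ctp.right.right.right.left.left.right.left RtB19_11.Ce.right.right.right.left.right.right.right RtB19_11.CTp.right.right RtB19_11.CEr.right.right 0x54eb6c375c51f0a16f91c4339068f6272e803e8f540d3fd75bd75c23d2bd968f627b7e6f78f530d6 = true := by decide +kernel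

theorem cB19_11_3_85 : chunkOkM (LB19_11.ctx true true 286 317 128 15 16 918 6685 35 165) muQ true true 64 RtB19_11.Cx.right.right.right RtB19_11.CX RtB19_11.Ctp.right.right.right.left.left.right.left RtB19_11.Ce.right.right.right.left.right.right.right RtB19_11.CTp.right.right RtB19_11.CEr.right.right 0x469424975c5b86b46f9fe0e6a17f62822740a8f55c96fc37f450d28aefd075c2322e367f91334ebd689f65992ef1da9f51b8f18c774af450d33a1598f75cfe8b2aa7f6297a08798f5bc45bb57f440d669627c43e75c249ddf008f520d56d240275c222d1b558f628b3dbaf8f530d642f1b5d75c23d0679e8f520d474953cceae75c1f81566f917cb7a8a8f628cc24858f597d85bc7f450d467f42775c24b6cc7d8f627e06fdc8f5129332128f440d6734 = true := by decide +kernel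

theorem cB19_11_3_86 : chunkOkM (LB19_11.ctx true true 269 159 64 15 16 462 3353 35 77) muQ true true 64 RtB19_11.Cx.right.right RtB19_11.CX RtB19_11.Ctp.right.right.right.left.left.right.right RtB19_11.Ce.right.right.right.left.right.right.right RtB19_11.CTp.right.right RtB19_11.CEr.right.right 0x47f1f5f75c10d35b998f623f7737a8f530d4f8539c75c1bfa15a18f621e75c748f530d48451b075c1d6ed32e8f620e09fa58f530d47 = true := by decide +kernel

theorem cB19_11_3_87 : chunkOkM (LB19_11.ctx true true 232 39 16 15 16 118 413 16 33) muQ true true 64 RtB19_11.Cx.right RtB19_11.CX RtB19_11.Ctp.right.right.right.left.right RtB19_11.Ce.right.right.right.left.right RtB19_11.CTp.right RtB19_11.CEr.right 0x32d061e75c194acb878bcce5d06f63d5c2efe29f1cca5098039f050d = true := by decide +kernel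

theorem cB19_11_3_88 : chunkOkM (LB19_11.ctx true true 100 1 1 1 1 1 1 1 1) muQ true true 64 RtB19_11.Cx.left RtB19_11.CX RtB19_11.Ctp.right.right.right.left RtB19_11.Ce.right.right.right.right.left RtB19_11.CTp.right RtB19_11.CEr.right 0x21 = true := by decide +kernel

theorem cB19_11_3_89 : chunkOkM (LB19_11.ctx true true 100 1 1 1 1 1 1 1 1) muQ true true 64 RtB19_11.Cx.right.left RtB19_11.CX RtB19_11.Ctp.right.right.right.left RtB19_11.Ce.right.right.right.right.left.left RtB19_11.CTp.right RtB19_11.CEr.right 0x21 = true := by decide +kernel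

theorem cB19_11_3_90 : chunkOkM (LB19_11.ctx true true 100 1 1 1 1 1 1 1 1) muQ true true 64 RtB19_11.Cx.right.right RtB19_11.CX RtB19_11.Ctp.right.right.right.left.left.left RtB19_11.Ce.right.right.right.right.left.left RtB19_11.CTp.right RtB19_11.CEr.right 0x59 = true := by decide +kernel

end Vale.Agent.helper4.Q4
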