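import Vale.Agent.helper4.Q4TreeM
import Vale.Agent.helper4.Q4G.PB19_11

/-!
Checks for pairs of intervals of second moments.
-/

set_option maxRecDepth 100000
set_option linter.unusedVariables false

namespace Vale.Agent.helper4.Q4

theorem cB19_11_3_91 : chunkOkM (LB19_11.ctx true true 301 319 128 57 64 926 3395 256 77) muQ true true 64 RtB19_11.Cx.right.right RtB19_11.CX RtB19_11.Ctp.right.right.right.left.left.right RtB19_11.Ce.right.right.right.right.left.left RtB19_11.CTp.right.left RtB19_11.CEr.right 0x4a4a595924b7c75cace36068b1e0b52428f6299d86208f540d27d420718f05b659359742175935b49f8c75c18d12369b122268ef8f6285631c18f540d275a698d8f05b645463ae75c194b1b69b1b7c3f108f6258029368f540d716ac2247fd5f3f17775c15058e1f8f62b5c76b98f5d4dc38b7f450d2f35cade8f05b659734884a54a5425 = true := by decide +kernel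

theorem cB19_11_3_92 : chunkOkM (LB19_11.ctx true true 100 1 1 1 1 1 1 1 1) muQ true true 64 RtB19_11.Cx.right.right RtB19_11.CX RtB19_11.Ctp.right.right.right.left.left.right RtB19_11.Ce.right.right.right.right.left.left RtB19_11.CTp.right.right RtB19_11.CEr.right.left 0x6a = true := by decide +kernel

theorem cB19_11_3_93 : chunkOkM (LB19_11.ctx true true 277 159 64 15 16 918 3381 35 165) muQ true true 64 RtB19_11.Cx.right.right RtB19_11.CX RtB19_11.Ctp.right.right.right.left.left.right.left RtB19_11.Ce.right.right.right.right.left.left.left RtB19_11.CTp.right.right RtB19_11.CEr.right.right 0x57cde6675c2b72de8a49f5d54a9e3189f430d4d4cfc175c55b10a6f91ba4ffc18f62875434b8f5bc631fe7f450d46bbf1975c4b21626f9c6cef2a88f532daa2beb9f440d34409bd1575c1d939a548f62b7fcbd28f5d3c76cc7f440d6597 = true := by decide +kernel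

theorem cB19_11_3_94 : chunkOkM (LB19_11.ctx true true 273 159 64 15 16 462 3381 35 165) muQ true true 64 RtB19_11.Cx.right.right RtB19_11.CX RtB19_11.Ctp.right.right.right.left.left.right.right RtB19_11.Ce.right.right.right.right.left.left.left RtB19_11.CTp.right.right RtB19_11.CEr.right.right 0x5f62d8775c136bb5f91f51bd678f6294559aa8f540d10bbea27fd4abc76475c142c9ef68f62681d47d8f540d6525063675c2022206f91761df678f6273e36f58f540d43ed64475c121e30e08f626d514ff8f530d6444b8dab75c23ac663a8f623f91e7f8f530d7 = true := by decide +kernel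

theorem cB19_11_3_95 : chunkOkM (LB19_11.ctx true true 269 159 64 15 16 462 3395 35 77) muQ true true 64 RtB19_11.Cx.right.right RtB19_11.CX RtB19_11.Ctp.right.right.right.left.left.right RtB19_11.Ce.right.right.right.right.left.left.right RtB19_11.CTp.right.right RtB19_11.CEr.right.right 0x59470643475c336df7a18f6287addff8f530d4217593 = true := by decide +kernel

theorem cB19_11_3_96 : chunkOkM (LB19_11.ctx true true 288 159 64 57 64 466 1687 256 77) muQ true true 64 RtB19_11.Cx.right.right RtB19_11.CX RtB19_11.Ctp.right.right.right.left.right.left.left RtB19_11.Ce.right.right.right.right.left.left.left RtB19_11.CTp.right RtB19_11.CEr.right 0x42620f775c18a018a18f620eae0bb8f530d3ddaff075cf5741b07f61deab7ef8f5c3ec5ae7f240d76a64a4a6da9b7c75c16a158058f622c1a0af8f5d518a06f240d1f9976218f05b6432bcdf75c151b7c69b16cf2dfb8f61fc07ade8f59e346847f250d7884a54a54255 = true := by decide +kernel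

theorem cB19_11_3_97 : chunkOkM (LB19_11.ctx true true 291 159 64 57 64 466 3409 256 77) muQ true true 64 RtB19_11.Cx.right.right RtB19_11.CX RtB19_11.Ctp.right.right.right.left.right.left.left RtB19_11.Ce.right.right.right.right.left.left.right RtB19_11.CTp.right RtB19_11.CEr.right 0x40f219e75c1b2cc8d48f624bb67328f530d465a73a75c1e9f16c58f6228879728f51165cb57f240d46a64a4a814104575c1694f3018f6272148fa8f530d25b845f58f05b6884a54a54255217 = true := by decide +kernel

theorem cB19_11_3_98 : chunkOkM (LB19_11.ctx true true 100 1 1 1 1 1 1 1 1) muQ true true 64 RtB19_11.Cx.right.right RtB19_11.CX RtB19_11.Ctp.right.right.right.left.right.left.right RtB19_11.Ce.right.right.right.right.left.left RtB19_11.CTp.right RtB19_11.CEr.right 0x01 = true := by decide +kernel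

theorem cB19_11_3_99 : chunkOkM (LB19_11.ctx true true 100 1 1 1 1 1 1 1 1) muQ true true 64 RtB19_11.Cx.right.right RtB19_11.CX RtB19_11.Ctp.right.right.right.left.right.right RtB19_11.Ce.right.right.right.right.left.left RtB19_11.CTp.right RtB19_11.CEr.right 0x01 = true := by decide +kernel

theorem cB19_11_3_100 : chunkOkM (LB19_11.ctx true true 100 1 1 1 1 1 1 1 1) muQ true true 64 RtB19_11.Cx.right RtB19_11.CX RtB19_11.Ctp.right.right.right.left RtB19_11.Ce.right.right.right.right.left.right RtB19_11.CTp.right RtB19_11.CEr.right 0x21 = true := by decide +kernel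

theorem cB19_11_3_101 : chunkOkM (LB19_11.ctx true true 100 1 1 1 1 1 1 1 1) muQ true true 64 RtB19_11.Cx RtB19_11.CX RtB19_11.Ctp.right.right.right.left RtB19_11.Ce.right.right.right.right.right RtB19_11.CTp.right RtB19_11.CEr.right 0x21 = true := by decide +kernel

theorem cB19_11_3_102 : chunkOkM (LB19_11.ctx true true 100 1 1 1 1 1 1 1 1) muQ true true 64 RtB19_11.Cx RtB19_11.CX RtB19_11.Ctp.right.right.right.right RtB19_11.Ce.right.right.right RtB19_11.CTp.right RtB19_11.CEr.right 0x01 = true := by decide +kernel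

theorem cB19_11_2_0 : chunkOkM (LB19_11.ctx false true 100 1 1 1 1 1 1 1 1) muQ false true 64 RtB19_11.Cx RtB19_11.CX RtB19_11.Ctn RtB19_11.Ce RtB19_11.CTp RtB19_11.CEr 0x49 = true := by decide +kernel

theorem cB19_11_1_0 : chunkOkM (LB19_11.ctx true false 100 1 1 1 1 1 1 1 1) muQ true false 64 RtB19_11.Cx RtB19_11.CX RtB19_11.Ctp RtB19_11.Ce RtB19_11.CTn RtB19_11.CEr 0x4a = true := by decide +kernel

theorem cB19_11_0_0 : chunkOkM (LB19_11.ctx false false 100 1 1 1 1 1 1 1 1) muQ false false 64 RtB19_11.Cx RtB19_11.CX RtB19_11.Ctn RtB19_11.Ce RtB19_11.CTn RtB19_11.CEr 0x49 = true := by decide +kernel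

end Vale.Agent.helper4.Q4
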