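import Vale.Agent.helper4.Q4TreeM
import Vale.Agent.helper4.Q4G.PB19_11_0
import Vale.Agent.helper4.Q4G.PB19_11_1
import Vale.Agent.helper4.Q4G.PB19_11_2
import Vale.Agent.helper4.Q4G.PB19_11_3
import Vale.Agent.helper4.Q4G.PB19_11_4
import Vale.Agent.helper4.Q4G.PB19_11_5

/-!
Checks for pairs of intervals of second moments.
-/

set_option maxRecDepth 100000
set_option linter.unusedVariables false

namespace Vale.Agent.helper4.Q4

theorem covB19_11 : LB19_11.Full muQ.val RtB19_11 := ⟨(LitT.Cov.split_t (LitT.cov_of_chunkM cB19_11_3_0) (LitT.Cov.split_e (LitT.cov_of_chunkM cB19_11_3_1) (LitT.Cov.split_t (LitT.cov_of_chunkM cB19_11_3_2) (LitT.Cov.split_e (LitT.cov_of_chunkM cB19_11_3_3) (LitT.Cov.split_T (LitT.cov_of_chunkM cB19_11_3_4) (LitT.Cov.split_E (LitT.cov_of_chunkM cB19_11_3_5) (LitT.Cov.split_e (LitT.Cov.split_t (LitT.Cov.split_t (LitT.cov_of_chunkM cB19_11_3_6)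 (LitT.Cov.split_e (LitT.cov_of_chunkM cB19_11_3_7) (LitT.Cov.split_e (LitT.Cov.split_t (LitT.Cov.split_t (LitT.cov_of_chunkM cB19_11_3_8) (LitT.Cov.split_e (LitT.cov_of_chunkM cB19_11_3_9) (LitT.Cov.split_x (LitT.Cov.split_x (LitT.Cov.split_e (LitT.cov_of_chunkM cB19_11_3_10) (LitT.cov_of_chunkM cB19_11_3_11)) (LitT.cov_of_chunkM cB19_11_3_12)) (LitT.cov_of_chunkM cB19_11_3_13)))) (LitT.cov_of_chunkM cB19_11_3_14)) (LitT.Cov.split_t (LitT.cov_of_chunkM cB19_11_3_15) (LitT.Cov.split_x (LitT.Cov.split_e (LitT.Cov.split_t (LitT.Cov.split_x (LitT.Cov.split_e (LitT.Cov.split_x (LitT.cov_of_chunkM cB19_11_3_16) (LitT.cov_of_chunkM cB19_11_3_17)) (LitT.cov_of_chunkM cB19_11_3_18)) (LitT.cov_of_chunkM cB19_11_3_19)) (LitT.cov_of_chunkM cB19_11_3_20)) (LitT.Cov.split_x (LitT.Cov.split_t (LitT.cov_of_chunkM cB19_11_3_21) (LitT.Cov.split_e (LitT.Cov.split_x (LitT.cov_of_chunkM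 cB19_11_3_22) (LitT.cov_of_chunkM cB19_11_3_23)) (LitT.cov_of_chunkM cB19_11_3_24))) (LitT.Cov.split_t (LitT.Cov.split_x (LitT.Cov.split_e (LitT.cov_of_chunkM cB19_11_3_25) (LitT.cov_of_chunkM cB19_11_3_26)) (LitT.cov_of_chunkM cB19_11_3_27)) (LitT.cov_of_chunkM cB19_11_3_28)))) (LitT.cov_of_chunkM cB19_11_3_29)))))) (LitT.cov_of_chunkM cB19_11_3_30)) (LitT.Cov.split_t (LitT.Cov.split_t (LitT.cov_of_chunkM cB19_11_3_31) (LitT.Cov.split_e (LitT.Cov.split_e (LitT.Cov.split_t (LitT.cov_of_chunkM cB19_11_3_32) (LitT.Cov.split_x (LitT.Cov.split_e (LitT.Cov.split_t (LitT.cov_of_chunkM cB19_11_3_33) (LitT.Cov.split_x (LitT.cov_of_chunkM cB19_11_3_34) (LitT.Cov.split_e (LitT.Cov.split_T (LitT.cov_of_chunkM cB19_11_3_35) (LitT.cov_of_chunkM cB19_11_3_36)) (LitT.Cov.split_T (LitT.cov_of_chunkM cB19_11_3_37) (LitT.cov_of_chunkM cB19_11_3_38))))) (LitT.cov_of_chunkM cB19_11_3_39))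 (LitT.Cov.split_t (LitT.cov_of_chunkM cB19_11_3_40) (LitT.Cov.split_t (LitT.cov_of_chunkM cB19_11_3_41) (LitT.Cov.split_e (LitT.cov_of_chunkM cB19_11_3_42) (LitT.Cov.split_x (LitT.Cov.split_x (LitT.Cov.split_e (LitT.cov_of_chunkM cB19_11_3_43) (LitT.cov_of_chunkM cB19_11_3_44)) (LitT.cov_of_chunkM cB19_11_3_45)) (LitT.cov_of_chunkM cB19_11_3_46))))))) (LitT.cov_of_chunkM cB19_11_3_47)) (LitT.cov_of_chunkM cB19_11_3_48))) (LitT.Cov.split_t (LitT.Cov.split_e (LitT.Cov.split_e (LitT.Cov.split_t (LitT.Cov.split_x (LitT.Cov.split_t (LitT.Cov.split_e (LitT.Cov.split_x (LitT.cov_of_chunkM cB19_11_3_49) (LitT.Cov.split_e (LitT.cov_of_chunkM cB19_11_3_50) (LitT.Cov.split_x (LitT.cov_of_chunkM cB19_11_3_51) (LitT.cov_of_chunkM cB19_11_3_52)))) (LitT.Cov.split_x (LitT.cov_of_chunkM cB19_11_3_53) (LitT.Cov.split_e (LitT.cov_of_chunkM cB19_11_3_54) (LitT.cov_of_chunkM cB19_11_3_55))))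 (LitT.cov_of_chunkM cB19_11_3_56)) (LitT.Cov.split_e (LitT.cov_of_chunkM cB19_11_3_57) (LitT.Cov.split_t (LitT.Cov.split_x (LitT.Cov.split_e (LitT.cov_of_chunkM cB19_11_3_58) (LitT.Cov.split_x (LitT.cov_of_chunkM cB19_11_3_59) (LitT.cov_of_chunkM cB19_11_3_60))) (LitT.cov_of_chunkM cB19_11_3_61)) (LitT.cov_of_chunkM cB19_11_3_62)))) (LitT.cov_of_chunkM cB19_11_3_63)) (LitT.Cov.split_x (LitT.cov_of_chunkM cB19_11_3_64) (LitT.Cov.split_t (LitT.Cov.split_e (LitT.Cov.split_x (LitT.Cov.split_t (LitT.Cov.split_e (LitT.Cov.split_T (LitT.cov_of_chunkM cB19_11_3_65) (LitT.Cov.split_E (LitT.cov_of_chunkM cB19_11_3_66) (LitT.Cov.split_t (LitT.cov_of_chunkM cB19_11_3_67) (LitT.cov_of_chunkM cB19_11_3_68)))) (LitT.cov_of_chunkM cB19_11_3_69)) (LitT.Cov.split_e (LitT.cov_of_chunkM cB19_11_3_70) (LitT.cov_of_chunkM cB19_11_3_71))) (LitT.Cov.split_t (LitT.Cov.split_t (LitT.cov_of_chunkM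 cB19_11_3_72) (LitT.Cov.split_e (LitT.cov_of_chunkM cB19_11_3_73) (LitT.Cov.split_x (LitT.Cov.split_T (LitT.cov_of_chunkM cB19_11_3_74) (LitT.cov_of_chunkM cB19_11_3_75)) (LitT.cov_of_chunkM cB19_11_3_76)))) (LitT.cov_of_chunkM cB19_11_3_77))) (LitT.Cov.split_t (LitT.cov_of_chunkM cB19_11_3_78) (LitT.Cov.split_x (LitT.cov_of_chunkM cB19_11_3_79) (LitT.Cov.split_e (LitT.Cov.split_t (LitT.cov_of_chunkM cB19_11_3_80) (LitT.cov_of_chunkM cB19_11_3_81)) (LitT.Cov.split_T (LitT.cov_of_chunkM cB19_11_3_82) (LitT.Cov.split_E (LitT.cov_of_chunkM cB19_11_3_83) (LitT.Cov.split_t (LitT.Cov.split_x (LitT.cov_of_chunkM cB19_11_3_84) (LitT.cov_of_chunkM cB19_11_3_85)) (LitT.cov_of_chunkM cB19_11_3_86)))))))) (LitT.cov_of_chunkM cB19_11_3_87)))) (LitT.Cov.split_e (LitT.Cov.split_x (LitT.cov_of_chunkM cB19_11_3_88) (LitT.Cov.split_e (LitT.Cov.split_x (LitT.cov_of_chunkM cB19_11_3_89)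 (LitT.Cov.split_t (LitT.Cov.split_t (LitT.cov_of_chunkM cB19_11_3_90) (LitT.Cov.split_T (LitT.cov_of_chunkM cB19_11_3_91) (LitT.Cov.split_E (LitT.cov_of_chunkM cB19_11_3_92) (LitT.Cov.split_e (LitT.Cov.split_t (LitT.cov_of_chunkM cB19_11_3_93) (LitT.cov_of_chunkM cB19_11_3_94)) (LitT.cov_of_chunkM cB19_11_3_95))))) (LitT.Cov.split_t (LitT.Cov.split_t (LitT.Cov.split_e (LitT.cov_of_chunkM cB19_11_3_96) (LitT.cov_of_chunkM cB19_11_3_97)) (LitT.cov_of_chunkM cB19_11_3_98)) (LitT.cov_of_chunkM cB19_11_3_99)))) (LitT.cov_of_chunkM cB19_11_3_100))) (LitT.cov_of_chunkM cB19_11_3_101))) (LitT.cov_of_chunkM cB19_11_3_102)))))))))), (LitT.cov_of_chunkM cB19_11_1_0), (LitT.cov_of_chunkM cB19_11_2_0), (LitT.cov_of_chunkM cB19_11_0_0)⟩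

end Vale.Agent.helper4.Q4
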