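import Vale.Agent.helper4.Q4TreeM
import Vale.Agent.helper4.Q4G.PB19_12

/-!
Checks for pairs of intervals of second moments.
-/

set_option maxRecDepth 100000
set_option linter.unusedVariables false

namespace Vale.Agent.helper4.Q4

theorem cB19_12_3_0 : chunkOkM (LB19_12.ctx true true 107 1 1 1 1 1 1 1 1) muQ true true 64 RtB19_12.Cx RtB19_12.CX RtB19_12.Ctp.left RtB19_12.Ce RtB19_12.CTp RtB19_12.CEr 0x41 = true := by decide +kernel

theorem cB19_12_3_1 : chunkOkM (LB19_12.ctx true true 107 1 1 1 1 1 1 1 1) muQ true true 64 RtB19_12.Cx RtB19_12.CX RtB19_12.Ctp.right RtB19_12.Ce.left RtB19_12.CTp RtB19_12.CEr 0x69 = true := by decide +kernel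

theorem cB19_12_3_2 : chunkOkM (LB19_12.ctx true true 107 1 1 1 1 1 1 1 1) muQ true true 64 RtB19_12.Cx RtB19_12.CX RtB19_12.Ctp.right.left RtB19_12.Ce.right RtB19_12.CTp RtB19_12.CEr 0x49 = true := by decide +kernel

theorem cB19_12_3_3 : chunkOkM (LB19_12.ctx true true 107 1 1 1 1 1 1 1 1) muQ true true 64 RtB19_12.Cx RtB19_12.CX RtB19_12.Ctp.right.right RtB19_12.Ce.right.left RtB19_12.CTp RtB19_12.CEr 0x69 = true := by decide +kernel

theorem cB19_12_3_4 : chunkOkM (LB19_12.ctx true true 107 1 1 1 1 1 1 1 1) muQ true true 64 RtB19_12.Cx RtB19_12.CX RtB19_12.Ctp.right.right RtB19_12.Ce.right.right RtB19_12.CTp.left RtB19_12.CEr 0x42 = true := by decide +kernel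

theorem cB19_12_3_5 : chunkOkM (LB19_12.ctx true true 107 1 1 1 1 1 1 1 1) muQ true true 64 RtB19_12.Cx RtB19_12.CX RtB19_12.Ctp.right.right RtB19_12.Ce.right.right RtB19_12.CTp.right.left RtB19_12.CEr 0x42 = true := by decide +kernel

theorem cB19_12_3_6 : chunkOkM (LB19_12.ctx true true 107 1 1 1 1 1 1 1 1) muQ true true 64 RtB19_12.Cx RtB19_12.CX RtB19_12.Ctp.right.right RtB19_12.Ce.right.right RtB19_12.CTp.right.right RtB19_12.CEr.left 0x12 = true := by decide +kernel

theorem cB19_12_3_7 : chunkOkM (LB19_12.ctx true true 107 1 1 1 1 1 1 1 1) muQ true true 64 RtB19_12.Cx RtB19_12.CX RtB19_12.Ctp.right.right.left.left RtB19_12.Ce.right.right.left RtB19_12.CTp.right.right RtB19_12.CEr.right 0x49 = true := by decide +kernel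

theorem cB19_12_3_8 : chunkOkM (LB19_12.ctx true true 107 1 1 1 1 1 1 1 1) muQ true true 64 RtB19_12.Cx RtB19_12.CX RtB19_12.Ctp.right.right.left.right RtB19_12.Ce.right.right.left.left RtB19_12.CTp.right.right RtB19_12.CEr.right 0x69 = true := by decide +kernel

theorem cB19_12_3_9 : chunkOkM (LB19_12.ctx true true 107 1 1 1 1 1 1 1 1) muQ true true 64 RtB19_12.Cx RtB19_12.CX RtB19_12.Ctp.right.right.left.right.left.left RtB19_12.Ce.right.right.left.right.left RtB19_12.CTp.right.right RtB19_12.CEr.right 0x49 = true := by decide +kernel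

theorem cB19_12_3_10 : chunkOkM (LB19_12.ctx true true 107 1 1 1 1 1 1 1 1) muQ true true 64 RtB19_12.Cx RtB19_12.CX RtB19_12.Ctp.right.right.left.right.left.right RtB19_12.Ce.right.right.left.right.left.left RtB19_12.CTp.right.right RtB19_12.CEr.right 0x69 = true := by decide +kernel

theorem cB19_12_3_11 : chunkOkM (LB19_12.ctx true true 280 145 64 17 16 854 2989 35 91) muQ true true 64 RtB19_12.Cx.left.left RtB19_12.CX RtB19_12.Ctp.right.right.left.right.left.right RtB19_12.Ce.right.right.left.right.left.right.left RtB19_12.CTp.right.right RtB19_12.CEr.right 0x22fdb9d7fd4fc19a67c15c1766ab437dd501b9f6d0638f9e19f550d499db0ae67c16916d6ab121a59fe2caf611703363f2af537288c76a9f450ddc5cab6da9f05b676944933 = true := by decide +kernel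

theorem cB19_12_3_12 : chunkOkM (LB19_12.ctx true true 286 289 128 17 16 854 3017 35 91) muQ true true 64 RtB19_12.Cx.left.left RtB19_12.CX RtB19_12.Ctp.right.right.left.right.left.right RtB19_12.Ce.right.right.left.right.left.right.right RtB19_12.CTp.right.right RtB19_12.CEr.right 0x1d803db4caaf04bec2e6dd76c1f4d016ab4fb7a625d9f6efe982b0d9f530660acb49f450d159bcd8509aba57a761bcdaf8c6dabec6b9af6274951484faf540d699981867cb2ded5ab7b47caf5d9f6ec5a298549f540dc823e36db9f05b6474949591aa552bf8fde23eaeb76c139ae9179b42d4837b89f6f67cbda6e9f53c9324da39f460dff542da929f05b64774933 = true := by decide +kernel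

theorem cB19_12_3_13 : chunkOkM (LB19_12.ctx true true 107 1 1 1 1 1 1 1 1) muQ true true 64 RtB19_12.Cx.left.right RtB19_12.CX RtB19_12.Ctp.right.right.left.right.left.right RtB19_12.Ce.right.right.left.right.left.right RtB19_12.CTp.right.right RtB19_12.CEr.right 0x49 = true := by decide +kernel

theorem cB19_12_3_14 : chunkOkM (LB19_12.ctx true true 107 1 1 1 1 1 1 1 1) muQ true true 64 RtB19_12.Cx.right RtB19_12.CX RtB19_12.Ctp.right.right.left.right.left.right RtB19_12.Ce.right.right.left.right.left.right RtB19_12.CTp.right.right RtB19_12.CEr.right 0x49 = true := by decide +kernel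

theorem cB19_12_3_15 : chunkOkM (LB19_12.ctx true true 272 145 64 17 16 434 3017 35 39) muQ true true 64 RtB19_12.Cx RtB19_12.CX RtB19_12.Ctp.right.right.left.right.right RtB19_12.Ce.right.right.left.right.left RtB19_12.CTp.right.right RtB19_12.CEr.right 0x11111169696a466367c1ff5fa6ab7ced3ce529f6c5328d4909f540d76943769431147 = true := by decide +kernel

theorem cB19_12_3_16 : chunkOkM (LB19_12.ctx true true 287 147 64 17 16 1726 6069 35 91) muQ true true 64 RtB19_12.Cx RtB19_12.CX RtB19_12.Ctp.right.right.left.right.left RtB19_12.Ce.right.right.left.right.right RtB19_12.CTp.right.right RtB19_12.CEr.right 0x49495918683f177c1305c8e927bbf54c9dda416fcbf430da88a0197fded98b067c2091676ab20f69641f9f6ee8c5cdec9f528e54fe4e9f460dd7efe5d639f05b6103e1fa77c3532426ab491ac0d879f6fbf3d299c9f54f3189ca19f450dbc58ae9ac9f04b6694449349386683867c5e6af027f910cafdcf50af610f8b2b2d1af540d8b802cd079ab42ef279cc4fbf836d92f5769f6f29a1cddb9f52cecd1d029f450d671f7f8419c1af5c65ec37d22af420d34477493 = true := by decide +kernel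

theorem cB19_12_3_17 : chunkOkM (LB19_12.ctx true true 277 147 64 17 16 438 3045 35 91) muQ true true 64 RtB19_12.Cx.left.left RtB19_12.CX RtB19_12.Ctp.right.right.left.right.right.left RtB19_12.Ce.right.right.left.right.right.left.left RtB19_12.CTp.right.right RtB19_12.CEr.right 0x69f2e0d567cca40d72989f6c7f39d5839f530db9d034b7b9ab5929b1c9145bf8590c2f9609f6ce09755859f540d679de1267c1abae96abc3923abab9f6b52d766569f540d47c81ded67c2c2a346abc182d67739f6fd451484d9f540dbeb723f8e9f05b6694c9d19367c59c725ab4a5efcb469f6ddb13266c9f540dac687c07f9ab52a42092669bf8453ac5605faf630d673 = true := by decide +kernel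

theorem cB19_12_3_18 : chunkOkM (LB19_12.ctx true true 274 147 64 17 16 438 1533 35 91) muQ true true 64 RtB19_12.Cx.left.left RtB19_12.CX RtB19_12.Ctp.right.right.left.right.right.left RtB19_12.Ce.right.right.left.right.right.left.right RtB19_12.CTp.right.right RtB19_12.CEr.right 0xca1a8d67ca985172229f6d73e36ca29f530de9b13267c29194e6aba931c3be39f6fe7e1fd7d9f523af6caee9f450d3ce967567c1d31b66ab8c516acac9f6d8b33a0cb9f540d7d833c8be89ab67c0ab36a79bf86fdb6c8c89f6f170d37ee9f540d6 = true := by decide +kernel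

theorem cB19_12_3_19 : chunkOkM (LB19_12.ctx true true 256 75 32 17 16 218 763 35 39) muQ true true 64 RtB19_12.Cx.left.right RtB19_12.CX RtB19_12.Ctp.right.right.left.right.right.left RtB19_12.Ce.right.right.left.right.right.left RtB19_12.CTp.right.right RtB19_12.CEr.right 0x3520ff3d7aaf04b = true := by decide +kernel

theorem cB19_12_3_20 : chunkOkM (LB19_12.ctx true true 275 145 64 17 16 446 1533 35 91) muQ true true 64 RtB19_12.Cx.left RtB19_12.CX RtB19_12.Ctp.right.right.left.right.right.right RtB19_12.Ce.right.right.left.right.right.left RtB19_12.CTp.right.right RtB19_12.CEr.right 0x11697d4fb6277c21cde55449f8dbc507a0d78bf12955a1a92d05cf040df65ac667c14cae66abf609ea59c9f690239f7299f540dbef7fc33b9ab5b697707a95bf865c63e6dffaf630d6377694 = true := by decide +kernel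

theorem cB19_12_3_21 : chunkOkM (LB19_12.ctx true true 268 73 32 17 16 438 1561 35 91) muQ true true 64 RtB19_12.Cx.left.left RtB19_12.CX RtB19_12.Ctp.right.right.left.right.right.left RtB19_12.Ce.right.right.left.right.right.right RtB19_12.CTp.right.right RtB19_12.CEr.right 0xd027c46fd9305f267cf84d9f6be9f6ee1c842d49f540d116b10e77c3874746ab9c22f60719f6e91605bf69f540df0466f67c2034306ab9e890e6099f6105cb7aae3af512839c1899f450d34bbba4308b9ab5a0fe74174bbf89bc095aa09f61134e5d33caf540d6 = true := by decide +kernel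

theorem cB19_12_3_22 : chunkOkM (LB19_12.ctx true true 296 149 64 17 16 13950 3101 35 91) muQ true true 64 RtB19_12.Cx.left.right.left RtB19_12.CX RtB19_12.Ctp.right.right.left.right.right.left RtB19_12.Ce.right.right.left.right.right.right.left RtB19_12.CTp.right.right RtB19_12.CEr.right 0x1029b9877c2e96336abda0a053649f6fb17f356c9f524e69eaaa9f450ddbfef689d9f05b6ef03aa67c1f5cd36ab9001bcc5c9f6f6739d5429f51959d3cef9f450da121bd5909f05b6475f937048baf52f09afff8cdbf420d1019b1677c2faa1b6ab38abc1b7f6ed326b6bc9f52914bf1ee9f450dad0330e7d9f05b644934934934934933 = true := by decide +kernel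

theorem cB19_12_3_23 : chunkOkM (LB19_12.ctx true true 274 149 64 17 16 438 1561 35 91) muQ true true 64 RtB19_12.Cx.left.right.left RtB19_12.CX RtB19_12.Ctp.right.right.left.right.right.left RtB19_12.Ce.right.right.left.right.right.right.right RtB19_12.CTp.right.right RtB19_12.CEr.right 0x103f24477c31a1746ab9b6e4b26a9f6fceb4ba859f53c4f1a2699f450d8327473b8f913baf6fa76af5e9ff7d16e9af430d3ba5c1877d9ab596bd07d58ebf87fa41360f9f6f617078e59f540d6 = true := by decide +kernel

theorem cB19_12_3_24 : chunkOkM (LB19_12.ctx true true 107 1 1 1 1 1 1 1 1) muQ true true 64 RtB19_12.Cx.left.right.right RtB19_12.CX RtB19_12.Ctp.right.right.left.right.right.left RtB19_12.Ce.right.right.left.right.right.right RtB19_12.CTp.right.right RtB19_12.CEr.right 0x49 = true := by decide +kernel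

end Vale.Agent.helper4.Q4
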