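import Vale.Agent.helper4.Q4TreeM
import Vale.Agent.helper4.Q4G.PB19_12

/-!
Checks for pairs of intervals of second moments.
-/

set_option maxRecDepth 100000
set_option linter.unusedVariables false

namespace Vale.Agent.helper4.Q4

theorem cB19_12_3_25 : chunkOkM (LB19_12.ctx true true 274 147 64 17 16 446 1561 35 91) muQ true true 64 RtB19_12.Cx.left.left RtB19_12.CX RtB19_12.Ctp.right.right.left.right.right.right RtB19_12.Ce.right.right.left.right.right.right RtB19_12.CTp.right.right RtB19_12.CEr.right 0xfe448167c20e1a46abab4e8c20f9f6a3da4d0a79f5c21a0077f250d11850d4d86c2f11e06ab9a76b28ed9f6c9ea7c7599f540d3f5ca5367c1bf08b6abccf96d5009f6a12aedb7e9f532efe4cea9f250d7c053db7c19ab5c31900bb18bf8174fabd3d3af630d6da8a5f67cc21c497c09f6b1860789b9f530d12184ba77c229c4d6ab7167f7d2c9f68fa0fdd7a9f53a8ba898b9f250d1224694686c316e596ab9ef840c479f6abbe636fb9f540d37ec8ba500e9ab7186b9fd9debf85318bddad9f6a5905b9c49f540d64 = true := by decide +kernel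

theorem cB19_12_3_26 : chunkOkM (LB19_12.ctx true true 282 151 64 17 16 446 3129 35 91) muQ true true 64 RtB19_12.Cx.left.right RtB19_12.CX RtB19_12.Ctp.right.right.left.right.right.right RtB19_12.Ce.right.right.left.right.right.right RtB19_12.CTp.right.right RtB19_12.CEr.right 0x111423f0c77c4e32af6abbbde21fb29f6c7a58e7a79f540d8edb831dc9f05b67694826c2067c3603536ab6afedd399fa8cf624dec4190231cf440d125e79677c3ccf886ab7a291be7c9f6e26fed5889f540dde5944d819ab6ab11cfe301bf82f80dd8b49f6e805732ec9f540d673694 = true := by decide +kernel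

theorem cB19_12_3_27 : chunkOkM (LB19_12.ctx true true 244 39 16 17 16 110 385 35 39) muQ true true 64 RtB19_12.Cx.right RtB19_12.CX RtB19_12.Ctp.right.right.left.right.right RtB19_12.Ce.right.right.left.right.right RtB19_12.CTp.right.right RtB19_12.CEr.right 0x1f2d4c55a2af04b = true := by decide +kernel

theorem cB19_12_3_28 : chunkOkM (LB19_12.ctx true true 263 147 64 17 16 226 777 35 39) muQ true true 64 RtB19_12.Cx RtB19_12.CX RtB19_12.Ctp.right.right.right RtB19_12.Ce.right.right.left RtB19_12.CTp.right.right RtB19_12.CEr.right 0x0111110111936fdc67c2234366ab21da1f7fb9f6f51f8ff969f240d01773711411431143 = true := by decide +kernel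

theorem cB19_12_3_29 : chunkOkM (LB19_12.ctx true true 107 1 1 1 1 1 1 1 1) muQ true true 64 RtB19_12.Cx RtB19_12.CX RtB19_12.Ctp.right.right.left.left RtB19_12.Ce.right.right.right RtB19_12.CTp.right.right RtB19_12.CEr.right 0x49 = true := by decide +kernel

theorem cB19_12_3_30 : chunkOkM (LB19_12.ctx true true 238 19 8 17 16 106 399 35 39) muQ true true 64 RtB19_12.Cx RtB19_12.CX RtB19_12.Ctp.right.right.left.right.left RtB19_12.Ce.right.right.right.left.left RtB19_12.CTp.right.right RtB19_12.CEr.right 0x2ddb4dc516af5123ad32162ebf420d = true := by decide +kernel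

theorem cB19_12_3_31 : chunkOkM (LB19_12.ctx true true 252 37 16 17 16 218 791 35 39) muQ true true 64 RtB19_12.Cx.left RtB19_12.CX RtB19_12.Ctp.right.right.left.right.right.left RtB19_12.Ce.right.right.right.left.left.left RtB19_12.CTp.right.right RtB19_12.CEr.right 0x44a2fa67c1c1b45ab5dd03722ddaf65b8d9b60770bf5194fcab0add1cf450d = true := by decide +kernel

theorem cB19_12_3_32 : chunkOkM (LB19_12.ctx true true 274 147 64 17 16 446 1575 35 91) muQ true true 64 RtB19_12.Cx.left.left RtB19_12.CX RtB19_12.Ctp.right.right.left.right.right.right RtB19_12.Ce.right.right.right.left.left.left RtB19_12.CTp.right.right RtB19_12.CEr.right 0x2111e8f6e77c3c8f616ab8ee0c4cd99f6bd4f8ea619f540da702af6ee9ab5022a7a0398bf84ca9a95489f6b7680a4bb9f540d62175934 = true := by decide +kernel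

theorem cB19_12_3_33 : chunkOkM (LB19_12.ctx true true 281 151 64 17 16 886 3157 35 91) muQ true true 64 RtB19_12.Cx.left.right RtB19_12.CX RtB19_12.Ctp.right.right.left.right.right.right RtB19_12.Ce.right.right.right.left.left.left.left RtB19_12.CTp.right.right RtB19_12.CEr.right 0x143b42d77c5998206ab8fe34fab89f6e6193155c9f540d140029d77c40787b6ab3b9e1f2169f6ec0d052f69f519bd87b6d9f450d117ff9477c350a786ab2fe598a789f6f4ff8a4ea9f55a19909829f450d312c221177c3a06b76ab7c2d14a609f6f1ea131039f525c8348499f450d4310f643077c38a39a6ab7d80ea4c69f6ca7caecfc9f540d12e88ca77c40e0ec6abb49c5cd1a9f6f3515bfda9f540d3710dae93b4faab812887a01b3bf82c3a699954af630d6 = true := by decide +kernel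

theorem cB19_12_3_34 : chunkOkM (LB19_12.ctx true true 281 151 64 17 16 886 3185 35 91) muQ true true 64 RtB19_12.Cx.left.right RtB19_12.CX RtB19_12.Ctp.right.right.left.right.right.right RtB19_12.Ce.right.right.right.left.left.left.right RtB19_12.CTp.right.right RtB19_12.CEr.right 0x15cf09577c4a44f36abbe1add47e9f6f9a1e016f9f540d124670d77c339cb66abc9a9b7a329f6e90ecbf039f540d41545aeb77c54d2346ab8c9a9d5539f6e4c7eadbe9f540d713e3b9e77c45bb546ab2fe7dd46c9f610589db9d3af580a2344b59f450d14354b3686c42d3b46aba26cfdd859f6fc4463cf49f52de231fbc9f450d10c7b3a286c2ad5ec6ab71de5c1e93af51c3c56e8a16bf440d345973ec477445d9ab70ffd491766bf8b3e2a673e0af630d6 = true := by decide +kernel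

theorem cB19_12_3_35 : chunkOkM (LB19_12.ctx true true 283 303 128 17 16 446 3199 35 91) muQ true true 64 RtB19_12.Cx.left RtB19_12.CX RtB19_12.Ctp.right.right.left.right.right RtB19_12.Ce.right.right.right.left.left.right RtB19_12.CTp.right.right RtB19_12.CEr.right 0x5959159f817386c4c5f6d6ab136c081ad5af61035d8f713af540df3b343de09f05b659745975934217593 = true := by decide +kernel

theorem cB19_12_3_36 : chunkOkM (LB19_12.ctx true true 107 1 1 1 1 1 1 1 1) muQ true true 64 RtB19_12.Cx.right RtB19_12.CX RtB19_12.Ctp.right.right.left.right.right.left RtB19_12.Ce.right.right.right.left.left RtB19_12.CTp.right.right RtB19_12.CEr.right 0x49 = true := by decide +kernel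

theorem cB19_12_3_37 : chunkOkM (LB19_12.ctx true true 107 1 1 1 1 1 1 1 1) muQ true true 64 RtB19_12.Cx.right RtB19_12.CX RtB19_12.Ctp.right.right.left.right.right.right.left RtB19_12.Ce.right.right.right.left.left RtB19_12.CTp.right.right RtB19_12.CEr.right 0x49 = true := by decide +kernel

theorem cB19_12_3_38 : chunkOkM (LB19_12.ctx true true 281 153 64 17 16 890 3185 35 91) muQ true true 64 RtB19_12.Cx.right RtB19_12.CX RtB19_12.Ctp.right.right.left.right.right.right.right RtB19_12.Ce.right.right.right.left.left.left RtB19_12.CTp.right.right RtB19_12.CEr.right 0x11496915d979077c4adcea6ab8065459e89f6f3a917f549f53f54df8af9f450d37694ce052759a9f05b67694 = true := by decide +kernel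

theorem cB19_12_3_39 : chunkOkM (LB19_12.ctx true true 273 153 64 17 16 446 1603 35 65) muQ true true 64 RtB19_12.Cx.right.left.left RtB19_12.CX RtB19_12.Ctp.right.right.left.right.right.right.right RtB19_12.Ce.right.right.right.left.left.right.left RtB19_12.CTp.right.right RtB19_12.CEr.right.left 0xeea676fee9ab7282ab2d313bf86843366fc9f61006d612c2af540d = true := by decide +kernel

theorem cB19_12_3_40 : chunkOkM (LB19_12.ctx true true 290 305 128 17 16 894 6405 35 91) muQ true true 64 RtB19_12.Cx.right.left.left RtB19_12.CX RtB19_12.Ctp.right.right.left.right.right.right.right RtB19_12.Ce.right.right.right.left.left.right.left.left RtB19_12.CTp.right.right RtB19_12.CEr.right.right 0x6917b587277c55edaa6aba62bdd0549f6f9f6cbc1d9f5150ed1a989f450d7491637e40886c4ed0ee6ab7a22e605b9f6fd66d07199f5516c300489f450d167f72e486c51e6ff6abc036c4ce19f6100c97d40faf54126cee4c9f450d473 = true := by decide +kernel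

theorem cB19_12_3_41 : chunkOkM (LB19_12.ctx true true 293 307 128 17 16 894 6433 35 195) muQ true true 64 RtB19_12.Cx.right.left.left RtB19_12.CX RtB19_12.Ctp.right.right.left.right.right.right.right RtB19_12.Ce.right.right.right.left.left.right.left.right RtB19_12.CTp.right.right RtB19_12.CEr.right.right 0x153ce61986c38b556b79b139b9da619f610c720bcc9af52a23e72d89f450d16a598977c8875d46abe1e71c4749f6107cfadc1caf579032efc19f450d6158614f986c2b9689879b170c44ea5baf611413a6315af540d17f007377c9fef456ab3d8501356caf6143430018daf54e6681e039f450d6426a8574286c743eb614d9f6fc9132ded9f5bbbe5a3e8f440df035a567c44fc0f6ab7e05487e09f61050464303af540d67124198df86c27dca66abdeaa527be5af53d20d887f58bf440d3 = true := by decide +kernel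

theorem cB19_12_3_42 : chunkOkM (LB19_12.ctx true true 290 307 128 17 16 894 3227 35 195) muQ true true 64 RtB19_12.Cx.right.left.left RtB19_12.CX RtB19_12.Ctp.right.right.left.right.right.right.right RtB19_12.Ce.right.right.right.left.left.right.right RtB19_12.CTp.right.right RtB19_12.CEr.right 0x591b91c39e86c137194c79b5b1e3f668f6fd01870f79f5562e0449c9f450d2bc8121d8fd8aefb167c149a334111af611fa5f872caf5388b119519f450d6fdbaed4a99f05b64935974 = true := by decide +kernel

theorem cB19_12_3_43 : chunkOkM (LB19_12.ctx true true 107 1 1 1 1 1 1 1 1) muQ true true 64 RtB19_12.Cx.right.left.right RtB19_12.CX RtB19_12.Ctp.right.right.left.right.right.right.right RtB19_12.Ce.right.right.right.left.left.right RtB19_12.CTp.right.right RtB19_12.CEr.right 0x49 = true := by decide +kernel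

theorem cB19_12_3_44 : chunkOkM (LB19_12.ctx true true 107 1 1 1 1 1 1 1 1) muQ true true 64 RtB19_12.Cx.right.right RtB19_12.CX RtB19_12.Ctp.right.right.left.right.right.right.right RtB19_12.Ce.right.right.right.left.left.right RtB19_12.CTp.right.right RtB19_12.CEr.right 0x49 = true := by decide +kernel

theorem cB19_12_3_45 : chunkOkM (LB19_12.ctx true true 235 19 8 17 16 54 413 35 39) muQ true true 64 RtB19_12.Cx RtB19_12.CX RtB19_12.Ctp.right.right.left.right RtB19_12.Ce.right.right.right.left.right RtB19_12.CTp.right.right RtB19_12.CEr.right 0x593c79818fd665ecd67c15600c6bb23f1b863c1af6265a2abb131bf5b375a7cdc9bbf460d = true := by decide +kernel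

theorem cB19_12_3_46 : chunkOkM (LB19_12.ctx true true 107 1 1 1 1 1 1 1 1) muQ true true 64 RtB19_12.Cx RtB19_12.CX RtB19_12.Ctp.right.right.left.right RtB19_12.Ce.right.right.right.right RtB19_12.CTp.right.right RtB19_12.CEr.right 0x59 = true := by decide +kernel

theorem cB19_12_3_47 : chunkOkM (LB19_12.ctx true true 278 147 64 17 16 898 1575 35 91) muQ true true 64 RtB19_12.Cx.left.left RtB19_12.CX RtB19_12.Ctp.right.right.right.left.left.left RtB19_12.Ce.right.right.right.left.left.left RtB19_12.CTp.right.right RtB19_12.CEr.right 0x210101f1d585276c2c57f06ab7412edc3f9f6a2d9710c79f534466f7939f250db6c99c5169ab57b51eb873dbf8295821ef09f6aa8f2abfe9f52caed1e3e9f250d6330174 = true := by decide +kernel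

end Vale.Agent.helper4.Q4
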