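import Vale.Agent.helper4.Q4TreeM
import Vale.Agent.helper4.Q4G.PB19_12

/-!
Checks for pairs of intervals of second moments.
-/

set_option maxRecDepth 100000
set_option linter.unusedVariables false

namespace Vale.Agent.helper4.Q4

theorem cB19_12_3_48 : chunkOkM (LB19_12.ctx true true 277 151 64 17 16 454 3185 35 91) muQ true true 64 RtB19_12.Cx.left.right RtB19_12.CX RtB19_12.Ctp.right.right.right.left.left.left RtB19_12.Ce.right.right.right.left.left.left RtB19_12.CTp.right.right RtB19_12.CEr.right 0x15167f877c58acab6abb5711883b9f6c249e09f99f540d1c3fa6577c2e8fe01483af661bd2ec1118bf11317314a2578cf040d1124ed4486c369eb36abbca446da39f6b71befe749f5da14fc938f250d11654a377c2c8ce96abc9dde57609f6a97e7646b9f57b28fe638f250d437119d44e113aab8745a5c59eabf8aa15607149f699e3c32689f540d611fd928367c2ce9616ab9b517019f9f6a4843416b9f540d1213bdbeb3aab8acd483e971bf88f0a1318a9f6b20331edc9f5136b1c8209f250d634 = true := by decide +kernel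

theorem cB19_12_3_49 : chunkOkM (LB19_12.ctx true true 283 303 128 17 16 454 3241 35 91) muQ true true 64 RtB19_12.Cx.left RtB19_12.CX RtB19_12.Ctp.right.right.right.left.left.left RtB19_12.Ce.right.right.right.left.left.right RtB19_12.CTp.right.right RtB19_12.CEr.right 0x123af8ea86c3daa386abdc5aab97c9f6c0b45fe939f51c84d24d59f250d12a127f77c4346066ab13261d82e3af6ba2ec89609f5c3ab35468f250d1431e45b86c483ac36abc5999f8319f6b578106559f52997771239f250d74116ab7a77c2dd8536abee19f4dbc9f6d3eec96d59f540d321711d4ddb77c3aef0f6ab9cc51bddc9f6b05024ca79f51b89ba49d9f250d11c16ed77c3ceaf26ab92f3e001d9f6d54ded4619f540d32111afa28686c3810e76ab12390e7b85af6b0a6d20f89f529503afdc9f250d217474f98dd37a99ab77b857f0cbebf81014ecc712af530d6217 = true := by decide +kernel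

theorem cB19_12_3_50 : chunkOkM (LB19_12.ctx true true 107 1 1 1 1 1 1 1 1) muQ true true 64 RtB19_12.Cx.left RtB19_12.CX RtB19_12.Ctp.right.right.right.left.left.right RtB19_12.Ce.right.right.right.left.left RtB19_12.CTp.right.right RtB19_12.CEr.right 0x01 = true := by decide +kernel

theorem cB19_12_3_51 : chunkOkM (LB19_12.ctx true true 107 1 1 1 1 1 1 1 1) muQ true true 64 RtB19_12.Cx.right RtB19_12.CX RtB19_12.Ctp.right.right.right.left.left RtB19_12.Ce.right.right.right.left.left.left RtB19_12.CTp.right.right RtB19_12.CEr.right 0x69 = true := by decide +kernel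

theorem cB19_12_3_52 : chunkOkM (LB19_12.ctx true true 278 153 64 17 16 450 3213 35 91) muQ true true 64 RtB19_12.Cx.right.left RtB19_12.CX RtB19_12.Ctp.right.right.right.left.left.left RtB19_12.Ce.right.right.right.left.left.right.left RtB19_12.CTp.right.right RtB19_12.CEr.right 0x6969169ae5d77c51cead6ab7d1628ea09f6e7adace1e9f540d7147a02377c2c1f246ab10670e688f6bd0213f5e9f540d4141e30d9aeaab9a77aca30cbbf85d13124629f6f2006731c9f540d63 = true := by decide +kernel

theorem cB19_12_3_53 : chunkOkM (LB19_12.ctx true true 263 77 32 17 16 226 1617 35 65) muQ true true 64 RtB19_12.Cx.right.left RtB19_12.CX RtB19_12.Ctp.right.right.right.left.left.left RtB19_12.Ce.right.right.right.left.left.right.right RtB19_12.CTp.right.right RtB19_12.CEr.right.left 0x13db349b93aab98765df73cabf8c7ebad1c89f61100d96d27af540d = true := by decide +kernel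

theorem cB19_12_3_54 : chunkOkM (LB19_12.ctx true true 293 307 128 17 16 902 6461 35 195) muQ true true 64 RtB19_12.Cx.right.left.left RtB19_12.CX RtB19_12.Ctp.right.right.right.left.left.left.left RtB19_12.Ce.right.right.right.left.left.right.right.left RtB19_12.CTp.right.right RtB19_12.CEr.right.right 0x135b5e977c5096e46ab3a572cfe39f6e53d1fbd29f540d170b481286c33a2bea79b3477596fd9f6f90312e329f540d6b57a0a7fd100b45c77c72b0b96aba19d4d3f79f61021b41085af550d6257ec71586c2bca33079b214f479336af6126a5e5c60af540df4e3e667c76620c6ab1427e77962af61170685a64af540d643188ab80c86c55ab626ab1063147e1eaf6f15272ad59f540d7 = true := by decide +kernel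

theorem cB19_12_3_55 : chunkOkM (LB19_12.ctx true true 290 307 128 17 16 902 3241 35 195) muQ true true 64 RtB19_12.Cx.right.left.left RtB19_12.CX RtB19_12.Ctp.right.right.right.left.left.left.left RtB19_12.Ce.right.right.right.left.left.right.right.right RtB19_12.CTp.right.right RtB19_12.CEr.right.right 0x177a4a7986c58b7a36ab968fc7a8c9f6f4eb997579f540d24737e3186c33719c079bc616026bb9f610c434f365af540d135b25577c8a16ff6ab1457d9aeaaaf611d5eec9a9af540d65973 = true := by decide +kernel

theorem cB19_12_3_56 : chunkOkM (LB19_12.ctx true true 277 153 64 17 16 454 3241 35 91) muQ true true 64 RtB19_12.Cx.right.left.left RtB19_12.CX RtB19_12.Ctp.right.right.right.left.left.left.right RtB19_12.Ce.right.right.right.left.left.right.right RtB19_12.CTp.right.right RtB19_12.CEr.right.right 0x13fd85b77c4820846abc9444136a9f6cf59a4c089f540d14decdc77c487d1b6ab12e1f7fe14af6d0093da0d9f540d4 = true := by decide +kernel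

theorem cB19_12_3_57 : chunkOkM (LB19_12.ctx true true 293 309 128 17 16 902 6489 35 195) muQ true true 64 RtB19_12.Cx.right.left.right RtB19_12.CX RtB19_12.Ctp.right.right.right.left.left.left RtB19_12.Ce.right.right.right.left.left.right.right RtB19_12.CTp.right.right RtB19_12.CEr.right.right 0x6969227aed3f86c2ec8c7479b362ca719f6af614d0ca8fedaf540ddf254467c305d766ab68524c8ca9f6ff1ec8fcd9f540d676944922b91c9d86c1595259b541a8067f0af6197c9fb201af5115838b609f450dfa8c2267c3ed3296abd22a556619f61184725e4faf5331e2a7839f450d6273d24d186c5b77729196af6118793d710af57a604a8c89f440d122cb5d77c5da8316ab7db1303409f610bc86b917af54f416c2309f450d647317d54e777c63d3416ab39fb7ac1f2af430d43 = true := by decide +kernel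

theorem cB19_12_3_58 : chunkOkM (LB19_12.ctx true true 107 1 1 1 1 1 1 1 1) muQ true true 64 RtB19_12.Cx.right.right RtB19_12.CX RtB19_12.Ctp.right.right.right.left.left.left RtB19_12.Ce.right.right.right.left.left.right RtB19_12.CTp.right.right RtB19_12.CEr.right 0x69 = true := by decide +kernel

theorem cB19_12_3_59 : chunkOkM (LB19_12.ctx true true 252 39 16 17 16 230 805 35 39) muQ true true 64 RtB19_12.Cx.right RtB19_12.CX RtB19_12.Ctp.right.right.right.left.left.right RtB19_12.Ce.right.right.right.left.left.right RtB19_12.CTp.right.right RtB19_12.CEr.right 0xab21a967c3447ca6ab7062cfda5eebf1165ad9d70beccf040d = true := by decide +kernel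

theorem cB19_12_3_60 : chunkOkM (LB19_12.ctx true true 238 19 8 17 16 118 399 35 39) muQ true true 64 RtB19_12.Cx RtB19_12.CX RtB19_12.Ctp.right.right.right.left.right RtB19_12.Ce.right.right.right.left.left RtB19_12.CTp.right.right RtB19_12.CEr.right 0x1371587f4caf00b = true := by decide +kernel

theorem cB19_12_3_61 : chunkOkM (LB19_12.ctx true true 107 1 1 1 1 1 1 1 1) muQ true true 64 RtB19_12.Cx.left RtB19_12.CX RtB19_12.Ctp.right.right.right.left RtB19_12.Ce.right.right.right.left.right RtB19_12.CTp.right.right RtB19_12.CEr.right 0x21 = true := by decide +kernel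

theorem cB19_12_3_62 : chunkOkM (LB19_12.ctx true true 260 77 32 17 16 226 819 35 65) muQ true true 64 RtB19_12.Cx.right.left RtB19_12.CX RtB19_12.Ctp.right.right.right.left.left.left RtB19_12.Ce.right.right.right.left.right.left RtB19_12.CTp.right.right RtB19_12.CEr.right.left 0x11af3370fbaab87c4379e9a9bf88f8b3c92c9f6113ce65bc3af540d = true := by decide +kernel

theorem cB19_12_3_63 : chunkOkM (LB19_12.ctx true true 274 153 64 17 16 450 1631 35 91) muQ true true 64 RtB19_12.Cx.right.left.left RtB19_12.CX RtB19_12.Ctp.right.right.right.left.left.left.left RtB19_12.Ce.right.right.right.left.right.left.left RtB19_12.CTp.right.right RtB19_12.CEr.right.right 0x16af1a177c5371356ab10474da339af6fd599c3389f540d = true := by decide +kernel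

theorem cB19_12_3_64 : chunkOkM (LB19_12.ctx true true 293 309 128 17 16 898 6503 35 195) muQ true true 64 RtB19_12.Cx.right.left.right RtB19_12.CX RtB19_12.Ctp.right.right.right.left.left.left.left.left RtB19_12.Ce.right.right.right.left.right.left.left.left RtB19_12.CTp.right.right RtB19_12.CEr.right.right 0x49591688ed0186c2e3c81a79b55b4aa108f610b873e5feaf52e5e1e2c39f450d17b1dec77c8897c96ab134bc90966af615085b9e44af5e7de88dc59f450d647 = true := by decide +kernel

theorem cB19_12_3_65 : chunkOkM (LB19_12.ctx true true 293 311 128 17 16 902 6517 35 195) muQ true true 64 RtB19_12.Cx.right.left.right RtB19_12.CX RtB19_12.Ctp.right.right.right.left.left.left.left.right RtB19_12.Ce.right.right.right.left.right.left.left.left RtB19_12.CTp.right.right RtB19_12.CEr.right.right 0x1f66b4d286c12c36fe944af61293648b2faf5280ffb16d9f440d1ad104977ca6ba9c6ab22a3f96ccaaf612c1286bf7af529d47989f9f450d637f95cf0ecaf04b42785a97686c172627d79b42f4761849f6100614e578af540d80f72a07fdd5469d67c31ccfc6ab10bb613da2af6112a242151af550d62a58484386cfa54add179f6114dee00d1af530d112ddf077c4e8ab96ab4762f06459f6fa7ada90d9f540d647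 = true := by decide +kernel

end Vale.Agent.helper4.Q4
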