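import Vale.Agent.helper4.Q4TreeM
import Vale.Agent.helper4.Q4G.PB19_12

/-!
Checks for pairs of intervals of second moments.
-/

set_option maxRecDepth 100000
set_option linter.unusedVariables false

namespace Vale.Agent.helper4.Q4

theorem cB19_12_3_66 : chunkOkM (LB19_12.ctx true true 306 619 256 17 16 1806 13055 35 195) muQ true true 64 RtB19_12.Cx.right.left.right RtB19_12.CX RtB19_12.Ctp.right.right.right.left.left.left.left RtB19_12.Ce.right.right.right.left.right.left.left.right RtB19_12.CTp.right.right RtB19_12.CEr.right.right 0x151f8a4986c27245df79b6909a20f49f6103fa19214af54e7a55d199f450d61f2c26fd10065bd77c4035a06abf5356a3f69f61011628dc0af561482bb589f460d65959281c5b2286c123a1ddb2daf61103e7664faf530d10720eb77c4536716ab151f86127baf611291c4782af540d645935974740b2c5208f9548416b1cbaf51539e80252fbf430d3 = true := by decide +kernel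

theorem cB19_12_3_67 : chunkOkM (LB19_12.ctx true true 283 307 128 17 16 454 3269 35 91) muQ true true 64 RtB19_12.Cx.right.left.left RtB19_12.CX RtB19_12.Ctp.right.right.right.left.left.left.right RtB19_12.Ce.right.right.right.left.right.left.left RtB19_12.CTp.right.right RtB19_12.CEr.right.right 0x16236e4286c5664976abce1aa3f6f9f6e35a3708c9f540d151b5ef77c4995466abeaa75593c9f6df5e2c5ee9f540d1351d49c86c3a98ab6aba5d986b9d9f6d4a3345749f540d74 = true := by decide +kernel

theorem cB19_12_3_68 : chunkOkM (LB19_12.ctx true true 287 309 128 17 16 906 3255 35 91) muQ true true 64 RtB19_12.Cx.right.left.right RtB19_12.CX RtB19_12.Ctp.right.right.right.left.left.left.right RtB19_12.Ce.right.right.right.left.right.left.left.left RtB19_12.CTp.right.right RtB19_12.CEr.right.right 0x6969190354677c6282606ab64c9f45769f6ee317adbd9f540d73 = true := by decide +kernel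

theorem cB19_12_3_69 : chunkOkM (LB19_12.ctx true true 293 311 128 17 16 910 6545 35 195) muQ true true 64 RtB19_12.Cx.right.left.right RtB19_12.CX RtB19_12.Ctp.right.right.right.left.left.left.right RtB19_12.Ce.right.right.right.left.right.left.left.right RtB19_12.CTp.right.right RtB19_12.CEr.right.right 0x170be6c77c4fde2e6ab20d1375229386c264cbc679bc5f6a6c7a9f61028008a80af540d1220a3877c55bf6c6ab7bbd21bd09f6fbe7539199f540d62634714486c2f75f5c79b530cee05b5af618df2291f5af540d122d2fe77c5159ef6ab107db38840af6fb30993989f540d6431654d7377c53bd0f6ab5c4720b5c9f6e21378ce49f540d243877db86c360a07179ba6d8e32ba9f6f5f5ea6139f540d489818088fdbbfea267c2744276ab6fe2f6c659f6f5e658a4d9f550d637 = true := by decide +kernel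

theorem cB19_12_3_70 : chunkOkM (LB19_12.ctx true true 107 1 1 1 1 1 1 1 1) muQ true true 64 RtB19_12.Cx.right.left.left RtB19_12.CX RtB19_12.Ctp.right.right.right.left.left.left RtB19_12.Ce.right.right.right.left.right.left.right RtB19_12.CTp.right.right RtB19_12.CEr.right.right 0x59 = true := by decide +kernel

theorem cB19_12_3_71 : chunkOkM (LB19_12.ctx true true 274 155 64 17 16 450 1645 35 91) muQ true true 64 RtB19_12.Cx.right.left.right RtB19_12.CX RtB19_12.Ctp.right.right.right.left.left.left.left RtB19_12.Ce.right.right.right.left.right.left.right RtB19_12.CTp.right.right RtB19_12.CEr.right.right 0x367e01377c1ba5b78a07ebf580cf4049ac3bf430d = true := by decide +kernel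

theorem cB19_12_3_72 : chunkOkM (LB19_12.ctx true true 293 311 128 17 16 910 6573 35 195) muQ true true 64 RtB19_12.Cx.right.left.right RtB19_12.CX RtB19_12.Ctp.right.right.right.left.left.left.right RtB19_12.Ce.right.right.right.left.right.left.right.left RtB19_12.CTp.right.right RtB19_12.CEr.right.right 0x28378f6586c20b278d79b6c751ce619f6f77950fbe9f540d11e6cc577c806d236abaff56adc29f6100bc9bcc4af540d61e78c1b886c87b356479b805517b892af6e8c1b4a299f540d192117877cc099de6ab139b810b06af610d8291911af540d6419d480d086c45835bb79b238104f9f9f6101d5b68a9af540d279fac17fddd32ce67c2ecbe86aba2fd8ef209f610850db96daf537f284bd89f460d631845635586c641c5c6ab1062733fdbaf6f8e9787b99f540d7 = true := by decide +kernel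

theorem cB19_12_3_73 : chunkOkM (LB19_12.ctx true true 290 311 128 17 16 910 3297 35 195) muQ true true 64 RtB19_12.Cx.right.left.right RtB19_12.CX RtB19_12.Ctp.right.right.right.left.left.left.right RtB19_12.Ce.right.right.right.left.right.left.right.right RtB19_12.CTp.right.right RtB19_12.CEr.right.right 0x2886023586ce9f33300f9f61022d0dec7af530d173eb3a77c73b9086abf290fb9c29f6fa809a7059f540d6593597 = true := by decide +kernel

theorem cB19_12_3_74 : chunkOkM (LB19_12.ctx true true 107 1 1 1 1 1 1 1 1) muQ true true 64 RtB19_12.Cx.right.right RtB19_12.CX RtB19_12.Ctp.right.right.right.left.left.left.left RtB19_12.Ce.right.right.right.left.right.left RtB19_12.CTp.right.right RtB19_12.CEr.right 0x49 = true := by decide +kernel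

theorem cB19_12_3_75 : chunkOkM (LB19_12.ctx true true 107 1 1 1 1 1 1 1 1) muQ true true 64 RtB19_12.Cx.right.right RtB19_12.CX RtB19_12.Ctp.right.right.right.left.left.left.right RtB19_12.Ce.right.right.right.left.right.left.left RtB19_12.CTp.right.right RtB19_12.CEr.right 0x69 = true := by decide +kernel

theorem cB19_12_3_76 : chunkOkM (LB19_12.ctx true true 267 79 32 17 16 454 1645 35 65) muQ true true 64 RtB19_12.Cx.right.right RtB19_12.CX RtB19_12.Ctp.right.right.right.left.left.left.right RtB19_12.Ce.right.right.right.left.right.left.right RtB19_12.CTp.right.right RtB19_12.CEr.right.left 0x15a0ca6b28aaba60f79e49e0bf847479dfd79f610ca3d4fb3af530aa2dc799f450d = true := by decide +kernel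

theorem cB19_12_3_77 : chunkOkM (LB19_12.ctx true true 293 313 128 17 16 910 6573 35 195) muQ true true 64 RtB19_12.Cx.right.right.left RtB19_12.CX RtB19_12.Ctp.right.right.right.left.left.left.right RtB19_12.Ce.right.right.right.left.right.left.right.left RtB19_12.CTp.right.right RtB19_12.CEr.right.right 0x11d05ca1c05c66944926cc059786c704725079b43d3430347af6f1a2d2ebc9f570ce520d29f450d15f680a77c97d0626ab1538bb1a99af610f9e12792af54442a49db9f450d61b3727077c6fcbf66ab167d539333af64841f0e0b3af440d473 = true := by decide +kernel

theorem cB19_12_3_78 : chunkOkM (LB19_12.ctx true true 295 315 128 17 16 910 6601 35 195) muQ true true 64 RtB19_12.Cx.right.right.left RtB19_12.CX RtB19_12.Ctp.right.right.right.left.left.left.right RtB19_12.Ce.right.right.right.left.right.left.right.right RtB19_12.CTp.right.right RtB19_12.CEr.right.right 0x2781a367c9239dbbc0a8bf6456322df995bf430d14eb3fd286c326fe3079ba1c4698079f61100257a5daf540d9b99da6fdd240e267c1d96ab6ab5deb28a959f61031e4337caf513a1fbccd9f460d61339ccb686c280fdb579bc78cfb9b59f6107aace302af540d137df1177c77550e6abbdc6d0f549f6102630a33faf540d6474915a9015e86c1aad92479b680b558a09f61024912ae6af543c6f260a9f450d119f2af77c5ac20c6ab87f3b5aef9f6101cbbb243af5673a055e19f450d673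 = true := by decide +kernel

theorem cB19_12_3_79 : chunkOkM (LB19_12.ctx true true 107 1 1 1 1 1 1 1 1) muQ true true 64 RtB19_12.Cx.right.right.right RtB19_12.CX RtB19_12.Ctp.right.right.right.left.left.left.right RtB19_12.Ce.right.right.right.left.right.left.right RtB19_12.CTp.right.right RtB19_12.CEr.right.right 0x49 = true := by decide +kernel

theorem cB19_12_3_80 : chunkOkM (LB19_12.ctx true true 284 307 128 17 16 458 3269 35 91) muQ true true 64 RtB19_12.Cx.right.left RtB19_12.CX RtB19_12.Ctp.right.right.right.left.left.right RtB19_12.Ce.right.right.right.left.right.left.left RtB19_12.CTp.right.right RtB19_12.CEr.right 0x1425e6477c51af6f6abafdc91e1d9f6ca47772bd9f540d011497e2577c4e506e6ab10ea6b28a4af6bc71c84949f576047e7c8f250d1a3b266386c6136d76ab107c3aaff0af6bddd276449f524cd86d849f250d712df8da77c45bab06ab7b041be189f6b269dc8a19f51eb40718c9f250d43714674838b6aab9ca7f9fc141bf831b06bc7d0af630d6 = true := by decide +kernel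

theorem cB19_12_3_81 : chunkOkM (LB19_12.ctx true true 263 77 32 17 16 230 1645 35 65) muQ true true 64 RtB19_12.Cx.right.left RtB19_12.CX RtB19_12.Ctp.right.right.right.left.left.right RtB19_12.Ce.right.right.right.left.right.left.right RtB19_12.CTp.right.right RtB19_12.CEr.right.left 0x12db08fb11aab90b996d3bf4bf8103fdc743baf530d = true := by decide +kernel

theorem cB19_12_3_82 : chunkOkM (LB19_12.ctx true true 289 615 256 17 16 458 3283 35 91) muQ true true 64 RtB19_12.Cx.right.left.left RtB19_12.CX RtB19_12.Ctp.right.right.right.left.left.right RtB19_12.Ce.right.right.right.left.right.left.right RtB19_12.CTp.right.right RtB19_12.CEr.right.right 0x210114621a5486c4ae3a86ab13213b53ccaf6c36e30e929f512dfd244b9f250d32172174 = true := by decide +kernel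

end Vale.Agent.helper4.Q4
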