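import Vale.Agent.helper4.Q4TreeM
import Vale.Agent.helper4.Q4G.PB19_12

/-!
Checks for pairs of intervals of second moments.
-/

set_option maxRecDepth 100000
set_option linter.unusedVariables false

namespace Vale.Agent.helper4.Q4

theorem cB19_12_3_83 : chunkOkM (LB19_12.ctx true true 291 311 128 17 16 918 6601 35 91) muQ true true 64 RtB19_12.Cx.right.left.right RtB19_12.CX RtB19_12.Ctp.right.right.right.left.left.right RtB19_12.Ce.right.right.right.left.right.left.right RtB19_12.CTp.right.right RtB19_12.CEr.right.right 0x216bb2abf9fd13e228777c39e95ebf868bf64a2fd22030af1f833a5ac8faf050d1c1ae7877c6ed20f6ab881f9594b9f6d80479b5f9f540d19ce514486c690ef76abce2292eff9f6efe9093649f540d19633a777c686deb6abb33f27d779f6eab6a677d9f540d43141a48277c492e7e6abb6e8d4f1f9f6c6a9dcd6a9f540d1b5a3fe986c71d1826abb678eebda9f6e5de0ce8c9f540d3717d0fb677c5ceab46aba8e56f5af9f6dbe3e568f9f540d15b573b77c543e7a6abffb4e11bb9f6cca985ac59f540d743 = true := by decide +kernel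

theorem cB19_12_3_84 : chunkOkM (LB19_12.ctx true true 293 313 128 17 16 914 6601 35 195) muQ true true 64 RtB19_12.Cx.right.right RtB19_12.CX RtB19_12.Ctp.right.right.right.left.left.right RtB19_12.Ce.right.right.right.left.right.left RtB19_12.CTp.right.right RtB19_12.CEr.right 0x111169691886645986c572a13179b919905161aaf6ee4d78c0f9f540d124d48877c7c7c7e6ab810918e065af61189e93fc1af540d67694376943114122f04c6 = true := by decide +kernel

theorem cB19_12_3_85 : chunkOkM (LB19_12.ctx true true 107 1 1 1 1 1 1 1 1) muQ true true 64 RtB19_12.Cx.right.left RtB19_12.CX RtB19_12.Ctp.right.right.right.left.left.left RtB19_12.Ce.right.right.right.left.right.right RtB19_12.CTp.right.right RtB19_12.CEr.right 0x59 = true := by decide +kernel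

theorem cB19_12_3_86 : chunkOkM (LB19_12.ctx true true 107 1 1 1 1 1 1 1 1) muQ true true 64 RtB19_12.Cx.right.right RtB19_12.CX RtB19_12.Ctp.right.right.right.left.left.left.left RtB19_12.Ce.right.right.right.left.right.right RtB19_12.CTp.right.right RtB19_12.CEr.right 0x49 = true := by decide +kernel

theorem cB19_12_3_87 : chunkOkM (LB19_12.ctx true true 273 157 64 17 16 454 1659 35 65) muQ true true 64 RtB19_12.Cx.right.right.left RtB19_12.CX RtB19_12.Ctp.right.right.right.left.left.left.right RtB19_12.Ce.right.right.right.left.right.right.left RtB19_12.CTp.right.right RtB19_12.CEr.right.left 0xf8c24a38d9ab775f9e4fde4bf84685125bc9f611289d93f1af55eaf3ac569f450d = true := by decide +kernel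

theorem cB19_12_3_88 : chunkOkM (LB19_12.ctx true true 293 315 128 17 16 910 6629 35 195) muQ true true 64 RtB19_12.Cx.right.right.left RtB19_12.CX RtB19_12.Ctp.right.right.right.left.left.left.right RtB19_12.Ce.right.right.right.left.right.right.left.left RtB19_12.CTp.right.right RtB19_12.CEr.right.right 0x16ea632b86c446debb79b16f748bebcaf6fd89f56929f53397108d29f450d1095d5f77c5b6ed86abab1d774d39f61121e6c9a2af564629a8039f450d6198140c586c4d328af79bb54de64999f6105f291d7aaf53c3a651a79f450d141ea9277c6c6a176abf530e8ad59f61090c1c86daf554622692d9f450d64160efec786c3516a8779b9bf2a5ffd9f610cbc8b814af52e5154e629f450d1224bc077c6e2f836ab96f84a3679f61120aec599af540d67344fcd448f97e778c1987af52303443b210bf430d3 = true := by decide +kernel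

theorem cB19_12_3_89 : chunkOkM (LB19_12.ctx true true 290 315 128 17 16 910 3325 35 195) muQ true true 64 RtB19_12.Cx.right.right.left RtB19_12.CX RtB19_12.Ctp.right.right.right.left.left.left.right RtB19_12.Ce.right.right.right.left.right.right.left.right RtB19_12.CTp.right.right RtB19_12.CEr.right.right 0x20b42de486c7050c5679b24df98e36eaf613ffa03f1caf52f04b1778f450d18b507c77c9418846ab710e7eacb9f6118db2a344af5407406bf99f450d6493597 = true := by decide +kernel

theorem cB19_12_3_90 : chunkOkM (LB19_12.ctx true true 107 1 1 1 1 1 1 1 1) muQ true true 64 RtB19_12.Cx.right.right.left RtB19_12.CX RtB19_12.Ctp.right.right.right.left.left.left.right RtB19_12.Ce.right.right.right.left.right.right.right RtB19_12.CTp.right.right RtB19_12.CEr.right 0x59 = true := by decide +kernel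

theorem cB19_12_3_91 : chunkOkM (LB19_12.ctx true true 107 1 1 1 1 1 1 1 1) muQ true true 64 RtB19_12.Cx.right.right.right RtB19_12.CX RtB19_12.Ctp.right.right.right.left.left.left.right RtB19_12.Ce.right.right.right.left.right.right RtB19_12.CTp.right.right RtB19_12.CEr.right 0x49 = true := by decide +kernel

theorem cB19_12_3_92 : chunkOkM (LB19_12.ctx true true 291 311 128 17 16 922 3325 35 195) muQ true true 64 RtB19_12.Cx.right.left RtB19_12.CX RtB19_12.Ctp.right.right.right.left.left.right RtB19_12.Ce.right.right.right.left.right.right RtB19_12.CTp.right.right RtB19_12.CEr.right 0x210115cb073c86c564eb66ab8e13fc6ed9f6cf0b653339f59e23a0f08f250d21716bf52277c5d60dd6ab7b18f33b39f6c6cacfcd59f51c1326fa59f250d4317f77a177c6799996ab10ab765dd5af6e2fecfe679f540d27dc0c1886c3577516ab13c882feeaaf6ed6c998029f540d1750b7277c7349ef6abb034f4eef9f6eb0ad62639f540d643109c29bf37aab7f8626e7614bf8107b97318daf530d62174 = true := by decide +kernel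

theorem cB19_12_3_93 : chunkOkM (LB19_12.ctx true true 264 79 32 17 16 230 1659 35 65) muQ true true 64 RtB19_12.Cx.right.right RtB19_12.CX RtB19_12.Ctp.right.right.right.left.left.right RtB19_12.Ce.right.right.right.left.right.right.left RtB19_12.CTp.right.right RtB19_12.CEr.right.left 0x17019234c5aabb0a3c29bfb3bf8581a28d869f6eb6a191cf9f540d = true := by decide +kernel

theorem cB19_12_3_94 : chunkOkM (LB19_12.ctx true true 294 315 128 17 16 914 6629 35 195) muQ true true 64 RtB19_12.Cx.right.right.left RtB19_12.CX RtB19_12.Ctp.right.right.right.left.left.right.left.left RtB19_12.Ce.right.right.right.left.right.right.left.left RtB19_12.CTp.right.right RtB19_12.CEr.right.right 0x1de3db8c86c513c4f279b7acb7ce154af612a48ca077af540d230ed12c8fd1bdfda777c9de2d26ab2f90ea017daf6119091e356af550d669428734e9886c29c3d7c79b92365c39e9f61026a5854baf540d6666ff3c8fdb8830f67c236bbc6abb15d1b5d59f6fd991c2589f550d62d13b9f186c17c919d511af610cc9bbbc2af530d176ca8b77c94480f6abac9298de49f6f92baa9e69f540d647 = true := by decide +kernel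

theorem cB19_12_3_95 : chunkOkM (LB19_12.ctx true true 293 313 128 17 16 918 6629 35 195) muQ true true 64 RtB19_12.Cx.right.right.left RtB19_12.CX RtB19_12.Ctp.right.right.right.left.left.right.left.right RtB19_12.Ce.right.right.right.left.right.right.left.left RtB19_12.CTp.right.right RtB19_12.CEr.right.right 0x6925a3797e86c18acf1979b23b5c971f7af611cad22ba0af540d47ed8b418fda3529267c300c415011af6f09f6626c9f540d61c68acb77c742f836ab52a7bd8169f6dc45f7de49f540d47 = true := by decide +kernel

theorem cB19_12_3_96 : chunkOkM (LB19_12.ctx true true 299 627 256 17 16 918 6643 35 195) muQ true true 64 RtB19_12.Cx.right.right.left.left RtB19_12.CX RtB19_12.Ctp.right.right.right.left.left.right.left RtB19_12.Ce.right.right.right.left.right.right.left.right RtB19_12.CTp.right.right RtB19_12.CEr.right.right 0x259479f886c3540c5379b962f5b6259f6fd7792c409f540d60d36ec78fdba224867c1c8b0c6abaa9b42b269f6edaee7da69f550d6592872db1f86c148167e69baf6104ffe9016af530d18f9b0877c7a6c2c6ab10464b6a5aaf6e7b9524e69f540d659743 = true := by decide +kernel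

theorem cB19_12_3_97 : chunkOkM (LB19_12.ctx true true 293 315 128 17 16 918 6657 35 195) muQ true true 64 RtB19_12.Cx.right.right.left.right RtB19_12.CX RtB19_12.Ctp.right.right.right.left.left.right.left RtB19_12.Ce.right.right.right.left.right.right.left.right RtB19_12.CTp.right.right RtB19_12.CEr.right.right 0x23133ebe86c25a36f179b58e3b553a5af614707cdbbcaf540d1b6121177cc7da7b6ab14def9fb96af61080be3dabaf540d611d05c15805ab77c78e6786abbe8a04bb19f6fedd5d47b9f540d6417ae2aa286c61b667b79b114beaf471af6fce1482579f51688ca42e9f450d10d572477c64f8846abba6d848b69f61211c44f5faf540d63 = true := by decide +kernel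

theorem cB19_12_3_98 : chunkOkM (LB19_12.ctx true true 293 317 128 17 16 914 6657 35 195) muQ true true 64 RtB19_12.Cx.right.right.right RtB19_12.CX RtB19_12.Ctp.right.right.right.left.left.right.left RtB19_12.Ce.right.right.right.left.right.right.left RtB19_12.CTp.right.right RtB19_12.CEr.right.right 0x6949187f6cc586c432e366ab26db16e021af611a11557d1af540d152566d77c83af376ab2161ce822caf611adc4c16aaf55b0fa73129f450d676943694 = true := by decide +kernel

theorem cB19_12_3_99 : chunkOkM (LB19_12.ctx true true 287 313 128 17 16 926 3325 35 91) muQ true true 64 RtB19_12.Cx.right.right RtB19_12.CX RtB19_12.Ctp.right.right.right.left.left.right.right RtB19_12.Ce.right.right.right.left.right.right.left RtB19_12.CTp.right.right RtB19_12.CEr.right.right 0x11135286e773af00b69182cee577c6387976ab9624289169f6d798a51d59f540d737694 = true := by decide +kernel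

theorem cB19_12_3_100 : chunkOkM (LB19_12.ctx true true 264 79 32 17 16 230 1673 35 65) muQ true true 64 RtB19_12.Cx.right.right RtB19_12.CX RtB19_12.Ctp.right.right.right.left.left.right RtB19_12.Ce.right.right.right.left.right.right.right RtB19_12.CTp.right.right RtB19_12.CEr.right.left 0x1465286061aab9c4dbc3696abf82c2a44bd5aaf630d = true := by decide +kernel

end Vale.Agent.helper4.Q4
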