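import Vale.Agent.helper4.Q4TreeM
import Vale.Agent.helper4.Q4G.PB19_12

/-!
Checks for pairs of intervals of second moments.
-/

set_option maxRecDepth 100000
set_option linter.unusedVariables false

namespace Vale.Agent.helper4.Q4

theorem cB19_12_3_101 : chunkOkM (LB19_12.ctx true true 317 1263 512 17 16 3678 13391 35 195) muQ true true 64 RtB19_12.Cx.right.right.left RtB19_12.CX RtB19_12.Ctp.right.right.right.left.left.right.left RtB19_12.Ce.right.right.right.left.right.right.right RtB19_12.CTp.right.right RtB19_12.CEr.right.right 0x5959288de05f86cdd86949819f6fffa2103e9f530d14cace577c93ab776ab558ef2cc63af6d7202daac9f540d6593597459359745935971b7195a77c5576bc6ab16ee85682aaf6118c154c0faf540d14172f377c783f116ab1a4ed206cbaf611ad940275af540d64 = true := by decide +kernel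

theorem cB19_12_3_102 : chunkOkM (LB19_12.ctx true true 294 315 128 17 16 926 6685 35 195) muQ true true 64 RtB19_12.Cx.right.right.left RtB19_12.CX RtB19_12.Ctp.right.right.right.left.left.right.right RtB19_12.Ce.right.right.right.left.right.right.right.left RtB19_12.CTp.right.right RtB19_12.CEr.right.right 0x1d6a13f77c7b8e2e6ab218d0841e20bf630d1b933ea186c5a03dcc79b28d6745349f6ec8565f4b9f540d16b70e077c6de4c86abef971bebd9f6e0bbc4a659f540d6255c2fb386c3e3aae579b40cdbc9e7caf612fca95819af540d153180b77c7226846abe01743d2f9f6f02899a919f540d643188eec277c6734f26abb127ca64e9f6ccf848cf59f5e7b802908f250d2626240f86c39989f979b41fec9e739f6e7ced78b09f540d1c4c50077c989d776ab3b3666f3dcaf610cbe4f717af540d637 = true := by decide +kernel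

theorem cB19_12_3_103 : chunkOkM (LB19_12.ctx true true 280 157 64 17 16 462 3353 35 195) muQ true true 64 RtB19_12.Cx.right.right.left RtB19_12.CX RtB19_12.Ctp.right.right.right.left.left.right.right RtB19_12.Ce.right.right.right.left.right.right.right.right RtB19_12.CTp.right.right RtB19_12.CEr.right.right 0x4c15d11b8fd2cb963e886c385a556abd23bd7bac9f6ea7be17fb9f550d1a171af77c8e0f426ab16dc0a3885af6e3ba3a9f29f540d6 = true := by decide +kernel

theorem cB19_12_3_104 : chunkOkM (LB19_12.ctx true true 293 317 128 17 16 918 6685 35 195) muQ true true 64 RtB19_12.Cx.right.right.right RtB19_12.CX RtB19_12.Ctp.right.right.right.left.left.right.left RtB19_12.Ce.right.right.right.left.right.right.right.left RtB19_12.CTp.right.right RtB19_12.CEr.right.right 0x691baf189686c517722579b790dcc6029f6fcf60a69f9f540d131fca177c6908386ab51dbde8009f61001e685ccaf540d61a2c05c13bd02177c68e4636ab50049ee6f9f6fe6b951059f540d6474914fd0b7386c2f0955279b848daa3309f610ab0a350faf54c6e85adc9f450d14ccfe277c813b716ab754b10e379f610daaff6c4af54ce85e70b9f450d673 = true := by decide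 +kernel

theorem cB19_12_3_105 : chunkOkM (LB19_12.ctx true true 296 319 128 17 16 918 6713 35 195) muQ true true 64 RtB19_12.Cx.right.right.right RtB19_12.CX RtB19_12.Ctp.right.right.right.left.left.right.left RtB19_12.Ce.right.right.right.left.right.right.right.right RtB19_12.CTp.right.right RtB19_12.CEr.right.right 0x1c89b1f286c679aedc79b80c694f329f6109939d197af53fcff99899f450d17fff2e77caadafe6ab166787fcc8af611b5c9566caf5466aee4469f450d6684a09748f8dde08b139ffbf653cbd4c1f90bf430d425c40d3286c40db16079b112b506135af6128317c0fcaf5140024ac79f450d174afba77c8df74b6ab35a8b66139f610c3b7e7eaaf521e0acf5b9f450d6729c29ec77c3653c01db20bf5114211cbd079cf430d3 = true := by decide +kernel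

theorem cB19_12_3_106 : chunkOkM (LB19_12.ctx true true 294 317 128 17 16 926 6713 35 195) muQ true true 64 RtB19_12.Cx.right.right.right RtB19_12.CX RtB19_12.Ctp.right.right.right.left.left.right.right RtB19_12.Ce.right.right.right.left.right.right.right RtB19_12.CTp.right.right RtB19_12.CEr.right.right 0x11d05c18cfe5177c9acf886ab8a0f3b09d9f6f45c0d3aa9f540d6694693bb4e8ef8fd29d89f3786c411703079b2e2dce90f9f6f0c3d54c79f550d13e1cf677c9462c36abae9f486cc9f610ba320d0daf540d61bc24ea286c5f1721379b5fe55cc554af6f138a168d9f540d15e695177cb8a2d66ab19de6102abaf6118d438b5aaf540d6473694 = true := by decide +kernel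

theorem cB19_12_3_107 : chunkOkM (LB19_12.ctx true true 245 39 16 17 16 118 413 35 39) muQ true true 64 RtB19_12.Cx.right RtB19_12.CX RtB19_12.Ctp.right.right.right.left.right RtB19_12.Ce.right.right.right.left.right RtB19_12.CTp.right.right RtB19_12.CEr.right 0xec8e6767c6023a56ab19937b23f1cbf1554da9b2f84bf040d = true := by decide +kernel

theorem cB19_12_3_108 : chunkOkM (LB19_12.ctx true true 107 1 1 1 1 1 1 1 1) muQ true true 64 RtB19_12.Cx.left RtB19_12.CX RtB19_12.Ctp.right.right.right.left RtB19_12.Ce.right.right.right.right.left RtB19_12.CTp.right.right RtB19_12.CEr.right 0x21 = true := by decide +kernel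

theorem cB19_12_3_109 : chunkOkM (LB19_12.ctx true true 107 1 1 1 1 1 1 1 1) muQ true true 64 RtB19_12.Cx.right.left RtB19_12.CX RtB19_12.Ctp.right.right.right.left RtB19_12.Ce.right.right.right.right.left.left RtB19_12.CTp.right.right RtB19_12.CEr.right 0x21 = true := by decide +kernel

theorem cB19_12_3_110 : chunkOkM (LB19_12.ctx true true 107 1 1 1 1 1 1 1 1) muQ true true 64 RtB19_12.Cx.right.right RtB19_12.CX RtB19_12.Ctp.right.right.right.left.left.left RtB19_12.Ce.right.right.right.right.left.left RtB19_12.CTp.right.right RtB19_12.CEr.right 0x59 = true := by decide +kernel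

theorem cB19_12_3_111 : chunkOkM (LB19_12.ctx true true 260 79 32 17 16 230 847 35 65) muQ true true 64 RtB19_12.Cx.right.right RtB19_12.CX RtB19_12.Ctp.right.right.right.left.left.right RtB19_12.Ce.right.right.right.right.left.left RtB19_12.CTp.right.right RtB19_12.CEr.right.left 0x1279d6f89eaab8dafaf99df2bf81356f3b268af613cece0a49f540d = true := by decide +kernel

theorem cB19_12_3_112 : chunkOkM (LB19_12.ctx true true 281 159 64 17 16 458 3381 35 195) muQ true true 64 RtB19_12.Cx.right.right RtB19_12.CX RtB19_12.Ctp.right.right.right.left.left.right.left RtB19_12.Ce.right.right.right.right.left.left.left RtB19_12.CTp.right.right RtB19_12.CEr.right.right 0x32c890677c9a93fe388f910cef682b60bf550a64b21c7fbf440d1cb785977c5ab55c6ab99b6a80d39f6117d7505bfaf55b7f57d379f450d152cedc77c77626c6ab8a4b73a469f611f71bf24daf55878457ca9f450d64597 = true := by decide +kernel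

theorem cB19_12_3_113 : chunkOkM (LB19_12.ctx true true 290 315 128 17 16 926 3367 35 195) muQ true true 64 RtB19_12.Cx.right.right.left RtB19_12.CX RtB19_12.Ctp.right.right.right.left.left.right.right RtB19_12.Ce.right.right.right.right.left.left.left RtB19_12.CTp.right.right RtB19_12.CEr.right.right 0x21277f8a8686c3c4f46279b485c697cb9f6ea23c2e529f540d1bbf12e77cbdd04c6ab68cf633f09f6e4913fd6b9f540d65932174 = true := by decide +kernel

theorem cB19_12_3_114 : chunkOkM (LB19_12.ctx true true 294 317 128 17 16 926 6741 35 195) muQ true true 64 RtB19_12.Cx.right.right.right.left RtB19_12.CX RtB19_12.Ctp.right.right.right.left.left.right.right RtB19_12.Ce.right.right.right.right.left.left.left.left RtB19_12.CTp.right.right RtB19_12.CEr.right.right 0x2727604a86c7d43930b69f6f3fdc60c19f530d1249e4877c62961d6ab134979e967af610c256389eaf540d62669d50786c207c6d079b212773f5efaf61154dd3501af540d1836ac677c75f30f6abe452122dd9f6e53fc51469f540d6428bb01ae86ca5805e1489f6108a86ed31af530d179291877c84fecf6ab12c9b782d5af610d28de54baf540d63 = true := by decide +kernel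

theorem cB19_12_3_115 : chunkOkM (LB19_12.ctx true true 294 319 128 17 16 926 6741 35 195) muQ true true 64 RtB19_12.Cx.right.right.right.right RtB19_12.CX RtB19_12.Ctp.right.right.right.left.left.right.right RtB19_12.Ce.right.right.right.right.left.left.left.left RtB19_12.CTp.right.right RtB19_12.CEr.right.right 0x1d2c05c18f102a77ca33b506abbdd1231379f61040602d07af540d619ddcfe086c5642c7379ba2f32bff69f611d10ead96af540d17d5b9777c8596496ab633471db29f6103bece306af5252c3cf1c9f450d61d18317586c6281886abf7aefd12f9f530d173609777c9e70b46ab9f833b19f9f6115a48e721af540d643 = true := by decide +kernel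

end Vale.Agent.helper4.Q4
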