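import Vale.Agent.helper4.Q4TreeM
import Vale.Agent.helper4.Q4G.PB19_12

/-!
Checks for pairs of intervals of second moments.
-/

set_option maxRecDepth 100000
set_option linter.unusedVariables false

namespace Vale.Agent.helper4.Q4

theorem cB19_12_3_116 : chunkOkM (LB19_12.ctx true true 280 159 64 17 16 462 3381 35 195) muQ true true 64 RtB19_12.Cx.right.right.right RtB19_12.CX RtB19_12.Ctp.right.right.right.left.left.right.right RtB19_12.Ce.right.right.right.right.left.left.left.right RtB19_12.CTp.right.right RtB19_12.CEr.right.right 0x1db9243186c82f70a6abe2913df459f611bde951a2af540d1451c8077c6c94db6ab9fcfb95859f61143f0cb60af540d6 = true := by decide +kernel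

theorem cB19_12_3_117 : chunkOkM (LB19_12.ctx true true 291 319 128 17 16 926 3395 35 195) muQ true true 64 RtB19_12.Cx.right.right RtB19_12.CX RtB19_12.Ctp.right.right.right.left.left.right RtB19_12.Ce.right.right.right.right.left.left.right RtB19_12.CTp.right.right RtB19_12.CEr.right.right 0x593199530586ce9086db7e9f6110f7df112af530d370522d58fd20752d777cbc69826abf1c5e5fdf9f611c466f150af550d65935974217593 = true := by decide +kernel

theorem cB19_12_3_118 : chunkOkM (LB19_12.ctx true true 265 79 32 17 16 466 847 35 65) muQ true true 64 RtB19_12.Cx.right.right RtB19_12.CX RtB19_12.Ctp.right.right.right.left.right.left.left RtB19_12.Ce.right.right.right.right.left.left RtB19_12.CTp.right.right RtB19_12.CEr.right.left 0x14695d8b34aab9cb71a3146ebf85353566f09f6ef44306899f540d = true := by decide +kernel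

theorem cB19_12_3_119 : chunkOkM (LB19_12.ctx true true 313 1263 512 17 16 3714 6741 35 195) muQ true true 64 RtB19_12.Cx.right.right.left RtB19_12.CX RtB19_12.Ctp.right.right.right.left.right.left.left RtB19_12.Ce.right.right.right.right.left.left.left RtB19_12.CTp.right.right RtB19_12.CEr.right.right 0x210101011bf2fb268fd122487b286c7579d7979b9905af6f8f6ed0ed02f19f550d1456b9777c5ecc846ab1171c942beaf5864631958f240d62171ab43c5c86c7488686ab2a34327b8f616693e1efcaf240d43330170174 = true := by decide +kernel

theorem cB19_12_3_120 : chunkOkM (LB19_12.ctx true true 294 319 128 17 16 930 6769 35 195) muQ true true 64 RtB19_12.Cx.right.right.right RtB19_12.CX RtB19_12.Ctp.right.right.right.left.right.left.left RtB19_12.Ce.right.right.right.right.left.left.left RtB19_12.CTp.right.right RtB19_12.CEr.right.right 0x113115c55e86c2db93d6599f6ed9cd842b9f530d12b528777c73f7da6ab31a7b3d534af61045edb8e1af540d6694301ed08c37e8fd3051bb5186c6f7be9b79ba57f7787b9f6e95c9b5919f550d16f32ac77c8cb40b6ab75e75c1689f6e9e8f44769f540d63711112f3aac9186c6538bdafa9f6dcd73868c9f530d1621a4377c79de706abfdf85cbee9f6e4afe5cf09f540d6711434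 = true := by decide +kernel

theorem cB19_12_3_121 : chunkOkM (LB19_12.ctx true true 107 1 1 1 1 1 1 1 1) muQ true true 64 RtB19_12.Cx.right.right.left RtB19_12.CX RtB19_12.Ctp.right.right.right.left.right.left.left RtB19_12.Ce.right.right.right.right.left.left.right RtB19_12.CTp.right.right RtB19_12.CEr.right.right 0x21 = true := by decide +kernel

theorem cB19_12_3_122 : chunkOkM (LB19_12.ctx true true 310 1271 512 17 16 1862 6797 35 195) muQ true true 64 RtB19_12.Cx.right.right.right RtB19_12.CX RtB19_12.Ctp.right.right.right.left.right.left.left RtB19_12.Ce.right.right.right.right.left.left.right.left RtB19_12.CTp.right.right RtB19_12.CEr.right.right 0x30b7d68086c41770291a9f6e14a72d0f9f530d1cf5dc577cd8ae076abb95dc5278f6efbb77b289f540d61d69b0b77c830b096ab15895053dbaf230d41983004386c777846e79b12446a568caf6debffe3399f540d18e288277c908acd6ab4f7c65ace9f6fc68751599f540d632101283b761686c4626b1379b12cf43411daf6e599dcdcf9f540d1979d8548fd1044fa177c2e8ce16ab3694c2376aaf61298248438af550d6693321721747 = true := by decide +kernel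

theorem cB19_12_3_123 : chunkOkM (LB19_12.ctx true true 287 319 128 17 16 466 3409 35 195) muQ true true 64 RtB19_12.Cx.right.right.right RtB19_12.CX RtB19_12.Ctp.right.right.right.left.right.left.left RtB19_12.Ce.right.right.right.right.left.left.right.right RtB19_12.CTp.right.right RtB19_12.CEr.right.right 0x1b04f28486c71a0866ab80b11b0389f6eab19f4f29f540d1ac96e577c9ff5066abe3a23d4369f6f5f3b81c69f540d6217 = true := by decide +kernel

theorem cB19_12_3_124 : chunkOkM (LB19_12.ctx true true 107 1 1 1 1 1 1 1 1) muQ true true 64 RtB19_12.Cx.right.right RtB19_12.CX RtB19_12.Ctp.right.right.right.left.right.left.right RtB19_12.Ce.right.right.right.right.left.left RtB19_12.CTp.right.right RtB19_12.CEr.right 0x01 = true := by decide +kernel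

theorem cB19_12_3_125 : chunkOkM (LB19_12.ctx true true 107 1 1 1 1 1 1 1 1) muQ true true 64 RtB19_12.Cx.right.right RtB19_12.CX RtB19_12.Ctp.right.right.right.left.right.right RtB19_12.Ce.right.right.right.right.left.left RtB19_12.CTp.right.right RtB19_12.CEr.right 0x01 = true := by decide +kernel

theorem cB19_12_3_126 : chunkOkM (LB19_12.ctx true true 107 1 1 1 1 1 1 1 1) muQ true true 64 RtB19_12.Cx.right RtB19_12.CX RtB19_12.Ctp.right.right.right.left RtB19_12.Ce.right.right.right.right.left.right RtB19_12.CTp.right.right RtB19_12.CEr.right 0x21 = true := by decide +kernel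

theorem cB19_12_3_127 : chunkOkM (LB19_12.ctx true true 107 1 1 1 1 1 1 1 1) muQ true true 64 RtB19_12.Cx RtB19_12.CX RtB19_12.Ctp.right.right.right.left RtB19_12.Ce.right.right.right.right.right RtB19_12.CTp.right.right RtB19_12.CEr.right 0x21 = true := by decide +kernel

theorem cB19_12_3_128 : chunkOkM (LB19_12.ctx true true 107 1 1 1 1 1 1 1 1) muQ true true 64 RtB19_12.Cx RtB19_12.CX RtB19_12.Ctp.right.right.right.right RtB19_12.Ce.right.right.right RtB19_12.CTp.right.right RtB19_12.CEr.right 0x01 = true := by decide +kernel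

theorem cB19_12_2_0 : chunkOkM (LB19_12.ctx false true 107 1 1 1 1 1 1 1 1) muQ false true 64 RtB19_12.Cx RtB19_12.CX RtB19_12.Ctn RtB19_12.Ce RtB19_12.CTp RtB19_12.CEr 0x49 = true := by decide +kernel

theorem cB19_12_1_0 : chunkOkM (LB19_12.ctx true false 107 1 1 1 1 1 1 1 1) muQ true false 64 RtB19_12.Cx RtB19_12.CX RtB19_12.Ctp RtB19_12.Ce RtB19_12.CTn RtB19_12.CEr 0x4a = true := by decide +kernel

theorem cB19_12_0_0 : chunkOkM (LB19_12.ctx false false 107 1 1 1 1 1 1 1 1) muQ false false 64 RtB19_12.Cx RtB19_12.CX RtB19_12.Ctn RtB19_12.Ce RtB19_12.CTn RtB19_12.CEr 0x49 = true := by decide +kernel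

end Vale.Agent.helper4.Q4
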