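import Vale.Agent.helper4.Q4TreeM
import Vale.Agent.helper4.Q4G.PB19_12_0
import Vale.Agent.helper4.Q4G.PB19_12_1
import Vale.Agent.helper4.Q4G.PB19_12_2
import Vale.Agent.helper4.Q4G.PB19_12_3
import Vale.Agent.helper4.Q4G.PB19_12_4
import Vale.Agent.helper4.Q4G.PB19_12_5
import Vale.Agent.helper4.Q4G.PB19_12_6

/-!
Checks for pairs of intervals of second moments.
-/

set_option maxRecDepth 100000
set_option linter.unusedVariables false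

namespace Vale.Agent.helper4.Q4

theorem covB19_12 : LB19_12.Full muQ.val RtB19_12 := ⟨(LitT.Cov.split_t (LitT.cov_of_chunkM cB19_12_3_0) (LitT.Cov.split_e (LitT.cov_of_chunkM cB19_12_3_1) (LitT.Cov.split_t (LitT.cov_of_chunkM cB19_12_3_2) (LitT.Cov.split_e (LitT.cov_of_chunkM cB19_12_3_3) (LitT.Cov.split_T (LitT.cov_of_chunkM cB19_12_3_4) (LitT.Cov.split_T (LitT.cov_of_chunkM cB19_12_3_5) (LitT.Cov.split_E (LitT.cov_of_chunkM cB19_12_3_6) (LitT.Cov.split_e (LitT.Cov.split_t (LitT.Cov.split_t (LitT.cov_of_chunkM cB19_12_3_7) (LitT.Cov.split_e (LitT.cov_of_chunkM cB19_12_3_8) (LitT.Cov.split_e (LitT.Cov.split_t (LitT.Cov.split_t (LitT.cov_of_chunkM cB19_12_3_9) (LitT.Cov.split_e (LitT.cov_of_chunkM cB19_12_3_10) (LitT.Cov.split_x (LitT.Cov.split_x (LitT.Cov.split_e (LitT.cov_of_chunkM cB19_12_3_11) (LitT.cov_of_chunkM cB19_12_3_12)) (LitT.cov_of_chunkM cB19_12_3_13))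 (LitT.cov_of_chunkM cB19_12_3_14)))) (LitT.cov_of_chunkM cB19_12_3_15)) (LitT.Cov.split_t (LitT.cov_of_chunkM cB19_12_3_16) (LitT.Cov.split_x (LitT.Cov.split_e (LitT.Cov.split_t (LitT.Cov.split_x (LitT.Cov.split_e (LitT.cov_of_chunkM cB19_12_3_17) (LitT.cov_of_chunkM cB19_12_3_18)) (LitT.cov_of_chunkM cB19_12_3_19)) (LitT.cov_of_chunkM cB19_12_3_20)) (LitT.Cov.split_t (LitT.Cov.split_x (LitT.cov_of_chunkM cB19_12_3_21) (LitT.Cov.split_x (LitT.Cov.split_e (LitT.cov_of_chunkM cB19_12_3_22) (LitT.cov_of_chunkM cB19_12_3_23)) (LitT.cov_of_chunkM cB19_12_3_24))) (LitT.Cov.split_x (LitT.cov_of_chunkM cB19_12_3_25) (LitT.cov_of_chunkM cB19_12_3_26)))) (LitT.cov_of_chunkM cB19_12_3_27)))))) (LitT.cov_of_chunkM cB19_12_3_28)) (LitT.Cov.split_t (LitT.Cov.split_t (LitT.cov_of_chunkM cB19_12_3_29) (LitT.Cov.split_e (LitT.Cov.split_e (LitT.Cov.split_t (LitT.cov_of_chunkM cB19_12_3_30)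 (LitT.Cov.split_x (LitT.Cov.split_e (LitT.Cov.split_t (LitT.cov_of_chunkM cB19_12_3_31) (LitT.Cov.split_x (LitT.cov_of_chunkM cB19_12_3_32) (LitT.Cov.split_e (LitT.cov_of_chunkM cB19_12_3_33) (LitT.cov_of_chunkM cB19_12_3_34)))) (LitT.cov_of_chunkM cB19_12_3_35)) (LitT.Cov.split_t (LitT.cov_of_chunkM cB19_12_3_36) (LitT.Cov.split_t (LitT.cov_of_chunkM cB19_12_3_37) (LitT.Cov.split_e (LitT.cov_of_chunkM cB19_12_3_38) (LitT.Cov.split_x (LitT.Cov.split_x (LitT.Cov.split_e (LitT.Cov.split_E (LitT.cov_of_chunkM cB19_12_3_39) (LitT.Cov.split_e (LitT.cov_of_chunkM cB19_12_3_40) (LitT.cov_of_chunkM cB19_12_3_41))) (LitT.cov_of_chunkM cB19_12_3_42)) (LitT.cov_of_chunkM cB19_12_3_43)) (LitT.cov_of_chunkM cB19_12_3_44))))))) (LitT.cov_of_chunkM cB19_12_3_45)) (LitT.cov_of_chunkM cB19_12_3_46))) (LitT.Cov.split_t (LitT.Cov.split_e (LitT.Cov.split_e (LitT.Cov.split_t (LitT.Cov.split_x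 (LitT.Cov.split_t (LitT.Cov.split_e (LitT.Cov.split_x (LitT.cov_of_chunkM cB19_12_3_47) (LitT.cov_of_chunkM cB19_12_3_48)) (LitT.cov_of_chunkM cB19_12_3_49)) (LitT.cov_of_chunkM cB19_12_3_50)) (LitT.Cov.split_e (LitT.cov_of_chunkM cB19_12_3_51) (LitT.Cov.split_t (LitT.Cov.split_x (LitT.Cov.split_e (LitT.cov_of_chunkM cB19_12_3_52) (LitT.Cov.split_E (LitT.cov_of_chunkM cB19_12_3_53) (LitT.Cov.split_x (LitT.Cov.split_t (LitT.Cov.split_e (LitT.cov_of_chunkM cB19_12_3_54) (LitT.cov_of_chunkM cB19_12_3_55)) (LitT.cov_of_chunkM cB19_12_3_56)) (LitT.cov_of_chunkM cB19_12_3_57)))) (LitT.cov_of_chunkM cB19_12_3_58)) (LitT.cov_of_chunkM cB19_12_3_59)))) (LitT.cov_of_chunkM cB19_12_3_60)) (LitT.Cov.split_x (LitT.cov_of_chunkM cB19_12_3_61) (LitT.Cov.split_t (LitT.Cov.split_e (LitT.Cov.split_t (LitT.Cov.split_x (LitT.Cov.split_E (LitT.cov_of_chunkM cB19_12_3_62) (LitT.Cov.split_e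 (LitT.Cov.split_t (LitT.Cov.split_x (LitT.cov_of_chunkM cB19_12_3_63) (LitT.Cov.split_e (LitT.Cov.split_t (LitT.cov_of_chunkM cB19_12_3_64) (LitT.cov_of_chunkM cB19_12_3_65)) (LitT.cov_of_chunkM cB19_12_3_66))) (LitT.Cov.split_x (LitT.cov_of_chunkM cB19_12_3_67) (LitT.Cov.split_e (LitT.cov_of_chunkM cB19_12_3_68) (LitT.cov_of_chunkM cB19_12_3_69)))) (LitT.Cov.split_x (LitT.cov_of_chunkM cB19_12_3_70) (LitT.Cov.split_t (LitT.cov_of_chunkM cB19_12_3_71) (LitT.Cov.split_e (LitT.cov_of_chunkM cB19_12_3_72) (LitT.cov_of_chunkM cB19_12_3_73)))))) (LitT.Cov.split_t (LitT.cov_of_chunkM cB19_12_3_74) (LitT.Cov.split_e (LitT.cov_of_chunkM cB19_12_3_75) (LitT.Cov.split_E (LitT.cov_of_chunkM cB19_12_3_76) (LitT.Cov.split_x (LitT.Cov.split_e (LitT.cov_of_chunkM cB19_12_3_77) (LitT.cov_of_chunkM cB19_12_3_78)) (LitT.cov_of_chunkM cB19_12_3_79)))))) (LitT.Cov.split_x (LitT.Cov.split_e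 (LitT.cov_of_chunkM cB19_12_3_80) (LitT.Cov.split_E (LitT.cov_of_chunkM cB19_12_3_81) (LitT.Cov.split_x (LitT.cov_of_chunkM cB19_12_3_82) (LitT.cov_of_chunkM cB19_12_3_83)))) (LitT.cov_of_chunkM cB19_12_3_84))) (LitT.Cov.split_t (LitT.Cov.split_x (LitT.cov_of_chunkM cB19_12_3_85) (LitT.Cov.split_t (LitT.cov_of_chunkM cB19_12_3_86) (LitT.Cov.split_x (LitT.Cov.split_e (LitT.Cov.split_E (LitT.cov_of_chunkM cB19_12_3_87) (LitT.Cov.split_e (LitT.cov_of_chunkM cB19_12_3_88) (LitT.cov_of_chunkM cB19_12_3_89))) (LitT.cov_of_chunkM cB19_12_3_90)) (LitT.cov_of_chunkM cB19_12_3_91)))) (LitT.Cov.split_x (LitT.cov_of_chunkM cB19_12_3_92) (LitT.Cov.split_e (LitT.Cov.split_E (LitT.cov_of_chunkM cB19_12_3_93) (LitT.Cov.split_t (LitT.Cov.split_x (LitT.Cov.split_e (LitT.Cov.split_t (LitT.cov_of_chunkM cB19_12_3_94) (LitT.cov_of_chunkM cB19_12_3_95)) (LitT.Cov.split_x (LitT.cov_of_chunkM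 cB19_12_3_96) (LitT.cov_of_chunkM cB19_12_3_97))) (LitT.cov_of_chunkM cB19_12_3_98)) (LitT.cov_of_chunkM cB19_12_3_99))) (LitT.Cov.split_E (LitT.cov_of_chunkM cB19_12_3_100) (LitT.Cov.split_x (LitT.Cov.split_t (LitT.cov_of_chunkM cB19_12_3_101) (LitT.Cov.split_e (LitT.cov_of_chunkM cB19_12_3_102) (LitT.cov_of_chunkM cB19_12_3_103))) (LitT.Cov.split_t (LitT.Cov.split_e (LitT.cov_of_chunkM cB19_12_3_104) (LitT.cov_of_chunkM cB19_12_3_105)) (LitT.cov_of_chunkM cB19_12_3_106)))))))) (LitT.cov_of_chunkM cB19_12_3_107)))) (LitT.Cov.split_e (LitT.Cov.split_x (LitT.cov_of_chunkM cB19_12_3_108) (LitT.Cov.split_e (LitT.Cov.split_x (LitT.cov_of_chunkM cB19_12_3_109) (LitT.Cov.split_t (LitT.Cov.split_t (LitT.cov_of_chunkM cB19_12_3_110) (LitT.Cov.split_E (LitT.cov_of_chunkM cB19_12_3_111) (LitT.Cov.split_e (LitT.Cov.split_t (LitT.cov_of_chunkM cB19_12_3_112) (LitT.Cov.split_x (LitT.cov_of_chunkM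 cB19_12_3_113) (LitT.Cov.split_e (LitT.Cov.split_x (LitT.cov_of_chunkM cB19_12_3_114) (LitT.cov_of_chunkM cB19_12_3_115)) (LitT.cov_of_chunkM cB19_12_3_116)))) (LitT.cov_of_chunkM cB19_12_3_117)))) (LitT.Cov.split_t (LitT.Cov.split_t (LitT.Cov.split_E (LitT.cov_of_chunkM cB19_12_3_118) (LitT.Cov.split_e (LitT.Cov.split_x (LitT.cov_of_chunkM cB19_12_3_119) (LitT.cov_of_chunkM cB19_12_3_120)) (LitT.Cov.split_x (LitT.cov_of_chunkM cB19_12_3_121) (LitT.Cov.split_e (LitT.cov_of_chunkM cB19_12_3_122) (LitT.cov_of_chunkM cB19_12_3_123))))) (LitT.cov_of_chunkM cB19_12_3_124)) (LitT.cov_of_chunkM cB19_12_3_125)))) (LitT.cov_of_chunkM cB19_12_3_126))) (LitT.cov_of_chunkM cB19_12_3_127))) (LitT.cov_of_chunkM cB19_12_3_128))))))))))), (LitT.cov_of_chunkM cB19_12_1_0), (LitT.cov_of_chunkM cB19_12_2_0), (LitT.cov_of_chunkM cB19_12_0_0)⟩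

end Vale.Agent.helper4.Q4
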