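import Vale.Agent.helper4.Q4TreeM
import Vale.Agent.helper4.Q4G.PB19_13

/-!
Checks for pairs of intervals of second moments.
-/

set_option maxRecDepth 100000
set_option linter.unusedVariables false

namespace Vale.Agent.helper4.Q4

theorem cB19_13_3_0 : chunkOkM (LB19_13.ctx true true 98 1 1 1 1 1 1 1 1) muQ true true 64 RtB19_13.Cx RtB19_13.CX RtB19_13.Ctp.left RtB19_13.Ce RtB19_13.CTp RtB19_13.CEr 0x41 = true := by decide +kernel

theorem cB19_13_3_1 : chunkOkM (LB19_13.ctx true true 98 1 1 1 1 1 1 1 1) muQ true true 64 RtB19_13.Cx RtB19_13.CX RtB19_13.Ctp.right RtB19_13.Ce.left RtB19_13.CTp RtB19_13.CEr 0x69 = true := by decide +kernel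

theorem cB19_13_3_2 : chunkOkM (LB19_13.ctx true true 98 1 1 1 1 1 1 1 1) muQ true true 64 RtB19_13.Cx RtB19_13.CX RtB19_13.Ctp.right.left RtB19_13.Ce.right RtB19_13.CTp RtB19_13.CEr 0x49 = true := by decide +kernel

theorem cB19_13_3_3 : chunkOkM (LB19_13.ctx true true 98 1 1 1 1 1 1 1 1) muQ true true 64 RtB19_13.Cx RtB19_13.CX RtB19_13.Ctp.right.right RtB19_13.Ce.right.left RtB19_13.CTp RtB19_13.CEr 0x69 = true := by decide +kernel

theorem cB19_13_3_4 : chunkOkM (LB19_13.ctx true true 98 1 1 1 1 1 1 1 1) muQ true true 64 RtB19_13.Cx RtB19_13.CX RtB19_13.Ctp.right.right RtB19_13.Ce.right.right RtB19_13.CTp.left RtB19_13.CEr 0x42 = true := by decide +kernel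

theorem cB19_13_3_5 : chunkOkM (LB19_13.ctx true true 98 1 1 1 1 1 1 1 1) muQ true true 64 RtB19_13.Cx RtB19_13.CX RtB19_13.Ctp.right.right RtB19_13.Ce.right.right RtB19_13.CTp.right.left RtB19_13.CEr 0x42 = true := by decide +kernel

theorem cB19_13_3_6 : chunkOkM (LB19_13.ctx true true 98 1 1 1 1 1 1 1 1) muQ true true 64 RtB19_13.Cx RtB19_13.CX RtB19_13.Ctp.right.right RtB19_13.Ce.right.right RtB19_13.CTp.right.right RtB19_13.CEr.left 0x12 = true := by decide +kernel

theorem cB19_13_3_7 : chunkOkM (LB19_13.ctx true true 98 1 1 1 1 1 1 1 1) muQ true true 64 RtB19_13.Cx RtB19_13.CX RtB19_13.Ctp.right.right.left.left RtB19_13.Ce.right.right.left RtB19_13.CTp.right.right RtB19_13.CEr.right 0x49 = true := by decide +kernel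

theorem cB19_13_3_8 : chunkOkM (LB19_13.ctx true true 98 1 1 1 1 1 1 1 1) muQ true true 64 RtB19_13.Cx RtB19_13.CX RtB19_13.Ctp.right.right.left.right RtB19_13.Ce.right.right.left.left RtB19_13.CTp.right.right RtB19_13.CEr.right 0x69 = true := by decide +kernel

theorem cB19_13_3_9 : chunkOkM (LB19_13.ctx true true 98 1 1 1 1 1 1 1 1) muQ true true 64 RtB19_13.Cx RtB19_13.CX RtB19_13.Ctp.right.right.left.right.left.left RtB19_13.Ce.right.right.left.right.left RtB19_13.CTp.right.right RtB19_13.CEr.right 0x49 = true := by decide +kernel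

theorem cB19_13_3_10 : chunkOkM (LB19_13.ctx true true 98 1 1 1 1 1 1 1 1) muQ true true 64 RtB19_13.Cx RtB19_13.CX RtB19_13.Ctp.right.right.left.right.left.right RtB19_13.Ce.right.right.left.right.left.left RtB19_13.CTp.right.right RtB19_13.CEr.right 0x69 = true := by decide +kernel

theorem cB19_13_3_11 : chunkOkM (LB19_13.ctx true true 260 73 32 19 16 430 1491 77 49) muQ true true 64 RtB19_13.Cx.left.left RtB19_13.CX RtB19_13.Ctp.right.right.left.right.left.right RtB19_13.Ce.right.right.left.right.left.right.left RtB19_13.CTp.right.right RtB19_13.CEr.right 0x5a45a365c1235e968b2c07a877f66e6b9407f540d5af3c065c24963168b3e5d6e07f675dd6797f54be10dd7f450d32951f34f88bffc433a48e874e5c207f525bbf0618f440d6 = true := by decide +kernel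

theorem cB19_13_3_12 : chunkOkM (LB19_13.ctx true true 274 147 64 19 16 430 3017 165 49) muQ true true 64 RtB19_13.Cx.left.left RtB19_13.CX RtB19_13.Ctp.right.right.left.right.left.right RtB19_13.Ce.right.right.left.right.left.right.right RtB19_13.CTp.right.right RtB19_13.CEr.right 0xcd7b8547f04b658e8b674c17672b07f66cfa6b37f530d56df47c74c2f8901177b2eb1b687f67146d567f5695265f450d5444b3b274c1f486268b229b4067f66bc38527f540d4757055c65c25c37768b4d82af97f681833757f5540fe9a7f450d3ea3da9878b729afb838e831d33d6e8f617842dff8f5185112478f450d6 = true := by decide +kernel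

theorem cB19_13_3_13 : chunkOkM (LB19_13.ctx true true 98 1 1 1 1 1 1 1 1) muQ true true 64 RtB19_13.Cx.left.right RtB19_13.CX RtB19_13.Ctp.right.right.left.right.left.right RtB19_13.Ce.right.right.left.right.left.right RtB19_13.CTp.right.right RtB19_13.CEr.right 0x49 = true := by decide +kernel

theorem cB19_13_3_14 : chunkOkM (LB19_13.ctx true true 98 1 1 1 1 1 1 1 1) muQ true true 64 RtB19_13.Cx.right RtB19_13.CX RtB19_13.Ctp.right.right.left.right.left.right RtB19_13.Ce.right.right.left.right.left.right RtB19_13.CTp.right.right RtB19_13.CEr.right 0x49 = true := by decide +kernel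

theorem cB19_13_3_15 : chunkOkM (LB19_13.ctx true true 250 37 16 19 16 218 1505 77 49) muQ true true 64 RtB19_13.Cx RtB19_13.CX RtB19_13.Ctp.right.right.left.right.right RtB19_13.Ce.right.right.left.right.left RtB19_13.CTp.right.right RtB19_13.CEr.right 0x111159114c65cfb52b58b41365357f65decea97f540d81d04c669431147 = true := by decide +kernel

theorem cB19_13_3_16 : chunkOkM (LB19_13.ctx true true 282 147 64 19 16 1726 3045 165 49) muQ true true 64 RtB19_13.Cx RtB19_13.CX RtB19_13.Ctp.right.right.left.right.left RtB19_13.Ce.right.right.left.right.right RtB19_13.CTp.right.right RtB19_13.CEr.right 0x4949591cb465075c126812878b92ba573e8f523f7729d29f440d557639074c245e6968b47d9bb07f67e918997f538515987f450d52ccf865c20e10568b20f6a697f67138b3d7f512761777f450d4493493b5419cb74c587229f7f685f3a417f51bfce037f440d760591074c71083bc77b3e1e0087f67a19e007f540d57eac869f7f55a50ebaf8f420d341f3677f188bc3820c408e8b979606f6aa8e5227f5f5e9c8f7f450d6477493 = true := by decide +kernel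

theorem cB19_13_3_17 : chunkOkM (LB19_13.ctx true true 252 73 32 19 16 218 763 77 35) muQ true true 64 RtB19_13.Cx.left.left RtB19_13.CX RtB19_13.Ctp.right.right.left.right.right.left RtB19_13.Ce.right.right.left.right.right.left RtB19_13.CTp.right.right RtB19_13.CEr.right.left 0x2629801388bf3180ac58e88b0bfd27f683cbbcf7f540d = true := by decide +kernel

theorem cB19_13_3_18 : chunkOkM (LB19_13.ctx true true 278 147 64 19 16 870 3045 165 49) muQ true true 64 RtB19_13.Cx.left.left RtB19_13.CX RtB19_13.Ctp.right.right.left.right.right.left RtB19_13.Ce.right.right.left.right.right.left.left RtB19_13.CTp.right.right RtB19_13.CEr.right.right 0x578f4365c27fd3e68b35feff57f65d31d717f540d41a05c60d3c6074c13e4cb68ba6b9d0a7f689b01e67f5e4750f6f450d7950ee174c412643c77b5163e377f67812b257f516d61ee7f450d53694525ad7774c2b484d68b6f7a6537f674cc30a7f540d409c51574c1933b268b62825fd7f66889a1d7f540d473 = true := by decide +kernel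

theorem cB19_13_3_19 : chunkOkM (LB19_13.ctx true true 274 147 64 19 16 438 3073 165 49) muQ true true 64 RtB19_13.Cx.left.left RtB19_13.CX RtB19_13.Ctp.right.right.left.right.right.left RtB19_13.Ce.right.right.left.right.right.left.right RtB19_13.CTp.right.right RtB19_13.CEr.right.right 0x4fee4b65c23a00668b466e2ae7f66950ed17f540d5bad60574c26bfbc68b529c87b7f665731877f540d7657a9c674c2e8c65f9bcda05d7f68518fb57f5225256f7f450d6a459dd74c480a3b877b5d92a2a7f6823d9df7f59c9db86f450d55511b9b74c2a0f5257f672ccc957f530d769de9674c408ca3577bb7980627f68f443637f540d545b0494c74c1fa36cf77b86a98bf7f67fecfc07f540d73 = true := by decide +kernel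

theorem cB19_13_3_20 : chunkOkM (LB19_13.ctx true true 251 75 32 19 16 218 763 77 21) muQ true true 64 RtB19_13.Cx.left.right RtB19_13.CX RtB19_13.Ctp.right.right.left.right.right.left RtB19_13.Ce.right.right.left.right.right.left RtB19_13.CTp.right.right RtB19_13.CEr.right 0x3735c468b335858d739f62fe7616419f430d = true := by decide +kernel

theorem cB19_13_3_21 : chunkOkM (LB19_13.ctx true true 280 291 128 19 16 446 3073 77 105) muQ true true 64 RtB19_13.Cx.left RtB19_13.CX RtB19_13.Ctp.right.right.left.right.right.right RtB19_13.Ce.right.right.left.right.right.left RtB19_13.CTp.right.right RtB19_13.CEr.right 0x118af87165c8002d58b128fab97f678cb2735b9f116bd108152af050d6968bcba674c24710468b916ccc67f6562214c7f540d82a2e8374c109cf1877b468022c7f653fc1f57f540d47fbe1874c263a4f68b5782c267f64e73c407f540d676a1adb65c161b9d68b7e212097f64bd5b337f540d473769439ad5a1888b18cae505c9e820d6 = true := by decide +kernel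

theorem cB19_13_3_22 : chunkOkM (LB19_13.ctx true true 242 37 16 19 16 110 777 77 35) muQ true true 64 RtB19_13.Cx.left RtB19_13.CX RtB19_13.Ctp.right.right.left.right.right RtB19_13.Ce.right.right.left.right.right.right RtB19_13.CTp.right.right RtB19_13.CEr.right.left 0x11a585de88bb9cef26a8e87da009e7f6a4fd3e6f140d = true := by decide +kernel

theorem cB19_13_3_23 : chunkOkM (LB19_13.ctx true true 284 295 128 19 16 870 3101 165 49) muQ true true 64 RtB19_13.Cx.left.left RtB19_13.CX RtB19_13.Ctp.right.right.left.right.right.left RtB19_13.Ce.right.right.left.right.right.right RtB19_13.CTp.right.right RtB19_13.CEr.right.right 0x5b59f865c22763e68b6a3d8427f67e3e1867f540d7aee9c074c6c09b0b7f6791e5ef7f530d56bec5f74cdf8e3867bb8e35967f67d08ec37f540d564dd6a574c16f75c77f667752fa7f530d62d4f4f74c227b14c77b35a31667f667f525b7f540d545c6961974c21e756377b7a1d7d27f669a55a27f540d7599770d9474cf100ef97f69ca74407f530d7a1422574c4fb28ce77b531b3d47f67c140857f540d5597593459734 = true := by decide +kernel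

theorem cB19_13_3_24 : chunkOkM (LB19_13.ctx true true 294 149 64 19 16 13950 3101 165 49) muQ true true 64 RtB19_13.Cx.left.right.left RtB19_13.CX RtB19_13.Ctp.right.right.left.right.right.left RtB19_13.Ce.right.right.left.right.right.right.left RtB19_13.CTp.right.right RtB19_13.CEr.right.right 0x703c2465c227cf647f67034dcf7f51d248177f440d8b747ee74c495055477b7dd784f7f685e555e7f540d583ffe265c25b036a7f670471027f530da308bd474c5305af377b51ef5337f67a4e88d7f5182f0097f450d5433f8899c8f51494c95489f420d79d187b74c71dda597f520d7ad785574c4287dbc77b4a4f106f66edf5127f55fe3936f450d544934934934934933 = true := by decide +kernel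

end Vale.Agent.helper4.Q4
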