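import Vale.Agent.helper4.Q4TreeM
import Vale.Agent.helper4.Q4G.PB19_13

/-!
Checks for pairs of intervals of second moments.
-/

set_option maxRecDepth 100000
set_option linter.unusedVariables false

namespace Vale.Agent.helper4.Q4

theorem cB19_13_3_25 : chunkOkM (LB19_13.ctx true true 271 149 64 19 16 438 1561 165 49) muQ true true 64 RtB19_13.Cx.left.right.left RtB19_13.CX RtB19_13.Ctp.right.right.left.right.right.left RtB19_13.Ce.right.right.left.right.right.right.right RtB19_13.CTp.right.right RtB19_13.CEr.right.right 0x83bcc8774c68807fa7f67c744a97f53a44c287f440d8837be274c6980d4277b42ac6857f6802e4cf7f548cbcd6f450d59b1e1aa7f57f0d221f8f420d3 = true := by decide +kernel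

theorem cB19_13_3_26 : chunkOkM (LB19_13.ctx true true 98 1 1 1 1 1 1 1 1) muQ true true 64 RtB19_13.Cx.left.right.right RtB19_13.CX RtB19_13.Ctp.right.right.left.right.right.left RtB19_13.Ce.right.right.left.right.right.right RtB19_13.CTp.right.right RtB19_13.CEr.right.right 0x49 = true := by decide +kernel

theorem cB19_13_3_27 : chunkOkM (LB19_13.ctx true true 279 291 128 19 16 446 3101 77 105) muQ true true 64 RtB19_13.Cx.left.left.left RtB19_13.CX RtB19_13.Ctp.right.right.left.right.right.right RtB19_13.Ce.right.right.left.right.right.right.left RtB19_13.CTp.right.right RtB19_13.CEr.right.right 0x748a04874c20b76b877b1aeb4ad7f6561a44c7f5458d656f250d871640274c29e3b768b431f79d7f64da10cc7f5109c4237f250d621772fb3b274c254a1d68b3f213e4c8f630d7072e4d74cd8b1158b663539a7f643414ec7f518fca247f250d7469ac02f74c1f1e2f677b3007e937f65ccde607f540d687d20b74c2ded3c68b2246bba7f664d20617f540d63 = true := by decide +kernel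

theorem cB19_13_3_28 : chunkOkM (LB19_13.ctx true true 270 147 64 19 16 446 3101 77 49) muQ true true 64 RtB19_13.Cx.left.left.right RtB19_13.CX RtB19_13.Ctp.right.right.left.right.right.right RtB19_13.Ce.right.right.left.right.right.right.left RtB19_13.CTp.right.right RtB19_13.CEr.right.right 0x64848b65cdc7f958b9b48f187f6520520f7f540d574947274c259b5d68b72ecc507f661ae21a7f540d5a52eb65c277ffe68b792a23a7f65c0d26d7f540d43 = true := by decide +kernel

theorem cB19_13_3_29 : chunkOkM (LB19_13.ctx true true 292 583 256 19 16 446 6223 165 105) muQ true true 64 RtB19_13.Cx.left.left RtB19_13.CX RtB19_13.Ctp.right.right.left.right.right.right RtB19_13.Ce.right.right.left.right.right.right.right RtB19_13.CTp.right.right RtB19_13.CEr.right.right 0x863677a74c189de6277b60d65d57f66915d227f540d6b5f02f74c88955668b55917f87f6560b3b77f540d646aaab174c291129077b877c8197f65044d6c7f540d823d9a65c30ded868b34add947f659aca087f540d6489a979c74c3c81de07f66d1b8947f530d5d92eda74c13a5d7277b4ad4a877f665265067f540d532121a2bf35074c238a93d77b421f56808f630d8ac8dba74c1f426368b5235a4f7f64998d5d7f513a754c7f250d6217421745937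 = true := by decide +kernel

theorem cB19_13_3_30 : chunkOkM (LB19_13.ctx true true 279 151 64 19 16 446 3129 165 49) muQ true true 64 RtB19_13.Cx.left.right RtB19_13.CX RtB19_13.Ctp.right.right.left.right.right.right RtB19_13.Ce.right.right.left.right.right.right RtB19_13.CTp.right.right RtB19_13.CEr.right.right 0x614f1e65c1b316268b76d55977f660577177f540d53bc9b65c2778d668b2e8f15da2aaf6100f090512af440d6809cc65c36732f67f66bbd1947f530d66823dc74c25f3dd777b4ab76597f6694ba867f540d58034c165c889048b352a37b7f66961e547f540daa9b10674c2b609f177b30ab03c7f66b0dd367f540d5473694 = true := by decide +kernel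

theorem cB19_13_3_31 : chunkOkM (LB19_13.ctx true true 237 39 16 19 16 110 385 77 21) muQ true true 64 RtB19_13.Cx.right RtB19_13.CX RtB19_13.Ctp.right.right.left.right.right RtB19_13.Ce.right.right.left.right.right RtB19_13.CTp.right.right RtB19_13.CEr.right 0x14b625958f04b = true := by decide +kernel

theorem cB19_13_3_32 : chunkOkM (LB19_13.ctx true true 238 19 8 19 16 114 777 77 49) muQ true true 64 RtB19_13.Cx RtB19_13.CX RtB19_13.Ctp.right.right.right RtB19_13.Ce.right.right.left RtB19_13.CTp.right.right RtB19_13.CEr.right 0x01118e816365c3b1c3168b101c2d37e67f42dd07f040d6cef0b67f00b611411431143 = true := by decide +kernel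

theorem cB19_13_3_33 : chunkOkM (LB19_13.ctx true true 98 1 1 1 1 1 1 1 1) muQ true true 64 RtB19_13.Cx RtB19_13.CX RtB19_13.Ctp.right.right.left.left RtB19_13.Ce.right.right.right RtB19_13.CTp.right.right RtB19_13.CEr.right 0x49 = true := by decide +kernel

theorem cB19_13_3_34 : chunkOkM (LB19_13.ctx true true 231 19 8 19 16 106 399 77 21) muQ true true 64 RtB19_13.Cx RtB19_13.CX RtB19_13.Ctp.right.right.left.right.left RtB19_13.Ce.right.right.right.left.left RtB19_13.CTp.right.right RtB19_13.CEr.right 0x1498fc578b19299f6b8f5a606bfcc8f430d = true := by decide +kernel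

theorem cB19_13_3_35 : chunkOkM (LB19_13.ctx true true 239 37 16 19 16 110 399 77 35) muQ true true 64 RtB19_13.Cx.left RtB19_13.CX RtB19_13.Ctp.right.right.left.right.right RtB19_13.Ce.right.right.right.left.left RtB19_13.CTp.right.right RtB19_13.CEr.right.left 0x27e617b788bf87eb88f8e83be66a97f663dc6337f517b51fba8f450d = true := by decide +kernel

theorem cB19_13_3_36 : chunkOkM (LB19_13.ctx true true 249 37 16 19 16 218 791 77 49) muQ true true 64 RtB19_13.Cx.left RtB19_13.CX RtB19_13.Ctp.right.right.left.right.right.left RtB19_13.Ce.right.right.right.left.left.left RtB19_13.CTp.right.right RtB19_13.CEr.right.right 0x1e5049e75c144bc2c78b65a7754cb9f51b72099d6daf440d = true := by decide +kernel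

theorem cB19_13_3_37 : chunkOkM (LB19_13.ctx true true 270 147 64 19 16 446 1575 77 105) muQ true true 64 RtB19_13.Cx.left.left RtB19_13.CX RtB19_13.Ctp.right.right.left.right.right.right RtB19_13.Ce.right.right.right.left.left.left RtB19_13.CTp.right.right RtB19_13.CEr.right.right 0x218cd9c9d74c3e7ff5577b1f40d7b7f65c4a8d37f540d5b8b43a74c378cf468b305a5627f65f29a3e7f540d62175934 = true := by decide +kernel

theorem cB19_13_3_38 : chunkOkM (LB19_13.ctx true true 274 151 64 19 16 442 3157 165 49) muQ true true 64 RtB19_13.Cx.left.right RtB19_13.CX RtB19_13.Ctp.right.right.left.right.right.right.left RtB19_13.Ce.right.right.right.left.left.left.left RtB19_13.CTp.right.right RtB19_13.CEr.right.right 0x7d064e65c402ba347f67a728847f52cd65a77f440d6bae6a874c520324177b391021b7f679451997f5190c1697f450d567fba665c444fe497f67697e437f5afa80a6f440d7b9523774c414f62977b6df88ae7f6770e2cd7f522cb40c7f450d548dcc3ba74c33c33c87f675a4cf57f530d764e7d774c35db92e77b4cf0cf67f677db8357f540d57 = true := by decide +kernel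

theorem cB19_13_3_39 : chunkOkM (LB19_13.ctx true true 274 151 64 19 16 446 3157 165 49) muQ true true 64 RtB19_13.Cx.left.right RtB19_13.CX RtB19_13.Ctp.right.right.left.right.right.right.right RtB19_13.Ce.right.right.right.left.left.left.left RtB19_13.CTp.right.right RtB19_13.CEr.right.right 0x8adbd165c664c658b37f4eaf7f66c00a6b7f540d9bb159674c2def59f77b705e92d7f6749e7f37f540d5694878551674c4f617b27f670dfae17f530d6fa797774c3e1189777b2e1f44e7f66699fe77f540d59e4a2f65cbb3a358b371c04b7f66467ab17f540d75a632674c1143a6177b756b5867f65af99c07f540d547 = true := by decide +kernel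

theorem cB19_13_3_40 : chunkOkM (LB19_13.ctx true true 274 151 64 19 16 446 3185 165 49) muQ true true 64 RtB19_13.Cx.left.right RtB19_13.CX RtB19_13.Ctp.right.right.left.right.right.right RtB19_13.Ce.right.right.right.left.left.left.right RtB19_13.CTp.right.right RtB19_13.CEr.right.right 0x7eab8a274c267609d7f672380067f530d8594e3374c43e3e5d77b24768d37f66e271427f540d58615bb65c21996f57f6721d6a67f530d6c2132174c227b58077b4f075f47f66eaa8b77f540d54904c3c674cb74b258b54a7e8c7f66b746097f540dad95d6d74c372768b77b428b83c7f66e0ecd37f540d578f1923d74c62341807f68e6b5847f5210d1887f440d842f31b74c3d68f5377b34674697f68267a617f5379880b7f450d55973 = true := by decide +kernel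

theorem cB19_13_3_41 : chunkOkM (LB19_13.ctx true true 280 303 128 19 16 446 3199 165 49) muQ true true 64 RtB19_13.Cx.left RtB19_13.CX RtB19_13.Ctp.right.right.left.right.right RtB19_13.Ce.right.right.right.left.left.right RtB19_13.CTp.right.right RtB19_13.CEr.right.right 0x595985d0f5a74c9f5ab58b61de4b17f67a575167f540d7e3e95774c43029b277b740695e7f67c879987f540d559745975934217593 = true := by decide +kernel

theorem cB19_13_3_42 : chunkOkM (LB19_13.ctx true true 98 1 1 1 1 1 1 1 1) muQ true true 64 RtB19_13.Cx.right RtB19_13.CX RtB19_13.Ctp.right.right.left.right.right.left RtB19_13.Ce.right.right.right.left.left RtB19_13.CTp.right.right RtB19_13.CEr.right 0x49 = true := by decide +kernel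

theorem cB19_13_3_43 : chunkOkM (LB19_13.ctx true true 98 1 1 1 1 1 1 1 1) muQ true true 64 RtB19_13.Cx.right RtB19_13.CX RtB19_13.Ctp.right.right.left.right.right.right.left RtB19_13.Ce.right.right.right.left.left RtB19_13.CTp.right.right RtB19_13.CEr.right 0x49 = true := by decide +kernel

end Vale.Agent.helper4.Q4
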