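import Vale.Agent.helper4.Q4TreeM
import Vale.Agent.helper4.Q4G.PB19_13

/-!
Checks for pairs of intervals of second moments.
-/

set_option maxRecDepth 100000
set_option linter.unusedVariables false

namespace Vale.Agent.helper4.Q4

theorem cB19_13_3_44 : chunkOkM (LB19_13.ctx true true 274 153 64 19 16 446 3185 165 49) muQ true true 64 RtB19_13.Cx.right RtB19_13.CX RtB19_13.Ctp.right.right.left.right.right.right.right RtB19_13.Ce.right.right.right.left.left.left RtB19_13.CTp.right.right RtB19_13.CEr.right 0x1149933e2b65cf7f9558b79b8ddb7f676e1b3a7f527eb5807f450d9726e3874c5db873f77b5b8f2197f67854ac87f51ef48587f450d57694769411e04c6 = true := by decide +kernel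

theorem cB19_13_3_45 : chunkOkM (LB19_13.ctx true true 284 307 128 19 16 894 3227 165 49) muQ true true 64 RtB19_13.Cx.right RtB19_13.CX RtB19_13.Ctp.right.right.left.right.right.right.right RtB19_13.Ce.right.right.right.left.left.right RtB19_13.CTp.right.right RtB19_13.CEr.right 0x4949598efba4e74c54f54187f6815e3f07f530373aa7f440d79d2d7b74c424b5a077b491e6867f67e7fb767f529e06b47f450d5493597484527a65ca8b3f0f7f688666a17f527dfb477f440d798ca0174c5c9057377b7182b357f68223b757f51fd9e837f450d5984df765cea0a158b476df267f67a56e047f52170ec97f450da232de574c612600a77b8d724df7f680d4b4b7f5133fdb47f450d544773683468e88b187c3949d9e82c952597f69bde26a7f540d6 = true := by decide +kernel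

theorem cB19_13_3_46 : chunkOkM (LB19_13.ctx true true 228 19 8 19 16 54 413 77 21) muQ true true 64 RtB19_13.Cx RtB19_13.CX RtB19_13.Ctp.right.right.left.right RtB19_13.Ce.right.right.right.left.right RtB19_13.CTp.right.right RtB19_13.CEr.right 0x580ebb6ed29181b68b1401b3be8f6155d817979f56440eb1439f450d = true := by decide +kernel

theorem cB19_13_3_47 : chunkOkM (LB19_13.ctx true true 98 1 1 1 1 1 1 1 1) muQ true true 64 RtB19_13.Cx RtB19_13.CX RtB19_13.Ctp.right.right.left.right RtB19_13.Ce.right.right.right.right RtB19_13.CTp.right.right RtB19_13.CEr.right 0x59 = true := by decide +kernel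

theorem cB19_13_3_48 : chunkOkM (LB19_13.ctx true true 230 19 8 19 16 58 399 77 35) muQ true true 64 RtB19_13.Cx RtB19_13.CX RtB19_13.Ctp.right.right.right.left RtB19_13.Ce.right.right.right.left.left RtB19_13.CTp.right.right RtB19_13.CEr.right.left 0x3a5829cb88b162bb49a8f8c4a6636f630d = true := by decide +kernel

theorem cB19_13_3_49 : chunkOkM (LB19_13.ctx true true 289 591 256 19 16 898 3157 77 105) muQ true true 64 RtB19_13.Cx.left.left RtB19_13.CX RtB19_13.Ctp.right.right.right.left.left.left RtB19_13.Ce.right.right.right.left.left.left RtB19_13.CTp.right.right RtB19_13.CEr.right.right 0x210101860ac8374c2e827df77bc43d0997f63dd6f6a7f540d73ed7a874c1f6d5d68b32cc5587f653e3dbf7f57ce9d46f250d62170179cf7db874c24a7e1c7f656312937f5591e1b6f240d88c74c074c19388b68b582276f7f662195927f540d64330174 = true := by decide +kernel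

theorem cB19_13_3_50 : chunkOkM (LB19_13.ctx true true 273 149 64 19 16 450 3157 77 105) muQ true true 64 RtB19_13.Cx.left.right RtB19_13.CX RtB19_13.Ctp.right.right.right.left.left.left RtB19_13.Ce.right.right.right.left.left.left.left RtB19_13.CTp.right.right RtB19_13.CEr.right.right 0x1111ddf0cfa74c466f66877b6685a777f653f18e87f540d76ef9a65c2444e668b4ad00107f6587e2357f540d6721a05c43 = true := by decide +kernel

theorem cB19_13_3_51 : chunkOkM (LB19_13.ctx true true 274 151 64 19 16 454 3185 77 105) muQ true true 64 RtB19_13.Cx.left.right RtB19_13.CX RtB19_13.Ctp.right.right.right.left.left.left RtB19_13.Ce.right.right.right.left.left.left.right RtB19_13.CTp.right.right RtB19_13.CEr.right.right 0x11c719e6474c1fc106c77bf428e2d7f66ab84b77f540da0fdf165c6441d368b2ed07717f66b8b69f7f540d65f3f6365c23958a68b20d436324d165c1b593668b8116556f6621b7736b9f11325dd624baf050d880409c74c46c3f3077b251f82f7f667cebd27f540d64ee7d674c24528368b165f4ad7f661deced7f540d6a61538474c2a941a87f6614624c7f530d9797bf65c4986f668b2e7292c7f661809497f540d6437 = true := by decide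 +kernel

theorem cB19_13_3_52 : chunkOkM (LB19_13.ctx true true 98 1 1 1 1 1 1 1 1) muQ true true 64 RtB19_13.Cx.left.left RtB19_13.CX RtB19_13.Ctp.right.right.right.left.left.left RtB19_13.Ce.right.right.right.left.left.right RtB19_13.CTp.right.right RtB19_13.CEr.right.right 0x21 = true := by decide +kernel

theorem cB19_13_3_53 : chunkOkM (LB19_13.ctx true true 292 599 256 19 16 902 6391 77 105) muQ true true 64 RtB19_13.Cx.left.right.left RtB19_13.CX RtB19_13.Ctp.right.right.right.left.left.left RtB19_13.Ce.right.right.right.left.left.right.left RtB19_13.CTp.right.right RtB19_13.CEr.right.right 0x213aa3a5574c1165bf2e8f6626bd86f58abe7377f240d1993e4f74c707f258b14019a0f8f628c19457f53d31f0e7f250d66987de4f474c2cce7db77b35667fa7f65d1f98a7f540db9f190c74c4e638968b7a619e37f65d077737f540d6459332172174 = true := by decide +kernel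

theorem cB19_13_3_54 : chunkOkM (LB19_13.ctx true true 273 151 64 19 16 454 3213 77 105) muQ true true 64 RtB19_13.Cx.left.right.right RtB19_13.CX RtB19_13.Ctp.right.right.right.left.left.left RtB19_13.Ce.right.right.right.left.left.right.left RtB19_13.CTp.right.right RtB19_13.CEr.right.right 0xf03db8174c3e48eef77b27a79cb7f659b5f047f5643a6d6f250d8ddc7365c57bf7768b10666f718f65d9e7c37f5b2d3986f250d694d1e1b74c4ba636877babd584e7f6578247f7f518e63f6f250d6b29a465c1bd94568becb6bf47f64cf777c7f51c56e5f250d648a6d47674c34e2ef477b171e1827f66c0442a7f540d87adfa374c2db25068bd43abde7f66a179267f540d6a0db3a074c526faaf77b3ac08b97f664787577f540dc6d6c065c5b3e9868b35335977f66fb747e7f540d643 = true := by decide +kernel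

theorem cB19_13_3_55 : chunkOkM (LB19_13.ctx true true 266 151 64 19 16 226 1617 77 105) muQ true true 64 RtB19_13.Cx.left.right RtB19_13.CX RtB19_13.Ctp.right.right.right.left.left.left RtB19_13.Ce.right.right.right.left.left.right.right RtB19_13.CTp.right.right RtB19_13.CEr.right.right 0x96d9d3e74c37fc8ea77b8b42d707f668eb5657f540d7de4d665c28428068b58432977f66b80f1a7f540d6217 = true := by decide +kernel

theorem cB19_13_3_56 : chunkOkM (LB19_13.ctx true true 98 1 1 1 1 1 1 1 1) muQ true true 64 RtB19_13.Cx.left RtB19_13.CX RtB19_13.Ctp.right.right.right.left.left.right RtB19_13.Ce.right.right.right.left.left RtB19_13.CTp.right.right RtB19_13.CEr.right.right 0x01 = true := by decide +kernel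

theorem cB19_13_3_57 : chunkOkM (LB19_13.ctx true true 98 1 1 1 1 1 1 1 1) muQ true true 64 RtB19_13.Cx.right RtB19_13.CX RtB19_13.Ctp.right.right.right.left.left RtB19_13.Ce.right.right.right.left.left.left RtB19_13.CTp.right.right RtB19_13.CEr.right.right 0x69 = true := by decide +kernel

theorem cB19_13_3_58 : chunkOkM (LB19_13.ctx true true 278 153 64 19 16 450 3213 165 105) muQ true true 64 RtB19_13.Cx.right.left RtB19_13.CX RtB19_13.Ctp.right.right.right.left.left.left RtB19_13.Ce.right.right.right.left.left.right.left RtB19_13.CTp.right.right RtB19_13.CEr.right.right 0x69698ff70665c2108c007f671c6a7e7f530d6bfff1d74c46e64ac77b533f4e97f671631817f540d57a707db65c51235468b64c4e167f530d53ca63d7f05b643 = true := by decide +kernel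

theorem cB19_13_3_59 : chunkOkM (LB19_13.ctx true true 274 155 64 19 16 450 3241 165 49) muQ true true 64 RtB19_13.Cx.right.left RtB19_13.CX RtB19_13.Ctp.right.right.right.left.left.left.left RtB19_13.Ce.right.right.right.left.left.right.right RtB19_13.CTp.right.right RtB19_13.CEr.right.right 0x90956665cd573a58b5d436fb7f67a340677f52666ca67f450d8ac657c74c511e82f77b71253a67f6765d9637f523f6d197f450d58c370c65cd7e9c58b8586b207f621f89aae8f440dd6c48c974c528ab8a77b6c098cf7f621da84b98f440d54999ed065cda69358b54344577f67f5712c7f540d861d5e574c64f6bab77b6c66a4a7f679373047f540d57 = true := by decide +kernel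

theorem cB19_13_3_60 : chunkOkM (LB19_13.ctx true true 273 153 64 19 16 454 3241 77 105) muQ true true 64 RtB19_13.Cx.right.left RtB19_13.CX RtB19_13.Ctp.right.right.right.left.left.left.right RtB19_13.Ce.right.right.right.left.left.right.right RtB19_13.CTp.right.right RtB19_13.CEr.right.right 0x699c4e6f974c3fc54e477b2e0b2127f668974647f540d6bd9df65c33a83668b5adf2e97f66cc25a67f540d6ac467c474c4c566a577b3e5d6937f66aa24687f540d82855d65c3c05b368b4e669467f66a3f2657f540d647 = true := by decide +kernel

theorem cB19_13_3_61 : chunkOkM (LB19_13.ctx true true 98 1 1 1 1 1 1 1 1) muQ true true 64 RtB19_13.Cx.right.right RtB19_13.CX RtB19_13.Ctp.right.right.right.left.left.left RtB19_13.Ce.right.right.right.left.left.right RtB19_13.CTp.right.right RtB19_13.CEr.right.right 0x69 = true := by decide +kernel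

theorem cB19_13_3_62 : chunkOkM (LB19_13.ctx true true 249 39 16 19 16 230 805 77 49) muQ true true 64 RtB19_13.Cx.right RtB19_13.CX RtB19_13.Ctp.right.right.right.left.left.right RtB19_13.Ce.right.right.right.left.left.right RtB19_13.CTp.right.right RtB19_13.CEr.right.right 0x5fb1d665c235fee68b2e11520489ae192b9019b59f040d = true := by decide +kernel

end Vale.Agent.helper4.Q4
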