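import Vale.Agent.helper4.Q4TreeM
import Vale.Agent.helper4.Q4G.PB19_13

/-!
Checks for pairs of intervals of second moments.
-/

set_option maxRecDepth 100000
set_option linter.unusedVariables false

namespace Vale.Agent.helper4.Q4

theorem cB19_13_3_63 : chunkOkM (LB19_13.ctx true true 235 19 8 19 16 118 399 77 49) muQ true true 64 RtB19_13.Cx RtB19_13.CX RtB19_13.Ctp.right.right.right.left.right RtB19_13.Ce.right.right.right.left.left RtB19_13.CTp.right.right RtB19_13.CEr.right.right 0xa3902bc7f00b = true := by decide +kernel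

theorem cB19_13_3_64 : chunkOkM (LB19_13.ctx true true 98 1 1 1 1 1 1 1 1) muQ true true 64 RtB19_13.Cx.left RtB19_13.CX RtB19_13.Ctp.right.right.right.left RtB19_13.Ce.right.right.right.left.right RtB19_13.CTp.right.right RtB19_13.CEr.right 0x21 = true := by decide +kernel

theorem cB19_13_3_65 : chunkOkM (LB19_13.ctx true true 243 39 16 19 16 114 819 77 35) muQ true true 64 RtB19_13.Cx.right RtB19_13.CX RtB19_13.Ctp.right.right.right.left.left RtB19_13.Ce.right.right.right.left.right.left RtB19_13.CTp.right.right RtB19_13.CEr.right.left 0x18042b3888be8772c17f8151aa1088f6ec6aa177f540d = true := by decide +kernel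

theorem cB19_13_3_66 : chunkOkM (LB19_13.ctx true true 286 77 32 73 64 450 1631 605 105) muQ true true 64 RtB19_13.Cx.right.left RtB19_13.CX RtB19_13.Ctp.right.right.right.left.left.left.left RtB19_13.Ce.right.right.right.left.right.left.left RtB19_13.CTp.right.right RtB19_13.CEr.right.right 0x222c9857ed6f62bc65c4b307e87f687498ec7f513693677f450d82980047f05b64a4a5a6f22bc87ed56033f65c329fd068b2fb15397f68581c1c7f5b4a87e6f460d6884a54a55 = true := by decide +kernel

theorem cB19_13_3_67 : chunkOkM (LB19_13.ctx true true 278 155 64 19 16 454 3269 165 105) muQ true true 64 RtB19_13.Cx.right.left RtB19_13.CX RtB19_13.Ctp.right.right.right.left.left.left.right RtB19_13.Ce.right.right.right.left.right.left.left RtB19_13.CTp.right.right RtB19_13.CEr.right.right 0x89d22565c119f1068b370d0637f6784e48d7f540dbf1c1f974c70b589977b3fe2aa17f6779b8d77f540d59018c365cd93b358b426ee1c7f67187a937f540d6e129a274c484389077b78f69d97f6761fe657f540d548be886774c4bb0bf777b38f25a57f67457ac37f540d8ea31065c34cbb868b39be8857f6722959e7f540d67 = true := by decide +kernel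

theorem cB19_13_3_68 : chunkOkM (LB19_13.ctx true true 288 155 64 73 64 226 1645 605 105) muQ true true 64 RtB19_13.Cx.right.left RtB19_13.CX RtB19_13.Ctp.right.right.right.left.left.left RtB19_13.Ce.right.right.right.left.right.left.right RtB19_13.CTp.right.right RtB19_13.CEr.right.right 0xff427a65c49668e68b76609617f695581a87f540da3bfaa65c91b0b4e7f6902cb5f7f530d64a4a5ab72e2065c77e08de7f68723e497f530d6884a54a55597 = true := by decide +kernel

theorem cB19_13_3_69 : chunkOkM (LB19_13.ctx true true 285 157 64 19 16 454 3297 605 105) muQ true true 64 RtB19_13.Cx.right.right RtB19_13.CX RtB19_13.Ctp.right.right.right.left.left.left RtB19_13.Ce.right.right.right.left.right.left RtB19_13.CTp.right.right RtB19_13.CEr.right.right 0x49d3a11765c1d049b68b56600397f67c097d97f5549a9ee7f450d795aa2f7f05b6990d4f774c51854b68b5ccf1027f68336c227f519c69ab7f450d4a54a55a9416965c93d915c7f6849d1d57f5339f3ab7f440d64edc337f05b6baf3b6e74c77fb26677b3f24bbc7f679c2b6c7f52069f997f450d547694493 = true := by decide +kernel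

theorem cB19_13_3_70 : chunkOkM (LB19_13.ctx true true 274 155 64 19 16 462 3269 77 105) muQ true true 64 RtB19_13.Cx.right.left RtB19_13.CX RtB19_13.Ctp.right.right.right.left.left.right RtB19_13.Ce.right.right.right.left.right.left.left RtB19_13.CTp.right.right RtB19_13.CEr.right.right 0x2f9f7357f00ba34785e74c4d3d9568b28e7a967f6671b8de7f540dcaeb9a65c6ff83768b138a1e77f660755b87f540d697c466474c3c67f9677b37e629f7f666229db7f53d9b436f250d9a5c2465c4a5dc268b1f85a3b7f66375b9f7f55b0ac26f250d6113ccf0484c450410777b2ef775d7f656f27d17f5b1b00f6f250dce13a665c55c9c368bb8a18457f653076097f540d6473 = true := by decide +kernel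

theorem cB19_13_3_71 : chunkOkM (LB19_13.ctx true true 286 615 256 19 16 462 3297 77 105) muQ true true 64 RtB19_13.Cx.right.left RtB19_13.CX RtB19_13.Ctp.right.right.right.left.left.right RtB19_13.Ce.right.right.right.left.right.left.right RtB19_13.CTp.right.right RtB19_13.CEr.right.right 0x4a0b8f68b127ea8c28f6cc89d4008f12a2249dcc9f040d8e6e10a74c461fae877b23a2e647f66eda6207f540d6dc5f865c270d2f68b4adc8247f671247467f540d69837afc74c3f50a8477b2f839a57f66ea6caf7f540d8d4b1265c39045068b26067717f66d8be697f540d6432101c37051d74c49d97a277b423c1cb7f6621a8627f540d9419a4b74c34302668b4442f1b7f664d47ed7f540d6321721747 = true := by decide +kernel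

theorem cB19_13_3_72 : chunkOkM (LB19_13.ctx true true 266 79 32 19 16 458 1645 165 49) muQ true true 64 RtB19_13.Cx.right.right RtB19_13.CX RtB19_13.Ctp.right.right.right.left.left.right RtB19_13.Ce.right.right.right.left.right.left RtB19_13.CTp.right.right RtB19_13.CEr.right.right 0x118cbdf165c12196168b40e255f7f673e14b97f540dbaec9665c6b573668b3668e9a7f67381e2f7f540d53114 = true := by decide +kernel

theorem cB19_13_3_73 : chunkOkM (LB19_13.ctx true true 243 39 16 19 16 114 833 77 35) muQ true true 64 RtB19_13.Cx.right RtB19_13.CX RtB19_13.Ctp.right.right.right.left.left RtB19_13.Ce.right.right.right.left.right.right RtB19_13.CTp.right.right RtB19_13.CEr.right.left 0x2fc5b56a88b1341abbae9e86bee3057f518ec30e58f440d = true := by decide +kernel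

theorem cB19_13_3_74 : chunkOkM (LB19_13.ctx true true 292 157 64 73 64 454 1659 605 105) muQ true true 64 RtB19_13.Cx.right RtB19_13.CX RtB19_13.Ctp.right.right.right.left.left.left RtB19_13.Ce.right.right.right.left.right.right RtB19_13.CTp.right.right RtB19_13.CEr.right.right 0x4959eadef0474c4f36a768b170b3257f68a2a26d7f53eae4327f450d3d6289a7ed8156a165c197bc177f68447f547f537fc0c67f450d64a4a5ac6752e65c10a7de68b1b11f9f7f68316a5c7f52c2631e7f450d6884a54a5547493597 = true := by decide +kernel

theorem cB19_13_3_75 : chunkOkM (LB19_13.ctx true true 275 155 64 19 16 922 1659 77 105) muQ true true 64 RtB19_13.Cx.right.left RtB19_13.CX RtB19_13.Ctp.right.right.right.left.left.right RtB19_13.Ce.right.right.right.left.right.right RtB19_13.CTp.right.right RtB19_13.CEr.right.right 0x2101ac93c8b74c4e724f277b111b5437f669ff9ee7f54271186f250d8bff0465c48c7d468bcdd0986f66ea026e7f540d63bba354474c4ce5bea77b2c8beaa7f6783c90d7f540d8d7e1665c38f2ca68b3d932737f677a91317f540d632174 = true := by decide +kernel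

theorem cB19_13_3_76 : chunkOkM (LB19_13.ctx true true 278 157 64 19 16 458 3325 165 105) muQ true true 64 RtB19_13.Cx.right.right.left RtB19_13.CX RtB19_13.Ctp.right.right.right.left.left.right.left RtB19_13.Ce.right.right.right.left.right.right.left RtB19_13.CTp.right.right RtB19_13.CEr.right.right 0x2b4cad87ed7ecd7f65c361a96f7f67c57cf17f540d239373d1494c1bf131e0c97b7d3509e7f530d59f169c65c78bfa768b62fb3057f68788a2d7f540d6da8f6865c27736768b9dcbac6f674422d97f540d2b21b23df94c2206e700a97b6c0903c7f530d596ca1565c679c1868b561902b7f680388eb7f540d64 = true := by decide +kernel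

theorem cB19_13_3_77 : chunkOkM (LB19_13.ctx true true 275 159 64 19 16 458 1659 165 105) muQ true true 64 RtB19_13.Cx.right.right.right RtB19_13.CX RtB19_13.Ctp.right.right.right.left.left.right.left RtB19_13.Ce.right.right.right.left.right.right.left RtB19_13.CTp.right.right RtB19_13.CEr.right.right 0xc684e065c12607968bed0e8b6f676d64f87f540d1390db548f04b6c239a8474c7c689468b842e9697f67f952fa7f5274b9ce7f450d5 = true := by decide +kernel

theorem cB19_13_3_78 : chunkOkM (LB19_13.ctx true true 268 79 32 19 16 462 3325 77 105) muQ true true 64 RtB19_13.Cx.right.right RtB19_13.CX RtB19_13.Ctp.right.right.right.left.left.right.right RtB19_13.Ce.right.right.right.left.right.right.left RtB19_13.CTp.right.right RtB19_13.CEr.right.right 0xb97fc065c40f5e968b19991967f66b386fd7f540d949e6365c4b039668b21ac7c07f66bc5b237f540d6694 = true := by decide +kernel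

end Vale.Agent.helper4.Q4
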