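import Vale.Agent.helper4.Q4TreeM
import Vale.Agent.helper4.Q4G.PB19_13

/-!
Checks for pairs of intervals of second moments.
-/

set_option maxRecDepth 100000
set_option linter.unusedVariables false

namespace Vale.Agent.helper4.Q4

theorem cB19_13_3_79 : chunkOkM (LB19_13.ctx true true 278 157 64 19 16 458 3353 165 105) muQ true true 64 RtB19_13.Cx.right.right.left RtB19_13.CX RtB19_13.Ctp.right.right.right.left.left.right.left RtB19_13.Ce.right.right.right.left.right.right.right RtB19_13.CTp.right.right RtB19_13.CEr.right.right 0xba32d1b74c41dfcf777b6e7ff967f68808d797f540dad5345374ca1547c6f6825922a7f530d9fcd9fda84ccc788aca87be4a7e66f67b5806a7f540d548bfdf065c6c94ed68b4734f857f687d04117f540d6 = true := by decide +kernel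

theorem cB19_13_3_80 : chunkOkM (LB19_13.ctx true true 278 159 64 19 16 458 3353 165 105) muQ true true 64 RtB19_13.Cx.right.right.right RtB19_13.CX RtB19_13.Ctp.right.right.right.left.left.right.left RtB19_13.Ce.right.right.right.left.right.right.right RtB19_13.CTp.right.right RtB19_13.CEr.right.right 0xa282ea65c7c122f57f688794bf7f534aa4737f440d26524945894c1e0dbed7297b7b3da1e7f530d5a3361365c46497a47f6821062b7f52eb8b387f440d30fcdc35494c269c63fb397b7015f357f54adc1617f440d5481f34a87f05b83580c6ed66f0ab65c897c9a877b3502c487f681699657f550d56 = true := by decide +kernel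

theorem cB19_13_3_81 : chunkOkM (LB19_13.ctx true true 278 159 64 19 16 462 3353 165 105) muQ true true 64 RtB19_13.Cx.right.right RtB19_13.CX RtB19_13.Ctp.right.right.right.left.left.right.right RtB19_13.Ce.right.right.right.left.right.right.right RtB19_13.CTp.right.right RtB19_13.CEr.right.right 0x108a986edf91a7765c286eab68b485f96d7f680b8e947f550d3205beb6894c276b977c997b7b6749a7f530d56f398565c5395d868b54bc72f7f67e30dda7f540d6694ce4b87574c476f83477b68631937f67eb02117f540dce6211474c4b0c79d77b548ca8f7f6793ea967f540d48d66b065c4ae7f668b43d1ea97f674e5f6b7f540d67 = true := by decide +kernel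

theorem cB19_13_3_82 : chunkOkM (LB19_13.ctx true true 238 39 16 19 16 118 413 77 21) muQ true true 64 RtB19_13.Cx.right RtB19_13.CX RtB19_13.Ctp.right.right.right.left.right RtB19_13.Ce.right.right.right.left.right RtB19_13.CTp.right.right RtB19_13.CEr.right 0x6c4b2c68b10e4be6f818c88b2649f152331331f9f040d = true := by decide +kernel

theorem cB19_13_3_83 : chunkOkM (LB19_13.ctx true true 98 1 1 1 1 1 1 1 1) muQ true true 64 RtB19_13.Cx.left RtB19_13.CX RtB19_13.Ctp.right.right.right.left RtB19_13.Ce.right.right.right.right.left RtB19_13.CTp.right.right RtB19_13.CEr.right 0x21 = true := by decide +kernel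

theorem cB19_13_3_84 : chunkOkM (LB19_13.ctx true true 98 1 1 1 1 1 1 1 1) muQ true true 64 RtB19_13.Cx.right.left RtB19_13.CX RtB19_13.Ctp.right.right.right.left RtB19_13.Ce.right.right.right.right.left.left RtB19_13.CTp.right.right RtB19_13.CEr.right 0x21 = true := by decide +kernel

theorem cB19_13_3_85 : chunkOkM (LB19_13.ctx true true 98 1 1 1 1 1 1 1 1) muQ true true 64 RtB19_13.Cx.right.right RtB19_13.CX RtB19_13.Ctp.right.right.right.left.left.left RtB19_13.Ce.right.right.right.right.left.left RtB19_13.CTp.right.right RtB19_13.CEr.right 0x59 = true := by decide +kernel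

theorem cB19_13_3_86 : chunkOkM (LB19_13.ctx true true 253 79 32 19 16 230 847 77 35) muQ true true 64 RtB19_13.Cx.right.right RtB19_13.CX RtB19_13.Ctp.right.right.right.left.left.right RtB19_13.Ce.right.right.right.right.left.left RtB19_13.CTp.right.right RtB19_13.CEr.right.left 0x2fa1563d88b131f384c19e8d6518397f530d = true := by decide +kernel

theorem cB19_13_3_87 : chunkOkM (LB19_13.ctx true true 264 79 32 19 16 230 1687 165 91) muQ true true 64 RtB19_13.Cx.right.right RtB19_13.CX RtB19_13.Ctp.right.right.right.left.left.right RtB19_13.Ce.right.right.right.right.left.left.left RtB19_13.CTp.right.right RtB19_13.CEr.right.right.left 0x67929ad7ed60e84f65c33d0bbb7f68c91f737f52b5d886f450db3da1b65c84c1e068b62345937f68f337237f540d5 = true := by decide +kernel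

theorem cB19_13_3_88 : chunkOkM (LB19_13.ctx true true 278 159 64 19 16 462 3381 165 105) muQ true true 64 RtB19_13.Cx.right.right RtB19_13.CX RtB19_13.Ctp.right.right.right.left.left.right RtB19_13.Ce.right.right.right.right.left.left.left RtB19_13.CTp.right.right RtB19_13.CEr.right.right.right 0x11dcd8fa84cf4a04e07f6966deff7f530d201ca496594c1933d564497b721da087f688dfccf7f540d514387fc75c54107f27f6831aa3e7f530d2cd5a12e094c26c02d19e97b20d54e0841b774c457d10977b529710b7f67e116487f540d7e52cb565c3f90d368b426fd717f6919274d7f555c1f6e7f450d33ef6ee1f94c2b4b6d1d597b222a221f8f693e15af7f440d55973 = true := by decide +kernel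

theorem cB19_13_3_89 : chunkOkM (LB19_13.ctx true true 288 319 128 19 16 926 3395 165 105) muQ true true 64 RtB19_13.Cx.right.right RtB19_13.CX RtB19_13.Ctp.right.right.right.left.left.right RtB19_13.Ce.right.right.right.right.left.left.right RtB19_13.CTp.right.right RtB19_13.CEr.right.right 0x59e61a86374c2cf026b77b26878b2a8f6a5942247f540d15240c06194c1098a68a897b8a9f7287f530d5952e6e65c55eb5a68b32058b97f6879d07f7f540d65935974217593 = true := by decide +kernel

theorem cB19_13_3_90 : chunkOkM (LB19_13.ctx true true 249 79 32 19 16 118 847 77 35) muQ true true 64 RtB19_13.Cx.right.right RtB19_13.CX RtB19_13.Ctp.right.right.right.left.right RtB19_13.Ce.right.right.right.right.left.left RtB19_13.CTp.right.right RtB19_13.CEr.right.left 0x4172278f88b1bfbcf788f8f9aa7357f230d = true := by decide +kernel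

theorem cB19_13_3_91 : chunkOkM (LB19_13.ctx true true 290 631 256 19 16 466 3381 165 105) muQ true true 64 RtB19_13.Cx.right.right RtB19_13.CX RtB19_13.Ctp.right.right.right.left.right.left.left RtB19_13.Ce.right.right.right.right.left.left.left RtB19_13.CTp.right.right RtB19_13.CEr.right.right 0x1008a6975c2d045f68b5b8e58b7f672612927f540d2a3a8dfb794c213e4a7a597b77bee867f530d5d47014f74c3c6ce868b28f01e57f66d18d9d7f540d498af6465c4dc1f768b63351b67f676d2f487f540d621c66ccad74c3b9ffa877b32390e37f66c20a8b7f540d62483765c2b7b3268b7dd2ea87f653ec5fc7f53189f9f7f250d601701747 = true := by decide +kernel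

theorem cB19_13_3_92 : chunkOkM (LB19_13.ctx true true 284 319 128 19 16 466 3409 165 105) muQ true true 64 RtB19_13.Cx.right.right RtB19_13.CX RtB19_13.Ctp.right.right.right.left.right.left.left RtB19_13.Ce.right.right.right.right.left.left.right RtB19_13.CTp.right.right RtB19_13.CEr.right.right 0x10c84cac84c1ab148f77bbafddeb7f69495bbb7f540d1890d87e394c13157bacc97b7067f167f6751ad547f540d521710689ad75c37264d68b6fe04217f6652a4547f540d224403dbf94c1ad29f5c197b1c734217f6747a36a7f540d548fce5165c5eac9568b33ddedb7f6787758c7f540d6217 = true := by decide +kernel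

theorem cB19_13_3_93 : chunkOkM (LB19_13.ctx true true 98 1 1 1 1 1 1 1 1) muQ true true 64 RtB19_13.Cx.right.right RtB19_13.CX RtB19_13.Ctp.right.right.right.left.right.left.right RtB19_13.Ce.right.right.right.right.left.left RtB19_13.CTp.right.right RtB19_13.CEr.right.right 0x01 = true := by decide +kernel

theorem cB19_13_3_94 : chunkOkM (LB19_13.ctx true true 98 1 1 1 1 1 1 1 1) muQ true true 64 RtB19_13.Cx.right.right RtB19_13.CX RtB19_13.Ctp.right.right.right.left.right.right RtB19_13.Ce.right.right.right.right.left.left RtB19_13.CTp.right.right RtB19_13.CEr.right.right 0x01 = true := by decide +kernel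

theorem cB19_13_3_95 : chunkOkM (LB19_13.ctx true true 98 1 1 1 1 1 1 1 1) muQ true true 64 RtB19_13.Cx.right RtB19_13.CX RtB19_13.Ctp.right.right.right.left RtB19_13.Ce.right.right.right.right.left.right RtB19_13.CTp.right.right RtB19_13.CEr.right 0x21 = true := by decide +kernel

theorem cB19_13_3_96 : chunkOkM (LB19_13.ctx true true 98 1 1 1 1 1 1 1 1) muQ true true 64 RtB19_13.Cx RtB19_13.CX RtB19_13.Ctp.right.right.right.left RtB19_13.Ce.right.right.right.right.right RtB19_13.CTp.right.right RtB19_13.CEr.right 0x21 = true := by decide +kernel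

theorem cB19_13_3_97 : chunkOkM (LB19_13.ctx true true 98 1 1 1 1 1 1 1 1) muQ true true 64 RtB19_13.Cx RtB19_13.CX RtB19_13.Ctp.right.right.right.right RtB19_13.Ce.right.right.right RtB19_13.CTp.right.right RtB19_13.CEr.right 0x01 = true := by decide +kernel

theorem cB19_13_2_0 : chunkOkM (LB19_13.ctx false true 98 1 1 1 1 1 1 1 1) muQ false true 64 RtB19_13.Cx RtB19_13.CX RtB19_13.Ctn RtB19_13.Ce RtB19_13.CTp RtB19_13.CEr 0x49 = true := by decide +kernel

theorem cB19_13_1_0 : chunkOkM (LB19_13.ctx true false 98 1 1 1 1 1 1 1 1) muQ true false 64 RtB19_13.Cx RtB19_13.CX RtB19_13.Ctp RtB19_13.Ce RtB19_13.CTn RtB19_13.CEr 0x4a = true := by decide +kernel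

theorem cB19_13_0_0 : chunkOkM (LB19_13.ctx false false 98 1 1 1 1 1 1 1 1) muQ false false 64 RtB19_13.Cx RtB19_13.CX RtB19_13.Ctn RtB19_13.Ce RtB19_13.CTn RtB19_13.CEr 0x49 = true := by decide +kernel

end Vale.Agent.helper4.Q4
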