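import Vale.Agent.helper4.Q4TreeM
import Vale.Agent.helper4.Q4G.PB19_13_0
import Vale.Agent.helper4.Q4G.PB19_13_1
import Vale.Agent.helper4.Q4G.PB19_13_2
import Vale.Agent.helper4.Q4G.PB19_13_3
import Vale.Agent.helper4.Q4G.PB19_13_4

/-!
Checks for pairs of intervals of second moments.
-/

set_option maxRecDepth 100000
set_option linter.unusedVariables false

namespace Vale.Agent.helper4.Q4

theorem covB19_13 : LB19_13.Full muQ.val RtB19_13 := ⟨(LitT.Cov.split_t (LitT.cov_of_chunkM cB19_13_3_0) (LitT.Cov.split_e (LitT.cov_of_chunkM cB19_13_3_1) (LitT.Cov.split_t (LitT.cov_of_chunkM cB19_13_3_2) (LitT.Cov.split_e (LitT.cov_of_chunkM cB19_13_3_3) (LitT.Cov.split_T (LitT.cov_of_chunkM cB19_13_3_4) (LitT.Cov.split_T (LitT.cov_of_chunkM cB19_13_3_5) (LitT.Cov.split_E (LitT.cov_of_chunkM cB19_13_3_6) (LitT.Cov.split_e (LitT.Cov.split_t (LitT.Cov.split_t (LitT.cov_of_chunkM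 cB19_13_3_7) (LitT.Cov.split_e (LitT.cov_of_chunkM cB19_13_3_8) (LitT.Cov.split_e (LitT.Cov.split_t (LitT.Cov.split_t (LitT.cov_of_chunkM cB19_13_3_9) (LitT.Cov.split_e (LitT.cov_of_chunkM cB19_13_3_10) (LitT.Cov.split_x (LitT.Cov.split_x (LitT.Cov.split_e (LitT.cov_of_chunkM cB19_13_3_11) (LitT.cov_of_chunkM cB19_13_3_12)) (LitT.cov_of_chunkM cB19_13_3_13)) (LitT.cov_of_chunkM cB19_13_3_14)))) (LitT.cov_of_chunkM cB19_13_3_15)) (LitT.Cov.split_t (LitT.cov_of_chunkM cB19_13_3_16) (LitT.Cov.split_x (LitT.Cov.split_e (LitT.Cov.split_t (LitT.Cov.split_x (LitT.Cov.split_E (LitT.cov_of_chunkM cB19_13_3_17) (LitT.Cov.split_e (LitT.cov_of_chunkM cB19_13_3_18) (LitT.cov_of_chunkM cB19_13_3_19))) (LitT.cov_of_chunkM cB19_13_3_20)) (LitT.cov_of_chunkM cB19_13_3_21)) (LitT.Cov.split_E (LitT.cov_of_chunkM cB19_13_3_22) (LitT.Cov.split_t (LitT.Cov.split_x (LitT.cov_of_chunkM cB19_13_3_23)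 (LitT.Cov.split_x (LitT.Cov.split_e (LitT.cov_of_chunkM cB19_13_3_24) (LitT.cov_of_chunkM cB19_13_3_25)) (LitT.cov_of_chunkM cB19_13_3_26))) (LitT.Cov.split_x (LitT.Cov.split_e (LitT.Cov.split_x (LitT.cov_of_chunkM cB19_13_3_27) (LitT.cov_of_chunkM cB19_13_3_28)) (LitT.cov_of_chunkM cB19_13_3_29)) (LitT.cov_of_chunkM cB19_13_3_30))))) (LitT.cov_of_chunkM cB19_13_3_31)))))) (LitT.cov_of_chunkM cB19_13_3_32)) (LitT.Cov.split_t (LitT.Cov.split_t (LitT.cov_of_chunkM cB19_13_3_33) (LitT.Cov.split_e (LitT.Cov.split_e (LitT.Cov.split_t (LitT.cov_of_chunkM cB19_13_3_34) (LitT.Cov.split_x (LitT.Cov.split_E (LitT.cov_of_chunkM cB19_13_3_35) (LitT.Cov.split_e (LitT.Cov.split_t (LitT.cov_of_chunkM cB19_13_3_36) (LitT.Cov.split_x (LitT.cov_of_chunkM cB19_13_3_37) (LitT.Cov.split_e (LitT.Cov.split_t (LitT.cov_of_chunkM cB19_13_3_38) (LitT.cov_of_chunkM cB19_13_3_39)) (LitT.cov_of_chunkM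 cB19_13_3_40)))) (LitT.cov_of_chunkM cB19_13_3_41))) (LitT.Cov.split_t (LitT.cov_of_chunkM cB19_13_3_42) (LitT.Cov.split_t (LitT.cov_of_chunkM cB19_13_3_43) (LitT.Cov.split_e (LitT.cov_of_chunkM cB19_13_3_44) (LitT.cov_of_chunkM cB19_13_3_45)))))) (LitT.cov_of_chunkM cB19_13_3_46)) (LitT.cov_of_chunkM cB19_13_3_47))) (LitT.Cov.split_t (LitT.Cov.split_e (LitT.Cov.split_e (LitT.Cov.split_E (LitT.cov_of_chunkM cB19_13_3_48) (LitT.Cov.split_t (LitT.Cov.split_x (LitT.Cov.split_t (LitT.Cov.split_e (LitT.Cov.split_x (LitT.cov_of_chunkM cB19_13_3_49) (LitT.Cov.split_e (LitT.cov_of_chunkM cB19_13_3_50) (LitT.cov_of_chunkM cB19_13_3_51))) (LitT.Cov.split_x (LitT.cov_of_chunkM cB19_13_3_52) (LitT.Cov.split_e (LitT.Cov.split_x (LitT.cov_of_chunkM cB19_13_3_53) (LitT.cov_of_chunkM cB19_13_3_54)) (LitT.cov_of_chunkM cB19_13_3_55)))) (LitT.cov_of_chunkM cB19_13_3_56)) (LitT.Cov.split_e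 (LitT.cov_of_chunkM cB19_13_3_57) (LitT.Cov.split_t (LitT.Cov.split_x (LitT.Cov.split_e (LitT.cov_of_chunkM cB19_13_3_58) (LitT.Cov.split_t (LitT.cov_of_chunkM cB19_13_3_59) (LitT.cov_of_chunkM cB19_13_3_60))) (LitT.cov_of_chunkM cB19_13_3_61)) (LitT.cov_of_chunkM cB19_13_3_62)))) (LitT.cov_of_chunkM cB19_13_3_63))) (LitT.Cov.split_x (LitT.cov_of_chunkM cB19_13_3_64) (LitT.Cov.split_t (LitT.Cov.split_e (LitT.Cov.split_E (LitT.cov_of_chunkM cB19_13_3_65) (LitT.Cov.split_t (LitT.Cov.split_x (LitT.Cov.split_e (LitT.Cov.split_t (LitT.cov_of_chunkM cB19_13_3_66) (LitT.cov_of_chunkM cB19_13_3_67)) (LitT.cov_of_chunkM cB19_13_3_68)) (LitT.cov_of_chunkM cB19_13_3_69)) (LitT.Cov.split_x (LitT.Cov.split_e (LitT.cov_of_chunkM cB19_13_3_70) (LitT.cov_of_chunkM cB19_13_3_71)) (LitT.cov_of_chunkM cB19_13_3_72)))) (LitT.Cov.split_E (LitT.cov_of_chunkM cB19_13_3_73) (LitT.Cov.split_t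 (LitT.cov_of_chunkM cB19_13_3_74) (LitT.Cov.split_x (LitT.cov_of_chunkM cB19_13_3_75) (LitT.Cov.split_e (LitT.Cov.split_t (LitT.Cov.split_x (LitT.cov_of_chunkM cB19_13_3_76) (LitT.cov_of_chunkM cB19_13_3_77)) (LitT.cov_of_chunkM cB19_13_3_78)) (LitT.Cov.split_t (LitT.Cov.split_x (LitT.cov_of_chunkM cB19_13_3_79) (LitT.cov_of_chunkM cB19_13_3_80)) (LitT.cov_of_chunkM cB19_13_3_81))))))) (LitT.cov_of_chunkM cB19_13_3_82)))) (LitT.Cov.split_e (LitT.Cov.split_x (LitT.cov_of_chunkM cB19_13_3_83) (LitT.Cov.split_e (LitT.Cov.split_x (LitT.cov_of_chunkM cB19_13_3_84) (LitT.Cov.split_t (LitT.Cov.split_t (LitT.cov_of_chunkM cB19_13_3_85) (LitT.Cov.split_E (LitT.cov_of_chunkM cB19_13_3_86) (LitT.Cov.split_e (LitT.Cov.split_E (LitT.cov_of_chunkM cB19_13_3_87) (LitT.cov_of_chunkM cB19_13_3_88)) (LitT.cov_of_chunkM cB19_13_3_89)))) (LitT.Cov.split_E (LitT.cov_of_chunkM cB19_13_3_90)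 (LitT.Cov.split_t (LitT.Cov.split_t (LitT.Cov.split_e (LitT.cov_of_chunkM cB19_13_3_91) (LitT.cov_of_chunkM cB19_13_3_92)) (LitT.cov_of_chunkM cB19_13_3_93)) (LitT.cov_of_chunkM cB19_13_3_94))))) (LitT.cov_of_chunkM cB19_13_3_95))) (LitT.cov_of_chunkM cB19_13_3_96))) (LitT.cov_of_chunkM cB19_13_3_97))))))))))), (LitT.cov_of_chunkM cB19_13_1_0), (LitT.cov_of_chunkM cB19_13_2_0), (LitT.cov_of_chunkM cB19_13_0_0)⟩

end Vale.Agent.helper4.Q4
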