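import Vale.Agent.helper4.Q4TreeM
import Vale.Agent.helper4.Q4G.PB19_7

/-!
Checks for pairs of intervals of second moments.
-/

set_option maxRecDepth 100000
set_option linter.unusedVariables false

namespace Vale.Agent.helper4.Q4

theorem cB19_7_3_0 : chunkOkM (LB19_7.ctx true true 93 1 1 1 1 1 1 1 1) muQ true true 64 RtB19_7.Cx RtB19_7.CX RtB19_7.Ctp.left RtB19_7.Ce RtB19_7.CTp RtB19_7.CEr 0x41 = true := by decide +kernel

theorem cB19_7_3_1 : chunkOkM (LB19_7.ctx true true 93 1 1 1 1 1 1 1 1) muQ true true 64 RtB19_7.Cx RtB19_7.CX RtB19_7.Ctp.right RtB19_7.Ce.left RtB19_7.CTp RtB19_7.CEr 0x69 = true := by decide +kernel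

theorem cB19_7_3_2 : chunkOkM (LB19_7.ctx true true 93 1 1 1 1 1 1 1 1) muQ true true 64 RtB19_7.Cx RtB19_7.CX RtB19_7.Ctp.right.left RtB19_7.Ce.right RtB19_7.CTp RtB19_7.CEr 0x49 = true := by decide +kernel

theorem cB19_7_3_3 : chunkOkM (LB19_7.ctx true true 93 1 1 1 1 1 1 1 1) muQ true true 64 RtB19_7.Cx RtB19_7.CX RtB19_7.Ctp.right.right RtB19_7.Ce.right.left RtB19_7.CTp RtB19_7.CEr 0x69 = true := by decide +kernel

theorem cB19_7_3_4 : chunkOkM (LB19_7.ctx true true 93 1 1 1 1 1 1 1 1) muQ true true 64 RtB19_7.Cx RtB19_7.CX RtB19_7.Ctp.right.right.left.left RtB19_7.Ce.right.right.left RtB19_7.CTp RtB19_7.CEr 0x49 = true := by decide +kernel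

theorem cB19_7_3_5 : chunkOkM (LB19_7.ctx true true 93 1 1 1 1 1 1 1 1) muQ true true 64 RtB19_7.Cx RtB19_7.CX RtB19_7.Ctp.right.right.left.right RtB19_7.Ce.right.right.left.left RtB19_7.CTp RtB19_7.CEr 0x69 = true := by decide +kernel

theorem cB19_7_3_6 : chunkOkM (LB19_7.ctx true true 255 147 64 7 16 854 3017 16 32) muQ true true 64 RtB19_7.Cx RtB19_7.CX RtB19_7.Ctp.right.right.left.right RtB19_7.Ce.right.right.left.right.left RtB19_7.CTp RtB19_7.CEr 0xd80f676dd5b4b45e81969b3098d636997117e540d49495d2ba16f04b90baee6dd8307636d8284ba847e646277bb7e594764d6e450db674d76ddb4210f6d812f06987e63fff5fd7e55b2c996e450d4780bc7f6dd106b7c37d824160637e648982607e5292f87b7e450d33756466f05b7bfaeb6dd11256497d81cb6d2e7e64252df67e5ff243f6e450d49334776944933 = true := by decide +kernel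

theorem cB19_7_3_7 : chunkOkM (LB19_7.ctx true true 252 147 64 7 16 430 3045 16 32) muQ true true 64 RtB19_7.Cx RtB19_7.CX RtB19_7.Ctp.right.right.left.right.left RtB19_7.Ce.right.right.left.right.right RtB19_7.CTp RtB19_7.CEr 0x494959181c8d27d854dae7018e5151f3c3159e430d76082b6ddfb7fc86d820529147e6443520f7e52b8a8ca7e450d73442d6dde984fd6d85ff30187e64e757e67e540d77fd866ddb819916d832da42a7e64af9b2c7e575ce026e450d4782d35937e52f0e88bb8e420d34477493 = true := by decide +kernel

theorem cB19_7_3_8 : chunkOkM (LB19_7.ctx true true 251 147 64 7 16 438 3073 16 32) muQ true true 64 RtB19_7.Cx.left RtB19_7.CX RtB19_7.Ctp.right.right.left.right.right.left RtB19_7.Ce.right.right.left.right.right.left RtB19_7.CTp RtB19_7.CEr 0xd6de836f04bd8f08f6ddbee29f63c16d96207e63cd1f567e540d7b37e36dd89cfb16d837ff99d7e649d92887e5b824106e450d874f2d6dd591f346d81b022ed7e6434c36b7e5bd0ec86e450d49ead7a6dd5ef58e6d82a689707e644458407e540d73ebcd276dd849f4663cc585866e6393bc857e540da4b6a76dd9eaec66d813577c87e63fb32167e59c27dc6e450d9fbcd76dd22bbcc63c12966f97e6402e83f7e540d7347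 = true := by decide +kernel

theorem cB19_7_3_9 : chunkOkM (LB19_7.ctx true true 245 73 32 7 16 446 1533 16 32) muQ true true 64 RtB19_7.Cx.left RtB19_7.CX RtB19_7.Ctp.right.right.left.right.right.right RtB19_7.Ce.right.right.left.right.right.left RtB19_7.CTp RtB19_7.CEr 0x11c387e36dd219cde773c145d4147e62a981048e0ad18074f892e9e050d119f8a07dd2cab40873cb93e0b6d810fbc557e6354477f7e550d37694 = true := by decide +kernel

theorem cB19_7_3_10 : chunkOkM (LB19_7.ctx true true 251 149 64 7 16 438 3129 16 32) muQ true true 64 RtB19_7.Cx.left RtB19_7.CX RtB19_7.Ctp.right.right.left.right.right.left RtB19_7.Ce.right.right.left.right.right.right RtB19_7.CTp RtB19_7.CEr 0x49459d1e6dd7514816d8274dfeb7e64a860467e510524d77e450d6e2f406dd4df54f6d82e1681a7e647778487e5e8d5c46e450d45b30e7d7e5415399368e420d35a4bb46dd4a43736d8173f9357e642aa6a17e5da13fc6e450d5944a56dde27e106d816e387e7e644e5b407e543ebfab7e450d347599afc6f05bb11ce86dd196e7963c180d1d87e64361dbc7e540d5974106ddaf3ec56d84c7022b7e650a340b7e540d347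 = true := by decide +kernel

theorem cB19_7_3_11 : chunkOkM (LB19_7.ctx true true 248 147 64 7 16 446 1561 16 32) muQ true true 64 RtB19_7.Cx.left RtB19_7.CX RtB19_7.Ctp.right.right.left.right.right.right RtB19_7.Ce.right.right.left.right.right.right RtB19_7.CTp RtB19_7.CEr 0xb702da6dde7e77e63c35de6d6d8f373406e63afc6307e550da46fda6ddfbe2853c104b15d7e640cf5317e540d369410545477dd324a25673cd9b6e66d81a8c65a7e636431c27e564f085e260d10eb1257dd379cdb673cdf13566d81d4c2d27e636dcccd7e58bee886e260d7b775d16dd1108ddb73c1d72a447e63f135db7e540d31044f347dd30c361373c115ccfc7d81a1021a7e63832d5a7e550d14176f57dd2b1cf1573ca9f4056d821a61267e62bd03ec7e5f92d9d6e260d10b0f567dd2bcbee573c962ce86d818294ee7e639eaeda7e550d3747 = true := by decide +kernel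

theorem cB19_7_3_12 : chunkOkM (LB19_7.ctx true true 222 39 16 7 16 110 385 16 32) muQ true true 64 RtB19_7.Cx.right RtB19_7.CX RtB19_7.Ctp.right.right.left.right.right RtB19_7.Ce.right.right.left.right.right RtB19_7.CTp RtB19_7.CEr 0x8237a86f04b = true := by decide +kernel

theorem cB19_7_3_13 : chunkOkM (LB19_7.ctx true true 202 19 8 7 16 30 91 16 32) muQ true true 64 RtB19_7.Cx RtB19_7.CX RtB19_7.Ctp.right.right.right RtB19_7.Ce.right.right.left RtB19_7.CTp RtB19_7.CEr 0xae641b6dd355bec64c355f1187d157739da7e040d = true := by decide +kernel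

theorem cB19_7_3_14 : chunkOkM (LB19_7.ctx true true 93 1 1 1 1 1 1 1 1) muQ true true 64 RtB19_7.Cx RtB19_7.CX RtB19_7.Ctp.right.right.left.left RtB19_7.Ce.right.right.right RtB19_7.CTp RtB19_7.CEr 0x49 = true := by decide +kernel

theorem cB19_7_3_15 : chunkOkM (LB19_7.ctx true true 216 19 8 7 16 106 399 16 32) muQ true true 64 RtB19_7.Cx RtB19_7.CX RtB19_7.Ctp.right.right.left.right.left RtB19_7.Ce.right.right.right.left.left RtB19_7.CTp RtB19_7.CEr 0xaa9c1497e542c9a41c8e420d = true := by decide +kernel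

theorem cB19_7_3_16 : chunkOkM (LB19_7.ctx true true 251 151 64 7 16 446 1589 16 32) muQ true true 64 RtB19_7.Cx.left RtB19_7.CX RtB19_7.Ctp.right.right.left.right.right RtB19_7.Ce.right.right.right.left.left RtB19_7.CTp RtB19_7.CEr 0x6ac2296ddb24b654c3f58d5798d64f20bb87e540d9d42496ddc8dc1963c2785726d81798ed67e643677d47e550d49883c6dd4a7b5f6d831ccc127e64b08ab57e513a14ec7e450d5973aaac866dd1a86a8373c6751db6d81049b9f7e63df77bd7e550d481d606dd28cf866d81f86cdf7e645bf7797e5e5bb076e450d87b9976dd1e57553c26e34f47e647162927e540d734ecf47f6dd1f1ac8a73cb304f5d82385e3968d63f98b897e550d76adf3e6dd2ed8a54c18fb3a9b69d61895d9fb09e56c97313499e450d34 = true := by decide +kernel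

theorem cB19_7_3_17 : chunkOkM (LB19_7.ctx true true 248 153 64 7 16 446 1617 16 32) muQ true true 64 RtB19_7.Cx.right RtB19_7.CX RtB19_7.Ctp.right.right.left.right.right RtB19_7.Ce.right.right.right.left.left RtB19_7.CTp RtB19_7.CEr 0x4949163f596dd14b2336d831f9ed57e64cb16587e5158b1827e450d3bc82d6ddaa0bc53c2e7a77b7e64967f477e51049f2e7e450d477416e566dd216a95e8169f69188d6427293c7e5f877ea6e450d4493493 = true := by decide +kernel

theorem cB19_7_3_18 : chunkOkM (LB19_7.ctx true true 214 19 8 7 16 54 413 16 32) muQ true true 64 RtB19_7.Cx RtB19_7.CX RtB19_7.Ctp.right.right.left.right RtB19_7.Ce.right.right.right.left.right RtB19_7.CTp RtB19_7.CEr 0x10d2a16ed1fe80f64c8299d8438d6891dbbdd8e527e8ec4049e450d = true := by decide +kernel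

theorem cB19_7_3_19 : chunkOkM (LB19_7.ctx true true 93 1 1 1 1 1 1 1 1) muQ true true 64 RtB19_7.Cx RtB19_7.CX RtB19_7.Ctp.right.right.left.right RtB19_7.Ce.right.right.right.right RtB19_7.CTp RtB19_7.CEr 0x59 = true := by decide +kernel

theorem cB19_7_3_20 : chunkOkM (LB19_7.ctx true true 251 151 64 7 16 454 1617 16 32) muQ true true 64 RtB19_7.Cx.left RtB19_7.CX RtB19_7.Ctp.right.right.right.left RtB19_7.Ce.right.right.right.left.left RtB19_7.CTp RtB19_7.CEr 0x0101abf0146dd2ffa9ec73c80ed756d82167c427e6407d9977e54a979f6e260dd79a406dd3cdc77c73c1378f5b7d820c27337e63c909677e550d10c69007dd2755a4273c3f120f37e633db4597e5d1f4f86e250d7421755c541973c28b2ced7d85660ac17e6266e172afdad178199033d9e050da5cc786dd316230973c844bcc6d8ff75a36e63c003587e550d31016b417dd30084fd73c10e65dc7d821f590a7e6310426b7e550d4e47b076dd1fc3cd573c244d446d8130360e7e62e6397a7e51e4feb17e260d7433 = true := by decide +kernel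

end Vale.Agent.helper4.Q4
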