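import Vale.Agent.helper4.Q4TreeM
import Vale.Agent.helper4.Q4G.PB19_7

/-!
Checks for pairs of intervals of second moments.
-/

set_option maxRecDepth 100000
set_option linter.unusedVariables false

namespace Vale.Agent.helper4.Q4

theorem cB19_7_3_21 : chunkOkM (LB19_7.ctx true true 248 155 64 7 16 454 1617 16 32) muQ true true 64 RtB19_7.Cx.right RtB19_7.CX RtB19_7.Ctp.right.right.right.left RtB19_7.Ce.right.right.right.left.left RtB19_7.CTp RtB19_7.CEr 0x115c20126f00b69c0e1ee6dd1de0b3473cb90f826d8133c22b7e63e961d67e550d468bfb6dd5e81d263c1fae796d8359118c7e644f777d7e515e34357e460d6533a56dda695e263c285e506d819a1bf47e64792bfa7e550d7378a9156dd5e9c3e63cb09145d827270ef7e63e6268c7e550d4736943 = true := by decide +kernel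

theorem cB19_7_3_22 : chunkOkM (LB19_7.ctx true true 93 1 1 1 1 1 1 1 1) muQ true true 64 RtB19_7.Cx.left RtB19_7.CX RtB19_7.Ctp.right.right.right.left RtB19_7.Ce.right.right.right.left.right RtB19_7.CTp RtB19_7.CEr 0x21 = true := by decide +kernel

theorem cB19_7_3_23 : chunkOkM (LB19_7.ctx true true 253 157 64 7 16 454 3269 16 32) muQ true true 64 RtB19_7.Cx.right RtB19_7.CX RtB19_7.Ctp.right.right.right.left.left.left RtB19_7.Ce.right.right.right.left.right.left RtB19_7.CTp RtB19_7.CEr 0x4921c2366dd14e45e273cbb9c0a6d8268ee647e6489675e7e5e1d3336e460d769449321aa75973cbbaff46d833fe3187e64c668ad7e540db5e78363c7ba7442d8e5243103bc99e430d35974a8a8d6dd19411cb73c2dc6126d82b202f17e641aeb107e550d213630973c1943d107d82c338ef7e64bb47377e514d61127e450d3fc04d6dde9419763c8ea4a76d839daab37e64b000f87e510033867e460d451bb866f05b7347 = true := by decide +kernel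

theorem cB19_7_3_24 : chunkOkM (LB19_7.ctx true true 239 79 32 7 16 230 1645 16 32) muQ true true 64 RtB19_7.Cx.right RtB19_7.CX RtB19_7.Ctp.right.right.right.left.left.right RtB19_7.Ce.right.right.right.left.right.left RtB19_7.CTp RtB19_7.CEr 0x6c5495dd38cb1b64c20817f47d821f0e7768d64138c6c7e550da1d27b6dd4cebe5973c11595e17d8189d3527e63c1dd5a7e53ef3776e260d861d6f6dd24cd1ac73c1f9d3a37e631e349d7e5b9968a6e250d47 = true := by decide +kernel

theorem cB19_7_3_25 : chunkOkM (LB19_7.ctx true true 252 159 64 7 16 462 3353 16 32) muQ true true 64 RtB19_7.Cx.right RtB19_7.CX RtB19_7.Ctp.right.right.right.left.left RtB19_7.Ce.right.right.right.left.right.right RtB19_7.CTp RtB19_7.CEr 0xabc5aa6dd2b5c26873c10764a57d82575aca7e6415a88c7e550d536d136dd1a4f25673c105678d7d841228d27e64a18ee37e512ec95a7e460d8b7f056dd22ca96673c170b6727d8243d1a77e647417bd7e512b699b7e460d467df906dd204d88b73cdbf19b6d83b1ae307e64b26a977e550d733d62276dd49f47f973c22ee55d7d86407716e63db74467e550d4f79a86dd1c61f4c73c960e466d817490e37e645b76127e5761ec86e460d34c34a326dd483f96573c196a5097d82500ae37e642467587e597989d6e260d74959df19f5dd362f91273c22546da7d830d54d37e64c2f53d7e51a28d7e7e460d474935973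 = true := by decide +kernel

theorem cB19_7_3_26 : chunkOkM (LB19_7.ctx true true 223 39 16 7 16 118 413 16 32) muQ true true 64 RtB19_7.Cx.right RtB19_7.CX RtB19_7.Ctp.right.right.right.left.right RtB19_7.Ce.right.right.right.left.right RtB19_7.CTp RtB19_7.CEr 0x6768bd6f00b = true := by decide +kernel

theorem cB19_7_3_27 : chunkOkM (LB19_7.ctx true true 249 159 64 7 16 462 1701 16 32) muQ true true 64 RtB19_7.Cx RtB19_7.CX RtB19_7.Ctp.right.right.right.left RtB19_7.Ce.right.right.right.right RtB19_7.CTp RtB19_7.CEr 0x21210169a5d26dd48eecbb73cf611df6d81818fe97e63e290ba7e5a8b4d66e260d39ee5f06dd4cd8f9273c3098b5c7d84296d457e64e316b37e550d8064ca6dd4075a7e73c232453f7d81b956647e647109b17e550d40e9726dd29fbcf073c1b8b0677d8344ba557e64ea29d77e518aed1e7e460d59734593321742174 = true := by decide +kernel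

theorem cB19_7_3_28 : chunkOkM (LB19_7.ctx true true 93 1 1 1 1 1 1 1 1) muQ true true 64 RtB19_7.Cx RtB19_7.CX RtB19_7.Ctp.right.right.right.right RtB19_7.Ce.right.right.right RtB19_7.CTp RtB19_7.CEr 0x01 = true := by decide +kernel

theorem cB19_7_2_0 : chunkOkM (LB19_7.ctx false true 93 1 1 1 1 1 1 1 1) muQ false true 64 RtB19_7.Cx RtB19_7.CX RtB19_7.Ctn RtB19_7.Ce RtB19_7.CTp RtB19_7.CEr 0x49 = true := by decide +kernel

theorem cB19_7_1_0 : chunkOkM (LB19_7.ctx true false 93 1 1 1 1 1 1 1 1) muQ true false 64 RtB19_7.Cx RtB19_7.CX RtB19_7.Ctp.left RtB19_7.Ce RtB19_7.CTn RtB19_7.CEr 0x41 = true := by decide +kernel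

theorem cB19_7_1_1 : chunkOkM (LB19_7.ctx true false 93 1 1 1 1 1 1 1 1) muQ true false 64 RtB19_7.Cx RtB19_7.CX RtB19_7.Ctp.right RtB19_7.Ce.left RtB19_7.CTn RtB19_7.CEr 0x69 = true := by decide +kernel

theorem cB19_7_1_2 : chunkOkM (LB19_7.ctx true false 93 1 1 1 1 1 1 1 1) muQ true false 64 RtB19_7.Cx RtB19_7.CX RtB19_7.Ctp.right.left RtB19_7.Ce.right RtB19_7.CTn RtB19_7.CEr 0x49 = true := by decide +kernel

theorem cB19_7_1_3 : chunkOkM (LB19_7.ctx true false 93 1 1 1 1 1 1 1 1) muQ true false 64 RtB19_7.Cx RtB19_7.CX RtB19_7.Ctp.right.right RtB19_7.Ce.right.left RtB19_7.CTn RtB19_7.CEr 0x69 = true := by decide +kernel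

theorem cB19_7_1_4 : chunkOkM (LB19_7.ctx true false 93 1 1 1 1 1 1 1 1) muQ true false 64 RtB19_7.Cx RtB19_7.CX RtB19_7.Ctp.right.right.left.left RtB19_7.Ce.right.right.left RtB19_7.CTn.left.left.left RtB19_7.CEr.left.left.left.left 0x49 = true := by decide +kernel

theorem cB19_7_1_5 : chunkOkM (LB19_7.ctx true false 93 1 1 1 1 1 1 1 1) muQ true false 64 RtB19_7.Cx RtB19_7.CX RtB19_7.Ctp.right.right.left.right RtB19_7.Ce.right.right.left.left RtB19_7.CTn.left.left.left RtB19_7.CEr.left.left.left.left 0x69 = true := by decide +kernel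

theorem cB19_7_1_6 : chunkOkM (LB19_7.ctx true false 258 73 32 7 16 430 1505 32 512) muQ true false 64 RtB19_7.Cx RtB19_7.CX RtB19_7.Ctp.right.right.left.right RtB19_7.Ce.right.right.left.right.left RtB19_7.CTn.left.left.left RtB19_7.CEr.left.left.left.left 0x263ab56f05b49491ea655fd1b0b58b7e6474e4647e5a79cdb6e440ddb92486e64d9cb977e51c92bff7e430d34e95c7a7e6463ef197e5251cea97e430d4776944933 = true := by decide +kernel

theorem cB19_7_1_7 : chunkOkM (LB19_7.ctx true false 251 73 32 7 16 214 763 32 512) muQ true false 64 RtB19_7.Cx RtB19_7.CX RtB19_7.Ctp.right.right.left.right.left RtB19_7.Ce.right.right.left.right.right RtB19_7.CTn.left.left.left RtB19_7.CEr.left.left.left.left 0x4949593b7185fd238dbeb7e64bd02c87e52c0e42c7e440d477493 = true := by decide +kernel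

theorem cB19_7_1_8 : chunkOkM (LB19_7.ctx true false 258 75 32 7 16 438 1533 32 512) muQ true false 64 RtB19_7.Cx.left RtB19_7.CX RtB19_7.Ctp.right.right.left.right.right RtB19_7.Ce.right.right.left.right.right.left RtB19_7.CTn.left.left.left RtB19_7.CEr.left.left.left.left 0x492f95fd33564464c239a9d118d631dca627e540dc91bdc6f04b1de8e364c299870a7e63f6fb167e530d8ad14fd28c4654c15101d07e64b5ac277e540d31b6a6164c238f2fd7e63fdb2307e530d473 = true := by decide +kernel

theorem cB19_7_1_9 : chunkOkM (LB19_7.ctx true false 260 149 64 7 16 222 1561 32 512) muQ true false 64 RtB19_7.Cx.left RtB19_7.CX RtB19_7.Ctp.right.right.left.right.right RtB19_7.Ce.right.right.left.right.right.right RtB19_7.CTn.left.left.left RtB19_7.CEr.left.left.left.left 0x4ee4f5fd18954364c1d9e54e7e6429dd737e540d8360ab64c5a26f1f7e63a2901b7e530dd311ce64c55c41c27e637805fd7e51429f4f7e240d7a2f3fd31062664c2d9e4687e639ac7357e540d1dce45fd302c7b64c3db54197e634ea0e37e5bbd7e96e250d74749b64d154c38f39737e657499017e5dc73046e440da839454c42e03de7e64ab46f47e51a4f18b7e440d47d6a1e54c303a0287e64dd6e707e530d73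 = true := by decide +kernel

theorem cB19_7_1_10 : chunkOkM (LB19_7.ctx true false 238 39 16 7 16 110 385 32 512) muQ true false 64 RtB19_7.Cx.right RtB19_7.CX RtB19_7.Ctp.right.right.left.right.right RtB19_7.Ce.right.right.left.right.right RtB19_7.CTn.left.left.left RtB19_7.CEr.left.left.left.left 0x771d986f04b = true := by decide +kernel

theorem cB19_7_1_11 : chunkOkM (LB19_7.ctx true false 218 19 8 7 16 30 91 32 512) muQ true false 64 RtB19_7.Cx RtB19_7.CX RtB19_7.Ctp.right.right.right RtB19_7.Ce.right.right.left RtB19_7.CTn.left.left.left RtB19_7.CEr.left.left.left.left 0x14a31465c1b89d817d15ee01f97e030d = true := by decide +kernel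

theorem cB19_7_1_12 : chunkOkM (LB19_7.ctx true false 93 1 1 1 1 1 1 1 1) muQ true false 64 RtB19_7.Cx RtB19_7.CX RtB19_7.Ctp.right.right.left.left RtB19_7.Ce.right.right.right RtB19_7.CTn.left.left.left RtB19_7.CEr.left.left.left.left 0x49 = true := by decide +kernel

theorem cB19_7_1_13 : chunkOkM (LB19_7.ctx true false 232 19 8 7 16 106 399 32 512) muQ true false 64 RtB19_7.Cx RtB19_7.CX RtB19_7.Ctp.right.right.left.right.left RtB19_7.Ce.right.right.right.left.left RtB19_7.CTn.left.left.left RtB19_7.CEr.left.left.left.left 0xabef02a7e5415ee9fc8e420d = true := by decide +kernel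

theorem cB19_7_1_14 : chunkOkM (LB19_7.ctx true false 261 75 32 7 16 446 1589 32 512) muQ true false 64 RtB19_7.Cx.left RtB19_7.CX RtB19_7.Ctp.right.right.left.right.right RtB19_7.Ce.right.right.right.left.left RtB19_7.CTn.left.left.left RtB19_7.CEr.left.left.left.left 0x18e85d64c397491898d64eb4fb07e530d206f65fd21b68564cb0a3dd6e645c60677e540d6dc94fd1198bb64c1230c5f82c971867e651499e97e550d350440264c1f8dfee7e63f009007e530d22efb5fd1601f164c1751b7c7e64a7a4b87e57519f5e450d3421a8ea64c3c1889078d63ee36da7e530d758d6a54c1aa5a5f81883d9b1a9d6185ca90529e56b82ad32b9e450d34 = true := by decide +kernel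

theorem cB19_7_1_15 : chunkOkM (LB19_7.ctx true false 261 153 64 7 16 446 805 32 512) muQ true false 64 RtB19_7.Cx.right RtB19_7.CX RtB19_7.Ctp.right.right.left.right.right RtB19_7.Ce.right.right.right.left.left RtB19_7.CTn.left.left.left RtB19_7.CEr.left.left.left.left 0x4949157c95fd1b686164c24276397e64efcc147e513210617e450d7739256d6f05b4493493 = true := by decide +kernel

theorem cB19_7_1_16 : chunkOkM (LB19_7.ctx true false 230 19 8 7 16 54 413 32 512) muQ true false 64 RtB19_7.Cx RtB19_7.CX RtB19_7.Ctp.right.right.left.right RtB19_7.Ce.right.right.right.left.right RtB19_7.CTn.left.left.left RtB19_7.CEr.left.left.left.left 0x2f22455c123e466f87fd7b9088d688bf2f418e527b39a77d9e450d = true := by decide +kernel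

theorem cB19_7_1_17 : chunkOkM (LB19_7.ctx true false 93 1 1 1 1 1 1 1 1) muQ true false 64 RtB19_7.Cx RtB19_7.CX RtB19_7.Ctp.right.right.left.right RtB19_7.Ce.right.right.right.right RtB19_7.CTn.left.left.left RtB19_7.CEr.left.left.left.left 0x59 = true := by decide +kernel

end Vale.Agent.helper4.Q4
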