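import Vale.Agent.helper4.Q4TreeM
import Vale.Agent.helper4.Q4G.PB19_7

/-!
Checks for pairs of intervals of second moments.
-/

set_option maxRecDepth 100000
set_option linter.unusedVariables false

namespace Vale.Agent.helper4.Q4

theorem cB19_7_1_18 : chunkOkM (LB19_7.ctx true false 261 151 64 7 16 230 1617 32 512) muQ true false 64 RtB19_7.Cx RtB19_7.CX RtB19_7.Ctp.right.right.right.left RtB19_7.Ce.right.right.right.left.left RtB19_7.CTn.left.left.left RtB19_7.CEr.left.left.left.left 0x11069301f1764c2fca4737e6481cc8a7e530d862045fd289c4e64c1b343c07e643bb1b27e540d4736943010138e47364c18a1a5f848b5ba37e63cb20d17e585031a6e250d6f396564c50101b07e63d58b677e530d3e363664c6fc0d087e63894bfa7e5147e74e7e240d74217ebec4fd454b4464c19cfc507e636f39467e5c2edb26e250d4728b664c20c25367e630969bc7e5162f09b7e240d74337 = true := by decide +kernel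

theorem cB19_7_1_19 : chunkOkM (LB19_7.ctx true false 93 1 1 1 1 1 1 1 1) muQ true false 64 RtB19_7.Cx.left RtB19_7.CX RtB19_7.Ctp.right.right.right.left RtB19_7.Ce.right.right.right.left.right RtB19_7.CTn.left.left.left RtB19_7.CEr.left.left.left.left 0x21 = true := by decide +kernel

theorem cB19_7_1_20 : chunkOkM (LB19_7.ctx true false 259 79 32 7 16 454 1645 32 512) muQ true false 64 RtB19_7.Cx.right RtB19_7.CX RtB19_7.Ctp.right.right.right.left.left RtB19_7.Ce.right.right.right.left.right.left RtB19_7.CTn.left.left.left RtB19_7.CEr.left.left.left.left 0x1ca1716f05b114f35fd53290664c1a359297e63bdc4c37e5da8dd76e250d720cd45fd32ad3064c171088f7e64c578fc7e540d493d7a8ef64c4af24277e656a8e397e530d2a9b4464c2c3b4977e6457da9a7e530d2675a064c319e4e07e64f829917e5ba8cb76e440d3473 = true := by decide +kernel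

theorem cB19_7_1_21 : chunkOkM (LB19_7.ctx true false 259 79 32 7 16 462 1673 32 512) muQ true false 64 RtB19_7.Cx.right RtB19_7.CX RtB19_7.Ctp.right.right.right.left.left RtB19_7.Ce.right.right.right.left.right.right RtB19_7.CTn.left.left.left RtB19_7.CEr.left.left.left.left 0x445e0664c221f72d7e6440c3ef7e530d33b27264c27055457e651bff647e53166676e440d3802e05fd40e05664c1ed432e7e646026007e540d42e83b464c285f5e07e643eb3ed7e511522897e240d72db7b164c227b2967e6511609a7e5348ed397e440d5973 = true := by decide +kernel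

theorem cB19_7_1_22 : chunkOkM (LB19_7.ctx true false 239 39 16 7 16 118 413 32 512) muQ true false 64 RtB19_7.Cx.right RtB19_7.CX RtB19_7.Ctp.right.right.right.left.right RtB19_7.Ce.right.right.right.left.right RtB19_7.CTn.left.left.left RtB19_7.CEr.left.left.left.left 0x62f7656f00b = true := by decide +kernel

theorem cB19_7_1_23 : chunkOkM (LB19_7.ctx true false 259 79 32 7 16 462 1701 32 512) muQ true false 64 RtB19_7.Cx RtB19_7.CX RtB19_7.Ctp.right.right.right.left RtB19_7.Ce.right.right.right.right RtB19_7.CTn.left.left.left RtB19_7.CEr.left.left.left.left 0x2121332da5fd89412664c277a4be7e63c34c537e5fd5d836e250ded2db264c3a580547e654093b57e530d5f734fd40e6b064c1c7694d7e649df9297e540d1f5c6f64c319c9757e64f98dc57e51cd5efe7e440d34593321742174 = true := by decide +kernel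

theorem cB19_7_1_24 : chunkOkM (LB19_7.ctx true false 93 1 1 1 1 1 1 1 1) muQ true false 64 RtB19_7.Cx RtB19_7.CX RtB19_7.Ctp.right.right.right.right RtB19_7.Ce.right.right.right RtB19_7.CTn.left.left.left RtB19_7.CEr.left.left.left.left 0x01 = true := by decide +kernel

theorem cB19_7_1_25 : chunkOkM (LB19_7.ctx true false 93 1 1 1 1 1 1 1 1) muQ true false 64 RtB19_7.Cx RtB19_7.CX RtB19_7.Ctp.right.right RtB19_7.Ce.right.right RtB19_7.CTn.left.left.left RtB19_7.CEr.left.left.left.right 0x5a = true := by decide +kernel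

theorem cB19_7_1_26 : chunkOkM (LB19_7.ctx true false 93 1 1 1 1 1 1 1 1) muQ true false 64 RtB19_7.Cx RtB19_7.CX RtB19_7.Ctp.right.right RtB19_7.Ce.right.right RtB19_7.CTn.left.left.left RtB19_7.CEr.left.left.right 0x5a = true := by decide +kernel

theorem cB19_7_1_27 : chunkOkM (LB19_7.ctx true false 93 1 1 1 1 1 1 1 1) muQ true false 64 RtB19_7.Cx RtB19_7.CX RtB19_7.Ctp.right.right RtB19_7.Ce.right.right RtB19_7.CTn.left.left.left RtB19_7.CEr.left.right 0x5a = true := by decide +kernel

theorem cB19_7_1_28 : chunkOkM (LB19_7.ctx true false 93 1 1 1 1 1 1 1 1) muQ true false 64 RtB19_7.Cx RtB19_7.CX RtB19_7.Ctp.right.right RtB19_7.Ce.right.right RtB19_7.CTn.left.left.left RtB19_7.CEr.right 0x52 = true := by decide +kernel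

theorem cB19_7_1_29 : chunkOkM (LB19_7.ctx true false 93 1 1 1 1 1 1 1 1) muQ true false 64 RtB19_7.Cx RtB19_7.CX RtB19_7.Ctp.right.right RtB19_7.Ce.right.right RtB19_7.CTn.left.left.right RtB19_7.CEr 0x5a = true := by decide +kernel

theorem cB19_7_1_30 : chunkOkM (LB19_7.ctx true false 93 1 1 1 1 1 1 1 1) muQ true false 64 RtB19_7.Cx RtB19_7.CX RtB19_7.Ctp.right.right RtB19_7.Ce.right.right RtB19_7.CTn.left.right RtB19_7.CEr 0x5a = true := by decide +kernel

theorem cB19_7_1_31 : chunkOkM (LB19_7.ctx true false 93 1 1 1 1 1 1 1 1) muQ true false 64 RtB19_7.Cx RtB19_7.CX RtB19_7.Ctp.right.right RtB19_7.Ce.right.right RtB19_7.CTn.right RtB19_7.CEr 0x5a = true := by decide +kernel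

theorem cB19_7_0_0 : chunkOkM (LB19_7.ctx false false 93 1 1 1 1 1 1 1 1) muQ false false 64 RtB19_7.Cx RtB19_7.CX RtB19_7.Ctn RtB19_7.Ce RtB19_7.CTn RtB19_7.CEr 0x49 = true := by decide +kernel

end Vale.Agent.helper4.Q4
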