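import Vale.Agent.helper4.Q4TreeM
import Vale.Agent.helper4.Q4G.PB19_7_0
import Vale.Agent.helper4.Q4G.PB19_7_1
import Vale.Agent.helper4.Q4G.PB19_7_2

/-!
Checks for pairs of intervals of second moments.
-/

set_option maxRecDepth 100000
set_option linter.unusedVariables false

namespace Vale.Agent.helper4.Q4

theorem covB19_7 : LB19_7.Full muQ.val RtB19_7 := ⟨(LitT.Cov.split_t (LitT.cov_of_chunkM cB19_7_3_0) (LitT.Cov.split_e (LitT.cov_of_chunkM cB19_7_3_1) (LitT.Cov.split_t (LitT.cov_of_chunkM cB19_7_3_2) (LitT.Cov.split_e (LitT.cov_of_chunkM cB19_7_3_3) (LitT.Cov.split_e (LitT.Cov.split_t (LitT.Cov.split_t (LitT.cov_of_chunkM cB19_7_3_4) (LitT.Cov.split_e (LitT.cov_of_chunkM cB19_7_3_5) (LitT.Cov.split_e (LitT.cov_of_chunkM cB19_7_3_6) (LitT.Cov.split_t (LitT.cov_of_chunkM cB19_7_3_7) (LitT.Cov.split_x (LitT.Cov.split_e (LitT.Cov.split_t (LitT.cov_of_chunkM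 cB19_7_3_8) (LitT.cov_of_chunkM cB19_7_3_9)) (LitT.Cov.split_t (LitT.cov_of_chunkM cB19_7_3_10) (LitT.cov_of_chunkM cB19_7_3_11))) (LitT.cov_of_chunkM cB19_7_3_12)))))) (LitT.cov_of_chunkM cB19_7_3_13)) (LitT.Cov.split_t (LitT.Cov.split_t (LitT.cov_of_chunkM cB19_7_3_14) (LitT.Cov.split_e (LitT.Cov.split_e (LitT.Cov.split_t (LitT.cov_of_chunkM cB19_7_3_15) (LitT.Cov.split_x (LitT.cov_of_chunkM cB19_7_3_16) (LitT.cov_of_chunkM cB19_7_3_17))) (LitT.cov_of_chunkM cB19_7_3_18)) (LitT.cov_of_chunkM cB19_7_3_19))) (LitT.Cov.split_t (LitT.Cov.split_e (LitT.Cov.split_e (LitT.Cov.split_x (LitT.cov_of_chunkM cB19_7_3_20) (LitT.cov_of_chunkM cB19_7_3_21)) (LitT.Cov.split_x (LitT.cov_of_chunkM cB19_7_3_22) (LitT.Cov.split_t (LitT.Cov.split_e (LitT.Cov.split_t (LitT.cov_of_chunkM cB19_7_3_23) (LitT.cov_of_chunkM cB19_7_3_24)) (LitT.cov_of_chunkM cB19_7_3_25)) (LitT.cov_of_chunkM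 cB19_7_3_26)))) (LitT.cov_of_chunkM cB19_7_3_27)) (LitT.cov_of_chunkM cB19_7_3_28)))))))), (LitT.Cov.split_t (LitT.cov_of_chunkM cB19_7_1_0) (LitT.Cov.split_e (LitT.cov_of_chunkM cB19_7_1_1) (LitT.Cov.split_t (LitT.cov_of_chunkM cB19_7_1_2) (LitT.Cov.split_e (LitT.cov_of_chunkM cB19_7_1_3) (LitT.Cov.split_T (LitT.Cov.split_T (LitT.Cov.split_T (LitT.Cov.split_E (LitT.Cov.split_E (LitT.Cov.split_E (LitT.Cov.split_E (LitT.Cov.split_e (LitT.Cov.split_t (LitT.Cov.split_t (LitT.cov_of_chunkM cB19_7_1_4) (LitT.Cov.split_e (LitT.cov_of_chunkM cB19_7_1_5) (LitT.Cov.split_e (LitT.cov_of_chunkM cB19_7_1_6) (LitT.Cov.split_t (LitT.cov_of_chunkM cB19_7_1_7) (LitT.Cov.split_x (LitT.Cov.split_e (LitT.cov_of_chunkM cB19_7_1_8) (LitT.cov_of_chunkM cB19_7_1_9)) (LitT.cov_of_chunkM cB19_7_1_10)))))) (LitT.cov_of_chunkM cB19_7_1_11)) (LitT.Cov.split_t (LitT.Cov.split_t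 (LitT.cov_of_chunkM cB19_7_1_12) (LitT.Cov.split_e (LitT.Cov.split_e (LitT.Cov.split_t (LitT.cov_of_chunkM cB19_7_1_13) (LitT.Cov.split_x (LitT.cov_of_chunkM cB19_7_1_14) (LitT.cov_of_chunkM cB19_7_1_15))) (LitT.cov_of_chunkM cB19_7_1_16)) (LitT.cov_of_chunkM cB19_7_1_17))) (LitT.Cov.split_t (LitT.Cov.split_e (LitT.Cov.split_e (LitT.cov_of_chunkM cB19_7_1_18) (LitT.Cov.split_x (LitT.cov_of_chunkM cB19_7_1_19) (LitT.Cov.split_t (LitT.Cov.split_e (LitT.cov_of_chunkM cB19_7_1_20) (LitT.cov_of_chunkM cB19_7_1_21)) (LitT.cov_of_chunkM cB19_7_1_22)))) (LitT.cov_of_chunkM cB19_7_1_23)) (LitT.cov_of_chunkM cB19_7_1_24)))) (LitT.cov_of_chunkM cB19_7_1_25)) (LitT.cov_of_chunkM cB19_7_1_26)) (LitT.cov_of_chunkM cB19_7_1_27)) (LitT.cov_of_chunkM cB19_7_1_28)) (LitT.cov_of_chunkM cB19_7_1_29)) (LitT.cov_of_chunkM cB19_7_1_30)) (LitT.cov_of_chunkM cB19_7_1_31)))))),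 (LitT.cov_of_chunkM cB19_7_2_0), (LitT.cov_of_chunkM cB19_7_0_0)⟩

end Vale.Agent.helper4.Q4
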