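import Vale.Agent.helper4.Q4TreeM
import Vale.Agent.helper4.Q4G.PB19_8

/-!
Checks for pairs of intervals of second moments.
-/

set_option maxRecDepth 100000
set_option linter.unusedVariables false

namespace Vale.Agent.helper4.Q4

theorem cB19_8_3_0 : chunkOkM (LB19_8.ctx true true 107 1 1 1 1 1 1 1 1) muQ true true 64 RtB19_8.Cx RtB19_8.CX RtB19_8.Ctp.left RtB19_8.Ce RtB19_8.CTp RtB19_8.CEr 0x41 = true := by decide +kernel

theorem cB19_8_3_1 : chunkOkM (LB19_8.ctx true true 107 1 1 1 1 1 1 1 1) muQ true true 64 RtB19_8.Cx RtB19_8.CX RtB19_8.Ctp.right RtB19_8.Ce.left RtB19_8.CTp RtB19_8.CEr 0x69 = true := by decide +kernel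

theorem cB19_8_3_2 : chunkOkM (LB19_8.ctx true true 107 1 1 1 1 1 1 1 1) muQ true true 64 RtB19_8.Cx RtB19_8.CX RtB19_8.Ctp.right.left RtB19_8.Ce.right RtB19_8.CTp RtB19_8.CEr 0x49 = true := by decide +kernel

theorem cB19_8_3_3 : chunkOkM (LB19_8.ctx true true 107 1 1 1 1 1 1 1 1) muQ true true 64 RtB19_8.Cx RtB19_8.CX RtB19_8.Ctp.right.right RtB19_8.Ce.right.left RtB19_8.CTp RtB19_8.CEr 0x69 = true := by decide +kernel

theorem cB19_8_3_4 : chunkOkM (LB19_8.ctx true true 107 1 1 1 1 1 1 1 1) muQ true true 64 RtB19_8.Cx RtB19_8.CX RtB19_8.Ctp.right.right.left.left RtB19_8.Ce.right.right.left RtB19_8.CTp RtB19_8.CEr 0x49 = true := by decide +kernel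

theorem cB19_8_3_5 : chunkOkM (LB19_8.ctx true true 107 1 1 1 1 1 1 1 1) muQ true true 64 RtB19_8.Cx RtB19_8.CX RtB19_8.Ctp.right.right.left.right RtB19_8.Ce.right.right.left.left RtB19_8.CTp RtB19_8.CEr 0x69 = true := by decide +kernel

theorem cB19_8_3_6 : chunkOkM (LB19_8.ctx true true 107 1 1 1 1 1 1 1 1) muQ true true 64 RtB19_8.Cx RtB19_8.CX RtB19_8.Ctp.right.right.left.right.left.left RtB19_8.Ce.right.right.left.right.left RtB19_8.CTp RtB19_8.CEr 0x49 = true := by decide +kernel

theorem cB19_8_3_7 : chunkOkM (LB19_8.ctx true true 107 1 1 1 1 1 1 1 1) muQ true true 64 RtB19_8.Cx RtB19_8.CX RtB19_8.Ctp.right.right.left.right.left.right RtB19_8.Ce.right.right.left.right.left.left RtB19_8.CTp RtB19_8.CEr 0x69 = true := by decide +kernel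

theorem cB19_8_3_8 : chunkOkM (LB19_8.ctx true true 258 145 64 9 16 854 2989 2 16) muQ true true 64 RtB19_8.Cx.left.left RtB19_8.CX RtB19_8.Ctp.right.right.left.right.left.right RtB19_8.Ce.right.right.left.right.left.right.left RtB19_8.CTp RtB19_8.CEr 0xd3032777fd2a71e4ef8f82735b16719f69ae566cd49f540d49ec65c257fd28ce8bf48f81e9a18fa0baf6f0ef60a6a9f545d1119429f450d76944933 = true := by decide +kernel

theorem cB19_8_3_9 : chunkOkM (LB19_8.ctx true true 264 289 128 9 16 854 3003 2 16) muQ true true 64 RtB19_8.Cx.left.left RtB19_8.CX RtB19_8.Ctp.right.right.left.right.left.right.left RtB19_8.Ce.right.right.left.right.left.right.right RtB19_8.CTp RtB19_8.CEr 0x494959e71cd9c7fd2aeb53d58f81e364ad695af6101d51eb00af54fad26c8a9f450d477493 = true := by decide +kernel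

theorem cB19_8_3_10 : chunkOkM (LB19_8.ctx true true 267 291 128 9 16 862 3003 2 16) muQ true true 64 RtB19_8.Cx.left.left.left RtB19_8.CX RtB19_8.Ctp.right.right.left.right.left.right.right RtB19_8.Ce.right.right.left.right.left.right.right.left RtB19_8.CTp RtB19_8.CEr 0x14be5a5e8fd2c8966908f89619d47549f530d1e19c41a8fd6a35b29adffbf65071975ee6cbf430d1008e9a18fd27df54838f819e7a03e85af6ef81f5f259f5f9a0e1f7f450d73 = true := by decide +kernel

theorem cB19_8_3_11 : chunkOkM (LB19_8.ctx true true 271 291 128 9 16 1718 6041 2 16) muQ true true 64 RtB19_8.Cx.left.left.left RtB19_8.CX RtB19_8.Ctp.right.right.left.right.left.right.right RtB19_8.Ce.right.right.left.right.left.right.right.right RtB19_8.CTp RtB19_8.CEr 0x117ea1ea8fd2f13dee98f812d03ec2d5af6c15fa08a49f540d14a445dc8fd28bc228b8f81a74dca7dcaf6dac2191219f540d7f2ee9537fd2b8fa18a8f828a2f06ce0af610198bae7baf52e30fb1a59f450df5659a97fd2dac83638f8ab423be5e9f6bbfc825499f52575f88359f450d4493106696328fd2b64d3c98f824765cb4e8af6100cdfb472af540d73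 = true := by decide +kernel

theorem cB19_8_3_12 : chunkOkM (LB19_8.ctx true true 251 147 64 9 16 430 1505 2 16) muQ true true 64 RtB19_8.Cx.left.left.right RtB19_8.CX RtB19_8.Ctp.right.right.left.right.left.right.right RtB19_8.Ce.right.right.left.right.left.right.right RtB19_8.CTp RtB19_8.CEr 0x24df9e0fc4af04b = true := by decide +kernel

theorem cB19_8_3_13 : chunkOkM (LB19_8.ctx true true 107 1 1 1 1 1 1 1 1) muQ true true 64 RtB19_8.Cx.left.right RtB19_8.CX RtB19_8.Ctp.right.right.left.right.left.right RtB19_8.Ce.right.right.left.right.left.right RtB19_8.CTp RtB19_8.CEr 0x49 = true := by decide +kernel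

theorem cB19_8_3_14 : chunkOkM (LB19_8.ctx true true 107 1 1 1 1 1 1 1 1) muQ true true 64 RtB19_8.Cx.right RtB19_8.CX RtB19_8.Ctp.right.right.left.right.left.right RtB19_8.Ce.right.right.left.right.left.right RtB19_8.CTp RtB19_8.CEr 0x49 = true := by decide +kernel

theorem cB19_8_3_15 : chunkOkM (LB19_8.ctx true true 258 145 64 9 16 866 3017 2 16) muQ true true 64 RtB19_8.Cx RtB19_8.CX RtB19_8.Ctp.right.right.left.right.right RtB19_8.Ce.right.right.left.right.left RtB19_8.CTp RtB19_8.CEr 0x1111116969691b44ef838fd30ef8ce68f83ad7f2b0e9f696472451c9f540d376943769431147 = true := by decide +kernel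

theorem cB19_8_3_16 : chunkOkM (LB19_8.ctx true true 107 1 1 1 1 1 1 1 1) muQ true true 64 RtB19_8.Cx RtB19_8.CX RtB19_8.Ctp.right.right.left.right.left.left RtB19_8.Ce.right.right.left.right.right RtB19_8.CTp RtB19_8.CEr 0x49 = true := by decide +kernel

theorem cB19_8_3_17 : chunkOkM (LB19_8.ctx true true 245 73 32 9 16 426 1519 2 16) muQ true true 64 RtB19_8.Cx.left.left RtB19_8.CX RtB19_8.Ctp.right.right.left.right.left.right.left RtB19_8.Ce.right.right.left.right.right.left.left RtB19_8.CTp RtB19_8.CEr 0x27739574b5af5cb3dcd5550af420d = true := by decide +kernel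

theorem cB19_8_3_18 : chunkOkM (LB19_8.ctx true true 283 583 256 9 16 1726 6069 4 16) muQ true true 64 RtB19_8.Cx.left.left.left RtB19_8.CX RtB19_8.Ctp.right.right.left.right.left.right.right RtB19_8.Ce.right.right.left.right.right.left.left.left RtB19_8.CTp RtB19_8.CEr 0xecf5c4a7fd27b49d0b8f8328246eef6af611a2373427af540dff36ec87fd2785da348f84e2cac0db7af61406f885e0af540d7e556f077fd29f2c4ee8f8355a320d00af6128cecb54baf52314f5d089f450d3221178718fd1a1967fb8f81d3b2978e6af61034c947a7af540dba1c46d609f05b54130e9fdd8fd287d194b8f8214b2c8ca7af6f2d0f9d6a9f540d71a41d4b48fd14bbaa4b8f856c50a553aaf62927e7d8efbbf5a6963f767aabf450d3 = true := by decide +kernel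

theorem cB19_8_3_19 : chunkOkM (LB19_8.ctx true true 255 145 64 9 16 430 3045 2 16) muQ true true 64 RtB19_8.Cx.left.left.left RtB19_8.CX RtB19_8.Ctp.right.right.left.right.left.right.right RtB19_8.Ce.right.right.left.right.right.left.left.right RtB19_8.CTp RtB19_8.CEr 0xefefe7e7fd27bbbc668f855b1d6c19faf6180f78829daf540d = true := by decide +kernel

theorem cB19_8_3_20 : chunkOkM (LB19_8.ctx true true 283 585 256 9 16 1726 6097 4 16) muQ true true 64 RtB19_8.Cx.left.left.right RtB19_8.CX RtB19_8.Ctp.right.right.left.right.left.right.right RtB19_8.Ce.right.right.left.right.right.left.left RtB19_8.CTp RtB19_8.CEr 0x4949120cd6038fd2fba7b9e8f8353140b427dbf5d9f9461c8d6bf440dd26d5507fd37a198788f837abeebcf1af6145e42cd51af5961dca248f450dadb5193109f05b5477eb1251b7fd281f0cb98f87dd3542cc9f6b0a758e619f52e159f6a19f450d4493493 = true := by decide +kernel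

theorem cB19_8_3_21 : chunkOkM (LB19_8.ctx true true 242 73 32 9 16 214 1533 2 16) muQ true true 64 RtB19_8.Cx.left.left RtB19_8.CX RtB19_8.Ctp.right.right.left.right.left.right RtB19_8.Ce.right.right.left.right.right.left.right RtB19_8.CTp RtB19_8.CEr 0x27a8f7548fd5f4e886f8f81428e244becbf55181c48ab51bf440d = true := by decide +kernel

theorem cB19_8_3_22 : chunkOkM (LB19_8.ctx true true 107 1 1 1 1 1 1 1 1) muQ true true 64 RtB19_8.Cx.left.left RtB19_8.CX RtB19_8.Ctp.right.right.left.right.left.right RtB19_8.Ce.right.right.left.right.right.right RtB19_8.CTp RtB19_8.CEr 0x59 = true := by decide +kernel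

theorem cB19_8_3_23 : chunkOkM (LB19_8.ctx true true 107 1 1 1 1 1 1 1 1) muQ true true 64 RtB19_8.Cx.left.right RtB19_8.CX RtB19_8.Ctp.right.right.left.right.left.right RtB19_8.Ce.right.right.left.right.right RtB19_8.CTp RtB19_8.CEr 0x49 = true := by decide +kernel

theorem cB19_8_3_24 : chunkOkM (LB19_8.ctx true true 107 1 1 1 1 1 1 1 1) muQ true true 64 RtB19_8.Cx.right RtB19_8.CX RtB19_8.Ctp.right.right.left.right.left.right RtB19_8.Ce.right.right.left.right.right RtB19_8.CTp RtB19_8.CEr 0x49 = true := by decide +kernel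

theorem cB19_8_3_25 : chunkOkM (LB19_8.ctx true true 272 291 128 9 16 870 6069 4 16) muQ true true 64 RtB19_8.Cx.left.left.left RtB19_8.CX RtB19_8.Ctp.right.right.left.right.right.left.left RtB19_8.Ce.right.right.left.right.right.left.left.left RtB19_8.CTp RtB19_8.CEr 0x6913ae6ece8fd26d1f61b8f81f8947931caf6e3bf5dd5b9f540d12e9c7bb8fd27a5af168f840981a1259f6a577260d99f540d43224cc8068fd27a161878f81d3f442216af6b3685d1f79f540d9d1e4214f9f05b5172862f38fd27adc40e8f826c54e3c1caf6de194c1f79f540d180f52c98fd26ed65e08f81e01f82580af6ccf0a110c9f540d437 = true := by decide +kernel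

theorem cB19_8_3_26 : chunkOkM (LB19_8.ctx true true 278 579 256 9 16 870 6097 4 16) muQ true true 64 RtB19_8.Cx.left.left.left.left RtB19_8.CX RtB19_8.Ctp.right.right.left.right.right.left.left RtB19_8.Ce.right.right.left.right.right.left.left.right RtB19_8.CTp RtB19_8.CEr 0x22b599108fdf526b667f82d4bc8c7f1af6cdb1e4dd79f540d597225a888c8fd2d2ec1ff8f82317d1ae1aaf6a518a63719f540db817fef649f05b541332ef338fd22af03908f83d57f5bf09f610e038e53caf540d3 = true := by decide +kernel

theorem cB19_8_3_27 : chunkOkM (LB19_8.ctx true true 272 291 128 9 16 870 6097 4 16) muQ true true 64 RtB19_8.Cx.left.left.left.right RtB19_8.CX RtB19_8.Ctp.right.right.left.right.right.left.left RtB19_8.Ce.right.right.left.right.right.left.left.right RtB19_8.CTp RtB19_8.CEr 0x1c6521408fd2d01824b8f828648a8d8daf6ce82daf6b9f540da90a5ce819f05b518559bf38fd2bfa815a8f81b9adaf269af6afbf120b19f540d41336ab378fd27db1a2d8f822fa51edbaaf6f59968c489f540d1bed116b8fd23df47878f8553ad4fb6caf6f4ed0d4d69f540dbe0f02cb09f05b543 =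 true := by decide +kernel

end Vale.Agent.helper4.Q4
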