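import Vale.Agent.helper4.Q4TreeM
import Vale.Agent.helper4.Q4G.PB19_8

/-!
Checks for pairs of intervals of second moments.
-/

set_option maxRecDepth 100000
set_option linter.unusedVariables false

namespace Vale.Agent.helper4.Q4

theorem cB19_8_3_28 : chunkOkM (LB19_8.ctx true true 272 293 128 9 16 870 6097 4 16) muQ true true 64 RtB19_8.Cx.left.left.right RtB19_8.CX RtB19_8.Ctp.right.right.left.right.right.left.left RtB19_8.Ce.right.right.left.right.right.left.left RtB19_8.CTp RtB19_8.CEr 0x1d0cf48b8f06c69243eb1fd8fd1f6e50ce8f839cd0fc373af61206787600af540dadfa85bfe9f05b510b049788fd2d7f28f18f838c8cea209f6a3c1fb3bb9f540d473694 = true := by decide +kernel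

theorem cB19_8_3_29 : chunkOkM (LB19_8.ctx true true 254 145 64 9 16 438 3031 2 16) muQ true true 64 RtB19_8.Cx.left.left.left RtB19_8.CX RtB19_8.Ctp.right.right.left.right.right.left.right RtB19_8.Ce.right.right.left.right.right.left.left.left RtB19_8.CTp RtB19_8.CEr 0x24f6a73e8fd204707576c224a51848f8eab7e81c79f67e7d2b85f9f550d = true := by decide +kernel

theorem cB19_8_3_30 : chunkOkM (LB19_8.ctx true true 272 291 128 9 16 878 6097 4 16) muQ true true 64 RtB19_8.Cx.left.left.left RtB19_8.CX RtB19_8.Ctp.right.right.left.right.right.left.right RtB19_8.Ce.right.right.left.right.right.left.left.right RtB19_8.CTp RtB19_8.CEr 0x23ef11598fda5c6a307f8d91afac6e9f690b57c7b49f540d26fabcf58fd2f4f45708f88cd1132939f6872e326799f540ddc65e0e7fd2bcea6c76c1fa1caa8dfaf6a22c887159f540d52452d6c68fd2c1777228f8221bc14490af6a1604064b9f540d2c2605a7fd1312eb276c261564179b346d457db7af6b0cf7cc419f550d5271675568fd2cb006868f8e799a27c29f69473c2c119f540d80984e2969f05b5437 = true := by decide +kernel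

theorem cB19_8_3_31 : chunkOkM (LB19_8.ctx true true 107 1 1 1 1 1 1 1 1) muQ true true 64 RtB19_8.Cx.left.left.right RtB19_8.CX RtB19_8.Ctp.right.right.left.right.right.left.right RtB19_8.Ce.right.right.left.right.right.left.left RtB19_8.CTp RtB19_8.CEr 0x69 = true := by decide +kernel

theorem cB19_8_3_32 : chunkOkM (LB19_8.ctx true true 272 291 128 9 16 870 6125 4 16) muQ true true 64 RtB19_8.Cx.left.left.left RtB19_8.CX RtB19_8.Ctp.right.right.left.right.right.left.left RtB19_8.Ce.right.right.left.right.right.left.right RtB19_8.CTp RtB19_8.CEr 0x5917e0cf848fd215d65a98f836c6db00fbaf61042b4296daf540d187f52f38fd2e838b4b8f8198080e3aeaf6e0895ceda9f540dc113a5f399f05b545935974 = true := by decide +kernel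

theorem cB19_8_3_33 : chunkOkM (LB19_8.ctx true true 308 2319 1024 9 16 7006 24479 4 16) muQ true true 64 RtB19_8.Cx.left.left.left.left RtB19_8.CX RtB19_8.Ctp.right.right.left.right.right.left.right.left RtB19_8.Ce.right.right.left.right.right.left.right.left RtB19_8.CTp RtB19_8.CEr 0x59592a8102148fd1538969c8f8122894543daf530d055935974593597459359722286be58fd24498fa78f839866f7413af6d2ec812569f540dbb13536489f05b54 = true := by decide +kernel

theorem cB19_8_3_34 : chunkOkM (LB19_8.ctx true true 272 289 128 9 16 878 6125 4 16) muQ true true 64 RtB19_8.Cx.left.left.left.left RtB19_8.CX RtB19_8.Ctp.right.right.left.right.right.left.right.right RtB19_8.Ce.right.right.left.right.right.left.right.left RtB19_8.CTp RtB19_8.CEr 0x2ae817448fd312197aa8f8176062527aaf693b5242da9f540db33d8ae7fd328b03d76c1363872406af6a772ec3fd9f540d52a45e72b8fd2d810d7d8f820623dd92faf684dc3d3899f540d234f49c18fd5f33d2676c248a676fe2af6a548156ca9f540d54 = true := by decide +kernel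

theorem cB19_8_3_35 : chunkOkM (LB19_8.ctx true true 272 291 128 9 16 878 6125 4 16) muQ true true 64 RtB19_8.Cx.left.left.left.right RtB19_8.CX RtB19_8.Ctp.right.right.left.right.right.left.right RtB19_8.Ce.right.right.left.right.right.left.right.left RtB19_8.CTp RtB19_8.CEr 0x251ac14b8fd320760118f84452c37949f68fbb54eac9f540d5979f8e829f05b529231d9b8fd2238de388f828eb5258f4af6d17ae2a319f540db016e006d9f05b52575f9858fd310a61dd8f89f3f67f769f69db4a260f9f540d8cc8057a49f05b543 = true := by decide +kernel

theorem cB19_8_3_36 : chunkOkM (LB19_8.ctx true true 282 579 256 9 16 1758 6139 4 16) muQ true true 64 RtB19_8.Cx.left.left.left.left RtB19_8.CX RtB19_8.Ctp.right.right.left.right.right.left.right RtB19_8.Ce.right.right.left.right.right.left.right.right RtB19_8.CTp RtB19_8.CEr 0x59261bbec48fd2efbc7888f828fe782b8daf6999deab8e9f540daec9a8d7fd315ffba76c298a0a1157af6b1d724d2f9f540d55935974593 = true := by decide +kernel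

theorem cB19_8_3_37 : chunkOkM (LB19_8.ctx true true 278 583 256 9 16 878 6153 4 16) muQ true true 64 RtB19_8.Cx.left.left.left.right RtB19_8.CX RtB19_8.Ctp.right.right.left.right.right.left.right RtB19_8.Ce.right.right.left.right.right.left.right.right RtB19_8.CTp RtB19_8.CEr 0x259cb0ec8fd309ff15c8f824d3f3bd2faf6a3a6c65fe9f540db4320418b9f05b524f3155d8fd25c10b368f8383497bce9af6b127e104c9f540d9cb03116a9f05b54591a81dad68fd3a012f3a8f828c6465ab8af6be5c36ab09f540db97fb49ea9f05b526892fd98fd636c9b66c116ad6d98caf530d743 = true := by decide +kernel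

theorem cB19_8_3_38 : chunkOkM (LB19_8.ctx true true 288 1173 512 9 16 1734 6111 4 16) muQ true true 64 RtB19_8.Cx.left.left.right.left RtB19_8.CX RtB19_8.Ctp.right.right.left.right.right.left.left.left RtB19_8.Ce.right.right.left.right.right.left.right.left.left RtB19_8.CTp RtB19_8.CEr 0x1f459cf08fd16e2ff3b8f827685aa05daf6121b1dfc01af540db4372d5e19f05b54910f0103e8fd3ad98cc48f83886482f3faf611eee7c73baf53db919fc29f450dc69808be39f05b57ef4baf17fd287838018f8af6c616a8faf61fc60db7e7af540d73 = true := by decide +kernel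

end Vale.Agent.helper4.Q4
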