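import Vale.Agent.helper4.Q4TreeM
import Vale.Agent.helper4.Q4G.PB19_8

/-!
Checks for pairs of intervals of second moments.
-/

set_option maxRecDepth 100000
set_option linter.unusedVariables false

namespace Vale.Agent.helper4.Q4

theorem cB19_8_3_137 : chunkOkM (LB19_8.ctx true true 285 599 256 9 16 1810 6391 4 32) muQ true true 64 RtB19_8.Cx.left.right.left RtB19_8.CX RtB19_8.Ctp.right.right.right.left.left.left RtB19_8.Ce.right.right.right.left.left.right.left RtB19_8.CTp RtB19_8.CEr 0x21010149ce85c28fdfeeeaa676c64318b158f8c566b6fec9f6102c283efeaf250d6a644f059476c268b77979b35330dfba9af618361355d8af240d53369586418058fd8907d7676c1c504b33c0af6792a144999f540d6a6469485976c10f05f479b3a22619529af690b966e6d9f540d5459332172174 = true := by decide +kernel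

theorem cB19_8_3_138 : chunkOkM (LB19_8.ctx true true 272 303 128 9 16 902 3199 4 32) muQ true true 64 RtB19_8.Cx.left.right.right RtB19_8.CX RtB19_8.Ctp.right.right.right.left.left.left.left RtB19_8.Ce.right.right.right.left.left.right.left.left RtB19_8.CTp RtB19_8.CEr 0x368ae6948fde42b8366c7d2c0171f9f6b0f90a8a29f540d6a64c6344d76c4713cc69b27763d722eaf6a65359d079f540d55b489fbc8fd1130428286c53eb82b58f88b24bf52a9f69a5e226a19f550d6a676cf8b076c2ff163758f8106035c8a1af6ae70b2f229f540d53f241d938fd5bb49ce76cd1e5316e49f6ac73c7bd29f540d6a64516f7f76c22c1398fb6af6bfb635d619f530d537 = true := by decide +kernel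

theorem cB19_8_3_139 : chunkOkM (LB19_8.ctx true true 281 603 256 9 16 902 6419 4 32) muQ true true 64 RtB19_8.Cx.left.right.right RtB19_8.CX RtB19_8.Ctp.right.right.right.left.left.left.left RtB19_8.Ce.right.right.right.left.left.right.left.right RtB19_8.CTp RtB19_8.CEr 0x353e75f18fd2fa482776c45786ec022af6bc7920d949f540d6a663bd46276c439fdc69b211caeed8f81b004b0c47af6af6a2ef329f550d5d02d56f739f05b6a65fa38d776c43ff16945aaf6106525d947af530d53594ba3b0188fd21c85dca86cd1b5ee0e8f81e4673b767af6b23c8949f9f550d6a6511c1f276c36219f3ea6af6a19c751fd9f530d569745937 = true := by decide +kernel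

theorem cB19_8_3_140 : chunkOkM (LB19_8.ctx true true 268 303 128 9 16 454 3213 4 32) muQ true true 64 RtB19_8.Cx.left.right.right RtB19_8.CX RtB19_8.Ctp.right.right.right.left.left.left.right RtB19_8.Ce.right.right.right.left.left.right.left RtB19_8.CTp RtB19_8.CEr 0x6102001e8fd558effa76c89b2aa5749f6786a4f8179f51a266cb219f250d6a655f47cd76c2b59b2727aaf678e0c36e99f530d95c40747fd4dcb77b76c43e86769b1a4689dfa6af67332a9f1a9f538f0cc1e69f260d75626023038fd8d254c67c1d3217a366af66eb2764329f5d8966edd8f250d6a6431e78476c1352256ab1c690f09c4af67598fb89f9f530ed98d799f250d54 = true := by decide +kernel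

theorem cB19_8_3_141 : chunkOkM (LB19_8.ctx true true 107 1 1 1 1 1 1 1 1) muQ true true 64 RtB19_8.Cx.left.right.left RtB19_8.CX RtB19_8.Ctp.right.right.right.left.left.left RtB19_8.Ce.right.right.right.left.left.right.right RtB19_8.CTp RtB19_8.CEr 0x21 = true := by decide +kernel

theorem cB19_8_3_142 : chunkOkM (LB19_8.ctx true true 281 607 256 9 16 902 6447 4 32) muQ true true 64 RtB19_8.Cx.left.right.right RtB19_8.CX RtB19_8.Ctp.right.right.right.left.left.left.left RtB19_8.Ce.right.right.right.left.left.right.right RtB19_8.CTp RtB19_8.CEr 0x595946665ec58fd6e7303d76c29827b9099af6c956b0bff9f540d6a6458ac3c76cab286969b22d576506caf69beca98439f540d559745935974 = true := by decide +kernel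

theorem cB19_8_3_143 : chunkOkM (LB19_8.ctx true true 309 2431 1024 9 16 3630 25879 4 32) muQ true true 64 RtB19_8.Cx.left.right.right RtB19_8.CX RtB19_8.Ctp.right.right.right.left.left.left.right RtB19_8.Ce.right.right.right.left.left.right.right RtB19_8.CTp RtB19_8.CEr 0x5bd288e18fd66d9fe076c1bece694c3af671163ff8b9f540d6a6164a1a148fd7d43c8876c17a796d4c2af6906dfbbab9f540d55959692bf1505f8fd37a3ea918f82629369f291bf630d61f131b76c2679ff079bf47d0de52daf630d569745935974593432172174e2f26bf8fd7da9e0976c7dfc05d479f69a9102b879f51c8fcfeb19f250d6a66ebc93f76c3c825e69b1bd0d9618f81c89677716af692cc482179f5c91efddd8f260d59ce11b76c135a75779b2e9e4552d0af68ed6549ce9f565f1bf3669f250d754 = true := by decide +kernel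

theorem cB19_8_3_144 : chunkOkM (LB19_8.ctx true true 107 1 1 1 1 1 1 1 1) muQ true true 64 RtB19_8.Cx.left RtB19_8.CX RtB19_8.Ctp.right.right.right.left.left.right RtB19_8.Ce.right.right.right.left.left RtB19_8.CTp RtB19_8.CEr 0x01 = true := by decide +kernel

theorem cB19_8_3_145 : chunkOkM (LB19_8.ctx true true 107 1 1 1 1 1 1 1 1) muQ true true 64 RtB19_8.Cx.left RtB19_8.CX RtB19_8.Ctp.right.right.right.left.right RtB19_8.Ce.right.right.right.left.left RtB19_8.CTp RtB19_8.CEr 0x01 = true := by decide +kernel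

theorem cB19_8_3_146 : chunkOkM (LB19_8.ctx true true 107 1 1 1 1 1 1 1 1) muQ true true 64 RtB19_8.Cx.right RtB19_8.CX RtB19_8.Ctp.right.right.right.left.left RtB19_8.Ce.right.right.right.left.left.left RtB19_8.CTp RtB19_8.CEr 0x69 = true := by decide +kernel

theorem cB19_8_3_147 : chunkOkM (LB19_8.ctx true true 262 153 64 9 16 450 3213 4 32) muQ true true 64 RtB19_8.Cx.right.left RtB19_8.CX RtB19_8.Ctp.right.right.right.left.left.left RtB19_8.Ce.right.right.right.left.left.right.left RtB19_8.CTp RtB19_8.CEr 0x6969201ba68b8fd164967044caf6c6eb07d729f530d6a64c4ac9276c2f4610108f813ff793bf0af6b55e27d9e9f540d51ff2a2788fd3b969e408f8880981f2e9f6a5011ce059f540d05473 = true := by decide +kernel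

theorem cB19_8_3_148 : chunkOkM (LB19_8.ctx true true 272 305 128 9 16 902 3227 4 32) muQ true true 64 RtB19_8.Cx.right.left.left.left RtB19_8.CX RtB19_8.Ctp.right.right.right.left.left.left.left RtB19_8.Ce.right.right.right.left.left.right.right.left RtB19_8.CTp RtB19_8.CEr 0x4489a6108fd5e9ffad76cdd9bf352e9f6c5a1446e99f540d6a692cab8776c3fafc5298f813340fc953af6d8494b9a49f540d5db5c229339f05b6a691037ac76c5070e7308f8213efec3a0af6ef8448cc59f540d53 = true := by decide +kernel

theorem cB19_8_3_149 : chunkOkM (LB19_8.ctx true true 272 307 128 9 16 902 3227 4 32) muQ true true 64 RtB19_8.Cx.right.left.left.right RtB19_8.CX RtB19_8.Ctp.right.right.right.left.left.left.left RtB19_8.Ce.right.right.right.left.left.right.right.left RtB19_8.CTp RtB19_8.CEr 0x27ca0ba88fd3f95a1cc8f8952737e669f6b05ab52679f540d82ceb6c919f05b5468726718fd89710dc76c201738fcc4af6dc57533e29f540d6a678619ab76c37a0a169b50a4736c8f8106ea50c71af6d51d46b2f9f550d53 = true := by decide +kernel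

end Vale.Agent.helper4.Q4
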