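import Vale.Agent.helper4.Q4TreeM
import Vale.Agent.helper4.Q4G.PB19_8

/-!
Checks for pairs of intervals of second moments.
-/

set_option maxRecDepth 100000
set_option linter.unusedVariables false

namespace Vale.Agent.helper4.Q4

theorem cB19_8_3_163 : chunkOkM (LB19_8.ctx true true 272 311 128 9 16 910 3269 4 32) muQ true true 64 RtB19_8.Cx.right.left.right RtB19_8.CX RtB19_8.Ctp.right.right.right.left.left.left.right RtB19_8.Ce.right.right.right.left.right.left.left.right RtB19_8.CTp RtB19_8.CEr 0x5e8cfd408fd860e0667c2040bdb134af6e23d43ddc9f540d6a6281025076c252cc46ab87837237f817f9962295af6ceced5c589f550d537ee2f818fdeff58966c14a2041528af6b68cbe6019f540d6a69f86afa76c47e682158f81ff8d48866af6aeaa2a1ae9f540d53ec73c108fd38281be76c1536496938af6b3c80203d9f540d6a67e3cdf676c423ff5ba8f830b805e05faf6cb74dd5ac9f540d537 = true := by decide +kernel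

theorem cB19_8_3_164 : chunkOkM (LB19_8.ctx true true 107 1 1 1 1 1 1 1 1) muQ true true 64 RtB19_8.Cx.right.left.left RtB19_8.CX RtB19_8.Ctp.right.right.right.left.left.left RtB19_8.Ce.right.right.right.left.right.left.right RtB19_8.CTp RtB19_8.CEr 0x59 = true := by decide +kernel

theorem cB19_8_3_165 : chunkOkM (LB19_8.ctx true true 253 155 64 9 16 450 1645 2 16) muQ true true 64 RtB19_8.Cx.right.left.right RtB19_8.CX RtB19_8.Ctp.right.right.right.left.left.left.left RtB19_8.Ce.right.right.right.left.right.left.right RtB19_8.CTp RtB19_8.CEr 0x1e6faa0b8fd983bfca7f821cda6f4c28bf5a1b3589387fbf440d = true := by decide +kernel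

theorem cB19_8_3_166 : chunkOkM (LB19_8.ctx true true 336 19839 8192 9 16 14526 52423 4 32) muQ true true 64 RtB19_8.Cx.right.left.right RtB19_8.CX RtB19_8.Ctp.right.right.right.left.left.left.right.left RtB19_8.Ce.right.right.right.left.right.left.right.left RtB19_8.CTp RtB19_8.CEr 0x341be0578fd5484a866c2df2511c03af610e8bc9b56af540d6a65d4f9be76c14f418e79b2ed1fe5d8f81ec2d0f9d2af6e46ef2ec89f550d559595959236314b08fd3d06b9c28f811c77c7423af530d7dd31a93a9f05b559759759359745935974593597459359747 = true := by decide +kernel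

theorem cB19_8_3_167 : chunkOkM (LB19_8.ctx true true 272 311 128 9 16 910 3283 4 32) muQ true true 64 RtB19_8.Cx.right.left.right RtB19_8.CX RtB19_8.Ctp.right.right.right.left.left.left.right.right RtB19_8.Ce.right.right.right.left.right.left.right.left RtB19_8.CTp RtB19_8.CEr 0x41972e448fd4f6061276ca263b6ed89f6d0abec8bd9f540d6a6983b53a76c4a8c62968f81ed56f9a12af6b957ba1d29f540d52cb15a558fd16092e3686c846eccce8f817d95b69b2af6d0c56bceb9f550d6a68f32b767fda2b73d376c19953e879b516717828f823995cf328af6dfed58eda9f560d57 = true := by decide +kernel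

theorem cB19_8_3_168 : chunkOkM (LB19_8.ctx true true 272 311 128 9 16 910 3297 4 32) muQ true true 64 RtB19_8.Cx.right.left.right RtB19_8.CX RtB19_8.Ctp.right.right.right.left.left.left.right RtB19_8.Ce.right.right.right.left.right.left.right.right RtB19_8.CTp RtB19_8.CEr 0x508221ff8fd55a354b76cf8f9e7d429f6b83243d219f540d6a6bf6009676c5c9ed0618f82ecc780cb6af6fffa2e4fe9f540d5593597 = true := by decide +kernel

theorem cB19_8_3_169 : chunkOkM (LB19_8.ctx true true 262 155 64 9 16 458 3269 4 32) muQ true true 64 RtB19_8.Cx.right.left RtB19_8.CX RtB19_8.Ctp.right.right.right.left.left.right RtB19_8.Ce.right.right.right.left.right.left.left RtB19_8.CTp RtB19_8.CEr 0x146bace78f06c6a6175081718fda14f3767c1353659f8f87c8ad06319f689890d5bf9f550d501737208cb8fd9a736aa76c9014bad629f6927373b259f5181710add9f250d6a623c772e7fd92ec25c76c2c04ea3e8f8147636dd56af6922d49c1c9f53637fe8799f260d56bb84a5b8fd999ddc67c86b998a429f68c2693d819f52d373a0ac9f250d6a61bc6af4c8fd9c774e976c2db845abf32a1a2fb9f6895d380009f532b111d989f260d5437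 = true := by decide +kernel

theorem cB19_8_3_170 : chunkOkM (LB19_8.ctx true true 274 615 256 9 16 458 3283 4 32) muQ true true 64 RtB19_8.Cx.right.left.left RtB19_8.CX RtB19_8.Ctp.right.right.right.left.left.right RtB19_8.Ce.right.right.right.left.right.left.right RtB19_8.CTp RtB19_8.CEr 0x21015c708a148fd7fb8e1276c1bf77bb4b9af67d9b0c1529f540d6a699790a376c361fc4e58f81a3e678c16af69b5a8a1f49f525037d4cb9f250d532172174 = true := by decide +kernel

theorem cB19_8_3_171 : chunkOkM (LB19_8.ctx true true 269 311 128 9 16 462 3297 4 32) muQ true true 64 RtB19_8.Cx.right.left.right RtB19_8.CX RtB19_8.Ctp.right.right.right.left.left.right RtB19_8.Ce.right.right.right.left.right.left.right RtB19_8.CTp RtB19_8.CEr 0x6151dc758fd10230df98f8b935c9bb5baf126779885dd6bf040d445cb26d8fd222619876c13398eae08af6bb2da5f279f540d6a6a43bce076c3f8c254c8f8154713e1a9af6b06b3adc09f540db4a851a76cdc3c0069b44771da18f81e0f13b37baf6b69c9ffdf9f550d7560b99a618fd525d3567c69a2905ec9f69b21774479f540d6a69a2b64576c3c7aff778f8186e3390b5af6a1f0185469f540d543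 = true := by decide +kernel

theorem cB19_8_3_172 : chunkOkM (LB19_8.ctx true true 272 313 128 9 16 910 3297 4 32) muQ true true 64 RtB19_8.Cx.right.right RtB19_8.CX RtB19_8.Ctp.right.right.right.left.left.left RtB19_8.Ce.right.right.right.left.right.left RtB19_8.CTp RtB19_8.CEr 0x492f50eabe8fdf43b64bc29f6c00ad3e149f530d6a6242fc7e76c3a03516ab15b3cd49f9af6d75837c039f540d5493dc795648fd6cc4ed376ca799f44c99f6e722fa7369f5fe1e7e9e99f450d6a694bcd86fd133b00b76c3d607e079b1884e20297af6e90af7a669f5610d392589f460d5734efbae288fd13fa7067ca885cba7f9f6bddd0ce9c9f540d6a625895667c3cc92d6ab21559362a9af6e240ed3a89f54134ec14b9f450d547694493 = true := by decide +kernel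

theorem cB19_8_3_173 : chunkOkM (LB19_8.ctx true true 249 79 32 9 16 230 1645 4 32) muQ true true 64 RtB19_8.Cx.right.right RtB19_8.CX RtB19_8.Ctp.right.right.right.left.left.right RtB19_8.Ce.right.right.right.left.right.left RtB19_8.CTp RtB19_8.CEr 0x4e7d2b768fd61b2ab67c75295c5279f6b4b265bbc9f540d6a65cae7e67c16729e6ab259687608f8878b4233e9f69e497fabb9f550d5114 = true := by decide +kernel

end Vale.Agent.helper4.Q4
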