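import Vale.Agent.helper4.Q4TreeM
import Vale.Agent.helper4.Q4G.PB19_8

/-!
Checks for pairs of intervals of second moments.
-/

set_option maxRecDepth 100000
set_option linter.unusedVariables false

namespace Vale.Agent.helper4.Q4

theorem cB19_8_3_174 : chunkOkM (LB19_8.ctx true true 273 315 128 9 16 910 3325 4 32) muQ true true 64 RtB19_8.Cx.right RtB19_8.CX RtB19_8.Ctp.right.right.right.left.left.left RtB19_8.Ce.right.right.right.left.right.right RtB19_8.CTp RtB19_8.CEr 0x495945caf9288fd3c6ac7e76c22adc32184af6c353abcc09f57e3d950f09f450d6a66a5b22276c302c2cae84af6105beff7f0af573cf931c79f440d54935973307eed58fd8c37ae5799f6c19a096da9f5102d82a31aaf440d6a6de572eb7fdbaa795476c5c9b5fea8f820f640b2ceaf6cf25a1e3d9f56433bf2199f460d53182143d8fd3cdccd276cfcc03d01c9f6d36d0a3db9f540d6a689bf8e17fddd8e66176ccb5e1169b5e2016ab8f82eace22f2daf611c01904b7af560d571d13f4118fd6ac057488f89ce9920bfaaf52dbefea55bcbf440d3447493597 = true := by decide +kernel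

theorem cB19_8_3_175 : chunkOkM (LB19_8.ctx true true 107 1 1 1 1 1 1 1 1) muQ true true 64 RtB19_8.Cx.right.left.left RtB19_8.CX RtB19_8.Ctp.right.right.right.left.left.right RtB19_8.Ce.right.right.right.left.right.right.left RtB19_8.CTp RtB19_8.CEr 0x21 = true := by decide +kernel

theorem cB19_8_3_176 : chunkOkM (LB19_8.ctx true true 295 1247 512 9 16 1838 13279 4 32) muQ true true 64 RtB19_8.Cx.right.left.right RtB19_8.CX RtB19_8.Ctp.right.right.right.left.left.right.left RtB19_8.Ce.right.right.right.left.right.right.left RtB19_8.CTp RtB19_8.CEr 0x5959c902084ca9f05b6a673131e876c2bbac9079b790ab2c05eaf6a637912979f540d56974593217459321753d967c88fd5c262f67c188484e61eaf69da208a5a9f540d6a6bfb33ba76c61b655ab499533688f8197dafa22daf6c605cdadb9f550d54 = true := by decide +kernel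

theorem cB19_8_3_177 : chunkOkM (LB19_8.ctx true true 278 623 256 9 16 922 3325 4 32) muQ true true 64 RtB19_8.Cx.right.left.right RtB19_8.CX RtB19_8.Ctp.right.right.right.left.left.right.right RtB19_8.Ce.right.right.right.left.right.right.left RtB19_8.CTp RtB19_8.CEr 0x01648c19038fda504a9f76ce082407b39f6bc9c4ec769f540d6a6cf337b576c58113bef8f81b548f88ddaf6b1dbf82929f540d521721764837bb38fd934aa1e76cd78b9b7499f6883a988ae9f54f5d7b3639f250d6a6b8266ba7fdc22b44f76c68109069b2ff3304a8f8134402ebc8af69ca3a0f539f534a2a848e9f270d543 = true := by decide +kernel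

theorem cB19_8_3_178 : chunkOkM (LB19_8.ctx true true 107 1 1 1 1 1 1 1 1) muQ true true 64 RtB19_8.Cx.right.left RtB19_8.CX RtB19_8.Ctp.right.right.right.left.left.right RtB19_8.Ce.right.right.right.left.right.right.right RtB19_8.CTp RtB19_8.CEr 0x21 = true := by decide +kernel

theorem cB19_8_3_179 : chunkOkM (LB19_8.ctx true true 269 315 128 9 16 458 3325 4 32) muQ true true 64 RtB19_8.Cx.right.right RtB19_8.CX RtB19_8.Ctp.right.right.right.left.left.right.left RtB19_8.Ce.right.right.right.left.right.right.left RtB19_8.CTp RtB19_8.CEr 0x3e4110a88fd29dda267cae6520d699f6bc150185c9f542c3c31839f450d6a63c894767c1f32b56ab16fd7c468f81209c5071aaf6b32ed56239f539a2203c29f460d53d7ad1be8fdb9899f37f81f67ad0a6daf6b22dec6189f540d6a69712de676c4918d1478f81c5a159f9daf6cad8365cc9f540dc1c5f2c76c547e1b5c8f82737fa90b9af6d16f8561d9f540d7562f14ce98fd4ae59067c8d8ef729b9f6b3266768a9f540d6a67dcd34d76c334a77e08f81642143722af6b64f75d839f540d547 = true := by decide +kernel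

theorem cB19_8_3_180 : chunkOkM (LB19_8.ctx true true 257 79 32 9 16 462 3325 4 32) muQ true true 64 RtB19_8.Cx.right.right RtB19_8.CX RtB19_8.Ctp.right.right.right.left.left.right.right RtB19_8.Ce.right.right.right.left.right.right.left RtB19_8.CTp RtB19_8.CEr 0x64fb80af8fd6a596667c557344aba9f6b45939ddf9f540d6a6ea42a767c5437c0f18f8157b6a1bacaf6b519456639f540d5694 = true := by decide +kernel

theorem cB19_8_3_181 : chunkOkM (LB19_8.ctx true true 300 1263 512 9 16 3678 13391 4 32) muQ true true 64 RtB19_8.Cx.right.right.left RtB19_8.CX RtB19_8.Ctp.right.right.right.left.left.right.left RtB19_8.Ce.right.right.right.left.right.right.right RtB19_8.CTp RtB19_8.CEr 0x5959d7ce4e1ac9f05b6a68caf73e76c19e547fa674bf610ff50ff11af530d55935974593597459359729477a398fd1cefd961dcaf6e28b40cff9f530d6a6df92fc576c684a41b58f82476c10ed6af6ee115f6379f540d54 = true := by decide +kernel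

theorem cB19_8_3_182 : chunkOkM (LB19_8.ctx true true 269 315 128 9 16 462 3353 4 32) muQ true true 64 RtB19_8.Cx.right.right.left RtB19_8.CX RtB19_8.Ctp.right.right.right.left.left.right.right RtB19_8.Ce.right.right.right.left.right.right.right RtB19_8.CTp RtB19_8.CEr 0x5c43fc938fd7ff595476c77ff709639f6c664ac1b19f540d6a6dccc6c876c2cacbb69b511244828f82521b0dcb8af6c50b51cfc9f550dd9e82d576ce4249669b626343f88f81e7cb7a8d0af6b86f8c2549f53ebca9a38f260d7532757f628fd42cb057c1f599eb024af67301cd0129f540d6a639bdb087fde2532a376c69c70bcc8f81cc1676fcbaf6b371500969f550dc6dc72a76c453dc5828f81fe086c3a1af6aa39ae3709f511365be1b9f250d754 = true := by decide +kernel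

theorem cB19_8_3_183 : chunkOkM (LB19_8.ctx true true 268 159 64 9 16 918 3353 4 32) muQ true true 64 RtB19_8.Cx.right.right.right RtB19_8.CX RtB19_8.Ctp.right.right.right.left.left.right.left RtB19_8.Ce.right.right.right.left.right.right.right RtB19_8.CTp RtB19_8.CEr 0x7c8fe4418fd56fcacd76c7aaa8deb99f6c1d15ba4c9f540d6a6baf69d6fdaeeb80276c58abb53c8f811157131adaf6d8d77a7ae9f550d523b479168fd3a87b5b7f8352ed857b55bf5110e674e7de1cf440d3244fd1ec8fd1b90058005af6ddde9123e9f527211e67c9f440d6a64a747a076c21b6f16ab1edf96838f8f973654cb9f6c0d3d8c3e9f550dad3535976c548897b38f81752970f76af6d80984a9e9f584775c88e9f450d354 = true := by decide +kernel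

theorem cB19_8_3_184 : chunkOkM (LB19_8.ctx true true 263 159 64 9 16 462 3353 4 32) muQ true true 64 RtB19_8.Cx.right.right.right RtB19_8.CX RtB19_8.Ctp.right.right.right.left.left.right.right RtB19_8.Ce.right.right.right.left.right.right.right RtB19_8.CTp RtB19_8.CEr 0x6d8a20738fd7c682567c39fa2f99f9f6bf4cdf8f19f540d6a6b93f4767c567ea2498f815e0885d84af6b9d44f8e99f540d5694 = true := by decide +kernel

theorem cB19_8_3_185 : chunkOkM (LB19_8.ctx true true 227 39 16 9 16 118 413 2 16) muQ true true 64 RtB19_8.Cx.right RtB19_8.CX RtB19_8.Ctp.right.right.right.left.right RtB19_8.Ce.right.right.right.left.right RtB19_8.CTp RtB19_8.CEr 0x5927e2fd8fd14dea3628f8d3e9a8bc19f6fee586ea27af13564d2f108fbf050d = true := by decide +kernel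

theorem cB19_8_3_186 : chunkOkM (LB19_8.ctx true true 107 1 1 1 1 1 1 1 1) muQ true true 64 RtB19_8.Cx.left RtB19_8.CX RtB19_8.Ctp.right.right.right.left RtB19_8.Ce.right.right.right.right.left RtB19_8.CTp RtB19_8.CEr 0x21 = true := by decide +kernel

theorem cB19_8_3_187 : chunkOkM (LB19_8.ctx true true 107 1 1 1 1 1 1 1 1) muQ true true 64 RtB19_8.Cx.right.left RtB19_8.CX RtB19_8.Ctp.right.right.right.left RtB19_8.Ce.right.right.right.right.left.left RtB19_8.CTp RtB19_8.CEr 0x21 = true := by decide +kernel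

theorem cB19_8_3_188 : chunkOkM (LB19_8.ctx true true 107 1 1 1 1 1 1 1 1) muQ true true 64 RtB19_8.Cx.right.right RtB19_8.CX RtB19_8.Ctp.right.right.right.left.left.left RtB19_8.Ce.right.right.right.right.left.left RtB19_8.CTp RtB19_8.CEr 0x59 = true := by decide +kernel

end Vale.Agent.helper4.Q4
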