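import Vale.Agent.helper4.Q4TreeM
import Vale.Agent.helper4.Q4G.PB19_8

/-!
Checks for pairs of intervals of second moments.
-/

set_option maxRecDepth 100000
set_option linter.unusedVariables false

namespace Vale.Agent.helper4.Q4

theorem cB19_8_3_189 : chunkOkM (LB19_8.ctx true true 267 159 64 9 16 918 3381 4 32) muQ true true 64 RtB19_8.Cx.right.right RtB19_8.CX RtB19_8.Ctp.right.right.right.left.left.right.left RtB19_8.Ce.right.right.right.right.left.left.left RtB19_8.CTp RtB19_8.CEr 0x2c9489c88fd9c83c0c7f816376a076b2bf57048cdc0bd4bf440d36e226d38fd1f33cd67c2153b96950af6d34f99dbb9f5bad8b0fbb9f450d6a642bc65b7fdcc11d4b76c62ebc83c8f816a7cd82c8af6e411946009f54dc818de19f460d54d9750fb8f8357ec4650faf5184a3c0f770bf430d34597 = true := by decide +kernel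

theorem cB19_8_3_190 : chunkOkM (LB19_8.ctx true true 273 315 128 9 16 926 3367 4 32) muQ true true 64 RtB19_8.Cx.right.right.left RtB19_8.CX RtB19_8.Ctp.right.right.right.left.left.right.right RtB19_8.Ce.right.right.right.right.left.left.left RtB19_8.CTp RtB19_8.CEr 0x2147641a488fdb1dbbc676c290be8208f8e2979a95c9f540d6a6da48bde76c61abee8a8f8380aa2cd08af6a84d8968e9f540d55932174 = true := by decide +kernel

theorem cB19_8_3_191 : chunkOkM (LB19_8.ctx true true 269 319 128 9 16 462 3381 4 32) muQ true true 64 RtB19_8.Cx.right.right.right RtB19_8.CX RtB19_8.Ctp.right.right.right.left.left.right.right RtB19_8.Ce.right.right.right.right.left.left.left RtB19_8.CTp RtB19_8.CEr 0x597ad7898fd50732167c1bf1d43133af6c07ca7f459f540d6a6bdd74ab76c54fc10bd8f81f3a3d7214af6d3b978cfb9f540d71e9a337fdf6996a076c74a0d9d48f821a5f6a932af6d1faa51279f550d753f2e5a258fd88176b6779f6c8b5dee899f530d6a684f3eb17fde2b5fd876c6cf32f9b8f820a4ebaa35af6cfc7c46209f550dc723aef76c4f660c598f820a6c3209faf6caa6bb1409f540d754 = true := by decide +kernel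

theorem cB19_8_3_192 : chunkOkM (LB19_8.ctx true true 273 319 128 9 16 926 3395 4 32) muQ true true 64 RtB19_8.Cx.right.right RtB19_8.CX RtB19_8.Ctp.right.right.right.left.left.right RtB19_8.Ce.right.right.right.right.left.left.right RtB19_8.CTp RtB19_8.CEr 0x594b9642458fd921451b76ce1a8c85179f6d660476319f540d6a61077fdf986c7a274dae8f824203d0709af6f166058ef9f540d55935974217593 = true := by decide +kernel

theorem cB19_8_3_193 : chunkOkM (LB19_8.ctx true true 275 631 256 9 16 466 3381 4 32) muQ true true 64 RtB19_8.Cx.right.right RtB19_8.CX RtB19_8.Ctp.right.right.right.left.right.left.left RtB19_8.Ce.right.right.right.right.left.left.left RtB19_8.CTp RtB19_8.CEr 0x7e1c14cc8fd7fc34067c59398db6d9f6a3e122fe39f540d6a6c37d80b76c4811eee88f81165d0663baf6a19c75c9c9f51db3bb85d9f250da1bdad67c35e46006baaf6890f090399f515345769f9f240d45219d10170f8fd11e010c086c1575dcc420af6984a70e709f516428044c9f250d6a610469f4c86c7298cef78f8207ece8dbaaf6919713be99f54e1294c449f250d501701747 = true := by decide +kernel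

theorem cB19_8_3_194 : chunkOkM (LB19_8.ctx true true 269 319 128 9 16 466 3409 4 32) muQ true true 64 RtB19_8.Cx.right.right RtB19_8.CX RtB19_8.Ctp.right.right.right.left.right.left.left RtB19_8.Ce.right.right.right.right.left.left.right RtB19_8.CTp RtB19_8.CEr 0x62ec63ae8fd711adee76c11f5348590af69cfe145689f540d6a610c7260b86c662014ed8f821377f4c15af6c6a19fefe9f540d5217658dd4768fd1d8f746786cb0c754938f88bca0ff749f6bad0dcac69f550d6a6ebdb12076c59e27dfa8f81c719f20a4af6b5e16713d9f540d486c8307fd1054a28d86c76cd984c8f8171b146efcaf6b2e9f17839f53cdcf4c5f9f260d754217 = true := by decide +kernel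

theorem cB19_8_3_195 : chunkOkM (LB19_8.ctx true true 107 1 1 1 1 1 1 1 1) muQ true true 64 RtB19_8.Cx.right.right RtB19_8.CX RtB19_8.Ctp.right.right.right.left.right.left.right RtB19_8.Ce.right.right.right.right.left.left RtB19_8.CTp RtB19_8.CEr 0x01 = true := by decide +kernel

theorem cB19_8_3_196 : chunkOkM (LB19_8.ctx true true 107 1 1 1 1 1 1 1 1) muQ true true 64 RtB19_8.Cx.right.right RtB19_8.CX RtB19_8.Ctp.right.right.right.left.right.right RtB19_8.Ce.right.right.right.right.left.left RtB19_8.CTp RtB19_8.CEr 0x01 = true := by decide +kernel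

theorem cB19_8_3_197 : chunkOkM (LB19_8.ctx true true 107 1 1 1 1 1 1 1 1) muQ true true 64 RtB19_8.Cx.right RtB19_8.CX RtB19_8.Ctp.right.right.right.left RtB19_8.Ce.right.right.right.right.left.right RtB19_8.CTp RtB19_8.CEr 0x21 = true := by decide +kernel

theorem cB19_8_3_198 : chunkOkM (LB19_8.ctx true true 107 1 1 1 1 1 1 1 1) muQ true true 64 RtB19_8.Cx RtB19_8.CX RtB19_8.Ctp.right.right.right.left RtB19_8.Ce.right.right.right.right.right RtB19_8.CTp RtB19_8.CEr 0x21 = true := by decide +kernel

theorem cB19_8_3_199 : chunkOkM (LB19_8.ctx true true 107 1 1 1 1 1 1 1 1) muQ true true 64 RtB19_8.Cx RtB19_8.CX RtB19_8.Ctp.right.right.right.right RtB19_8.Ce.right.right.right RtB19_8.CTp RtB19_8.CEr 0x01 = true := by decide +kernel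

theorem cB19_8_2_0 : chunkOkM (LB19_8.ctx false true 107 1 1 1 1 1 1 1 1) muQ false true 64 RtB19_8.Cx RtB19_8.CX RtB19_8.Ctn RtB19_8.Ce RtB19_8.CTp RtB19_8.CEr 0x49 = true := by decide +kernel

theorem cB19_8_1_0 : chunkOkM (LB19_8.ctx true false 107 1 1 1 1 1 1 1 1) muQ true false 64 RtB19_8.Cx RtB19_8.CX RtB19_8.Ctp.left RtB19_8.Ce RtB19_8.CTn RtB19_8.CEr 0x41 = true := by decide +kernel

theorem cB19_8_1_1 : chunkOkM (LB19_8.ctx true false 107 1 1 1 1 1 1 1 1) muQ true false 64 RtB19_8.Cx RtB19_8.CX RtB19_8.Ctp.right RtB19_8.Ce.left RtB19_8.CTn RtB19_8.CEr 0x69 = true := by decide +kernel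

theorem cB19_8_1_2 : chunkOkM (LB19_8.ctx true false 107 1 1 1 1 1 1 1 1) muQ true false 64 RtB19_8.Cx RtB19_8.CX RtB19_8.Ctp.right.left RtB19_8.Ce.right RtB19_8.CTn RtB19_8.CEr 0x49 = true := by decide +kernel

theorem cB19_8_1_3 : chunkOkM (LB19_8.ctx true false 107 1 1 1 1 1 1 1 1) muQ true false 64 RtB19_8.Cx RtB19_8.CX RtB19_8.Ctp.right.right RtB19_8.Ce.right.left RtB19_8.CTn RtB19_8.CEr 0x69 = true := by decide +kernel

theorem cB19_8_1_4 : chunkOkM (LB19_8.ctx true false 107 1 1 1 1 1 1 1 1) muQ true false 64 RtB19_8.Cx RtB19_8.CX.left.left.left.left.left.left RtB19_8.Ctp.right.right.left.left RtB19_8.Ce.right.right.left RtB19_8.CTn.left.left.left.left.left.left.left.left.left.left.left.left RtB19_8.CEr.left.left.left.left.left.left.left.left.left.left.left.left 0x49 = true := by decide +kernel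

theorem cB19_8_1_5 : chunkOkM (LB19_8.ctx true false 107 1 1 1 1 1 1 1 1) muQ true false 64 RtB19_8.Cx RtB19_8.CX.left.left.left.left.left.left RtB19_8.Ctp.right.right.left.right RtB19_8.Ce.right.right.left.left RtB19_8.CTn.left.left.left.left.left.left.left.left.left.left.left.left RtB19_8.CEr.left.left.left.left.left.left.left.left.left.left.left.left 0x69 = true := by decide +kernel

theorem cB19_8_1_6 : chunkOkM (LB19_8.ctx true false 347 19 8 513 1024 214 371 16384 65536) muQ true false 64 RtB19_8.Cx RtB19_8.CX.left.left.left.left.left.left RtB19_8.Ctp.right.right.left.right RtB19_8.Ce.right.right.left.right.left RtB19_8.CTn.left.left.left.left.left.left.left.left.left.left.left.left RtB19_8.CEr.left.left.left.left.left.left.left.left.left.left.left.left 0x5a899a33e9f05b12a24ac26e4a173d9f6ccba41fdb9f559e56f7fd9f440d4933 = true := by decide +kernel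

theorem cB19_8_1_7 : chunkOkM (LB19_8.ctx true false 353 37 16 513 1024 214 385 16384 65536) muQ true false 64 RtB19_8.Cx RtB19_8.CX.left.left.left.left.left.left RtB19_8.Ctp.right.right.left.right.left RtB19_8.Ce.right.right.left.right.right RtB19_8.CTn.left.left.left.left.left.left.left.left.left.left.left.left RtB19_8.CEr.left.left.left.left.left.left.left.left.left.left.left.left 0x4932d3ac6187e38ac9f6fad1a07ee9f58efa0af239f440d7493 = true := by decide +kernel

theorem cB19_8_1_8 : chunkOkM (LB19_8.ctx true false 366 75 32 513 1024 222 1561 16384 65536) muQ true false 64 RtB19_8.Cx.left RtB19_8.CX.left.left.left.left.left.left RtB19_8.Ctp.right.right.left.right.right RtB19_8.Ce.right.right.left.right.right RtB19_8.CTn.left.left.left.left.left.left.left.left.left.left.left.left RtB19_8.CEr.left.left.left.left.left.left.left.left.left.left.left.left 0x28a3ac5724508009f6c1ed3aa039f530d11254369c44db35bb40c223aba9f6e1852b5c79f5509f8d67b9f450d316d29429419bfdb95849c827a8057d9f6a196587059f540ddd0b49c3a51d50839f6a206175a09f518f4be7279f240d4a52ac64d85c4319f6dca5e6b539f530d3729223e398e5bfd2d73ac98a145d889f697e6fb1ce9f540d3305fd0669f6c99fc14bc9f520d34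 = true := by decide +kernel

theorem cB19_8_1_9 : chunkOkM (LB19_8.ctx true false 350 39 16 513 1024 110 385 16384 65536) muQ true false 64 RtB19_8.Cx.right RtB19_8.CX.left.left.left.left.left.left RtB19_8.Ctp.right.right.left.right.right RtB19_8.Ce.right.right.left.right.right RtB19_8.CTn.left.left.left.left.left.left.left.left.left.left.left.left RtB19_8.CEr.left.left.left.left.left.left.left.left.left.left.left.left 0x1304a12f8aaf04b = true := by decide +kernel

theorem cB19_8_1_10 : chunkOkM (LB19_8.ctx true false 330 19 8 513 1024 30 91 16384 65536) muQ true false 64 RtB19_8.Cx RtB19_8.CX.left.left.left.left.left.left RtB19_8.Ctp.right.right.right RtB19_8.Ce.right.right.left RtB19_8.CTn.left.left.left.left.left.left.left.left.left.left.left.left RtB19_8.CEr.left.left.left.left.left.left.left.left.left.left.left.left 0xa983ac10db116cb26add52479f118286c6e41af040d = true := by decide +kernel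

end Vale.Agent.helper4.Q4
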