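import Vale.Agent.helper4.Q4TreeM
import Vale.Agent.helper4.Q4G.PB19_8

/-!
Checks for pairs of intervals of second moments.
-/

set_option maxRecDepth 100000
set_option linter.unusedVariables false

namespace Vale.Agent.helper4.Q4

theorem cB19_8_3_39 : chunkOkM (LB19_8.ctx true true 282 587 256 9 16 1734 6125 4 16) muQ true true 64 RtB19_8.Cx.left.left.right.left RtB19_8.CX RtB19_8.Ctp.right.right.left.right.right.left.left.left RtB19_8.Ce.right.right.left.right.right.left.right.left.right RtB19_8.CTp RtB19_8.CEr 0x120dd7a58fd40bcc7d98f833346cbd8faf6102956ecf3af540dc32805f669f05b5160c34338fd32d1e87e8f87d469393a9af51c437ce6468bf440d3597 = true := by decide +kernel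

theorem cB19_8_3_40 : chunkOkM (LB19_8.ctx true true 276 295 128 9 16 3470 3059 4 16) muQ true true 64 RtB19_8.Cx.left.left.right.right RtB19_8.CX RtB19_8.Ctp.right.right.left.right.right.left.left.left RtB19_8.Ce.right.right.left.right.right.left.right.left RtB19_8.CTp RtB19_8.CEr 0x20db06c68fd2bd6acae8f86f88cf3889f530d4094f78ce9f05b5493493 = true := by decide +kernel

theorem cB19_8_3_41 : chunkOkM (LB19_8.ctx true true 272 295 128 9 16 870 6125 4 16) muQ true true 64 RtB19_8.Cx.left.left.right RtB19_8.CX RtB19_8.Ctp.right.right.left.right.right.left.left.right RtB19_8.Ce.right.right.left.right.right.left.right.left RtB19_8.CTp RtB19_8.CEr 0xf3011947fd28bc986d8f892f5d6768f69ca5144b39f540d293820fb8fd13e06c878f838b1a31762af611987f2cedaf540db4ed30b6b9f05b5154ca4228fd3f6d67bb8f81367daa0e6af6d0e5f2c309f540d8251902429f05b547 = true := by decide +kernel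

theorem cB19_8_3_42 : chunkOkM (LB19_8.ctx true true 299 1177 512 9 16 3470 24535 4 16) muQ true true 64 RtB19_8.Cx.left.left.right RtB19_8.CX RtB19_8.Ctp.right.right.left.right.right.left.left.left RtB19_8.Ce.right.right.left.right.right.left.right.right RtB19_8.CTp RtB19_8.CEr 0x4959495959ccfb0987fd3528adaa8f8102c29e8a49bf6269ad770b8af5539297e859f450d7e748e0e29f05b544747493493597 = true := by decide +kernel

theorem cB19_8_3_43 : chunkOkM (LB19_8.ctx true true 285 587 256 9 16 1742 12299 4 16) muQ true true 64 RtB19_8.Cx.left.left.right.left RtB19_8.CX RtB19_8.Ctp.right.right.left.right.right.left.left.right RtB19_8.Ce.right.right.left.right.right.left.right.right RtB19_8.CTp RtB19_8.CEr 0x5912a68edc8fd272bd4a08f8671490e9f6af61490560113af540d4593597187381c08fd382073bd8f8303492a162af6d51a2a99a9f540dbb743c4359f05b5109474108fd2d513eca8f89547d138cbaf61e7b74da7aaf540dcb2b998e79f05b559734 = true := by decide +kernel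

theorem cB19_8_3_44 : chunkOkM (LB19_8.ctx true true 272 295 128 9 16 870 6153 4 16) muQ true true 64 RtB19_8.Cx.left.left.right.right RtB19_8.CX RtB19_8.Ctp.right.right.left.right.right.left.left.right RtB19_8.Ce.right.right.left.right.right.left.right.right RtB19_8.CTp RtB19_8.CEr 0x199d4ddc8fd276b9d988f860e514cbfeaf613596dbf91af540dc21fe14c69f05b51d76c4ed8fd3b32219b8f8172441c519f6a8ffdbdac9f540d9997e63ac9f05b54 = true := by decide +kernel

theorem cB19_8_3_45 : chunkOkM (LB19_8.ctx true true 254 147 64 9 16 438 3059 2 16) muQ true true 64 RtB19_8.Cx.left.left.right RtB19_8.CX RtB19_8.Ctp.right.right.left.right.right.left.right RtB19_8.Ce.right.right.left.right.right.left.right.left RtB19_8.CTp RtB19_8.CEr 0x19459e2b8fd26edf1888f8a41a940049f694f6d1e9d9f540d = true := by decide +kernel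

theorem cB19_8_3_46 : chunkOkM (LB19_8.ctx true true 272 295 128 9 16 874 6153 4 16) muQ true true 64 RtB19_8.Cx.left.left.right RtB19_8.CX RtB19_8.Ctp.right.right.left.right.right.left.right.left RtB19_8.Ce.right.right.left.right.right.left.right.right RtB19_8.CTp RtB19_8.CEr 0x1b4ee4f88fd35ec148f8f8b41489478f69ff64ae059f540d4196724479f05b51937b4b48fd29defddc8f82b2e66a763af6e3aabe7279f540db962e46299f05b518b99b218fd36fd8c118f82d05a02a0baf6e01f2440d9f540d999a857bd9f05b547 = true := by decide +kernel

theorem cB19_8_3_47 : chunkOkM (LB19_8.ctx true true 262 147 64 9 16 878 3073 4 16) muQ true true 64 RtB19_8.Cx.left.left.right RtB19_8.CX RtB19_8.Ctp.right.right.left.right.right.left.right.right RtB19_8.Ce.right.right.left.right.right.left.right.right RtB19_8.CTp RtB19_8.CEr 0x234321628fd347f86f88f848e176f489f69b65e23989f540d6be28ce9e9f05b5 = true := by decide +kernel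

theorem cB19_8_3_48 : chunkOkM (LB19_8.ctx true true 240 75 32 9 16 218 763 2 16) muQ true true 64 RtB19_8.Cx.left.right RtB19_8.CX RtB19_8.Ctp.right.right.left.right.right.left RtB19_8.Ce.right.right.left.right.right.left RtB19_8.CTp RtB19_8.CEr 0x4a87f3fb8fdceec2e67c222c7787fb0bf622e271a5344bf440d = true := by decide +kernel

theorem cB19_8_3_49 : chunkOkM (LB19_8.ctx true true 107 1 1 1 1 1 1 1 1) muQ true true 64 RtB19_8.Cx.left RtB19_8.CX RtB19_8.Ctp.right.right.left.right.right.right RtB19_8.Ce.right.right.left.right.right.left.left RtB19_8.CTp RtB19_8.CEr 0x69 = true := by decide +kernel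

theorem cB19_8_3_50 : chunkOkM (LB19_8.ctx true true 271 289 128 9 16 442 6125 4 32) muQ true true 64 RtB19_8.Cx.left.left.left RtB19_8.CX RtB19_8.Ctp.right.right.left.right.right.right.left RtB19_8.Ce.right.right.left.right.right.left.right.left RtB19_8.CTp RtB19_8.CEr 0x2fc219288fd4c14cd87f821a55cc8f3af66189839249f540d6a66934dd8b238fd82933ba76c1f5cd59b2906e0529aaf66d14678239f550d292b05c475 = true := by decide +kernel

theorem cB19_8_3_51 : chunkOkM (LB19_8.ctx true true 281 579 256 9 16 882 6153 4 32) muQ true true 64 RtB19_8.Cx.left.left.left.left RtB19_8.CX RtB19_8.Ctp.right.right.left.right.right.right.left.left RtB19_8.Ce.right.right.left.right.right.left.right.right RtB19_8.CTp RtB19_8.CEr 0x256928118fdb2f61377f82dc3164462af66ee63d6f49f540d6a6ebc12de7fd45f1b1d76c32834300fbaf6a77429a779f540d56973fb8850b8fd45c2e9f76c13470f45b1af685bf8df259f540d6a639cf7c138fd89985a676c16e8ee0ab5af68f28314849f540d54 = true := by decide +kernel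

theorem cB19_8_3_52 : chunkOkM (LB19_8.ctx true true 285 579 256 9 16 1774 6153 4 32) muQ true true 64 RtB19_8.Cx.left.left.left.left RtB19_8.CX RtB19_8.Ctp.right.right.left.right.right.right.left.right RtB19_8.Ce.right.right.left.right.right.left.right.right RtB19_8.CTp RtB19_8.CEr 0x4e6e7b7d8fdaeb529576c2e0479df8f8b4d0ab1e79f6751f489fb9f594a26ff38f260d6a6315daff28fd82ad7b976c553ba47020af64f13d3aa49f540d2a6a84038fd72c051876cd7836969bc6d7c195c9af65eae2cc0e9f250d32e4806a8fd880812c76c9514a1f387af630d373477dfcc8fd89f160776c843a24e396af614fce900a9f540d45 = true := by decide +kernel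

end Vale.Agent.helper4.Q4
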