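import Vale.Agent.helper4.Q4TreeM
import Vale.Agent.helper4.Q4G.PB19_8

/-!
Checks for pairs of intervals of second moments.
-/

set_option maxRecDepth 100000
set_option linter.unusedVariables false

namespace Vale.Agent.helper4.Q4

theorem cB19_8_3_53 : chunkOkM (LB19_8.ctx true true 265 291 128 9 16 442 3073 4 16) muQ true true 64 RtB19_8.Cx.left.left.left.right RtB19_8.CX RtB19_8.Ctp.right.right.left.right.right.right.left RtB19_8.Ce.right.right.left.right.right.left.right.right RtB19_8.CTp RtB19_8.CEr 0x2dea86e38fd311cb4b98f8d9cd5d92b9f680ae26fe89f540d1fb64f168fd4b3040076c2f30694e39af669e63a07c9f540d5 = true := by decide +kernel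

theorem cB19_8_3_54 : chunkOkM (LB19_8.ctx true true 253 145 64 9 16 446 1533 2 16) muQ true true 64 RtB19_8.Cx.left.left.left RtB19_8.CX RtB19_8.Ctp.right.right.left.right.right.right.right RtB19_8.Ce.right.right.left.right.right.left.right RtB19_8.CTp RtB19_8.CEr 0x476c2d318fd108df30e86ca5fb32f98f824521de580af6572fed91ac2bf110769a66a231cf060d = true := by decide +kernel

theorem cB19_8_3_55 : chunkOkM (LB19_8.ctx true true 107 1 1 1 1 1 1 1 1) muQ true true 64 RtB19_8.Cx.left.left.right RtB19_8.CX RtB19_8.Ctp.right.right.left.right.right.right RtB19_8.Ce.right.right.left.right.right.left.right RtB19_8.CTp RtB19_8.CEr 0x69 = true := by decide +kernel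

theorem cB19_8_3_56 : chunkOkM (LB19_8.ctx true true 107 1 1 1 1 1 1 1 1) muQ true true 64 RtB19_8.Cx.left.right RtB19_8.CX RtB19_8.Ctp.right.right.left.right.right.right RtB19_8.Ce.right.right.left.right.right.left.right RtB19_8.CTp RtB19_8.CEr 0x11 = true := by decide +kernel

theorem cB19_8_3_57 : chunkOkM (LB19_8.ctx true true 309 2367 1024 9 16 6974 24703 4 16) muQ true true 64 RtB19_8.Cx.left.left RtB19_8.CX RtB19_8.Ctp.right.right.left.right.right.left.left RtB19_8.Ce.right.right.left.right.right.right.left RtB19_8.CTp RtB19_8.CEr 0x595959122a210e8fd35e122ee8f8199b95610c4bf6388d01faeaaf540d136b23d2c9f05b55935974593597459359712fb45b58fd3f6554578f8310dbd81b1af6121735ca05af540dd61645fdc9f05b545935974597 = true := by decide +kernel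

theorem cB19_8_3_58 : chunkOkM (LB19_8.ctx true true 282 583 256 9 16 1758 6167 4 16) muQ true true 64 RtB19_8.Cx.left.left.left RtB19_8.CX RtB19_8.Ctp.right.right.left.right.right.left.right RtB19_8.Ce.right.right.left.right.right.right.left RtB19_8.CTp RtB19_8.CEr 0x59592251ba688fd32551d8a8f826ac27309faf6af201b6d79f540db2ee251969f05b559359745935974 = true := by decide +kernel

theorem cB19_8_3_59 : chunkOkM (LB19_8.ctx true true 282 587 256 9 16 1750 6181 4 16) muQ true true 64 RtB19_8.Cx.left.left.right.left RtB19_8.CX RtB19_8.Ctp.right.right.left.right.right.left.right RtB19_8.Ce.right.right.left.right.right.right.left.left RtB19_8.CTp RtB19_8.CEr 0x1fa766928fd2bcc9bad8f8168ad75a87af6d2129cb6e9f540dbcc213fa89f05b521237bd88fd313cea8f8f835f4a7cfe8af6a935a94709f540da5a62f5c19f05b545917a7c3318fd3b98541e8f833302baae5af6db8d9462b9f540daf87e25759f05b512ad38f48fd23f0a5dd8f89735bb1e19f611ae3ae4a6af540d359743 = true := by decide +kernel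

theorem cB19_8_3_60 : chunkOkM (LB19_8.ctx true true 272 295 128 9 16 878 6181 4 16) muQ true true 64 RtB19_8.Cx.left.left.right.right RtB19_8.CX RtB19_8.Ctp.right.right.left.right.right.left.right RtB19_8.Ce.right.right.left.right.right.right.left.left RtB19_8.CTp RtB19_8.CEr 0x207853d98fd3d08d1898f862f06f5bc9f6a4c735ca79f540d7ebdbd53d9f05b51770c6778fd2f76a2908f8277acb3973af6f2c47e34c9f540dc4183faae9f05b51c6b84388fd37b1c9708f81fd8946529af6cdb3b77819f540da7e7f8d669f05b543 = true := by decide +kernel

theorem cB19_8_3_61 : chunkOkM (LB19_8.ctx true true 282 591 256 9 16 1750 6195 4 16) muQ true true 64 RtB19_8.Cx.left.left.right RtB19_8.CX RtB19_8.Ctp.right.right.left.right.right.left.right.left RtB19_8.Ce.right.right.left.right.right.right.left.right RtB19_8.CTp RtB19_8.CEr 0x59187e73278fd34b3a2848f8255021d3feaf6f25de6c4b9f540dbe606c1519f05b55935974597 = true := by decide +kernel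

theorem cB19_8_3_62 : chunkOkM (LB19_8.ctx true true 295 1175 512 9 16 3518 12383 4 16) muQ true true 64 RtB19_8.Cx.left.left.right RtB19_8.CX RtB19_8.Ctp.right.right.left.right.right.left.right.right RtB19_8.Ce.right.right.left.right.right.right.left.right RtB19_8.CTp RtB19_8.CEr 0x1bdb83af8fd39c27f958f81c347f25b5af6d1c07cd2b9f540dc62121d299f05b51b5e9f548fd3df9487c8f82c18e297bfaf6cac79526e9f540dafdafbd069f05b5459591c6628958fd379bb76d8f8781a1a2c6faf6cef5f41069f540d6a1f1b3be9f05b5593597459359747 = true := by decide +kernel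

theorem cB19_8_3_63 : chunkOkM (LB19_8.ctx true true 304 2367 1024 9 16 3518 24871 4 16) muQ true true 64 RtB19_8.Cx.left.left RtB19_8.CX RtB19_8.Ctp.right.right.left.right.right.left RtB19_8.Ce.right.right.left.right.right.right.right RtB19_8.CTp RtB19_8.CEr 0x595959591fb009248fd2c5cf5b28f89419500456af6130405f9ffaf540d27a58c9f09f05b55974593597459359745935974597593 = true := by decide +kernel

theorem cB19_8_3_64 : chunkOkM (LB19_8.ctx true true 332 9279 4096 9 16 14142 49287 4 32) muQ true true 64 RtB19_8.Cx.left.left.left.left RtB19_8.CX RtB19_8.Ctp.right.right.left.right.right.right.left RtB19_8.Ce.right.right.left.right.right.right.left.left RtB19_8.CTp RtB19_8.CEr 0x3bf745d78fd3d15dbc76c1094e7f898af69e3e8f5489f540d6a6310d344e8fd83e86b476c4bfe2e69b8a7e30d64caf65ac5ac74c9f550d2f4beef88fd7c807ec76cb1363669b4796380de2af67448737089f550d318b367b8fd7f3e0d976c95bd5669bcb633f6f63af632e1ed62f9f250d745595959692ea7ae598fd1b7f9c678f82a8f08bf641bf630d31f04c569769346975935974593597459359743 = true := by decide +kernel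

end Vale.Agent.helper4.Q4
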