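import Vale.Agent.helper4.Q4TreeM
import Vale.Agent.helper4.Q4G.PB19_8

/-!
Checks for pairs of intervals of second moments.
-/

set_option maxRecDepth 100000
set_option linter.unusedVariables false

namespace Vale.Agent.helper4.Q4

theorem cB19_8_3_65 : chunkOkM (LB19_8.ctx true true 275 291 128 9 16 886 6181 4 32) muQ true true 64 RtB19_8.Cx.left.left.left.right RtB19_8.CX RtB19_8.Ctp.right.right.left.right.right.right.left RtB19_8.Ce.right.right.left.right.right.right.left.left RtB19_8.CTp RtB19_8.CEr 0x429297c08fd3ce050076c136d92b93faf67798bac119f540d6a621bb0dfc8fd69dc08276c4ae2d469b1d56b2d10baf68d2711efc9f550d5286f71cb8fd2fc21cf28f82845dc63fbaf6a4b9e7f539f540d1f89e2e76c2f7c2d6d0baf6ad77b19899f530d52b4e80c58fd31379e698f81bc0c24252af6908fa44309f540d1cfc7fbe8fd5d00ee276c11ef1dc911af6aba7d65549f540d543 = true := by decide +kernel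

theorem cB19_8_3_66 : chunkOkM (LB19_8.ctx true true 331 9343 4096 9 16 14142 49511 4 32) muQ true true 64 RtB19_8.Cx.left.left.left RtB19_8.CX RtB19_8.Ctp.right.right.left.right.right.right.left RtB19_8.Ce.right.right.left.right.right.right.left.right RtB19_8.CTp RtB19_8.CEr 0x69292ddff58fd2db036de8f89866f0e73daf656963ed819f540d43cdc8176c1a63e466234bf620d569745935975247dc828fd76e884876c17d4811b06af69ae7fd8de9f540d6a61770d2988fd3d54b4576c15a98bf79b1dff3d1329af6a4b5371c99f550d54595959592b9ba4f38fd255474108f8933185d4e9f530d0559759359745935974593597459359743217 = true := by decide +kernel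

theorem cB19_8_3_67 : chunkOkM (LB19_8.ctx true true 268 291 128 9 16 446 3087 4 32) muQ true true 64 RtB19_8.Cx.left.left.left RtB19_8.CX RtB19_8.Ctp.right.right.left.right.right.right.right RtB19_8.Ce.right.right.left.right.right.right.left.left RtB19_8.CTp RtB19_8.CEr 0x4f4d09e08fd57f3d5176c49a74c0659f66c62f25e49f5326ad53799f250d6a64e6c8317fd320757c76ceb390369b72d462c29daf62d1929c509f250d1cc4fa7e8fd573837b76c135190679b1ecfe0abf5af642423509c9f58f4517a1c9f260d75 = true := by decide +kernel

theorem cB19_8_3_68 : chunkOkM (LB19_8.ctx true true 283 583 256 9 16 894 6209 4 32) muQ true true 64 RtB19_8.Cx.left.left.left RtB19_8.CX RtB19_8.Ctp.right.right.left.right.right.right.right RtB19_8.Ce.right.right.left.right.right.right.left.right RtB19_8.CTp RtB19_8.CEr 0x5d42e93c8fd7bf18dd76c6ca413c2d9f678d706beb9f52a9fdd1ea9f250d6a618dce6c38fd7a8630b76c52c8155588af68a0d704bb4bbf11a4180a7da2fcf050d7b2d656fd2f96f5276ca5b4d169b44de1cdcf5af64cadde7699f550d26b027468fd6b7b6ef76c6bf28269b85ac07c724af6726aa54609f250d72eba39a78fd70bee6876cb1415569b9b2a4ad068af640d234ac43d8fd6cee20776cb6760169b947fecb4afaf6129540e509f5f0e2ccc88f260d7435217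 = true := by decide +kernel

theorem cB19_8_3_69 : chunkOkM (LB19_8.ctx true true 259 147 64 9 16 442 3087 4 16) muQ true true 64 RtB19_8.Cx.left.left.right RtB19_8.CX RtB19_8.Ctp.right.right.left.right.right.right.left RtB19_8.Ce.right.right.left.right.right.right.left.left RtB19_8.CTp RtB19_8.CEr 0x2bf078658fd3274aeba8f8c3229dab89f68fcc681049f540d338df957fd1b6fd8076c1165c06ab1826938c9baf6aff45c1e99f550d5 = true := by decide +kernel

theorem cB19_8_3_70 : chunkOkM (LB19_8.ctx true true 281 587 256 9 16 886 6209 4 32) muQ true true 64 RtB19_8.Cx.left.left.right.left RtB19_8.CX RtB19_8.Ctp.right.right.left.right.right.right.left RtB19_8.Ce.right.right.left.right.right.right.left.right RtB19_8.CTp RtB19_8.CEr 0x3b98b6998fdd92ad666c2904410b78af6582a5ffef9f540d6a66b9bc657fd326adc376c1f590e79e4af685a47f8289f540d52566345c8fd360f43288f828d4d417cbaf69fcdd2ba39f540db4637cbe69f05b559728416bad8fd327c88a38f81ec49a7fd0af69d3586ae39f540d44cc83676c1e87df058f815e42a293baf6ba7724d109f540d543 = true := by decide +kernel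

theorem cB19_8_3_71 : chunkOkM (LB19_8.ctx true true 265 295 128 9 16 442 3101 4 16) muQ true true 64 RtB19_8.Cx.left.left.right.right RtB19_8.CX RtB19_8.Ctp.right.right.left.right.right.right.left RtB19_8.Ce.right.right.left.right.right.right.left.right RtB19_8.CTp RtB19_8.CEr 0x2a77a52d8fd38ee82a08f8b03e9ad099f694d2790529f540d6406e447fd28fb5a676ccc15fe17f819cc449c66af6ad67f20009f550d5 = true := by decide +kernel

theorem cB19_8_3_72 : chunkOkM (LB19_8.ctx true true 256 147 64 9 16 446 1547 4 16) muQ true true 64 RtB19_8.Cx.left.left.right RtB19_8.CX RtB19_8.Ctp.right.right.left.right.right.right.right RtB19_8.Ce.right.right.left.right.right.right.left RtB19_8.CTp RtB19_8.CEr 0x2c5ce0a78fd2f9800cf8f8b7b1230059f679dcf8dc29f540d1472b3d78fd43e2ee476c2361ab690caf656d420f4f9f540d5 = true := by decide +kernel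

theorem cB19_8_3_73 : chunkOkM (LB19_8.ctx true true 281 583 256 9 16 894 6223 4 32) muQ true true 64 RtB19_8.Cx.left.left.left RtB19_8.CX RtB19_8.Ctp.right.right.left.right.right.right RtB19_8.Ce.right.right.left.right.right.right.right RtB19_8.CTp RtB19_8.CEr 0x21214b63483e8fd583038b76c3581d47478af658a301f5c9f540d6a61c5409d28fd395fe6576c2e1b25d79b25870a9cf5af6e09c947189f250d17ec50be8fd58d908c76c98b3d969b646b924225af647e6d0ae19f550d3521742174593 = true := by decide +kernel

theorem cB19_8_3_74 : chunkOkM (LB19_8.ctx true true 294 1175 512 9 16 1774 12467 4 32) muQ true true 64 RtB19_8.Cx.left.left.right.left RtB19_8.CX RtB19_8.Ctp.right.right.left.right.right.right.left RtB19_8.Ce.right.right.left.right.right.right.right.left RtB19_8.CTp RtB19_8.CEr 0x5927ecb8878fd30a032698f83d1bc65b91af690916a9c29f540d904eb07269f05b559745935972a4138388fd8216da976c28af0d638f8fbc1b9e169f6a3f4558a69f550d6a63a46b2076c37e74e73a5af6d04dcf86b9f530d54593 = true := by decide +kernel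

end Vale.Agent.helper4.Q4
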