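import Vale.Agent.helper4.Q4TreeM
import Vale.Agent.helper4.Q4G.PB19_8

/-!
Checks for pairs of intervals of second moments.
-/

set_option maxRecDepth 100000
set_option linter.unusedVariables false

namespace Vale.Agent.helper4.Q4

theorem cB19_8_3_75 : chunkOkM (LB19_8.ctx true true 282 591 256 9 16 1766 6237 4 16) muQ true true 64 RtB19_8.Cx.left.left.right.right RtB19_8.CX RtB19_8.Ctp.right.right.left.right.right.right.left RtB19_8.Ce.right.right.left.right.right.right.right.left RtB19_8.CTp RtB19_8.CEr 0x28cf2e788fd34611ec88f81a97a775e8af69f8d963379f540d6c632957fd1b8ae3e76c23dfb15207af682b3703409f540d52100206b8fd37fea80d8f824340cfb9baf6be50d2df99f540daa780d8859f05b559359725b78bb38fd344569c28f82145407391af6a87aba78d9f540db4e27d2949f05b543 = true := by decide +kernel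

theorem cB19_8_3_76 : chunkOkM (LB19_8.ctx true true 295 1183 512 9 16 3550 12523 4 16) muQ true true 64 RtB19_8.Cx.left.left.right RtB19_8.CX RtB19_8.Ctp.right.right.left.right.right.right.left RtB19_8.Ce.right.right.left.right.right.right.right.right RtB19_8.CTp RtB19_8.CEr 0x5923a8feae8fd336a65cb8f84461bf5b20af6b27378ac29f540d7b54f7ca29f05b55935974593597278047308fd302d89938f8217f46fb64af6bd543a01b9f540d84303be76c400b30928f82ce81bd0daaf6ebdffce9e9f540d54593597 = true := by decide +kernel

theorem cB19_8_3_77 : chunkOkM (LB19_8.ctx true true 272 295 128 9 16 894 3115 4 32) muQ true true 64 RtB19_8.Cx.left.left.right RtB19_8.CX RtB19_8.Ctp.right.right.left.right.right.right.right RtB19_8.Ce.right.right.left.right.right.right.right.left RtB19_8.CTp RtB19_8.CEr 0x281130658fdbe28bf57f81e883b95d0af669d20c9379f540d6a6606d28c909f05b1bbda62c8fd580303c76cb94ad269b1c42b42591af6520a3913d9f552c66f76f9f260da1ea3727fd46563fe76c11f3a9a79b20a9dec8f3af69cc0843f89f550d375 = true := by decide +kernel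

theorem cB19_8_3_78 : chunkOkM (LB19_8.ctx true true 281 587 256 9 16 894 6265 4 32) muQ true true 64 RtB19_8.Cx.left.left.right RtB19_8.CX RtB19_8.Ctp.right.right.left.right.right.right.right RtB19_8.Ce.right.right.left.right.right.right.right.right RtB19_8.CTp RtB19_8.CEr 0x5ea4f10a8fd5f7a2f476c1049785d1baf67bb9d93a39f540d6a67f5acb27fd3f204ac76c4d5bc669b231ae78485af6877950bc79f550d55aafdf5f8fd64c451276c8b5614f979f6769813a8a9f522b53baa99f250d6a611a7eb5c8fd53c592f76ccac3cf69b29eb4abc0faf682b9024f99f5360282cef9f260d157fc5228fd58d582876c64d50e69b28477faad5af6691b9e6a59f53a48b19039f260d455945b1a74a8fd628f85476c1c7dc4a2a3af69e0b07d5e9f540d6a615b1c3f7fd39f1cbe76c3e1504cf6daf695427d7bb9f540d5697437 = true := by decide +kernel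

theorem cB19_8_3_79 : chunkOkM (LB19_8.ctx true true 288 297 128 9 16 13950 6181 4 16) muQ true true 64 RtB19_8.Cx.left.right.left RtB19_8.CX RtB19_8.Ctp.right.right.left.right.right.left.left RtB19_8.Ce.right.right.left.right.right.right.left RtB19_8.CTp RtB19_8.CEr 0x3bee30b18f81ea3aec79eaf62e4e1b0fafaf5bc0a2eac73af440d49139c5a078fd343233f38f86eb36730ffaf6180e547f1baf53ce396a8f9f450d81d570b9b9f05b576944493493493493493 = true := by decide +kernel

theorem cB19_8_3_80 : chunkOkM (LB19_8.ctx true true 261 149 64 9 16 438 6181 4 16) muQ true true 64 RtB19_8.Cx.left.right.left RtB19_8.CX RtB19_8.Ctp.right.right.left.right.right.left.right RtB19_8.Ce.right.right.left.right.right.right.left.left RtB19_8.CTp RtB19_8.CEr 0x1e3e71c88fd3719f3d88f89b10eadc99f530d6f36839b79f05b5694 = true := by decide +kernel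

theorem cB19_8_3_81 : chunkOkM (LB19_8.ctx true true 272 297 128 9 16 878 6209 4 16) muQ true true 64 RtB19_8.Cx.left.right.left RtB19_8.CX RtB19_8.Ctp.right.right.left.right.right.left.right RtB19_8.Ce.right.right.left.right.right.right.left.right RtB19_8.CTp RtB19_8.CEr 0x20d747ac8fd39263e318f8473f5bf3f9f6b1426d01f9f540d9174c21f59f05b54917f91a7c8fd32ab1bfe8f823253f1fe8af6fcb0bc42e9f511e34c26e9f450dcfd9cd2d79f05b51853a1318fd373e40348f81cb0c1b211af6f2cb613df9f540db789245809f05b5473 = true := by decide +kernel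

theorem cB19_8_3_82 : chunkOkM (LB19_8.ctx true true 252 149 64 9 16 434 1561 2 16) muQ true true 64 RtB19_8.Cx.left.right.left RtB19_8.CX RtB19_8.Ctp.right.right.left.right.right.left.left RtB19_8.Ce.right.right.left.right.right.right.right RtB19_8.CTp RtB19_8.CEr 0x2586945a8f81ac8a3f0bbaf510c3ceccdf1bf430d = true := by decide +kernel

theorem cB19_8_3_83 : chunkOkM (LB19_8.ctx true true 282 595 256 9 16 1750 6223 4 16) muQ true true 64 RtB19_8.Cx.left.right.left RtB19_8.CX RtB19_8.Ctp.right.right.left.right.right.left.right.left RtB19_8.Ce.right.right.left.right.right.right.right.left RtB19_8.CTp RtB19_8.CEr 0x49591312c2b68fd3e85732d8f85014faa23caf613f220a310af51bcba90769f450dcd7648a9f9f05b549359747 = true := by decide +kernel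

theorem cB19_8_3_84 : chunkOkM (LB19_8.ctx true true 272 297 128 9 16 878 6237 4 16) muQ true true 64 RtB19_8.Cx.left.right.left.left RtB19_8.CX RtB19_8.Ctp.right.right.left.right.right.left.right.right RtB19_8.Ce.right.right.left.right.right.right.right.left RtB19_8.CTp RtB19_8.CEr 0x1bddf7518fd2b9bc2e28f840f8575049af611fc408b79af540dd0ad0bb8d9f05b51b80fb458fd320cd2958f82349dbd820af6eac866f799f540dbb94bfe5b9f05b54 = true := by decide +kernel

theorem cB19_8_3_85 : chunkOkM (LB19_8.ctx true true 272 299 128 9 16 878 6237 4 16) muQ true true 64 RtB19_8.Cx.left.right.left.right RtB19_8.CX RtB19_8.Ctp.right.right.left.right.right.left.right.right RtB19_8.Ce.right.right.left.right.right.right.right.left RtB19_8.CTp RtB19_8.CEr 0x1922833d8fd3d159e0b8f820675c3226af6ec30233139f540da6f179d329f05b516c732eb8fd3b07bf5c8f8ce21213439f6c19a01b0b9f512d146aa39f450d1bcc3ddb5aaf04b54 = true := by decide +kernel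

end Vale.Agent.helper4.Q4
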