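import Vale.Agent.helper4.Q4TreeM
import Vale.Agent.helper4.Q4G.PB19_8

/-!
Checks for pairs of intervals of second moments.
-/

set_option maxRecDepth 100000
set_option linter.unusedVariables false

namespace Vale.Agent.helper4.Q4

theorem cB19_8_3_86 : chunkOkM (LB19_8.ctx true true 321 4767 2048 9 16 14078 49959 4 16) muQ true true 64 RtB19_8.Cx.left.right.left RtB19_8.CX RtB19_8.Ctp.right.right.left.right.right.left.right RtB19_8.Ce.right.right.left.right.right.right.right.right RtB19_8.CTp RtB19_8.CEr 0x19c1fae88fd30d04d098f835e9fe5794af611f2ecf9a3af5333773d2f9f450ddbda785659f05b51d8db5598fd3574162f8f82875d15968af6f01cbb0979f517f3cdc229f450d19728d9c8fda06687f76c65c84c4b8f81ac354bc39af6f23502bca9f534d1979a49f460d5459595959163ed7fe8fd37edd68b8f8b987d0327faf619f76dd851af540d055935974593597459359745935974744454ee38fdaa03f3d7f86275a881c1af5162f7893729bf440d3 = true := by decide +kernel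

theorem cB19_8_3_87 : chunkOkM (LB19_8.ctx true true 107 1 1 1 1 1 1 1 1) muQ true true 64 RtB19_8.Cx.left.right.right RtB19_8.CX RtB19_8.Ctp.right.right.left.right.right.left RtB19_8.Ce.right.right.left.right.right.right RtB19_8.CTp RtB19_8.CEr 0x49 = true := by decide +kernel

theorem cB19_8_3_88 : chunkOkM (LB19_8.ctx true true 107 1 1 1 1 1 1 1 1) muQ true true 64 RtB19_8.Cx.left.right RtB19_8.CX RtB19_8.Ctp.right.right.left.right.right.right RtB19_8.Ce.right.right.left.right.right.right.left RtB19_8.CTp RtB19_8.CEr 0x69 = true := by decide +kernel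

theorem cB19_8_3_89 : chunkOkM (LB19_8.ctx true true 269 297 128 9 16 886 3115 4 16) muQ true true 64 RtB19_8.Cx.left.right.left RtB19_8.CX RtB19_8.Ctp.right.right.left.right.right.right.left RtB19_8.Ce.right.right.left.right.right.right.right.left RtB19_8.CTp RtB19_8.CEr 0x692017cacf8fd30ee9a008f891328e0509f530d052474ae6a8fd3b4fedf88f8fb289aef29f6b4a56b0499f540da14404f0e9f05b537 = true := by decide +kernel

theorem cB19_8_3_90 : chunkOkM (LB19_8.ctx true true 282 595 256 9 16 1766 6265 4 16) muQ true true 64 RtB19_8.Cx.left.right.left.left RtB19_8.CX RtB19_8.Ctp.right.right.left.right.right.right.left RtB19_8.Ce.right.right.left.right.right.right.right.right RtB19_8.CTp RtB19_8.CEr 0x257c182c8fd3864f65b8f8193c97c13aaf6b21fee6049f540d3ce705b76c219712618f8177895378aaf6b287adf659f540d52aaed7d18fdc7508417f871cecf8840af6e73fa57249f540db7fa10e5e9f05b5593597214f0aa48fd37f587778f81ad2f0f4e1af6c6aa23ac29f540dbe69cd9ed9f05b543 = true := by decide +kernel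

theorem cB19_8_3_91 : chunkOkM (LB19_8.ctx true true 269 299 128 9 16 886 3129 4 16) muQ true true 64 RtB19_8.Cx.left.right.left.right RtB19_8.CX RtB19_8.Ctp.right.right.left.right.right.right.left RtB19_8.Ce.right.right.left.right.right.right.right.right RtB19_8.CTp RtB19_8.CEr 0x1df54a958fd3613d2de8f84c2d8c32b9f6a405363769f540d051e173cea8fd37e305548f8179ff5fac4af6da2576f459f540da18e69c7fd359a50e76c291323508f82880fdc2efaf6d0124d5929f550d53 = true := by decide +kernel

theorem cB19_8_3_92 : chunkOkM (LB19_8.ctx true true 258 151 64 9 16 442 1561 2 16) muQ true true 64 RtB19_8.Cx.left.right.right RtB19_8.CX RtB19_8.Ctp.right.right.left.right.right.right.left RtB19_8.Ce.right.right.left.right.right.right.right RtB19_8.CTp RtB19_8.CEr 0x7e45d997fd43a3a1ee8f832592742bd63cf6116aac3054e5cf440d = true := by decide +kernel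

theorem cB19_8_3_93 : chunkOkM (LB19_8.ctx true true 250 75 32 9 16 446 1561 4 16) muQ true true 64 RtB19_8.Cx.left.right RtB19_8.CX RtB19_8.Ctp.right.right.left.right.right.right.right RtB19_8.Ce.right.right.left.right.right.right.right RtB19_8.CTp RtB19_8.CEr 0x284432fb8fd34bba9468f882cd21a5c9f68d9f47af19f540d513285abc9f05b5 = true := by decide +kernel

theorem cB19_8_3_94 : chunkOkM (LB19_8.ctx true true 226 39 16 9 16 110 385 2 16) muQ true true 64 RtB19_8.Cx.right RtB19_8.CX RtB19_8.Ctp.right.right.left.right.right RtB19_8.Ce.right.right.left.right.right RtB19_8.CTp RtB19_8.CEr 0x206bf5dbbdaf04b = true := by decide +kernel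

theorem cB19_8_3_95 : chunkOkM (LB19_8.ctx true true 263 147 64 9 16 898 3129 4 16) muQ true true 64 RtB19_8.Cx RtB19_8.CX RtB19_8.Ctp.right.right.right RtB19_8.Ce.right.right.left RtB19_8.CTp RtB19_8.CEr 0x0111110111010132fe9c8d8fd372a60cb8f8144619453faf6e16a0189b9f240d1d39c6a76c3329ada79b13928c6a15af6cff78b5789f240d53311411401773114711431143 = true := by decide +kernel

theorem cB19_8_3_96 : chunkOkM (LB19_8.ctx true true 107 1 1 1 1 1 1 1 1) muQ true true 64 RtB19_8.Cx RtB19_8.CX RtB19_8.Ctp.right.right.left.left RtB19_8.Ce.right.right.right RtB19_8.CTp RtB19_8.CEr 0x49 = true := by decide +kernel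

theorem cB19_8_3_97 : chunkOkM (LB19_8.ctx true true 220 19 8 9 16 106 399 2 16) muQ true true 64 RtB19_8.Cx RtB19_8.CX RtB19_8.Ctp.right.right.left.right.left RtB19_8.Ce.right.right.right.left.left RtB19_8.CTp RtB19_8.CEr 0x2bb0449a08af510a0b8172a2bf420d = true := by decide +kernel

theorem cB19_8_3_98 : chunkOkM (LB19_8.ctx true true 235 37 16 9 16 218 791 2 16) muQ true true 64 RtB19_8.Cx.left RtB19_8.CX RtB19_8.Ctp.right.right.left.right.right.left RtB19_8.Ce.right.right.right.left.left.left RtB19_8.CTp RtB19_8.CEr 0x2c037ef08fd51ccac718f8642486b26baf66029283dc2dbf51a955f27dbb5cf450d = true := by decide +kernel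

theorem cB19_8_3_99 : chunkOkM (LB19_8.ctx true true 332 9471 4096 9 16 14334 50407 4 32) muQ true true 64 RtB19_8.Cx.left.left RtB19_8.CX RtB19_8.Ctp.right.right.left.right.right.right RtB19_8.Ce.right.right.right.left.left.left RtB19_8.CTp RtB19_8.CEr 0x2159596969313f9a0b8fd22e8e4a38f84fff188d1d1bf630da165ab6b85af06b5697693697469369745935974593217459321741edd2858fd45cea6c76cc672a4bec9f69293b431c9f540d6a633770a976cf1e48c69b2090bf960eaf6942c7fc4b9f540d5592a2217de8fd346aec8a8f828b3d9701baf6a2672e2b19f540d30c406776c3967319eb8af6a2aefedce9f530d55974321745932174 = true := by decide +kernel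

theorem cB19_8_3_100 : chunkOkM (LB19_8.ctx true true 311 2383 1024 9 16 7102 50295 4 16) muQ true true 64 RtB19_8.Cx.left.right.left.left RtB19_8.CX RtB19_8.Ctp.right.right.left.right.right.right.left RtB19_8.Ce.right.right.right.left.left.left.left.left RtB19_8.CTp RtB19_8.CEr 0x5959592066408d8fd343a5b198f886d890eb83af6db39194df9f540d120e23f179f05b5459359745935974593597231340a28fd2d93b0ce8f83511a7d263af6db3747d579f540dc0ce571879f05b54593 = true := by decide +kernel

end Vale.Agent.helper4.Q4
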