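import Vale.Agent.helper4.Q4TreeM
import Vale.Agent.helper4.Q4G.PB19_8

/-!
Checks for pairs of intervals of second moments.
-/

set_option maxRecDepth 100000
set_option linter.unusedVariables false

namespace Vale.Agent.helper4.Q4

theorem cB19_8_3_111 : chunkOkM (LB19_8.ctx true true 278 603 256 9 16 886 6349 4 16) muQ true true 64 RtB19_8.Cx.left.right.right RtB19_8.CX RtB19_8.Ctp.right.right.left.right.right.right.left RtB19_8.Ce.right.right.right.left.left.left.right.left RtB19_8.CTp RtB19_8.CEr 0x1e68aa628fd3c4ed4368f8258a1f891baf6ef5a44e989f52721280079f450d38e41be7fd23f5d7b76c2424e2779b15b651918f81b0b93e031af6e99a2528d9f5f5ad6dbe8f470d51e2dca858fd38c7a02b8f82dae855a1baf6f1f4c6a799f522d32ed359f450db0886e8509f05b54591dd1178a8fd35c342c48f8370d0d69deaf61036c600f9af540dcb7cafadc9f05b559747208da3818fd52674cb48f88cb5818accaf524fa1b2e5eebf440d3 = true := by decide +kernel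

theorem cB19_8_3_112 : chunkOkM (LB19_8.ctx true true 295 1213 512 9 16 3550 12719 4 16) muQ true true 64 RtB19_8.Cx.left.right.right RtB19_8.CX RtB19_8.Ctp.right.right.left.right.right.right.left RtB19_8.Ce.right.right.right.left.left.left.right.right RtB19_8.CTp RtB19_8.CEr 0x5949591a1259db8fd353fbe2f8f85154f7a20faf61355fed8f9af526aea3fcb9f450d9256248c49f05b5474934935974493597 = true := by decide +kernel

theorem cB19_8_3_113 : chunkOkM (LB19_8.ctx true true 312 2383 1024 9 16 7166 25319 4 32) muQ true true 64 RtB19_8.Cx.left.right.left RtB19_8.CX RtB19_8.Ctp.right.right.left.right.right.right.right RtB19_8.Ce.right.right.right.left.left.left.right.left RtB19_8.CTp RtB19_8.CEr 0x4ef624d38fd6d2d71276cdb14900039f6a959db5e19f540d6a6786584f76c3340444d8f81373b2e5b9af6b6e4aa04d9f540d559595927ed90c98fd315767bd8f810a105cf70fbf68c9aa97599f540d7b1f952aa9f05b5593597459359745935974759226756738fd3d9cf4b38f8231f4c3060af6c3f7019d79f540db11787ead9f05b559359745973 = true := by decide +kernel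

theorem cB19_8_3_114 : chunkOkM (LB19_8.ctx true true 327 9599 4096 9 16 14334 50855 4 16) muQ true true 64 RtB19_8.Cx.left.right.left RtB19_8.CX RtB19_8.Ctp.right.right.left.right.right.right.right RtB19_8.Ce.right.right.right.left.left.left.right.right RtB19_8.CTp RtB19_8.CEr 0x59595959242abe5e8fd32a628508f8f1ae8c94a9f530d7a369b638f05b55975935974593597459359745935974593597 = true := by decide +kernel

theorem cB19_8_3_115 : chunkOkM (LB19_8.ctx true true 272 301 128 9 16 894 6349 4 16) muQ true true 64 RtB19_8.Cx.left.right.right.left RtB19_8.CX RtB19_8.Ctp.right.right.left.right.right.right.right RtB19_8.Ce.right.right.right.left.left.left.right.left RtB19_8.CTp RtB19_8.CEr 0x2cac7b078fd3fe3edc58f86fc5383d79f69f7a9d3529f540d8783b57449f05b5226796ae8fd3a4530808f81dbc522a2caf6d2a5b3e219f540d41aa6e176c1403be188f81633bcba39af6c5abe24899f540d521eec4268fd3a4fb1658f82b0c358399af6c70f1b44f9f540da91ea9d099f05b543 = true := by decide +kernel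

theorem cB19_8_3_116 : chunkOkM (LB19_8.ctx true true 265 303 128 9 16 446 3171 4 16) muQ true true 64 RtB19_8.Cx.left.right.right.right RtB19_8.CX RtB19_8.Ctp.right.right.left.right.right.right.right RtB19_8.Ce.right.right.right.left.left.left.right.left RtB19_8.CTp RtB19_8.CEr 0x23496cb38fd42c56d108f89c6745aa19f6ae445bdca9f540d7d39bda189f05b5 = true := by decide +kernel

theorem cB19_8_3_117 : chunkOkM (LB19_8.ctx true true 294 1207 512 9 16 1782 12719 4 32) muQ true true 64 RtB19_8.Cx.left.right.right.left RtB19_8.CX RtB19_8.Ctp.right.right.left.right.right.right.right RtB19_8.Ce.right.right.right.left.left.left.right.right RtB19_8.CTp RtB19_8.CEr 0xcaf515cac9f05b6a61ebf6ca7fd793fc2076c3bbb7aa98f813ee33bd5baf6bf3c68bc49f550d559591d00b5908fd3dbc0a178f8414465b91eaf6eccc158cc9f540d9422a10229f05b5597459359743 = true := by decide +kernel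

theorem cB19_8_3_118 : chunkOkM (LB19_8.ctx true true 275 303 128 9 16 894 6377 4 32) muQ true true 64 RtB19_8.Cx.left.right.right.right RtB19_8.CX RtB19_8.Ctp.right.right.left.right.right.right.right RtB19_8.Ce.right.right.right.left.left.left.right.right RtB19_8.CTp RtB19_8.CEr 0x406de30f8fd20ffdc276c91f5afc169f6abc000aa19f540d6a695da7ee1f9f05b51f2cea408fd3da9af6e8f825d45c6ccbaf6ed0cec3ad9f540d8874186fd2da75d66c5e4a26b11baf613fc1f752aaf540d5205a9cf08fd3da29bba8f81c4fa0ee78af6ddc1910959f540d1ce287418fdcb50ef076cdb357b69b723ee5b48f827302f758caf6ef63a075c9f560d543 = true := by decide +kernel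

theorem cB19_8_3_119 : chunkOkM (LB19_8.ctx true true 295 1215 512 9 16 3566 12775 4 16) muQ true true 64 RtB19_8.Cx.left RtB19_8.CX RtB19_8.Ctp.right.right.left.right.right RtB19_8.Ce.right.right.right.left.left.right RtB19_8.CTp RtB19_8.CEr 0x59592090fdbd8fd3a30e8678f833ca8b8637af6eb31239249f540dc2d1bda4e9f05b5597236cfa028fd3bda44bc8f8249f518db6af6d254a433c9f540d4d878eb7fd4c634ec76c19a939179b2416756b8f818733ef12daf6d4ff0615c9f560d5459591a4d85ba8fd4215bad48f854a853cb2aaf610f74d41a8af540d8c20fb8729f05b559359745935974359745975934217593 = true := by decide +kernel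

theorem cB19_8_3_120 : chunkOkM (LB19_8.ctx true true 107 1 1 1 1 1 1 1 1) muQ true true 64 RtB19_8.Cx.right RtB19_8.CX RtB19_8.Ctp.right.right.left.right.right.left RtB19_8.Ce.right.right.right.left.left RtB19_8.CTp RtB19_8.CEr 0x49 = true := by decide +kernel

theorem cB19_8_3_121 : chunkOkM (LB19_8.ctx true true 107 1 1 1 1 1 1 1 1) muQ true true 64 RtB19_8.Cx.right RtB19_8.CX RtB19_8.Ctp.right.right.left.right.right.right.left RtB19_8.Ce.right.right.right.left.left RtB19_8.CTp RtB19_8.CEr 0x49 = true := by decide +kernel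

end Vale.Agent.helper4.Q4
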