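import Vale.Agent.helper4.Q4TreeM
import Vale.Agent.helper4.Q4G.PB19_8

/-!
Checks for pairs of intervals of second moments.
-/

set_option maxRecDepth 100000
set_option linter.unusedVariables false

namespace Vale.Agent.helper4.Q4

theorem cB19_8_3_122 : chunkOkM (LB19_8.ctx true true 266 153 64 9 16 890 3185 4 32) muQ true true 64 RtB19_8.Cx.right RtB19_8.CX RtB19_8.Ctp.right.right.left.right.right.right.right RtB19_8.Ce.right.right.right.left.left.left RtB19_8.CTp RtB19_8.CEr 0x11496923d981618fd1b44157cf9e97c2c89f6e601b930d9f515738d2a39f450d6a69764433b39f05b5376947694 = true := by decide +kernel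

theorem cB19_8_3_123 : chunkOkM (LB19_8.ctx true true 275 305 128 9 16 894 6405 4 32) muQ true true 64 RtB19_8.Cx.right.left.left RtB19_8.CX RtB19_8.Ctp.right.right.left.right.right.right.right RtB19_8.Ce.right.right.right.left.left.right.left.left RtB19_8.CTp RtB19_8.CEr 0x98ddc227fd169eb9e18f820e953bd93af6f1f854d3b9f540d6a6a58448bfa9f05b5492f1efa148fd4e010f87f81eb0ef9debaf6dd81524c39f56f62c17549f450d6a646765ab76c309c702455af61263f9afceaf5f819e2f429f440d5423a89248fd3e2716776c209a8e7ad3af6dd8cad9169f540d6a61ef2b0c78fdd6c4c2e76ca77c4869b7ac9381c8f82aff3974a8af6f4f40b7f49f536fea78829f470d5473 = true := by decide +kernel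

theorem cB19_8_3_124 : chunkOkM (LB19_8.ctx true true 286 611 256 9 16 1790 6433 4 32) muQ true true 64 RtB19_8.Cx.right.left.left RtB19_8.CX RtB19_8.Ctp.right.right.left.right.right.right.right RtB19_8.Ce.right.right.right.left.left.right.left.right RtB19_8.CTp RtB19_8.CEr 0x2286ea6d8fd7c42cd27f826f80633e4af6da81ed8b79f56d4a101e59f450d6a64fc13347fd384090076c245ded958f8218ac42f36af6cdb149d499f5f151c3298f460d51f4776ef8fd3b6482f58f82b0b8e5cf7af6ff8a2b1239f540db75a4ea0a9f05b5593597dc2a89d3a9f05b6a618d118188fda18fffd76c5cd6e4038f831470d95cfaf6108c572b83af550d5471e4c8f528fd4ae8d7068f81083e92de33bf54ab7d16cd64bf440d3 = true := by decide +kernel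

theorem cB19_8_3_125 : chunkOkM (LB19_8.ctx true true 272 307 128 9 16 894 3227 4 32) muQ true true 64 RtB19_8.Cx.right.left.left RtB19_8.CX RtB19_8.Ctp.right.right.left.right.right.right.right RtB19_8.Ce.right.right.right.left.left.right.right RtB19_8.CTp RtB19_8.CEr 0x5944bd35748fd2bc58bc76cc0926c05e9f6d1ff145a39f57bcb836d89f450d6a6235219076c2318dfc79b145abdbf8f8150013514aaf6dde2014da9f5266c805009f460d54935974 = true := by decide +kernel

theorem cB19_8_3_126 : chunkOkM (LB19_8.ctx true true 107 1 1 1 1 1 1 1 1) muQ true true 64 RtB19_8.Cx.right.left.right RtB19_8.CX RtB19_8.Ctp.right.right.left.right.right.right.right RtB19_8.Ce.right.right.right.left.left.right RtB19_8.CTp RtB19_8.CEr 0x49 = true := by decide +kernel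

theorem cB19_8_3_127 : chunkOkM (LB19_8.ctx true true 107 1 1 1 1 1 1 1 1) muQ true true 64 RtB19_8.Cx.right.right RtB19_8.CX RtB19_8.Ctp.right.right.left.right.right.right.right RtB19_8.Ce.right.right.right.left.left.right RtB19_8.CTp RtB19_8.CEr 0x49 = true := by decide +kernel

theorem cB19_8_3_128 : chunkOkM (LB19_8.ctx true true 217 19 8 9 16 54 413 2 16) muQ true true 64 RtB19_8.Cx RtB19_8.CX RtB19_8.Ctp.right.right.left.right RtB19_8.Ce.right.right.right.left.right RtB19_8.CTp RtB19_8.CEr 0xcede58938fd22ef49b77c1054c439c9f8207e890630af62038c334b6abf5973e2297abdbf460d = true := by decide +kernel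

theorem cB19_8_3_129 : chunkOkM (LB19_8.ctx true true 107 1 1 1 1 1 1 1 1) muQ true true 64 RtB19_8.Cx RtB19_8.CX RtB19_8.Ctp.right.right.left.right RtB19_8.Ce.right.right.right.right RtB19_8.CTp RtB19_8.CEr 0x59 = true := by decide +kernel

theorem cB19_8_3_130 : chunkOkM (LB19_8.ctx true true 278 591 256 9 16 898 3157 4 32) muQ true true 64 RtB19_8.Cx.left.left RtB19_8.CX RtB19_8.Ctp.right.right.right.left.left.left RtB19_8.Ce.right.right.right.left.left.left RtB19_8.CTp RtB19_8.CEr 0x21010154e7859d8fd4079afc76c2325265d03af6399a8e2df9f540d6a68754c5a7fd4c0815176c505f2469b23394d6d0daf68159dc2c09f53fdd105149f260d521701759fe8e0c8fd78ac66f76ccc069f1cf9f6799d3be7a9f5103f196fb9f250d6a623a1f537fd3b1caaf76c10ad52479b1b1dd2d4f0af67210882359f550c4e64069f260d50174330174 = true := by decide +kernel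

theorem cB19_8_3_131 : chunkOkM (LB19_8.ctx true true 268 299 128 9 16 450 3157 4 32) muQ true true 64 RtB19_8.Cx.left.right RtB19_8.CX RtB19_8.Ctp.right.right.right.left.left.left RtB19_8.Ce.right.right.right.left.left.left.left RtB19_8.CTp RtB19_8.CEr 0x11114806b8258fd30edcb67c33290b84b9af65b79fedbe9f540d6a60a2ba3367fd4df254076c37f28469b1c1936f9e8af676153778f9f52a1c9a0019f260d75349aef728f06c05473 = true := by decide +kernel

theorem cB19_8_3_132 : chunkOkM (LB19_8.ctx true true 272 299 128 9 16 902 3171 4 32) muQ true true 64 RtB19_8.Cx.left.right.left RtB19_8.CX RtB19_8.Ctp.right.right.right.left.left.left.left RtB19_8.Ce.right.right.right.left.left.left.right.left RtB19_8.CTp RtB19_8.CEr 0x32617d038fdf08fdbb6f9f68972dbc159f530d6a614ac792e8fd6e04ee776c1428ed69b1e3f76d9e2af690634ef3e9f550d54b892a458fd65e836b76c63cca9a389f6975022d6b9f52a66067069f250d6a6208b25c7fd3b3533a76ced3cfc69b1974ecd4f9af66e92079f99f542e2b88479f260d36a877776c1a5711679b29764d3321af69ec29870e9f540d357 = true := by decide +kernel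

theorem cB19_8_3_133 : chunkOkM (LB19_8.ctx true true 309 4767 2048 9 16 902 50855 4 32) muQ true true 64 RtB19_8.Cx.left.right.left RtB19_8.CX RtB19_8.Ctp.right.right.right.left.left.left.left RtB19_8.Ce.right.right.right.left.left.left.right.right RtB19_8.CTp RtB19_8.CEr 0x4224c0028fd105c99876c15abe671ebaf67285863259f540d6a65d9ec1d7fd4d2c8f076c11bccb679b3768d30e57af67e46c48d19f515112e63b9f260d55164229c8fd5accbc376cea7293f069f69b3bb8e6f9f540d6a64c14b8076c20df16911caf6b531abc029f530d5321212121b636d8378fd995820976ce972a58b68af630d6a63e97fa676c122c30779bf44734ed6faf630d521742174217421745937 = true := by decide +kernel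

theorem cB19_8_3_134 : chunkOkM (LB19_8.ctx true true 253 149 64 9 16 454 1589 2 16) muQ true true 64 RtB19_8.Cx.left.right.left RtB19_8.CX RtB19_8.Ctp.right.right.right.left.left.left.right RtB19_8.Ce.right.right.right.left.left.left.right RtB19_8.CTp RtB19_8.CEr 0x7c2e097d8fd3762949386c1aed07a549f83fc356db7eaf650b6a13d32bbf1fc94608d752bf060d = true := by decide +kernel

theorem cB19_8_3_135 : chunkOkM (LB19_8.ctx true true 262 151 64 9 16 450 3185 4 32) muQ true true 64 RtB19_8.Cx.left.right.right RtB19_8.CX RtB19_8.Ctp.right.right.right.left.left.left RtB19_8.Ce.right.right.right.left.left.left.right RtB19_8.CTp RtB19_8.CEr 0x114e3193588fd4bb2cd67c179a6b1c08af68b4166bd49f540d6a655334507fd46ebc9c76c9be805abf2fe7bb7f8157cc50351af6a487cc5ad9f560d53265cbe78f06c0543 = true := by decide +kernel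

theorem cB19_8_3_136 : chunkOkM (LB19_8.ctx true true 107 1 1 1 1 1 1 1 1) muQ true true 64 RtB19_8.Cx.left.left RtB19_8.CX RtB19_8.Ctp.right.right.right.left.left.left RtB19_8.Ce.right.right.right.left.left.right RtB19_8.CTp RtB19_8.CEr 0x21 = true := by decide +kernel

end Vale.Agent.helper4.Q4
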