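import Vale.Agent.helper4.Q4TreeM
import Vale.Agent.helper4.Q4G.PB19_8_0
import Vale.Agent.helper4.Q4G.PB19_8_1
import Vale.Agent.helper4.Q4G.PB19_8_2
import Vale.Agent.helper4.Q4G.PB19_8_3
import Vale.Agent.helper4.Q4G.PB19_8_4
import Vale.Agent.helper4.Q4G.PB19_8_5
import Vale.Agent.helper4.Q4G.PB19_8_6
import Vale.Agent.helper4.Q4G.PB19_8_7_0
import Vale.Agent.helper4.Q4G.PB19_8_7_1
import Vale.Agent.helper4.Q4G.PB19_8_7_2
import Vale.Agent.helper4.Q4G.PB19_8_7_3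
import Vale.Agent.helper4.Q4G.PB19_8_8
import Vale.Agent.helper4.Q4G.PB19_8_9
import Vale.Agent.helper4.Q4G.PB19_8_10
import Vale.Agent.helper4.Q4G.PB19_8_11_0
import Vale.Agent.helper4.Q4G.PB19_8_11_1
import Vale.Agent.helper4.Q4G.PB19_8_11_2
import Vale.Agent.helper4.Q4G.PB19_8_11_3
import Vale.Agent.helper4.Q4G.PB19_8_12
import Vale.Agent.helper4.Q4G.PB19_8_13
import Vale.Agent.helper4.Q4G.PB19_8_14
import Vale.Agent.helper4.Q4G.PB19_8_15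

/-!
Checks for pairs of intervals of second moments.
-/

set_option maxRecDepth 100000
set_option linter.unusedVariables false

namespace Vale.Agent.helper4.Q4

theorem covB19_8 : LB19_8.Full muQ.val RtB19_8 := ⟨(LitT.Cov.split_t (LitT.cov_of_chunkM cB19_8_3_0) (LitT.Cov.split_e (LitT.cov_of_chunkM cB19_8_3_1) (LitT.Cov.split_t (LitT.cov_of_chunkM cB19_8_3_2) (LitT.Cov.split_e (LitT.cov_of_chunkM cB19_8_3_3) (LitT.Cov.split_e (LitT.Cov.split_t (LitT.Cov.split_t (LitT.cov_of_chunkM cB19_8_3_4) (LitT.Cov.split_e (LitT.cov_of_chunkM cB19_8_3_5) (LitT.Cov.split_e (LitT.Cov.split_t (LitT.Cov.split_t (LitT.cov_of_chunkM cB19_8_3_6) (LitT.Cov.split_e (LitT.cov_of_chunkM cB19_8_3_7) (LitT.Cov.split_x (LitT.Cov.split_x (LitT.Cov.split_e (LitT.cov_of_chunkM cB19_8_3_8) (LitT.Cov.split_t (LitT.cov_of_chunkM cB19_8_3_9) (LitT.Cov.split_x (LitT.Cov.split_e (LitT.cov_of_chunkM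 cB19_8_3_10) (LitT.cov_of_chunkM cB19_8_3_11)) (LitT.cov_of_chunkM cB19_8_3_12)))) (LitT.cov_of_chunkM cB19_8_3_13)) (LitT.cov_of_chunkM cB19_8_3_14)))) (LitT.cov_of_chunkM cB19_8_3_15)) (LitT.Cov.split_t (LitT.Cov.split_t (LitT.cov_of_chunkM cB19_8_3_16) (LitT.Cov.split_x (LitT.Cov.split_x (LitT.Cov.split_e (LitT.Cov.split_e (LitT.Cov.split_t (LitT.cov_of_chunkM cB19_8_3_17) (LitT.Cov.split_x (LitT.Cov.split_e (LitT.cov_of_chunkM cB19_8_3_18) (LitT.cov_of_chunkM cB19_8_3_19)) (LitT.cov_of_chunkM cB19_8_3_20))) (LitT.cov_of_chunkM cB19_8_3_21)) (LitT.cov_of_chunkM cB19_8_3_22)) (LitT.cov_of_chunkM cB19_8_3_23)) (LitT.cov_of_chunkM cB19_8_3_24))) (LitT.Cov.split_x (LitT.Cov.split_e (LitT.Cov.split_t (LitT.Cov.split_x (LitT.Cov.split_e (LitT.Cov.split_t (LitT.Cov.split_x (LitT.Cov.split_e (LitT.cov_of_chunkM cB19_8_3_25) (LitT.Cov.split_x (LitT.cov_of_chunkM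 cB19_8_3_26) (LitT.cov_of_chunkM cB19_8_3_27))) (LitT.cov_of_chunkM cB19_8_3_28)) (LitT.Cov.split_x (LitT.Cov.split_e (LitT.cov_of_chunkM cB19_8_3_29) (LitT.cov_of_chunkM cB19_8_3_30)) (LitT.cov_of_chunkM cB19_8_3_31))) (LitT.Cov.split_x (LitT.Cov.split_t (LitT.cov_of_chunkM cB19_8_3_32) (LitT.Cov.split_e (LitT.Cov.split_x (LitT.Cov.split_t (LitT.cov_of_chunkM cB19_8_3_33) (LitT.cov_of_chunkM cB19_8_3_34)) (LitT.cov_of_chunkM cB19_8_3_35)) (LitT.Cov.split_x (LitT.cov_of_chunkM cB19_8_3_36) (LitT.cov_of_chunkM cB19_8_3_37)))) (LitT.Cov.split_t (LitT.Cov.split_e (LitT.Cov.split_t (LitT.Cov.split_x (LitT.Cov.split_e (LitT.cov_of_chunkM cB19_8_3_38) (LitT.cov_of_chunkM cB19_8_3_39)) (LitT.cov_of_chunkM cB19_8_3_40)) (LitT.cov_of_chunkM cB19_8_3_41)) (LitT.Cov.split_t (LitT.cov_of_chunkM cB19_8_3_42) (LitT.Cov.split_x (LitT.cov_of_chunkM cB19_8_3_43) (LitT.cov_of_chunkM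 cB19_8_3_44)))) (LitT.Cov.split_e (LitT.cov_of_chunkM cB19_8_3_45) (LitT.Cov.split_t (LitT.cov_of_chunkM cB19_8_3_46) (LitT.cov_of_chunkM cB19_8_3_47)))))) (LitT.cov_of_chunkM cB19_8_3_48)) (LitT.Cov.split_e (LitT.cov_of_chunkM cB19_8_3_49) (LitT.Cov.split_x (LitT.Cov.split_x (LitT.Cov.split_t (LitT.Cov.split_e (LitT.cov_of_chunkM cB19_8_3_50) (LitT.Cov.split_x (LitT.Cov.split_t (LitT.cov_of_chunkM cB19_8_3_51) (LitT.cov_of_chunkM cB19_8_3_52)) (LitT.cov_of_chunkM cB19_8_3_53))) (LitT.cov_of_chunkM cB19_8_3_54)) (LitT.cov_of_chunkM cB19_8_3_55)) (LitT.cov_of_chunkM cB19_8_3_56)))) (LitT.Cov.split_x (LitT.Cov.split_t (LitT.Cov.split_e (LitT.Cov.split_t (LitT.cov_of_chunkM cB19_8_3_57) (LitT.Cov.split_x (LitT.cov_of_chunkM cB19_8_3_58) (LitT.Cov.split_e (LitT.Cov.split_x (LitT.cov_of_chunkM cB19_8_3_59) (LitT.cov_of_chunkM cB19_8_3_60)) (LitT.Cov.split_t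 (LitT.cov_of_chunkM cB19_8_3_61) (LitT.cov_of_chunkM cB19_8_3_62))))) (LitT.cov_of_chunkM cB19_8_3_63)) (LitT.Cov.split_e (LitT.Cov.split_x (LitT.Cov.split_t (LitT.Cov.split_e (LitT.Cov.split_x (LitT.cov_of_chunkM cB19_8_3_64) (LitT.cov_of_chunkM cB19_8_3_65)) (LitT.cov_of_chunkM cB19_8_3_66)) (LitT.Cov.split_e (LitT.cov_of_chunkM cB19_8_3_67) (LitT.cov_of_chunkM cB19_8_3_68))) (LitT.Cov.split_t (LitT.Cov.split_e (LitT.cov_of_chunkM cB19_8_3_69) (LitT.Cov.split_x (LitT.cov_of_chunkM cB19_8_3_70) (LitT.cov_of_chunkM cB19_8_3_71))) (LitT.cov_of_chunkM cB19_8_3_72))) (LitT.Cov.split_x (LitT.cov_of_chunkM cB19_8_3_73) (LitT.Cov.split_t (LitT.Cov.split_e (LitT.Cov.split_x (LitT.cov_of_chunkM cB19_8_3_74) (LitT.cov_of_chunkM cB19_8_3_75)) (LitT.cov_of_chunkM cB19_8_3_76)) (LitT.Cov.split_e (LitT.cov_of_chunkM cB19_8_3_77) (LitT.cov_of_chunkM cB19_8_3_78))))))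 (LitT.Cov.split_t (LitT.Cov.split_x (LitT.Cov.split_e (LitT.Cov.split_t (LitT.cov_of_chunkM cB19_8_3_79) (LitT.Cov.split_e (LitT.cov_of_chunkM cB19_8_3_80) (LitT.cov_of_chunkM cB19_8_3_81))) (LitT.Cov.split_t (LitT.cov_of_chunkM cB19_8_3_82) (LitT.Cov.split_e (LitT.Cov.split_t (LitT.cov_of_chunkM cB19_8_3_83) (LitT.Cov.split_x (LitT.cov_of_chunkM cB19_8_3_84) (LitT.cov_of_chunkM cB19_8_3_85))) (LitT.cov_of_chunkM cB19_8_3_86)))) (LitT.cov_of_chunkM cB19_8_3_87)) (LitT.Cov.split_e (LitT.cov_of_chunkM cB19_8_3_88) (LitT.Cov.split_t (LitT.Cov.split_x (LitT.Cov.split_e (LitT.cov_of_chunkM cB19_8_3_89) (LitT.Cov.split_x (LitT.cov_of_chunkM cB19_8_3_90) (LitT.cov_of_chunkM cB19_8_3_91))) (LitT.cov_of_chunkM cB19_8_3_92)) (LitT.cov_of_chunkM cB19_8_3_93)))))) (LitT.cov_of_chunkM cB19_8_3_94)))))) (LitT.cov_of_chunkM cB19_8_3_95)) (LitT.Cov.split_t (LitT.Cov.split_t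 (LitT.cov_of_chunkM cB19_8_3_96) (LitT.Cov.split_e (LitT.Cov.split_e (LitT.Cov.split_t (LitT.cov_of_chunkM cB19_8_3_97) (LitT.Cov.split_x (LitT.Cov.split_e (LitT.Cov.split_t (LitT.cov_of_chunkM cB19_8_3_98) (LitT.Cov.split_x (LitT.cov_of_chunkM cB19_8_3_99) (LitT.Cov.split_e (LitT.Cov.split_x (LitT.Cov.split_t (LitT.Cov.split_e (LitT.Cov.split_x (LitT.cov_of_chunkM cB19_8_3_100) (LitT.cov_of_chunkM cB19_8_3_101)) (LitT.cov_of_chunkM cB19_8_3_102)) (LitT.Cov.split_e (LitT.cov_of_chunkM cB19_8_3_103) (LitT.Cov.split_x (LitT.cov_of_chunkM cB19_8_3_104) (LitT.cov_of_chunkM cB19_8_3_105)))) (LitT.Cov.split_t (LitT.Cov.split_e (LitT.cov_of_chunkM cB19_8_3_106) (LitT.Cov.split_t (LitT.cov_of_chunkM cB19_8_3_107) (LitT.cov_of_chunkM cB19_8_3_108))) (LitT.cov_of_chunkM cB19_8_3_109))) (LitT.Cov.split_t (LitT.Cov.split_x (LitT.cov_of_chunkM cB19_8_3_110) (LitT.Cov.split_e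 (LitT.cov_of_chunkM cB19_8_3_111) (LitT.cov_of_chunkM cB19_8_3_112))) (LitT.Cov.split_x (LitT.Cov.split_e (LitT.cov_of_chunkM cB19_8_3_113) (LitT.cov_of_chunkM cB19_8_3_114)) (LitT.Cov.split_e (LitT.Cov.split_x (LitT.cov_of_chunkM cB19_8_3_115) (LitT.cov_of_chunkM cB19_8_3_116)) (LitT.Cov.split_x (LitT.cov_of_chunkM cB19_8_3_117) (LitT.cov_of_chunkM cB19_8_3_118)))))))) (LitT.cov_of_chunkM cB19_8_3_119)) (LitT.Cov.split_t (LitT.cov_of_chunkM cB19_8_3_120) (LitT.Cov.split_t (LitT.cov_of_chunkM cB19_8_3_121) (LitT.Cov.split_e (LitT.cov_of_chunkM cB19_8_3_122) (LitT.Cov.split_x (LitT.Cov.split_x (LitT.Cov.split_e (LitT.Cov.split_e (LitT.cov_of_chunkM cB19_8_3_123) (LitT.cov_of_chunkM cB19_8_3_124)) (LitT.cov_of_chunkM cB19_8_3_125)) (LitT.cov_of_chunkM cB19_8_3_126)) (LitT.cov_of_chunkM cB19_8_3_127))))))) (LitT.cov_of_chunkM cB19_8_3_128)) (LitT.cov_of_chunkM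 cB19_8_3_129))) (LitT.Cov.split_t (LitT.Cov.split_e (LitT.Cov.split_e (LitT.Cov.split_x (LitT.Cov.split_t (LitT.Cov.split_t (LitT.Cov.split_e (LitT.Cov.split_x (LitT.cov_of_chunkM cB19_8_3_130) (LitT.Cov.split_e (LitT.cov_of_chunkM cB19_8_3_131) (LitT.Cov.split_x (LitT.Cov.split_t (LitT.Cov.split_e (LitT.cov_of_chunkM cB19_8_3_132) (LitT.cov_of_chunkM cB19_8_3_133)) (LitT.cov_of_chunkM cB19_8_3_134)) (LitT.cov_of_chunkM cB19_8_3_135)))) (LitT.Cov.split_x (LitT.cov_of_chunkM cB19_8_3_136) (LitT.Cov.split_e (LitT.Cov.split_x (LitT.cov_of_chunkM cB19_8_3_137) (LitT.Cov.split_t (LitT.Cov.split_e (LitT.cov_of_chunkM cB19_8_3_138) (LitT.cov_of_chunkM cB19_8_3_139)) (LitT.cov_of_chunkM cB19_8_3_140))) (LitT.Cov.split_x (LitT.cov_of_chunkM cB19_8_3_141) (LitT.Cov.split_t (LitT.cov_of_chunkM cB19_8_3_142) (LitT.cov_of_chunkM cB19_8_3_143)))))) (LitT.cov_of_chunkM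 cB19_8_3_144)) (LitT.cov_of_chunkM cB19_8_3_145)) (LitT.Cov.split_t (LitT.Cov.split_e (LitT.cov_of_chunkM cB19_8_3_146) (LitT.Cov.split_t (LitT.Cov.split_x (LitT.Cov.split_e (LitT.cov_of_chunkM cB19_8_3_147) (LitT.Cov.split_x (LitT.Cov.split_t (LitT.Cov.split_e (LitT.Cov.split_x (LitT.cov_of_chunkM cB19_8_3_148) (LitT.cov_of_chunkM cB19_8_3_149)) (LitT.cov_of_chunkM cB19_8_3_150)) (LitT.cov_of_chunkM cB19_8_3_151)) (LitT.cov_of_chunkM cB19_8_3_152))) (LitT.cov_of_chunkM cB19_8_3_153)) (LitT.cov_of_chunkM cB19_8_3_154))) (LitT.cov_of_chunkM cB19_8_3_155))) (LitT.Cov.split_x (LitT.cov_of_chunkM cB19_8_3_156) (LitT.Cov.split_t (LitT.Cov.split_e (LitT.Cov.split_x (LitT.Cov.split_t (LitT.Cov.split_e (LitT.Cov.split_x (LitT.Cov.split_t (LitT.cov_of_chunkM cB19_8_3_157) (LitT.Cov.split_e (LitT.cov_of_chunkM cB19_8_3_158) (LitT.cov_of_chunkM cB19_8_3_159)))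 (LitT.Cov.split_t (LitT.Cov.split_e (LitT.cov_of_chunkM cB19_8_3_160) (LitT.cov_of_chunkM cB19_8_3_161)) (LitT.Cov.split_e (LitT.cov_of_chunkM cB19_8_3_162) (LitT.cov_of_chunkM cB19_8_3_163)))) (LitT.Cov.split_x (LitT.cov_of_chunkM cB19_8_3_164) (LitT.Cov.split_t (LitT.cov_of_chunkM cB19_8_3_165) (LitT.Cov.split_e (LitT.Cov.split_t (LitT.cov_of_chunkM cB19_8_3_166) (LitT.cov_of_chunkM cB19_8_3_167)) (LitT.cov_of_chunkM cB19_8_3_168))))) (LitT.Cov.split_e (LitT.cov_of_chunkM cB19_8_3_169) (LitT.Cov.split_x (LitT.cov_of_chunkM cB19_8_3_170) (LitT.cov_of_chunkM cB19_8_3_171)))) (LitT.Cov.split_t (LitT.cov_of_chunkM cB19_8_3_172) (LitT.cov_of_chunkM cB19_8_3_173))) (LitT.Cov.split_t (LitT.cov_of_chunkM cB19_8_3_174) (LitT.Cov.split_x (LitT.Cov.split_e (LitT.Cov.split_x (LitT.cov_of_chunkM cB19_8_3_175) (LitT.Cov.split_t (LitT.cov_of_chunkM cB19_8_3_176)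 (LitT.cov_of_chunkM cB19_8_3_177))) (LitT.cov_of_chunkM cB19_8_3_178)) (LitT.Cov.split_e (LitT.Cov.split_t (LitT.cov_of_chunkM cB19_8_3_179) (LitT.cov_of_chunkM cB19_8_3_180)) (LitT.Cov.split_x (LitT.Cov.split_t (LitT.cov_of_chunkM cB19_8_3_181) (LitT.cov_of_chunkM cB19_8_3_182)) (LitT.Cov.split_t (LitT.cov_of_chunkM cB19_8_3_183) (LitT.cov_of_chunkM cB19_8_3_184))))))) (LitT.cov_of_chunkM cB19_8_3_185)))) (LitT.Cov.split_e (LitT.Cov.split_x (LitT.cov_of_chunkM cB19_8_3_186) (LitT.Cov.split_e (LitT.Cov.split_x (LitT.cov_of_chunkM cB19_8_3_187) (LitT.Cov.split_t (LitT.Cov.split_t (LitT.cov_of_chunkM cB19_8_3_188) (LitT.Cov.split_e (LitT.Cov.split_t (LitT.cov_of_chunkM cB19_8_3_189) (LitT.Cov.split_x (LitT.cov_of_chunkM cB19_8_3_190) (LitT.cov_of_chunkM cB19_8_3_191))) (LitT.cov_of_chunkM cB19_8_3_192))) (LitT.Cov.split_t (LitT.Cov.split_t (LitT.Cov.split_e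 (LitT.cov_of_chunkM cB19_8_3_193) (LitT.cov_of_chunkM cB19_8_3_194)) (LitT.cov_of_chunkM cB19_8_3_195)) (LitT.cov_of_chunkM cB19_8_3_196)))) (LitT.cov_of_chunkM cB19_8_3_197))) (LitT.cov_of_chunkM cB19_8_3_198))) (LitT.cov_of_chunkM cB19_8_3_199)))))))), (LitT.Cov.split_t (LitT.cov_of_chunkM cB19_8_1_0) (LitT.Cov.split_e (LitT.cov_of_chunkM cB19_8_1_1) (LitT.Cov.split_t (LitT.cov_of_chunkM cB19_8_1_2) (LitT.Cov.split_e (LitT.cov_of_chunkM cB19_8_1_3) (LitT.Cov.split_T (LitT.Cov.split_T (LitT.Cov.split_T (LitT.Cov.split_T (LitT.Cov.split_T (LitT.Cov.split_T (LitT.Cov.split_E (LitT.Cov.split_E (LitT.Cov.split_E (LitT.Cov.split_E (LitT.Cov.split_E (LitT.Cov.split_X (LitT.Cov.split_E (LitT.Cov.split_E (LitT.Cov.split_X (LitT.Cov.split_T (LitT.Cov.split_T (LitT.Cov.split_E (LitT.Cov.split_E (LitT.Cov.split_X (LitT.Cov.split_T (LitT.Cov.split_T (LitT.Cov.split_E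 (LitT.Cov.split_E (LitT.Cov.split_X (LitT.Cov.split_T (LitT.Cov.split_T (LitT.Cov.split_E (LitT.Cov.split_X (LitT.Cov.split_X (LitT.Cov.split_e (LitT.Cov.split_t (LitT.Cov.split_t (LitT.cov_of_chunkM cB19_8_1_4) (LitT.Cov.split_e (LitT.cov_of_chunkM cB19_8_1_5) (LitT.Cov.split_e (LitT.cov_of_chunkM cB19_8_1_6) (LitT.Cov.split_t (LitT.cov_of_chunkM cB19_8_1_7) (LitT.Cov.split_x (LitT.cov_of_chunkM cB19_8_1_8) (LitT.cov_of_chunkM cB19_8_1_9)))))) (LitT.cov_of_chunkM cB19_8_1_10)) (LitT.Cov.split_t (LitT.cov_of_chunkM cB19_8_1_11) (LitT.Cov.split_t (LitT.Cov.split_e (LitT.Cov.split_e (LitT.cov_of_chunkM cB19_8_1_12) (LitT.Cov.split_x (LitT.cov_of_chunkM cB19_8_1_13) (LitT.Cov.split_t (LitT.cov_of_chunkM cB19_8_1_14) (LitT.cov_of_chunkM cB19_8_1_15)))) (LitT.cov_of_chunkM cB19_8_1_16)) (LitT.cov_of_chunkM cB19_8_1_17)))) (LitT.cov_of_chunkM cB19_8_1_18))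 (LitT.cov_of_chunkM cB19_8_1_19)) (LitT.cov_of_chunkM cB19_8_1_20)) (LitT.cov_of_chunkM cB19_8_1_21)) (LitT.cov_of_chunkM cB19_8_1_22)) (LitT.cov_of_chunkM cB19_8_1_23)) (LitT.cov_of_chunkM cB19_8_1_24)) (LitT.cov_of_chunkM cB19_8_1_25)) (LitT.cov_of_chunkM cB19_8_1_26)) (LitT.cov_of_chunkM cB19_8_1_27)) (LitT.cov_of_chunkM cB19_8_1_28)) (LitT.cov_of_chunkM cB19_8_1_29)) (LitT.cov_of_chunkM cB19_8_1_30)) (LitT.cov_of_chunkM cB19_8_1_31)) (LitT.cov_of_chunkM cB19_8_1_32)) (LitT.cov_of_chunkM cB19_8_1_33)) (LitT.cov_of_chunkM cB19_8_1_34)) (LitT.cov_of_chunkM cB19_8_1_35)) (LitT.cov_of_chunkM cB19_8_1_36)) (LitT.cov_of_chunkM cB19_8_1_37)) (LitT.cov_of_chunkM cB19_8_1_38)) (LitT.cov_of_chunkM cB19_8_1_39)) (LitT.cov_of_chunkM cB19_8_1_40)) (LitT.cov_of_chunkM cB19_8_1_41)) (LitT.cov_of_chunkM cB19_8_1_42)) (LitT.cov_of_chunkM cB19_8_1_43)) (LitT.cov_of_chunkM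 cB19_8_1_44)) (LitT.cov_of_chunkM cB19_8_1_45)) (LitT.cov_of_chunkM cB19_8_1_46)) (LitT.cov_of_chunkM cB19_8_1_47)))))), (LitT.cov_of_chunkM cB19_8_2_0), (LitT.cov_of_chunkM cB19_8_0_0)⟩

end Vale.Agent.helper4.Q4
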