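import Vale.Agent.helper4.Q4TreeM
import Vale.Agent.helper4.Q4G.PB19_9

/-!
Checks for pairs of intervals of second moments.
-/

set_option maxRecDepth 100000
set_option linter.unusedVariables false

namespace Vale.Agent.helper4.Q4

theorem cB19_9_3_0 : chunkOkM (LB19_9.ctx true true 103 1 1 1 1 1 1 1 1) muQ true true 64 RtB19_9.Cx RtB19_9.CX RtB19_9.Ctp.left RtB19_9.Ce RtB19_9.CTp RtB19_9.CEr 0x41 = true := by decide +kernel

theorem cB19_9_3_1 : chunkOkM (LB19_9.ctx true true 103 1 1 1 1 1 1 1 1) muQ true true 64 RtB19_9.Cx RtB19_9.CX RtB19_9.Ctp.right RtB19_9.Ce.left RtB19_9.CTp RtB19_9.CEr 0x69 = true := by decide +kernel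

theorem cB19_9_3_2 : chunkOkM (LB19_9.ctx true true 103 1 1 1 1 1 1 1 1) muQ true true 64 RtB19_9.Cx RtB19_9.CX RtB19_9.Ctp.right.left RtB19_9.Ce.right RtB19_9.CTp RtB19_9.CEr 0x49 = true := by decide +kernel

theorem cB19_9_3_3 : chunkOkM (LB19_9.ctx true true 103 1 1 1 1 1 1 1 1) muQ true true 64 RtB19_9.Cx RtB19_9.CX RtB19_9.Ctp.right.right RtB19_9.Ce.right.left RtB19_9.CTp RtB19_9.CEr 0x69 = true := by decide +kernel

theorem cB19_9_3_4 : chunkOkM (LB19_9.ctx true true 103 1 1 1 1 1 1 1 1) muQ true true 64 RtB19_9.Cx RtB19_9.CX RtB19_9.Ctp.right.right.left.left RtB19_9.Ce.right.right.left RtB19_9.CTp RtB19_9.CEr 0x49 = true := by decide +kernel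

theorem cB19_9_3_5 : chunkOkM (LB19_9.ctx true true 103 1 1 1 1 1 1 1 1) muQ true true 64 RtB19_9.Cx RtB19_9.CX RtB19_9.Ctp.right.right.left.right RtB19_9.Ce.right.right.left.left RtB19_9.CTp RtB19_9.CEr 0x69 = true := by decide +kernel

theorem cB19_9_3_6 : chunkOkM (LB19_9.ctx true true 103 1 1 1 1 1 1 1 1) muQ true true 64 RtB19_9.Cx RtB19_9.CX RtB19_9.Ctp.right.right.left.right.left.left RtB19_9.Ce.right.right.left.right.left RtB19_9.CTp RtB19_9.CEr 0x49 = true := by decide +kernel

theorem cB19_9_3_7 : chunkOkM (LB19_9.ctx true true 103 1 1 1 1 1 1 1 1) muQ true true 64 RtB19_9.Cx RtB19_9.CX RtB19_9.Ctp.right.right.left.right.left.right RtB19_9.Ce.right.right.left.right.left.left RtB19_9.CTp RtB19_9.CEr 0x69 = true := by decide +kernel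

theorem cB19_9_3_8 : chunkOkM (LB19_9.ctx true true 281 73 32 21 32 854 2989 256 32) muQ true true 64 RtB19_9.Cx.left.left RtB19_9.CX RtB19_9.Ctp.right.right.left.right.left.right RtB19_9.Ce.right.right.left.right.left.right.left RtB19_9.CTp RtB19_9.CEr 0xc72d6b6fdd78e2d6f9670ddb6f71cea136469f614bdd703f9f550dc4eaee6fdd87d856f96abba06f79609f2fa8f61343fc9549f5800357d78f460d69449334a1903dd77fd2d710669b195459c529f61505283dd9f5958c593c8f450d84a54255 = true := by decide +kernel

theorem cB19_9_3_9 : chunkOkM (LB19_9.ctx true true 284 289 128 11 16 854 3003 128 32) muQ true true 64 RtB19_9.Cx.left.left RtB19_9.CX RtB19_9.Ctp.right.right.left.right.left.right.left RtB19_9.Ce.right.right.left.right.left.right.right RtB19_9.CTp RtB19_9.CEr 0x4949599de0686fde9b3756f97f44ca6f79d3848248f61505096d29f5626aef4e8f460d99242d6fd1126c9b488b10a222b7f8da875f898f61623fa0639f54037035c8f460d4255477493 = true := by decide +kernel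

theorem cB19_9_3_10 : chunkOkM (LB19_9.ctx true true 296 291 128 21 32 862 3017 256 64) muQ true true 64 RtB19_9.Cx.left.left RtB19_9.CX RtB19_9.Ctp.right.right.left.right.left.right.right RtB19_9.Ce.right.right.left.right.left.right.right RtB19_9.CTp RtB19_9.CEr 0x1e90c252e9f04be463376fd252c9066c1827fc07f9b9f8f6038f61250b6f1a9f550d7561786fd2a98f966c1f4c2cc7f9c3fa30448f6149cb6c889f56f65d8008f460d31221c35949f05b6b1f5e66fd17a90467f9bd6636848f611d9d780a9f540d3f046a5189f04bc059ff6fd9543756c14b3ce57f911945b8749f614f5777809f5215bb5018f460d73474a17bb0ea7fd5041a169b34eb826f8a0a77f118f61430485ce9f51f1dfc128f460d84a54255 = true := by decide +kernel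

theorem cB19_9_3_11 : chunkOkM (LB19_9.ctx true true 103 1 1 1 1 1 1 1 1) muQ true true 64 RtB19_9.Cx.left.right RtB19_9.CX RtB19_9.Ctp.right.right.left.right.left.right RtB19_9.Ce.right.right.left.right.left.right RtB19_9.CTp RtB19_9.CEr 0x49 = true := by decide +kernel

theorem cB19_9_3_12 : chunkOkM (LB19_9.ctx true true 103 1 1 1 1 1 1 1 1) muQ true true 64 RtB19_9.Cx.right RtB19_9.CX RtB19_9.Ctp.right.right.left.right.left.right RtB19_9.Ce.right.right.left.right.left.right RtB19_9.CTp RtB19_9.CEr 0x49 = true := by decide +kernel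

theorem cB19_9_3_13 : chunkOkM (LB19_9.ctx true true 262 73 32 11 16 218 749 256 32) muQ true true 64 RtB19_9.Cx RtB19_9.CX RtB19_9.Ctp.right.right.left.right.right RtB19_9.Ce.right.right.left.right.left RtB19_9.CTp RtB19_9.CEr 0x111111a9155e6fd3d437766c12a92b3849f61063a88c19f540d196e22a7fd393d7466c9e6a0569b127c8c0109f611083eeb99f550d4a54255731147 = true := by decide +kernel

theorem cB19_9_3_14 : chunkOkM (LB19_9.ctx true true 103 1 1 1 1 1 1 1 1) muQ true true 64 RtB19_9.Cx RtB19_9.CX RtB19_9.Ctp.right.right.left.right.left.left RtB19_9.Ce.right.right.left.right.right RtB19_9.CTp RtB19_9.CEr 0x49 = true := by decide +kernel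

theorem cB19_9_3_15 : chunkOkM (LB19_9.ctx true true 274 73 32 21 32 430 1519 256 32) muQ true true 64 RtB19_9.Cx.left.left RtB19_9.CX RtB19_9.Ctp.right.right.left.right.left.right RtB19_9.Ce.right.right.left.right.right.left.left RtB19_9.CTp.left RtB19_9.CEr 0x4a9b83566fd324f46c52b89b69b7a70497c8f615c4a928d9f54eef6fdc8f460d18802c479b2651819659f5d119e09659f430d384a5425 = true := by decide +kernel

theorem cB19_9_3_16 : chunkOkM (LB19_9.ctx true true 282 147 64 11 16 1726 3045 64 64) muQ true true 64 RtB19_9.Cx.left.left RtB19_9.CX RtB19_9.Ctp.right.right.left.right.left.right RtB19_9.Ce.right.right.left.right.right.left.left RtB19_9.CTp.right RtB19_9.CEr 0x9647aa6fd111d1c17f91d83a16f7c865a40d8f614a3fdb519f581995d1f8f460d9c08ec6fde10a216f968d8516f72355f3d009f617037bd0b9f551733a738f460d44934939843336fd1b324066c2729f4f7f9449f8e50e9f61c5b0562f9f550dfcef0e6fd419c0866c21503b87f9875267c08f613b73be889f52478b96d8f460d9222d866ccbfdb5f7f92fd069e789af5bf286ebe38af440d34207bf61c8fdb9c56f4c8f6160dd84809f51e362e7d8f440d67260ebdf719f5e31ab38e99f420d3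 = true := by decide +kernel

theorem cB19_9_3_17 : chunkOkM (LB19_9.ctx true true 254 73 32 11 16 214 1533 32 32) muQ true true 64 RtB19_9.Cx.left.left RtB19_9.CX RtB19_9.Ctp.right.right.left.right.left.right RtB19_9.Ce.right.right.left.right.right.left.right RtB19_9.CTp RtB19_9.CEr 0xbee47697fddd1da166ca9cc9b69b1ceb247711af574f207807caf450d = true := by decide +kernel

theorem cB19_9_3_18 : chunkOkM (LB19_9.ctx true true 103 1 1 1 1 1 1 1 1) muQ true true 64 RtB19_9.Cx.left.left RtB19_9.CX RtB19_9.Ctp.right.right.left.right.left.right RtB19_9.Ce.right.right.left.right.right.right RtB19_9.CTp RtB19_9.CEr 0x59 = true := by decide +kernel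

theorem cB19_9_3_19 : chunkOkM (LB19_9.ctx true true 103 1 1 1 1 1 1 1 1) muQ true true 64 RtB19_9.Cx.left.right RtB19_9.CX RtB19_9.Ctp.right.right.left.right.left.right RtB19_9.Ce.right.right.left.right.right RtB19_9.CTp RtB19_9.CEr 0x49 = true := by decide +kernel

theorem cB19_9_3_20 : chunkOkM (LB19_9.ctx true true 103 1 1 1 1 1 1 1 1) muQ true true 64 RtB19_9.Cx.right RtB19_9.CX RtB19_9.Ctp.right.right.left.right.left.right RtB19_9.Ce.right.right.left.right.right RtB19_9.CTp RtB19_9.CEr 0x49 = true := by decide +kernel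

theorem cB19_9_3_21 : chunkOkM (LB19_9.ctx true true 274 73 32 21 32 438 1519 256 32) muQ true true 64 RtB19_9.Cx.left.left RtB19_9.CX RtB19_9.Ctp.right.right.left.right.right.left RtB19_9.Ce.right.right.left.right.right.left.left RtB19_9.CTp.left RtB19_9.CEr 0x4a1e3ff6e7fd43f2ee66c43d45e69bc95168368f6fb9026fb8f550d1c7c7857fd22ce4e66c19f90d69bb447f5c88f61306520089f550d384a5425 = true := by decide +kernel

theorem cB19_9_3_22 : chunkOkM (LB19_9.ctx true true 286 293 128 11 16 870 6097 64 64) muQ true true 64 RtB19_9.Cx.left.left RtB19_9.CX RtB19_9.Ctp.right.right.left.right.right.left.left RtB19_9.Ce.right.right.left.right.right.left.left RtB19_9.CTp.right RtB19_9.CEr 0x069ae6b946fd69223e66c19c7d0c7f9181f773599f6169754aee9f550dee562d398f05b67b7f9e6fd1222e977f9169e72dfa9f615f5267109f540d473694e8189e6fd66109066cc0fdaa6f916670b79d9f6140b49b719f550d1194379cc9f05b6d2cb326fd4ff30166cf541f4928f6125d07dc09f540d47 = true := by decide +kernel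

theorem cB19_9_3_23 : chunkOkM (LB19_9.ctx true true 274 145 64 11 16 878 3045 64 32) muQ true true 64 RtB19_9.Cx.left.left RtB19_9.CX RtB19_9.Ctp.right.right.left.right.right.left.right RtB19_9.Ce.right.right.left.right.right.left.left RtB19_9.CTp.right RtB19_9.CEr 0x69f85f446fd5e740566c14b60c69b122cf28f59f6ea6ce8138f550d10736757fd60b4fe66cc1376c6c8f6feed03dc8f540d37170b81d7fd42fd1866cc5a216d28f6d5f523ae8f540d4 = true := by decide +kernel

theorem cB19_9_3_24 : chunkOkM (LB19_9.ctx true true 280 147 64 21 32 438 1533 256 32) muQ true true 64 RtB19_9.Cx.left.left RtB19_9.CX RtB19_9.Ctp.right.right.left.right.right.left RtB19_9.Ce.right.right.left.right.right.left.right RtB19_9.CTp.left RtB19_9.CEr 0x4a2d14c266c8bb91769b12ec708da9f6130212b529f540d13d7fbb7fd276d2666c2059c569b114335e7f8112c52c589f615e995a169f518391adc8f470d312fc3287fd523ed066c79ebd469b100ab220a9f6139d35f2a9f550d784a5425 = true := by decide +kernel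

theorem cB19_9_3_25 : chunkOkM (LB19_9.ctx true true 277 147 64 11 16 870 3073 64 64) muQ true true 64 RtB19_9.Cx.left.left RtB19_9.CX RtB19_9.Ctp.right.right.left.right.right.left.left RtB19_9.Ce.right.right.left.right.right.left.right RtB19_9.CTp.right RtB19_9.CEr 0xdeb4676fd608ade66c1cf829f7f9eda472ce8f6148defb6f9f521cdd8908f460da1e8096fd5bb7ee66c260e11a7f94d8307368f6144d3c3ea9f57b38a75c8f460d3287311018fd12508e0dc9f615f1271069f5418770748f440d65bb2126fd16235766c239c74c7f960c395c68f6122d8ab179f550d6cd7366fd4a056366c1bfd6d07f9c45510068f61472ed5229f56c6932848f460d311e4d9d0e9f05b64ab599d6fd1ee32d66c152d8e4bf9f614e1839a69f540d7 = true := by decide +kernel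

theorem cB19_9_3_26 : chunkOkM (LB19_9.ctx true true 270 147 64 11 16 438 1533 64 64) muQ true true 64 RtB19_9.Cx.left.left RtB19_9.CX RtB19_9.Ctp.right.right.left.right.right.left.right RtB19_9.Ce.right.right.left.right.right.left.right RtB19_9.CTp.right RtB19_9.CEr 0xb972096fd40643c66caf9a9cc08f6117ae43129f540d159a65a7fd79bd4666cd71619e28f610a472ffb9f540d351408ce8fd994fbf138f6119ab802d9f530d67 = true := by decide +kernel

theorem cB19_9_3_27 : chunkOkM (LB19_9.ctx true true 103 1 1 1 1 1 1 1 1) muQ true true 64 RtB19_9.Cx.left.left RtB19_9.CX RtB19_9.Ctp.right.right.left.right.right.right RtB19_9.Ce.right.right.left.right.right.left.left RtB19_9.CTp RtB19_9.CEr 0x69 = true := by decide +kernel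

theorem cB19_9_3_28 : chunkOkM (LB19_9.ctx true true 285 145 64 21 32 446 3073 256 32) muQ true true 64 RtB19_9.Cx.left.left RtB19_9.CX RtB19_9.Ctp.right.right.left.right.right.right RtB19_9.Ce.right.right.left.right.right.left.right RtB19_9.CTp.left RtB19_9.CEr 0x4a69173e46a7fdc8bf7c66cafcaa59bcee607568f6715a089f6eaf11565661a58bbf060d1c137547fd785e9366c6674c969b1283755b69f6ea4e5fd18f550d26838f27fd5d5a5566c18bee769b2099b5d519f6cb5badb68f550d43784a5425 = true := by decide +kernel

end Vale.Agent.helper4.Q4
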