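import Vale.Agent.helper4.Q4TreeM
import Vale.Agent.helper4.Q4G.PB19_9

/-!
Checks for pairs of intervals of second moments.
-/

set_option maxRecDepth 100000
set_option linter.unusedVariables false

namespace Vale.Agent.helper4.Q4

theorem cB19_9_3_39 : chunkOkM (LB19_9.ctx true true 290 149 64 21 32 878 3129 256 64) muQ true true 64 RtB19_9.Cx.left.right.left RtB19_9.CX RtB19_9.Ctp.right.right.left.right.right.left RtB19_9.Ce.right.right.left.right.right.right.right RtB19_9.CTp RtB19_9.CEr 0x1368a96fd6f78eb66c159e65b7f9b6e4ccb68f6150c30bf79f5542b81df8f460d3393fb17f972ee0a3ac9f51a5361ec34af430d3c9b88d6fd822dca66c18976df7f9110e74e519f614b0896f79f521a661ba8f460d50473666c221ab647f9f626a5358f614fe166849f59b61404b8f450d342f32856e8fd5202fc5a8f614f3385b09f552f3b5628f440d61a06cbd3c9f5146bfb85f0af420d34a107450c7fd8da52a66c4be46169b411e6a27f899f75ab08f61520ad36b9f55ab508018f470d4aba0d69b1a7cd0c909f51245d7216caf430d384a54255 = true := by decide +kernel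

theorem cB19_9_3_40 : chunkOkM (LB19_9.ctx true true 103 1 1 1 1 1 1 1 1) muQ true true 64 RtB19_9.Cx.left.right.right RtB19_9.CX RtB19_9.Ctp.right.right.left.right.right.left RtB19_9.Ce.right.right.left.right.right.right RtB19_9.CTp RtB19_9.CEr 0x49 = true := by decide +kernel

theorem cB19_9_3_41 : chunkOkM (LB19_9.ctx true true 293 151 64 21 32 446 3129 256 64) muQ true true 64 RtB19_9.Cx.left.right RtB19_9.CX RtB19_9.Ctp.right.right.left.right.right.right RtB19_9.Ce.right.right.left.right.right.right RtB19_9.CTp RtB19_9.CEr 0xeac8586fd6d72bd66c9b289f69b862dfc4a5e1bf62e48b68b157bf450db21b986fd2687fd66ced46759b2299425659f6e9b85d1a8f550d1067a577fdb6dcb966c4d7da26f913c2e93d59f61402a1f339f550d1157f99fa9f05b6bcd6536fd36144e66c865a8bd48f6115b055269f540d434a1868a9a7fdc08a0b66c5b423269b476ea227f8152d7099a9f612a5bf4039f560d84a542557694 = true := by decide +kernel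

theorem cB19_9_3_42 : chunkOkM (LB19_9.ctx true true 237 39 16 11 16 110 385 32 32) muQ true true 64 RtB19_9.Cx.right RtB19_9.CX RtB19_9.Ctp.right.right.left.right.right RtB19_9.Ce.right.right.left.right.right RtB19_9.CTp RtB19_9.CEr 0x2d1e178419f04b = true := by decide +kernel

theorem cB19_9_3_43 : chunkOkM (LB19_9.ctx true true 274 147 64 11 16 898 3129 64 32) muQ true true 64 RtB19_9.Cx RtB19_9.CX RtB19_9.Ctp.right.right.right RtB19_9.Ce.right.right.left RtB19_9.CTp RtB19_9.CEr 0x01111111110101ddb5b96fd56682366c33096269b1ba486528f615df0a0579f250d2975afc7fd186ce8e585c1b975bd588b62ad3817f84ca6b8c88f61858ca60f9f260d51141143301771147311431143 = true := by decide +kernel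

theorem cB19_9_3_44 : chunkOkM (LB19_9.ctx true true 103 1 1 1 1 1 1 1 1) muQ true true 64 RtB19_9.Cx RtB19_9.CX RtB19_9.Ctp.right.right.left.left RtB19_9.Ce.right.right.right RtB19_9.CTp RtB19_9.CEr 0x49 = true := by decide +kernel

theorem cB19_9_3_45 : chunkOkM (LB19_9.ctx true true 231 19 8 11 16 106 399 32 32) muQ true true 64 RtB19_9.Cx RtB19_9.CX RtB19_9.Ctp.right.right.left.right.left RtB19_9.Ce.right.right.right.left.left RtB19_9.CTp RtB19_9.CEr 0x31da4a66c36f7ae7579f515fd59b1a9af430d = true := by decide +kernel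

theorem cB19_9_3_46 : chunkOkM (LB19_9.ctx true true 247 37 16 11 16 218 791 32 32) muQ true true 64 RtB19_9.Cx.left RtB19_9.CX RtB19_9.Ctp.right.right.left.right.right.left RtB19_9.Ce.right.right.right.left.left.left RtB19_9.CTp RtB19_9.CEr 0xc5e49a97f8a9d01c2269f680eeca0d11af523659287117bf440d = true := by decide +kernel

theorem cB19_9_3_47 : chunkOkM (LB19_9.ctx true true 278 147 64 11 16 446 1575 256 64) muQ true true 64 RtB19_9.Cx.left.left RtB19_9.CX RtB19_9.Ctp.right.right.left.right.right.right RtB19_9.Ce.right.right.right.left.left.left RtB19_9.CTp RtB19_9.CEr 0x21146c29d7fd98de6e66cf9b2559ba4a343db8f6fadee5748f550d3fa470ed8fd64da33178f6fb7bfc7f8f530d61596ecd7fdb33a9066c9534e369b22309c77f88e67b4b08f61130901539f560d4a542555932174 = true := by decide +kernel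

theorem cB19_9_3_48 : chunkOkM (LB19_9.ctx true true 280 149 64 21 32 446 1575 256 32) muQ true true 64 RtB19_9.Cx.left.right.left RtB19_9.CX RtB19_9.Ctp.right.right.left.right.right.right RtB19_9.Ce.right.right.right.left.left.left.left RtB19_9.CTp.left RtB19_9.CEr 0x4a19f2ce97fdf74d6766c5e9e9169b58f53017f8b6ce8f1b8f611c11c6709f560da8945a6fdc48b4766c6e221869b51009167f8bcf5915d8f6156ecb5ab9f560d384a5425 = true := by decide +kernel

theorem cB19_9_3_49 : chunkOkM (LB19_9.ctx true true 273 149 64 11 16 446 3157 64 64) muQ true true 64 RtB19_9.Cx.left.right.left RtB19_9.CX RtB19_9.Ctp.right.right.left.right.right.right RtB19_9.Ce.right.right.right.left.left.left.left RtB19_9.CTp.right RtB19_9.CEr 0x9656db66cad80b0ca8f61136ae9fb9f530d1ff62da78fd7cfcf1dc8f611a08f4fc9f530d61ba16d27fd7213f366c1018b2eeb9f6fb81b5c68f540df0fac90d8f05b64f79c0966c13d7300f39f61436061819f530de9460c6fdb676f866c9c88216f9112e296779f614910c09a9f550d42ffda43d8fda7abb73e8f61516745979f530d63 = true := by decide +kernel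

theorem cB19_9_3_50 : chunkOkM (LB19_9.ctx true true 290 151 64 21 32 886 3157 256 64) muQ true true 64 RtB19_9.Cx.left.right.right RtB19_9.CX RtB19_9.Ctp.right.right.left.right.right.right.left RtB19_9.Ce.right.right.right.left.left.left.left RtB19_9.CTp RtB19_9.CEr 0x9603c86fd830a9166c1ed64fd7f9c74200bf8f613fdd62f39f550d82de476fd718e9566c172b4057f91389f6ec79f615957d5d29f5916fdb318f460d3215e49718fdf7bc46c68f616fcf92839f51077875e8f440d656ae296fd6f87b766c16ffdde7f91c455e2b39f6142306f669f550d1896836fd83586466c121f3157f9e52a16078f6141f005a49f585cab8588f460d310f8a9fd69f05b644a13376bd7fdd6d9c766c3980cd69b64e2bc97f810ec1f9c29f615aec6f649f53da305688f470d14712f57fdc5faf266c37d49569b5f16f107f812c6e4afe9f6152b177c69f53643087c8f470d484a54255 = true := by decide +kernel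

theorem cB19_9_3_51 : chunkOkM (LB19_9.ctx true true 272 151 64 11 16 446 1575 128 32) muQ true true 64 RtB19_9.Cx.left.right.right RtB19_9.CX RtB19_9.Ctp.right.right.left.right.right.right.right RtB19_9.Ce.right.right.right.left.left.left.left RtB19_9.CTp RtB19_9.CEr 0xc2f4766fd10675266c11cb6f84b9f6119b874c69f540d8e0b636fd43073666ca6657769b12fb487d99f61411063a69f550d4255 = true := by decide +kernel

theorem cB19_9_3_52 : chunkOkM (LB19_9.ctx true true 281 151 64 21 32 446 1589 256 32) muQ true true 64 RtB19_9.Cx.left.right RtB19_9.CX RtB19_9.Ctp.right.right.left.right.right.right RtB19_9.Ce.right.right.right.left.left.left.right RtB19_9.CTp.left RtB19_9.CEr 0x4a13547ab7fd11c195176c72b31369b75d15c67f81113018c39f614eee28b09f560d1420b757fddfbeaa66c40f9ca69b5573faf7f8d3095ef58f612b04d8969f560d710cef4d7fdeaf20266c4a2d1469b6ff1dcc7f8b05eec9c8f616593e1b19f53f1216458f470d384a5425 = true := by decide +kernel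

theorem cB19_9_3_53 : chunkOkM (LB19_9.ctx true true 261 75 32 11 16 222 1589 64 64) muQ true true 64 RtB19_9.Cx.left.right RtB19_9.CX RtB19_9.Ctp.right.right.left.right.right.right RtB19_9.Ce.right.right.right.left.left.left.right RtB19_9.CTp.right RtB19_9.CEr.left 0x4339c3a68fdc6af3e7a8f615c62f11a9f51415ef178f440d = true := by decide +kernel

theorem cB19_9_3_54 : chunkOkM (LB19_9.ctx true true 284 303 128 11 16 894 3185 64 64) muQ true true 64 RtB19_9.Cx.left.right RtB19_9.CX RtB19_9.Ctp.right.right.left.right.right.right RtB19_9.Ce.right.right.right.left.left.left.right RtB19_9.CTp.right RtB19_9.CEr.right 0x7bfeb966c8c027a1e8f612d280ae39f530db7d25f6fdb5491a66c11317387f9de80f2628f614f05aec99f550d3ef90816fd9060da66ce63e7a6f9e103136c8f612c0e66899f550d498c43466c15f606a0c9f612273b6be9f530d7995d9f66c1057ceb7f914092484b9f61628162ca9f5641b5ff78f450d14bce06fda4032866ce1aa786f9107272e4d9f614ef4878e9f5784cdcd88f460dd9e96666c13c065a7f923bdc0f649f61716fb1159f540d74e541cd7f98faaa124d9f523accba906af430d345973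 = true := by decide +kernel

end Vale.Agent.helper4.Q4
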