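import Vale.Agent.helper4.Q4TreeM
import Vale.Agent.helper4.Q4G.PB19_9

/-!
Checks for pairs of intervals of second moments.
-/

set_option maxRecDepth 100000
set_option linter.unusedVariables false

namespace Vale.Agent.helper4.Q4

theorem cB19_9_3_55 : chunkOkM (LB19_9.ctx true true 284 303 128 11 16 446 3199 128 64) muQ true true 64 RtB19_9.Cx.left RtB19_9.CX RtB19_9.Ctp.right.right.left.right.right RtB19_9.Ce.right.right.right.left.left.right RtB19_9.CTp RtB19_9.CEr 0x5959103677e76c1fe0cb5189f616fe8e1bf9f530d13f87d92e9f05b634fa406fd4fcfe9575c8821cd69b1ea8e9a7f81ba3021fd9f616875be199f560d425559745975934217593 = true := by decide +kernel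

theorem cB19_9_3_56 : chunkOkM (LB19_9.ctx true true 103 1 1 1 1 1 1 1 1) muQ true true 64 RtB19_9.Cx.right RtB19_9.CX RtB19_9.Ctp.right.right.left.right.right.left RtB19_9.Ce.right.right.right.left.left RtB19_9.CTp RtB19_9.CEr 0x49 = true := by decide +kernel

theorem cB19_9_3_57 : chunkOkM (LB19_9.ctx true true 103 1 1 1 1 1 1 1 1) muQ true true 64 RtB19_9.Cx.right RtB19_9.CX RtB19_9.Ctp.right.right.left.right.right.right.left RtB19_9.Ce.right.right.right.left.left RtB19_9.CTp RtB19_9.CEr 0x49 = true := by decide +kernel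

theorem cB19_9_3_58 : chunkOkM (LB19_9.ctx true true 282 153 64 11 16 890 3185 128 64) muQ true true 64 RtB19_9.Cx.right RtB19_9.CX RtB19_9.Ctp.right.right.left.right.right.right.right RtB19_9.Ce.right.right.right.left.left.left RtB19_9.CTp RtB19_9.CEr 0x114969a6c03f6fdad8f6b66c148f9e47f915b3d45749f613a38b6299f58d2b6d9e8f460df15af2938f05b6376943f89616fd42e66d66c8ac3f569b258d1117f815f6633b09f614ab462429f57aceb8aa8f470d42557694 = true := by decide +kernel

theorem cB19_9_3_59 : chunkOkM (LB19_9.ctx true true 288 153 64 21 32 894 3213 256 32) muQ true true 64 RtB19_9.Cx.right.left.left RtB19_9.CX RtB19_9.Ctp.right.right.left.right.right.right.right RtB19_9.Ce.right.right.right.left.left.right.left RtB19_9.CTp.left RtB19_9.CEr 0x4a156abb27fd14a7d6f76c51b79869b9b17be37f87db38fb38f615616b7439f52a52af768f470d1b7cb2f7fd2b5d2ee76c16c0eb879b1473e1b18f8fe11d7b5c9f5441a1fbf57af460d313cc0757fd130702a76c532d6d69b8d8f9107f8f95a26fd8f615b570e7e9f53a3a6f6b8f470d484a5425 = true := by decide +kernel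

theorem cB19_9_3_60 : chunkOkM (LB19_9.ctx true true 284 307 128 11 16 894 3213 64 64) muQ true true 64 RtB19_9.Cx.right.left.left RtB19_9.CX RtB19_9.Ctp.right.right.left.right.right.right.right RtB19_9.Ce.right.right.right.left.left.right.left RtB19_9.CTp.right RtB19_9.CEr 0xb8a46366ce0f1af6f911160d8499f6140a7cefd9f5907cee8f8f450d72a30a6fdcd7bd866c16ce5177f91088f5e6a9f614f3a92ac9f550d711d7c7176c1925f22e59f610ebc8bb46af54946e76d78af440d3bbdeb26fd9a9f8966c1d18ec47f975717d828f612d8da3d29f550da6d9f266c11cd20f7f9109a67b4d9f6150df0e8a9f58cb2d00b8f450d34376a802f8fd9d6ad1e48f615403b9ed9f530d6 = true := by decide +kernel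

theorem cB19_9_3_61 : chunkOkM (LB19_9.ctx true true 288 307 128 11 16 894 3227 128 64) muQ true true 64 RtB19_9.Cx.right.left.left RtB19_9.CX RtB19_9.Ctp.right.right.left.right.right.right.right RtB19_9.Ce.right.right.right.left.left.right.right RtB19_9.CTp RtB19_9.CEr 0x59b3209066c13ce69d839f616c29aa739f5964863688f440d14831642c9f05b65d89f16fd8103ff675c933aaaf78b3df4be87f8d0e362668f61637a98909f566b90a108f470d42554935974 = true := by decide +kernel

theorem cB19_9_3_62 : chunkOkM (LB19_9.ctx true true 103 1 1 1 1 1 1 1 1) muQ true true 64 RtB19_9.Cx.right.left.right RtB19_9.CX RtB19_9.Ctp.right.right.left.right.right.right.right RtB19_9.Ce.right.right.right.left.left.right RtB19_9.CTp RtB19_9.CEr 0x49 = true := by decide +kernel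

theorem cB19_9_3_63 : chunkOkM (LB19_9.ctx true true 103 1 1 1 1 1 1 1 1) muQ true true 64 RtB19_9.Cx.right.right RtB19_9.CX RtB19_9.Ctp.right.right.left.right.right.right.right RtB19_9.Ce.right.right.right.left.left.right RtB19_9.CTp RtB19_9.CEr 0x49 = true := by decide +kernel

theorem cB19_9_3_64 : chunkOkM (LB19_9.ctx true true 229 19 8 11 16 54 413 32 32) muQ true true 64 RtB19_9.Cx RtB19_9.CX RtB19_9.Ctp.right.right.left.right RtB19_9.Ce.right.right.right.left.right RtB19_9.CTp RtB19_9.CEr 0x12eed0e76c13d4a8779b2be5d22c19f62dba455786af5d6107df03eaf450d = true := by decide +kernel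

theorem cB19_9_3_65 : chunkOkM (LB19_9.ctx true true 103 1 1 1 1 1 1 1 1) muQ true true 64 RtB19_9.Cx RtB19_9.CX RtB19_9.Ctp.right.right.left.right RtB19_9.Ce.right.right.right.right RtB19_9.CTp RtB19_9.CEr 0x59 = true := by decide +kernel

theorem cB19_9_3_66 : chunkOkM (LB19_9.ctx true true 287 147 64 21 32 898 1575 256 64) muQ true true 64 RtB19_9.Cx.left.left RtB19_9.CX RtB19_9.Ctp.right.right.right.left.left.left RtB19_9.Ce.right.right.right.left.left.left RtB19_9.CTp RtB19_9.CEr 0x210101113c9987fdaf5b0a66c1361f5978bae96264b8f6cd45760d8f54522a5128f260d3e3373bc8fd5b43149e8f6efa7bfd58f542bc1a968f240d64a16fa03b7fd104379db85c9387a669b480d62c7f8b3bc4c548f6ee8613ac8f541756d2c8f270d84a54255330174 = true := by decide +kernel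

theorem cB19_9_3_67 : chunkOkM (LB19_9.ctx true true 282 149 64 11 16 450 3157 256 64) muQ true true 64 RtB19_9.Cx.left.right RtB19_9.CX RtB19_9.Ctp.right.right.right.left.left.left RtB19_9.Ce.right.right.right.left.left.left.left RtB19_9.CTp RtB19_9.CEr 0x1111a102846fd965c4966c11e74669b17440be159f6cdf078e38f5d40b38c7f260dcc7923b08f05b6741b05c41e2dcda7fdf72b6f66c93a12269b3f331547f8d7a95c2d8f6eb2966fe8f560d4a542553 = true := by decide +kernel

theorem cB19_9_3_68 : chunkOkM (LB19_9.ctx true true 289 149 64 21 32 454 3185 256 64) muQ true true 64 RtB19_9.Cx.left.right.left RtB19_9.CX RtB19_9.Ctp.right.right.right.left.left.left RtB19_9.Ce.right.right.right.left.left.left.right RtB19_9.CTp RtB19_9.CEr 0x1eaf32676c7a8a97e7f87014efc649f6f25ce39e0faf12f4f446bb29bf050df424926fda7331766c10e2fb55b9f6e2c0f3988f5222a52478f250df8188e6fd9e42b466c291f359be5719cda8f6d8d34e4c8f531fff6388f260d42875e0638fd6a221bc48f6f7c0bc168f525b244e68f240d634aff67c166c14a6446449f6648aaae51eaf113ae7b0e73cbf040d1aa977b7fd1398eaf76c82bc2769b6d7f90a7f810eee0d3b9f61046628799f513cf389d8f270d1ceb7877fd12267ef76c79a9db69b5f9d08b7f8fc0223fe8f6f5e395298f5153110768f270d4384a54255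 = true := by decide +kernel

theorem cB19_9_3_69 : chunkOkM (LB19_9.ctx true true 278 151 64 11 16 450 3185 128 64) muQ true true 64 RtB19_9.Cx.left.right.right RtB19_9.CX RtB19_9.Ctp.right.right.right.left.left.left RtB19_9.Ce.right.right.right.left.left.left.right RtB19_9.CTp RtB19_9.CEr 0x11e9891766c18fb81f179f6ec96aa218f530ddcdd879e8f05b621b05c4fc92a06fd99679466cdc15c969b2c4a2827f8decba8128f61153381959f560d42553 = true := by decide +kernel

theorem cB19_9_3_70 : chunkOkM (LB19_9.ctx true true 103 1 1 1 1 1 1 1 1) muQ true true 64 RtB19_9.Cx.left.left RtB19_9.CX RtB19_9.Ctp.right.right.right.left.left.left RtB19_9.Ce.right.right.right.left.left.right RtB19_9.CTp RtB19_9.CEr 0x21 = true := by decide +kernel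

theorem cB19_9_3_71 : chunkOkM (LB19_9.ctx true true 293 299 128 21 32 454 3199 256 64) muQ true true 64 RtB19_9.Cx.left.right RtB19_9.CX RtB19_9.Ctp.right.right.right.left.left.left RtB19_9.Ce.right.right.right.left.left.right.left RtB19_9.CTp RtB19_9.CEr 0xbc772c6fd10de10b76ce302859bbc280de88f6e0f562f78f5358aa2068f260d114a3f87fdaed31a66cd7f7243d8f6111bc7db29f540d321c026046fdcebac166c157ed40369f6df52bb438f54a9e527a8f250d474f0c8cbc8fdb5a24c458f610d1392149f518162d6e8f240d64a1c4f4997fd168ed2d76c7bba2169b80502d47f8ec8426248f6f475a9c38f52664c5aa8f270d1976b587fd15b53f976c71cf3c69b8568a177f8cf7dbc988f6128b3e45e9f560d3211bc4eff7fd13fe28f76c8b234d69b675097d7f8187594b449f6f9ff53928f5340aefd98f270d2174784a54255 = true := by decide +kernel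

theorem cB19_9_3_72 : chunkOkM (LB19_9.ctx true true 287 151 64 21 32 454 3241 256 64) muQ true true 64 RtB19_9.Cx.left.right RtB19_9.CX RtB19_9.Ctp.right.right.right.left.left.left RtB19_9.Ce.right.right.right.left.left.right.right RtB19_9.CTp RtB19_9.CEr 0xae8ccb6fde5823a66c9fb8adf48f6f0782fdf8f52e10a12f8f250d119ff1276c191f700149f6123c6e2bd9f530d345b0e1c68fdc665983e8f612e5025349f530d64a1e9462d7fd1996b2d76c8084e669b9edcc047f814c38cd529f610a4825749f5292405b78f270d1ba1d227fd183c73576c943b8169b8da602d7f8120b52c759f6103fd6bbb9f523ba12668f270d4133de667fd155909d76c88086a69b87f027d7f8e7cfe7008f6136e524659f560d384a54255217 = true := by decide +kernel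

theorem cB19_9_3_73 : chunkOkM (LB19_9.ctx true true 103 1 1 1 1 1 1 1 1) muQ true true 64 RtB19_9.Cx.left RtB19_9.CX RtB19_9.Ctp.right.right.right.left.left.right RtB19_9.Ce.right.right.right.left.left RtB19_9.CTp RtB19_9.CEr 0x01 = true := by decide +kernel

theorem cB19_9_3_74 : chunkOkM (LB19_9.ctx true true 103 1 1 1 1 1 1 1 1) muQ true true 64 RtB19_9.Cx.left RtB19_9.CX RtB19_9.Ctp.right.right.right.left.right RtB19_9.Ce.right.right.right.left.left RtB19_9.CTp RtB19_9.CEr 0x01 = true := by decide +kernel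

theorem cB19_9_3_75 : chunkOkM (LB19_9.ctx true true 103 1 1 1 1 1 1 1 1) muQ true true 64 RtB19_9.Cx.right RtB19_9.CX RtB19_9.Ctp.right.right.right.left.left RtB19_9.Ce.right.right.right.left.left.left RtB19_9.CTp RtB19_9.CEr 0x69 = true := by decide +kernel

theorem cB19_9_3_76 : chunkOkM (LB19_9.ctx true true 278 153 64 11 16 450 3213 128 64) muQ true true 64 RtB19_9.Cx.right.left RtB19_9.CX RtB19_9.Ctp.right.right.right.left.left.left RtB19_9.Ce.right.right.right.left.left.right.left RtB19_9.CTp RtB19_9.CEr 0x6969a492ff66c13bb4f3a99f6123d0d3d29f530d10066af439f05b6e856769f8f05b49149a36fd89adce66ca7936e69b398836d7f8e44e44bb8f61401eeb049f560d425573 = true := by decide +kernel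

end Vale.Agent.helper4.Q4
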