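import Vale.Agent.helper4.Q4TreeM
import Vale.Agent.helper4.Q4G.PB19_9

/-!
Checks for pairs of intervals of second moments.
-/

set_option maxRecDepth 100000
set_option linter.unusedVariables false

namespace Vale.Agent.helper4.Q4

theorem cB19_9_3_77 : chunkOkM (LB19_9.ctx true true 287 153 64 21 32 450 3241 256 64) muQ true true 64 RtB19_9.Cx.right.left.left RtB19_9.CX RtB19_9.Ctp.right.right.right.left.left.left.left RtB19_9.Ce.right.right.right.left.left.right.right RtB19_9.CTp RtB19_9.CEr 0xd137116fd105f32176c1c4eb6df69f615becb7489f540db141d76fdf5096e66c6848bb6f91487ddce79f61426f5afc9f550d43a27ee338fd625af4668f614ca2a9179f530d64a13e9fe17fd17a403776c7c741969b9e3d3957f8dac952de8f615ff828a39f560d15740ce7fd178119976c77292069b9eca4f07f8edabf5278f6154a6f9889f560d484a54255 = true := by decide +kernel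

theorem cB19_9_3_78 : chunkOkM (LB19_9.ctx true true 282 153 64 11 16 454 3241 256 64) muQ true true 64 RtB19_9.Cx.right.left.left RtB19_9.CX RtB19_9.Ctp.right.right.right.left.left.left.right RtB19_9.Ce.right.right.right.left.left.right.right RtB19_9.CTp RtB19_9.CEr 0x1180abb7fdfe9de766c85063e8e8f6107f29d729f540d1054465a19f05b6a25ac46fd219c1f66c1c896a69b16d2faad39f6fdf07d478f550d41884f397fd1773bb076cad455169b91bfc147f8ddf42d218f6117470e3e9f560d4a54255 = true := by decide +kernel

theorem cB19_9_3_79 : chunkOkM (LB19_9.ctx true true 291 155 64 21 32 902 3241 256 64) muQ true true 64 RtB19_9.Cx.right.left.right RtB19_9.CX RtB19_9.Ctp.right.right.right.left.left.left RtB19_9.Ce.right.right.right.left.left.right.right RtB19_9.CTp RtB19_9.CEr 0x698f8d066fde3e95266cd0f46e6f9831811e58f61309637b29f550dd0d45f66c7171766f9125ba9af59f6152f6cbad9f59298ec5d8f450d327ab18818fdfb52d36f8f615ed33bfa9f5345a7b788f440d64a1165fe77fd190a7eb76c80a53d69bad55c057f89375546c8f6151c37d329f560d174259e7fd1849b7776c53f51e69bb422cd87f88046095c8f6152b0b3259f55e8755068f470d384a542554895895399f04b65f3386fd102079a76c12e22d379b6c73a7c7f821b5331b79f662c5495e69f460d543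 = true := by decide +kernel

theorem cB19_9_3_80 : chunkOkM (LB19_9.ctx true true 103 1 1 1 1 1 1 1 1) muQ true true 64 RtB19_9.Cx.right.right RtB19_9.CX RtB19_9.Ctp.right.right.right.left.left.left RtB19_9.Ce.right.right.right.left.left.right RtB19_9.CTp RtB19_9.CEr 0x69 = true := by decide +kernel

theorem cB19_9_3_81 : chunkOkM (LB19_9.ctx true true 246 39 16 11 16 230 805 32 32) muQ true true 64 RtB19_9.Cx.right RtB19_9.CX RtB19_9.Ctp.right.right.right.left.left.right RtB19_9.Ce.right.right.right.left.left.right RtB19_9.CTp RtB19_9.CEr 0x1eed71b7fd78809266cd23e2a69b88982fe594af11b2f77696c9bf050d = true := by decide +kernel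

theorem cB19_9_3_82 : chunkOkM (LB19_9.ctx true true 103 1 1 1 1 1 1 1 1) muQ true true 64 RtB19_9.Cx.right RtB19_9.CX RtB19_9.Ctp.right.right.right.left.right RtB19_9.Ce.right.right.right.left.left RtB19_9.CTp RtB19_9.CEr 0x11 = true := by decide +kernel

theorem cB19_9_3_83 : chunkOkM (LB19_9.ctx true true 103 1 1 1 1 1 1 1 1) muQ true true 64 RtB19_9.Cx.left RtB19_9.CX RtB19_9.Ctp.right.right.right.left RtB19_9.Ce.right.right.right.left.right RtB19_9.CTp RtB19_9.CEr 0x21 = true := by decide +kernel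

theorem cB19_9_3_84 : chunkOkM (LB19_9.ctx true true 288 155 64 21 32 902 3269 256 32) muQ true true 64 RtB19_9.Cx.right.left RtB19_9.CX RtB19_9.Ctp.right.right.right.left.left.left RtB19_9.Ce.right.right.right.left.right.left.left RtB19_9.CTp.left RtB19_9.CEr 0x4a16baa747fd1c7bce176c78888869bbf687b97f8c92e7c7b8f614d77d7f69f560d112216c7fd16ad06176c4f040669b9b29ecd7f8120fc5a709f61426fe4539f560d41673fc87fd1b2f3ed76c61598369bc44d3807f8a42f369a8f616132e34c9f5401b265d8f470d6909cf69b6a16403789f5199b1dee2eaf430d313da12b7fd199ca9a76c5f751e69bb797af97f889d6c7e88f6155faa89b9f521bdf6fc8f470d11e96607fd19895c676c8b9bb369bae968337f8942f0a278f616480701d9f595987e8b8f470d343198cee97fd1b9ba8476c94aedf69babf38d97f8b85159158f61355977289f560d12cdf617fd1a29b7876c99aa5669ba9f078d7f818222a1f89f615dd8e7f19f560d3784a5425 = true := by decide +kernel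

theorem cB19_9_3_85 : chunkOkM (LB19_9.ctx true true 261 77 32 11 16 226 1631 64 64) muQ true true 64 RtB19_9.Cx.right.left RtB19_9.CX RtB19_9.Ctp.right.right.right.left.left.left RtB19_9.Ce.right.right.right.left.right.left.left RtB19_9.CTp.right RtB19_9.CEr.left 0x527019078fdb4ae18ec8f6165546a189f5863ddea7f440d = true := by decide +kernel

theorem cB19_9_3_86 : chunkOkM (LB19_9.ctx true true 284 311 128 11 16 902 3269 64 64) muQ true true 64 RtB19_9.Cx.right.left RtB19_9.CX RtB19_9.Ctp.right.right.right.left.left.left RtB19_9.Ce.right.right.right.left.right.left.left RtB19_9.CTp.right RtB19_9.CEr.right 0x82ed2b6fd111b45876c8c8ad26f9e6cd65428f612e592a0a9f550d10c84867fdc2881166cd1e9f80d8f611e45a94f9f540d7fafa8f66caff12e588f61524f9da89f5805edfa88f440d2f8caa476c5f30f86cf9f51779fca94daf430d3aa2efb6fd1220ecd76c241460e349f614bf2e54a9f59080e0ae8f450defb79366c16a972f7f9da4090918f6146afa1749f540d7d0502166c19d7c43689f61749b68379f5df69ddfb8f440d3412f03f376c1a90db4b09f61545596c29f530d73 = true := by decide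 +kernel

theorem cB19_9_3_87 : chunkOkM (LB19_9.ctx true true 103 1 1 1 1 1 1 1 1) muQ true true 64 RtB19_9.Cx.right.left.left RtB19_9.CX RtB19_9.Ctp.right.right.right.left.left.left RtB19_9.Ce.right.right.right.left.right.left.right RtB19_9.CTp RtB19_9.CEr 0x59 = true := by decide +kernel

theorem cB19_9_3_88 : chunkOkM (LB19_9.ctx true true 291 311 128 21 32 454 3297 256 32) muQ true true 64 RtB19_9.Cx.right.left.right RtB19_9.CX RtB19_9.Ctp.right.right.right.left.left.left RtB19_9.Ce.right.right.right.left.right.left.right RtB19_9.CTp.left RtB19_9.CEr 0x4a16591cb7fd1f2833e76c8793b469bd035a5c7f81347b8aa09f616974a38d9f560d158de947fd1d0ca9976c78af1069bc6e8ae97f81102bb1859f6164d82e589f560d1562e147fd1e596bf76ca0490669bc36ff1f7f81772372369f614f7e4a8f9f560d742e1d4f276c2054fb188f8237ffe8257af5a67c24483baf440d384a5425 = true := by decide +kernel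

theorem cB19_9_3_89 : chunkOkM (LB19_9.ctx true true 279 155 64 11 16 910 3297 64 64) muQ true true 64 RtB19_9.Cx.right.left.right RtB19_9.CX RtB19_9.Ctp.right.right.right.left.left.left RtB19_9.Ce.right.right.right.left.right.left.right RtB19_9.CTp.right RtB19_9.CEr 0xba836f66c2d170105f9f616b5c60c99f530d113b44f76c8edee92d8f61216c4ca69f530d5b4a0d6fd10f020376c8a67076f9d6f8935f8f614f2a91679f59f15ae67f460d343812de776c21dd940925af59d8fa01324af430d339c987f98fd136a064039f617d3d64029f530d6 = true := by decide +kernel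

theorem cB19_9_3_90 : chunkOkM (LB19_9.ctx true true 284 155 64 21 32 458 1631 256 64) muQ true true 64 RtB19_9.Cx.right.left RtB19_9.CX RtB19_9.Ctp.right.right.right.left.left.right RtB19_9.Ce.right.right.right.left.right.left.left RtB19_9.CTp RtB19_9.CEr 0x7ca9386fd1406de66c1b922169b1427793699f6ff9d97f78f550dcd7ee16fded9d8166cb16db469b57ddd617f812c2626429f6115f86bae9f560d4255011406b567fdfc899366cf19fb59ba27930e38f6e5a0589d8f535631e5b8f260d244fe7398fd97865b6c8f61108c05e79f5249685eb8f240d64a1bcd1ac7fd1da01cc76c987fcf69bb1bae097f8acae9dbe8f61002e4acb9f53220c6b28f270d84a5425537 = true := by decide +kernel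

end Vale.Agent.helper4.Q4
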