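import Vale.Agent.helper4.Q4TreeM
import Vale.Agent.helper4.Q4G.PB19_9

/-!
Checks for pairs of intervals of second moments.
-/

set_option maxRecDepth 100000
set_option linter.unusedVariables false

namespace Vale.Agent.helper4.Q4

theorem cB19_9_3_91 : chunkOkM (LB19_9.ctx true true 300 615 256 21 32 462 3297 256 64) muQ true true 64 RtB19_9.Cx.right.left RtB19_9.CX RtB19_9.Ctp.right.right.right.left.left.right RtB19_9.Ce.right.right.right.left.right.left.right RtB19_9.CTp RtB19_9.CEr 0x1689e4b76c61e89869b6aadab05a9f622e8937f88af1725f76eb5eaf050d13b4e407fde77b0c66ceef6604b8f6104f680969f540d4bdd1db38fd5cb34c5d8f61344ec1c79f530d64a2169ffd7fd21ed34c76c9ce76e69bd6b704a7f8d9a88b998f612c5ff42d9f560d20025b07fd1e3661b76c7e563e69bc7757727f813ed167489f61160606ed9f560d484a5425532101110b6c376ce9cf82248f6ec26c4fc8f530d1078856ed9f05b6f74efe6fd1236c60b85cd587a0378b5f09b3b7f81a63e308f9f611ae6d2de9f5134fe8b48f270d4255321721747 = true := by decide +kernel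

theorem cB19_9_3_92 : chunkOkM (LB19_9.ctx true true 103 1 1 1 1 1 1 1 1) muQ true true 64 RtB19_9.Cx.right.right RtB19_9.CX RtB19_9.Ctp.right.right.right.left.left.left.left RtB19_9.Ce.right.right.right.left.right.left RtB19_9.CTp RtB19_9.CEr 0x49 = true := by decide +kernel

theorem cB19_9_3_93 : chunkOkM (LB19_9.ctx true true 103 1 1 1 1 1 1 1 1) muQ true true 64 RtB19_9.Cx.right.right RtB19_9.CX RtB19_9.Ctp.right.right.right.left.left.left.right RtB19_9.Ce.right.right.right.left.right.left.left RtB19_9.CTp RtB19_9.CEr 0x69 = true := by decide +kernel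

theorem cB19_9_3_94 : chunkOkM (LB19_9.ctx true true 294 315 128 21 32 910 3297 256 32) muQ true true 64 RtB19_9.Cx.right.right.left RtB19_9.CX RtB19_9.Ctp.right.right.right.left.left.left.right RtB19_9.Ce.right.right.right.left.right.left.right RtB19_9.CTp.left RtB19_9.CEr 0x4a3dc9bab209f04b1523a0b7fd202c07376c8f068869bd913b637f8d8961ddb8f615d392ba19f51fb90b8b8f470d713eb7f97fd1f4338676c94bed769bd35693e7f8d5264e528f61626b03b79f58ec1c1948f470d315f49277fd1ef4ea776c9d40f969bd1273177f8306963ea69f617378f1fb9f560d15d72d77fd1de8c1176c768d9069bd2e4ff97f8873d7a0e8f6157c104569f5546c63358f470d3484a5425 = true := by decide +kernel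

theorem cB19_9_3_95 : chunkOkM (LB19_9.ctx true true 278 157 64 11 16 910 3297 64 64) muQ true true 64 RtB19_9.Cx.right.right.left RtB19_9.CX RtB19_9.Ctp.right.right.right.left.left.left.right RtB19_9.Ce.right.right.right.left.right.left.right RtB19_9.CTp.right RtB19_9.CEr 0xbede896fd123272076c8ef889788f61451488729f5a182d4c7f450dd3671966cf9f92bf38f615404b3539f5ae14887f8f440d341b05c1f5ebf6fd1140a0c76c13dd78c299f61519424439f57ace78558f450d34565fc17b8fd554106f98f6166fbad449f56fd25eb68f440d6 = true := by decide +kernel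

theorem cB19_9_3_96 : chunkOkM (LB19_9.ctx true true 103 1 1 1 1 1 1 1 1) muQ true true 64 RtB19_9.Cx.right.right.right RtB19_9.CX RtB19_9.Ctp.right.right.right.left.left.left.right RtB19_9.Ce.right.right.right.left.right.left.right RtB19_9.CTp RtB19_9.CEr 0x49 = true := by decide +kernel

theorem cB19_9_3_97 : chunkOkM (LB19_9.ctx true true 282 157 64 11 16 914 3297 128 64) muQ true true 64 RtB19_9.Cx.right.right RtB19_9.CX RtB19_9.Ctp.right.right.right.left.left.right RtB19_9.Ce.right.right.right.left.right.left RtB19_9.CTp RtB19_9.CEr 0x111169198f21876cfadf2dd38f520d675782698f05b6369478875986fd1015c8676caceb8269b68ede937f8c770dcd28f613517884a9f560d42553114 = true := by decide +kernel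

theorem cB19_9_3_98 : chunkOkM (LB19_9.ctx true true 103 1 1 1 1 1 1 1 1) muQ true true 64 RtB19_9.Cx.right.left RtB19_9.CX RtB19_9.Ctp.right.right.right.left.left.left RtB19_9.Ce.right.right.right.left.right.right RtB19_9.CTp RtB19_9.CEr 0x59 = true := by decide +kernel

theorem cB19_9_3_99 : chunkOkM (LB19_9.ctx true true 103 1 1 1 1 1 1 1 1) muQ true true 64 RtB19_9.Cx.right.right RtB19_9.CX RtB19_9.Ctp.right.right.right.left.left.left.left RtB19_9.Ce.right.right.right.left.right.right RtB19_9.CTp RtB19_9.CEr 0x49 = true := by decide +kernel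

theorem cB19_9_3_100 : chunkOkM (LB19_9.ctx true true 297 315 128 21 32 910 3325 256 64) muQ true true 64 RtB19_9.Cx.right.right.left RtB19_9.CX RtB19_9.Ctp.right.right.right.left.left.left.right RtB19_9.Ce.right.right.right.left.right.right.left RtB19_9.CTp.left RtB19_9.CEr 0x4a14422257fd230468976ca5e92169bea4f8877f815376be509f61732547479f5801011048f470d5977277c8e7fd170da0fa85c427d2f69b5b46f1b58f6157e20ebc9f56597871c8f460d14e64a8819f05b6161c4897fd204bd9eb85c7ff74069bdf708587f8c80c99868f61665b40699f519aa91358f470d76d1a4f69b99ec3ffc29f529773cbfe7af430d3484a5425 = true := by decide +kernel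

theorem cB19_9_3_101 : chunkOkM (LB19_9.ctx true true 284 315 128 11 16 910 3325 64 64) muQ true true 64 RtB19_9.Cx.right.right.left RtB19_9.CX RtB19_9.Ctp.right.right.right.left.left.left.right RtB19_9.Ce.right.right.right.left.right.right.left RtB19_9.CTp.right RtB19_9.CEr 0x12c66ed76cc5aa0ab48f615b9132a79f5b8cd1b488f440d120037576c125da2b529f614f24d2599f58a33ce098f440d14f7ae076c17b7843369f6163d7fc069f530d72dcf8ba76ca25cfe27f992e25f4b59f528ab1d5ae7af440d343450fdb18fd4cefbf798f6169d371f39f595c261968f440d6 = true := by decide +kernel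

theorem cB19_9_3_102 : chunkOkM (LB19_9.ctx true true 103 1 1 1 1 1 1 1 1) muQ true true 64 RtB19_9.Cx.right.right.left RtB19_9.CX RtB19_9.Ctp.right.right.right.left.left.left.right RtB19_9.Ce.right.right.right.left.right.right.right RtB19_9.CTp RtB19_9.CEr 0x59 = true := by decide +kernel

theorem cB19_9_3_103 : chunkOkM (LB19_9.ctx true true 103 1 1 1 1 1 1 1 1) muQ true true 64 RtB19_9.Cx.right.right.right RtB19_9.CX RtB19_9.Ctp.right.right.right.left.left.left.right RtB19_9.Ce.right.right.right.left.right.right RtB19_9.CTp RtB19_9.CEr 0x49 = true := by decide +kernel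

theorem cB19_9_3_104 : chunkOkM (LB19_9.ctx true true 284 155 64 21 32 462 1659 256 64) muQ true true 64 RtB19_9.Cx.right.left RtB19_9.CX RtB19_9.Ctp.right.right.right.left.left.right RtB19_9.Ce.right.right.right.left.right.right RtB19_9.CTp RtB19_9.CEr 0x2110f378e7fdd7d70d66c3a7d359b88b2252e8f6efb846ae8f53386a7c18f260dff4cbf66ce40981c78f612140b3429f530d33cbbdc5c8fda9cc971b8f6130ea46cc9f530d64a1fafb987fd24f988e76cb2aa6369bdf2ce1b7f8c0e52e1c8f610f76dd949f529539f5a8f270d205c1157fd21007b776c84e3e769bd887c067f8b760be8b8f613a5296499f560d384a542552174 = true := by decide +kernel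

theorem cB19_9_3_105 : chunkOkM (LB19_9.ctx true true 297 315 128 21 32 918 3325 256 64) muQ true true 64 RtB19_9.Cx.right.right.left RtB19_9.CX RtB19_9.Ctp.right.right.right.left.left.right.left RtB19_9.Ce.right.right.right.left.right.right.left RtB19_9.CTp RtB19_9.CEr 0xb5a32c6fd153b26176c12e2066c19f6146a586ee9f540d109646b76cc98d23758f612a84f89b9f530d44e8d0eb18fd87fdc7e38f6163ffe7a39f530d64a157be327fd25ae33d76cc817e869bf1279bf7f8c10ce7298f614c9a46029f560df737d0375c2e2dd169bae4050248f6158a3e4c69f5140fe7da8f450d14700f9439f05b631d4b1b87fd216934976c76fa1d69be504d777f81384967999f6148616e959f560d717f61417fd226681876c949b2a69be35164d7f89a6fb3048f6146d6a73f9f560d484a54255 = true := by decide +kernel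

theorem cB19_9_3_106 : chunkOkM (LB19_9.ctx true true 278 157 64 11 16 462 3325 128 64) muQ true true 64 RtB19_9.Cx.right.right.left RtB19_9.CX RtB19_9.Ctp.right.right.right.left.left.right.right RtB19_9.Ce.right.right.right.left.right.right.left RtB19_9.CTp RtB19_9.CEr 0x199a6a976c334b1cf38f6f3441e188f530dd5a1ad278f05b610ad09d7fd18f505e76cec502369b90f8e377f813f5bfc279f61258f30319f560d4255694 = true := by decide +kernel

theorem cB19_9_3_107 : chunkOkM (LB19_9.ctx true true 287 159 64 21 32 458 3325 256 64) muQ true true 64 RtB19_9.Cx.right.right.right RtB19_9.CX RtB19_9.Ctp.right.right.right.left.left.right RtB19_9.Ce.right.right.right.left.right.right.left RtB19_9.CTp RtB19_9.CEr 0x11140176276c2c2c1f6869f614e51f53d9f56c99b4af8f440d3890a10d59f04b66944a16c7f3c7fd238631676c8d03e469bf57ed917f8105bfb22b9f615242fd869f573d997648f470d84a542553 = true := by decide +kernel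

theorem cB19_9_3_108 : chunkOkM (LB19_9.ctx true true 103 1 1 1 1 1 1 1 1) muQ true true 64 RtB19_9.Cx.right.right RtB19_9.CX RtB19_9.Ctp.right.right.right.left.left.right RtB19_9.Ce.right.right.right.left.right.right.right RtB19_9.CTp.left.left RtB19_9.CEr 0x42 = true := by decide +kernel

theorem cB19_9_3_109 : chunkOkM (LB19_9.ctx true true 103 1 1 1 1 1 1 1 1) muQ true true 64 RtB19_9.Cx.right.right RtB19_9.CX RtB19_9.Ctp.right.right.right.left.left.right RtB19_9.Ce.right.right.right.left.right.right.right RtB19_9.CTp.left.right.left RtB19_9.CEr 0x4a = true := by decide +kernel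

end Vale.Agent.helper4.Q4
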