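import Vale.Agent.helper4.Q4TreeM
import Vale.Agent.helper4.Q4G.PB19_9

/-!
Checks for pairs of intervals of second moments.
-/

set_option maxRecDepth 100000
set_option linter.unusedVariables false

namespace Vale.Agent.helper4.Q4

theorem cB19_9_3_110 : chunkOkM (LB19_9.ctx true true 288 157 64 21 32 918 3353 256 32) muQ true true 64 RtB19_9.Cx.right.right.left RtB19_9.CX.left RtB19_9.Ctp.right.right.right.left.left.right RtB19_9.Ce.right.right.right.left.right.right.right RtB19_9.CTp.left.right.right RtB19_9.CEr 0x20fdb277fd284a29b76caa36fe69bff87d427f8efa6b61c8f6136d6c7ba9f560d2113e747fd27e44eb76cb9eaf369bf78e31c7f8d41eefcb8f612d73f64c9f560d41739c497fd2777c7b76ccb24da69bfabfd167f81c26c68239f61610034fa9f560d18d619f7fd250c8c676c984e7569bf4ce9727f8b17755768f6158f8f4419f560d17e062a7fd2305e7e76c82212b69bf2120177f810e2db6709f616d27547c9f560d343 = true := by decide +kernel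

theorem cB19_9_3_111 : chunkOkM (LB19_9.ctx true true 297 317 128 21 32 918 3339 256 64) muQ true true 64 RtB19_9.Cx.right.right.right RtB19_9.CX.left RtB19_9.Ctp.right.right.right.left.left.right.left RtB19_9.Ce.right.right.right.left.right.right.right.left RtB19_9.CTp.left.right.right RtB19_9.CEr 0x8434e897fd19edf9a76c8ff5e969b8c736f7f8f6156f51e4c9f550d12628b9f39f05b649f6ef3a875c70cf6b69b10207c62e9f615b84292d9f53a451d908f450d31018b66c6bc3bc69bc935d0ca8f61759af3a79f5390f489c8f450d673 = true := by decide +kernel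

theorem cB19_9_3_112 : chunkOkM (LB19_9.ctx true true 298 319 128 21 32 918 3353 256 64) muQ true true 64 RtB19_9.Cx.right.right.right RtB19_9.CX.left RtB19_9.Ctp.right.right.right.left.left.right.left RtB19_9.Ce.right.right.right.left.right.right.right.right RtB19_9.CTp.left.right.right RtB19_9.CEr 0x16aa8eab85c64a61b878f6167b23e4e9f5935ad6c98f440d14447754b9f05b6616ed977fd128efc1785c2976cf69bfc0ae7b88f615ca9dc8c9f52072cff58f460d152cb09a79f05b6717e794d76c72f533f8f9f62f04b5eec5af5e75e0c8d3caf440d3 = true := by decide +kernel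

theorem cB19_9_3_113 : chunkOkM (LB19_9.ctx true true 281 159 64 21 32 462 1673 256 32) muQ true true 64 RtB19_9.Cx.right.right.right RtB19_9.CX.left RtB19_9.Ctp.right.right.right.left.left.right.right RtB19_9.Ce.right.right.right.left.right.right.right RtB19_9.CTp.left.right.right RtB19_9.CEr 0x1a0c0ec7fd28a6eac76cab70a969b10a706c38f898ff58df8f61425d27c39f560d = true := by decide +kernel

theorem cB19_9_3_114 : chunkOkM (LB19_9.ctx true true 103 1 1 1 1 1 1 1 1) muQ true true 64 RtB19_9.Cx.right.right RtB19_9.CX.right RtB19_9.Ctp.right.right.right.left.left.right RtB19_9.Ce.right.right.right.left.right.right.right RtB19_9.CTp.left.right.right RtB19_9.CEr 0x4a = true := by decide +kernel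

theorem cB19_9_3_115 : chunkOkM (LB19_9.ctx true true 261 79 32 11 16 230 1673 64 64) muQ true true 64 RtB19_9.Cx.right.right RtB19_9.CX RtB19_9.Ctp.right.right.right.left.left.right RtB19_9.Ce.right.right.right.left.right.right.right RtB19_9.CTp.right RtB19_9.CEr.left 0x52ac544d8fdcd2d98fa8f61668936879f5ac9a0977f440d = true := by decide +kernel

theorem cB19_9_3_116 : chunkOkM (LB19_9.ctx true true 286 319 128 11 16 918 3353 64 64) muQ true true 64 RtB19_9.Cx.right.right RtB19_9.CX RtB19_9.Ctp.right.right.right.left.left.right RtB19_9.Ce.right.right.right.left.right.right.right RtB19_9.CTp.right RtB19_9.CEr.right 0x121db4276cac7b68d68f612dfdcbb79f530dfcf3c766cb92d5d848f61138820159f5d1fb95c7f240d7134d61c76c2789d4a239f6149c535069f58d5f88ed8f440d6b79af6fd15730f376cf34ef68d8f6154894d1f9f55ca5a707f450d71562a0e76c3d57f34639f640d1efa5c0af514658c8739fbf440d311479ca76cf2c155f28f613fe98b309f530d14fb03876c13835a04a9f614f2e71229f596f450a38f440d34175443d76c10694fae99f6155e34ecc9f530d73 = true := by decide +kernel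

theorem cB19_9_3_117 : chunkOkM (LB19_9.ctx true true 239 39 16 11 16 118 413 32 32) muQ true true 64 RtB19_9.Cx.right RtB19_9.CX RtB19_9.Ctp.right.right.right.left.right RtB19_9.Ce.right.right.right.left.right RtB19_9.CTp RtB19_9.CEr 0x5eca52a7fdfb0b8e66c1d20e29ddaaf16250515592af040d = true := by decide +kernel

theorem cB19_9_3_118 : chunkOkM (LB19_9.ctx true true 103 1 1 1 1 1 1 1 1) muQ true true 64 RtB19_9.Cx.left RtB19_9.CX RtB19_9.Ctp.right.right.right.left RtB19_9.Ce.right.right.right.right.left RtB19_9.CTp RtB19_9.CEr 0x21 = true := by decide +kernel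

theorem cB19_9_3_119 : chunkOkM (LB19_9.ctx true true 103 1 1 1 1 1 1 1 1) muQ true true 64 RtB19_9.Cx.right.left RtB19_9.CX RtB19_9.Ctp.right.right.right.left RtB19_9.Ce.right.right.right.right.left.left RtB19_9.CTp RtB19_9.CEr 0x21 = true := by decide +kernel

theorem cB19_9_3_120 : chunkOkM (LB19_9.ctx true true 103 1 1 1 1 1 1 1 1) muQ true true 64 RtB19_9.Cx.right.right RtB19_9.CX RtB19_9.Ctp.right.right.right.left.left.left RtB19_9.Ce.right.right.right.right.left.left RtB19_9.CTp RtB19_9.CEr 0x59 = true := by decide +kernel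

theorem cB19_9_3_121 : chunkOkM (LB19_9.ctx true true 103 1 1 1 1 1 1 1 1) muQ true true 64 RtB19_9.Cx.right.right RtB19_9.CX RtB19_9.Ctp.right.right.right.left.left.right RtB19_9.Ce.right.right.right.right.left.left RtB19_9.CTp.left.left RtB19_9.CEr 0x42 = true := by decide +kernel

theorem cB19_9_3_122 : chunkOkM (LB19_9.ctx true true 103 1 1 1 1 1 1 1 1) muQ true true 64 RtB19_9.Cx.right.right RtB19_9.CX RtB19_9.Ctp.right.right.right.left.left.right RtB19_9.Ce.right.right.right.right.left.left RtB19_9.CTp.left.right.left RtB19_9.CEr 0x4a = true := by decide +kernel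

theorem cB19_9_3_123 : chunkOkM (LB19_9.ctx true true 292 159 64 21 32 918 3381 256 64) muQ true true 64 RtB19_9.Cx.right.right RtB19_9.CX.left RtB19_9.Ctp.right.right.right.left.left.right.left RtB19_9.Ce.right.right.right.right.left.left.left RtB19_9.CTp.left.right.right RtB19_9.CEr 0x2cee0617fd471e25a76cd785c969b1d9db8068f8167d519a4faf56d3d9e7e67af460d13ccaa57fd10c6f3076c5b908e69b17484142a9f618c1252aa9f5740b4207f460dbac5ad66c839cb769b5f9185648f61646d71969f54fb8b9bd8f450d67ff4df69b674e32e9f9f51a0c5f7d44af430d34597 = true := by decide +kernel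

theorem cB19_9_3_124 : chunkOkM (LB19_9.ctx true true 297 319 128 21 32 926 3381 256 64) muQ true true 64 RtB19_9.Cx.right.right RtB19_9.CX.left RtB19_9.Ctp.right.right.right.left.left.right.right RtB19_9.Ce.right.right.right.right.left.left.left RtB19_9.CTp.left.right.right RtB19_9.CEr 0x901f4ad7fd1849e3a76cc7e6f669ba03477ff8f6154f621fa9f550daa99a266c8f5f1a69bcdf3a9098f616ccb46829f540d618faca47fd2ce1ca776cefadf669b11a171548f8a6226d088f614769acc39f560d10e3fad185c4381b769b834ecba38f615b9c3e289f51fb546b18f450d13e9039999f05b631c173e57fd295056276cabd5fa69b10ab54ad8f81198d28da9f6156baa5f39f560d741c229fd7fd27f6b0776cbdea5d69bf8d443c7f8c73f61ca8f6147561f449f560d7 = true := by decide +kernel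

theorem cB19_9_3_125 : chunkOkM (LB19_9.ctx true true 275 79 32 21 32 462 1701 256 32) muQ true true 64 RtB19_9.Cx.right.right RtB19_9.CX.left RtB19_9.Ctp.right.right.right.left.left.right RtB19_9.Ce.right.right.right.right.left.left.right RtB19_9.CTp.left.right.right RtB19_9.CEr 0x1b426497fd2cfc32776ccbae3f69b11e35e138f8134f7fa5d9f61750c3a159f560d593 = true := by decide +kernel

theorem cB19_9_3_126 : chunkOkM (LB19_9.ctx true true 103 1 1 1 1 1 1 1 1) muQ true true 64 RtB19_9.Cx.right.right RtB19_9.CX.right RtB19_9.Ctp.right.right.right.left.left.right RtB19_9.Ce.right.right.right.right.left.left RtB19_9.CTp.left.right.right RtB19_9.CEr 0x4a = true := by decide +kernel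

theorem cB19_9_3_127 : chunkOkM (LB19_9.ctx true true 258 79 32 11 16 230 847 64 64) muQ true true 64 RtB19_9.Cx.right.right RtB19_9.CX RtB19_9.Ctp.right.right.right.left.left.right RtB19_9.Ce.right.right.right.right.left.left RtB19_9.CTp.right RtB19_9.CEr.left 0x5217dcd58fd8bf0d5a58f6177c870bd9f528828c1a8f440d = true := by decide +kernel

theorem cB19_9_3_128 : chunkOkM (LB19_9.ctx true true 285 319 128 11 16 918 3381 64 64) muQ true true 64 RtB19_9.Cx.right.right RtB19_9.CX RtB19_9.Ctp.right.right.right.left.left.right RtB19_9.Ce.right.right.right.right.left.left RtB19_9.CTp.right RtB19_9.CEr.right 0x19b73b776c16e28d74b9f615b4ec9599f530d18df35876c1aff56f899f61514e39259f530d183c8ca76c13dddfd129f613eda70c69f530d4e6a23866c14df3c69b9babe0208f61422fac219f540d7148d12f76c157bca3aa1af5682eb49433af430d170006176c14caff9439f6152afcd599f585e45e8a8f440d1513bcc76c17eee9b6b9f520d72dabd8a219f5156bc1e876af420d3459734 = true := by decide +kernel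

end Vale.Agent.helper4.Q4
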