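import Vale.Agent.helper4.Q4TreeM
import Vale.Agent.helper4.Q4G.PB19_9

/-!
Checks for pairs of intervals of second moments.
-/

set_option maxRecDepth 100000
set_option linter.unusedVariables false

namespace Vale.Agent.helper4.Q4

theorem cB19_9_3_129 : chunkOkM (LB19_9.ctx true true 300 631 256 21 32 466 3381 256 64) muQ true true 64 RtB19_9.Cx.right.right RtB19_9.CX RtB19_9.Ctp.right.right.right.left.right.left.left RtB19_9.Ce.right.right.right.right.left.left.left RtB19_9.CTp RtB19_9.CEr 0x15719fc76c7bcce0798f610e34a1d99f530d10411ec829f05b6168965276c6f9a2189e9f67c0a9d5d8f530d165c7f83b9f02b644a20928cd7fd2d0ebe376cca05b769b117e8f338f8be7601828f6129b1caf49f5d7edb4a7f270d84a5425521e7777a66c2edf670989f67fc39b008f511e1080e99f240d1cbfc733b9f02b6fe6de06fd1d9b84b76c1008b7c79ba8ccba27f821074b50f9f611c372c659f52ecfff028f270d425501701747 = true := by decide +kernel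

theorem cB19_9_3_130 : chunkOkM (LB19_9.ctx true true 287 159 64 21 32 466 3409 256 64) muQ true true 64 RtB19_9.Cx.right.right RtB19_9.CX RtB19_9.Ctp.right.right.right.left.right.left.left RtB19_9.Ce.right.right.right.right.left.left.right RtB19_9.CTp RtB19_9.CEr 0x11c150276cb848759b11421b16c9f611e12a4bb9f540d3f5817468fd7f6316048f615784873f9f530d64a228952f7fd2edd19976cc44dfe69b1272547b8f813a7b1d299f6146e275789f514a4fb758f270d22ed6797fd2f2d00376ccd3bf169b12601f0b8f8dfdf06108f613b419ddb9f55579b117f270d484a54255217 = true := by decide +kernel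

theorem cB19_9_3_131 : chunkOkM (LB19_9.ctx true true 103 1 1 1 1 1 1 1 1) muQ true true 64 RtB19_9.Cx.right.right RtB19_9.CX RtB19_9.Ctp.right.right.right.left.right.left.right RtB19_9.Ce.right.right.right.right.left.left RtB19_9.CTp RtB19_9.CEr 0x01 = true := by decide +kernel

theorem cB19_9_3_132 : chunkOkM (LB19_9.ctx true true 103 1 1 1 1 1 1 1 1) muQ true true 64 RtB19_9.Cx.right.right RtB19_9.CX RtB19_9.Ctp.right.right.right.left.right.right RtB19_9.Ce.right.right.right.right.left.left RtB19_9.CTp RtB19_9.CEr 0x01 = true := by decide +kernel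

theorem cB19_9_3_133 : chunkOkM (LB19_9.ctx true true 103 1 1 1 1 1 1 1 1) muQ true true 64 RtB19_9.Cx.right RtB19_9.CX RtB19_9.Ctp.right.right.right.left RtB19_9.Ce.right.right.right.right.left.right RtB19_9.CTp RtB19_9.CEr 0x21 = true := by decide +kernel

theorem cB19_9_3_134 : chunkOkM (LB19_9.ctx true true 103 1 1 1 1 1 1 1 1) muQ true true 64 RtB19_9.Cx RtB19_9.CX RtB19_9.Ctp.right.right.right.left RtB19_9.Ce.right.right.right.right.right RtB19_9.CTp RtB19_9.CEr 0x21 = true := by decide +kernel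

theorem cB19_9_3_135 : chunkOkM (LB19_9.ctx true true 103 1 1 1 1 1 1 1 1) muQ true true 64 RtB19_9.Cx RtB19_9.CX RtB19_9.Ctp.right.right.right.right RtB19_9.Ce.right.right.right RtB19_9.CTp RtB19_9.CEr 0x01 = true := by decide +kernel

theorem cB19_9_2_0 : chunkOkM (LB19_9.ctx false true 103 1 1 1 1 1 1 1 1) muQ false true 64 RtB19_9.Cx RtB19_9.CX RtB19_9.Ctn RtB19_9.Ce RtB19_9.CTp RtB19_9.CEr 0x49 = true := by decide +kernel

theorem cB19_9_1_0 : chunkOkM (LB19_9.ctx true false 103 1 1 1 1 1 1 1 1) muQ true false 64 RtB19_9.Cx RtB19_9.CX RtB19_9.Ctp RtB19_9.Ce RtB19_9.CTn RtB19_9.CEr 0x4a = true := by decide +kernel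

theorem cB19_9_0_0 : chunkOkM (LB19_9.ctx false false 103 1 1 1 1 1 1 1 1) muQ false false 64 RtB19_9.Cx RtB19_9.CX RtB19_9.Ctn RtB19_9.Ce RtB19_9.CTn RtB19_9.CEr 0x49 = true := by decide +kernel

end Vale.Agent.helper4.Q4
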