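import Vale.Agent.helper4.Q4TreeM
import Vale.Agent.helper4.Q4G.PB19_9_0
import Vale.Agent.helper4.Q4G.PB19_9_1
import Vale.Agent.helper4.Q4G.PB19_9_2
import Vale.Agent.helper4.Q4G.PB19_9_3
import Vale.Agent.helper4.Q4G.PB19_9_4
import Vale.Agent.helper4.Q4G.PB19_9_5
import Vale.Agent.helper4.Q4G.PB19_9_6
import Vale.Agent.helper4.Q4G.PB19_9_7

/-!
Checks for pairs of intervals of second moments.
-/

set_option maxRecDepth 100000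
set_option linter.unusedVariables false

namespace Vale.Agent.helper4.Q4

theorem covB19_9 : LB19_9.Full muQ.val RtB19_9 := ⟨(LitT.Cov.split_t (LitT.cov_of_chunkM cB19_9_3_0) (LitT.Cov.split_e (LitT.cov_of_chunkM cB19_9_3_1) (LitT.Cov.split_t (LitT.cov_of_chunkM cB19_9_3_2) (LitT.Cov.split_e (LitT.cov_of_chunkM cB19_9_3_3) (LitT.Cov.split_e (LitT.Cov.split_t (LitT.Cov.split_t (LitT.cov_of_chunkM cB19_9_3_4) (LitT.Cov.split_e (LitT.cov_of_chunkM cB19_9_3_5) (LitT.Cov.split_e (LitT.Cov.split_t (LitT.Cov.split_t (LitT.cov_of_chunkM cB19_9_3_6) (LitT.Cov.split_e (LitT.cov_of_chunkM cB19_9_3_7) (LitT.Cov.split_x (LitT.Cov.split_x (LitT.Cov.split_e (LitT.cov_of_chunkM cB19_9_3_8) (LitT.Cov.split_t (LitT.cov_of_chunkM cB19_9_3_9) (LitT.cov_of_chunkM cB19_9_3_10))) (LitT.cov_of_chunkM cB19_9_3_11)) (LitT.cov_of_chunkM cB19_9_3_12)))) (LitT.cov_of_chunkM cB19_9_3_13))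 (LitT.Cov.split_t (LitT.Cov.split_t (LitT.cov_of_chunkM cB19_9_3_14) (LitT.Cov.split_x (LitT.Cov.split_x (LitT.Cov.split_e (LitT.Cov.split_e (LitT.Cov.split_T (LitT.cov_of_chunkM cB19_9_3_15) (LitT.cov_of_chunkM cB19_9_3_16)) (LitT.cov_of_chunkM cB19_9_3_17)) (LitT.cov_of_chunkM cB19_9_3_18)) (LitT.cov_of_chunkM cB19_9_3_19)) (LitT.cov_of_chunkM cB19_9_3_20))) (LitT.Cov.split_x (LitT.Cov.split_e (LitT.Cov.split_x (LitT.Cov.split_t (LitT.Cov.split_e (LitT.Cov.split_T (LitT.cov_of_chunkM cB19_9_3_21) (LitT.Cov.split_t (LitT.cov_of_chunkM cB19_9_3_22) (LitT.cov_of_chunkM cB19_9_3_23))) (LitT.Cov.split_T (LitT.cov_of_chunkM cB19_9_3_24) (LitT.Cov.split_t (LitT.cov_of_chunkM cB19_9_3_25) (LitT.cov_of_chunkM cB19_9_3_26)))) (LitT.Cov.split_e (LitT.cov_of_chunkM cB19_9_3_27) (LitT.Cov.split_T (LitT.cov_of_chunkM cB19_9_3_28) (LitT.cov_of_chunkM cB19_9_3_29))))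 (LitT.cov_of_chunkM cB19_9_3_30)) (LitT.Cov.split_x (LitT.Cov.split_t (LitT.Cov.split_T (LitT.cov_of_chunkM cB19_9_3_31) (LitT.cov_of_chunkM cB19_9_3_32)) (LitT.Cov.split_e (LitT.Cov.split_T (LitT.cov_of_chunkM cB19_9_3_33) (LitT.Cov.split_x (LitT.cov_of_chunkM cB19_9_3_34) (LitT.cov_of_chunkM cB19_9_3_35))) (LitT.Cov.split_T (LitT.cov_of_chunkM cB19_9_3_36) (LitT.cov_of_chunkM cB19_9_3_37)))) (LitT.Cov.split_t (LitT.Cov.split_x (LitT.Cov.split_e (LitT.cov_of_chunkM cB19_9_3_38) (LitT.cov_of_chunkM cB19_9_3_39)) (LitT.cov_of_chunkM cB19_9_3_40)) (LitT.cov_of_chunkM cB19_9_3_41)))) (LitT.cov_of_chunkM cB19_9_3_42)))))) (LitT.cov_of_chunkM cB19_9_3_43)) (LitT.Cov.split_t (LitT.Cov.split_t (LitT.cov_of_chunkM cB19_9_3_44) (LitT.Cov.split_e (LitT.Cov.split_e (LitT.Cov.split_t (LitT.cov_of_chunkM cB19_9_3_45) (LitT.Cov.split_x (LitT.Cov.split_e (LitT.Cov.split_t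 (LitT.cov_of_chunkM cB19_9_3_46) (LitT.Cov.split_x (LitT.cov_of_chunkM cB19_9_3_47) (LitT.Cov.split_e (LitT.Cov.split_x (LitT.Cov.split_T (LitT.cov_of_chunkM cB19_9_3_48) (LitT.cov_of_chunkM cB19_9_3_49)) (LitT.Cov.split_t (LitT.cov_of_chunkM cB19_9_3_50) (LitT.cov_of_chunkM cB19_9_3_51))) (LitT.Cov.split_T (LitT.cov_of_chunkM cB19_9_3_52) (LitT.Cov.split_E (LitT.cov_of_chunkM cB19_9_3_53) (LitT.cov_of_chunkM cB19_9_3_54)))))) (LitT.cov_of_chunkM cB19_9_3_55)) (LitT.Cov.split_t (LitT.cov_of_chunkM cB19_9_3_56) (LitT.Cov.split_t (LitT.cov_of_chunkM cB19_9_3_57) (LitT.Cov.split_e (LitT.cov_of_chunkM cB19_9_3_58) (LitT.Cov.split_x (LitT.Cov.split_x (LitT.Cov.split_e (LitT.Cov.split_T (LitT.cov_of_chunkM cB19_9_3_59) (LitT.cov_of_chunkM cB19_9_3_60)) (LitT.cov_of_chunkM cB19_9_3_61)) (LitT.cov_of_chunkM cB19_9_3_62)) (LitT.cov_of_chunkM cB19_9_3_63)))))))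 (LitT.cov_of_chunkM cB19_9_3_64)) (LitT.cov_of_chunkM cB19_9_3_65))) (LitT.Cov.split_t (LitT.Cov.split_e (LitT.Cov.split_e (LitT.Cov.split_x (LitT.Cov.split_t (LitT.Cov.split_t (LitT.Cov.split_e (LitT.Cov.split_x (LitT.cov_of_chunkM cB19_9_3_66) (LitT.Cov.split_e (LitT.cov_of_chunkM cB19_9_3_67) (LitT.Cov.split_x (LitT.cov_of_chunkM cB19_9_3_68) (LitT.cov_of_chunkM cB19_9_3_69)))) (LitT.Cov.split_x (LitT.cov_of_chunkM cB19_9_3_70) (LitT.Cov.split_e (LitT.cov_of_chunkM cB19_9_3_71) (LitT.cov_of_chunkM cB19_9_3_72)))) (LitT.cov_of_chunkM cB19_9_3_73)) (LitT.cov_of_chunkM cB19_9_3_74)) (LitT.Cov.split_t (LitT.Cov.split_e (LitT.cov_of_chunkM cB19_9_3_75) (LitT.Cov.split_t (LitT.Cov.split_x (LitT.Cov.split_e (LitT.cov_of_chunkM cB19_9_3_76) (LitT.Cov.split_x (LitT.Cov.split_t (LitT.cov_of_chunkM cB19_9_3_77) (LitT.cov_of_chunkM cB19_9_3_78)) (LitT.cov_of_chunkM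 cB19_9_3_79))) (LitT.cov_of_chunkM cB19_9_3_80)) (LitT.cov_of_chunkM cB19_9_3_81))) (LitT.cov_of_chunkM cB19_9_3_82))) (LitT.Cov.split_x (LitT.cov_of_chunkM cB19_9_3_83) (LitT.Cov.split_t (LitT.Cov.split_e (LitT.Cov.split_x (LitT.Cov.split_t (LitT.Cov.split_e (LitT.Cov.split_T (LitT.cov_of_chunkM cB19_9_3_84) (LitT.Cov.split_E (LitT.cov_of_chunkM cB19_9_3_85) (LitT.cov_of_chunkM cB19_9_3_86))) (LitT.Cov.split_x (LitT.cov_of_chunkM cB19_9_3_87) (LitT.Cov.split_T (LitT.cov_of_chunkM cB19_9_3_88) (LitT.cov_of_chunkM cB19_9_3_89)))) (LitT.Cov.split_e (LitT.cov_of_chunkM cB19_9_3_90) (LitT.cov_of_chunkM cB19_9_3_91))) (LitT.Cov.split_t (LitT.Cov.split_t (LitT.cov_of_chunkM cB19_9_3_92) (LitT.Cov.split_e (LitT.cov_of_chunkM cB19_9_3_93) (LitT.Cov.split_x (LitT.Cov.split_T (LitT.cov_of_chunkM cB19_9_3_94) (LitT.cov_of_chunkM cB19_9_3_95)) (LitT.cov_of_chunkM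 cB19_9_3_96)))) (LitT.cov_of_chunkM cB19_9_3_97))) (LitT.Cov.split_t (LitT.Cov.split_x (LitT.cov_of_chunkM cB19_9_3_98) (LitT.Cov.split_t (LitT.cov_of_chunkM cB19_9_3_99) (LitT.Cov.split_x (LitT.Cov.split_e (LitT.Cov.split_T (LitT.cov_of_chunkM cB19_9_3_100) (LitT.cov_of_chunkM cB19_9_3_101)) (LitT.cov_of_chunkM cB19_9_3_102)) (LitT.cov_of_chunkM cB19_9_3_103)))) (LitT.Cov.split_x (LitT.cov_of_chunkM cB19_9_3_104) (LitT.Cov.split_e (LitT.Cov.split_x (LitT.Cov.split_t (LitT.cov_of_chunkM cB19_9_3_105) (LitT.cov_of_chunkM cB19_9_3_106)) (LitT.cov_of_chunkM cB19_9_3_107)) (LitT.Cov.split_T (LitT.Cov.split_T (LitT.cov_of_chunkM cB19_9_3_108) (LitT.Cov.split_T (LitT.cov_of_chunkM cB19_9_3_109) (LitT.Cov.split_X (LitT.Cov.split_x (LitT.cov_of_chunkM cB19_9_3_110) (LitT.Cov.split_t (LitT.Cov.split_e (LitT.cov_of_chunkM cB19_9_3_111) (LitT.cov_of_chunkM cB19_9_3_112))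 (LitT.cov_of_chunkM cB19_9_3_113))) (LitT.cov_of_chunkM cB19_9_3_114)))) (LitT.Cov.split_E (LitT.cov_of_chunkM cB19_9_3_115) (LitT.cov_of_chunkM cB19_9_3_116))))))) (LitT.cov_of_chunkM cB19_9_3_117)))) (LitT.Cov.split_e (LitT.Cov.split_x (LitT.cov_of_chunkM cB19_9_3_118) (LitT.Cov.split_e (LitT.Cov.split_x (LitT.cov_of_chunkM cB19_9_3_119) (LitT.Cov.split_t (LitT.Cov.split_t (LitT.cov_of_chunkM cB19_9_3_120) (LitT.Cov.split_T (LitT.Cov.split_T (LitT.cov_of_chunkM cB19_9_3_121) (LitT.Cov.split_T (LitT.cov_of_chunkM cB19_9_3_122) (LitT.Cov.split_X (LitT.Cov.split_e (LitT.Cov.split_t (LitT.cov_of_chunkM cB19_9_3_123) (LitT.cov_of_chunkM cB19_9_3_124)) (LitT.cov_of_chunkM cB19_9_3_125)) (LitT.cov_of_chunkM cB19_9_3_126)))) (LitT.Cov.split_E (LitT.cov_of_chunkM cB19_9_3_127) (LitT.cov_of_chunkM cB19_9_3_128)))) (LitT.Cov.split_t (LitT.Cov.split_t (LitT.Cov.split_e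 (LitT.cov_of_chunkM cB19_9_3_129) (LitT.cov_of_chunkM cB19_9_3_130)) (LitT.cov_of_chunkM cB19_9_3_131)) (LitT.cov_of_chunkM cB19_9_3_132)))) (LitT.cov_of_chunkM cB19_9_3_133))) (LitT.cov_of_chunkM cB19_9_3_134))) (LitT.cov_of_chunkM cB19_9_3_135)))))))), (LitT.cov_of_chunkM cB19_9_1_0), (LitT.cov_of_chunkM cB19_9_2_0), (LitT.cov_of_chunkM cB19_9_0_0)⟩

end Vale.Agent.helper4.Q4
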