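import Vale.Agent.helper4.Q4TreeM
import Vale.Agent.helper4.Q4G.PB20_10

/-!
Checks for pairs of intervals of second moments.
-/

set_option maxRecDepth 100000
set_option linter.unusedVariables false

namespace Vale.Agent.helper4.Q4

theorem cB20_10_3_8 : chunkOkM (LB20_10.ctx true true 101 1 1 1 1 1 1 1 1) muQ true true 64 RtB20_10.Cx RtB20_10.CX RtB20_10.Ctp.right.right.right.left.left.right.left RtB20_10.Ce.right.right.left.right.left RtB20_10.CTp.right RtB20_10.CEr 0x49 = true := by decide +kernel

theorem cB20_10_3_9 : chunkOkM (LB20_10.ctx true true 274 161 64 13 16 462 1692 64 35) muQ true true 64 RtB20_10.Cx RtB20_10.CX RtB20_10.Ctp.right.right.right.left.left.right.right RtB20_10.Ce.right.right.left.right.left.left RtB20_10.CTp.right RtB20_10.CEr 0x111149b41c8bb75c1f25f947f95bdd3aee8f6473660aa8f515766dc08f450d7fbb3646195c23cf38b5798b49a647ad8f51448f9e88f440d54685bcb18f05b1b37b8f7fd6ef1b8375c25037c778b50f816e08f64908144e8f5bca78697f460d567bdf91166c30802ed1db7bf651d3b6b822af430d47694573e8e1189b4cf480ec89f848639b698f530d67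 = true := by decide +kernel

theorem cB20_10_3_10 : chunkOkM (LB20_10.ctx true true 271 161 64 13 16 926 1708 64 35) muQ true true 64 RtB20_10.Cx RtB20_10.CX RtB20_10.Ctp.right.right.right.left.left.right.right RtB20_10.Ce.right.right.left.right.left.right RtB20_10.CTp.right RtB20_10.CEr 0x49494959a6954e875c18c8aea7f9217ec9fa8f64de7077c8f519b10b168f450d8512d1a1295c256b9c64498b134e02e18f649ef97348f5210a64008f450d5c133fef75c1d945a97f9385cb1598f64b0cbd1d8f58bc6aa6f450dc299f2e75c1bba94d7f92beaa2cd8f64c3c8ab38f5237f2cb28f450d35fe8b074095c1acf3199698bd2337c27f652556ae48f540d543dd026e7fd641c6fe75c1727b8b58f64ba4d09e8f5e1fa2e87f450d4ccff76fd897636875c2d3061278b211fe2878f64d3b9c5d8f5186169cd8f460d564774d54e38389b444398c639f8127d87b58f64d7662288f540d67 = true := by decide +kernel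

theorem cB20_10_3_11 : chunkOkM (LB20_10.ctx true true 101 1 1 1 1 1 1 1 1) muQ true true 64 RtB20_10.Cx RtB20_10.CX RtB20_10.Ctp.right.right.right.left.right RtB20_10.Ce.right.right.left.right.left.left RtB20_10.CTp.right RtB20_10.CEr 0x69 = true := by decide +kernel

theorem cB20_10_3_12 : chunkOkM (LB20_10.ctx true true 234 41 16 13 16 118 428 32 16) muQ true true 64 RtB20_10.Cx.left RtB20_10.CX RtB20_10.Ctp.right.right.right.left.right RtB20_10.Ce.right.right.left.right.left.right RtB20_10.CTp.right RtB20_10.CEr.left 0x5a18be5b89b4f595c35f9f88ecc9657f64a3858208f52f4b8527f050d = true := by decide +kernel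

theorem cB20_10_3_13 : chunkOkM (LB20_10.ctx true true 267 161 64 13 16 466 1708 64 35) muQ true true 64 RtB20_10.Cx.left.left.left RtB20_10.CX RtB20_10.Ctp.right.right.right.left.right.left.left RtB20_10.Ce.right.right.left.right.left.right.left RtB20_10.CTp.right RtB20_10.CEr.right 0xc57a93575c222d8e97f92c07c3e88f64455268b8f540d5fdf2351995c1ad4be90098b1e2bafd18f641780dfe8f540d544d9d6e28f05b1fdfd0c7fd87728ca75c1adc1f778b4a58a1158f64574bd618f550d5665cde5775c21469b17f93ad095f88f63f0ad2f68f540d7f6c544b695c23d3aa3d898b48ce66618f530d5397a3a2a8f05b208fe677fd85e1bdb75c206daf778b3cb070138f644c62feb8f550d564 = true := by decide +kernel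

theorem cB20_10_3_14 : chunkOkM (LB20_10.ctx true true 264 163 64 13 16 466 852 32 16) muQ true true 64 RtB20_10.Cx.left.left.right RtB20_10.CX RtB20_10.Ctp.right.right.right.left.right.left.left RtB20_10.Ce.right.right.left.right.left.right.left RtB20_10.CTp.right RtB20_10.CEr.right 0x9a1d3f66c1175cf69b4a32e21e2ccbf665fc861040af440d = true := by decide +kernel

theorem cB20_10_3_15 : chunkOkM (LB20_10.ctx true true 267 161 64 13 16 470 1708 64 35) muQ true true 64 RtB20_10.Cx.left.left RtB20_10.CX RtB20_10.Ctp.right.right.right.left.right.left.right RtB20_10.Ce.right.right.left.right.left.right.left RtB20_10.CTp.right RtB20_10.CEr.right 0x11c52dcdf75c8834da6f95f970c6a8f230d7a5cf979695c22661af5298b70e6afb48f230d58dace6875c3692bd69b173ecbc58f669ba49d58f240d67114 = true := by decide +kernel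

end Vale.Agent.helper4.Q4
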