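import Vale.Agent.helper4.Q4TreeM
import Vale.Agent.helper4.Q4G.PB20_10

/-!
Checks for pairs of intervals of second moments.
-/

set_option maxRecDepth 100000
set_option linter.unusedVariables false

namespace Vale.Agent.helper4.Q4

theorem cB20_10_3_16 : chunkOkM (LB20_10.ctx true true 259 161 64 13 16 234 860 64 32) muQ true true 64 RtB20_10.Cx.left.left.left RtB20_10.CX RtB20_10.Ctp.right.right.right.left.right.left RtB20_10.Ce.right.right.left.right.left.right.right RtB20_10.CTp.right RtB20_10.CEr.right.left 0x3b30c787fd63c09e775c4d1e74f18f6459dd3ad8f53ed9ae67f250dbf74de6fd915498575c3d1dea378b4cdc44848f64c32875b8f550d5 = true := by decide +kernel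

theorem cB20_10_3_17 : chunkOkM (LB20_10.ctx true true 290 647 256 13 16 1870 3444 64 35) muQ true true 64 RtB20_10.Cx.left.left.left RtB20_10.CX RtB20_10.Ctp.right.right.right.left.right.left RtB20_10.Ce.right.right.left.right.left.right.right RtB20_10.CTp.right RtB20_10.CEr.right.right 0xc781c0575c15705617f99cd9f487f64024f8028f540d3ebf49c2d95c1188d807998b1d6f5047f6468c90f48f540d5217b011bdb75c92006b6f9227c589d8f63f6ed9b48f514798757f250d5c60de24295c19ed5d40898b42ccbb488f530d5459c74caf775cc228466f954e54a6b8f6480278bc8f540d23b52344495c9eb531e888b41e0e4908f530d55935974593217b3b608375c21cab497f94620b0698f64aa6d9aa8f540d6d16ac61195c1db933f0c98b20d543 = true := by decide +kernel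

theorem cB20_10_3_18 : chunkOkM (LB20_10.ctx true true 267 163 64 13 16 466 1716 64 35) muQ true true 64 RtB20_10.Cx.left.left.right RtB20_10.CX RtB20_10.Ctp.right.right.right.left.right.left.left RtB20_10.Ce.right.right.left.right.left.right.right.left RtB20_10.CTp.right RtB20_10.CEr.right 0xb38c32275c255a56e7f94b6614308f647a12c7e8f5d2135a47f450d8497a17ba95c25371d2a398b752c2a698f648cdd1468f5194bf20a8f450d5473791e58f05bdb89d96fd7d8ad3175c23438e078b385dcfc28f64aa814ea8f550d56 = true := by decide +kernel

theorem cB20_10_3_19 : chunkOkM (LB20_10.ctx true true 271 163 64 13 16 934 1724 64 35) muQ true true 64 RtB20_10.Cx.left.left.right RtB20_10.CX RtB20_10.Ctp.right.right.right.left.right.left.left RtB20_10.Ce.right.right.left.right.left.right.right.right RtB20_10.CTp.right RtB20_10.CEr.right 0xa19298875c1edff127f9157b3e3e8f6465154a98f56f40d4d7f450dc95a46a75c235aa9e7f936f0a9d08f64935c5638f5298671cb8f450d365b1e187d95c1c91053f098b5018028f8f64ebd055f8f51ceb90388f450d5921cb0675c1ff0d4018f64c30fb578f51985f65a8f440d6de0eee75c2e06e1178b289325678f64cbdbc9d8f5128db3f08f450d56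 = true := by decide +kernel

theorem cB20_10_3_20 : chunkOkM (LB20_10.ctx true true 267 163 64 13 16 470 1724 64 35) muQ true true 64 RtB20_10.Cx.left.left.right RtB20_10.CX RtB20_10.Ctp.right.right.right.left.right.left.right RtB20_10.Ce.right.right.left.right.left.right.right RtB20_10.CTp.right RtB20_10.CEr.right 0xc42f49375c4517d4788f646c254518f530d833aa143095c24e62f2c598b49e7b3fb8f530d5390f62a38f05b2a602e17fd8f0101e75c216f86b78b4a6370b38f6477ca8098f550d56694 = true := by decide +kernel

theorem cB20_10_3_21 : chunkOkM (LB20_10.ctx true true 244 83 32 13 16 234 428 32 16) muQ true true 64 RtB20_10.Cx.left.right RtB20_10.CX RtB20_10.Ctp.right.right.right.left.right.left RtB20_10.Ce.right.right.left.right.left.right RtB20_10.CTp.right RtB20_10.CEr.right 0xd6c1d9ec8f04b = true := by decide +kernel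

theorem cB20_10_3_22 : chunkOkM (LB20_10.ctx true true 238 41 16 13 16 238 428 32 16) muQ true true 64 RtB20_10.Cx.left RtB20_10.CX RtB20_10.Ctp.right.right.right.left.right.right RtB20_10.Ce.right.right.left.right.left.right RtB20_10.CTp.right RtB20_10.CEr.right 0x3d8f58c48f00b = true := by decide +kernel

theorem cB20_10_3_23 : chunkOkM (LB20_10.ctx true true 101 1 1 1 1 1 1 1 1) muQ true true 64 RtB20_10.Cx.right RtB20_10.CX RtB20_10.Ctp.right.right.right.left.right RtB20_10.Ce.right.right.left.right.left.right RtB20_10.CTp.right RtB20_10.CEr 0x11 = true := by decide +kernel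

end Vale.Agent.helper4.Q4
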