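import Vale.Agent.helper4.Q4TreeM
import Vale.Agent.helper4.Q4G.PB20_10

/-!
Checks for pairs of intervals of second moments.
-/

set_option maxRecDepth 100000
set_option linter.unusedVariables false

namespace Vale.Agent.helper4.Q4

theorem cB20_10_3_26 : chunkOkM (LB20_10.ctx true true 267 163 64 13 16 470 1740 64 35) muQ true true 64 RtB20_10.Cx.left.left RtB20_10.CX RtB20_10.Ctp.right.right.right.left.right.left RtB20_10.Ce.right.right.left.right.right.left.left RtB20_10.CTp.right RtB20_10.CEr.right 0xa9f945475c1674e917f962291abd8f65105c9308f540d70f42230195c1f7af758f98b3e7113728f530d59d2cebd75c21e5f977f94e5ff3308f649d3ca358f540d5e35e178c95c1a64a23f698b20d5421759cf2deac75c1807aa27f944e63d968f64dc799f98f51c11a5a18f450d888329d9295c26638b2be98b13b32b678f64af295b88f5224a83da8f450d5421735031e637fd647c85375c2175c2068f64ea5fb208f55264f267f450d9916446fd8e085866c361b45b78b48030fe48f651e24cef8f525a53f87f460d56 = true := by decide +kernel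

theorem cB20_10_3_27 : chunkOkM (LB20_10.ctx true true 290 655 256 13 16 1886 3492 64 35) muQ true true 64 RtB20_10.Cx.left.left RtB20_10.CX RtB20_10.Ctp.right.right.right.left.right.left RtB20_10.Ce.right.right.left.right.right.left.right RtB20_10.CTp.right RtB20_10.CEr.right 0x2159abfc59075c5b1f08508f520d2371af96f95c9d7edce388b42e870358f530d59619d2e75c2d71c8778b7a11464f8f644710ed98f540d659321745932174217593 = true := by decide +kernel

theorem cB20_10_3_28 : chunkOkM (LB20_10.ctx true true 277 327 128 13 16 946 1748 64 35) muQ true true 64 RtB20_10.Cx.left.left RtB20_10.CX RtB20_10.Ctp.right.right.right.left.right.right RtB20_10.Ce.right.right.left.right.right.left RtB20_10.CTp.right RtB20_10.CEr.right 0x2101016b6288a75c1b3b82a7f91c99dd148f64328ae7d8f540d386d3341395cfd1fb57988b6e80bda7f642537aff8f540d5991b73d75c3174db578b3de8eb188f6466ad3fb8f540d633401fc6fd1d75c205409548f6413f94a58f530d61cc79b8395c1c6f9a54298b20d59fef1c775c31a43869b31373c098f63f820d6c8f540d611434017017 = true := by decide +kernel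

theorem cB20_10_3_29 : chunkOkM (LB20_10.ctx true true 101 1 1 1 1 1 1 1 1) muQ true true 64 RtB20_10.Cx.left.right RtB20_10.CX RtB20_10.Ctp.right.right.right.left.right.left.left RtB20_10.Ce.right.right.left.right.right.left RtB20_10.CTp.right RtB20_10.CEr.right 0x49 = true := by decide +kernel

theorem cB20_10_3_30 : chunkOkM (LB20_10.ctx true true 276 165 64 13 16 470 1740 64 35) muQ true true 64 RtB20_10.Cx.left.right RtB20_10.CX RtB20_10.Ctp.right.right.right.left.right.left.right RtB20_10.Ce.right.right.left.right.right.left.left RtB20_10.CTp.right RtB20_10.CEr.right 0x69ce3055975c233df4e7f958ac58238f648781a558f5104e72a38f450d88a50793495c2662437f498b4ab756f88f5153907f78f440d5478566df8f05b93c6d9975c2cc9efe78b5f91fdcf8f653292f258f540d56722dcf3676c407cfa69bb55dd45a538bf6dde05c3163af440d4 = true := by decide +kernel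

theorem cB20_10_3_31 : chunkOkM (LB20_10.ctx true true 271 165 64 13 16 942 1756 64 35) muQ true true 64 RtB20_10.Cx.left.right.left RtB20_10.CX RtB20_10.Ctp.right.right.right.left.right.left.right RtB20_10.Ce.right.right.left.right.right.left.right RtB20_10.CTp.right RtB20_10.CEr.right 0xdf242b975cf841596f92b3005798f64f0d4bed8f52606cc238f450d8ba59abaf95c27181213098b45c644838f5c38687c7f440d5b99c54375c1d38bcd7f912d7cafa8f647226be58f57488b9b7f450d80e442175c1f495387f944a2801b8f64ef09ea88f518d1b8228f450d36b665561b95c1dfbb404a98b2cc11d998f64858ac9a8f540d54d8ccd9275c203eb1778f64bf650d38f56e743487f440d9e1d90a75c3919fd878b1b8bb6758f650fb0b848f51d2633d28f450d56 = true := by decide +kernel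

theorem cB20_10_3_32 : chunkOkM (LB20_10.ctx true true 287 167 64 13 16 15102 1756 64 35) muQ true true 64 RtB20_10.Cx.left.right.right RtB20_10.CX RtB20_10.Ctp.right.right.right.left.right.left.right RtB20_10.Ce.right.right.left.right.right.left.right RtB20_10.CTp.right RtB20_10.CEr.right 0x618da3c75c246cf827f9154394e78f6330dfa4e8f560f1f4248f450d61b05c5087062a975c18e4ce978b1f4527e1d9f6592a9b858f51d1c8c168f450d56114493493493493493 = true := by decide +kernel

theorem cB20_10_3_33 : chunkOkM (LB20_10.ctx true true 101 1 1 1 1 1 1 1 1) muQ true true 64 RtB20_10.Cx.left.right RtB20_10.CX RtB20_10.Ctp.right.right.right.left.right.right RtB20_10.Ce.right.right.left.right.right.left.left RtB20_10.CTp.right RtB20_10.CEr.right 0x11 = true := by decide +kernel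

theorem cB20_10_3_34 : chunkOkM (LB20_10.ctx true true 271 165 64 13 16 946 1756 64 35) muQ true true 64 RtB20_10.Cx.left.right.left RtB20_10.CX RtB20_10.Ctp.right.right.right.left.right.right.left RtB20_10.Ce.right.right.left.right.right.left.right RtB20_10.CTp.right RtB20_10.CEr.right 0xcea0cf875c1fc4ba578f649bf367d8f530d68904c29c95c1d425c1fc98b42cea7f98f530d545decc4d8f05b1f8d15b7fd9ee2b6275c1e6af8878b6e23432d8f644685cf98f550d5611ed4665775c1a45eaf7f92aba94548f64487617c8f540d76e4d5cc095c216521f7898b1ba51cb7f64ad2b3d28f540d5337f307dc8f05be74f9b6fdad1196c75c34a3bfa78b12d841b38f64564ee4c8f550d564 = true := by decide +kernel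

theorem cB20_10_3_35 : chunkOkM (LB20_10.ctx true true 257 165 64 13 16 478 876 32 16) muQ true true 64 RtB20_10.Cx.left.right.left RtB20_10.CX RtB20_10.Ctp.right.right.right.left.right.right.right RtB20_10.Ce.right.right.left.right.right.left.right RtB20_10.CTp.right RtB20_10.CEr.right 0x3c7e4b728f00b = true := by decide +kernel

theorem cB20_10_3_36 : chunkOkM (LB20_10.ctx true true 101 1 1 1 1 1 1 1 1) muQ true true 64 RtB20_10.Cx.left.right.right RtB20_10.CX RtB20_10.Ctp.right.right.right.left.right.right RtB20_10.Ce.right.right.left.right.right.left.right RtB20_10.CTp.right RtB20_10.CEr.right 0x69 = true := by decide +kernel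

theorem cB20_10_3_37 : chunkOkM (LB20_10.ctx true true 101 1 1 1 1 1 1 1 1) muQ true true 64 RtB20_10.Cx.left.left RtB20_10.CX RtB20_10.Ctp.right.right.right.left.right RtB20_10.Ce.right.right.left.right.right.right RtB20_10.CTp.right RtB20_10.CEr.right 0x21 = true := by decide +kernel

theorem cB20_10_3_38 : chunkOkM (LB20_10.ctx true true 347 21247 8192 13 16 15102 28164 64 35) muQ true true 64 RtB20_10.Cx.left.right RtB20_10.CX RtB20_10.Ctp.right.right.right.left.right.left RtB20_10.Ce.right.right.left.right.right.right RtB20_10.CTp.right RtB20_10.CEr.right 0x5949594959495949594959fbf9ce275c12aeb2d7f927d1a16581af61596869c29f51609c2ae8f450d71b05c54747474747493493493493493595959595985b129d75c25dc6b77f9176a4081070bf681fa1a5e89f540d81b05c559759759359745935974593597449359744932174734ed8b77fd8edd95c75c1a69759bb6f36a07f6530bdf678f53429d7908f460d50abd66fdac163ba75c3b763b378b472965d7f6572193d18f53c152cae8f460d564934 = true := by decide +kernel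

theorem cB20_10_3_39 : chunkOkM (LB20_10.ctx true true 258 83 32 13 16 238 884 128 32) muQ true true 64 RtB20_10.Cx.left.right RtB20_10.CX RtB20_10.Ctp.right.right.right.left.right.right RtB20_10.Ce.right.right.left.right.right.right.left RtB20_10.CTp.right RtB20_10.CEr.right.left 0x6cb19df7fd70c16966c3fb8849a8f64f8bce848f540dad075f66c2c21ed69b3782c2348f64bc991408f540d4a55 = true := by decide +kernel

end Vale.Agent.helper4.Q4
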