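import Vale.Agent.helper4.Q4TreeM
import Vale.Agent.helper4.Q4G.PB20_10

/-!
Checks for pairs of intervals of second moments.
-/

set_option maxRecDepth 100000
set_option linter.unusedVariables false

namespace Vale.Agent.helper4.Q4

theorem cB20_10_3_40 : chunkOkM (LB20_10.ctx true true 304 5311 2048 13 16 950 3540 64 35) muQ true true 64 RtB20_10.Cx.left.right.left RtB20_10.CX RtB20_10.Ctp.right.right.right.left.right.right RtB20_10.Ce.right.right.left.right.right.right.left RtB20_10.CTp.right RtB20_10.CEr.right.right 0x2110ef644c85c124a208d59f68c55b45c8f230d91b05c54114017017017017017218688ef075c1b8bead7f94ebdf62f8f530d310b08c0495cdb7c887d88b16661c998f645072c238f540d52174593217b0a1eab75c15508ee7f96254df288f65242ce0e8f540d6f914f8f495c1f6d576bb98b462562998f530d543 = true := by decide +kernel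

theorem cB20_10_3_41 : chunkOkM (LB20_10.ctx true true 267 167 64 13 16 478 1772 64 35) muQ true true 64 RtB20_10.Cx.left.right.right RtB20_10.CX RtB20_10.Ctp.right.right.right.left.right.right RtB20_10.Ce.right.right.left.right.right.right.left RtB20_10.CTp.right RtB20_10.CEr.right.right 0xbe9b25475c1389e557f91483ee348f642c85eba8f540d89f8dd81e95c26c643ad398b4890d7168f530d5114f2b598c75c23600797f9461be26a8f64db294108f5d8957697f450d701ec6a2295c1f629c30698b486d5f1d8f64e3c96608f540d5d4ccba775c27af6c27f9201b38628f64b28b5698f52b690d17f450d905c56cac95c2886cd5d398b4957162f8f6469f18f68f51a0b1fc08f450d543 = true := by decide +kernel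

theorem cB20_10_3_42 : chunkOkM (LB20_10.ctx true true 101 1 1 1 1 1 1 1 1) muQ true true 64 RtB20_10.Cx.left.right.left RtB20_10.CX RtB20_10.Ctp.right.right.right.left.right.right RtB20_10.Ce.right.right.left.right.right.right.right RtB20_10.CTp.right RtB20_10.CEr.right 0x21 = true := by decide +kernel

theorem cB20_10_3_43 : chunkOkM (LB20_10.ctx true true 260 167 64 13 16 238 892 64 32) muQ true true 64 RtB20_10.Cx.left.right.right RtB20_10.CX RtB20_10.Ctp.right.right.right.left.right.right RtB20_10.Ce.right.right.left.right.right.right.right RtB20_10.CTp.right RtB20_10.CEr.right.left 0x20248007fd90c6e3275c6cc4063f8f655d67da78f540d893151575c301af2178b52316ceb8f651db15068f540d5 = true := by decide +kernel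

theorem cB20_10_3_44 : chunkOkM (LB20_10.ctx true true 327 5375 2048 13 16 7614 28548 64 35) muQ true true 64 RtB20_10.Cx.left.right.right RtB20_10.CX RtB20_10.Ctp.right.right.right.left.right.right RtB20_10.Ce.right.right.left.right.right.right.right RtB20_10.CTp.right RtB20_10.CEr.right.right 0x901d49d75c162a97d7f92767b8638f648b547618f540d4e11dfb7c95c15e52c2c598b115688958f64761f3448f540d5217d559fcb75c37aa01e88f6497e71598f530d6bf75998e95c1e4aa71d298b4c3135468f530d5459595959d98a4b075c4bf2a56f9db947a1259f69436175e8f540d91b05c55974593597459359745935974593217e3756a375cef36876f943ca1ad28f6537e83ec8f51d9278788f450d8d814e56495c279d469dc98b46a7be808f5c8992567f440d543 = true := by decide +kernel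

theorem cB20_10_3_45 : chunkOkM (LB20_10.ctx true true 101 1 1 1 1 1 1 1 1) muQ true true 64 RtB20_10.Cx.right RtB20_10.CX RtB20_10.Ctp.right.right.right.left.right.left RtB20_10.Ce.right.right.left.right.right RtB20_10.CTp.right RtB20_10.CEr 0x49 = true := by decide +kernel

theorem cB20_10_3_46 : chunkOkM (LB20_10.ctx true true 101 1 1 1 1 1 1 1 1) muQ true true 64 RtB20_10.Cx.right RtB20_10.CX RtB20_10.Ctp.right.right.right.left.right.right RtB20_10.Ce.right.right.left.right.right.left RtB20_10.CTp.right RtB20_10.CEr 0x11 = true := by decide +kernel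

theorem cB20_10_3_47 : chunkOkM (LB20_10.ctx true true 238 43 16 13 16 238 444 32 16) muQ true true 64 RtB20_10.Cx.right RtB20_10.CX RtB20_10.Ctp.right.right.right.left.right.right RtB20_10.Ce.right.right.left.right.right.right RtB20_10.CTp.right RtB20_10.CEr.left 0x67f9270289b5bf29c2db9f81d8d401a8f6522303ab8f5262181c88f450d = true := by decide +kernel

theorem cB20_10_3_48 : chunkOkM (LB20_10.ctx true true 241 43 16 13 16 238 884 32 16) muQ true true 64 RtB20_10.Cx.right RtB20_10.CX RtB20_10.Ctp.right.right.right.left.right.right RtB20_10.Ce.right.right.left.right.right.right.left RtB20_10.CTp.right RtB20_10.CEr.right 0xf4386a318f04b = true := by decide +kernel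

theorem cB20_10_3_49 : chunkOkM (LB20_10.ctx true true 291 673 256 13 16 1902 3572 64 35) muQ true true 64 RtB20_10.Cx.right.left RtB20_10.CX RtB20_10.Ctp.right.right.right.left.right.right.left RtB20_10.Ce.right.right.left.right.right.right.right RtB20_10.CTp.right RtB20_10.CEr.right 0x49494959b56dac375c28d143c7f9f57bfa67f64f416bf08f51a4e9d7b8f450d35495e75c95cec89d39288b6a3ba6b979f630d54acf73e18f05b7eb59c375c2859e5a78b7d6d63e98f65c2fd34c8f513e061c68f450d56477db4abac75c12312227f94d23bdc38f64af03e1e8f5221efe198f450d9b62487ce95c2ba35378898b1365de52c9f430d5163601ef49f04bdbd6c5fda5bc8d075c3092d8878b483e976b8f577f55f77f450d5647493493 = true := by decide +kernel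

theorem cB20_10_3_50 : chunkOkM (LB20_10.ctx true true 267 169 64 13 16 478 1788 64 35) muQ true true 64 RtB20_10.Cx.right.left RtB20_10.CX RtB20_10.Ctp.right.right.right.left.right.right.right RtB20_10.Ce.right.right.left.right.right.right.right RtB20_10.CTp.right RtB20_10.CEr.right 0x69fcba4a175c23ad0697f925298e328f64a0a53128f5fb498fb7f450d93eedd8d995c298f4555698bd8813b67f6536ad6568f51d5567a78f450d546a501a68f05bd367936fdbbc1dbf75c3320ace78b139a78358f64b9778188f5cd076f77f460d567694 = true := by decide +kernel

theorem cB20_10_3_51 : chunkOkM (LB20_10.ctx true true 101 1 1 1 1 1 1 1 1) muQ true true 64 RtB20_10.Cx.right.right RtB20_10.CX RtB20_10.Ctp.right.right.right.left.right.right RtB20_10.Ce.right.right.left.right.right.right.right RtB20_10.CTp.right RtB20_10.CEr.right 0x49 = true := by decide +kernel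

theorem cB20_10_3_52 : chunkOkM (LB20_10.ctx true true 215 21 8 13 16 62 108 32 8) muQ true true 64 RtB20_10.Cx RtB20_10.CX RtB20_10.Ctp.right.right.right.right RtB20_10.Ce.right.right.left.right RtB20_10.CTp.right RtB20_10.CEr 0x2825b5b76c1991e2208f888456f168f650e4e6b429f1133a6b734eaf050d = true := by decide +kernel

theorem cB20_10_3_53 : chunkOkM (LB20_10.ctx true true 222 21 8 13 16 114 228 32 8) muQ true true 64 RtB20_10.Cx RtB20_10.CX RtB20_10.Ctp.right.right.right.left.left RtB20_10.Ce.right.right.right.left.left RtB20_10.CTp.right RtB20_10.CEr 0x7e3331e759f42ab152cf39f220d = true := by decide +kernel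

theorem cB20_10_3_54 : chunkOkM (LB20_10.ctx true true 225 21 8 13 16 118 228 32 16) muQ true true 64 RtB20_10.Cx RtB20_10.CX RtB20_10.Ctp.right.right.right.left.right RtB20_10.Ce.right.right.right.left.left RtB20_10.CTp.right RtB20_10.CEr.left 0x79c3324b89b513ad230a9f8132f4524e9f22fc891218f040d = true := by decide +kernel

theorem cB20_10_3_55 : chunkOkM (LB20_10.ctx true true 101 1 1 1 1 1 1 1 1) muQ true true 64 RtB20_10.Cx.left RtB20_10.CX RtB20_10.Ctp.right.right.right.left.right RtB20_10.Ce.right.right.right.left.left RtB20_10.CTp.right RtB20_10.CEr.right 0x21 = true := by decide +kernel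

theorem cB20_10_3_56 : chunkOkM (LB20_10.ctx true true 101 1 1 1 1 1 1 1 1) muQ true true 64 RtB20_10.Cx.right RtB20_10.CX RtB20_10.Ctp.right.right.right.left.right.left RtB20_10.Ce.right.right.right.left.left RtB20_10.CTp.right RtB20_10.CEr.right 0x49 = true := by decide +kernel

theorem cB20_10_3_57 : chunkOkM (LB20_10.ctx true true 258 85 32 13 16 238 900 128 32) muQ true true 64 RtB20_10.Cx.right.left RtB20_10.CX RtB20_10.Ctp.right.right.right.left.right.right RtB20_10.Ce.right.right.right.left.left.left.left RtB20_10.CTp.right RtB20_10.CEr.right.left 0x57dea297fdafe95d66c45ff2d7c8f64c8cb5288f52e96509f8f450d1305096fdaedb5f66c2ddded69b3e560ef88f6517619378f52bce8fb18f460d4a55 = true := by decide +kernel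

theorem cB20_10_3_58 : chunkOkM (LB20_10.ctx true true 272 171 64 13 16 958 1804 64 35) muQ true true 64 RtB20_10.Cx.right.left RtB20_10.CX RtB20_10.Ctp.right.right.right.left.right.right RtB20_10.Ce.right.right.right.left.left.left.left RtB20_10.CTp.right RtB20_10.CEr.right.right 0xdadf90875c21085047f91799dd1d8f64922c7f58f51a9c13728f450d9ac284c7295c2b7a1574198b53b8b6408f5209c93978f440d5694493cd1675675c10203ba7f95b26edd38f65553d80a8f5185d5f828f450d86cb8b2e395c250cd319998b1ab5a6cac9f630d510ef952785c1d7e96b7f94a0c64e68f64eaa4c228f511350d418f450d751115fa095c20bfffe1998b4d3725c88f52c03d227f440d5478cfb8a375c2dd011e0c9f5fb276a11f9f430d3 = true := by decide +kernel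

end Vale.Agent.helper4.Q4
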