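import Vale.Agent.helper4.Q4TreeM
import Vale.Agent.helper4.Q4G.PB20_10

/-!
Checks for pairs of intervals of second moments.
-/

set_option maxRecDepth 100000
set_option linter.unusedVariables false

namespace Vale.Agent.helper4.Q4

theorem cB20_10_3_59 : chunkOkM (LB20_10.ctx true true 314 2719 1024 13 16 3838 14468 64 35) muQ true true 64 RtB20_10.Cx.right.left RtB20_10.CX RtB20_10.Ctp.right.right.right.left.right.right RtB20_10.Ce.right.right.right.left.left.left.right RtB20_10.CTp.right RtB20_10.CEr.right 0x49591365e8eb85c13040577f923759d778f65213a11b8f5317c5bdb8f450d4e194850d95c15de661a798b133452f48f64c707f618f5ff30fe67f450d54749321595959b54eec475c961b4f913e6298024af6419afd108f540d16e7aba785ce1bb153779f620d55974593597459321745932174727b48d17f96924f07219f4210446efb9f230d357b8aca7fda69e87075c192565898f6582bfa4e8f5445c78368f450d94a49e66c27861f378b2fdb183c8f655e1b88f8f531488bee8f450d56 = true := by decide +kernel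

theorem cB20_10_3_60 : chunkOkM (LB20_10.ctx true true 101 1 1 1 1 1 1 1 1) muQ true true 64 RtB20_10.Cx.right.left RtB20_10.CX RtB20_10.Ctp.right.right.right.left.right.right RtB20_10.Ce.right.right.right.left.left.right RtB20_10.CTp.right RtB20_10.CEr.right 0x59 = true := by decide +kernel

theorem cB20_10_3_61 : chunkOkM (LB20_10.ctx true true 101 1 1 1 1 1 1 1 1) muQ true true 64 RtB20_10.Cx.right.right RtB20_10.CX RtB20_10.Ctp.right.right.right.left.right.right RtB20_10.Ce.right.right.right.left.left RtB20_10.CTp.right RtB20_10.CEr.right 0x49 = true := by decide +kernel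

theorem cB20_10_3_62 : chunkOkM (LB20_10.ctx true true 101 1 1 1 1 1 1 1 1) muQ true true 64 RtB20_10.Cx RtB20_10.CX RtB20_10.Ctp.right.right.right.left RtB20_10.Ce.right.right.right.left.right RtB20_10.CTp.right RtB20_10.CEr 0x59 = true := by decide +kernel

theorem cB20_10_3_63 : chunkOkM (LB20_10.ctx true true 101 1 1 1 1 1 1 1 1) muQ true true 64 RtB20_10.Cx.left RtB20_10.CX RtB20_10.Ctp.right.right.right.right RtB20_10.Ce.right.right.right.left RtB20_10.CTp.right RtB20_10.CEr 0x01 = true := by decide +kernel

theorem cB20_10_3_64 : chunkOkM (LB20_10.ctx true true 231 43 16 13 16 122 228 32 16) muQ true true 64 RtB20_10.Cx.right RtB20_10.CX RtB20_10.Ctp.right.right.right.right.left RtB20_10.Ce.right.right.right.left.left RtB20_10.CTp.right RtB20_10.CEr.left 0x6eb944c689b410b46a5b9f87138d3eb8f61b1b833ec9f2953c7bd78f050d = true := by decide +kernel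

theorem cB20_10_3_65 : chunkOkM (LB20_10.ctx true true 271 169 64 13 16 962 1804 64 35) muQ true true 64 RtB20_10.Cx.right.left RtB20_10.CX RtB20_10.Ctp.right.right.right.right.left.left RtB20_10.Ce.right.right.right.left.left.left.left RtB20_10.CTp.right RtB20_10.CEr.right 0x116901c97724975c19aec6a7f9492d040b8f530d5fa53909795c1ad5e719098b4f70b6528f530d5beef4f875c3b153e69b2418c7cd8f64a2d7cc98f540d6172f2467fdda33f4675c89bde7568f65e41cd648f240d7ed6a08e395c23a2e246898b83a6bab68f230d5802dc4a75c295b6a69b72e398d68f230d64373 = true := by decide +kernel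

theorem cB20_10_3_66 : chunkOkM (LB20_10.ctx true true 254 85 32 13 16 242 908 64 32) muQ true true 64 RtB20_10.Cx.right.left RtB20_10.CX RtB20_10.Ctp.right.right.right.right.left.left RtB20_10.Ce.right.right.right.left.left.left.right RtB20_10.CTp.right RtB20_10.CEr.right.left 0xc92aa566c3b384c8a8f64c7934db8f5ba47d787f240dcb18f366c405452778b361a4dbc8f64d6a7a048f537d37fb7f250d5 = true := by decide +kernel

theorem cB20_10_3_67 : chunkOkM (LB20_10.ctx true true 278 339 128 13 16 962 1820 64 35) muQ true true 64 RtB20_10.Cx.right.left RtB20_10.CX RtB20_10.Ctp.right.right.right.right.left.left RtB20_10.Ce.right.right.right.left.left.left.right RtB20_10.CTp.right RtB20_10.CEr.right.right 0x65895ac98f00b1175e4bf85c20bb7077f9524f23538f64f50f01b8f5c6e583b7f450d70ef5ffaf95c1e93dabe498b22d4715899f6a3410f6f440d5e3b6ff66c253fde57f9323b6d798f648594f588f5902b5bb7f450d99d7fd62595c2b3b88fa298be9e0d5a7f654ed866f8f51b22d2218f450d5432101018bbc7af75c1ef6c7b7f913cb86478f64baa83ce8f540d4d9ff4bd995c15b9d23da98b4c8c12028f530d53321747 = true := by decide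 +kernel

theorem cB20_10_3_68 : chunkOkM (LB20_10.ctx true true 245 87 32 13 16 242 452 32 16) muQ true true 64 RtB20_10.Cx.right.right RtB20_10.CX RtB20_10.Ctp.right.right.right.right.left.left RtB20_10.Ce.right.right.right.left.left.left RtB20_10.CTp.right RtB20_10.CEr.right 0x24852a176ca7086569b848a3096c2af48b17d60a09f140d = true := by decide +kernel

theorem cB20_10_3_69 : chunkOkM (LB20_10.ctx true true 101 1 1 1 1 1 1 1 1) muQ true true 64 RtB20_10.Cx.right RtB20_10.CX RtB20_10.Ctp.right.right.right.right.left.right RtB20_10.Ce.right.right.right.left.left.left RtB20_10.CTp.right RtB20_10.CEr.right 0x11 = true := by decide +kernel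

theorem cB20_10_3_70 : chunkOkM (LB20_10.ctx true true 101 1 1 1 1 1 1 1 1) muQ true true 64 RtB20_10.Cx.right.left.left RtB20_10.CX RtB20_10.Ctp.right.right.right.right.left RtB20_10.Ce.right.right.right.left.left.right.left RtB20_10.CTp.right RtB20_10.CEr.right 0x21 = true := by decide +kernel

theorem cB20_10_3_71 : chunkOkM (LB20_10.ctx true true 260 171 64 13 16 242 916 64 32) muQ true true 64 RtB20_10.Cx.right.left.right RtB20_10.CX RtB20_10.Ctp.right.right.right.right.left.left RtB20_10.Ce.right.right.right.left.left.right.left RtB20_10.CTp.right RtB20_10.CEr.right.left 0x8e7d786fdb850a8e75c532c137d8f652a1f98b8f540dcd740d375c52174e678b3feaa6048f65c3da2288f540d5 = true := by decide +kernel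

theorem cB20_10_3_72 : chunkOkM (LB20_10.ctx true true 304 1375 512 13 16 3870 7332 64 35) muQ true true 64 RtB20_10.Cx.right.left.right RtB20_10.CX RtB20_10.Ctp.right.right.right.right.left.left RtB20_10.Ce.right.right.right.left.left.right.left RtB20_10.CTp.right RtB20_10.CEr.right.right 0x010121ccae29875c1d462b6f9eda04cf18f644af65e38f540d234c3a2f85caea37dbc8f220d54d61a84175c851c606f9785c9b528f230d11c05c54330170172159e0bf9cc75c6106316f94ce7edfc8f530d1be7293f85c5418dfd58f520d559321745932174593217104e65ed85c1b03c497f98254afc48f652c9ef348f511c402d88f450d8422fd02895c243b5d3de98b1c9ad2f7d9f630d543 = true := by decide +kernel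

theorem cB20_10_3_73 : chunkOkM (LB20_10.ctx true true 101 1 1 1 1 1 1 1 1) muQ true true 64 RtB20_10.Cx.right.left.right RtB20_10.CX RtB20_10.Ctp.right.right.right.right.left.right RtB20_10.Ce.right.right.right.left.left.right.left RtB20_10.CTp.right RtB20_10.CEr.right 0x01 = true := by decide +kernel

theorem cB20_10_3_74 : chunkOkM (LB20_10.ctx true true 101 1 1 1 1 1 1 1 1) muQ true true 64 RtB20_10.Cx.right.left RtB20_10.CX RtB20_10.Ctp.right.right.right.right.left RtB20_10.Ce.right.right.right.left.left.right.right RtB20_10.CTp.right RtB20_10.CEr.right 0x21 = true := by decide +kernel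

theorem cB20_10_3_75 : chunkOkM (LB20_10.ctx true true 272 173 64 13 16 966 1836 64 35) muQ true true 64 RtB20_10.Cx.right.right RtB20_10.CX RtB20_10.Ctp.right.right.right.right.left.left.left RtB20_10.Ce.right.right.right.left.left.right.left RtB20_10.CTp.right RtB20_10.CEr.right 0x49b7b677675c1fd4a7c7f919a3d67e8f65068b3eb8f527123a838f450d7a735fb0095c22388ef4c98b324274e68f64d35e7788f540d551bba7698f05b9bbb17575c26d235978b27fae9a78f65561448b8f524633f438f450d568cc91d66c28199bb7f9457dae418f64bc8dee78f51fb3c0ff8f450da0fd211b895c2d401ad7f98b5603b8f28f5230ce3598f440d5410933c88f05b2c358c77fdbf4191575c29c8c0078b6b929ad28f65608ed228f5209374e88f460d5647493 = true := by decide +kernel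

theorem cB20_10_3_76 : chunkOkM (LB20_10.ctx true true 268 173 64 13 16 486 1836 64 35) muQ true true 64 RtB20_10.Cx.right.right RtB20_10.CX RtB20_10.Ctp.right.right.right.right.left.left.right RtB20_10.Ce.right.right.right.left.left.right.left RtB20_10.CTp.right RtB20_10.CEr.right 0x11107d4b476c5bea2eaa8f64f3d71178f530d9eaedcab795c2c9cf91c898b507041c18f530d542f5e6d28f05b9b8a8566c283be9578b5be56b558f65074fd068f540d567114 = true := by decide +kernel

theorem cB20_10_3_77 : chunkOkM (LB20_10.ctx true true 258 87 32 13 16 242 924 128 32) muQ true true 64 RtB20_10.Cx.right.right RtB20_10.CX RtB20_10.Ctp.right.right.right.right.left.left RtB20_10.Ce.right.right.right.left.left.right.right RtB20_10.CTp.right RtB20_10.CEr.right.left 0xda981327fd5fc9cd66c43932b828f65b178e4b8f51f50284e8f450dcf1bee66c3b0c0169b3e101e0b8f654af6a858f52b42090b8f450d4a55 = true := by decide +kernel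

theorem cB20_10_3_78 : chunkOkM (LB20_10.ctx true true 272 173 64 13 16 966 1844 64 35) muQ true true 64 RtB20_10.Cx.right.right RtB20_10.CX RtB20_10.Ctp.right.right.right.right.left.left.left RtB20_10.Ce.right.right.right.left.left.right.right RtB20_10.CTp.right RtB20_10.CEr.right.right 0x4959ee1cb2a75c1f52ca27f9163ea98e8f653889bb48f53cc853418f450d806593b7d95c2417e2a7498b4dedd3c38f523b26b9c8f440d547493 = true := by decide +kernel

end Vale.Agent.helper4.Q4
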