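import Vale.Agent.helper4.Q4TreeM
import Vale.Agent.helper4.Q4G.PB20_10

/-!
Checks for pairs of intervals of second moments.
-/

set_option maxRecDepth 100000
set_option linter.unusedVariables false

namespace Vale.Agent.helper4.Q4

theorem cB20_10_3_79 : chunkOkM (LB20_10.ctx true true 275 347 128 13 16 486 1852 64 35) muQ true true 64 RtB20_10.Cx.right.right RtB20_10.CX RtB20_10.Ctp.right.right.right.right.left.left.right RtB20_10.Ce.right.right.right.left.left.right.right RtB20_10.CTp.right RtB20_10.CEr.right.right 0x116eeec76c19046b67f9675c64128f64f7073928f529ff98d28f450da6d2d10e195c2f005d3da98b4eaae4f58f5117c99d98f440d5fe2467575c6e58362061af472f8ba6709f130d41291211985c1850b367f97b9108cd8f65e34fb788f540d64f6d17ea95c1c6ee23da98b544950d48f530d5217db88dbd75c24ca5de7f9565bdc5c8f650b515ac8f516fba417f450d7a84dd87f95c228c7fc8098b4d8f35e08f530d547 = true := by decide +kernel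

theorem cB20_10_3_80 : chunkOkM (LB20_10.ctx true true 245 87 32 13 16 246 460 32 16) muQ true true 64 RtB20_10.Cx.right.right RtB20_10.CX RtB20_10.Ctp.right.right.right.right.left.right RtB20_10.Ce.right.right.right.left.left.right RtB20_10.CTp.right RtB20_10.CEr.right 0x272163076c9082a069b2f753f9909f1b4843fc0d9f040d = true := by decide +kernel

theorem cB20_10_3_81 : chunkOkM (LB20_10.ctx true true 101 1 1 1 1 1 1 1 1) muQ true true 64 RtB20_10.Cx.right.left RtB20_10.CX RtB20_10.Ctp.right.right.right.right.left RtB20_10.Ce.right.right.right.left.right.left RtB20_10.CTp.right RtB20_10.CEr 0x21 = true := by decide +kernel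

theorem cB20_10_3_82 : chunkOkM (LB20_10.ctx true true 241 87 32 13 16 122 468 32 16) muQ true true 64 RtB20_10.Cx.right.right RtB20_10.CX RtB20_10.Ctp.right.right.right.right.left RtB20_10.Ce.right.right.right.left.right.left RtB20_10.CTp.right RtB20_10.CEr.left 0x5dce921c89b467ecbc069f82a512d758f654cf287a8f519cf836479f450d = true := by decide +kernel

theorem cB20_10_3_83 : chunkOkM (LB20_10.ctx true true 268 175 64 13 16 486 1868 64 35) muQ true true 64 RtB20_10.Cx.right.right RtB20_10.CX RtB20_10.Ctp.right.right.right.right.left.left RtB20_10.Ce.right.right.right.left.right.left RtB20_10.CTp.right RtB20_10.CEr.right 0x5911cbaf0185c1c0a8487f91b16993b8f6554cb9678f53bdfcd918f450db3025234a95c30fbb8d8e98b59c666ba8f430d511df24cc85c1bfe7957f93f1c1e458f652f968a78f5276911f08f450d818fc979495c245a59c4898b3e792b1a8f65206cc098f5281c620f8f450d5421729f05217f970c0c9fa89f4229808ddb9f230d34072adf7fd8d99f066c22244df88f65b552bc18f531da77c48f450dc87ec166c4b651769b21dddc648f65cb04b618f5342cfa668f450d564 = true := by decide +kernel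

theorem cB20_10_3_84 : chunkOkM (LB20_10.ctx true true 101 1 1 1 1 1 1 1 1) muQ true true 64 RtB20_10.Cx.right.right.left RtB20_10.CX RtB20_10.Ctp.right.right.right.right.left.right RtB20_10.Ce.right.right.right.left.right.left RtB20_10.CTp.right RtB20_10.CEr.right 0x01 = true := by decide +kernel

theorem cB20_10_3_85 : chunkOkM (LB20_10.ctx true true 272 175 64 13 16 978 1868 64 35) muQ true true 64 RtB20_10.Cx.right.right.right RtB20_10.CX RtB20_10.Ctp.right.right.right.right.left.right.left RtB20_10.Ce.right.right.right.left.right.left.left RtB20_10.CTp.right RtB20_10.CEr.right 0x12bb47bd85c211bf757f92cc6daad8f64d6406d18f511aa04ee8f450d7faf29c3795c23ec4a04e98b4bcaeae58f530d51111a007c76c26df4a47f9482f06688f530d90e2988be95c28abc512098b54ff58ee8f530d5344d9879c48f05b809fe966c33c7b3d78b3de819908f64c1743ae8f540d56 = true := by decide +kernel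

theorem cB20_10_3_86 : chunkOkM (LB20_10.ctx true true 274 351 128 13 16 490 1876 64 35) muQ true true 64 RtB20_10.Cx.right.right.right RtB20_10.CX RtB20_10.Ctp.right.right.right.right.left.right.left RtB20_10.Ce.right.right.right.left.right.left.right RtB20_10.CTp.right RtB20_10.CEr.right 0x211590fe6585c2537f2c7f92ca3f2f88f654f601628f540d622bde3fb95c1ba21bb1098bd24765c7f64fd7dfde8f5c5861fe7f450d5551165ba8f05bac9486375c213015178b6eaf24d08f64f4f247c8f540d562174 = true := by decide +kernel

theorem cB20_10_3_87 : chunkOkM (LB20_10.ctx true true 101 1 1 1 1 1 1 1 1) muQ true true 64 RtB20_10.Cx.right.right.right RtB20_10.CX RtB20_10.Ctp.right.right.right.right.left.right.right RtB20_10.Ce.right.right.right.left.right.left RtB20_10.CTp.right RtB20_10.CEr.right 0x01 = true := by decide +kernel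

theorem cB20_10_3_88 : chunkOkM (LB20_10.ctx true true 101 1 1 1 1 1 1 1 1) muQ true true 64 RtB20_10.Cx.right RtB20_10.CX RtB20_10.Ctp.right.right.right.right.left RtB20_10.Ce.right.right.right.left.right.right RtB20_10.CTp.right RtB20_10.CEr 0x21 = true := by decide +kernel

theorem cB20_10_3_89 : chunkOkM (LB20_10.ctx true true 101 1 1 1 1 1 1 1 1) muQ true true 64 RtB20_10.Cx.right RtB20_10.CX RtB20_10.Ctp.right.right.right.right.right RtB20_10.Ce.right.right.right.left RtB20_10.CTp.right RtB20_10.CEr 0x01 = true := by decide +kernel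

theorem cB20_10_3_90 : chunkOkM (LB20_10.ctx true true 101 1 1 1 1 1 1 1 1) muQ true true 64 RtB20_10.Cx RtB20_10.CX RtB20_10.Ctp.right.right.right RtB20_10.Ce.right.right.right.right RtB20_10.CTp.right RtB20_10.CEr 0x21 = true := by decide +kernel

theorem cB20_10_2_0 : chunkOkM (LB20_10.ctx false true 101 1 1 1 1 1 1 1 1) muQ false true 64 RtB20_10.Cx RtB20_10.CX RtB20_10.Ctn RtB20_10.Ce RtB20_10.CTp RtB20_10.CEr 0x49 = true := by decide +kernel

theorem cB20_10_1_0 : chunkOkM (LB20_10.ctx true false 101 1 1 1 1 1 1 1 1) muQ true false 64 RtB20_10.Cx RtB20_10.CX RtB20_10.Ctp RtB20_10.Ce RtB20_10.CTn RtB20_10.CEr 0x4a = true := by decide +kernel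

theorem cB20_10_0_0 : chunkOkM (LB20_10.ctx false false 101 1 1 1 1 1 1 1 1) muQ false false 64 RtB20_10.Cx RtB20_10.CX RtB20_10.Ctn RtB20_10.Ce RtB20_10.CTn RtB20_10.CEr 0x49 = true := by decide +kernel

end Vale.Agent.helper4.Q4
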