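import Vale.Agent.helper4.Q4TreeM
import Vale.Agent.helper4.Q4G.PB20_10_0_0
import Vale.Agent.helper4.Q4G.PB20_10_0_1
import Vale.Agent.helper4.Q4G.PB20_10_0_2
import Vale.Agent.helper4.Q4G.PB20_10_0_3
import Vale.Agent.helper4.Q4G.PB20_10_1
import Vale.Agent.helper4.Q4G.PB20_10_2
import Vale.Agent.helper4.Q4G.PB20_10_3
import Vale.Agent.helper4.Q4G.PB20_10_4

/-!
Checks for pairs of intervals of second moments.
-/

set_option maxRecDepth 100000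
set_option linter.unusedVariables false

namespace Vale.Agent.helper4.Q4

theorem covB20_10 : LB20_10.Full muQ.val RtB20_10 := ⟨(LitT.Cov.split_t (LitT.cov_of_chunkM cB20_10_3_0) (LitT.Cov.split_T (LitT.cov_of_chunkM cB20_10_3_1) (LitT.Cov.split_t (LitT.cov_of_chunkM cB20_10_3_2) (LitT.Cov.split_e (LitT.cov_of_chunkM cB20_10_3_3) (LitT.Cov.split_t (LitT.cov_of_chunkM cB20_10_3_4) (LitT.Cov.split_e (LitT.cov_of_chunkM cB20_10_3_5) (LitT.Cov.split_e (LitT.Cov.split_e (LitT.cov_of_chunkM cB20_10_3_6) (LitT.Cov.split_t (LitT.Cov.split_e (LitT.Cov.split_t (LitT.Cov.split_t (LitT.cov_of_chunkM cB20_10_3_7) (LitT.Cov.split_t (LitT.cov_of_chunkM cB20_10_3_8) (LitT.Cov.split_e (LitT.cov_of_chunkM cB20_10_3_9) (LitT.cov_of_chunkM cB20_10_3_10)))) (LitT.Cov.split_e (LitT.cov_of_chunkM cB20_10_3_11) (LitT.Cov.split_x (LitT.Cov.split_E (LitT.cov_of_chunkM cB20_10_3_12) (LitT.Cov.split_t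 (LitT.Cov.split_x (LitT.Cov.split_e (LitT.Cov.split_t (LitT.Cov.split_x (LitT.cov_of_chunkM cB20_10_3_13) (LitT.cov_of_chunkM cB20_10_3_14)) (LitT.cov_of_chunkM cB20_10_3_15)) (LitT.Cov.split_x (LitT.Cov.split_E (LitT.cov_of_chunkM cB20_10_3_16) (LitT.cov_of_chunkM cB20_10_3_17)) (LitT.Cov.split_t (LitT.Cov.split_e (LitT.cov_of_chunkM cB20_10_3_18) (LitT.cov_of_chunkM cB20_10_3_19)) (LitT.cov_of_chunkM cB20_10_3_20)))) (LitT.cov_of_chunkM cB20_10_3_21)) (LitT.cov_of_chunkM cB20_10_3_22))) (LitT.cov_of_chunkM cB20_10_3_23)))) (LitT.Cov.split_t (LitT.cov_of_chunkM cB20_10_3_24) (LitT.Cov.split_x (LitT.Cov.split_E (LitT.cov_of_chunkM cB20_10_3_25) (LitT.Cov.split_e (LitT.Cov.split_x (LitT.Cov.split_t (LitT.Cov.split_e (LitT.cov_of_chunkM cB20_10_3_26) (LitT.cov_of_chunkM cB20_10_3_27)) (LitT.cov_of_chunkM cB20_10_3_28)) (LitT.Cov.split_t (LitT.Cov.split_t (LitT.cov_of_chunkM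 cB20_10_3_29) (LitT.Cov.split_e (LitT.cov_of_chunkM cB20_10_3_30) (LitT.Cov.split_x (LitT.cov_of_chunkM cB20_10_3_31) (LitT.cov_of_chunkM cB20_10_3_32)))) (LitT.Cov.split_e (LitT.cov_of_chunkM cB20_10_3_33) (LitT.Cov.split_x (LitT.Cov.split_t (LitT.cov_of_chunkM cB20_10_3_34) (LitT.cov_of_chunkM cB20_10_3_35)) (LitT.cov_of_chunkM cB20_10_3_36))))) (LitT.Cov.split_x (LitT.cov_of_chunkM cB20_10_3_37) (LitT.Cov.split_t (LitT.cov_of_chunkM cB20_10_3_38) (LitT.Cov.split_e (LitT.Cov.split_E (LitT.cov_of_chunkM cB20_10_3_39) (LitT.Cov.split_x (LitT.cov_of_chunkM cB20_10_3_40) (LitT.cov_of_chunkM cB20_10_3_41))) (LitT.Cov.split_x (LitT.cov_of_chunkM cB20_10_3_42) (LitT.Cov.split_E (LitT.cov_of_chunkM cB20_10_3_43) (LitT.cov_of_chunkM cB20_10_3_44)))))))) (LitT.Cov.split_t (LitT.cov_of_chunkM cB20_10_3_45) (LitT.Cov.split_e (LitT.cov_of_chunkM cB20_10_3_46) (LitT.Cov.split_E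 (LitT.cov_of_chunkM cB20_10_3_47) (LitT.Cov.split_e (LitT.cov_of_chunkM cB20_10_3_48) (LitT.Cov.split_x (LitT.Cov.split_t (LitT.cov_of_chunkM cB20_10_3_49) (LitT.cov_of_chunkM cB20_10_3_50)) (LitT.cov_of_chunkM cB20_10_3_51))))))))) (LitT.cov_of_chunkM cB20_10_3_52))) (LitT.Cov.split_e (LitT.Cov.split_t (LitT.Cov.split_e (LitT.Cov.split_t (LitT.cov_of_chunkM cB20_10_3_53) (LitT.Cov.split_E (LitT.cov_of_chunkM cB20_10_3_54) (LitT.Cov.split_x (LitT.cov_of_chunkM cB20_10_3_55) (LitT.Cov.split_t (LitT.cov_of_chunkM cB20_10_3_56) (LitT.Cov.split_x (LitT.Cov.split_e (LitT.Cov.split_e (LitT.Cov.split_E (LitT.cov_of_chunkM cB20_10_3_57) (LitT.cov_of_chunkM cB20_10_3_58)) (LitT.cov_of_chunkM cB20_10_3_59)) (LitT.cov_of_chunkM cB20_10_3_60)) (LitT.cov_of_chunkM cB20_10_3_61)))))) (LitT.cov_of_chunkM cB20_10_3_62)) (LitT.Cov.split_x (LitT.cov_of_chunkM cB20_10_3_63) (LitT.Cov.split_t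 (LitT.Cov.split_e (LitT.Cov.split_E (LitT.cov_of_chunkM cB20_10_3_64) (LitT.Cov.split_e (LitT.Cov.split_t (LitT.Cov.split_x (LitT.Cov.split_e (LitT.cov_of_chunkM cB20_10_3_65) (LitT.Cov.split_E (LitT.cov_of_chunkM cB20_10_3_66) (LitT.cov_of_chunkM cB20_10_3_67))) (LitT.cov_of_chunkM cB20_10_3_68)) (LitT.cov_of_chunkM cB20_10_3_69)) (LitT.Cov.split_x (LitT.Cov.split_e (LitT.Cov.split_x (LitT.cov_of_chunkM cB20_10_3_70) (LitT.Cov.split_t (LitT.Cov.split_E (LitT.cov_of_chunkM cB20_10_3_71) (LitT.cov_of_chunkM cB20_10_3_72)) (LitT.cov_of_chunkM cB20_10_3_73))) (LitT.cov_of_chunkM cB20_10_3_74)) (LitT.Cov.split_t (LitT.Cov.split_e (LitT.Cov.split_t (LitT.cov_of_chunkM cB20_10_3_75) (LitT.cov_of_chunkM cB20_10_3_76)) (LitT.Cov.split_E (LitT.cov_of_chunkM cB20_10_3_77) (LitT.Cov.split_t (LitT.cov_of_chunkM cB20_10_3_78) (LitT.cov_of_chunkM cB20_10_3_79)))) (LitT.cov_of_chunkM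 cB20_10_3_80))))) (LitT.Cov.split_e (LitT.Cov.split_x (LitT.cov_of_chunkM cB20_10_3_81) (LitT.Cov.split_E (LitT.cov_of_chunkM cB20_10_3_82) (LitT.Cov.split_t (LitT.cov_of_chunkM cB20_10_3_83) (LitT.Cov.split_x (LitT.cov_of_chunkM cB20_10_3_84) (LitT.Cov.split_t (LitT.Cov.split_e (LitT.cov_of_chunkM cB20_10_3_85) (LitT.cov_of_chunkM cB20_10_3_86)) (LitT.cov_of_chunkM cB20_10_3_87)))))) (LitT.cov_of_chunkM cB20_10_3_88))) (LitT.cov_of_chunkM cB20_10_3_89)))) (LitT.cov_of_chunkM cB20_10_3_90))))))))), (LitT.cov_of_chunkM cB20_10_1_0), (LitT.cov_of_chunkM cB20_10_2_0), (LitT.cov_of_chunkM cB20_10_0_0)⟩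

end Vale.Agent.helper4.Q4
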