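import Vale.Agent.helper4.Q4TreeM
import Vale.Agent.helper4.Q4G.PB20_11

/-!
Checks for pairs of intervals of second moments.
-/

set_option maxRecDepth 100000
set_option linter.unusedVariables false

namespace Vale.Agent.helper4.Q4

theorem cB20_11_3_0 : chunkOkM (LB20_11.ctx true true 105 1 1 1 1 1 1 1 1) muQ true true 64 RtB20_11.Cx RtB20_11.CX RtB20_11.Ctp.left RtB20_11.Ce RtB20_11.CTp RtB20_11.CEr 0x41 = true := by decide +kernel

theorem cB20_11_3_1 : chunkOkM (LB20_11.ctx true true 105 1 1 1 1 1 1 1 1) muQ true true 64 RtB20_11.Cx RtB20_11.CX RtB20_11.Ctp.right RtB20_11.Ce RtB20_11.CTp.left RtB20_11.CEr 0x42 = true := by decide +kernel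

theorem cB20_11_3_2 : chunkOkM (LB20_11.ctx true true 105 1 1 1 1 1 1 1 1) muQ true true 64 RtB20_11.Cx RtB20_11.CX RtB20_11.Ctp.right RtB20_11.Ce RtB20_11.CTp.right RtB20_11.CEr.left 0x6a = true := by decide +kernel

theorem cB20_11_3_3 : chunkOkM (LB20_11.ctx true true 105 1 1 1 1 1 1 1 1) muQ true true 64 RtB20_11.Cx RtB20_11.CX RtB20_11.Ctp.right.left RtB20_11.Ce RtB20_11.CTp.right RtB20_11.CEr.right 0x41 = true := by decide +kernel

theorem cB20_11_3_4 : chunkOkM (LB20_11.ctx true true 105 1 1 1 1 1 1 1 1) muQ true true 64 RtB20_11.Cx RtB20_11.CX RtB20_11.Ctp.right.right RtB20_11.Ce.left RtB20_11.CTp.right RtB20_11.CEr.right 0x11 = true := by decide +kernel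

theorem cB20_11_3_5 : chunkOkM (LB20_11.ctx true true 105 1 1 1 1 1 1 1 1) muQ true true 64 RtB20_11.Cx RtB20_11.CX RtB20_11.Ctp.right.right.left RtB20_11.Ce.right RtB20_11.CTp.right RtB20_11.CEr.right 0x49 = true := by decide +kernel

theorem cB20_11_3_6 : chunkOkM (LB20_11.ctx true true 105 1 1 1 1 1 1 1 1) muQ true true 64 RtB20_11.Cx RtB20_11.CX RtB20_11.Ctp.right.right.right RtB20_11.Ce.right.left RtB20_11.CTp.right RtB20_11.CEr.right 0x11 = true := by decide +kernel

theorem cB20_11_3_7 : chunkOkM (LB20_11.ctx true true 221 21 8 15 16 58 100 16 33) muQ true true 64 RtB20_11.Cx RtB20_11.CX RtB20_11.Ctp.right.right.right.left RtB20_11.Ce.right.right.left.left RtB20_11.CTp.right RtB20_11.CEr.right 0x2b18a667c22b9b5ab19da065ac21bf41c2624d064af140d = true := by decide +kernel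

theorem cB20_11_3_8 : chunkOkM (LB20_11.ctx true true 105 1 1 1 1 1 1 1 1) muQ true true 64 RtB20_11.Cx RtB20_11.CX RtB20_11.Ctp.right.right.right.left.left.left RtB20_11.Ce.right.right.left.right.left RtB20_11.CTp.right RtB20_11.CEr.right 0x49 = true := by decide +kernel

theorem cB20_11_3_9 : chunkOkM (LB20_11.ctx true true 105 1 1 1 1 1 1 1 1) muQ true true 64 RtB20_11.Cx RtB20_11.CX RtB20_11.Ctp.right.right.right.left.left.right.left RtB20_11.Ce.right.right.left.right.left RtB20_11.CTp.right RtB20_11.CEr.right 0x49 = true := by decide +kernel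

theorem cB20_11_3_10 : chunkOkM (LB20_11.ctx true true 302 161 64 57 64 462 1692 256 165) muQ true true 64 RtB20_11.Cx RtB20_11.CX RtB20_11.Ctp.right.right.right.left.left.right.right RtB20_11.Ce.right.right.left.right.left.left RtB20_11.CTp.right RtB20_11.CEr.right 0x111149c2dc09676c16a526f48f92eb7f7b4d9f635a568d639f5e2eebcc78f450daadc67976c42812e1359f635e61ca789f5146b050b99f440d67d4918767c2187f315fe1ccf638725e38f14bf430d476a64a4a11f20f3cf76c1f47c9e439f63c38c20e19f510f6e492b9f440d347a7d2269f05b67884a54a542556947 = true := by decide +kernel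

theorem cB20_11_3_11 : chunkOkM (LB20_11.ctx true true 300 161 64 57 64 926 1708 256 165) muQ true true 64 RtB20_11.Cx RtB20_11.CX RtB20_11.Ctp.right.right.right.left.left.right.right RtB20_11.Ce.right.right.left.right.left.right RtB20_11.CTp.right RtB20_11.CEr.right 0x49494959b02a2d976c13d8db508f92116458419f63beb340559f5166ddc4509f450da500f7376c1b56c5958f913e445e8e9f637eccaa089f55f7340bf8f450d96085a176c1a697b178f9df3711708f63a16161459f5172c501d89f450d349bea74576c2874903829f63a8b93c429f515366665b9f440d66a64a4ad5dee2376c33c2eb5109f63cb58361c9f55e56512a8f440d3e2a584c69f05b6884a54a542554777 = true := by decide +kernel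

theorem cB20_11_3_12 : chunkOkM (LB20_11.ctx true true 105 1 1 1 1 1 1 1 1) muQ true true 64 RtB20_11.Cx RtB20_11.CX RtB20_11.Ctp.right.right.right.left.right RtB20_11.Ce.right.right.left.right.left.left RtB20_11.CTp.right RtB20_11.CEr.right 0x69 = true := by decide +kernel

theorem cB20_11_3_13 : chunkOkM (LB20_11.ctx true true 303 163 64 57 64 470 1708 256 165) muQ true true 64 RtB20_11.Cx.left.left RtB20_11.CX RtB20_11.Ctp.right.right.right.left.right.left RtB20_11.Ce.right.right.left.right.left.right.left RtB20_11.CTp.right RtB20_11.CEr.right 0xab16c467c685be9b38f64f87c3a409f230dc3ec25976c3223c8a0eacfcf645833f11747bf430dc6c45d776c1f41d8318f927475cc959f634ad9dff29f540da2084d276c11ff4c8619f637ee984129f530d6cc8cc4276cfd6763a7f9e31506368f632b4d61459f540d951c2ca76c204f6469b2c78028599f638e3124019f540d64736a64a4ac5c27ce76c24af3dbdd9f637e886aa09f530dc5629267c2d5c65ab17609f7b79f635c0a516e9f540d6884a54a54255 = true := by decide +kernel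

theorem cB20_11_3_14 : chunkOkM (LB20_11.ctx true true 279 81 32 57 64 234 860 256 77) muQ true true 64 RtB20_11.Cx.left.left RtB20_11.CX RtB20_11.Ctp.right.right.right.left.right.left RtB20_11.Ce.right.right.left.right.left.right.right RtB20_11.CTp.right.left RtB20_11.CEr.right 0x4a4ae3bb9da76c2761d3e0f9f63aaabb4409f530d7db433b76c14c3946ab2007b71269f63af24b32d9f540d6884a54a5425 = true := by decide +kernel

theorem cB20_11_3_15 : chunkOkM (LB20_11.ctx true true 105 1 1 1 1 1 1 1 1) muQ true true 64 RtB20_11.Cx.left.left RtB20_11.CX RtB20_11.Ctp.right.right.right.left.right.left RtB20_11.Ce.right.right.left.right.left.right.right RtB20_11.CTp.right.right RtB20_11.CEr.right.left 0x6a = true := by decide +kernel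

theorem cB20_11_3_16 : chunkOkM (LB20_11.ctx true true 280 323 128 15 16 470 1724 35 165) muQ true true 64 RtB20_11.Cx.left.left.left RtB20_11.CX RtB20_11.Ctp.right.right.right.left.right.left RtB20_11.Ce.right.right.left.right.left.right.right RtB20_11.CTp.right.right RtB20_11.CEr.right.right 0xa5b130176c70fc47c7f9430489e1a9f633cf465919f52ef7daa28f250d217a5d858776c7769cf47f9202b100929f62f59802119f53a32ca048f250d4cd2182876c191aebe18f9246ad80aa9f6386d4131a9f540db0787a576c37afed8119f639846ba559f530d63 = true := by decide +kernel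

theorem cB20_11_3_17 : chunkOkM (LB20_11.ctx true true 274 163 64 15 16 470 1724 35 165) muQ true true 64 RtB20_11.Cx.left.left.right RtB20_11.CX RtB20_11.Ctp.right.right.right.left.right.left RtB20_11.Ce.right.right.left.right.left.right.right RtB20_11.CTp.right.right RtB20_11.CEr.right.right 0xa8e491376c82790b67f91b3620d459f633f4b04be9f540dd7a97b776c1739f2588f92bdd4a3529f63a48983929f5c5c0c0ef8f450d6b079787fd9c1241776c35156ac3e9f639cd1e1f09f5d3d6a2d28f450d6d9d95dd76c15e84b0a8f92095eb2559f6362df48119f5d8e00a4c8f450da5de3da76c37867b6109f637e97b3d99f59a9168738f440d643 = true := by decide +kernel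

theorem cB20_11_3_18 : chunkOkM (LB20_11.ctx true true 247 81 32 15 16 238 428 16 33) muQ true true 64 RtB20_11.Cx.left.left RtB20_11.CX RtB20_11.Ctp.right.right.right.left.right.right RtB20_11.Ce.right.right.left.right.left.right RtB20_11.CTp.right RtB20_11.CEr.right 0x40c26424f9f00b = true := by decide +kernel

theorem cB20_11_3_19 : chunkOkM (LB20_11.ctx true true 244 83 32 15 16 118 428 16 33) muQ true true 64 RtB20_11.Cx.left.right RtB20_11.CX RtB20_11.Ctp.right.right.right.left.right RtB20_11.Ce.right.right.left.right.left.right RtB20_11.CTp.right RtB20_11.CEr.right 0x112262e77cd7fe8ca7f7535102a1b71bf459bfcb1959af140d = true := by decide +kernel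

theorem cB20_11_3_20 : chunkOkM (LB20_11.ctx true true 105 1 1 1 1 1 1 1 1) muQ true true 64 RtB20_11.Cx.right RtB20_11.CX RtB20_11.Ctp.right.right.right.left.right RtB20_11.Ce.right.right.left.right.left.right RtB20_11.CTp.right RtB20_11.CEr.right 0x11 = true := by decide +kernel

theorem cB20_11_3_21 : chunkOkM (LB20_11.ctx true true 228 21 8 15 16 114 220 16 33) muQ true true 64 RtB20_11.Cx RtB20_11.CX RtB20_11.Ctp.right.right.right.left.left RtB20_11.Ce.right.right.left.right.right RtB20_11.CTp.right RtB20_11.CEr.right 0x17ffb7977c786ba16ab36bf742097af512921e3a564bf440d = true := by decide +kernel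

theorem cB20_11_3_22 : chunkOkM (LB20_11.ctx true true 316 655 256 57 64 1886 3492 256 77) muQ true true 64 RtB20_11.Cx.left.left RtB20_11.CX RtB20_11.Ctp.right.right.right.left.right RtB20_11.Ce.right.right.left.right.right.left RtB20_11.CTp.right.left RtB20_11.CEr.right 0x4a4a010121dd51fc776c87fa65ab19ab945219f63931cdddf9f540d3316f2e3e9f05b641044c29786c398266c399f638c5b8e079f530d449a015029f02b64330170172159157d0d8c86c258794e79b39acabf3b8af630d3193b8f7d9f05b659321745932174217593d4b473f76c4f1ae5ab22a1472f29f63adfdd8e79f540dd1142e676c1483d56ab1a6d3ce899f641f94a8839f540d643884a54a5425 = true := by decide +kernel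

theorem cB20_11_3_23 : chunkOkM (LB20_11.ctx true true 280 327 128 15 16 470 1748 35 165) muQ true true 64 RtB20_11.Cx.left.left RtB20_11.CX RtB20_11.Ctp.right.right.right.left.right RtB20_11.Ce.right.right.left.right.right.left RtB20_11.CTp.right.right RtB20_11.CEr.right 0x21aeff13276c61b5cbb7f93cd72e00c9f63415f38569f5846c07f08f250d49db068e76c8a8c46a7f91f168a4959f62e82f30259f5a4cc7d188f250d4017017a6b4be176c541e00e7f92a4b75d269f63d115dff59f540de103ba876c12b522478f91f5ec1fd99f636a5095369f540dc1b6c4b76c12f23c7e8f91a58da9159f63c2a33d5a9f5183c5a70f9f450d3be9566576c2ee739e239f635b6ed0559f530daca561876c1a5b66e429f63d6431e949f511bb4e9319f440d36436a6 = true := by decide +kernel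

theorem cB20_11_3_24 : chunkOkM (LB20_11.ctx true true 105 1 1 1 1 1 1 1 1) muQ true true 64 RtB20_11.Cx.left.right RtB20_11.CX RtB20_11.Ctp.right.right.right.left.right.left.left RtB20_11.Ce.right.right.left.right.right.left RtB20_11.CTp.right RtB20_11.CEr.right 0x49 = true := by decide +kernel

end Vale.Agent.helper4.Q4
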