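import Vale.Agent.helper4.Q4TreeM
import Vale.Agent.helper4.Q4G.PB20_11

/-!
Checks for pairs of intervals of second moments.
-/

set_option maxRecDepth 100000
set_option linter.unusedVariables false

namespace Vale.Agent.helper4.Q4

theorem cB20_11_3_31 : chunkOkM (LB20_11.ctx true true 266 83 32 15 16 470 884 35 165) muQ true true 64 RtB20_11.Cx.left.right RtB20_11.CX RtB20_11.Ctp.right.right.right.left.right.left RtB20_11.Ce.right.right.left.right.right.right RtB20_11.CTp.right.right RtB20_11.CEr.right.right 0x599a7206676c1b3ae2448f9a04ef0298f6406f346419f530ce729059f450da7dcdf876c19381e17f945bc3c1589f53c10d8bb49f440d64934 = true := by decide +kernel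

theorem cB20_11_3_32 : chunkOkM (LB20_11.ctx true true 275 167 64 15 16 478 1772 35 165) muQ true true 64 RtB20_11.Cx.left.right RtB20_11.CX RtB20_11.Ctp.right.right.right.left.right.right RtB20_11.Ce.right.right.left.right.right.right.left RtB20_11.CTp.right.right RtB20_11.CEr.right.right 0xc89d3ae76c160293bec9f63561642d29f530de3b090676c156d07058f92e0490c539f63b7a4de8e9f5e36f2d5c8f450d1342a3c88fdc31983f76c1562b61d49f63ecdbc69b9f5c239d7cd8f450d6f369a2276cdf2eadb7f9119cf14249f639963185b9f543a84eb68f450d9dbafd376c34244babe9f63d9ed790c9f546d1b2e88f440d643b3b931676c4d176307f91bca51fb19f68de5b23b89f240dc1e4cfe76cca21ee67f930d209dc79f63ca9bb1bf9f540d1a5748ac8fda3638ff76c1c557ad4b9f63b41457519f540d637 = true := by decide +kernel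

theorem cB20_11_3_33 : chunkOkM (LB20_11.ctx true true 272 167 64 15 16 478 892 35 165) muQ true true 64 RtB20_11.Cx.left.right RtB20_11.CX RtB20_11.Ctp.right.right.right.left.right.right RtB20_11.Ce.right.right.left.right.right.right.right RtB20_11.CTp.right.right RtB20_11.CEr.right.right 0xe92aea776cf41c12f7f91f3d121d69f63a31ab2779f540dc0029ec76c54f5d96309f6407da126f9f530d6ce023df76cf4cb0f77f92d5e8769f9f6412c387989f513086a3489f450dd21e36176c1cc086d0d9f63e80383429f510da5e8a89f440d63217 = true := by decide +kernel

theorem cB20_11_3_34 : chunkOkM (LB20_11.ctx true true 105 1 1 1 1 1 1 1 1) muQ true true 64 RtB20_11.Cx.right RtB20_11.CX RtB20_11.Ctp.right.right.right.left.right.left RtB20_11.Ce.right.right.left.right.right RtB20_11.CTp.right RtB20_11.CEr.right 0x49 = true := by decide +kernel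

theorem cB20_11_3_35 : chunkOkM (LB20_11.ctx true true 105 1 1 1 1 1 1 1 1) muQ true true 64 RtB20_11.Cx.right RtB20_11.CX RtB20_11.Ctp.right.right.right.left.right.right RtB20_11.Ce.right.right.left.right.right.left RtB20_11.CTp.right RtB20_11.CEr.right 0x11 = true := by decide +kernel

theorem cB20_11_3_36 : chunkOkM (LB20_11.ctx true true 245 43 16 15 16 238 884 16 33) muQ true true 64 RtB20_11.Cx.right RtB20_11.CX RtB20_11.Ctp.right.right.right.left.right.right RtB20_11.Ce.right.right.left.right.right.right.left RtB20_11.CTp.right RtB20_11.CEr.right 0x28d000877c122f1607ab663a35674cebf46d11b01203af140d = true := by decide +kernel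

end Vale.Agent.helper4.Q4
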