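import Vale.Agent.helper4.Q4TreeM
import Vale.Agent.helper4.Q4G.PB20_11

/-!
Checks for pairs of intervals of second moments.
-/

set_option maxRecDepth 100000
set_option linter.unusedVariables false

namespace Vale.Agent.helper4.Q4

theorem cB20_11_3_37 : chunkOkM (LB20_11.ctx true true 319 673 256 57 64 1902 3572 256 165) muQ true true 64 RtB20_11.Cx.right RtB20_11.CX RtB20_11.Ctp.right.right.right.left.right.right RtB20_11.Ce.right.right.left.right.right.right.right RtB20_11.CTp.right RtB20_11.CEr.right 0x4969fde7b0f76c10f003118f91f6caf5389f638ad0b4ee9f5d67775e78f450d2623d2eb8fd9ff118b76c27972b63e9f63db0752629f5555c06ec8f450d6769449494959c5e9cd176c155927418f9246401e5e9f63b8344d299f511072b93b9f450d22ca67ec8fdd3fc8e276c4e23ecec79f63f640721b9f5c60520ad8f450d64f6777bb76c11f11a018f9378d680f99f53b590f82c9f440d60f064f7fde97dac276c3093b4f409f566dde220e9f440d6477749349336a64a4a12c217cc86c578ab4b959f636253351c9f53051cded89f440db8b9c4728fdf5b30f67c18513f6ab173bff4f89f63dc42ce899f517f713c4b9f460d6884a54a542557 = true := by decide +kernel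

theorem cB20_11_3_38 : chunkOkM (LB20_11.ctx true true 218 21 8 15 16 62 52 16 33) muQ true true 64 RtB20_11.Cx RtB20_11.CX RtB20_11.Ctp.right.right.right.right RtB20_11.Ce.right.right.left RtB20_11.CTp.right RtB20_11.CEr.right 0xbfb6d767ce9b3946ab49d39f17eaaf11096a664bb0bf040d = true := by decide +kernel

theorem cB20_11_3_39 : chunkOkM (LB20_11.ctx true true 228 21 8 15 16 114 228 16 33) muQ true true 64 RtB20_11.Cx RtB20_11.CX RtB20_11.Ctp.right.right.right.left.left RtB20_11.Ce.right.right.right.left.left RtB20_11.CTp.right RtB20_11.CEr.right 0x6606fe2805af4223dcde0a7af220d = true := by decide +kernel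

theorem cB20_11_3_40 : chunkOkM (LB20_11.ctx true true 105 1 1 1 1 1 1 1 1) muQ true true 64 RtB20_11.Cx.left RtB20_11.CX RtB20_11.Ctp.right.right.right.left.right RtB20_11.Ce.right.right.right.left.left RtB20_11.CTp.right RtB20_11.CEr.right 0x21 = true := by decide +kernel

theorem cB20_11_3_41 : chunkOkM (LB20_11.ctx true true 105 1 1 1 1 1 1 1 1) muQ true true 64 RtB20_11.Cx.right RtB20_11.CX RtB20_11.Ctp.right.right.right.left.right.left RtB20_11.Ce.right.right.right.left.left RtB20_11.CTp.right RtB20_11.CEr.right 0x49 = true := by decide +kernel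

end Vale.Agent.helper4.Q4
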