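import Vale.Agent.helper4.Q4TreeM
import Vale.Agent.helper4.Q4G.PB20_11

/-!
Checks for pairs of intervals of second moments.
-/

set_option maxRecDepth 100000
set_option linter.unusedVariables false

namespace Vale.Agent.helper4.Q4

theorem cB20_11_3_42 : chunkOkM (LB20_11.ctx true true 280 85 32 57 64 238 908 256 77) muQ true true 64 RtB20_11.Cx.right.left RtB20_11.CX RtB20_11.Ctp.right.right.right.left.right.right RtB20_11.Ce.right.right.right.left.left.left RtB20_11.CTp.right.left RtB20_11.CEr.right 0x4a4a12bf72a77c27b03c6ab5a3f69d58f6475e98a229f53e2e698079f450df3d458076c7f5a55ab8480f4388f6481f716709f53b975583f9f450d6f962cb376c21b2696ab3e2e16d4b9f63e2ce32899f51f06fc3219f450d84cadb176c15ddec6849f6436b4eb2c9f51c0668f039f440d64884a54a5425 = true := by decide +kernel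

theorem cB20_11_3_43 : chunkOkM (LB20_11.ctx true true 105 1 1 1 1 1 1 1 1) muQ true true 64 RtB20_11.Cx.right.left RtB20_11.CX RtB20_11.Ctp.right.right.right.left.right.right RtB20_11.Ce.right.right.right.left.left.left RtB20_11.CTp.right.right RtB20_11.CEr.right.left 0x6a = true := by decide +kernel

theorem cB20_11_3_44 : chunkOkM (LB20_11.ctx true true 279 171 64 15 16 958 1804 35 165) muQ true true 64 RtB20_11.Cx.right.left RtB20_11.CX RtB20_11.Ctp.right.right.right.left.right.right RtB20_11.Ce.right.right.right.left.left.left.left RtB20_11.CTp.right.right RtB20_11.CEr.right.right 0x115f996786c117a82058f95512ac90b9f63de10f0019f520d68764e9f450dca8b2d976c7d78778ae9f6374947a729f552e9923339f440d6694493d69116476c1a32d7f68f92c1a221539f6405d093609f59bb6ce4b8f450de4d78a876c14c21d4c8f928c697e269f63c8c843209f5db77c5438f450d4c7c866976c2fee2effe9f64051c3bf99f5a7516d6d8f440d671aafa3ee86c57963c479b32750f8dd4af511918e424bebf440d3 = true := by decide +kernel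

theorem cB20_11_3_45 : chunkOkM (LB20_11.ctx true true 272 171 64 15 16 478 908 35 165) muQ true true 64 RtB20_11.Cx.right.left RtB20_11.CX RtB20_11.Ctp.right.right.right.left.right.right RtB20_11.Ce.right.right.right.left.left.left.right RtB20_11.CTp.right.right RtB20_11.CEr.right.right 0xe1bbeb776cc9317b87f92529e90bb9f64216d97809f5282402d309f450d1068218c86caa63a887f9483659c639f64264fef819f540d769c75a098f953e2c64182af41a59bf2d56af230d317f8c83f8fd976dafe76c1eaa2569b101ced5589f644e939a069f53d31f8ae39f460d6 = true := by decide +kernel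

theorem cB20_11_3_46 : chunkOkM (LB20_11.ctx true true 105 1 1 1 1 1 1 1 1) muQ true true 64 RtB20_11.Cx.right.left RtB20_11.CX RtB20_11.Ctp.right.right.right.left.right.right RtB20_11.Ce.right.right.right.left.left.right RtB20_11.CTp.right RtB20_11.CEr.right 0x59 = true := by decide +kernel

theorem cB20_11_3_47 : chunkOkM (LB20_11.ctx true true 105 1 1 1 1 1 1 1 1) muQ true true 64 RtB20_11.Cx.right.right RtB20_11.CX RtB20_11.Ctp.right.right.right.left.right.right RtB20_11.Ce.right.right.right.left.left RtB20_11.CTp.right RtB20_11.CEr.right 0x49 = true := by decide +kernel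

theorem cB20_11_3_48 : chunkOkM (LB20_11.ctx true true 105 1 1 1 1 1 1 1 1) muQ true true 64 RtB20_11.Cx RtB20_11.CX RtB20_11.Ctp.right.right.right.left RtB20_11.Ce.right.right.right.left.right RtB20_11.CTp.right RtB20_11.CEr.right 0x59 = true := by decide +kernel

theorem cB20_11_3_49 : chunkOkM (LB20_11.ctx true true 105 1 1 1 1 1 1 1 1) muQ true true 64 RtB20_11.Cx.left RtB20_11.CX RtB20_11.Ctp.right.right.right.right RtB20_11.Ce.right.right.right.left RtB20_11.CTp.right RtB20_11.CEr.right 0x01 = true := by decide +kernel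

theorem cB20_11_3_50 : chunkOkM (LB20_11.ctx true true 290 169 64 57 64 482 900 256 77) muQ true true 64 RtB20_11.Cx.right.left RtB20_11.CX RtB20_11.Ctp.right.right.right.right.left.left RtB20_11.Ce.right.right.right.left.left.left.left RtB20_11.CTp.right RtB20_11.CEr.right 0x1169c88ebb276c5188dd77f91c79276329f637c7aa64a9f540d736a64a4a10f72a0486c266862bef9f63ba4dfa4f9f530d335b5b9559f05b6884a54a54255 = true := by decide +kernel

theorem cB20_11_3_51 : chunkOkM (LB20_11.ctx true true 302 339 128 57 64 486 1820 256 165) muQ true true 64 RtB20_11.Cx.right.left RtB20_11.CX RtB20_11.Ctp.right.right.right.right.left.left RtB20_11.Ce.right.right.right.left.left.left.right RtB20_11.CTp.right RtB20_11.CEr.right 0x5f43067a89f00be95a9d876c11f87a498f922e9033bf9f63e858bbce9f5c9bd292d8f450dda6b5a076c1ded4f9929f63e01218349f530d6e913e2476c1ee74c338f9abd3d1898f63a779f2fc9f540d3022c8338fda00901276c2b329538f9f63e5c17dcf9f540d64321c889aeb76c45168777f944d11048d9f63b16084209f5699bc5e7f250d217476a64a4a1132d58586c3f75e76ab36fcc86189f64027d86249f5358e3d3d8f450d22059407fdd9656667c217c95ab166127e429f640953adae9f573e5f0ca8f260d6884a54a54255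 = true := by decide +kernel

theorem cB20_11_3_52 : chunkOkM (LB20_11.ctx true true 249 87 32 15 16 242 452 16 33) muQ true true 64 RtB20_11.Cx.right.right RtB20_11.CX RtB20_11.Ctp.right.right.right.right.left.left RtB20_11.Ce.right.right.right.left.left.left RtB20_11.CTp.right RtB20_11.CEr.right 0x2ccff0277c13075717aba262e761a07bf4aaee51a35aaf140d = true := by decide +kernel

theorem cB20_11_3_53 : chunkOkM (LB20_11.ctx true true 105 1 1 1 1 1 1 1 1) muQ true true 64 RtB20_11.Cx.right RtB20_11.CX RtB20_11.Ctp.right.right.right.right.left.right RtB20_11.Ce.right.right.right.left.left.left RtB20_11.CTp.right RtB20_11.CEr.right 0x11 = true := by decide +kernel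

theorem cB20_11_3_54 : chunkOkM (LB20_11.ctx true true 286 171 64 57 64 246 924 256 77) muQ true true 64 RtB20_11.Cx.right RtB20_11.CX RtB20_11.Ctp.right.right.right.right.left RtB20_11.Ce.right.right.right.left.left.right RtB20_11.CTp.right.left RtB20_11.CEr.right 0x4a4a6603308519f00bf71ae5d76c1cca766ab20a72a0bc9f644e5ef5f19f51a5ee90f39f450dc43c1267c2e7cf36ab262cf53349f64b13669899f513a099ed69f450d6108f750f86c402cf68c69f63bf1f9f379f523ddd8c119f440dbf025a158fd1109fe877c1cd8a46ab243617c219f63bcdb2bd69f52563a527b9f460d643210111ce9b8e86cae54fc6ab1c6623f019f642eb3a7d89f540d32cfbdf48fd1006182e86c1c21b46ab4b1f63f609f6475426e899f550d6321747884a54a5425 = true := by decide +kernel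

theorem cB20_11_3_55 : chunkOkM (LB20_11.ctx true true 105 1 1 1 1 1 1 1 1) muQ true true 64 RtB20_11.Cx.right RtB20_11.CX RtB20_11.Ctp.right.right.right.right.left RtB20_11.Ce.right.right.right.left.left.right RtB20_11.CTp.right.right RtB20_11.CEr.right.left 0x6a = true := by decide +kernel

theorem cB20_11_3_56 : chunkOkM (LB20_11.ctx true true 272 171 64 15 16 486 916 35 165) muQ true true 64 RtB20_11.Cx.right.left RtB20_11.CX RtB20_11.Ctp.right.right.right.right.left.left RtB20_11.Ce.right.right.right.left.left.right RtB20_11.CTp.right.right RtB20_11.CEr.right.right 0x21c155c0876c26592917f92189da4c89f63ac2efbca9f53adfc6148f250de2ccf0476c18a435c68f9229790f389f6404ed52f69f5bb4cd9868f450db3132ac76c2f4293fef9f6434cad55f9f5d06579308f440d632174 = true := by decide +kernel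

theorem cB20_11_3_57 : chunkOkM (LB20_11.ctx true true 279 173 64 15 16 966 1836 35 165) muQ true true 64 RtB20_11.Cx.right.right RtB20_11.CX RtB20_11.Ctp.right.right.right.right.left.left RtB20_11.Ce.right.right.right.left.left.right.left RtB20_11.CTp.right.right RtB20_11.CEr.right.right 0x11f7749cc76ca7547fc7f962f316848f63afe62c409f540d11083b9686c2f61de69b5e1dd745a9f6380099e499f540d6711449f04d81876cfea1c157f931a54f7b99f63f52239709f51aa8d73649f450dd2e142a76c203b4db209f63f77b80179f5da93245f8f440d6f89378176c9f043f37f93b400bcbd9f63dcee8b949f51655d804c9f450d3374f8308fdce3a94976cbcdb96c749f63aef9ad619f540d6474933 = true := by decide +kernel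

theorem cB20_11_3_58 : chunkOkM (LB20_11.ctx true true 279 173 64 15 16 966 1844 35 165) muQ true true 64 RtB20_11.Cx.right.right RtB20_11.CX RtB20_11.Ctp.right.right.right.right.left.left.left RtB20_11.Ce.right.right.right.left.left.right.right RtB20_11.CTp.right.right RtB20_11.CEr.right.right 0x4959f494a1076cc00850e7f919c5c8a379f641a7fe0339f52bf8316b89f450deaa0b9576c3f3c4935b9f63f94d96559f529ec27ac79f440d647493 = true := by decide +kernel

theorem cB20_11_3_59 : chunkOkM (LB20_11.ctx true true 280 175 64 15 16 974 1852 35 165) muQ true true 64 RtB20_11.Cx.right.right RtB20_11.CX RtB20_11.Ctp.right.right.right.right.left.left.right RtB20_11.Ce.right.right.right.left.left.right.right RtB20_11.CTp.right.right RtB20_11.CEr.right.right 0x11677a1386ce1c63957f995107d7b8f63c15b1f949f57bb1b0378f450d1047cd6286c5938d107f9368a92fbd9f63f426087c9f52be5bcf309f450d3c0f2f1e76cb40fd969b78a2257f69f63ae446b5b9f522acb69169f450d62511ce677c86a26195886bf48dde5f12c2af130d4fc2764376cbcefd097f93bd4b53a39f642ea29da39f5a35e98c68f450dfd5a45276caf1920a7f9253b9657e9f64009ef6c89f5a93421328f450d4b14714e76c41880e69b32c02d5989f644a02ecca9f5cfcf9cdb8f450d67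 = true := by decide +kernel

theorem cB20_11_3_60 : chunkOkM (LB20_11.ctx true true 250 43 16 15 16 246 460 35 77) muQ true true 64 RtB20_11.Cx.right RtB20_11.CX RtB20_11.Ctp.right.right.right.right.left.right RtB20_11.Ce.right.right.right.left.left.right RtB20_11.CTp.right.right RtB20_11.CEr.right.right 0xb239ead98fd7c03c1ad39f12e8002ee99af030d = true := by decide +kernel

theorem cB20_11_3_61 : chunkOkM (LB20_11.ctx true true 105 1 1 1 1 1 1 1 1) muQ true true 64 RtB20_11.Cx.right.left RtB20_11.CX RtB20_11.Ctp.right.right.right.right.left RtB20_11.Ce.right.right.right.left.right.left RtB20_11.CTp.right RtB20_11.CEr.right 0x21 = true := by decide +kernel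

end Vale.Agent.helper4.Q4
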