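import Vale.Agent.helper4.Q4TreeM
import Vale.Agent.helper4.Q4G.PB20_11

/-!
Checks for pairs of intervals of second moments.
-/

set_option maxRecDepth 100000
set_option linter.unusedVariables false

namespace Vale.Agent.helper4.Q4

theorem cB20_11_3_62 : chunkOkM (LB20_11.ctx true true 299 351 128 57 64 490 1876 256 77) muQ true true 64 RtB20_11.Cx.right.right RtB20_11.CX RtB20_11.Ctp.right.right.right.right.left RtB20_11.Ce.right.right.right.left.right.left RtB20_11.CTp.right.left RtB20_11.CEr.right 0x4a4a0121522e7bc7fdd52db5a76c3dd8958579f6479e350279f540d40dcea9249f05b6217413056ce986c185aaa8bc9f643f02564c9f530d3b31200e19f05b6430175912d9e1477c28cf646ab1d20245629f6499261d279f52230ea1039f450def8cb6776c13a8416ab1ac5afdf99f64d30b72d09f51cfef5cdc9f450d643884a54a5425 = true := by decide +kernel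

theorem cB20_11_3_63 : chunkOkM (LB20_11.ctx true true 105 1 1 1 1 1 1 1 1) muQ true true 64 RtB20_11.Cx.right.right RtB20_11.CX RtB20_11.Ctp.right.right.right.right.left RtB20_11.Ce.right.right.right.left.right.left RtB20_11.CTp.right.right RtB20_11.CEr.right.left 0x6a = true := by decide +kernel

theorem cB20_11_3_64 : chunkOkM (LB20_11.ctx true true 290 351 128 15 16 974 1868 75 165) muQ true true 64 RtB20_11.Cx.right.right RtB20_11.CX RtB20_11.Ctp.right.right.right.right.left.left RtB20_11.Ce.right.right.right.left.right.left RtB20_11.CTp.right.right RtB20_11.CEr.right.right 0x59ecc15ce76c4d468a0d8f92186641839f6430f8de789f51d0c288599f450d129dce9b86cce9689a58f641612fecf9f51e0707f3d9f440d5134e6b6386c39fe912a79f63ff0f0a999f51da74347d9f440d12b488b486c866d6a6f926bff55009f6426723cd19f511fb54ca39f450d7d7e347e76c5292ac0a6caf51fe1aafb364bf430d34217757be6098f95a3ff41213af41bb9fefd01af230d3bf9e9d076c1d74083049f640cd125c39f523fcfc6619f440d5a67eb1023af41da6f91da0af220d364 = true := by decide +kernel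

theorem cB20_11_3_65 : chunkOkM (LB20_11.ctx true true 105 1 1 1 1 1 1 1 1) muQ true true 64 RtB20_11.Cx.right.right.left RtB20_11.CX RtB20_11.Ctp.right.right.right.right.left.right RtB20_11.Ce.right.right.right.left.right.left RtB20_11.CTp.right.right RtB20_11.CEr.right.right 0x01 = true := by decide +kernel

theorem cB20_11_3_66 : chunkOkM (LB20_11.ctx true true 284 175 64 15 16 982 1868 75 165) muQ true true 64 RtB20_11.Cx.right.right.right RtB20_11.CX RtB20_11.Ctp.right.right.right.right.left.right.left RtB20_11.Ce.right.right.right.left.right.left.left RtB20_11.CTp.right.right RtB20_11.CEr.right.right 0x11cf494686cd9a9d794d9f1385bfe7a6caf030dd9963d976c4a41fa208f92203c32d99f63ecf73e319f510206827c9f450d1344f26e86cc5d440dc8f63ec8342689f51fcdf9298f240d531165458086c1868d94cd9f6411ecc7b39f530d61112555d6986c429a4b67f91354acf729f63bc79f0bd9f540df888a3876ce83b8c69be29f416b8f63ff1bdb2e9f540d634 = true := by decide +kernel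

theorem cB20_11_3_67 : chunkOkM (LB20_11.ctx true true 286 351 128 15 16 490 1876 75 165) muQ true true 64 RtB20_11.Cx.right.right.right RtB20_11.CX RtB20_11.Ctp.right.right.right.right.left.right.left RtB20_11.Ce.right.right.right.left.right.left.right RtB20_11.CTp.right.right RtB20_11.CEr.right.right 0x21100e85d086c5e4a614b8f93e88698da9f646a8b09819f540d16b99bf58fdb59985f76ce93acf69b2170098cf9f6421df1d3c9f58fc2a5d38f460d5bcebaad76c1e9e04fea9f642436158d9f530d62174 = true := by decide +kernel

theorem cB20_11_3_68 : chunkOkM (LB20_11.ctx true true 105 1 1 1 1 1 1 1 1) muQ true true 64 RtB20_11.Cx.right.right.right RtB20_11.CX RtB20_11.Ctp.right.right.right.right.left.right.right RtB20_11.Ce.right.right.right.left.right.left RtB20_11.CTp.right.right RtB20_11.CEr.right.right 0x01 = true := by decide +kernel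

theorem cB20_11_3_69 : chunkOkM (LB20_11.ctx true true 105 1 1 1 1 1 1 1 1) muQ true true 64 RtB20_11.Cx.right RtB20_11.CX RtB20_11.Ctp.right.right.right.right.left RtB20_11.Ce.right.right.right.left.right.right RtB20_11.CTp.right RtB20_11.CEr.right 0x21 = true := by decide +kernel

theorem cB20_11_3_70 : chunkOkM (LB20_11.ctx true true 105 1 1 1 1 1 1 1 1) muQ true true 64 RtB20_11.Cx.right RtB20_11.CX RtB20_11.Ctp.right.right.right.right.right RtB20_11.Ce.right.right.right.left RtB20_11.CTp.right RtB20_11.CEr.right 0x01 = true := by decide +kernel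

theorem cB20_11_3_71 : chunkOkM (LB20_11.ctx true true 105 1 1 1 1 1 1 1 1) muQ true true 64 RtB20_11.Cx RtB20_11.CX RtB20_11.Ctp.right.right.right RtB20_11.Ce.right.right.right.right RtB20_11.CTp.right RtB20_11.CEr.right 0x21 = true := by decide +kernel

theorem cB20_11_2_0 : chunkOkM (LB20_11.ctx false true 105 1 1 1 1 1 1 1 1) muQ false true 64 RtB20_11.Cx RtB20_11.CX RtB20_11.Ctn RtB20_11.Ce RtB20_11.CTp RtB20_11.CEr 0x49 = true := by decide +kernel

theorem cB20_11_1_0 : chunkOkM (LB20_11.ctx true false 105 1 1 1 1 1 1 1 1) muQ true false 64 RtB20_11.Cx RtB20_11.CX RtB20_11.Ctp RtB20_11.Ce RtB20_11.CTn RtB20_11.CEr 0x4a = true := by decide +kernel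

theorem cB20_11_0_0 : chunkOkM (LB20_11.ctx false false 105 1 1 1 1 1 1 1 1) muQ false false 64 RtB20_11.Cx RtB20_11.CX RtB20_11.Ctn RtB20_11.Ce RtB20_11.CTn RtB20_11.CEr 0x49 = true := by decide +kernel

end Vale.Agent.helper4.Q4
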