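import Vale.Agent.helper4.Q4TreeM
import Vale.Agent.helper4.Q4G.PB20_11_0
import Vale.Agent.helper4.Q4G.PB20_11_1_0
import Vale.Agent.helper4.Q4G.PB20_11_1_1
import Vale.Agent.helper4.Q4G.PB20_11_1_2
import Vale.Agent.helper4.Q4G.PB20_11_2
import Vale.Agent.helper4.Q4G.PB20_11_3

/-!
Checks for pairs of intervals of second moments.
-/

set_option maxRecDepth 100000
set_option linter.unusedVariables false

namespace Vale.Agent.helper4.Q4

theorem covB20_11 : LB20_11.Full muQ.val RtB20_11 := ⟨(LitT.Cov.split_t (LitT.cov_of_chunkM cB20_11_3_0) (LitT.Cov.split_T (LitT.cov_of_chunkM cB20_11_3_1) (LitT.Cov.split_E (LitT.cov_of_chunkM cB20_11_3_2) (LitT.Cov.split_t (LitT.cov_of_chunkM cB20_11_3_3) (LitT.Cov.split_e (LitT.cov_of_chunkM cB20_11_3_4) (LitT.Cov.split_t (LitT.cov_of_chunkM cB20_11_3_5) (LitT.Cov.split_e (LitT.cov_of_chunkM cB20_11_3_6) (LitT.Cov.split_e (LitT.Cov.split_t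 (LitT.Cov.split_e (LitT.cov_of_chunkM cB20_11_3_7) (LitT.Cov.split_e (LitT.Cov.split_t (LitT.Cov.split_t (LitT.cov_of_chunkM cB20_11_3_8) (LitT.Cov.split_t (LitT.cov_of_chunkM cB20_11_3_9) (LitT.Cov.split_e (LitT.cov_of_chunkM cB20_11_3_10) (LitT.cov_of_chunkM cB20_11_3_11)))) (LitT.Cov.split_e (LitT.cov_of_chunkM cB20_11_3_12) (LitT.Cov.split_x (LitT.Cov.split_x (LitT.Cov.split_t (LitT.Cov.split_e (LitT.cov_of_chunkM cB20_11_3_13) (LitT.Cov.split_T (LitT.cov_of_chunkM cB20_11_3_14) (LitT.Cov.split_E (LitT.cov_of_chunkM cB20_11_3_15) (LitT.Cov.split_x (LitT.cov_of_chunkM cB20_11_3_16) (LitT.cov_of_chunkM cB20_11_3_17))))) (LitT.cov_of_chunkM cB20_11_3_18)) (LitT.cov_of_chunkM cB20_11_3_19)) (LitT.cov_of_chunkM cB20_11_3_20)))) (LitT.Cov.split_t (LitT.cov_of_chunkM cB20_11_3_21) (LitT.Cov.split_x (LitT.Cov.split_e (LitT.Cov.split_x (LitT.Cov.split_T (LitT.cov_of_chunkM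 cB20_11_3_22) (LitT.cov_of_chunkM cB20_11_3_23)) (LitT.Cov.split_t (LitT.Cov.split_t (LitT.cov_of_chunkM cB20_11_3_24) (LitT.Cov.split_e (LitT.cov_of_chunkM cB20_11_3_25) (LitT.cov_of_chunkM cB20_11_3_26))) (LitT.cov_of_chunkM cB20_11_3_27))) (LitT.Cov.split_x (LitT.cov_of_chunkM cB20_11_3_28) (LitT.Cov.split_T (LitT.cov_of_chunkM cB20_11_3_29) (LitT.Cov.split_E (LitT.cov_of_chunkM cB20_11_3_30) (LitT.Cov.split_t (LitT.cov_of_chunkM cB20_11_3_31) (LitT.Cov.split_e (LitT.cov_of_chunkM cB20_11_3_32) (LitT.cov_of_chunkM cB20_11_3_33))))))) (LitT.Cov.split_t (LitT.cov_of_chunkM cB20_11_3_34) (LitT.Cov.split_e (LitT.cov_of_chunkM cB20_11_3_35) (LitT.Cov.split_e (LitT.cov_of_chunkM cB20_11_3_36) (LitT.cov_of_chunkM cB20_11_3_37)))))))) (LitT.cov_of_chunkM cB20_11_3_38)) (LitT.Cov.split_e (LitT.Cov.split_t (LitT.Cov.split_e (LitT.Cov.split_t (LitT.cov_of_chunkM cB20_11_3_39)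 (LitT.Cov.split_x (LitT.cov_of_chunkM cB20_11_3_40) (LitT.Cov.split_t (LitT.cov_of_chunkM cB20_11_3_41) (LitT.Cov.split_x (LitT.Cov.split_e (LitT.Cov.split_T (LitT.cov_of_chunkM cB20_11_3_42) (LitT.Cov.split_E (LitT.cov_of_chunkM cB20_11_3_43) (LitT.Cov.split_e (LitT.cov_of_chunkM cB20_11_3_44) (LitT.cov_of_chunkM cB20_11_3_45)))) (LitT.cov_of_chunkM cB20_11_3_46)) (LitT.cov_of_chunkM cB20_11_3_47))))) (LitT.cov_of_chunkM cB20_11_3_48)) (LitT.Cov.split_x (LitT.cov_of_chunkM cB20_11_3_49) (LitT.Cov.split_t (LitT.Cov.split_e (LitT.Cov.split_e (LitT.Cov.split_t (LitT.Cov.split_x (LitT.Cov.split_e (LitT.cov_of_chunkM cB20_11_3_50) (LitT.cov_of_chunkM cB20_11_3_51)) (LitT.cov_of_chunkM cB20_11_3_52)) (LitT.cov_of_chunkM cB20_11_3_53)) (LitT.Cov.split_T (LitT.cov_of_chunkM cB20_11_3_54) (LitT.Cov.split_E (LitT.cov_of_chunkM cB20_11_3_55) (LitT.Cov.split_t (LitT.Cov.split_x (LitT.cov_of_chunkM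 cB20_11_3_56) (LitT.Cov.split_e (LitT.cov_of_chunkM cB20_11_3_57) (LitT.Cov.split_t (LitT.cov_of_chunkM cB20_11_3_58) (LitT.cov_of_chunkM cB20_11_3_59)))) (LitT.cov_of_chunkM cB20_11_3_60))))) (LitT.Cov.split_e (LitT.Cov.split_x (LitT.cov_of_chunkM cB20_11_3_61) (LitT.Cov.split_T (LitT.cov_of_chunkM cB20_11_3_62) (LitT.Cov.split_E (LitT.cov_of_chunkM cB20_11_3_63) (LitT.Cov.split_t (LitT.cov_of_chunkM cB20_11_3_64) (LitT.Cov.split_x (LitT.cov_of_chunkM cB20_11_3_65) (LitT.Cov.split_t (LitT.Cov.split_e (LitT.cov_of_chunkM cB20_11_3_66) (LitT.cov_of_chunkM cB20_11_3_67)) (LitT.cov_of_chunkM cB20_11_3_68))))))) (LitT.cov_of_chunkM cB20_11_3_69))) (LitT.cov_of_chunkM cB20_11_3_70)))) (LitT.cov_of_chunkM cB20_11_3_71)))))))))), (LitT.cov_of_chunkM cB20_11_1_0), (LitT.cov_of_chunkM cB20_11_2_0), (LitT.cov_of_chunkM cB20_11_0_0)⟩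

end Vale.Agent.helper4.Q4
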