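import Vale.Agent.helper4.Q4TreeM
import Vale.Agent.helper4.Q4G.PB20_12

/-!
Checks for pairs of intervals of second moments.
-/

set_option maxRecDepth 100000
set_option linter.unusedVariables false

namespace Vale.Agent.helper4.Q4

theorem cB20_12_3_0 : chunkOkM (LB20_12.ctx true true 109 1 1 1 1 1 1 1 1) muQ true true 64 RtB20_12.Cx RtB20_12.CX RtB20_12.Ctp.left RtB20_12.Ce RtB20_12.CTp RtB20_12.CEr 0x41 = true := by decide +kernel

theorem cB20_12_3_1 : chunkOkM (LB20_12.ctx true true 109 1 1 1 1 1 1 1 1) muQ true true 64 RtB20_12.Cx RtB20_12.CX RtB20_12.Ctp.right RtB20_12.Ce RtB20_12.CTp.left RtB20_12.CEr 0x42 = true := by decide +kernel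

theorem cB20_12_3_2 : chunkOkM (LB20_12.ctx true true 109 1 1 1 1 1 1 1 1) muQ true true 64 RtB20_12.Cx RtB20_12.CX RtB20_12.Ctp.right RtB20_12.Ce RtB20_12.CTp.right.left RtB20_12.CEr 0x42 = true := by decide +kernel

theorem cB20_12_3_3 : chunkOkM (LB20_12.ctx true true 109 1 1 1 1 1 1 1 1) muQ true true 64 RtB20_12.Cx RtB20_12.CX RtB20_12.Ctp.right RtB20_12.Ce RtB20_12.CTp.right.right RtB20_12.CEr.left 0x12 = true := by decide +kernel

theorem cB20_12_3_4 : chunkOkM (LB20_12.ctx true true 109 1 1 1 1 1 1 1 1) muQ true true 64 RtB20_12.Cx RtB20_12.CX RtB20_12.Ctp.right.left RtB20_12.Ce RtB20_12.CTp.right.right RtB20_12.CEr.right 0x41 = true := by decide +kernel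

theorem cB20_12_3_5 : chunkOkM (LB20_12.ctx true true 109 1 1 1 1 1 1 1 1) muQ true true 64 RtB20_12.Cx RtB20_12.CX RtB20_12.Ctp.right.right RtB20_12.Ce.left RtB20_12.CTp.right.right RtB20_12.CEr.right 0x11 = true := by decide +kernel

theorem cB20_12_3_6 : chunkOkM (LB20_12.ctx true true 109 1 1 1 1 1 1 1 1) muQ true true 64 RtB20_12.Cx RtB20_12.CX RtB20_12.Ctp.right.right.left RtB20_12.Ce.right RtB20_12.CTp.right.right RtB20_12.CEr.right 0x49 = true := by decide +kernel

theorem cB20_12_3_7 : chunkOkM (LB20_12.ctx true true 109 1 1 1 1 1 1 1 1) muQ true true 64 RtB20_12.Cx RtB20_12.CX RtB20_12.Ctp.right.right.right RtB20_12.Ce.right.left RtB20_12.CTp.right.right RtB20_12.CEr.right 0x11 = true := by decide +kernel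

theorem cB20_12_3_8 : chunkOkM (LB20_12.ctx true true 233 21 8 17 16 30 52 35 65) muQ true true 64 RtB20_12.Cx RtB20_12.CX RtB20_12.Ctp.right.right.right RtB20_12.Ce.right.right.left RtB20_12.CTp.right.right RtB20_12.CEr.right.left 0x2e5cc59bf2abb1641afb6e94f8df81a90bdd1c4af62a04008619af575d7d46c29f050d = true := by decide +kernel

theorem cB20_12_3_9 : chunkOkM (LB20_12.ctx true true 235 21 8 17 16 30 100 35 91) muQ true true 64 RtB20_12.Cx RtB20_12.CX RtB20_12.Ctp.right.right.right RtB20_12.Ce.right.right.left.left RtB20_12.CTp.right.right RtB20_12.CEr.right.right 0x20a3a9e78c1740ef47bb2dc95532bad5cf43114d7abc09bf140d = true := by decide +kernel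

theorem cB20_12_3_10 : chunkOkM (LB20_12.ctx true true 286 161 64 17 16 462 852 75 195) muQ true true 64 RtB20_12.Cx RtB20_12.CX RtB20_12.Ctp.right.right.right.left.left RtB20_12.Ce.right.right.left.right.left RtB20_12.CTp.right.right RtB20_12.CEr.right.right 0x49494959101c227287c239f48cd1eaf631c1bb7ec6af51371ceade8af440d26dc78977c298d368a68af635ac9b14a3af51bb154645caf440dc7208f677c3b1c3c57ab18157c4a3baf6316d055304af540d56477711102e3ae987c24f302a8f8af62d8590f22aaf51324ded856af440d112e045368c2195abd7c9af62e2636deb4af5a549d42d89f440dc6bead68c1cc7d367ab2679c3515baf62c234f1267af595729619d9f450d57694674493493 = true := by decide +kernel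

theorem cB20_12_3_11 : chunkOkM (LB20_12.ctx true true 109 1 1 1 1 1 1 1 1) muQ true true 64 RtB20_12.Cx RtB20_12.CX RtB20_12.Ctp.right.right.right.left.right RtB20_12.Ce.right.right.left.right.left.left RtB20_12.CTp.right.right RtB20_12.CEr.right.right 0x69 = true := by decide +kernel

theorem cB20_12_3_12 : chunkOkM (LB20_12.ctx true true 279 81 32 17 16 470 852 75 169) muQ true true 64 RtB20_12.Cx.left.left RtB20_12.CX RtB20_12.Ctp.right.right.right.left.right.left RtB20_12.Ce.right.right.left.right.left.right.left RtB20_12.CTp.right.right RtB20_12.CEr.right.right.left 0x1f82770b6daf00b535b08677c7e219cd7abc1bfc2c479f650a20b8aa5af240d54fe8f168c162d01969eaf62f77562d54af530dcadf84177c358c0217ab154c10e48aaf62edbf0ea07af540d53 = true := by decide +kernel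

theorem cB20_12_3_13 : chunkOkM (LB20_12.ctx true true 285 161 64 17 16 470 860 75 169) muQ true true 64 RtB20_12.Cx.left.left.left RtB20_12.CX RtB20_12.Ctp.right.right.right.left.right.left RtB20_12.Ce.right.right.left.right.left.right.right RtB20_12.CTp.right.right RtB20_12.CEr.right.right.left 0x2566f5bb200a9fa86eaf62ae65f0e7daf530dc74e14b77c223aa167ab15c59dd056af628717da503af540d53cea97377c23465c40a5af63002e1438faf530d931c1b377c40427537abc857b58eb9f6316ebe4a3caf540d53 = true := by decide +kernel

theorem cB20_12_3_14 : chunkOkM (LB20_12.ctx true true 285 163 64 17 16 470 860 75 169) muQ true true 64 RtB20_12.Cx.left.left.right RtB20_12.CX RtB20_12.Ctp.right.right.right.left.right.left RtB20_12.Ce.right.right.left.right.left.right.right RtB20_12.CTp.right.right RtB20_12.CEr.right.right.left 0x20e06e743caf05b6839e3977c813a3317ab2a88d27c1daf62edca74c4daf540d57a0cb368c1eb41e98a9af63443ce58b6af5587c234ff9f440dcaf12db77c4899e6a7ab1b17e46c26af635461cde20af5b3a7bd4979f450d53 = true := by decide +kernel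

theorem cB20_12_3_15 : chunkOkM (LB20_12.ctx true true 282 81 32 35 32 234 428 75 377) muQ true true 64 RtB20_12.Cx.left.left RtB20_12.CX RtB20_12.Ctp.right.right.right.left.right.left RtB20_12.Ce.right.right.left.right.left.right RtB20_12.CTp.right.right RtB20_12.CEr.right.right.right 0x22534d6868c7f3236fd8f716804c0eecaf629b16e280daf540d4a56228 = true := by decide +kernel

theorem cB20_12_3_16 : chunkOkM (LB20_12.ctx true true 265 83 32 17 16 234 428 35 91) muQ true true 64 RtB20_12.Cx.left.right RtB20_12.CX RtB20_12.Ctp.right.right.right.left.right.left RtB20_12.Ce.right.right.left.right.left.right RtB20_12.CTp.right.right RtB20_12.CEr.right.right 0x3c2d1468c6ec7536bb3b72c9aa61d9cf4404977b78e0bf140d = true := by decide +kernel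

theorem cB20_12_3_17 : chunkOkM (LB20_12.ctx true true 259 41 16 17 16 238 428 35 91) muQ true true 64 RtB20_12.Cx.left RtB20_12.CX RtB20_12.Ctp.right.right.right.left.right.right RtB20_12.Ce.right.right.left.right.left.right RtB20_12.CTp.right.right RtB20_12.CEr.right.right 0x41f6b06bb10a5f9ba2f3bf13d31a066246bf030d = true := by decide +kernel

theorem cB20_12_3_18 : chunkOkM (LB20_12.ctx true true 109 1 1 1 1 1 1 1 1) muQ true true 64 RtB20_12.Cx.right RtB20_12.CX RtB20_12.Ctp.right.right.right.left.right RtB20_12.Ce.right.right.left.right.left.right RtB20_12.CTp.right.right RtB20_12.CEr.right.right 0x11 = true := by decide +kernel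

theorem cB20_12_3_19 : chunkOkM (LB20_12.ctx true true 246 21 8 17 16 114 220 35 91) muQ true true 64 RtB20_12.Cx RtB20_12.CX RtB20_12.Ctp.right.right.right.left.left RtB20_12.Ce.right.right.left.right.right RtB20_12.CTp.right.right RtB20_12.CEr.right.right 0x1368046bb2ba38537f2af62d7fa047c81bf5ed8bf4fa2e0bf440d = true := by decide +kernel

theorem cB20_12_3_20 : chunkOkM (LB20_12.ctx true true 321 655 256 35 32 1886 3492 75 377) muQ true true 64 RtB20_12.Cx.left.left RtB20_12.CX RtB20_12.Ctp.right.right.right.left.right.left RtB20_12.Ce.right.right.left.right.right.left RtB20_12.CTp.right.right RtB20_12.CEr.right.right 0x22c1cc3668c1ba6e00481af634eea5a58faf530d4a56228215928690dadddaf05b75110cb77c451711c7ab2b721964e16bf625453cbccaaf540d5593217459321742175933a9ff3a77c204be724b1af6357486ffd2af530dea95d4177c480d8c37ab25d7734282af637258a93abaf540d546 = true := by decide +kernel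

theorem cB20_12_3_21 : chunkOkM (LB20_12.ctx true true 289 83 32 35 32 470 876 75 377) muQ true true 64 RtB20_12.Cx.left.right RtB20_12.CX RtB20_12.Ctp.right.right.right.left.right.left RtB20_12.Ce.right.right.left.right.right.left RtB20_12.CTp.right.right RtB20_12.CEr.right.right 0x22b2792368cf019820659f6329483ae96af5b8980592e9f440d4a5622847a92468c232188f99eaf635460456e1af51188546343af440ddcd5a9277c5ab52fa7ab1e31a5e524af63a11090fd2af5123f87f8cdaf450d522bf9068c12357d1103af62fa81c4c39af57d2308c6d9f440de3c12468c29a16897ab204253db5faf62ab56197c2af517d6275641af450d546493 = true := by decide +kernel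

theorem cB20_12_3_22 : chunkOkM (LB20_12.ctx true true 295 327 128 17 16 474 1748 75 195) muQ true true 64 RtB20_12.Cx.left.left RtB20_12.CX RtB20_12.Ctp.right.right.right.left.right.right RtB20_12.Ce.right.right.left.right.right.left RtB20_12.CTp.right.right RtB20_12.CEr.right.right 0x1159c7c287cbb5b82728f81c7688439faf628e29cac6eaf5779890eb89f250d210128beb60e68af05bb58f62f77c3638d477ab400622d63aaf6324bb3fcecaf540d5343743f84a5caf02bcb239e077c37e82227ab267bfde528af62a44aa41beaf55d9cc8f7c9f250d546017017 = true := by decide +kernel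

end Vale.Agent.helper4.Q4
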