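import Vale.Agent.helper4.Q4TreeM
import Vale.Agent.helper4.Q4G.PB20_12

/-!
Checks for pairs of intervals of second moments.
-/

set_option maxRecDepth 100000
set_option linter.unusedVariables false

namespace Vale.Agent.helper4.Q4

theorem cB20_12_3_23 : chunkOkM (LB20_12.ctx true true 280 83 32 17 16 478 876 75 195) muQ true true 64 RtB20_12.Cx.left.right RtB20_12.CX RtB20_12.Ctp.right.right.right.left.right.right RtB20_12.Ce.right.right.left.right.right.left RtB20_12.CTp.right.right RtB20_12.CEr.right.right 0xfee289577c1e15845587af62c6e251bdfaf530d24bba8db45af00b2e3ec268c1f7fc945c7af62e1e293a5baf530ddc41b8b77c3fe06337ab171b933202af63023755ff4af540d531146 = true := by decide +kernel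

theorem cB20_12_3_24 : chunkOkM (LB20_12.ctx true true 109 1 1 1 1 1 1 1 1) muQ true true 64 RtB20_12.Cx.left.left RtB20_12.CX RtB20_12.Ctp.right.right.right.left.right RtB20_12.Ce.right.right.left.right.right.right RtB20_12.CTp.right.right RtB20_12.CEr.right.right 0x21 = true := by decide +kernel

theorem cB20_12_3_25 : chunkOkM (LB20_12.ctx true true 280 83 32 17 16 470 884 75 195) muQ true true 64 RtB20_12.Cx.left.right RtB20_12.CX RtB20_12.Ctp.right.right.right.left.right.left RtB20_12.Ce.right.right.left.right.right.right RtB20_12.CTp.right.right RtB20_12.CEr.right.right 0x591124711a87c20f68dea59af6389d5fbcefaf51be995fea3af440d417dfed77ce0d1dc7179f6376420894daf51fdf409511af440dea42d0f77c1fb57857ab26b147adc0af6362cd133e0af522aa6898e6af450d564934 = true := by decide +kernel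

theorem cB20_12_3_26 : chunkOkM (LB20_12.ctx true true 315 5311 2048 17 16 478 884 75 169) muQ true true 64 RtB20_12.Cx.left.right.left RtB20_12.CX RtB20_12.Ctp.right.right.right.left.right.right RtB20_12.Ce.right.right.left.right.right.right.left RtB20_12.CTp.right.right RtB20_12.CEr.right.right.left 0x54ef3ea052af02b138362f487c470c56c7ab81ecd7c0e9f68114c1586aaf240d501701701701701747084a577c2005165c5aaf632f97fe101af530db59b5f177c32227677ab25b89c6f32af62eb6dbbbb6af540d53 = true := by decide +kernel

theorem cB20_12_3_27 : chunkOkM (LB20_12.ctx true true 285 167 64 17 16 478 884 75 169) muQ true true 64 RtB20_12.Cx.left.right.right RtB20_12.CX RtB20_12.Ctp.right.right.right.left.right.right RtB20_12.Ce.right.right.left.right.right.right.left RtB20_12.CTp.right.right RtB20_12.CEr.right.right.left 0x1fa77c7b47af05b9f9a5be77c308e77a7ab16a900e67aaf62a7544e0c5af540d52b45c468c282dd0f6baaf631bed6cdffaf540533dbd09f440de534cca77c48645b37ab23e4ac9ac0af636430478f4af584278f6a89f450d53 = true := by decide +kernel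

theorem cB20_12_3_28 : chunkOkM (LB20_12.ctx true true 286 167 64 17 16 478 892 75 169) muQ true true 64 RtB20_12.Cx.left.right RtB20_12.CX RtB20_12.Ctp.right.right.right.left.right.right RtB20_12.Ce.right.right.left.right.right.right.right RtB20_12.CTp.right.right RtB20_12.CEr.right.right.left 0x1f58f9277c25d1bfee57af631bfb2e4d6af530d11d2ffc387c3c73fdd7ab333faedf45af6381bec8fe2af540d55aca66077c2342a796faaf63760ef39f2af51470c87e12af440deac839877c441f97d7abef66c06509f6373c000cb6af540d53217 = true := by decide +kernel

theorem cB20_12_3_29 : chunkOkM (LB20_12.ctx true true 282 83 32 35 32 238 444 75 377) muQ true true 64 RtB20_12.Cx.left.right RtB20_12.CX RtB20_12.Ctp.right.right.right.left.right.right RtB20_12.Ce.right.right.left.right.right.right RtB20_12.CTp.right.right RtB20_12.CEr.right.right.right 0x22c12228377ce66d9daf8f9210ebc6e11af632e59c3495af540d4a56228 = true := by decide +kernel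

theorem cB20_12_3_30 : chunkOkM (LB20_12.ctx true true 297 85 32 35 32 1902 892 75 377) muQ true true 64 RtB20_12.Cx.right RtB20_12.CX RtB20_12.Ctp.right.right.right.left.right RtB20_12.Ce.right.right.left.right.right RtB20_12.CTp.right.right RtB20_12.CEr.right.right 0x22cc2e8b68cdec66d338f918e244f403af63080841a22af51b02375914af450d4a56228493d65f068c17047a2353af632676ffa7baf530d744a9768cb6e0a7f7ab14e0bf6fb4af636fc02dc3faf5fa10fb878f450d52dc72268c273b5aed54af63333d47067af58ddb539e89f440dff725768c50561327ab1293e16691af6367860a15caf5e413f28a59f450d5493493379bbc1268c5c0bc56bb54cc4c086d6ccf45a82c6d7527bf140d46114493 = true := by decide +kernel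

theorem cB20_12_3_31 : chunkOkM (LB20_12.ctx true true 240 21 8 17 16 62 108 35 91) muQ true true 64 RtB20_12.Cx RtB20_12.CX RtB20_12.Ctp.right.right.right.right RtB20_12.Ce.right.right.left.right RtB20_12.CTp.right.right RtB20_12.CEr.right.right 0x7dfe708319fde444758c13755cb7bb3786db989cebf1c82d4f578f6bf050d = true := by decide +kernel

theorem cB20_12_3_32 : chunkOkM (LB20_12.ctx true true 242 21 8 17 16 58 228 35 65) muQ true true 64 RtB20_12.Cx RtB20_12.CX RtB20_12.Ctp.right.right.right.left RtB20_12.Ce.right.right.right.left.left RtB20_12.CTp.right.right RtB20_12.CEr.right.left 0x166b40f530abbac2ad6fc51f4cf81f3db1cfd9f641c8793c32af55ff725e57baf450d = true := by decide +kernel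

theorem cB20_12_3_33 : chunkOkM (LB20_12.ctx true true 246 21 8 17 16 114 228 35 91) muQ true true 64 RtB20_12.Cx RtB20_12.CX RtB20_12.Ctp.right.right.right.left.left RtB20_12.Ce.right.right.right.left.left RtB20_12.CTp.right.right RtB20_12.CEr.right.right 0x5a40f4be6c9bf41e44a72e800bf220d = true := by decide +kernel

theorem cB20_12_3_34 : chunkOkM (LB20_12.ctx true true 109 1 1 1 1 1 1 1 1) muQ true true 64 RtB20_12.Cx.left RtB20_12.CX RtB20_12.Ctp.right.right.right.left.right RtB20_12.Ce.right.right.right.left.left RtB20_12.CTp.right.right RtB20_12.CEr.right.right 0x21 = true := by decide +kernel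

theorem cB20_12_3_35 : chunkOkM (LB20_12.ctx true true 109 1 1 1 1 1 1 1 1) muQ true true 64 RtB20_12.Cx.right RtB20_12.CX RtB20_12.Ctp.right.right.right.left.right.left RtB20_12.Ce.right.right.right.left.left RtB20_12.CTp.right.right RtB20_12.CEr.right.right 0x49 = true := by decide +kernel

theorem cB20_12_3_36 : chunkOkM (LB20_12.ctx true true 290 171 64 17 16 958 908 75 169) muQ true true 64 RtB20_12.Cx.right.left RtB20_12.CX RtB20_12.Ctp.right.right.right.left.right.right RtB20_12.Ce.right.right.right.left.left.left RtB20_12.CTp.right.right RtB20_12.CEr.right.right.left 0x6dc3c168c381375bb1c43e02559af63cef1ed5ccaf52b432abb6daf450dc616c1b77c353c1347ab1b6ba6fd31af636a493868faf52a6ec96b01af450d52b128ab737af05b89b402377c4bc65d67ab27f7baa69daf61f58b76325af57b7ea472baaf450d54934e87ca68c3c4e380f24af63d32720744af59e8b2168c9f440d96a571977c2d1e1817ab38d465d82baf632a9bbc8d5af5236580b949f450d5791abae68c65e63a6bb3e3738d272cbf516818a3112c9cf440d34 = true := by decide +kernel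

theorem cB20_12_3_37 : chunkOkM (LB20_12.ctx true true 282 85 32 35 32 238 452 75 377) muQ true true 64 RtB20_12.Cx.right.left RtB20_12.CX RtB20_12.Ctp.right.right.right.left.right.right RtB20_12.Ce.right.right.right.left.left.left RtB20_12.CTp.right.right RtB20_12.CEr.right.right.right 0x22b8951068ca0c10d048f91dcbea3abcaf635cfb685f3af52481103240af450d4a56228 = true := by decide +kernel

theorem cB20_12_3_38 : chunkOkM (LB20_12.ctx true true 109 1 1 1 1 1 1 1 1) muQ true true 64 RtB20_12.Cx.right.left RtB20_12.CX RtB20_12.Ctp.right.right.right.left.right.right RtB20_12.Ce.right.right.right.left.left.right RtB20_12.CTp.right.right RtB20_12.CEr.right.right 0x59 = true := by decide +kernel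

theorem cB20_12_3_39 : chunkOkM (LB20_12.ctx true true 109 1 1 1 1 1 1 1 1) muQ true true 64 RtB20_12.Cx.right.right RtB20_12.CX RtB20_12.Ctp.right.right.right.left.right.right RtB20_12.Ce.right.right.right.left.left RtB20_12.CTp.right.right RtB20_12.CEr.right.right 0x49 = true := by decide +kernel

theorem cB20_12_3_40 : chunkOkM (LB20_12.ctx true true 109 1 1 1 1 1 1 1 1) muQ true true 64 RtB20_12.Cx RtB20_12.CX RtB20_12.Ctp.right.right.right.left RtB20_12.Ce.right.right.right.left.right RtB20_12.CTp.right.right RtB20_12.CEr.right 0x59 = true := by decide +kernel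

theorem cB20_12_3_41 : chunkOkM (LB20_12.ctx true true 109 1 1 1 1 1 1 1 1) muQ true true 64 RtB20_12.Cx.left RtB20_12.CX RtB20_12.Ctp.right.right.right.right RtB20_12.Ce.right.right.right.left RtB20_12.CTp.right.right RtB20_12.CEr.right 0x01 = true := by decide +kernel

theorem cB20_12_3_42 : chunkOkM (LB20_12.ctx true true 253 43 16 17 16 122 228 35 65) muQ true true 64 RtB20_12.Cx.right RtB20_12.CX RtB20_12.Ctp.right.right.right.right.left RtB20_12.Ce.right.right.right.left.left RtB20_12.CTp.right.right RtB20_12.CEr.right.left 0x17f6a781d2abbb8185f537751cf82d564770bdaf53567e8a984af240d = true := by decide +kernel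

end Vale.Agent.helper4.Q4
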