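import Vale.Agent.helper4.Q4TreeM
import Vale.Agent.helper4.Q4G.PB20_12

/-!
Checks for pairs of intervals of second moments.
-/

set_option maxRecDepth 100000
set_option linter.unusedVariables false

namespace Vale.Agent.helper4.Q4

theorem cB20_12_3_43 : chunkOkM (LB20_12.ctx true true 299 339 128 17 16 962 1812 75 169) muQ true true 64 RtB20_12.Cx.right.left RtB20_12.CX RtB20_12.Ctp.right.right.right.right.left.left RtB20_12.Ce.right.right.right.left.left.left RtB20_12.CTp.right.right RtB20_12.CEr.right.right.left 0x1337f934529bf14fddb5a2f77bf020d342aa068c2e0f599fdcaf62f68d51b6caf530d10a797b787c46c88c37ab1f6484f90aaf6355292bc63af540d53210101303ec3e546af05b146dc85a87c28ce56b7ab4858467919af6339cea9246af540d53321747113e7bac68c1fc599d876af6305807d248af530db7ba5368c2d942807ab1bdc42b0b9af6264d2188deaf5b904385269f250d534 = true := by decide +kernel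

theorem cB20_12_3_44 : chunkOkM (LB20_12.ctx true true 282 85 32 35 32 242 452 75 377) muQ true true 64 RtB20_12.Cx.right.left RtB20_12.CX RtB20_12.Ctp.right.right.right.right.left.left RtB20_12.Ce.right.right.right.left.left.left RtB20_12.CTp.right.right RtB20_12.CEr.right.right.right 0x2210d56e8debafdf9a98268c1a868538bbaf63165d9a8f5af540d4a56228 = true := by decide +kernel

theorem cB20_12_3_45 : chunkOkM (LB20_12.ctx true true 266 87 32 17 16 242 452 35 91) muQ true true 64 RtB20_12.Cx.right.right RtB20_12.CX RtB20_12.Ctp.right.right.right.right.left.left RtB20_12.Ce.right.right.right.left.left.left RtB20_12.CTp.right.right RtB20_12.CEr.right.right 0xd7e3b268caf1da26bb7c842e8182becf4833aacb895abf140d = true := by decide +kernel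

theorem cB20_12_3_46 : chunkOkM (LB20_12.ctx true true 109 1 1 1 1 1 1 1 1) muQ true true 64 RtB20_12.Cx.right RtB20_12.CX RtB20_12.Ctp.right.right.right.right.left.right RtB20_12.Ce.right.right.right.left.left.left RtB20_12.CTp.right.right RtB20_12.CEr.right.right 0x11 = true := by decide +kernel

theorem cB20_12_3_47 : chunkOkM (LB20_12.ctx true true 298 687 256 17 16 486 916 75 195) muQ true true 64 RtB20_12.Cx.right.left RtB20_12.CX RtB20_12.Ctp.right.right.right.right.left.left RtB20_12.Ce.right.right.right.left.left.right RtB20_12.CTp.right.right RtB20_12.CEr.right.right 0x21133438c187c322bc1d9e6af636f3fc6f6caf530d2b5afcfb39af05bb781f1c77c55ea7f47ab30c868b753af6210fdb6be0af5389152d67baf250d50170174b6099c77c30cea728b9af63b4f7c33ebaf530de8f0d9177c4d417b57ab52d8f6f0b6af638d832e20daf5188bcc4ea3af450d5362174 = true := by decide +kernel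

theorem cB20_12_3_48 : chunkOkM (LB20_12.ctx true true 284 87 32 17 16 966 916 75 169) muQ true true 64 RtB20_12.Cx.right.right RtB20_12.CX RtB20_12.Ctp.right.right.right.right.left.left RtB20_12.Ce.right.right.right.left.left.right.left RtB20_12.CTp.right.right RtB20_12.CEr.right.right.left 0x4728fe68c19ffb4a8efaf6337b93bfeaaf530db2fbb068c35e8fb6bb1b44308977af62dfe55aea6af540d57e295968c3337db5a4eaf6358404268caf519450ae6a5af440d11c931078c58729387ab183a25028baf637e8821972af540d54933 = true := by decide +kernel

theorem cB20_12_3_49 : chunkOkM (LB20_12.ctx true true 293 175 64 17 16 966 1844 75 169) muQ true true 64 RtB20_12.Cx.right.right RtB20_12.CX RtB20_12.Ctp.right.right.right.right.left.left RtB20_12.Ce.right.right.right.left.left.right.right RtB20_12.CTp.right.right RtB20_12.CEr.right.right.left 0x656bbc68c2b52abb1dcaf63c44c3c4cdaf58373d0d379f440dbd8f33677c3b828aa7ab1fa9b4bb75af631373a457caf51823686acfaf450d534dd7a68c1f539e22bdaf6355752b4d6af530dbaeb5d577c6ba47d77ab14072ad1c1af6348e73a5aaaf540d5749596c95a5377c28c58ecce0af63a80991a31af512525bd1a7af440d129a914987c449b5787aba06cef73b9f639984ba94caf5133a632b97af450d5474933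 = true := by decide +kernel

theorem cB20_12_3_50 : chunkOkM (LB20_12.ctx true true 282 87 32 35 32 242 460 75 377) muQ true true 64 RtB20_12.Cx.right.right RtB20_12.CX RtB20_12.Ctp.right.right.right.right.left.left RtB20_12.Ce.right.right.right.left.left.right RtB20_12.CTp.right.right RtB20_12.CEr.right.right.right 0x22f46b0468c1f617ac805af63678ec2089af51b5ea0f395af440d4a56228 = true := by decide +kernel

theorem cB20_12_3_51 : chunkOkM (LB20_12.ctx true true 260 43 16 17 16 246 460 35 91) muQ true true 64 RtB20_12.Cx.right RtB20_12.CX RtB20_12.Ctp.right.right.right.right.left.right RtB20_12.Ce.right.right.right.left.left.right RtB20_12.CTp.right.right RtB20_12.CEr.right.right 0x75ccc96bb20d87bdbe9f629b1d76187abf19d75c7cddc2bf040d = true := by decide +kernel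

theorem cB20_12_3_52 : chunkOkM (LB20_12.ctx true true 109 1 1 1 1 1 1 1 1) muQ true true 64 RtB20_12.Cx.right.left RtB20_12.CX RtB20_12.Ctp.right.right.right.right.left RtB20_12.Ce.right.right.right.left.right.left RtB20_12.CTp.right.right RtB20_12.CEr.right 0x21 = true := by decide +kernel

theorem cB20_12_3_53 : chunkOkM (LB20_12.ctx true true 262 87 32 17 16 122 468 35 65) muQ true true 64 RtB20_12.Cx.right.right RtB20_12.CX RtB20_12.Ctp.right.right.right.right.left RtB20_12.Ce.right.right.right.left.right.left RtB20_12.CTp.right.right RtB20_12.CEr.right.left 0xfc8b377af9bb791d679d3221cf88505ed0e99af64916496cebaf440d = true := by decide +kernel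

theorem cB20_12_3_54 : chunkOkM (LB20_12.ctx true true 286 87 32 35 32 242 932 75 377) muQ true true 64 RtB20_12.Cx.right.right RtB20_12.CX RtB20_12.Ctp.right.right.right.right.left.left RtB20_12.Ce.right.right.right.left.right.left RtB20_12.CTp.right.right RtB20_12.CEr.right.right 0x5922c46bec68c27cc4dac57af63bc8b3fecfaf51572fa4b1faf440d4a562286f3cfe68c3f4ab5bb25c30bbe20af63f138e72d3af52270998bcdaf450d11192ff987c55b79127ab1f025f4393af63c354e0533af52108e75775af450d564 = true := by decide +kernel

theorem cB20_12_3_55 : chunkOkM (LB20_12.ctx true true 296 351 128 17 16 490 1876 75 195) muQ true true 64 RtB20_12.Cx.right.right RtB20_12.CX RtB20_12.Ctp.right.right.right.right.left.right RtB20_12.Ce.right.right.right.left.right.left RtB20_12.CTp.right.right RtB20_12.CEr.right.right 0x0121157a6aba87c38ea5fbd35af63b3c819504af530d849f50d77c80d605bb1c3dab297caf63f260963c5af540d100aa4a787c4d733df7ab414275410faf6341f9847d5af515e3df3895af450d562174130f8f1f87ce4c9096ab199df0747caf633fc3a8547af540d864cff68cd959b5bb225e4b499eaf63acda4194faf540d1305f72887c4a3591e7ab163714eebaaf6332b332d80af540d5643017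 = true := by decide +kernel

theorem cB20_12_3_56 : chunkOkM (LB20_12.ctx true true 109 1 1 1 1 1 1 1 1) muQ true true 64 RtB20_12.Cx.right RtB20_12.CX RtB20_12.Ctp.right.right.right.right.left RtB20_12.Ce.right.right.right.left.right.right RtB20_12.CTp.right.right RtB20_12.CEr.right 0x21 = true := by decide +kernel

theorem cB20_12_3_57 : chunkOkM (LB20_12.ctx true true 109 1 1 1 1 1 1 1 1) muQ true true 64 RtB20_12.Cx.right RtB20_12.CX RtB20_12.Ctp.right.right.right.right.right RtB20_12.Ce.right.right.right.left RtB20_12.CTp.right.right RtB20_12.CEr.right 0x01 = true := by decide +kernel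

theorem cB20_12_3_58 : chunkOkM (LB20_12.ctx true true 109 1 1 1 1 1 1 1 1) muQ true true 64 RtB20_12.Cx RtB20_12.CX RtB20_12.Ctp.right.right.right RtB20_12.Ce.right.right.right.right RtB20_12.CTp.right.right RtB20_12.CEr.right 0x21 = true := by decide +kernel

theorem cB20_12_2_0 : chunkOkM (LB20_12.ctx false true 109 1 1 1 1 1 1 1 1) muQ false true 64 RtB20_12.Cx RtB20_12.CX RtB20_12.Ctn RtB20_12.Ce RtB20_12.CTp RtB20_12.CEr 0x49 = true := by decide +kernel

theorem cB20_12_1_0 : chunkOkM (LB20_12.ctx true false 109 1 1 1 1 1 1 1 1) muQ true false 64 RtB20_12.Cx RtB20_12.CX RtB20_12.Ctp RtB20_12.Ce RtB20_12.CTn RtB20_12.CEr 0x4a = true := by decide +kernel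

theorem cB20_12_0_0 : chunkOkM (LB20_12.ctx false false 109 1 1 1 1 1 1 1 1) muQ false false 64 RtB20_12.Cx RtB20_12.CX RtB20_12.Ctn RtB20_12.Ce RtB20_12.CTn RtB20_12.CEr 0x49 = true := by decide +kernel

end Vale.Agent.helper4.Q4
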