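import Vale.Agent.helper4.Q4TreeM
import Vale.Agent.helper4.Q4G.PB20_12_0
import Vale.Agent.helper4.Q4G.PB20_12_1
import Vale.Agent.helper4.Q4G.PB20_12_2

/-!
Checks for pairs of intervals of second moments.
-/

set_option maxRecDepth 100000
set_option linter.unusedVariables false

namespace Vale.Agent.helper4.Q4

theorem covB20_12 : LB20_12.Full muQ.val RtB20_12 := ⟨(LitT.Cov.split_t (LitT.cov_of_chunkM cB20_12_3_0) (LitT.Cov.split_T (LitT.cov_of_chunkM cB20_12_3_1) (LitT.Cov.split_T (LitT.cov_of_chunkM cB20_12_3_2) (LitT.Cov.split_E (LitT.cov_of_chunkM cB20_12_3_3) (LitT.Cov.split_t (LitT.cov_of_chunkM cB20_12_3_4) (LitT.Cov.split_e (LitT.cov_of_chunkM cB20_12_3_5) (LitT.Cov.split_t (LitT.cov_of_chunkM cB20_12_3_6) (LitT.Cov.split_e (LitT.cov_of_chunkM cB20_12_3_7) (LitT.Cov.split_e (LitT.Cov.split_E (LitT.cov_of_chunkM cB20_12_3_8) (LitT.Cov.split_e (LitT.cov_of_chunkM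 cB20_12_3_9) (LitT.Cov.split_t (LitT.Cov.split_e (LitT.Cov.split_t (LitT.cov_of_chunkM cB20_12_3_10) (LitT.Cov.split_e (LitT.cov_of_chunkM cB20_12_3_11) (LitT.Cov.split_x (LitT.Cov.split_t (LitT.Cov.split_x (LitT.Cov.split_E (LitT.Cov.split_e (LitT.cov_of_chunkM cB20_12_3_12) (LitT.Cov.split_x (LitT.cov_of_chunkM cB20_12_3_13) (LitT.cov_of_chunkM cB20_12_3_14))) (LitT.cov_of_chunkM cB20_12_3_15)) (LitT.cov_of_chunkM cB20_12_3_16)) (LitT.cov_of_chunkM cB20_12_3_17)) (LitT.cov_of_chunkM cB20_12_3_18)))) (LitT.Cov.split_t (LitT.cov_of_chunkM cB20_12_3_19) (LitT.Cov.split_x (LitT.Cov.split_e (LitT.Cov.split_t (LitT.Cov.split_x (LitT.cov_of_chunkM cB20_12_3_20) (LitT.cov_of_chunkM cB20_12_3_21)) (LitT.Cov.split_x (LitT.cov_of_chunkM cB20_12_3_22) (LitT.cov_of_chunkM cB20_12_3_23))) (LitT.Cov.split_x (LitT.cov_of_chunkM cB20_12_3_24) (LitT.Cov.split_t (LitT.cov_of_chunkM cB20_12_3_25)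 (LitT.Cov.split_E (LitT.Cov.split_e (LitT.Cov.split_x (LitT.cov_of_chunkM cB20_12_3_26) (LitT.cov_of_chunkM cB20_12_3_27)) (LitT.cov_of_chunkM cB20_12_3_28)) (LitT.cov_of_chunkM cB20_12_3_29))))) (LitT.cov_of_chunkM cB20_12_3_30)))) (LitT.cov_of_chunkM cB20_12_3_31)))) (LitT.Cov.split_e (LitT.Cov.split_t (LitT.Cov.split_e (LitT.Cov.split_E (LitT.cov_of_chunkM cB20_12_3_32) (LitT.Cov.split_t (LitT.cov_of_chunkM cB20_12_3_33) (LitT.Cov.split_x (LitT.cov_of_chunkM cB20_12_3_34) (LitT.Cov.split_t (LitT.cov_of_chunkM cB20_12_3_35) (LitT.Cov.split_x (LitT.Cov.split_e (LitT.Cov.split_E (LitT.cov_of_chunkM cB20_12_3_36) (LitT.cov_of_chunkM cB20_12_3_37)) (LitT.cov_of_chunkM cB20_12_3_38)) (LitT.cov_of_chunkM cB20_12_3_39)))))) (LitT.cov_of_chunkM cB20_12_3_40)) (LitT.Cov.split_x (LitT.cov_of_chunkM cB20_12_3_41) (LitT.Cov.split_t (LitT.Cov.split_e (LitT.Cov.split_E (LitT.cov_of_chunkM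 cB20_12_3_42) (LitT.Cov.split_e (LitT.Cov.split_t (LitT.Cov.split_x (LitT.Cov.split_E (LitT.cov_of_chunkM cB20_12_3_43) (LitT.cov_of_chunkM cB20_12_3_44)) (LitT.cov_of_chunkM cB20_12_3_45)) (LitT.cov_of_chunkM cB20_12_3_46)) (LitT.Cov.split_t (LitT.Cov.split_x (LitT.cov_of_chunkM cB20_12_3_47) (LitT.Cov.split_E (LitT.Cov.split_e (LitT.cov_of_chunkM cB20_12_3_48) (LitT.cov_of_chunkM cB20_12_3_49)) (LitT.cov_of_chunkM cB20_12_3_50))) (LitT.cov_of_chunkM cB20_12_3_51)))) (LitT.Cov.split_e (LitT.Cov.split_x (LitT.cov_of_chunkM cB20_12_3_52) (LitT.Cov.split_E (LitT.cov_of_chunkM cB20_12_3_53) (LitT.Cov.split_t (LitT.cov_of_chunkM cB20_12_3_54) (LitT.cov_of_chunkM cB20_12_3_55)))) (LitT.cov_of_chunkM cB20_12_3_56))) (LitT.cov_of_chunkM cB20_12_3_57)))) (LitT.cov_of_chunkM cB20_12_3_58))))))))))), (LitT.cov_of_chunkM cB20_12_1_0), (LitT.cov_of_chunkM cB20_12_2_0), (LitT.cov_of_chunkM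 cB20_12_0_0)⟩

end Vale.Agent.helper4.Q4
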