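import Vale.Agent.helper4.Q4TreeM
import Vale.Agent.helper4.Q4G.PB20_7

/-!
Checks for pairs of intervals of second moments.
-/

set_option maxRecDepth 100000
set_option linter.unusedVariables false

namespace Vale.Agent.helper4.Q4

theorem cB20_7_3_0 : chunkOkM (LB20_7.ctx true true 106 1 1 1 1 1 1 1 1) muQ true true 64 RtB20_7.Cx RtB20_7.CX RtB20_7.Ctp.left RtB20_7.Ce RtB20_7.CTp RtB20_7.CEr 0x41 = true := by decide +kernel

theorem cB20_7_3_1 : chunkOkM (LB20_7.ctx true true 106 1 1 1 1 1 1 1 1) muQ true true 64 RtB20_7.Cx RtB20_7.CX RtB20_7.Ctp.right.left RtB20_7.Ce RtB20_7.CTp RtB20_7.CEr 0x41 = true := by decide +kernel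

theorem cB20_7_3_2 : chunkOkM (LB20_7.ctx true true 106 1 1 1 1 1 1 1 1) muQ true true 64 RtB20_7.Cx RtB20_7.CX RtB20_7.Ctp.right.right RtB20_7.Ce.left RtB20_7.CTp RtB20_7.CEr 0x11 = true := by decide +kernel

theorem cB20_7_3_3 : chunkOkM (LB20_7.ctx true true 106 1 1 1 1 1 1 1 1) muQ true true 64 RtB20_7.Cx RtB20_7.CX RtB20_7.Ctp.right.right.left RtB20_7.Ce.right RtB20_7.CTp RtB20_7.CEr 0x49 = true := by decide +kernel

theorem cB20_7_3_4 : chunkOkM (LB20_7.ctx true true 106 1 1 1 1 1 1 1 1) muQ true true 64 RtB20_7.Cx RtB20_7.CX RtB20_7.Ctp.right.right.right RtB20_7.Ce.right.left RtB20_7.CTp RtB20_7.CEr 0x11 = true := by decide +kernel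

theorem cB20_7_3_5 : chunkOkM (LB20_7.ctx true true 220 21 8 7 16 30 100 16 32) muQ true true 64 RtB20_7.Cx RtB20_7.CX RtB20_7.Ctp.right.right.right RtB20_7.Ce.right.right.left.left RtB20_7.CTp RtB20_7.CEr 0x1dacf4998fd4daca7a88f8206ec861570bf4229eddac6caf140d = true := by decide +kernel

theorem cB20_7_3_6 : chunkOkM (LB20_7.ctx true true 106 1 1 1 1 1 1 1 1) muQ true true 64 RtB20_7.Cx RtB20_7.CX RtB20_7.Ctp.right.right.right.left.left.left RtB20_7.Ce.right.right.left.right.left RtB20_7.CTp RtB20_7.CEr 0x49 = true := by decide +kernel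

theorem cB20_7_3_7 : chunkOkM (LB20_7.ctx true true 106 1 1 1 1 1 1 1 1) muQ true true 64 RtB20_7.Cx RtB20_7.CX RtB20_7.Ctp.right.right.right.left.left.right.left RtB20_7.Ce.right.right.left.right.left RtB20_7.CTp RtB20_7.CEr 0x49 = true := by decide +kernel

theorem cB20_7_3_8 : chunkOkM (LB20_7.ctx true true 290 321 128 7 16 926 3388 32 32) muQ true true 64 RtB20_7.Cx RtB20_7.CX RtB20_7.Ctp.right.right.right.left.left.right.right RtB20_7.Ce.right.right.left.right.left.left RtB20_7.CTp RtB20_7.CEr 0x1111492a7289d38fd1f2796e68f81cc1751df1af64973ec1709f540d3ff8fe2069f05b54922a36fc78fd24fed07e8f8f8fcbdaa89f65b1dfba349f531439f50c9f450d349afe176c1093a39f95af684b7950129f52a0f884b39f440d5266420e18fd2a555c968f8103ef64289f650fe9d23a9f5152593d2c9f450d469affe989f05b547378db1a64f8f821926e3edbedcf63ce08eec2b7bf430d476947 = true := by decide +kernel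

theorem cB20_7_3_9 : chunkOkM (LB20_7.ctx true true 287 321 128 7 16 1846 3396 32 32) muQ true true 64 RtB20_7.Cx.left.left.left RtB20_7.CX RtB20_7.Ctp.right.right.right.left.left.right.right.left RtB20_7.Ce.right.right.left.right.left.right.left.left RtB20_7.CTp RtB20_7.CEr 0x49592dcacfa68fdf343f037f8c5674fbee9f6676d3259f9f53fd52018f9f450d5b0b06eb09f05b52370c9568f8166004dcebaf594fdc8bfb2af430d347 = true := by decide +kernel

theorem cB20_7_3_10 : chunkOkM (LB20_7.ctx true true 283 323 128 7 16 926 3404 32 32) muQ true true 64 RtB20_7.Cx.left.left.left RtB20_7.CX RtB20_7.Ctp.right.right.right.left.left.right.right.right RtB20_7.Ce.right.right.left.right.left.right.left.left RtB20_7.CTp RtB20_7.CEr 0x31cf76c58fd105beda78f81039294952af65f76d26aa9f54b82f518f9f450d48c7ab7f09f05b51d60cbe58fd31ecac098f8da0e7723f9f65a2040f789f540d302222976cd119073ae9f653584f8ea9f530d53213e85d8fd112975fa8f862ecea1ca9f6640f973b69f540d4de1409fd9f05b547 = true := by decide +kernel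

theorem cB20_7_3_11 : chunkOkM (LB20_7.ctx true true 270 161 64 7 16 922 1708 16 32) muQ true true 64 RtB20_7.Cx.left.left.left RtB20_7.CX RtB20_7.Ctp.right.right.right.left.left.right.right.left RtB20_7.Ce.right.right.left.right.left.right.left.right RtB20_7.CTp RtB20_7.CEr 0x2f64c1878fd5f1bf7b7f82880a3a96aaf5af3e30b6c9af440d = true := by decide +kernel

theorem cB20_7_3_12 : chunkOkM (LB20_7.ctx true true 309 1287 512 7 16 3710 13636 32 32) muQ true true 64 RtB20_7.Cx.left.left.left RtB20_7.CX RtB20_7.Ctp.right.right.right.left.left.right.right.right RtB20_7.Ce.right.right.left.right.left.right.left.right RtB20_7.CTp RtB20_7.CEr 0x2d68b0e08fd11593af78f8b4826d5c69f66af0972ce9f52371c5de69f450d5a6b931f29f05b52290b5b38f817e4753ce1af5a658e4de70af430d32232b2ee8fd1a90cb648f8184d803aa5af666076e8ba9f53a6514f1c9f450d377329276ceca008caf9f67c5f9fc0d9f530d545959591fbb51aa8fd1e9cec138f8297c5f3979af673e59c5849f540d487befe199f05b54593597459359747 = true := by decide +kernel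

theorem cB20_7_3_13 : chunkOkM (LB20_7.ctx true true 106 1 1 1 1 1 1 1 1) muQ true true 64 RtB20_7.Cx.left.left.left RtB20_7.CX RtB20_7.Ctp.right.right.right.left.left.right.right RtB20_7.Ce.right.right.left.right.left.right.right RtB20_7.CTp RtB20_7.CEr 0x59 = true := by decide +kernel

theorem cB20_7_3_14 : chunkOkM (LB20_7.ctx true true 106 1 1 1 1 1 1 1 1) muQ true true 64 RtB20_7.Cx.left.left.right RtB20_7.CX RtB20_7.Ctp.right.right.right.left.left.right.right RtB20_7.Ce.right.right.left.right.left.right RtB20_7.CTp RtB20_7.CEr 0x49 = true := by decide +kernel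

theorem cB20_7_3_15 : chunkOkM (LB20_7.ctx true true 106 1 1 1 1 1 1 1 1) muQ true true 64 RtB20_7.Cx.left.right RtB20_7.CX RtB20_7.Ctp.right.right.right.left.left.right.right RtB20_7.Ce.right.right.left.right.left.right RtB20_7.CTp RtB20_7.CEr 0x49 = true := by decide +kernel

theorem cB20_7_3_16 : chunkOkM (LB20_7.ctx true true 106 1 1 1 1 1 1 1 1) muQ true true 64 RtB20_7.Cx.right RtB20_7.CX RtB20_7.Ctp.right.right.right.left.left.right.right RtB20_7.Ce.right.right.left.right.left.right RtB20_7.CTp RtB20_7.CEr 0x49 = true := by decide +kernel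

theorem cB20_7_3_17 : chunkOkM (LB20_7.ctx true true 106 1 1 1 1 1 1 1 1) muQ true true 64 RtB20_7.Cx RtB20_7.CX RtB20_7.Ctp.right.right.right.left.right RtB20_7.Ce.right.right.left.right.left.left RtB20_7.CTp RtB20_7.CEr 0x69 = true := by decide +kernel

theorem cB20_7_3_18 : chunkOkM (LB20_7.ctx true true 280 321 128 7 16 934 1700 32 32) muQ true true 64 RtB20_7.Cx.left.left.left RtB20_7.CX RtB20_7.Ctp.right.right.right.left.right.left.left RtB20_7.Ce.right.right.left.right.left.right.left.left RtB20_7.CTp RtB20_7.CEr 0x4f527cc38fd9d762af76c1a6b35778f8143f689889f64a79d4a379f550d692ae5c01c8fd29e729328f86ede707c8f64e49f45bb9f540d4a3a736b39f05b573 = true := by decide +kernel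

theorem cB20_7_3_19 : chunkOkM (LB20_7.ctx true true 293 643 256 7 16 1862 3420 32 32) muQ true true 64 RtB20_7.Cx.left.left.left.left RtB20_7.CX RtB20_7.Ctp.right.right.right.left.right.left.left.left RtB20_7.Ce.right.right.left.right.left.right.left.right RtB20_7.CTp RtB20_7.CEr 0x2cf0674e8fdae7392e7f81ddf0170c9af65a3d96a859f540d5052915549f05b559359732a7b1d68fd160d3f808f81f88228ad0af66bd8343319f540d51518efae9f05b54 = true := by decide +kernel

theorem cB20_7_3_20 : chunkOkM (LB20_7.ctx true true 283 323 128 7 16 930 3420 32 32) muQ true true 64 RtB20_7.Cx.left.left.left.right RtB20_7.CX RtB20_7.Ctp.right.right.right.left.right.left.left.left RtB20_7.Ce.right.right.left.right.left.right.left.right RtB20_7.CTp RtB20_7.CEr 0x34ae078b8fd106b55e48f86372f22c69f664953ef0c9f540d4f88a3ec59f05b524d4d4ae8fd25590cff8f8318e928139f656dd6f1ec9f540d4352aa6df9f05b54 = true := by decide +kernel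

theorem cB20_7_3_21 : chunkOkM (LB20_7.ctx true true 284 323 128 7 16 934 3420 32 32) muQ true true 64 RtB20_7.Cx.left.left.left RtB20_7.CX RtB20_7.Ctp.right.right.right.left.right.left.left.right RtB20_7.Ce.right.right.left.right.left.right.left.right RtB20_7.CTp RtB20_7.CEr 0x30b9a7458fd185b866c8f8298de4a12faf6650b8fc199f540d40ada5d9b9f05b51dbd72018fd2f6d16fd8f81568c7b6d9af6558bbf9829f540d4ca9ee176cf5ab22f9f9f66ceaf24f09f530d5247ad6478fd20c90b628f8b1c95a1eb9f65796a0b349f540d4b2a4ae76ce4da77a399f6581809b7d9f530d547 = true := by decide +kernel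

end Vale.Agent.helper4.Q4
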