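import Vale.Agent.helper4.Q4TreeM
import Vale.Agent.helper4.Q4G.PB20_7

/-!
Checks for pairs of intervals of second moments.
-/

set_option maxRecDepth 100000
set_option linter.unusedVariables false

namespace Vale.Agent.helper4.Q4

theorem cB20_7_3_22 : chunkOkM (LB20_7.ctx true true 270 163 64 7 16 466 852 16 32) muQ true true 64 RtB20_7.Cx.left.left.right RtB20_7.CX RtB20_7.Ctp.right.right.right.left.right.left.left RtB20_7.Ce.right.right.left.right.left.right.left RtB20_7.CTp RtB20_7.CEr 0x9bad969f8f830d7d1280a96cf6481bff4aeafbf430d = true := by decide +kernel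

theorem cB20_7_3_23 : chunkOkM (LB20_7.ctx true true 257 81 32 7 16 470 852 16 32) muQ true true 64 RtB20_7.Cx.left.left RtB20_7.CX RtB20_7.Ctp.right.right.right.left.right.left.right RtB20_7.Ce.right.right.left.right.left.right.left RtB20_7.CTp RtB20_7.CEr 0x56d481f58fd95f95967c11f4c9af8f8771fdc2459f240d = true := by decide +kernel

theorem cB20_7_3_24 : chunkOkM (LB20_7.ctx true true 309 1295 512 7 16 3726 13732 32 32) muQ true true 64 RtB20_7.Cx.left.left.left RtB20_7.CX RtB20_7.Ctp.right.right.right.left.right.left.left.left RtB20_7.Ce.right.right.left.right.left.right.right.left RtB20_7.CTp RtB20_7.CEr 0x5959242861838fd1a660b078f84b8e78cfb9f67c1db1fc99f540d4af974cad9f05b54593597459359731dab0f28fd128893198f8da736a0a59f66b6d9513b9f540d35a861376ccf2d891b79f653fb48e6c9f530d54597 = true := by decide +kernel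

theorem cB20_7_3_25 : chunkOkM (LB20_7.ctx true true 290 643 256 7 16 934 3436 32 32) muQ true true 64 RtB20_7.Cx.left.left.left RtB20_7.CX RtB20_7.Ctp.right.right.right.left.right.left.left.right RtB20_7.Ce.right.right.left.right.left.right.right.left RtB20_7.CTp RtB20_7.CEr 0x353def328fd15c600138f82044dcaed1af66c33efa109f540d42278b976c818b9ab279f65afca60e39f530d533bd2bf18fda3b4c647f818ed16bc42af662c53bb7c9f540d3dec31d76cc73e529af9f6537cf2ef29f530d5459367383148fd8ea8e6e7f816fc9dce93af65b213553d9f540d54a300c76c2da6dfebbaaf67b452499f9f530d521747 = true := by decide +kernel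

theorem cB20_7_3_26 : chunkOkM (LB20_7.ctx true true 293 647 256 7 16 1870 3444 32 32) muQ true true 64 RtB20_7.Cx.left.left.left RtB20_7.CX RtB20_7.Ctp.right.right.right.left.right.left.left RtB20_7.Ce.right.right.left.right.left.right.right.right RtB20_7.CTp RtB20_7.CEr 0x59377215a08fdc6374f97f8e618032dd9f65b174e6649f540d5122075a29f05b55935974593217 = true := by decide +kernel

theorem cB20_7_3_27 : chunkOkM (LB20_7.ctx true true 283 325 128 7 16 934 3436 32 32) muQ true true 64 RtB20_7.Cx.left.left.right RtB20_7.CX RtB20_7.Ctp.right.right.right.left.right.left.left RtB20_7.Ce.right.right.left.right.left.right.right.left RtB20_7.CTp RtB20_7.CEr 0x270c3cf48fd26db559c8f8da974cd58f652d25550b9f540d468c3224a9f05b5492b1e64308fd2d12f3998f8126fbb7a0caf64e6176fb19f540d3e5a6a676c11eb5611a8af6870fd23009f5119691b649f440d52965d15c8fd2ba8b02d8f8161189b839f6542a1e9439f5605d8bff8f450d4b7972ea09f05b5473 = true := by decide +kernel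

theorem cB20_7_3_28 : chunkOkM (LB20_7.ctx true true 287 325 128 7 16 1862 3444 32 32) muQ true true 64 RtB20_7.Cx.left.left.right RtB20_7.CX RtB20_7.Ctp.right.right.right.left.right.left.left.left RtB20_7.Ce.right.right.left.right.left.right.right.right RtB20_7.CTp RtB20_7.CEr 0x495926ce3f5b8fd27bf11188f899f0613399f65f979161b9f51b579c20c9f450d59af5d2819f05b520c3c64f8f81a07cc8e48af5bec86a09b5af430d347 = true := by decide +kernel

theorem cB20_7_3_29 : chunkOkM (LB20_7.ctx true true 283 327 128 7 16 934 3452 32 32) muQ true true 64 RtB20_7.Cx.left.left.right RtB20_7.CX RtB20_7.Ctp.right.right.right.left.right.left.left.right RtB20_7.Ce.right.right.left.right.left.right.right.right RtB20_7.CTp RtB20_7.CEr 0x29e47d4c8fd2a24fb588f837bf553259f657a912e079f51204057b19f450d4e06d7d159f05b5347e84bc8fd11a561458f8dacee19ca9f66beb608bf9f540d3b790f176cccab6a7d99f654d1382b19f530d5376bf3298fdfa4002b7f863cb41ef59f6651f06cfc9f540d5122fc1269f05b547 = true := by decide +kernel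

theorem cB20_7_3_30 : chunkOkM (LB20_7.ctx true true 296 643 256 7 16 1874 6868 32 32) muQ true true 64 RtB20_7.Cx.left.left.left RtB20_7.CX RtB20_7.Ctp.right.right.right.left.right.left.right RtB20_7.Ce.right.right.left.right.left.right.right.left RtB20_7.CTp RtB20_7.CEr 0xc34b789649f00b3c1827c28fdb2c5a79e59f65e94f104b9f530d50456c276cb9dbe082b9f6589723e759f530d5012155bafc9a8fdb30244a76c1f2bc1258f8261ca964c6af65247e86429f550d421741317cc28fd3f6a1667f87d86413189f65214b195b9f540d43aa17376cb70b3a6599f6551c59ba79f530d54373 = true := by decide +kernel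

theorem cB20_7_3_31 : chunkOkM (LB20_7.ctx true true 295 1295 512 7 16 942 3452 32 32) muQ true true 64 RtB20_7.Cx.left.left.left RtB20_7.CX RtB20_7.Ctp.right.right.right.left.right.left.right RtB20_7.Ce.right.right.left.right.left.right.right.right RtB20_7.CTp RtB20_7.CEr 0x3e14bd2e8fdaf29f18539f6599785b509f530d4153a05c501701726c143238fd1e33adbb8f8dd681a5af9f65cdf9d7769f540d1db3b5698fd5f3208d76ccb2431cb8f66cdbbfd659f540d52171f7325aa8fd2fe9991a8f81582c49005af655fa452339f540d29d51ac7fd4f911b676ce76355ee99f66ae43bf709f540d543217 = true := by decide +kernel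

end Vale.Agent.helper4.Q4
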