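import Vale.Agent.helper4.Q4TreeM
import Vale.Agent.helper4.Q4G.PB20_7

/-!
Checks for pairs of intervals of second moments.
-/

set_option maxRecDepth 100000
set_option linter.unusedVariables false

namespace Vale.Agent.helper4.Q4

theorem cB20_7_3_32 : chunkOkM (LB20_7.ctx true true 270 163 64 7 16 470 1724 32 32) muQ true true 64 RtB20_7.Cx.left.left.right RtB20_7.CX RtB20_7.Ctp.right.right.right.left.right.left.right RtB20_7.Ce.right.right.left.right.left.right.right RtB20_7.CTp RtB20_7.CEr 0x2bcea5e98fd26f00d328f82ce1d4f7b9f6555e9af359f540d55f4a9276c97d5f8f669f663a4f94519f530d5694 = true := by decide +kernel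

theorem cB20_7_3_33 : chunkOkM (LB20_7.ctx true true 250 83 32 7 16 234 428 16 32) muQ true true 64 RtB20_7.Cx.left.right RtB20_7.CX RtB20_7.Ctp.right.right.right.left.right.left RtB20_7.Ce.right.right.left.right.left.right RtB20_7.CTp RtB20_7.CEr 0x1900969937af04b = true := by decide +kernel

theorem cB20_7_3_34 : chunkOkM (LB20_7.ctx true true 244 41 16 7 16 238 428 16 32) muQ true true 64 RtB20_7.Cx.left RtB20_7.CX RtB20_7.Ctp.right.right.right.left.right.right RtB20_7.Ce.right.right.left.right.left.right RtB20_7.CTp RtB20_7.CEr 0x8587759d19f00b = true := by decide +kernel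

theorem cB20_7_3_35 : chunkOkM (LB20_7.ctx true true 106 1 1 1 1 1 1 1 1) muQ true true 64 RtB20_7.Cx.right RtB20_7.CX RtB20_7.Ctp.right.right.right.left.right RtB20_7.Ce.right.right.left.right.left.right RtB20_7.CTp RtB20_7.CEr 0x11 = true := by decide +kernel

theorem cB20_7_3_36 : chunkOkM (LB20_7.ctx true true 232 21 8 7 16 114 220 16 32) muQ true true 64 RtB20_7.Cx RtB20_7.CX RtB20_7.Ctp.right.right.right.left.left RtB20_7.Ce.right.right.left.right.right RtB20_7.CTp RtB20_7.CEr 0x5654f23c59fd4f8050b8eaaf51c630ba1a88bf430d = true := by decide +kernel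

theorem cB20_7_3_37 : chunkOkM (LB20_7.ctx true true 307 1303 512 7 16 3742 6916 32 32) muQ true true 64 RtB20_7.Cx.left.left RtB20_7.CX RtB20_7.Ctp.right.right.right.left.right.left.left RtB20_7.Ce.right.right.left.right.right.left.left RtB20_7.CTp RtB20_7.CEr 0x5926e9f3ab8fd261ba65e8f88618aa4ef9f666a57de449f530bbf178c9f450d3f5025576cc5784c90a9f6737d58a289f54029e971a9f440d52aa1165c8fd143876448f8cd60772129f677e81a9409f540d44d1a0976c12a4e931d1af689c39fdbf9f53b7f491dc9f440d5459593554f82d8fdc8d3c3d7f8485fb78fc4af67f90282139f540d501b2aff79f05b559359745935974741f141828fd1bc03d488f82da9eef718af5db063b388baf440d34217 = true := by decide +kernel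

theorem cB20_7_3_38 : chunkOkM (LB20_7.ctx true true 106 1 1 1 1 1 1 1 1) muQ true true 64 RtB20_7.Cx.left.left.left RtB20_7.CX RtB20_7.Ctp.right.right.right.left.right.left.right RtB20_7.Ce.right.right.left.right.right.left.left RtB20_7.CTp RtB20_7.CEr 0x21 = true := by decide +kernel

theorem cB20_7_3_39 : chunkOkM (LB20_7.ctx true true 294 651 256 7 16 1878 3468 32 32) muQ true true 64 RtB20_7.Cx.left.left.right RtB20_7.CX RtB20_7.Ctp.right.right.right.left.right.left.right.left RtB20_7.Ce.right.right.left.right.right.left.left.left RtB20_7.CTp RtB20_7.CEr 0x299db3698fd27abc1058f861fe0701f9f65e36bc6bc9f540d370f4a476c8c59d2a0b9f65e65a07c59f530d53a0e7bef8fdb58aaf07f8ef5fe22369f65bb85f1859f540d2514d2e76c77a465da0daf65d665f03e9f530d55935972886fadd8fd1fe77d188f81279bb8fa8af650fee2f4a9f540d47f09a276c81fd393e69f65b6fdf2399f530d547 = true := by decide +kernel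

theorem cB20_7_3_40 : chunkOkM (LB20_7.ctx true true 281 327 128 7 16 942 1732 32 32) muQ true true 64 RtB20_7.Cx.left.left.right RtB20_7.CX RtB20_7.Ctp.right.right.right.left.right.left.right.right RtB20_7.Ce.right.right.left.right.right.left.left.left RtB20_7.CTp RtB20_7.CEr 0x3650e3f98fd13f86a1c8f826945590aaaf66043771529f540d41c05c53bb7fafc8fd25adef66ccf546e3849f66c7350a2a9f540d5487b6b76c626bdcf689f65db8b1e989f530d57 = true := by decide +kernel

theorem cB20_7_3_41 : chunkOkM (LB20_7.ctx true true 307 1311 512 7 16 3758 6964 32 32) muQ true true 64 RtB20_7.Cx.left.left.right RtB20_7.CX RtB20_7.Ctp.right.right.right.left.right.left.right.left RtB20_7.Ce.right.right.left.right.right.left.left.right RtB20_7.CTp RtB20_7.CEr 0x5935aac0c88fdb1e40dc7f82b7137a2a4af66d2a08a8d9f540d51772052a9f05b559359745935972111e4fa8fd33b81f048f810b8db238aaf656edacf469f540d4a5bc8676c18395fd7c7af67fe9ef3b99f530d54597 = true := by decide +kernel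

theorem cB20_7_3_42 : chunkOkM (LB20_7.ctx true true 290 651 256 7 16 942 3484 32 32) muQ true true 64 RtB20_7.Cx.left.left.right RtB20_7.CX RtB20_7.Ctp.right.right.right.left.right.left.right.right RtB20_7.Ce.right.right.left.right.right.left.left.right RtB20_7.CTp RtB20_7.CEr 0x2a5071c08fd202be9d38f8125f37ca2faf65254f43489f540d52ec63076c8a6ac790a9f65cd542edd9f530d5383baa618fd22ae524f72af671241372d9f530d49489e376cc5ea5e1379f6550a24d1a9f530d54213b54b5e28fdac9876d7f81af102a15caf63f42dcd009f540d1cc7b2108fd64bb57776c6cc147a679f530d521747 = true := by decide +kernel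

theorem cB20_7_3_43 : chunkOkM (LB20_7.ctx true true 293 655 256 7 16 1886 3492 32 32) muQ true true 64 RtB20_7.Cx.left.left RtB20_7.CX RtB20_7.Ctp.right.right.right.left.right.left RtB20_7.Ce.right.right.left.right.right.left.right RtB20_7.CTp RtB20_7.CEr 0x21593cfaae228fda3c6ff77f8f141d9fed9f65c9187ef59f540d421979476cd86ae82c99f64e75b8b839f530d559321745932174217593 = true := by decide +kernel

theorem cB20_7_3_44 : chunkOkM (LB20_7.ctx true true 106 1 1 1 1 1 1 1 1) muQ true true 64 RtB20_7.Cx.left.right RtB20_7.CX RtB20_7.Ctp.right.right.right.left.right.left.left RtB20_7.Ce.right.right.left.right.right.left RtB20_7.CTp RtB20_7.CEr 0x49 = true := by decide +kernel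

theorem cB20_7_3_45 : chunkOkM (LB20_7.ctx true true 292 329 128 7 16 942 3484 32 32) muQ true true 64 RtB20_7.Cx.left.right RtB20_7.CX RtB20_7.Ctp.right.right.right.left.right.left.right RtB20_7.Ce.right.right.left.right.right.left.left RtB20_7.CTp RtB20_7.CEr 0x692ae5ac948fd28a31ed18f839348fec8f650c6764309f540d3da7c9276c18a016aa4eaf65087d54fb9f530d5492427ede88fd2bb3fb2b8f81277fc6b7eaf671389accb9f540d46fdcc176c160a868e49af69228b1b089f545eec58e8f440d52d1d4f378fd2c2a64718f81a1f567609f6532db9d429f51ad6dd68b9f450d50e2a730f9f05b547375815fbc88fd20ad51977c13dc98c289f884c268bf0e52cf6a5402c7f3d4bf450d4 = true := by decide +kernel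

end Vale.Agent.helper4.Q4
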