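import Vale.Agent.helper4.Q4TreeM
import Vale.Agent.helper4.Q4G.PB20_7

/-!
Checks for pairs of intervals of second moments.
-/

set_option maxRecDepth 100000
set_option linter.unusedVariables false

namespace Vale.Agent.helper4.Q4

theorem cB20_7_3_46 : chunkOkM (LB20_7.ctx true true 283 329 128 7 16 938 3492 32 32) muQ true true 64 RtB20_7.Cx.left.right.left RtB20_7.CX RtB20_7.Ctp.right.right.right.left.right.left.right.left RtB20_7.Ce.right.right.left.right.right.left.right.left RtB20_7.CTp RtB20_7.CEr 0x495937fc329f8fdef020ce7f8afdd8e44a9f669c68fb139f53d7e551809f450d42cb0e276c1a3d6d8557af68528276e89f514bda34849f440d547 = true := by decide +kernel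

theorem cB20_7_3_47 : chunkOkM (LB20_7.ctx true true 284 331 128 7 16 942 3500 32 32) muQ true true 64 RtB20_7.Cx.left.right.left RtB20_7.CX RtB20_7.Ctp.right.right.right.left.right.left.right.right RtB20_7.Ce.right.right.left.right.right.left.right.left RtB20_7.CTp RtB20_7.CEr 0x2e4d647a8fd2b955dba8f8224bc6ed79f655f9102c99f51b8a1a9479f450d586367f76cee84dcafa9f671ab36c5c9f530d524f0c8848fd33be319b8f81401aadb08af6596faf3f19f540d5a115db76c1dd7433e78af67ac3f70709f530d53fd3a4fd8fd86863277f870c68cc189f66905508359f540d395595576c106baca22aaf64f971a88d9f530d547 = true := by decide +kernel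

theorem cB20_7_3_48 : chunkOkM (LB20_7.ctx true true 307 1319 512 7 16 3774 7012 32 32) muQ true true 64 RtB20_7.Cx.left.right.left RtB20_7.CX RtB20_7.Ctp.right.right.right.left.right.left.right RtB20_7.Ce.right.right.left.right.right.left.right.right RtB20_7.CTp RtB20_7.CEr 0x3af6f3378fddca49f97f8b171d5a4b9f66a8ac029f9f53dfc21afc9f450d49680a976c1a1e488250af685c6d1d609f514daab4139f440d5394eff8d8fd1b2f732c8f81a0871f7edaf64c781f0e39f51cbec218f9f450d4f621ae76c14aea4c4cbaf68fa9b40469f530d545959387bc7458fd9e206457f82b66fd05edaf66e4c145319f540d45bad6376c707496faf4af68290c08fc9f530d55935974593597474885da1c8fd18a028e78f83c287aa041af5132e1fcce33bf440d3 = true := by decide +kernel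

theorem cB20_7_3_49 : chunkOkM (LB20_7.ctx true true 287 167 64 7 16 15102 876 32 32) muQ true true 64 RtB20_7.Cx.left.right.right RtB20_7.CX RtB20_7.Ctp.right.right.right.left.right.left.right RtB20_7.Ce.right.right.left.right.right.left.right RtB20_7.CTp RtB20_7.CEr 0x359bdd008f06c11c05c5493493493493493 = true := by decide +kernel

theorem cB20_7_3_50 : chunkOkM (LB20_7.ctx true true 299 1311 512 7 16 946 6996 32 32) muQ true true 64 RtB20_7.Cx.left.left RtB20_7.CX RtB20_7.Ctp.right.right.right.left.right.right RtB20_7.Ce.right.right.left.right.right.left RtB20_7.CTp RtB20_7.CEr 0x21010121363552278fd1d5625d38f868d836d6e5af66a0ced6a69f540d2cd2c4738fd7f9b76076c76c83bfd49f66fd3d28cc9f540d521742173e0dab428fd1aadce17f8e905cb9879f662fc25eb69f540d4991ec576c10ebfebfb5af6520ebefd89f530d543340141a535308fd963e524af9f65dece63c39f530d3f3fc5a08fd90141f676c1b11a88d2aaf648ff313ac9f540d531144017017 = true := by decide +kernel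

theorem cB20_7_3_51 : chunkOkM (LB20_7.ctx true true 106 1 1 1 1 1 1 1 1) muQ true true 64 RtB20_7.Cx.left.right RtB20_7.CX RtB20_7.Ctp.right.right.right.left.right.right RtB20_7.Ce.right.right.left.right.right.left.left RtB20_7.CTp RtB20_7.CEr 0x11 = true := by decide +kernel

theorem cB20_7_3_52 : chunkOkM (LB20_7.ctx true true 274 165 64 7 16 946 1748 32 32) muQ true true 64 RtB20_7.Cx.left.right.left RtB20_7.CX RtB20_7.Ctp.right.right.right.left.right.right.left RtB20_7.Ce.right.right.left.right.right.left.right.left RtB20_7.CTp RtB20_7.CEr 0x112f4d8e808fd2a97aaaa8f8292fc014c9f6551b4e1e99f540d6d0ddc576cc1247ba859f66dc5fe7109f530d53 = true := by decide +kernel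

theorem cB20_7_3_53 : chunkOkM (LB20_7.ctx true true 295 659 256 7 16 1894 3516 32 32) muQ true true 64 RtB20_7.Cx.left.right.left RtB20_7.CX RtB20_7.Ctp.right.right.right.left.right.right.left.left RtB20_7.Ce.right.right.left.right.right.left.right.right RtB20_7.CTp RtB20_7.CEr 0x3eec72278fd9becda87f89b8170fef9f667f1f45eb9f540d2c662c876c1252a03bd6af643db78d509f530d53fd9200e8fd58a8c497f882bc1c425daf67078416fb9f540d54344de76c601613af69f667cdb965f9f530d5593217293794d78fd28b0656a8f8135a42776daf651299258e9f540d593c72476c8a9c744b29f65d69a7d569f530d547 = true := by decide +kernel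

theorem cB20_7_3_54 : chunkOkM (LB20_7.ctx true true 274 165 64 7 16 950 1756 32 32) muQ true true 64 RtB20_7.Cx.left.right.left RtB20_7.CX RtB20_7.Ctp.right.right.right.left.right.right.left.right RtB20_7.Ce.right.right.left.right.right.left.right.right RtB20_7.CTp RtB20_7.CEr 0x44ce3fd38fddaa01607f83dd6a644f9f65e99854d79f540d5b87bc576c69f0e254e9f65a41f51ce9f530d5 = true := by decide +kernel

theorem cB20_7_3_55 : chunkOkM (LB20_7.ctx true true 106 1 1 1 1 1 1 1 1) muQ true true 64 RtB20_7.Cx.left.right.right RtB20_7.CX RtB20_7.Ctp.right.right.right.left.right.right.left RtB20_7.Ce.right.right.left.right.right.left.right RtB20_7.CTp RtB20_7.CEr 0x69 = true := by decide +kernel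

theorem cB20_7_3_56 : chunkOkM (LB20_7.ctx true true 257 83 32 7 16 478 876 16 32) muQ true true 64 RtB20_7.Cx.left.right RtB20_7.CX RtB20_7.Ctp.right.right.right.left.right.right.right RtB20_7.Ce.right.right.left.right.right.left.right RtB20_7.CTp RtB20_7.CEr 0x92f4f608d9f00b = true := by decide +kernel

theorem cB20_7_3_57 : chunkOkM (LB20_7.ctx true true 106 1 1 1 1 1 1 1 1) muQ true true 64 RtB20_7.Cx.left.left RtB20_7.CX RtB20_7.Ctp.right.right.right.left.right RtB20_7.Ce.right.right.left.right.right.right RtB20_7.CTp RtB20_7.CEr 0x21 = true := by decide +kernel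

theorem cB20_7_3_58 : chunkOkM (LB20_7.ctx true true 346 21247 8192 7 16 15102 28164 32 32) muQ true true 64 RtB20_7.Cx.left.right RtB20_7.CX RtB20_7.Ctp.right.right.right.left.right.left RtB20_7.Ce.right.right.left.right.right.right RtB20_7.CTp RtB20_7.CEr 0x594959495949594959495937d9ce4a8f06c31c05c5474747474749349349349349359595959593959ab4d8fdff613f27f88078b307d5af67c1ef89939f540d5558637fa9f05b55975975935974593597459359744935974217593474934 = true := by decide +kernel

end Vale.Agent.helper4.Q4
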