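import Vale.Agent.helper4.Q4TreeM
import Vale.Agent.helper4.Q4G.PB20_7

/-!
Checks for pairs of intervals of second moments.
-/

set_option maxRecDepth 100000
set_option linter.unusedVariables false

namespace Vale.Agent.helper4.Q4

theorem cB20_7_3_59 : chunkOkM (LB20_7.ctx true true 304 1327 512 7 16 1894 7060 32 32) muQ true true 64 RtB20_7.Cx.left.right.left RtB20_7.CX RtB20_7.Ctp.right.right.right.left.right.right.left RtB20_7.Ce.right.right.left.right.right.right.left.left RtB20_7.CTp RtB20_7.CEr 0x47504cfb8fd36cfb2b7f8629a7129d9f6663a4bc809f540d44e343f98fdae7ecdb76c73952a64f9f66002c6c779f540d5217593adcbd0c8fd8bba8ca7f81fd499fa73af66f5a2e2569f540d435af3b76cd3a1621c04af68dfa8969e9f530d5597459359736d0ff8e8fd1fb1a6918f82d81a04e43af673a88cbc19f540d4d6742676c1754cb662baf67530e75279f530d542173 = true := by decide +kernel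

theorem cB20_7_3_60 : chunkOkM (LB20_7.ctx true true 290 663 256 7 16 950 3540 32 32) muQ true true 64 RtB20_7.Cx.left.right.left RtB20_7.CX RtB20_7.Ctp.right.right.right.left.right.right.left RtB20_7.Ce.right.right.left.right.right.right.left.right RtB20_7.CTp RtB20_7.CEr 0x213def88258fdde1281f7f8313dd4bfb5af6497ee281e9f540d4e826a776cdd672cdda9f64b8da13b39f530d52174593217 = true := by decide +kernel

theorem cB20_7_3_61 : chunkOkM (LB20_7.ctx true true 286 335 128 7 16 950 3532 32 32) muQ true true 64 RtB20_7.Cx.left.right.right RtB20_7.CX RtB20_7.Ctp.right.right.right.left.right.right.left RtB20_7.Ce.right.right.left.right.right.right.left.left RtB20_7.CTp RtB20_7.CEr 0x2ed3184b8fd2885e1ce8f82b51cf738f65228a617e9f540d4f237c476c7254fe5e79f65aca131a19f530d57ef644fc8fda1e9b6776c235aad3a622bf6f986c9d9b6af440d3554e47d8fd11884e7e8f825dbda6805af65a1088cd79f519a023f549f450d584235c76c11e796707aaf68840d619b9f530d53090bfd28fd2d4252098f893bba7af8f655cab1fa69f540d5f93ff476c138e64accaaf6760f00b819f530d5473 = true := by decide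 +kernel

theorem cB20_7_3_62 : chunkOkM (LB20_7.ctx true true 334 5343 2048 7 16 15166 28356 32 32) muQ true true 64 RtB20_7.Cx.left.right.right.left RtB20_7.CX RtB20_7.Ctp.right.right.right.left.right.right.left.left RtB20_7.Ce.right.right.left.right.right.right.left.right RtB20_7.CTp RtB20_7.CEr 0x5959593c2f52998fdf09686d7f8689871fa8aaf671bce7d4a9f540d41c05c5593597459359745935974593597376567de8fd878ae6e7f8df16eb4929f66ecaa09e59f538468bbd99f450d4ef461476c1e85fbb0d1af68cf281b4c9f530d54 = true := by decide +kernel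

theorem cB20_7_3_63 : chunkOkM (LB20_7.ctx true true 307 1337 512 7 16 3790 7092 32 32) muQ true true 64 RtB20_7.Cx.left.right.right.right RtB20_7.CX RtB20_7.Ctp.right.right.right.left.right.right.left.left RtB20_7.Ce.right.right.left.right.right.right.left.right RtB20_7.CTp RtB20_7.CEr 0x4949593db6b40f8fd107965f88f830903b57c5af670cf628689f5eec833768f450d493e8be76c40a23ba249af66b84f10aa9f52582a569c9f440d543d56f0018fd104d19278f8f8e78b8a99f65b668e4b79f56cb0083e79f450d332b05c5477493493 = true := by decide +kernel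

theorem cB20_7_3_64 : chunkOkM (LB20_7.ctx true true 284 335 128 7 16 950 3548 32 32) muQ true true 64 RtB20_7.Cx.left.right.right RtB20_7.CX RtB20_7.Ctp.right.right.right.left.right.right.left.right RtB20_7.Ce.right.right.left.right.right.right.left.right RtB20_7.CTp RtB20_7.CEr 0x317cb0518fd2d25182d8f8242b5ef439f657fec29359f5fdd1b3b58f450d657426476cf04b65fc29f6739c278d19f530d53b03695e8fd2251efa48f81eef240088af661e7c93d79f540d507313976c1bb3709d2daf68020c6a1c9f530d5384dbc0f8fd3510fcff65af66f20205e19f530d57be1a976c2038611c7caf65b5cda9849f530d547 = true := by decide +kernel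

theorem cB20_7_3_65 : chunkOkM (LB20_7.ctx true true 305 5311 2048 7 16 478 3540 32 32) muQ true true 64 RtB20_7.Cx.left.right RtB20_7.CX RtB20_7.Ctp.right.right.right.left.right.right.right RtB20_7.Ce.right.right.left.right.right.right.left RtB20_7.CTp RtB20_7.CEr 0x3590e6168fd2d2fbae68f851b0802b59f530d23eab5ce8fd9255fb276cb07ca3ed89f664cb370559f540d51142142ab26ce8fdca62b967f86b1e1465a8af6b95f979a8f126d44e5919f050d51c05c541140170170170170177 = true := by decide +kernel

theorem cB20_7_3_66 : chunkOkM (LB20_7.ctx true true 106 1 1 1 1 1 1 1 1) muQ true true 64 RtB20_7.Cx.left.right.left RtB20_7.CX RtB20_7.Ctp.right.right.right.left.right.right RtB20_7.Ce.right.right.left.right.right.right.right RtB20_7.CTp RtB20_7.CEr 0x21 = true := by decide +kernel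

theorem cB20_7_3_67 : chunkOkM (LB20_7.ctx true true 303 1335 512 7 16 1902 7108 32 32) muQ true true 64 RtB20_7.Cx.left.right.right RtB20_7.CX RtB20_7.Ctp.right.right.right.left.right.right.left RtB20_7.Ce.right.right.left.right.right.right.right.left RtB20_7.CTp RtB20_7.CEr 0x331fe5958fd2140d6c38f8a1f2f2ec39f66a313129e9f540d574ab6076c18a3fc6d5baf6832f888a39f530d5318f5d8f8fd23d8c8dd8f8106edf0d79af664059b4d59f513ab34b0e9f450d5c57fb076c15a76f2ebeaf694c5092889f530d5459593df372c18fd74f75a17f8201d85d3fdaf6712b1ae599f540d4099cef76c57919ea661af65861bc7559f530d55974593217474f3133868fd14c279538f8688f21ed8faf523d19b25f00bf440d3 = true := by decide +kernel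

end Vale.Agent.helper4.Q4
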