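import Vale.Agent.helper4.Q4TreeM
import Vale.Agent.helper4.Q4G.PB20_7

/-!
Checks for pairs of intervals of second moments.
-/

set_option maxRecDepth 100000
set_option linter.unusedVariables false

namespace Vale.Agent.helper4.Q4

theorem cB20_7_3_68 : chunkOkM (LB20_7.ctx true true 333 5375 2048 7 16 7614 28548 32 32) muQ true true 64 RtB20_7.Cx.left.right.right RtB20_7.CX RtB20_7.Ctp.right.right.right.left.right.right.left RtB20_7.Ce.right.right.left.right.right.right.right.right RtB20_7.CTp RtB20_7.CEr 0x5959595948959f508fd2881a2b7f851c3903cd15bf624863c157caf540d41c05c55974593597459359745935974217593 = true := by decide +kernel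

theorem cB20_7_3_69 : chunkOkM (LB20_7.ctx true true 299 1335 512 7 16 958 7124 32 32) muQ true true 64 RtB20_7.Cx.left.right.right RtB20_7.CX RtB20_7.Ctp.right.right.right.left.right.right.right RtB20_7.Ce.right.right.left.right.right.right.right.left RtB20_7.CTp RtB20_7.CEr 0xa7359f808f8265bcecfafaf62fa9afe8ccaf1b6ee09dc3caf040d475948648fdc79e67f7f88d95f42f29f6601a6a3309f540dcfdad607fd477e6fb76c164545979caf643312561b9f540d5212f51f9c38fd216be8ee8f8196417b242af66819b41bc9f540d57c232876cc40f8564f9f65937469489f530d521742173aa292b08fd17627e3a8f821aebed6d6af6715ccb26d9f540d547f24776ca5b4c411b9f654a63a9cc9f530d5473 = true := by decide +kernel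

theorem cB20_7_3_70 : chunkOkM (LB20_7.ctx true true 303 1343 512 7 16 1914 7156 32 32) muQ true true 64 RtB20_7.Cx.left.right.right RtB20_7.CX RtB20_7.Ctp.right.right.right.left.right.right.right RtB20_7.Ce.right.right.left.right.right.right.right.right RtB20_7.CTp RtB20_7.CEr 0x0134a70abc8fd21ff390c8f811285a51c4af654adf42c89f540d6a00a9c76c8de8c19b69f6626585e389f530d53593bbce05c8fdbdf5a3b7f852131dbf9faf65674830249f540d5735a8b76c350842410faf670d72a4bf9f530d56974593217412792ca8fd1ab339b98f81a21bfbdfeaf6649577ecf9f540d583760076c1a8aa06e17af67fc2541ff9f530d543217 = true := by decide +kernel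

theorem cB20_7_3_71 : chunkOkM (LB20_7.ctx true true 106 1 1 1 1 1 1 1 1) muQ true true 64 RtB20_7.Cx.right RtB20_7.CX RtB20_7.Ctp.right.right.right.left.right.left RtB20_7.Ce.right.right.left.right.right RtB20_7.CTp RtB20_7.CEr 0x49 = true := by decide +kernel

theorem cB20_7_3_72 : chunkOkM (LB20_7.ctx true true 106 1 1 1 1 1 1 1 1) muQ true true 64 RtB20_7.Cx.right RtB20_7.CX RtB20_7.Ctp.right.right.right.left.right.right RtB20_7.Ce.right.right.left.right.right.left RtB20_7.CTp RtB20_7.CEr 0x11 = true := by decide +kernel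

theorem cB20_7_3_73 : chunkOkM (LB20_7.ctx true true 249 43 16 7 16 238 884 16 32) muQ true true 64 RtB20_7.Cx.right RtB20_7.CX RtB20_7.Ctp.right.right.right.left.right.right RtB20_7.Ce.right.right.left.right.right.right.left RtB20_7.CTp RtB20_7.CEr 0x4d345c5c8fd447e6167c547d3018bf0bf45912ea51ceaf140d = true := by decide +kernel

theorem cB20_7_3_74 : chunkOkM (LB20_7.ctx true true 294 673 256 7 16 1902 3572 32 32) muQ true true 64 RtB20_7.Cx.right.left RtB20_7.CX RtB20_7.Ctp.right.right.right.left.right.right.left RtB20_7.Ce.right.right.left.right.right.right.right RtB20_7.CTp RtB20_7.CEr 0x494949592e87e1a18fd26e329a78f8126fef5e0caf66df480b5a9f5186235b519f450d3ec6d1d76c2c97f4b413af67f627430a9f5a15c96e1b9f440d5477731899a138fd299933438f8153584f509f65824459c49f5215f7e8339f450d48e70d67c1867ab3467af6719947ad69f54665e6ed59f440d54493493 = true := by decide +kernel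

theorem cB20_7_3_75 : chunkOkM (LB20_7.ctx true true 275 169 64 7 16 958 1788 32 32) muQ true true 64 RtB20_7.Cx.right.left RtB20_7.CX RtB20_7.Ctp.right.right.right.left.right.right.right RtB20_7.Ce.right.right.left.right.right.right.right RtB20_7.CTp RtB20_7.CEr 0x6932a29e678fd29694e518f86c299ae88f6539e0bb829f540d5721b0e76c25e41b260daf64478dd4f89f530d53f662c918fd2e79ccbb8f8675e18478f659721a1e89f524bd9c6a59f450d41dbac376c7a7bcc4849f65f95044769f530d537694 = true := by decide +kernel

theorem cB20_7_3_76 : chunkOkM (LB20_7.ctx true true 106 1 1 1 1 1 1 1 1) muQ true true 64 RtB20_7.Cx.right.right RtB20_7.CX RtB20_7.Ctp.right.right.right.left.right.right RtB20_7.Ce.right.right.left.right.right.right.right RtB20_7.CTp RtB20_7.CEr 0x49 = true := by decide +kernel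

theorem cB20_7_3_77 : chunkOkM (LB20_7.ctx true true 225 21 8 7 16 62 108 16 32) muQ true true 64 RtB20_7.Cx RtB20_7.CX RtB20_7.Ctp.right.right.right.right RtB20_7.Ce.right.right.left.right RtB20_7.CTp RtB20_7.CEr 0x47a9476e8fd18af6e67c115ad5c259f636082345d2af1c917d0e2b6af050d = true := by decide +kernel

theorem cB20_7_3_78 : chunkOkM (LB20_7.ctx true true 231 21 8 7 16 114 228 16 32) muQ true true 64 RtB20_7.Cx RtB20_7.CX RtB20_7.Ctp.right.right.right.left.left RtB20_7.Ce.right.right.right.left.left RtB20_7.CTp RtB20_7.CEr 0xacf7023a2caf43c0cf24a19af220d = true := by decide +kernel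

theorem cB20_7_3_79 : chunkOkM (LB20_7.ctx true true 106 1 1 1 1 1 1 1 1) muQ true true 64 RtB20_7.Cx.left RtB20_7.CX RtB20_7.Ctp.right.right.right.left.right RtB20_7.Ce.right.right.right.left.left RtB20_7.CTp RtB20_7.CEr 0x21 = true := by decide +kernel

theorem cB20_7_3_80 : chunkOkM (LB20_7.ctx true true 106 1 1 1 1 1 1 1 1) muQ true true 64 RtB20_7.Cx.right RtB20_7.CX RtB20_7.Ctp.right.right.right.left.right.left RtB20_7.Ce.right.right.right.left.left RtB20_7.CTp RtB20_7.CEr 0x49 = true := by decide +kernel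

theorem cB20_7_3_81 : chunkOkM (LB20_7.ctx true true 258 85 32 7 16 474 900 16 32) muQ true true 64 RtB20_7.Cx.right.left RtB20_7.CX RtB20_7.Ctp.right.right.right.left.right.right.left RtB20_7.Ce.right.right.right.left.left.left.left RtB20_7.CTp RtB20_7.CEr 0x1c6c0b1559fd24647a0f84af5ff52c6d0e6af430d = true := by decide +kernel

theorem cB20_7_3_82 : chunkOkM (LB20_7.ctx true true 321 2703 1024 7 16 7646 14372 32 32) muQ true true 64 RtB20_7.Cx.right.left.left RtB20_7.CX RtB20_7.Ctp.right.right.right.left.right.right.right.left RtB20_7.Ce.right.right.right.left.left.left.left.left RtB20_7.CTp RtB20_7.CEr 0x4933962ea78fd250b39888f87e51896f19f66e7b3cdf39f53c6f0401e9f450d59683c376c10c9e916abaf668a03b88e9f5a71002978f440d57493595941d19a318fdd2773a27f846143d414baf671f4560fe9f540d4ed42cb76c62de6d719daf66ca64065f9f530d55935974593597459359737b099498fd1c1ebfe48f835a8bba9cdaf660b86a5e59f540d5f58ccd76c1a3c66a59faf6843d294d39f530d547 = true := by decide +kernel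

theorem cB20_7_3_83 : chunkOkM (LB20_7.ctx true true 284 339 128 7 16 958 3596 32 32) muQ true true 64 RtB20_7.Cx.right.left.left RtB20_7.CX RtB20_7.Ctp.right.right.right.left.right.right.right.right RtB20_7.Ce.right.right.right.left.left.left.left.left RtB20_7.CTp RtB20_7.CEr 0x34d79b178fd2f3343308f819b695c319f6582e5dbb79f540d6d4fa3b76cccd2a42139f6708c6f58c9f530d5380a41c08fd29b65ba68f8bf449d80f9f657057cb449f540d146054fa8fd8d07f3276c1daa416678af694fd80ade9f540d5348533ed8fd2cda4b108f8b3354c3919f6567631b989f540d5db23b776c1027d54ab4af6561b70af09f530d547 = true := by decide +kernel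

end Vale.Agent.helper4.Q4
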