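import Vale.Agent.helper4.Q4TreeM
import Vale.Agent.helper4.Q4G.PB20_7

/-!
Checks for pairs of intervals of second moments.
-/

set_option maxRecDepth 100000
set_option linter.unusedVariables false

namespace Vale.Agent.helper4.Q4

theorem cB20_7_3_84 : chunkOkM (LB20_7.ctx true true 301 675 256 7 16 1918 7204 32 32) muQ true true 64 RtB20_7.Cx.right.left.left RtB20_7.CX RtB20_7.Ctp.right.right.right.left.right.right.right RtB20_7.Ce.right.right.right.left.left.left.left.right RtB20_7.CTp RtB20_7.CEr 0x3dda768b8fd1a5faf058f8220f56aa0aaf67ec89224d9f540d69fd1ec76c2251cf62b3af68526118509f530d5458fe2c18fd174b0c5d8f81d45cbaf48af64eda9c4809f540d67295f776c73968b0949f66a33ad8a09f530d5421593f82debc8fd22b961898f8721bbe7457af62f89cc00c9f540d5dc1ff776c74a94e2d59f520d54593217473da34fe08fd27f00d7e8f8dedae12ee1af6bcc4fd81c77bf546daaac47851cf450d3 = true := by decide +kernel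

theorem cB20_7_3_85 : chunkOkM (LB20_7.ctx true true 275 171 64 7 16 958 1804 32 32) muQ true true 64 RtB20_7.Cx.right.left.right RtB20_7.CX RtB20_7.Ctp.right.right.right.left.right.right.right RtB20_7.Ce.right.right.right.left.left.left.left RtB20_7.CTp RtB20_7.CEr 0x3a8cfb368fd2f15de388f82fa9a22cd9f659d6957d09f5276bfa8a29f450d718f03276c155ce2626faf6640e0242e9f560eab6a799f440d5694493 = true := by decide +kernel

theorem cB20_7_3_86 : chunkOkM (LB20_7.ctx true true 318 2719 1024 7 16 3838 14468 32 32) muQ true true 64 RtB20_7.Cx.right.left RtB20_7.CX RtB20_7.Ctp.right.right.right.left.right.right RtB20_7.Ce.right.right.right.left.left.left.right RtB20_7.CTp RtB20_7.CEr 0x4959309e79bf8fd2d9b69cd8f81484bebbaeaf6763efbdbb9f555bb240a99f450d58a206376cb1df802a89f675c5b46e89f54374ba85f9f440d53769bfa68fd2c7bec028f8f6630d3609f66101732599f52468a05b59f450d606eac876cdd86e70189f67a8e5b0499f5b782d1788f440d54474932159595944a64cef8fdb9de2b87f83a0410fd6faf67743c6ab29f540d449c94476c1563b4f4ea4bf66020380729f530d55974593597459321742175934751840ef38fd4d76b2e08f81cbf50dd4e7bf48dc986c925af240d3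 = true := by decide +kernel

theorem cB20_7_3_87 : chunkOkM (LB20_7.ctx true true 106 1 1 1 1 1 1 1 1) muQ true true 64 RtB20_7.Cx.right.left RtB20_7.CX RtB20_7.Ctp.right.right.right.left.right.right RtB20_7.Ce.right.right.right.left.left.right RtB20_7.CTp RtB20_7.CEr 0x59 = true := by decide +kernel

theorem cB20_7_3_88 : chunkOkM (LB20_7.ctx true true 106 1 1 1 1 1 1 1 1) muQ true true 64 RtB20_7.Cx.right.right RtB20_7.CX RtB20_7.Ctp.right.right.right.left.right.right RtB20_7.Ce.right.right.right.left.left RtB20_7.CTp RtB20_7.CEr 0x49 = true := by decide +kernel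

theorem cB20_7_3_89 : chunkOkM (LB20_7.ctx true true 106 1 1 1 1 1 1 1 1) muQ true true 64 RtB20_7.Cx RtB20_7.CX RtB20_7.Ctp.right.right.right.left RtB20_7.Ce.right.right.right.left.right RtB20_7.CTp RtB20_7.CEr 0x59 = true := by decide +kernel

theorem cB20_7_3_90 : chunkOkM (LB20_7.ctx true true 106 1 1 1 1 1 1 1 1) muQ true true 64 RtB20_7.Cx.left RtB20_7.CX RtB20_7.Ctp.right.right.right.right RtB20_7.Ce.right.right.right.left RtB20_7.CTp RtB20_7.CEr 0x01 = true := by decide +kernel

theorem cB20_7_3_91 : chunkOkM (LB20_7.ctx true true 298 675 256 7 16 3842 3604 32 32) muQ true true 64 RtB20_7.Cx.right.left RtB20_7.CX RtB20_7.Ctp.right.right.right.right.left.left RtB20_7.Ce.right.right.right.left.left.left.left RtB20_7.CTp RtB20_7.CEr 0x11690145adc04f8fd298ff9268f8168d755c7faf63fa2e7f759f540d6348df476ca7db6cb3e9f65d2ce79789f530d52101014c5ba31d8fd9cd77427f8208dcc5e44af6436e2545c9f540d62ee0eb76cb9a7562b09f65ac39c6589f53b6386c28f240d5330174739f5f0dd8fd2d4bf2628f88bf64b6c39f230d67fe33c76cb684c56819f6a103cc2bd9f230d54373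 = true := by decide +kernel

theorem cB20_7_3_92 : chunkOkM (LB20_7.ctx true true 303 1359 512 7 16 1926 7252 32 32) muQ true true 64 RtB20_7.Cx.right.left.left RtB20_7.CX RtB20_7.Ctp.right.right.right.right.left.left.left RtB20_7.Ce.right.right.right.left.left.left.right RtB20_7.CTp RtB20_7.CEr 0x2101214a9daf2c8fd763188c7f812c57ece68af66f1c870d69f540dde337f6fd64d402b76c797330ef69f530d521745932172a9d0fb58fd3beede5a8f8fd12fa3c89f662a6201de9f540d6a1970676cc3d06d9519f66d01744af9f530d5432174 = true := by decide +kernel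

theorem cB20_7_3_93 : chunkOkM (LB20_7.ctx true true 271 171 64 7 16 482 1812 32 32) muQ true true 64 RtB20_7.Cx.right.left.right RtB20_7.CX RtB20_7.Ctp.right.right.right.right.left.left.left RtB20_7.Ce.right.right.right.left.left.left.right.left RtB20_7.CTp RtB20_7.CEr 0x3df1346b8fd3234d9bb8f8261889ebb9f65e2be05429f540d6d0320676caaf7ab24b9f6693148d1f9f530d5 = true := by decide +kernel

theorem cB20_7_3_94 : chunkOkM (LB20_7.ctx true true 312 1367 512 7 16 3854 14564 32 32) muQ true true 64 RtB20_7.Cx.right.left.right RtB20_7.CX RtB20_7.Ctp.right.right.right.right.left.left.left.left RtB20_7.Ce.right.right.right.left.left.left.right.right RtB20_7.CTp RtB20_7.CEr 0x3b1470418fd2ef234d28f8a7883dc549f66162847779f52971c30189f450d51605757fd606c5c776c7eeae70ef9f66b961d15e9f53954165999f450d5595947b2066c8fda9820317f835490e3da5af66dd8e8eca9f540d5b98c6976c121568b4257bf6abbb8da949f530d5459359745932174e9b5c238fd1622c7b48f89a16b1fda9f663a9671399f540d6e2247576c186dd4b753af687912e9af9f530d547 = true := by decide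 +kernel

theorem cB20_7_3_95 : chunkOkM (LB20_7.ctx true true 275 171 64 7 16 966 1820 32 32) muQ true true 64 RtB20_7.Cx.right.left.right RtB20_7.CX RtB20_7.Ctp.right.right.right.right.left.left.left.right RtB20_7.Ce.right.right.right.left.left.left.right.right RtB20_7.CTp RtB20_7.CEr 0x4a50d95a8fd2cfafe048f8633c8b2669f65f9a732b99f540d64f33dc76c34c9aea0d9f6643bdcc499f530d5 = true := by decide +kernel

theorem cB20_7_3_96 : chunkOkM (LB20_7.ctx true true 258 85 32 7 16 486 908 16 32) muQ true true 64 RtB20_7.Cx.right.left RtB20_7.CX RtB20_7.Ctp.right.right.right.right.left.left.right RtB20_7.Ce.right.right.right.left.left.left.right RtB20_7.CTp RtB20_7.CEr 0x4ee1812b8fdb4e029b76c4a5d02808f872eba04999f6e7415d2879f1406ccf8824af060d = true := by decide +kernel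

theorem cB20_7_3_97 : chunkOkM (LB20_7.ctx true true 252 87 32 7 16 242 452 16 32) muQ true true 64 RtB20_7.Cx.right.right RtB20_7.CX RtB20_7.Ctp.right.right.right.right.left.left RtB20_7.Ce.right.right.right.left.left.left RtB20_7.CTp RtB20_7.CEr 0x7db7ad628fdb89c0867c7c8e9a1f472bf482628d94acaf140d = true := by decide +kernel

theorem cB20_7_3_98 : chunkOkM (LB20_7.ctx true true 106 1 1 1 1 1 1 1 1) muQ true true 64 RtB20_7.Cx.right RtB20_7.CX RtB20_7.Ctp.right.right.right.right.left.right RtB20_7.Ce.right.right.right.left.left.left RtB20_7.CTp RtB20_7.CEr 0x11 = true := by decide +kernel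

theorem cB20_7_3_99 : chunkOkM (LB20_7.ctx true true 106 1 1 1 1 1 1 1 1) muQ true true 64 RtB20_7.Cx.right.left.left RtB20_7.CX RtB20_7.Ctp.right.right.right.right.left.left RtB20_7.Ce.right.right.right.left.left.right.left RtB20_7.CTp RtB20_7.CEr 0x21 = true := by decide +kernel

end Vale.Agent.helper4.Q4
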