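import Vale.Agent.helper4.Q4TreeM
import Vale.Agent.helper4.Q4G.PB20_7

/-!
Checks for pairs of intervals of second moments.
-/

set_option maxRecDepth 100000
set_option linter.unusedVariables false

namespace Vale.Agent.helper4.Q4

theorem cB20_7_3_100 : chunkOkM (LB20_7.ctx true true 284 343 128 7 16 966 3660 32 32) muQ true true 64 RtB20_7.Cx.right.left.right RtB20_7.CX RtB20_7.Ctp.right.right.right.right.left.left.left RtB20_7.Ce.right.right.right.left.left.right.left.left RtB20_7.CTp RtB20_7.CEr 0x381dea938fd25645faf8f810fa0c73c7af660711b2fa9f540d1b4c14618fd993088576c1e99bd2cfeaf6933adee8f9f540d538039ed28fd254086b08f8154dea54acaf666db746529f540d764b38976c78693c4c39f66cb605f2e9f530d542175937e86fa88fd2fe2f5958f8a0a56cd809f6681a6e7109f5386471b9a9f450d63285dd76c251746789baf692e0f2b239f59446d1848f440d542173 = true := by decide +kernel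

theorem cB20_7_3_101 : chunkOkM (LB20_7.ctx true true 307 1375 512 7 16 3870 7332 32 32) muQ true true 64 RtB20_7.Cx.right.left.right RtB20_7.CX RtB20_7.Ctp.right.right.right.right.left.left.left RtB20_7.Ce.right.right.right.left.left.right.left.right RtB20_7.CTp RtB20_7.CEr 0x21594d8197658fda6cd80e7f820dc92fcebaf66a58a82859f540d5fcb61576c14d7f5c38aaf65e7f7c4bf9f530d559321745932174217593 = true := by decide +kernel

theorem cB20_7_3_102 : chunkOkM (LB20_7.ctx true true 294 687 256 7 16 1938 3668 32 32) muQ true true 64 RtB20_7.Cx.right.left.right RtB20_7.CX RtB20_7.Ctp.right.right.right.right.left.left.right RtB20_7.Ce.right.right.right.left.left.right.left RtB20_7.CTp RtB20_7.CEr 0x2101014f6c42868fd898f4047f816c4271a9caf666c81d53f9f540d63cf3aa76c16246b652faf65aaa56a2d9f530d5334512a5ae48fda21f17a7f88504c52179f6605199b139f540d6aa8f8a76c247646f779af65aca6dfe09f530d54017017 = true := by decide +kernel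

theorem cB20_7_3_103 : chunkOkM (LB20_7.ctx true true 106 1 1 1 1 1 1 1 1) muQ true true 64 RtB20_7.Cx.right.left RtB20_7.CX RtB20_7.Ctp.right.right.right.right.left.left RtB20_7.Ce.right.right.right.left.left.right.right RtB20_7.CTp RtB20_7.CEr 0x21 = true := by decide +kernel

theorem cB20_7_3_104 : chunkOkM (LB20_7.ctx true true 106 1 1 1 1 1 1 1 1) muQ true true 64 RtB20_7.Cx.right.right RtB20_7.CX RtB20_7.Ctp.right.right.right.right.left.left.left.left RtB20_7.Ce.right.right.right.left.left.right.left RtB20_7.CTp RtB20_7.CEr 0x49 = true := by decide +kernel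

theorem cB20_7_3_105 : chunkOkM (LB20_7.ctx true true 275 173 64 7 16 966 1828 32 32) muQ true true 64 RtB20_7.Cx.right.right.left RtB20_7.CX RtB20_7.Ctp.right.right.right.right.left.left.left.right RtB20_7.Ce.right.right.right.left.left.right.left.left RtB20_7.CTp RtB20_7.CEr 0x4040ae5d8fd311cfa8f8f8330e3a218f657d946a499f5244d94b639f450d3f806ec76c1c4c1a7739f658401f1669f593d4a25f8f440d5 = true := by decide +kernel

theorem cB20_7_3_106 : chunkOkM (LB20_7.ctx true true 300 347 128 7 16 15486 3676 32 32) muQ true true 64 RtB20_7.Cx.right.right.left RtB20_7.CX RtB20_7.Ctp.right.right.right.right.left.left.left.right RtB20_7.Ce.right.right.right.left.left.right.left.right RtB20_7.CTp RtB20_7.CEr 0x46b8a54c8f06c31c05c5493493493493456127aa8fd99627057f8f7c6cdbf59f67280c03e39f53faac94e49f450d5bac1cc76c162ffa42b7af66f9bd66119f5280ddfddb9f440d5459cafc08fd1fe7bca38f8126bdd6e87af6717c5e8679f537c8a0d889f450d549d6e176c13f1788c5baf67024c70279f5cc7409728f440d547 = true := by decide +kernel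

theorem cB20_7_3_107 : chunkOkM (LB20_7.ctx true true 106 1 1 1 1 1 1 1 1) muQ true true 64 RtB20_7.Cx.right.right.right RtB20_7.CX RtB20_7.Ctp.right.right.right.right.left.left.left.right RtB20_7.Ce.right.right.right.left.left.right.left RtB20_7.CTp RtB20_7.CEr 0x49 = true := by decide +kernel

theorem cB20_7_3_108 : chunkOkM (LB20_7.ctx true true 271 173 64 7 16 486 1836 32 32) muQ true true 64 RtB20_7.Cx.right.right RtB20_7.CX RtB20_7.Ctp.right.right.right.right.left.left.right RtB20_7.Ce.right.right.right.left.left.right.left RtB20_7.CTp RtB20_7.CEr 0x1142b83ede8fd320da2e58f825f784fbe9f65f42403159f540d7ca1eae76cad5c7cb5b9f66be7c3bc19f530d57114 = true := by decide +kernel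

theorem cB20_7_3_109 : chunkOkM (LB20_7.ctx true true 346 22143 8192 7 16 15486 29444 32 32) muQ true true 64 RtB20_7.Cx.right.right RtB20_7.CX RtB20_7.Ctp.right.right.right.right.left.left.left RtB20_7.Ce.right.right.right.left.left.right.right RtB20_7.CTp RtB20_7.CEr 0x49594959495949594c8ff3878fd10cd09478f830e8dfb982af66b6de63e89f54760fd3f39f450d5c215ca76c277b036e4caf67194f37129f545e70fa629f440d54747474934934934935959595937c367a18fd28ba72c88f86e1a8bfd74af66be2f53a99f540d51c05c55975975935974593597459359744932174747493 = true := by decide +kernel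

theorem cB20_7_3_110 : chunkOkM (LB20_7.ctx true true 304 1383 512 7 16 1942 7380 32 32) muQ true true 64 RtB20_7.Cx.right.right.left RtB20_7.CX RtB20_7.Ctp.right.right.right.right.left.left.right.left RtB20_7.Ce.right.right.right.left.left.right.right.left RtB20_7.CTp RtB20_7.CEr 0x417757eb8fd30ca1cbf8f894c82340a9f660cfdb1159f527910d1829f450d64679a076c8ee93ef159f6703d182669f5269fb5fb29f440d5213beec2ef8fd22de5c258f860812ded84af67f1192d599f540d5e052e376c36a6a24c5daf69c075b96f9f530d5217459321746af6dcc8fd2a193cf18f82390d01f83af668515fc159f540d129b4f4b8fd9596a6776c15269d9f60af68d1f45f049f540d547 = true := by decide +kernel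

theorem cB20_7_3_111 : chunkOkM (LB20_7.ctx true true 275 173 64 7 16 974 1844 32 32) muQ true true 64 RtB20_7.Cx.right.right.left RtB20_7.CX RtB20_7.Ctp.right.right.right.right.left.left.right.right RtB20_7.Ce.right.right.right.left.left.right.right.left RtB20_7.CTp RtB20_7.CEr 0x5b40f36c8fd46558a57f86e0225b559f667479df619f540d8f4fa5776c612d604f39f66b6b585209f5ef188a458f240d5 = true := by decide +kernel

end Vale.Agent.helper4.Q4
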