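import Vale.Agent.helper4.Q4TreeM
import Vale.Agent.helper4.Q4G.PB20_7

/-!
Checks for pairs of intervals of second moments.
-/

set_option maxRecDepth 100000
set_option linter.unusedVariables false

namespace Vale.Agent.helper4.Q4

theorem cB20_7_3_112 : chunkOkM (LB20_7.ctx true true 334 5567 2048 7 16 15550 29636 32 32) muQ true true 64 RtB20_7.Cx.right.right.left RtB20_7.CX RtB20_7.Ctp.right.right.right.right.left.left.right RtB20_7.Ce.right.right.right.left.left.right.right.right RtB20_7.CTp RtB20_7.CEr 0x3cb0b0d98fd2b1e34158f8a4d1496fc9f66e000e4879f540d7b0b22076cae6672e4c9f669eb3aab19f530d55959594f5b8fff8fdeb837807f876d301975daf67055d583f9f540d51c05c559359745935974593597459321748d4c7248fd8bb079d7f817d6645d6baf67e71e5c519f532df4dbeb9f450d7131ef076c1bba6090b5af6894fa90819f530d543217 = true := by decide +kernel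

theorem cB20_7_3_113 : chunkOkM (LB20_7.ctx true true 284 175 64 7 16 3886 1852 32 32) muQ true true 64 RtB20_7.Cx.right.right.right RtB20_7.CX RtB20_7.Ctp.right.right.right.right.left.left.right RtB20_7.Ce.right.right.right.left.left.right.right RtB20_7.CTp RtB20_7.CEr 0x559de40e8fd14c792b18f83bdd00ac79f6640b7493c9f51716680589f450d5ee7f4776c18537aa77baf65672c9b8c9f51a1dd03099f440d54695785b8fd36e3672b8f85bb999c099f51b50726759f440d69655e076ca6f60e91e9f674f3432a69f5422837c829f440d549349337e88f7418fdcdfa95376c7d762d3bf75bf48287272fe5af140d4 = true := by decide +kernel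

theorem cB20_7_3_114 : chunkOkM (LB20_7.ctx true true 245 43 16 7 16 246 460 16 32) muQ true true 64 RtB20_7.Cx.right RtB20_7.CX RtB20_7.Ctp.right.right.right.right.left.right RtB20_7.Ce.right.right.right.left.left.right RtB20_7.CTp RtB20_7.CEr 0x4b7aa1108fd66ed4567c331f81848f8284d290d21af1a08da9e812af050d = true := by decide +kernel

theorem cB20_7_3_115 : chunkOkM (LB20_7.ctx true true 106 1 1 1 1 1 1 1 1) muQ true true 64 RtB20_7.Cx.right.left RtB20_7.CX RtB20_7.Ctp.right.right.right.right.left RtB20_7.Ce.right.right.right.left.right.left RtB20_7.CTp RtB20_7.CEr 0x21 = true := by decide +kernel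

theorem cB20_7_3_116 : chunkOkM (LB20_7.ctx true true 258 87 32 7 16 482 932 16 32) muQ true true 64 RtB20_7.Cx.right.right RtB20_7.CX RtB20_7.Ctp.right.right.right.right.left.left.left RtB20_7.Ce.right.right.right.left.right.left.left RtB20_7.CTp RtB20_7.CEr 0xe9aa59028fd25a1f6c035fbf4a943244cb6af230d = true := by decide +kernel

theorem cB20_7_3_117 : chunkOkM (LB20_7.ctx true true 106 1 1 1 1 1 1 1 1) muQ true true 64 RtB20_7.Cx.right.right.left RtB20_7.CX RtB20_7.Ctp.right.right.right.right.left.left.right RtB20_7.Ce.right.right.right.left.right.left.left RtB20_7.CTp RtB20_7.CEr 0x21 = true := by decide +kernel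

theorem cB20_7_3_118 : chunkOkM (LB20_7.ctx true true 289 351 128 7 16 1950 3724 32 32) muQ true true 64 RtB20_7.Cx.right.right.right RtB20_7.CX RtB20_7.Ctp.right.right.right.right.left.left.right RtB20_7.Ce.right.right.right.left.right.left.left.left RtB20_7.CTp RtB20_7.CEr 0x416a20578fd301f27448f81ac7c34159f65d4e0014c9f52baf0b2d19f450d62a244f76cc2f8b82b49f65e58787049f530d549344ec9ba48fd2f4655988f8a9c924eaa9f66b960b74c9f540d624a75676c1cedec0786af68046c2aa49f530d53fa2a0438fd29e135bb8f8f7cf16bcd9f66d51e8f849f517058d6669f450d57fb21576c6a2714b049f66b47775959f57416e3a28f440d5475821a4788fdee886cd76caa1800248f8959fbb13daaf53aa66dacbaabf450d3 = true := by decide +kernel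

theorem cB20_7_3_119 : chunkOkM (LB20_7.ctx true true 323 2799 1024 7 16 7806 14916 32 32) muQ true true 64 RtB20_7.Cx.right.right.right RtB20_7.CX RtB20_7.Ctp.right.right.right.right.left.left.right RtB20_7.Ce.right.right.right.left.right.left.left.right RtB20_7.CTp RtB20_7.CEr 0x4143d86b8fd2e68e2f38f8ec8f239379f669735f7d69f53cd3056749f450d6acfe7976cea76ad7469f67d0459dc29f56d899b4409f440d54124df0e8fd2c9a762c8f8fb060a01f9f66c7ca927f9f531ca4dbb29f450d6bf43ee76c2c9d1e09d3af65c9465fb89f547e72dd3a9f440d544932159595265705c8fdd841cfb7f85949158b0eaf66c4c7d6f59f540d4a985a076c27f9469517ebf620d5593597459321745932174714022f2cd9fd982875976c2ac93064177bf4ab96fad219af240d3 = true := by decide +kernel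

theorem cB20_7_3_120 : chunkOkM (LB20_7.ctx true true 106 1 1 1 1 1 1 1 1) muQ true true 64 RtB20_7.Cx.right.right RtB20_7.CX RtB20_7.Ctp.right.right.right.right.left.left RtB20_7.Ce.right.right.right.left.right.left.right RtB20_7.CTp RtB20_7.CEr 0x59 = true := by decide +kernel

theorem cB20_7_3_121 : chunkOkM (LB20_7.ctx true true 106 1 1 1 1 1 1 1 1) muQ true true 64 RtB20_7.Cx.right.right.left RtB20_7.CX RtB20_7.Ctp.right.right.right.right.left.right RtB20_7.Ce.right.right.right.left.right.left RtB20_7.CTp RtB20_7.CEr 0x01 = true := by decide +kernel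

theorem cB20_7_3_122 : chunkOkM (LB20_7.ctx true true 297 699 256 7 16 1954 3732 32 32) muQ true true 64 RtB20_7.Cx.right.right.right RtB20_7.CX RtB20_7.Ctp.right.right.right.right.left.right.left RtB20_7.Ce.right.right.right.left.right.left.left RtB20_7.CTp RtB20_7.CEr 0x40ce25118fd3eaff7876c1f5b4840442bf6435af1b10baf040d462742678fd3372f9eb8f8a29c8206e9f65f8f4bcaa9f51fedebb2e9f450d6ae7ad676c7e45127019f667342bcc49f530d5210148cc54028fd184dc18c8f850cf7e7738af62f961cc659f540d68af84e76c136fe88df9af662aff80be9f530d532174734a0f892f8fd37ef6f868f8222be76159f6569ce79f59f540d7ceabaa76c11260a3e90af6619e237869f530d54 = true := by decide +kernel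

end Vale.Agent.helper4.Q4
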