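import Vale.Agent.helper4.Q4TreeM
import Vale.Agent.helper4.Q4G.PB20_7

/-!
Checks for pairs of intervals of second moments.
-/

set_option maxRecDepth 100000
set_option linter.unusedVariables false

namespace Vale.Agent.helper4.Q4

theorem cB20_7_3_123 : chunkOkM (LB20_7.ctx true true 321 2815 1024 7 16 7842 15012 32 32) muQ true true 64 RtB20_7.Cx.right.right.right RtB20_7.CX RtB20_7.Ctp.right.right.right.right.left.right.left RtB20_7.Ce.right.right.right.left.right.left.right RtB20_7.CTp RtB20_7.CEr 0x21010101526fa64f8fd23f632d78f817c2c6397baf6634027f789f540d7e3102076c9fdc2f9219f669618ae009f530d53330170172159550a44f98fdbb144697f85b7932bbfeaf672959c9399f540d6e1043b76c25885c89f0af6660df69e19f530d5217459321745932174aa4a5ab8fd3459131b8f82e5edc38b9af6792275fdb9f540d292fa1ef8fdb1cbf6976c1cc442205eaf694847f06b9f540d5432174 = true := by decide +kernel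

theorem cB20_7_3_124 : chunkOkM (LB20_7.ctx true true 106 1 1 1 1 1 1 1 1) muQ true true 64 RtB20_7.Cx.right.right.right RtB20_7.CX RtB20_7.Ctp.right.right.right.right.left.right.right RtB20_7.Ce.right.right.right.left.right.left RtB20_7.CTp RtB20_7.CEr 0x01 = true := by decide +kernel

theorem cB20_7_3_125 : chunkOkM (LB20_7.ctx true true 106 1 1 1 1 1 1 1 1) muQ true true 64 RtB20_7.Cx.right RtB20_7.CX RtB20_7.Ctp.right.right.right.right.left RtB20_7.Ce.right.right.right.left.right.right RtB20_7.CTp RtB20_7.CEr 0x21 = true := by decide +kernel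

theorem cB20_7_3_126 : chunkOkM (LB20_7.ctx true true 106 1 1 1 1 1 1 1 1) muQ true true 64 RtB20_7.Cx.right RtB20_7.CX RtB20_7.Ctp.right.right.right.right.right RtB20_7.Ce.right.right.right.left RtB20_7.CTp RtB20_7.CEr 0x01 = true := by decide +kernel

theorem cB20_7_3_127 : chunkOkM (LB20_7.ctx true true 106 1 1 1 1 1 1 1 1) muQ true true 64 RtB20_7.Cx RtB20_7.CX RtB20_7.Ctp.right.right.right RtB20_7.Ce.right.right.right.right RtB20_7.CTp RtB20_7.CEr 0x21 = true := by decide +kernel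

theorem cB20_7_2_0 : chunkOkM (LB20_7.ctx false true 106 1 1 1 1 1 1 1 1) muQ false true 64 RtB20_7.Cx RtB20_7.CX RtB20_7.Ctn RtB20_7.Ce RtB20_7.CTp RtB20_7.CEr 0x49 = true := by decide +kernel

theorem cB20_7_1_0 : chunkOkM (LB20_7.ctx true false 106 1 1 1 1 1 1 1 1) muQ true false 64 RtB20_7.Cx RtB20_7.CX RtB20_7.Ctp.left RtB20_7.Ce RtB20_7.CTn RtB20_7.CEr 0x41 = true := by decide +kernel

theorem cB20_7_1_1 : chunkOkM (LB20_7.ctx true false 106 1 1 1 1 1 1 1 1) muQ true false 64 RtB20_7.Cx RtB20_7.CX RtB20_7.Ctp.right.left RtB20_7.Ce RtB20_7.CTn RtB20_7.CEr.left.left.left.left 0x41 = true := by decide +kernel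

theorem cB20_7_1_2 : chunkOkM (LB20_7.ctx true false 106 1 1 1 1 1 1 1 1) muQ true false 64 RtB20_7.Cx RtB20_7.CX RtB20_7.Ctp.right.right RtB20_7.Ce.left RtB20_7.CTn RtB20_7.CEr.left.left.left.left 0x11 = true := by decide +kernel

theorem cB20_7_1_3 : chunkOkM (LB20_7.ctx true false 106 1 1 1 1 1 1 1 1) muQ true false 64 RtB20_7.Cx RtB20_7.CX RtB20_7.Ctp.right.right.left RtB20_7.Ce.right RtB20_7.CTn RtB20_7.CEr.left.left.left.left 0x49 = true := by decide +kernel

theorem cB20_7_1_4 : chunkOkM (LB20_7.ctx true false 106 1 1 1 1 1 1 1 1) muQ true false 64 RtB20_7.Cx RtB20_7.CX RtB20_7.Ctp.right.right.right RtB20_7.Ce.right.left RtB20_7.CTn RtB20_7.CEr.left.left.left.left 0x11 = true := by decide +kernel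

theorem cB20_7_1_5 : chunkOkM (LB20_7.ctx true false 236 21 8 7 16 30 100 32 512) muQ true false 64 RtB20_7.Cx RtB20_7.CX RtB20_7.Ctp.right.right.right RtB20_7.Ce.right.right.left.left RtB20_7.CTn.left.left.left RtB20_7.CEr.left.left.left.left 0x1d5a436e828bf41f2e1b8628af120d = true := by decide +kernel

theorem cB20_7_1_6 : chunkOkM (LB20_7.ctx true false 270 83 32 7 16 462 428 32 512) muQ true false 64 RtB20_7.Cx RtB20_7.CX RtB20_7.Ctp.right.right.right.left RtB20_7.Ce.right.right.left.right.left RtB20_7.CTn.left.left.left RtB20_7.CEr.left.left.left.left 0x112c32f284d9f00b3a2fcf1a99f04b10afe4c77c23c174bd89f65db15e7c39f530d7376941c8564ae8fd7e5d058c194eaef309f6686760a169f551d08ac469f450d4f18714199f05b44934933 = true := by decide +kernel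

theorem cB20_7_1_7 : chunkOkM (LB20_7.ctx true false 267 83 32 7 16 238 444 32 512) muQ true false 64 RtB20_7.Cx RtB20_7.CX RtB20_7.Ctp.right.right.right.left RtB20_7.Ce.right.right.left.right.right RtB20_7.CTn.left.left.left RtB20_7.CEr.left.left.left.left 0x8e307f078fd1dac5668c3c16713049f65b64092c39f565660bbfc9f450d493ac27f1848fdcb096267c279179c2b9f667e76088a9f540d1f02e9cde9fd3d4bb23759f670f068dba9f54275c775b9f440d32172502811259fd8fb08c67c159e7f8809f64fb11dab09f51ed8764a49f250d679636ae8fdac423e67c34f4603fd9f65db98e5c69f54c6061a049f450dc9e1e71f8fd8c1c6c67c3cf38c22f9f66c4f704849f540d7347b56fe58ce9a37e4499f63b4b0cc126af5e51cb9ab67af440d3 = true := by decide +kernel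

theorem cB20_7_1_8 : chunkOkM (LB20_7.ctx true false 240 21 8 7 16 62 108 32 512) muQ true false 64 RtB20_7.Cx RtB20_7.CX RtB20_7.Ctp.right.right.right.right RtB20_7.Ce.right.right.left.right RtB20_7.CTn.left.left.left RtB20_7.CEr.left.left.left.left 0x867b495529f00b = true := by decide +kernel

theorem cB20_7_1_9 : chunkOkM (LB20_7.ctx true false 267 85 32 7 16 238 452 32 512) muQ true false 64 RtB20_7.Cx RtB20_7.CX RtB20_7.Ctp.right.right.right.left RtB20_7.Ce.right.right.right.left RtB20_7.CTn.left.left.left RtB20_7.CEr.left.left.left.left 0x5949599984fc948fdd52cf167c3c2fff2709f6668cbef359f5528646d029f450d4749321793d5c6a686af43223ec6e4eaf220d34 = true := by decide +kernel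

theorem cB20_7_1_10 : chunkOkM (LB20_7.ctx true false 267 87 32 7 16 246 468 32 512) muQ true false 64 RtB20_7.Cx RtB20_7.CX RtB20_7.Ctp.right.right.right.right RtB20_7.Ce.right.right.right.left RtB20_7.CTn.left.left.left RtB20_7.CEr.left.left.left.left 0x01211e17465619fd431d4b67c38316591e9f659f9b5bc09f5220ac400b9f250d2fb25c74d9fd16e54b577c41b73bb619f675f799bae9f53c64c6e909f450d32174a24bbd6239f00b1051580fa9fd1164d5077c3a11fdf619f66a2978dc89f5335dfe7c09f450dfe8903138fd16c5f3b77c40ec33ce59f67346142819f5d619561a8f250d73118de1eb0b8fd158706e77c2cd78b0fa9f66684f71279f540d3443017 = true := by decide +kernel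

theorem cB20_7_1_11 : chunkOkM (LB20_7.ctx true false 106 1 1 1 1 1 1 1 1) muQ true false 64 RtB20_7.Cx RtB20_7.CX RtB20_7.Ctp.right.right.right RtB20_7.Ce.right.right.right.right RtB20_7.CTn.left.left.left RtB20_7.CEr.left.left.left.left 0x21 = true := by decide +kernel

theorem cB20_7_1_12 : chunkOkM (LB20_7.ctx true false 106 1 1 1 1 1 1 1 1) muQ true false 64 RtB20_7.Cx RtB20_7.CX RtB20_7.Ctp.right.right.right RtB20_7.Ce.right.right RtB20_7.CTn.left.left.right RtB20_7.CEr.left.left.left.left 0x12 = true := by decide +kernel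

theorem cB20_7_1_13 : chunkOkM (LB20_7.ctx true false 106 1 1 1 1 1 1 1 1) muQ true false 64 RtB20_7.Cx RtB20_7.CX RtB20_7.Ctp.right.right.right RtB20_7.Ce.right.right RtB20_7.CTn.left.right RtB20_7.CEr.left.left.left.left 0x12 = true := by decide +kernel

theorem cB20_7_1_14 : chunkOkM (LB20_7.ctx true false 106 1 1 1 1 1 1 1 1) muQ true false 64 RtB20_7.Cx RtB20_7.CX RtB20_7.Ctp.right.right.right RtB20_7.Ce.right.right RtB20_7.CTn.right RtB20_7.CEr.left.left.left.left 0x12 = true := by decide +kernel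

theorem cB20_7_1_15 : chunkOkM (LB20_7.ctx true false 106 1 1 1 1 1 1 1 1) muQ true false 64 RtB20_7.Cx RtB20_7.CX RtB20_7.Ctp.right RtB20_7.Ce RtB20_7.CTn RtB20_7.CEr.left.left.left.right 0x5a = true := by decide +kernel

theorem cB20_7_1_16 : chunkOkM (LB20_7.ctx true false 106 1 1 1 1 1 1 1 1) muQ true false 64 RtB20_7.Cx RtB20_7.CX RtB20_7.Ctp.right RtB20_7.Ce RtB20_7.CTn RtB20_7.CEr.left.left.right 0x5a = true := by decide +kernel

theorem cB20_7_1_17 : chunkOkM (LB20_7.ctx true false 106 1 1 1 1 1 1 1 1) muQ true false 64 RtB20_7.Cx RtB20_7.CX RtB20_7.Ctp.right RtB20_7.Ce RtB20_7.CTn RtB20_7.CEr.left.right 0x5a = true := by decide +kernel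

theorem cB20_7_1_18 : chunkOkM (LB20_7.ctx true false 106 1 1 1 1 1 1 1 1) muQ true false 64 RtB20_7.Cx RtB20_7.CX RtB20_7.Ctp.right RtB20_7.Ce RtB20_7.CTn RtB20_7.CEr.right 0x52 = true := by decide +kernel

theorem cB20_7_0_0 : chunkOkM (LB20_7.ctx false false 106 1 1 1 1 1 1 1 1) muQ false false 64 RtB20_7.Cx RtB20_7.CX RtB20_7.Ctn RtB20_7.Ce RtB20_7.CTn RtB20_7.CEr 0x49 = true := by decide +kernel

end Vale.Agent.helper4.Q4
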