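import Vale.Agent.helper4.Q4TreeM
import Vale.Agent.helper4.Q4G.PB20_7_0
import Vale.Agent.helper4.Q4G.PB20_7_1
import Vale.Agent.helper4.Q4G.PB20_7_2
import Vale.Agent.helper4.Q4G.PB20_7_3
import Vale.Agent.helper4.Q4G.PB20_7_4
import Vale.Agent.helper4.Q4G.PB20_7_5
import Vale.Agent.helper4.Q4G.PB20_7_6
import Vale.Agent.helper4.Q4G.PB20_7_7
import Vale.Agent.helper4.Q4G.PB20_7_8
import Vale.Agent.helper4.Q4G.PB20_7_9

/-!
Checks for pairs of intervals of second moments.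
-/

set_option maxRecDepth 100000
set_option linter.unusedVariables false

namespace Vale.Agent.helper4.Q4

theorem covB20_7 : LB20_7.Full muQ.val RtB20_7 := ⟨(LitT.Cov.split_t (LitT.cov_of_chunkM cB20_7_3_0) (LitT.Cov.split_t (LitT.cov_of_chunkM cB20_7_3_1) (LitT.Cov.split_e (LitT.cov_of_chunkM cB20_7_3_2) (LitT.Cov.split_t (LitT.cov_of_chunkM cB20_7_3_3) (LitT.Cov.split_e (LitT.cov_of_chunkM cB20_7_3_4) (LitT.Cov.split_e (LitT.Cov.split_e (LitT.cov_of_chunkM cB20_7_3_5) (LitT.Cov.split_t (LitT.Cov.split_e (LitT.Cov.split_t (LitT.Cov.split_t (LitT.cov_of_chunkM cB20_7_3_6) (LitT.Cov.split_t (LitT.cov_of_chunkM cB20_7_3_7) (LitT.Cov.split_e (LitT.cov_of_chunkM cB20_7_3_8) (LitT.Cov.split_x (LitT.Cov.split_x (LitT.Cov.split_x (LitT.Cov.split_e (LitT.Cov.split_e (LitT.Cov.split_t (LitT.cov_of_chunkM cB20_7_3_9) (LitT.cov_of_chunkM cB20_7_3_10)) (LitT.Cov.split_t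 (LitT.cov_of_chunkM cB20_7_3_11) (LitT.cov_of_chunkM cB20_7_3_12))) (LitT.cov_of_chunkM cB20_7_3_13)) (LitT.cov_of_chunkM cB20_7_3_14)) (LitT.cov_of_chunkM cB20_7_3_15)) (LitT.cov_of_chunkM cB20_7_3_16))))) (LitT.Cov.split_e (LitT.cov_of_chunkM cB20_7_3_17) (LitT.Cov.split_x (LitT.Cov.split_t (LitT.Cov.split_x (LitT.Cov.split_e (LitT.Cov.split_t (LitT.Cov.split_x (LitT.Cov.split_e (LitT.cov_of_chunkM cB20_7_3_18) (LitT.Cov.split_t (LitT.Cov.split_x (LitT.cov_of_chunkM cB20_7_3_19) (LitT.cov_of_chunkM cB20_7_3_20)) (LitT.cov_of_chunkM cB20_7_3_21))) (LitT.cov_of_chunkM cB20_7_3_22)) (LitT.cov_of_chunkM cB20_7_3_23)) (LitT.Cov.split_t (LitT.Cov.split_x (LitT.Cov.split_e (LitT.Cov.split_t (LitT.cov_of_chunkM cB20_7_3_24) (LitT.cov_of_chunkM cB20_7_3_25)) (LitT.cov_of_chunkM cB20_7_3_26)) (LitT.Cov.split_e (LitT.cov_of_chunkM cB20_7_3_27) (LitT.Cov.split_t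 (LitT.cov_of_chunkM cB20_7_3_28) (LitT.cov_of_chunkM cB20_7_3_29)))) (LitT.Cov.split_x (LitT.Cov.split_e (LitT.cov_of_chunkM cB20_7_3_30) (LitT.cov_of_chunkM cB20_7_3_31)) (LitT.cov_of_chunkM cB20_7_3_32)))) (LitT.cov_of_chunkM cB20_7_3_33)) (LitT.cov_of_chunkM cB20_7_3_34)) (LitT.cov_of_chunkM cB20_7_3_35)))) (LitT.Cov.split_t (LitT.cov_of_chunkM cB20_7_3_36) (LitT.Cov.split_x (LitT.Cov.split_e (LitT.Cov.split_t (LitT.Cov.split_x (LitT.Cov.split_e (LitT.Cov.split_t (LitT.cov_of_chunkM cB20_7_3_37) (LitT.Cov.split_x (LitT.cov_of_chunkM cB20_7_3_38) (LitT.Cov.split_e (LitT.Cov.split_t (LitT.cov_of_chunkM cB20_7_3_39) (LitT.cov_of_chunkM cB20_7_3_40)) (LitT.Cov.split_t (LitT.cov_of_chunkM cB20_7_3_41) (LitT.cov_of_chunkM cB20_7_3_42))))) (LitT.cov_of_chunkM cB20_7_3_43)) (LitT.Cov.split_t (LitT.cov_of_chunkM cB20_7_3_44) (LitT.Cov.split_e (LitT.cov_of_chunkM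 cB20_7_3_45) (LitT.Cov.split_x (LitT.Cov.split_e (LitT.Cov.split_t (LitT.cov_of_chunkM cB20_7_3_46) (LitT.cov_of_chunkM cB20_7_3_47)) (LitT.cov_of_chunkM cB20_7_3_48)) (LitT.cov_of_chunkM cB20_7_3_49))))) (LitT.Cov.split_x (LitT.cov_of_chunkM cB20_7_3_50) (LitT.Cov.split_e (LitT.cov_of_chunkM cB20_7_3_51) (LitT.Cov.split_t (LitT.Cov.split_x (LitT.Cov.split_e (LitT.cov_of_chunkM cB20_7_3_52) (LitT.Cov.split_t (LitT.cov_of_chunkM cB20_7_3_53) (LitT.cov_of_chunkM cB20_7_3_54))) (LitT.cov_of_chunkM cB20_7_3_55)) (LitT.cov_of_chunkM cB20_7_3_56))))) (LitT.Cov.split_x (LitT.cov_of_chunkM cB20_7_3_57) (LitT.Cov.split_t (LitT.cov_of_chunkM cB20_7_3_58) (LitT.Cov.split_e (LitT.Cov.split_t (LitT.Cov.split_x (LitT.Cov.split_e (LitT.cov_of_chunkM cB20_7_3_59) (LitT.cov_of_chunkM cB20_7_3_60)) (LitT.Cov.split_e (LitT.cov_of_chunkM cB20_7_3_61) (LitT.Cov.split_t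 (LitT.Cov.split_x (LitT.cov_of_chunkM cB20_7_3_62) (LitT.cov_of_chunkM cB20_7_3_63)) (LitT.cov_of_chunkM cB20_7_3_64)))) (LitT.cov_of_chunkM cB20_7_3_65)) (LitT.Cov.split_x (LitT.cov_of_chunkM cB20_7_3_66) (LitT.Cov.split_t (LitT.Cov.split_e (LitT.cov_of_chunkM cB20_7_3_67) (LitT.cov_of_chunkM cB20_7_3_68)) (LitT.Cov.split_e (LitT.cov_of_chunkM cB20_7_3_69) (LitT.cov_of_chunkM cB20_7_3_70)))))))) (LitT.Cov.split_t (LitT.cov_of_chunkM cB20_7_3_71) (LitT.Cov.split_e (LitT.cov_of_chunkM cB20_7_3_72) (LitT.Cov.split_e (LitT.cov_of_chunkM cB20_7_3_73) (LitT.Cov.split_x (LitT.Cov.split_t (LitT.cov_of_chunkM cB20_7_3_74) (LitT.cov_of_chunkM cB20_7_3_75)) (LitT.cov_of_chunkM cB20_7_3_76)))))))) (LitT.cov_of_chunkM cB20_7_3_77))) (LitT.Cov.split_e (LitT.Cov.split_t (LitT.Cov.split_e (LitT.Cov.split_t (LitT.cov_of_chunkM cB20_7_3_78) (LitT.Cov.split_x (LitT.cov_of_chunkM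 cB20_7_3_79) (LitT.Cov.split_t (LitT.cov_of_chunkM cB20_7_3_80) (LitT.Cov.split_x (LitT.Cov.split_e (LitT.Cov.split_e (LitT.Cov.split_t (LitT.cov_of_chunkM cB20_7_3_81) (LitT.Cov.split_x (LitT.Cov.split_e (LitT.Cov.split_t (LitT.cov_of_chunkM cB20_7_3_82) (LitT.cov_of_chunkM cB20_7_3_83)) (LitT.cov_of_chunkM cB20_7_3_84)) (LitT.cov_of_chunkM cB20_7_3_85))) (LitT.cov_of_chunkM cB20_7_3_86)) (LitT.cov_of_chunkM cB20_7_3_87)) (LitT.cov_of_chunkM cB20_7_3_88))))) (LitT.cov_of_chunkM cB20_7_3_89)) (LitT.Cov.split_x (LitT.cov_of_chunkM cB20_7_3_90) (LitT.Cov.split_t (LitT.Cov.split_e (LitT.Cov.split_e (LitT.Cov.split_t (LitT.Cov.split_x (LitT.Cov.split_e (LitT.cov_of_chunkM cB20_7_3_91) (LitT.Cov.split_t (LitT.Cov.split_x (LitT.cov_of_chunkM cB20_7_3_92) (LitT.Cov.split_e (LitT.cov_of_chunkM cB20_7_3_93) (LitT.Cov.split_t (LitT.cov_of_chunkM cB20_7_3_94)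 (LitT.cov_of_chunkM cB20_7_3_95)))) (LitT.cov_of_chunkM cB20_7_3_96))) (LitT.cov_of_chunkM cB20_7_3_97)) (LitT.cov_of_chunkM cB20_7_3_98)) (LitT.Cov.split_t (LitT.Cov.split_x (LitT.Cov.split_e (LitT.Cov.split_x (LitT.cov_of_chunkM cB20_7_3_99) (LitT.Cov.split_t (LitT.Cov.split_e (LitT.cov_of_chunkM cB20_7_3_100) (LitT.cov_of_chunkM cB20_7_3_101)) (LitT.cov_of_chunkM cB20_7_3_102))) (LitT.cov_of_chunkM cB20_7_3_103)) (LitT.Cov.split_e (LitT.Cov.split_t (LitT.Cov.split_t (LitT.cov_of_chunkM cB20_7_3_104) (LitT.Cov.split_x (LitT.Cov.split_e (LitT.cov_of_chunkM cB20_7_3_105) (LitT.cov_of_chunkM cB20_7_3_106)) (LitT.cov_of_chunkM cB20_7_3_107))) (LitT.cov_of_chunkM cB20_7_3_108)) (LitT.Cov.split_t (LitT.cov_of_chunkM cB20_7_3_109) (LitT.Cov.split_x (LitT.Cov.split_e (LitT.Cov.split_t (LitT.cov_of_chunkM cB20_7_3_110) (LitT.cov_of_chunkM cB20_7_3_111)) (LitT.cov_of_chunkM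 cB20_7_3_112)) (LitT.cov_of_chunkM cB20_7_3_113))))) (LitT.cov_of_chunkM cB20_7_3_114))) (LitT.Cov.split_e (LitT.Cov.split_x (LitT.cov_of_chunkM cB20_7_3_115) (LitT.Cov.split_t (LitT.Cov.split_e (LitT.Cov.split_t (LitT.cov_of_chunkM cB20_7_3_116) (LitT.Cov.split_x (LitT.cov_of_chunkM cB20_7_3_117) (LitT.Cov.split_e (LitT.cov_of_chunkM cB20_7_3_118) (LitT.cov_of_chunkM cB20_7_3_119)))) (LitT.cov_of_chunkM cB20_7_3_120)) (LitT.Cov.split_x (LitT.cov_of_chunkM cB20_7_3_121) (LitT.Cov.split_t (LitT.Cov.split_e (LitT.cov_of_chunkM cB20_7_3_122) (LitT.cov_of_chunkM cB20_7_3_123)) (LitT.cov_of_chunkM cB20_7_3_124))))) (LitT.cov_of_chunkM cB20_7_3_125))) (LitT.cov_of_chunkM cB20_7_3_126)))) (LitT.cov_of_chunkM cB20_7_3_127)))))))), (LitT.Cov.split_t (LitT.cov_of_chunkM cB20_7_1_0) (LitT.Cov.split_E (LitT.Cov.split_E (LitT.Cov.split_E (LitT.Cov.split_E (LitT.Cov.split_t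 (LitT.cov_of_chunkM cB20_7_1_1) (LitT.Cov.split_e (LitT.cov_of_chunkM cB20_7_1_2) (LitT.Cov.split_t (LitT.cov_of_chunkM cB20_7_1_3) (LitT.Cov.split_e (LitT.cov_of_chunkM cB20_7_1_4) (LitT.Cov.split_T (LitT.Cov.split_T (LitT.Cov.split_T (LitT.Cov.split_e (LitT.Cov.split_e (LitT.cov_of_chunkM cB20_7_1_5) (LitT.Cov.split_t (LitT.Cov.split_e (LitT.cov_of_chunkM cB20_7_1_6) (LitT.cov_of_chunkM cB20_7_1_7)) (LitT.cov_of_chunkM cB20_7_1_8))) (LitT.Cov.split_e (LitT.Cov.split_t (LitT.cov_of_chunkM cB20_7_1_9) (LitT.cov_of_chunkM cB20_7_1_10)) (LitT.cov_of_chunkM cB20_7_1_11))) (LitT.cov_of_chunkM cB20_7_1_12)) (LitT.cov_of_chunkM cB20_7_1_13)) (LitT.cov_of_chunkM cB20_7_1_14)))))) (LitT.cov_of_chunkM cB20_7_1_15)) (LitT.cov_of_chunkM cB20_7_1_16)) (LitT.cov_of_chunkM cB20_7_1_17)) (LitT.cov_of_chunkM cB20_7_1_18))), (LitT.cov_of_chunkM cB20_7_2_0), (LitT.cov_of_chunkM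 cB20_7_0_0)⟩

end Vale.Agent.helper4.Q4
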