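import Vale.Agent.helper4.Q4TreeM
import Vale.Agent.helper4.Q4G.PB20_8

/-!
Checks for pairs of intervals of second moments.
-/

set_option maxRecDepth 100000
set_option linter.unusedVariables false

namespace Vale.Agent.helper4.Q4

theorem cB20_8_3_0 : chunkOkM (LB20_8.ctx true true 110 1 1 1 1 1 1 1 1) muQ true true 64 RtB20_8.Cx RtB20_8.CX RtB20_8.Ctp.left RtB20_8.Ce RtB20_8.CTp RtB20_8.CEr 0x41 = true := by decide +kernel

theorem cB20_8_3_1 : chunkOkM (LB20_8.ctx true true 110 1 1 1 1 1 1 1 1) muQ true true 64 RtB20_8.Cx RtB20_8.CX RtB20_8.Ctp.right.left RtB20_8.Ce RtB20_8.CTp RtB20_8.CEr 0x41 = true := by decide +kernel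

theorem cB20_8_3_2 : chunkOkM (LB20_8.ctx true true 110 1 1 1 1 1 1 1 1) muQ true true 64 RtB20_8.Cx RtB20_8.CX RtB20_8.Ctp.right.right RtB20_8.Ce.left RtB20_8.CTp RtB20_8.CEr 0x11 = true := by decide +kernel

theorem cB20_8_3_3 : chunkOkM (LB20_8.ctx true true 110 1 1 1 1 1 1 1 1) muQ true true 64 RtB20_8.Cx RtB20_8.CX RtB20_8.Ctp.right.right.left RtB20_8.Ce.right RtB20_8.CTp RtB20_8.CEr 0x49 = true := by decide +kernel

theorem cB20_8_3_4 : chunkOkM (LB20_8.ctx true true 110 1 1 1 1 1 1 1 1) muQ true true 64 RtB20_8.Cx RtB20_8.CX RtB20_8.Ctp.right.right.right RtB20_8.Ce.right.left RtB20_8.CTp RtB20_8.CEr 0x11 = true := by decide +kernel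

theorem cB20_8_3_5 : chunkOkM (LB20_8.ctx true true 211 21 8 9 16 30 100 2 16) muQ true true 64 RtB20_8.Cx RtB20_8.CX RtB20_8.Ctp.right.right.right RtB20_8.Ce.right.right.left.left RtB20_8.CTp RtB20_8.CEr 0x49fdb3aee9fd936550afe9f857100e0f4e39cf45d9fe4bcbbcbf140d = true := by decide +kernel

theorem cB20_8_3_6 : chunkOkM (LB20_8.ctx true true 110 1 1 1 1 1 1 1 1) muQ true true 64 RtB20_8.Cx RtB20_8.CX RtB20_8.Ctp.right.right.right.left.left.left RtB20_8.Ce.right.right.left.right.left RtB20_8.CTp RtB20_8.CEr 0x49 = true := by decide +kernel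

theorem cB20_8_3_7 : chunkOkM (LB20_8.ctx true true 110 1 1 1 1 1 1 1 1) muQ true true 64 RtB20_8.Cx RtB20_8.CX RtB20_8.Ctp.right.right.right.left.left.right.left RtB20_8.Ce.right.right.left.right.left RtB20_8.CTp RtB20_8.CEr 0x49 = true := by decide +kernel

theorem cB20_8_3_8 : chunkOkM (LB20_8.ctx true true 283 321 128 9 16 926 3388 4 32) muQ true true 64 RtB20_8.Cx RtB20_8.CX RtB20_8.Ctp.right.right.right.left.left.right.right RtB20_8.Ce.right.right.left.right.left.left RtB20_8.CTp RtB20_8.CEr 0x111184ac6c9779fd9b4aecf76aaf69a02bec44caf5343ceca67faf440d6a64970d1eba63caf05b87d4ed9da1af05b64914d633b7f9fde59c05177ca9222012f9af6b2639cb0b8af51de573cbdcaf450d6cd97640d9fdfc7447577c35f8d0b7ab4d580b9769f81122f81838cbf6ca451da75eaf542c6d11e76af470d6468beaaa8fd102503c787c7afc75bb8b878d5b99f82e49ec74831bf6bd6e961c70af531a2bcff83af470d4737c4838d68c4f5be471ef243df687977e8b20cbcf430d4576947 = true := by decide +kernel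

theorem cB20_8_3_9 : chunkOkM (LB20_8.ctx true true 276 323 128 9 16 926 3404 4 32) muQ true true 64 RtB20_8.Cx.left.left.left RtB20_8.CX RtB20_8.Ctp.right.right.right.left.left.right.right RtB20_8.Ce.right.right.left.right.left.right.left.left RtB20_8.CTp.left RtB20_8.CEr 0x841b377ae8af05b26e674e08fd2038b268c43bbcb6bb33ccdb7179f828554b37c33bf6b396605018af5aee5ba3139f470d649331c7dbdeaaafd37addbd187c86dbea0718af69b53b390a9af540dbbc1e0d479fd1b2f323c87c35122207ab9213a28159f819c0c181823bf6ce9ae4d3f2af560d6d4e4eed77c3ee2a662e4af6987ffbc11eaf530d9f8d563519fd18fccbdc87c401ef4b7abbcfb1e4cf9f8109d92384dabf6c518b1ccfeaf560d642c90457e8fdec655b877c133d82d7ab7c5c943e99f81e7bcfe3b87bf6d348178e87af55f090acd80af470d37 = true := by decide +kernel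

theorem cB20_8_3_10 : chunkOkM (LB20_8.ctx true true 267 161 64 9 16 926 1700 4 32) muQ true true 64 RtB20_8.Cx.left.left.left RtB20_8.CX RtB20_8.Ctp.right.right.right.left.left.right.right RtB20_8.Ce.right.right.left.right.left.right.left.left RtB20_8.CTp.right RtB20_8.CEr 0x7b184ef0e9fd224efa677ce4dc016a17af6ac12c93c54af540d8b3e2ef609fd4fddac277c62312e17d2af6c184d55159af597c6ea2175af450d36a6 = true := by decide +kernel

theorem cB20_8_3_11 : chunkOkM (LB20_8.ctx true true 263 161 64 9 16 462 1708 4 32) muQ true true 64 RtB20_8.Cx.left.left.left RtB20_8.CX RtB20_8.Ctp.right.right.right.left.left.right.right RtB20_8.Ce.right.right.left.right.left.right.left.right RtB20_8.CTp RtB20_8.CEr 0x7cd95e3449fd34029368c102c39d1271bf6b8edaf2785af57f63a87500af450d6a6de22b9177c59dc5fc1c2af6a8d221dc87af54d3f41edaeaf440d81b69273b9fdfc552668c43c7b86bb2fa0d79bb9f8d776faecf8af6ce680dee21af5487094ef83af470d65 = true := by decide +kernel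

theorem cB20_8_3_12 : chunkOkM (LB20_8.ctx true true 110 1 1 1 1 1 1 1 1) muQ true true 64 RtB20_8.Cx.left.left.left RtB20_8.CX RtB20_8.Ctp.right.right.right.left.left.right.right RtB20_8.Ce.right.right.left.right.left.right.right RtB20_8.CTp RtB20_8.CEr 0x59 = true := by decide +kernel

theorem cB20_8_3_13 : chunkOkM (LB20_8.ctx true true 110 1 1 1 1 1 1 1 1) muQ true true 64 RtB20_8.Cx.left.left.right RtB20_8.CX RtB20_8.Ctp.right.right.right.left.left.right.right RtB20_8.Ce.right.right.left.right.left.right RtB20_8.CTp RtB20_8.CEr 0x49 = true := by decide +kernel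

theorem cB20_8_3_14 : chunkOkM (LB20_8.ctx true true 110 1 1 1 1 1 1 1 1) muQ true true 64 RtB20_8.Cx.left.right RtB20_8.CX RtB20_8.Ctp.right.right.right.left.left.right.right RtB20_8.Ce.right.right.left.right.left.right RtB20_8.CTp RtB20_8.CEr 0x49 = true := by decide +kernel

theorem cB20_8_3_15 : chunkOkM (LB20_8.ctx true true 110 1 1 1 1 1 1 1 1) muQ true true 64 RtB20_8.Cx.right RtB20_8.CX RtB20_8.Ctp.right.right.right.left.left.right.right RtB20_8.Ce.right.right.left.right.left.right RtB20_8.CTp RtB20_8.CEr 0x49 = true := by decide +kernel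

theorem cB20_8_3_16 : chunkOkM (LB20_8.ctx true true 110 1 1 1 1 1 1 1 1) muQ true true 64 RtB20_8.Cx RtB20_8.CX RtB20_8.Ctp.right.right.right.left.right RtB20_8.Ce.right.right.left.right.left.left RtB20_8.CTp RtB20_8.CEr 0x69 = true := by decide +kernel

theorem cB20_8_3_17 : chunkOkM (LB20_8.ctx true true 263 161 64 9 16 466 1700 4 32) muQ true true 64 RtB20_8.Cx.left.left.left RtB20_8.CX RtB20_8.Ctp.right.right.right.left.right.left.left RtB20_8.Ce.right.right.left.right.left.right.left.left RtB20_8.CTp.left RtB20_8.CEr 0xd6d54d34f9fd18fb2a0387ccf0bc226a5af6940910063aaf540ddb5daf6b79fd1ed990678c2bb1c56bba9422fabb9f81576408bad0bf6a07383363eaf560d6 = true := by decide +kernel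

theorem cB20_8_3_18 : chunkOkM (LB20_8.ctx true true 273 323 128 9 16 934 1708 4 32) muQ true true 64 RtB20_8.Cx.left.left.left RtB20_8.CX RtB20_8.Ctp.right.right.right.left.right.left.left RtB20_8.Ce.right.right.left.right.left.right.left.right RtB20_8.CTp.left RtB20_8.CEr 0x53c8b24a8fd1218ac4187c929b7925d9f88e91d55034af682230d2ea3af550df4442ec77cc17f0fb079af6a5f12ff70aaf530db3b4f578b9fd1305bb878c3b43556bb17583fe8bd3bf6aec576462daf550d6311f73648b9fdf80883877c8d02ccb48caf69cf2c60f7eaf540da670b3cb99fd18f2fe478c622ca607abcb7772eb59f8f55459283faf6afe9b2adbeaf560d634701b4389afd3bf4678487c94d5e2edb1af699f9017725af540ddbca086109fd1f3a6e5d87c3a8cfa37abb4aea57b89f8e29a22fde4af6b7dcca2104af560d637 = true := by decide +kernel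

theorem cB20_8_3_19 : chunkOkM (LB20_8.ctx true true 265 163 64 9 16 466 852 4 16) muQ true true 64 RtB20_8.Cx.left.left.right RtB20_8.CX RtB20_8.Ctp.right.right.right.left.right.left.left RtB20_8.Ce.right.right.left.right.left.right.left RtB20_8.CTp.left RtB20_8.CEr 0xdfae4768c72696f7e69b88df69fc35bcf725fcf430d = true := by decide +kernel

theorem cB20_8_3_20 : chunkOkM (LB20_8.ctx true true 251 81 32 9 16 470 852 4 16) muQ true true 64 RtB20_8.Cx.left.left RtB20_8.CX RtB20_8.Ctp.right.right.right.left.right.left.right RtB20_8.Ce.right.right.left.right.left.right.left RtB20_8.CTp.left RtB20_8.CEr 0x1fcacbdf8fdffe85968c7e88583f19f8ce2944bdcfaf240d = true := by decide +kernel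

theorem cB20_8_3_21 : chunkOkM (LB20_8.ctx true true 254 81 32 9 16 470 852 4 32) muQ true true 64 RtB20_8.Cx.left.left RtB20_8.CX RtB20_8.Ctp.right.right.right.left.right.left RtB20_8.Ce.right.right.left.right.left.right.left RtB20_8.CTp.right RtB20_8.CEr 0xa96b6cdbf9fd794b2168c273657723daf6ce23f42022af240d9d867eb059fd2ef0e768c551a3a7d79af69c5564087faf540d36a6 = true := by decide +kernel

theorem cB20_8_3_22 : chunkOkM (LB20_8.ctx true true 277 323 128 9 16 934 3428 4 32) muQ true true 64 RtB20_8.Cx.left.left.left RtB20_8.CX RtB20_8.Ctp.right.right.right.left.right.left.left RtB20_8.Ce.right.right.left.right.left.right.right RtB20_8.CTp RtB20_8.CEr 0x95a5647509fd300acd68cdb754753fbaf6adac2c4d14af540d6a661a541508fd150126d887ca66ec6d269f832cf3039610bf6c6bd556f1caf550d593217d9de4d377c762f1a5eb4af69b91a3a7ffaf530dcd02f7b339fd204710d78c475edd37abf3fb8a45b9f8df614c4550af6b8ae9d8435af560d6101e4d2587cd6a9091308af6ab8f264309af530dc44bd2cae9fd1d05533587c3a058d97aba82c2ef619f818650a7ce27bf6d08ecf0e42af560d63592fea7d3f8fd159aeb8187ca9469990b9f82e41788d132bf6b57228d53aaf550d4593745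 = true := by decide +kernel

end Vale.Agent.helper4.Q4
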