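import Vale.Agent.helper4.Q4TreeM
import Vale.Agent.helper4.Q4G.PB20_8

/-!
Checks for pairs of intervals of second moments.
-/

set_option maxRecDepth 100000
set_option linter.unusedVariables false

namespace Vale.Agent.helper4.Q4

theorem cB20_8_3_23 : chunkOkM (LB20_8.ctx true true 278 323 128 9 16 1874 1724 4 32) muQ true true 64 RtB20_8.Cx.left.left.left RtB20_8.CX RtB20_8.Ctp.right.right.right.left.right.left.right RtB20_8.Ce.right.right.left.right.left.right.right RtB20_8.CTp.left RtB20_8.CEr 0x36b866d88fd15b8addd87ca582bb1489f82921824c4a3bf6278e7e2f19f511b1dc5a185bf260da764964039fd1bd6045587c2dd65c5c36af6a16a5a3e9caf540db035928199fd19abc8da87c39a26177ab7f47325f69f814b40033a42bf69c38768165af560d63217db8674b239fd1a8992ea87cc45ba9e818af6866e7b5168af580dbc874d9f250d8e584d46d9fd8e6de268c8afb256bb1b6b8c0c99f8927cb3b553af6a13c7e6eefaf560d60101e0450a177c8dc3b9d1d9af694cc22f65baf530d11bde4fd40afd1d1484bc87c4a31aa57ab10291e05b88bf692e613335aaf51d5b83bdebaf260d63374 = true := by decide +kernel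

theorem cB20_8_3_24 : chunkOkM (LB20_8.ctx true true 260 161 64 9 16 470 860 4 32) muQ true true 64 RtB20_8.Cx.left.left.left RtB20_8.CX RtB20_8.Ctp.right.right.right.left.right.left.right RtB20_8.Ce.right.right.left.right.left.right.right RtB20_8.CTp.right RtB20_8.CEr 0xbe8a2eeda9fd4db08268c61e6d617bbaf6852d18545baf51eb02d33acaf250d6a6 = true := by decide +kernel

theorem cB20_8_3_25 : chunkOkM (LB20_8.ctx true true 273 325 128 9 16 934 1716 4 32) muQ true true 64 RtB20_8.Cx.left.left.right RtB20_8.CX RtB20_8.Ctp.right.right.right.left.right.left.left RtB20_8.Ce.right.right.left.right.left.right.right.left RtB20_8.CTp.left RtB20_8.CEr 0x800f05a289af05b731aa6f509fda844a668c4f224e6bb1ad168858f816721bfe3bfbf69dd1f92351af560d6497109d4bff9fd18fd4a8887c9810602233af51c5003f2deaf440d412c3c9469fd88e1e968c51ef0d6bb1db25ad969f810985d1eb98bf6c5db45dcccaf5435870413baf470d673 = true := by decide +kernel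

theorem cB20_8_3_26 : chunkOkM (LB20_8.ctx true true 277 327 128 9 16 934 3444 4 32) muQ true true 64 RtB20_8.Cx.left.left.right RtB20_8.CX RtB20_8.Ctp.right.right.right.left.right.left.left RtB20_8.Ce.right.right.left.right.left.right.right.right RtB20_8.CTp.left RtB20_8.CEr 0x43480009e9fd148f864487c9721592642af6a8edc4b07faf5f05e8a6a69f450df22282d499fd180236d78c3052836bb10a9cc2350abf6a5b1ab2d46af550d6493efa876377cc0a8e3bd08af6b1eca34ac5af530dfa2555eb39fd1e10ccd78c3e7ad147ab7f4ffcc259f8d51b3340dcaf6b9767c0cf4af560d659c2aa66077c2665715be54bf6c2e8365d8faf5610dcf69e2af440da97b3cb2f9fd1a2ede9a87c2fdd1b97ab8a028b4659f81971cd146f2bf6cdfb667a7aaf54e69ddc56aaf470d6437 = true := by decide +kernel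

theorem cB20_8_3_27 : chunkOkM (LB20_8.ctx true true 267 163 64 9 16 934 1724 4 32) muQ true true 64 RtB20_8.Cx.left.left.right RtB20_8.CX RtB20_8.Ctp.right.right.right.left.right.left.left RtB20_8.Ce.right.right.left.right.left.right.right RtB20_8.CTp.right RtB20_8.CEr 0x8f92835c79fd29c70c477c9e75e38852af6aa5f41bc7faf540d8b4bbad119fd3b55d0677cb8e1235c15af6b2f52496c3af585c1f49025af450d392da6524a9fd16ffc668cd175b4f44eaf69d15e12698af5297faefc06af450d46a6 = true := by decide +kernel

theorem cB20_8_3_28 : chunkOkM (LB20_8.ctx true true 263 163 64 9 16 470 1724 4 32) muQ true true 64 RtB20_8.Cx.left.left.right RtB20_8.CX RtB20_8.Ctp.right.right.right.left.right.left.right RtB20_8.Ce.right.right.left.right.left.right.right RtB20_8.CTp RtB20_8.CEr 0xaff1bac899fd6c8c4568c639b0af6cbaf69708298930af540d6a6e38294db8fdfc22cce77c74543df7a8af6982f8bb496af540dd02e09bbb9fdfc08a668c7129f46bbd8655cd0bbaf6a2f2ae01a9af550d66945 = true := by decide +kernel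

theorem cB20_8_3_29 : chunkOkM (LB20_8.ctx true true 240 81 32 9 16 238 428 2 16) muQ true true 64 RtB20_8.Cx.left.left RtB20_8.CX RtB20_8.Ctp.right.right.right.left.right.right RtB20_8.Ce.right.right.left.right.left.right RtB20_8.CTp RtB20_8.CEr 0x105022be1caf81f54550d0e7bf18b960cd90a6bf030d = true := by decide +kernel

theorem cB20_8_3_30 : chunkOkM (LB20_8.ctx true true 238 83 32 9 16 118 428 2 16) muQ true true 64 RtB20_8.Cx.left.right RtB20_8.CX RtB20_8.Ctp.right.right.right.left.right RtB20_8.Ce.right.right.left.right.left.right RtB20_8.CTp RtB20_8.CEr 0xf7d06fcb79fd21a514578cbdcb43800a96cf4cdee441131dbf140d = true := by decide +kernel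

theorem cB20_8_3_31 : chunkOkM (LB20_8.ctx true true 110 1 1 1 1 1 1 1 1) muQ true true 64 RtB20_8.Cx.right RtB20_8.CX RtB20_8.Ctp.right.right.right.left.right RtB20_8.Ce.right.right.left.right.left.right RtB20_8.CTp RtB20_8.CEr 0x11 = true := by decide +kernel

theorem cB20_8_3_32 : chunkOkM (LB20_8.ctx true true 222 21 8 9 16 114 220 2 16) muQ true true 64 RtB20_8.Cx RtB20_8.CX RtB20_8.Ctp.right.right.right.left.left RtB20_8.Ce.right.right.left.right.right RtB20_8.CTp RtB20_8.CEr 0x9c0a7006b9fd100abd694daf8db7c8bf3a7fbf54c2326a6f12acf440d = true := by decide +kernel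

theorem cB20_8_3_33 : chunkOkM (LB20_8.ctx true true 264 163 64 9 16 466 1732 4 32) muQ true true 64 RtB20_8.Cx.left.left RtB20_8.CX RtB20_8.Ctp.right.right.right.left.right.left.left RtB20_8.Ce.right.right.left.right.right.left.left RtB20_8.CTp RtB20_8.CEr 0x5996c8bd1ea9fd3f437a68c1201cf47ae2bf6bd18ef9df8af54404c5f534af450d6a617a482a987c1f532f5b222bf6ad329d9eacaf5388a920e72af440d545772c539fd96dcc868c5d545e6bb2034786ae9f8ba922de895af6caa2cb4e4baf54e161133a8af470d654217 = true := by decide +kernel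

theorem cB20_8_3_34 : chunkOkM (LB20_8.ctx true true 110 1 1 1 1 1 1 1 1) muQ true true 64 RtB20_8.Cx.left.left.left RtB20_8.CX RtB20_8.Ctp.right.right.right.left.right.left.right RtB20_8.Ce.right.right.left.right.right.left.left RtB20_8.CTp RtB20_8.CEr 0x21 = true := by decide +kernel

theorem cB20_8_3_35 : chunkOkM (LB20_8.ctx true true 274 327 128 9 16 942 1732 4 32) muQ true true 64 RtB20_8.Cx.left.left.right RtB20_8.CX RtB20_8.Ctp.right.right.right.left.right.left.right RtB20_8.Ce.right.right.left.right.right.left.left.left RtB20_8.CTp.left RtB20_8.CEr 0x1c6497b5d4afd209d748487cf91ecc3bbaaf6a3fc7ecd13af540d718412a9f9fd739de568c6a375d6bb144aeda0fabbf6a0e2bfaf7caf550d61097f53987c9940ef63e1af696a326c0dfaf530db7b31efd79fd1beeb2278c48a36d6bb866cfcdd99f816a6211f81bbf6c2f7e813e0af560d612eb43c987c24909fddb12bf6cb96c6cb5faf530ddcad332a59fd1b1f524587c2cc703b7ab6f6959f7b9f81592e5545eabf68a82b9f9e0af560d637 = true := by decide +kernel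

theorem cB20_8_3_36 : chunkOkM (LB20_8.ctx true true 283 651 256 9 16 942 3476 4 32) muQ true true 64 RtB20_8.Cx.left.left.right RtB20_8.CX RtB20_8.Ctp.right.right.right.left.right.left.right RtB20_8.Ce.right.right.left.right.right.left.left.right RtB20_8.CTp.left RtB20_8.CEr 0xf79044377c89b77c24a8af69feee7e4f5af530de0f4771739fd204f32978c56e912f7abd7d95cf849f8c3b36253b1af6ba3078d7ecaf560d6a1d1af808fded9ba9c77c84b96997caaf6945019b7daaf540dd4a70f24c9fd204609e387c444b1d67abac1ad50f79f81c2e2d03962bf6dc28cec11faf560d632126758b176eafd235b055987c18bd338a4fbbf6c100a55160af540d4ef337c329fd5d02aef77c86be7b77ab29a4da7d559bf6bac744837aaf550d621745937 = true := by decide +kernel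

theorem cB20_8_3_37 : chunkOkM (LB20_8.ctx true true 260 163 64 9 16 470 868 4 32) muQ true true 64 RtB20_8.Cx.left.left.right RtB20_8.CX RtB20_8.Ctp.right.right.right.left.right.left.right RtB20_8.Ce.right.right.left.right.right.left.left RtB20_8.CTp.right RtB20_8.CEr 0xae44d92159fd402e0168c928317e8b4af6a3e2550176af540d6a6 = true := by decide +kernel

theorem cB20_8_3_38 : chunkOkM (LB20_8.ctx true true 287 655 256 9 16 1886 3492 4 32) muQ true true 64 RtB20_8.Cx.left.left RtB20_8.CX RtB20_8.Ctp.right.right.right.left.right.left RtB20_8.Ce.right.right.left.right.right.left.right RtB20_8.CTp RtB20_8.CEr 0x2159989ba5a9b9fd638fe4677c233893cdcb5bf68762d326c9af540d6a631055a508fd18185eca87cb62f801319f835aae215c25bf6c35e468882af550d559321745932174217593 = true := by decide +kernel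

end Vale.Agent.helper4.Q4
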