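import Vale.Agent.helper4.Q4TreeM
import Vale.Agent.helper4.Q4G.PB20_8

/-!
Checks for pairs of intervals of second moments.
-/

set_option maxRecDepth 100000
set_option linter.unusedVariables false

namespace Vale.Agent.helper4.Q4

theorem cB20_8_3_39 : chunkOkM (LB20_8.ctx true true 274 327 128 9 16 946 1748 4 32) muQ true true 64 RtB20_8.Cx.left.left RtB20_8.CX RtB20_8.Ctp.right.right.right.left.right.right RtB20_8.Ce.right.right.left.right.right.left RtB20_8.CTp RtB20_8.CEr 0x0101216b765f9479fd536547677c125508789f5bf6ab56cf0aceaf540d6a68af0998509fd1d1f5eb387c2a218eee65af6a555ddfdf1af540dc6067d5179fd1d538dcc87c41767077ab8cc42f6859f813a431b2d31bf69cad0fc554af560d654ab599c2719fd558ebc68c83320fae8caf610dc25e5e1fbf240d6a61172e28987c8abf98cdaeaf69715921dcdaf51358f6ff45af240d8c8514eac9fd16e9d9c78c65504a6bbbac1eaa3a9f88a6df25ab4af69935ffdb65af517ed516f09af270d61145433017017 = true := by decide +kernel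

theorem cB20_8_3_40 : chunkOkM (LB20_8.ctx true true 110 1 1 1 1 1 1 1 1) muQ true true 64 RtB20_8.Cx.left.right RtB20_8.CX RtB20_8.Ctp.right.right.right.left.right.left.left RtB20_8.Ce.right.right.left.right.right.left RtB20_8.CTp RtB20_8.CEr 0x49 = true := by decide +kernel

theorem cB20_8_3_41 : chunkOkM (LB20_8.ctx true true 282 329 128 9 16 942 1740 4 32) muQ true true 64 RtB20_8.Cx.left.right RtB20_8.CX RtB20_8.Ctp.right.right.right.left.right.left.right RtB20_8.Ce.right.right.left.right.right.left.left RtB20_8.CTp RtB20_8.CEr 0x9a9bbc6ad9fd41062e68ca5502b9626af6ac671a56cdaf5299bb95b15af450d568dd16559f06c46a66911e05c1450b279d9fd39ebaa68c48c9a46bb41070eb25edbf68bd4a6534aaf550d64953dd0d5ce9fd18cecf2d87c9b900a36f2af52711730890af440dc4c3152df9fd200bb4b78c29c7cc6bbb801a90fe9f813a79ed2a45bf6bf6288e5a8af560d6737154a99978cc395d6cd89f812af0b12eebd8cef6173c548a050a0df440d45 = true := by decide +kernel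

theorem cB20_8_3_42 : chunkOkM (LB20_8.ctx true true 277 331 128 9 16 942 3492 4 32) muQ true true 64 RtB20_8.Cx.left.right.left RtB20_8.CX RtB20_8.Ctp.right.right.right.left.right.left.right RtB20_8.Ce.right.right.left.right.right.left.right.left RtB20_8.CTp.left RtB20_8.CEr 0x4d38514619fd16f8d91987c9aaa5c39cfaf6a93826dc19af5dd454884f9f450dc80cf5b2c9fd1b6b86478c4e9f866bbc5ae39b309f811866272c53bf6a8eb712c40af560d649310588e3387ccde8ad5d69af6b301969e63af530d8db83bf479fd16763f578c59315ab7abcdf650b379f8e69f08af08af6b8b4875c5faf560d659122d084387c5453a7ac03af6a347066e6daf53dac3aab93af440dc24cf79709fd1e7759be87c372a3d87ab9b2ba4b2b9f81cc4da20c71bf6d611b781bbaf53a4adcb4aeaf470d6437 = true := by decide +kernel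

theorem cB20_8_3_43 : chunkOkM (LB20_8.ctx true true 264 165 64 9 16 470 1756 4 32) muQ true true 64 RtB20_8.Cx.left.right.left RtB20_8.CX RtB20_8.Ctp.right.right.right.left.right.left.right RtB20_8.Ce.right.right.left.right.right.left.right.right RtB20_8.CTp.left RtB20_8.CEr 0x1256aaf087cd96b0c05e2af6bc7b433d76af522272af92faf440d656583dad9fdc5edc068c4fea0a6bb2fa9c95469f812299dc44e2bf6d404c6bf6baf560d6 = true := by decide +kernel

theorem cB20_8_3_44 : chunkOkM (LB20_8.ctx true true 268 165 64 9 16 942 1756 4 32) muQ true true 64 RtB20_8.Cx.left.right.left RtB20_8.CX RtB20_8.Ctp.right.right.right.left.right.left.right RtB20_8.Ce.right.right.left.right.right.left.right RtB20_8.CTp.right RtB20_8.CEr 0xa2ff8565f9fd45c45368c1247cb7bc00bf6bfbb038624af535dcfe4d13af450d9e3b572ed9fd32443de77ccbe295f27faf6a36f7138daaf540d9657fdc989fd59f5a968cce4a7e7238af6c3cdc4533eaf59378966d28af450d346a6 = true := by decide +kernel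

theorem cB20_8_3_45 : chunkOkM (LB20_8.ctx true true 281 167 64 9 16 15102 876 4 32) muQ true true 64 RtB20_8.Cx.left.right.right RtB20_8.CX RtB20_8.Ctp.right.right.right.left.right.left.right RtB20_8.Ce.right.right.left.right.right.left.right RtB20_8.CTp RtB20_8.CEr 0x5c22ea8b69f06c6a6c332058c8fd18ff0a178cbe4e26f929f84bba34b467af691ce795726af550d5493493493493493 = true := by decide +kernel

theorem cB20_8_3_46 : chunkOkM (LB20_8.ctx true true 110 1 1 1 1 1 1 1 1) muQ true true 64 RtB20_8.Cx.left.right RtB20_8.CX RtB20_8.Ctp.right.right.right.left.right.right RtB20_8.Ce.right.right.left.right.right.left.left RtB20_8.CTp RtB20_8.CEr 0x11 = true := by decide +kernel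

theorem cB20_8_3_47 : chunkOkM (LB20_8.ctx true true 264 165 64 9 16 474 1748 4 32) muQ true true 64 RtB20_8.Cx.left.right.left RtB20_8.CX RtB20_8.Ctp.right.right.right.left.right.right.left RtB20_8.Ce.right.right.left.right.right.left.right.left RtB20_8.CTp.left RtB20_8.CEr 0x12857aa2e7afd2154f94c87ce638c41e5daf6959827d679af540d922832cdf9fd1173ece78c6f03e36bb97df6f62f9f8e2142ee426af6968921e296af560d6 = true := by decide +kernel

theorem cB20_8_3_48 : chunkOkM (LB20_8.ctx true true 280 659 256 9 16 950 1756 4 32) muQ true true 64 RtB20_8.Cx.left.right.left RtB20_8.CX RtB20_8.Ctp.right.right.right.left.right.right.left RtB20_8.Ce.right.right.left.right.right.left.right.right RtB20_8.CTp.left RtB20_8.CEr 0x3e5b809829fd175488be87c6a5b4bfe30af6ad53866398af540dab3ddd5159fdd0821068c6c9c026bb1228c38ecaebf69f390168f8af550d6116f198287c711a8383d7af69bf52f4cf1af52738d8bc89f240ddda1444f49fd16c789678c63c1216bb143abc4c284bf69d5846b75baf5215ca81fa7af260d60173b6dad7979fd17ac5bd387c1d89589363af6ab73a51da8af540dd4e1678bc9fd1f4138b987c38f367d7ab9386be1dd9f813662bcbe39bf6a5ace81067af560d637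 = true := by decide +kernel

theorem cB20_8_3_49 : chunkOkM (LB20_8.ctx true true 110 1 1 1 1 1 1 1 1) muQ true true 64 RtB20_8.Cx.left.right.right RtB20_8.CX RtB20_8.Ctp.right.right.right.left.right.right.left RtB20_8.Ce.right.right.left.right.right.left.right RtB20_8.CTp.left RtB20_8.CEr 0x69 = true := by decide +kernel

theorem cB20_8_3_50 : chunkOkM (LB20_8.ctx true true 252 83 32 9 16 478 876 4 16) muQ true true 64 RtB20_8.Cx.left.right RtB20_8.CX RtB20_8.Ctp.right.right.right.left.right.right.right RtB20_8.Ce.right.right.left.right.right.left.right RtB20_8.CTp.left RtB20_8.CEr 0x728c9d2f2baf00b = true := by decide +kernel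

theorem cB20_8_3_51 : chunkOkM (LB20_8.ctx true true 251 83 32 9 16 238 876 4 32) muQ true true 64 RtB20_8.Cx.left.right RtB20_8.CX RtB20_8.Ctp.right.right.right.left.right.right RtB20_8.Ce.right.right.left.right.right.left.right RtB20_8.CTp.right RtB20_8.CEr 0xb82fc194e9fd49fc4e68c7921cecf34af694e056c751af540d6a6 = true := by decide +kernel

theorem cB20_8_3_52 : chunkOkM (LB20_8.ctx true true 110 1 1 1 1 1 1 1 1) muQ true true 64 RtB20_8.Cx.left.left RtB20_8.CX RtB20_8.Ctp.right.right.right.left.right RtB20_8.Ce.right.right.left.right.right.right RtB20_8.CTp RtB20_8.CEr 0x21 = true := by decide +kernel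

theorem cB20_8_3_53 : chunkOkM (LB20_8.ctx true true 343 21247 8192 9 16 15102 28164 4 32) muQ true true 64 RtB20_8.Cx.left.right RtB20_8.CX RtB20_8.Ctp.right.right.right.left.right.left RtB20_8.Ce.right.right.left.right.right.right RtB20_8.CTp RtB20_8.CEr 0x59495949598f517c5339fd48aff0c77c3802bc7fc21bf6b69f2f09e2af5544251d8f3af450d6a692c3194d8fd17e6299c87cba72fc19b9f83e045238001bf6ccf8961b44af5ee8535760baf460d54747493493493493493595959595975b6cf01f9fd2fa376677c26b7f580afad6df6a48b2f4c40dbf540d6a6a2554a1a8fd198ee06a87cc183bf0bc9f8a36f71cce18bf613083686a25bf550d55975975935974593597459359744935974493217474934 = true := by decide +kernel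

end Vale.Agent.helper4.Q4
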