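import Vale.Agent.helper4.Q4TreeM
import Vale.Agent.helper4.Q4G.PB20_8

/-!
Checks for pairs of intervals of second moments.
-/

set_option maxRecDepth 100000
set_option linter.unusedVariables false

namespace Vale.Agent.helper4.Q4

theorem cB20_8_3_54 : chunkOkM (LB20_8.ctx true true 301 5311 2048 9 16 950 3540 4 32) muQ true true 64 RtB20_8.Cx.left.right.left RtB20_8.CX RtB20_8.Ctp.right.right.right.left.right.right RtB20_8.Ce.right.right.left.right.right.right.left RtB20_8.CTp.left RtB20_8.CEr 0x55bb09278fd1b533ef487cc50977eeb9f8303ef1ffdfdbf6210592e4fdebf250d1140170170170170172111b92ba887c331fc6b5c1af6b2f4e8dd61af530d60f5fd238fdc83b0a577c146d9717ab83dce4dc44ebf6919bddc2c0af550d62174593217ff8f941d8fd12291a1b87c9668b7db88af6a2350f8c05af540dcdf1db2669fd1dc5c0d78c6f70c06bbe29f0492b9f8e1024d1495af6b60aaf5f9daf560d629d7b980e9fd11fb488587c9852e52f1daf696ef3f2e00af540df8ea112d59fd23b8000687c3841c837aba5dfd7fae9f8e376f54be5af6b9c1323cc1af560d6321743 = true := by decide +kernel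

theorem cB20_8_3_55 : chunkOkM (LB20_8.ctx true true 264 167 64 9 16 474 1764 4 32) muQ true true 64 RtB20_8.Cx.left.right.right RtB20_8.CX RtB20_8.Ctp.right.right.right.left.right.right.left RtB20_8.Ce.right.right.left.right.right.right.left.left RtB20_8.CTp.left RtB20_8.CEr 0x15a5e13c87cc6f7d3717daf6b72d165f64af5173137ed25af440d820ed84e39fd12b4d2e78c4b409a6bb50e89fccf9f810865e84226bf6bd9e316262af560d6 = true := by decide +kernel

theorem cB20_8_3_56 : chunkOkM (LB20_8.ctx true true 274 333 128 9 16 950 1772 4 32) muQ true true 64 RtB20_8.Cx.left.right.right.left RtB20_8.CX RtB20_8.Ctp.right.right.right.left.right.right.left RtB20_8.Ce.right.right.left.right.right.right.left.right RtB20_8.CTp.left RtB20_8.CEr 0x1f26393e19fd12cf8ddd87c11d02747ab5bf6bae4e7954caf540dc6a5032c09fd2167b2078c565b306bb1078439ae5af8f31dbc6bb1af6bef9ed6ab9af560d6141a9efe87cb8c76fa614af6aa6c01c191af5429140fa8baf440da21e74d3d9fd10365ec187c68d19e37ab596624fc8f81f83c134f2dbf6d40f8a5704af5449eec2266af470d63 = true :=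 by decide +kernel

theorem cB20_8_3_57 : chunkOkM (LB20_8.ctx true true 282 335 128 9 16 3790 1772 4 32) muQ true true 64 RtB20_8.Cx.left.right.right.right RtB20_8.CX RtB20_8.Ctp.right.right.right.left.right.right.left RtB20_8.Ce.right.right.left.right.right.right.left.right RtB20_8.CTp.left RtB20_8.CEr 0x1bc6fe4087c11509d585c9bf6e0b87fe6dbaf53d8df0df8faf440defc9ef32e9fd235566c78c3800f26bbb9373faa39f81354de1eec4bf6ad6c4b134baf560d6147f371d87c227b5eb70baf6a8c10dfa1aaf53eecee8decaf440d477fad1ae9fd9a6c7e68c37a0996bb17f8051a454bf69bc3314bb5af511ae1772a21bf460d64934933 = true := by decide +kernel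

theorem cB20_8_3_58 : chunkOkM (LB20_8.ctx true true 264 167 64 9 16 478 1772 4 32) muQ true true 64 RtB20_8.Cx.left.right.right RtB20_8.CX RtB20_8.Ctp.right.right.right.left.right.right.right RtB20_8.Ce.right.right.left.right.right.right.left RtB20_8.CTp.left RtB20_8.CEr 0x5595a84e69fd1810eb6687c80e667d693af69c1b902d6baf540d138f8e1a69afd277a4d478c4ab6fa6bb85bb635889f8150e4687738bf68bb043b871af534f12eff6daf270d6114 = true := by decide +kernel

theorem cB20_8_3_59 : chunkOkM (LB20_8.ctx true true 268 167 64 9 16 950 1772 4 32) muQ true true 64 RtB20_8.Cx.left.right RtB20_8.CX RtB20_8.Ctp.right.right.right.left.right.right RtB20_8.Ce.right.right.left.right.right.right.left RtB20_8.CTp.right RtB20_8.CEr 0xc77e2b13a9fd93874568c6e3ef770f1af69ea8c37551af540daa6ed49149fd56790968caddcabe315af6ae65cc1da3af540daef97e1319fd68954168cc4ea776f58af6bce016060caf58580f58c62af450d3a8bb7be499fd36866a68c8f694de9d1af6ac54cd85edaf5c362f21e39f450d4b779f71db9fd7411c068cd03d8999cdaf6b7ad6ff89daf540d736a6 = true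 := by decide +kernel

theorem cB20_8_3_60 : chunkOkM (LB20_8.ctx true true 110 1 1 1 1 1 1 1 1) muQ true true 64 RtB20_8.Cx.left.right.left RtB20_8.CX RtB20_8.Ctp.right.right.right.left.right.right RtB20_8.Ce.right.right.left.right.right.right.right RtB20_8.CTp RtB20_8.CEr 0x21 = true := by decide +kernel

theorem cB20_8_3_61 : chunkOkM (LB20_8.ctx true true 270 335 128 9 16 478 1788 4 32) muQ true true 64 RtB20_8.Cx.left.right.right RtB20_8.CX RtB20_8.Ctp.right.right.right.left.right.right RtB20_8.Ce.right.right.left.right.right.right.right RtB20_8.CTp.left RtB20_8.CEr 0x14853a84cdafd2978adf087c137e858b99f6bf4c44073aaf540de12bb07679fd248417778c370e096bbd69462ba69f81a7f22105fcbf6b43caab98aaf560d621711e6321a87c6c04e57f3daf69e7d938734af530d7431c9db69fd115f83d78c5fbdfa6bb3fea2e6bc9f8b372f79c67af6b4398eb929af518035c9686af270d64bce72e608fd1cbe1ee78cd279510e59f86fa1c6152aaf61117b0aad3dbf550d3a1df8336cafd46ec357487cb64d897b55af6b571a9009baf540d65517a1f59fdcb54cb68c56b8176bb159b4e8a824bf6e2927c5eb2af534b2e8018f460d643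 = true := by decide +kernel

theorem cB20_8_3_62 : chunkOkM (LB20_8.ctx true true 264 167 64 9 16 478 1788 4 32) muQ true true 64 RtB20_8.Cx.left.right.right RtB20_8.CX RtB20_8.Ctp.right.right.right.left.right.right RtB20_8.Ce.right.right.left.right.right.right.right RtB20_8.CTp.right RtB20_8.CEr 0xc2c9f7a839fd580db968cb5c1b089e9af6a198c982aeaf55bbcf3c839f250dc25f2fbca9fdb6b56368c12f9da3a075bf6f05f52e9fcaf540dae965f8e39fd46ac4468c133ae5cdc88bf6c102f70f5eaf5232909b44faf450d436a6 = true := by decide +kernel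

theorem cB20_8_3_63 : chunkOkM (LB20_8.ctx true true 110 1 1 1 1 1 1 1 1) muQ true true 64 RtB20_8.Cx.right RtB20_8.CX RtB20_8.Ctp.right.right.right.left.right.left RtB20_8.Ce.right.right.left.right.right RtB20_8.CTp RtB20_8.CEr 0x49 = true := by decide +kernel

theorem cB20_8_3_64 : chunkOkM (LB20_8.ctx true true 110 1 1 1 1 1 1 1 1) muQ true true 64 RtB20_8.Cx.right RtB20_8.CX RtB20_8.Ctp.right.right.right.left.right.right RtB20_8.Ce.right.right.left.right.right.left RtB20_8.CTp RtB20_8.CEr 0x11 = true := by decide +kernel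

theorem cB20_8_3_65 : chunkOkM (LB20_8.ctx true true 239 43 16 9 16 238 884 2 16) muQ true true 64 RtB20_8.Cx.right RtB20_8.CX RtB20_8.Ctp.right.right.right.left.right.right RtB20_8.Ce.right.right.left.right.right.right.left RtB20_8.CTp RtB20_8.CEr 0x966f7fafd9fdcf54e368c36d99686e9f8f33c9b3f2faccf41013a647ce3ccf150d = true := by decide +kernel

theorem cB20_8_3_66 : chunkOkM (LB20_8.ctx true true 287 673 256 9 16 1902 3572 4 32) muQ true true 64 RtB20_8.Cx.right.left RtB20_8.CX RtB20_8.Ctp.right.right.right.left.right.right.left RtB20_8.Ce.right.right.left.right.right.right.right RtB20_8.CTp RtB20_8.CEr 0xb3e4672299fd6ec4e268ce3e2e04de4af6bf269e8bf0af5bf572ee6afaf450da7e54c42a9fd5438a268c148e63599b8bf6a469d95b1baf53cb249578eaf450d46a6494949591371167987c10f22169ab1bf6a97d5817b2af528ec62fca7af440d7d4a59fba9fd11dc10c887c4af5e327ab412a76739f8bf6bee04382c7af539ae93c699af460d64777122d05cda91d7e809fd19e261c78c55b8a36bb571598b0a9f88f8eb7ed56af6a0acc6adeaaf51b3c326028af470d645493493 = true := by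 decide +kernel

theorem cB20_8_3_67 : chunkOkM (LB20_8.ctx true true 264 169 64 9 16 478 1788 4 32) muQ true true 64 RtB20_8.Cx.right.left RtB20_8.CX RtB20_8.Ctp.right.right.right.left.right.right.right RtB20_8.Ce.right.right.left.right.right.right.right RtB20_8.CTp RtB20_8.CEr 0xc42dc746d9fd46fe7868c77c7397826af69cd745ee0aaf529fe76c927af450d6a66915ad27e78cc168fef481af6ab50cb982aaf51cc68731b9af440dabbc26cab9fd16c011478c55ff936bb53b40be289f8d710af6fd8af6c18d61669eaf560d676945 = true := by decide +kernel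

theorem cB20_8_3_68 : chunkOkM (LB20_8.ctx true true 110 1 1 1 1 1 1 1 1) muQ true true 64 RtB20_8.Cx.right.right RtB20_8.CX RtB20_8.Ctp.right.right.right.left.right.right RtB20_8.Ce.right.right.left.right.right.right.right RtB20_8.CTp RtB20_8.CEr 0x49 = true := by decide +kernel

end Vale.Agent.helper4.Q4
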