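import Vale.Agent.helper4.Q4TreeM
import Vale.Agent.helper4.Q4G.PB20_8

/-!
Checks for pairs of intervals of second moments.
-/

set_option maxRecDepth 100000
set_option linter.unusedVariables false

namespace Vale.Agent.helper4.Q4

theorem cB20_8_3_69 : chunkOkM (LB20_8.ctx true true 215 21 8 9 16 62 108 2 16) muQ true true 64 RtB20_8.Cx RtB20_8.CX RtB20_8.Ctp.right.right.right.right RtB20_8.Ce.right.right.left.right RtB20_8.CTp RtB20_8.CEr 0x2297c0a99cafda78b0e778c383b14ebf4af856bca4166aaf69b381341671bf1234bda6aa500cf060d = true := by decide +kernel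

theorem cB20_8_3_70 : chunkOkM (LB20_8.ctx true true 222 21 8 9 16 114 228 2 16) muQ true true 64 RtB20_8.Cx RtB20_8.CX RtB20_8.Ctp.right.right.right.left.left RtB20_8.Ce.right.right.right.left.left RtB20_8.CTp RtB20_8.CEr 0x55bd13d980af817266cd32dd1cf484890d5a1fbbf230d = true := by decide +kernel

theorem cB20_8_3_71 : chunkOkM (LB20_8.ctx true true 110 1 1 1 1 1 1 1 1) muQ true true 64 RtB20_8.Cx.left RtB20_8.CX RtB20_8.Ctp.right.right.right.left.right RtB20_8.Ce.right.right.right.left.left RtB20_8.CTp RtB20_8.CEr 0x21 = true := by decide +kernel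

theorem cB20_8_3_72 : chunkOkM (LB20_8.ctx true true 110 1 1 1 1 1 1 1 1) muQ true true 64 RtB20_8.Cx.right RtB20_8.CX RtB20_8.Ctp.right.right.right.left.right.left RtB20_8.Ce.right.right.right.left.left RtB20_8.CTp RtB20_8.CEr 0x49 = true := by decide +kernel

theorem cB20_8_3_73 : chunkOkM (LB20_8.ctx true true 249 85 32 9 16 474 900 2 16) muQ true true 64 RtB20_8.Cx.right.left RtB20_8.CX RtB20_8.Ctp.right.right.right.left.right.right.left RtB20_8.Ce.right.right.right.left.left.left.left RtB20_8.CTp RtB20_8.CEr 0x2fcbffad69fde3965e3d49f8d90bb6d4298bf54e6be6d86eb4cf440d = true := by decide +kernel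

theorem cB20_8_3_74 : chunkOkM (LB20_8.ctx true true 268 171 64 9 16 958 1804 4 32) muQ true true 64 RtB20_8.Cx.right.left RtB20_8.CX RtB20_8.Ctp.right.right.right.left.right.right.right RtB20_8.Ce.right.right.right.left.left.left.left RtB20_8.CTp.left RtB20_8.CEr 0x12fae025b9fd170d43878c964ccec8baaf6b1109852bdaf545b34fffdfaf450d1855a58069fd4bcf2468c60005e6bb4b23914c8f817b113cc0eebf6c7da796c64af560d669449321006ff3f2afd2cfc476e87c3917f80542af6c30773b1bcaf535277965dfaf450dc0141cdf59fd1b7162478c501aa26bb7be029c439f815f454e3119bf6d850bbd9dcaf560d6fc219d4cb9fd1d549b5887ca3f27c599aaf6bf5e5aaf86af51c4b60e430af450dcc8deac0b9fd1b2bd1678c43fb606bb850e95ad99f811ea475cf37bf6b8aee8aaf0af560d647 = true := by decide +kernel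

theorem cB20_8_3_75 : chunkOkM (LB20_8.ctx true true 268 171 64 9 16 958 1804 4 32) muQ true true 64 RtB20_8.Cx.right.left RtB20_8.CX RtB20_8.Ctp.right.right.right.left.right.right.right RtB20_8.Ce.right.right.right.left.left.left.left RtB20_8.CTp.right RtB20_8.CEr 0xcb6f804309fd88f11968c103cfe5eaf4bf6a99157858aaf5c062d7aaccaf450dc08dfd4a59fd66404068c1375cfb2ccdbf6c51b754d15af5217debb82daf450dccc0eb3349fd6bf48a68c866ec92701af6a7ece5cfd8af540dc213f192f9fd544bde68cb3ca483270af6b7ab53050caf52731dbe17aaf450d3476a6 = true := by decide +kernel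

theorem cB20_8_3_76 : chunkOkM (LB20_8.ctx true true 288 679 256 9 16 1918 3620 4 32) muQ true true 64 RtB20_8.Cx.right.left RtB20_8.CX RtB20_8.Ctp.right.right.right.left.right.right RtB20_8.Ce.right.right.right.left.left.left.right RtB20_8.CTp RtB20_8.CEr 0xc628c398b9fd79070f68cd4ab5d0dc0af6c2b4367bbaaf5b2ed3ba499af450dcce2b62519fdb8808568c1227248ce63bf6f9eb4c6283af540d76a64959169b6e6187c93dff43c64af6b2aa3837e2af52db7b65db8af440d302f95d3f9fd6f642468c63da6c6bb15e18548e2dbf6d48826874baf55789f3478daf460d647493215986635c048fd1cdfecba87cd00f281469f8aed5b2d5d07bf6eca1f07fe7af550d59321745932174753205dc4ac9afd19dde7b78c3faa76c9befccf4f75c65c4ddbbf240d3 = true := by decide +kernel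

theorem cB20_8_3_77 : chunkOkM (LB20_8.ctx true true 110 1 1 1 1 1 1 1 1) muQ true true 64 RtB20_8.Cx.right.left RtB20_8.CX RtB20_8.Ctp.right.right.right.left.right.right RtB20_8.Ce.right.right.right.left.left.right RtB20_8.CTp RtB20_8.CEr 0x59 = true := by decide +kernel

theorem cB20_8_3_78 : chunkOkM (LB20_8.ctx true true 110 1 1 1 1 1 1 1 1) muQ true true 64 RtB20_8.Cx.right.right RtB20_8.CX RtB20_8.Ctp.right.right.right.left.right.right RtB20_8.Ce.right.right.right.left.left RtB20_8.CTp RtB20_8.CEr 0x49 = true := by decide +kernel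

theorem cB20_8_3_79 : chunkOkM (LB20_8.ctx true true 110 1 1 1 1 1 1 1 1) muQ true true 64 RtB20_8.Cx RtB20_8.CX RtB20_8.Ctp.right.right.right.left RtB20_8.Ce.right.right.right.left.right RtB20_8.CTp RtB20_8.CEr 0x59 = true := by decide +kernel

theorem cB20_8_3_80 : chunkOkM (LB20_8.ctx true true 110 1 1 1 1 1 1 1 1) muQ true true 64 RtB20_8.Cx.left RtB20_8.CX RtB20_8.Ctp.right.right.right.right RtB20_8.Ce.right.right.right.left RtB20_8.CTp RtB20_8.CEr 0x01 = true := by decide +kernel

theorem cB20_8_3_81 : chunkOkM (LB20_8.ctx true true 268 169 64 9 16 962 1804 4 32) muQ true true 64 RtB20_8.Cx.right.left RtB20_8.CX RtB20_8.Ctp.right.right.right.right.left.left RtB20_8.Ce.right.right.right.left.left.left.left RtB20_8.CTp RtB20_8.CEr 0xd2ce43d339fd788d6a68c5c715d919eaf698ebf00b01af5183f5ca15daf250d6a6116901150c0baf87c510831d28faf6a916a5abe7af530dcba759cef9fd2466b2678c47f30d6bba8248e82a9f8ea860d0302af6c47d88e0daaf560d6347588ddd9fd187e0e5187c121b09510aebf230d6ea8ae68c565fc96bb4c9972522c7bf6140805c2eaaf112bbc3c49cdbf050d643735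 = true := by decide +kernel

theorem cB20_8_3_82 : chunkOkM (LB20_8.ctx true true 274 339 128 9 16 962 1820 4 32) muQ true true 64 RtB20_8.Cx.right.left RtB20_8.CX RtB20_8.Ctp.right.right.right.right.left.left RtB20_8.Ce.right.right.right.left.left.left.right RtB20_8.CTp.left RtB20_8.CEr 0xd5144a8ad3af00b19f0185c87cc55a5ce6e8af6bc576eefceaf5b02f52fdc9f440df3a526e1d9fd1e82b6a78c55c9486bb63285b6e69f8107197b079bbf6c4a35c9627af560d619d257d78c7c1c455c65af6b319d5d902af530d84cfb2ec99fde72d8268c5726d46bb12260f2eccabf6b38da6b677af550d6432101011344c47c87c7d78df7520af6ac91628e45af530df4cb1e4389fd26114d078c445aabf7abb866735959f81f525504491bf6be72bcb2e0af560d63321747 = true := by decide +kernel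

theorem cB20_8_3_83 : chunkOkM (LB20_8.ctx true true 264 171 64 9 16 486 1820 4 32) muQ true true 64 RtB20_8.Cx.right.left RtB20_8.CX RtB20_8.Ctp.right.right.right.right.left.left RtB20_8.Ce.right.right.right.left.left.left.right RtB20_8.CTp.right RtB20_8.CEr 0x155931f8b4fbf00bca9e9c2f79fd616d4768cf6d2105080af6b46cfc2221af5167bee1dccaf450dc96a5ea0a9fd6a410168c8b0c3ac82daf6afcff890faaf5bd2e5eecf9f450d4d4ca3cb869fd95bd6368caee3566983af6c061dbe5bbaf5926de2e5e9f250d736a6 = true := by decide +kernel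

theorem cB20_8_3_84 : chunkOkM (LB20_8.ctx true true 243 87 32 9 16 242 452 2 16) muQ true true 64 RtB20_8.Cx.right.right RtB20_8.CX RtB20_8.Ctp.right.right.right.right.left.left RtB20_8.Ce.right.right.right.left.left.left RtB20_8.CTp RtB20_8.CEr 0x102d757313afd6ec84a178c3bb86f8c20af8169ddfe990e67df417b191eece9ccf150d = true := by decide +kernel

theorem cB20_8_3_85 : chunkOkM (LB20_8.ctx true true 110 1 1 1 1 1 1 1 1) muQ true true 64 RtB20_8.Cx.right RtB20_8.CX RtB20_8.Ctp.right.right.right.right.left.right RtB20_8.Ce.right.right.right.left.left.left RtB20_8.CTp RtB20_8.CEr 0x11 = true := by decide +kernel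

theorem cB20_8_3_86 : chunkOkM (LB20_8.ctx true true 110 1 1 1 1 1 1 1 1) muQ true true 64 RtB20_8.Cx.right.left.left RtB20_8.CX RtB20_8.Ctp.right.right.right.right.left RtB20_8.Ce.right.right.right.left.left.right.left RtB20_8.CTp RtB20_8.CEr 0x21 = true := by decide +kernel

theorem cB20_8_3_87 : chunkOkM (LB20_8.ctx true true 301 1375 512 9 16 3870 7332 4 32) muQ true true 64 RtB20_8.Cx.right.left.right RtB20_8.CX RtB20_8.Ctp.right.right.right.right.left.left RtB20_8.Ce.right.right.right.left.left.right.left RtB20_8.CTp.left RtB20_8.CEr 0x21a7b03d718fd166a7ab987c1a70af0245af6b2c1bc087caf59736677a39f250dd13a414529fd15f4df778c7939a56bb3065c529bddbf691392154f5af537996b2276af260d64132d05c75ce934979fdf432e168c74fac86bb25faf8c4fdfbf6c664611ac5af5405c7189ecaf260d6401701721596b0ab5708fd20159d6187ce1f66f09c9f866449cd2ce6bf6d4e18de69daf550d5932174593217459321715df801987c867f3d4021af6ba709d41bcaf5e590f7a759f440dd978a52709fd2016c7b78c57f16a6bb9c8582c929f8194c41efcfdbf6d26c2d6f4baf560d643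 = true := by decide +kernel

end Vale.Agent.helper4.Q4
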