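import Vale.Agent.helper4.Q4TreeM
import Vale.Agent.helper4.Q4G.PB20_8

/-!
Checks for pairs of intervals of second moments.
-/

set_option maxRecDepth 100000
set_option linter.unusedVariables false

namespace Vale.Agent.helper4.Q4

theorem cB20_8_3_88 : chunkOkM (LB20_8.ctx true true 265 171 64 9 16 486 1836 4 32) muQ true true 64 RtB20_8.Cx.right.left.right RtB20_8.CX RtB20_8.Ctp.right.right.right.right.left.left RtB20_8.Ce.right.right.right.left.left.right.left RtB20_8.CTp.right RtB20_8.CEr 0xf159ecff09fd92663068c8ae7475570af6a41a718b5eaf5fa7e38e2d9f250dd512c102b9fd6db8ee68c6a6710968fbbf6a265cbf541af540dcbeccf6889fd7076cb68c14bbf6b6353bf6c710415ddaaf51127beee0caf450d436a6 = true := by decide +kernel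

theorem cB20_8_3_89 : chunkOkM (LB20_8.ctx true true 110 1 1 1 1 1 1 1 1) muQ true true 64 RtB20_8.Cx.right.left.right RtB20_8.CX RtB20_8.Ctp.right.right.right.right.left.right RtB20_8.Ce.right.right.right.left.left.right.left RtB20_8.CTp RtB20_8.CEr 0x01 = true := by decide +kernel

theorem cB20_8_3_90 : chunkOkM (LB20_8.ctx true true 110 1 1 1 1 1 1 1 1) muQ true true 64 RtB20_8.Cx.right.left RtB20_8.CX RtB20_8.Ctp.right.right.right.right.left RtB20_8.Ce.right.right.right.left.left.right.right RtB20_8.CTp RtB20_8.CEr 0x21 = true := by decide +kernel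

theorem cB20_8_3_91 : chunkOkM (LB20_8.ctx true true 268 173 64 9 16 966 1836 4 32) muQ true true 64 RtB20_8.Cx.right.right RtB20_8.CX RtB20_8.Ctp.right.right.right.right.left.left RtB20_8.Ce.right.right.right.left.left.right.left RtB20_8.CTp.left RtB20_8.CEr 0x111868d1078c70e0bf7be6af6aef21a5fd0af530d125f880b43afd2a8d39d78c56fd596bbf7a6713319f8c5585ad304af6b3f946465eaf560d67114491747afd687c39a0c89016af6b6556e22edaf5439dd74302af440d10cfe764b3afd235bc9a78c5cdee06bb868077c969f8fe092d363baf6c4f7fb4939af576a335731caf470d65b86ee67fd170162a78c843f964c0baf6b330e53c15af549e4a7ffadaf450dbebdb5baf9fd1999eff78c64119a6bb97b5ab2529f87d57c8b6bfaf6b203508664af5119dfe232caf470d6474933 = true := by decide +kernel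

theorem cB20_8_3_92 : chunkOkM (LB20_8.ctx true true 268 173 64 9 16 966 1836 4 32) muQ true true 64 RtB20_8.Cx.right.right RtB20_8.CX RtB20_8.Ctp.right.right.right.right.left.left RtB20_8.Ce.right.right.right.left.left.right.left RtB20_8.CTp.right RtB20_8.CEr 0xe1ed8a4b09fd78fae768c475f20b325af6a7aafe5c46af540d49d0f8bdf0a9fd5fbe8d68cfd5c0e0502af6b7223ea18daf5451efc6f17af450d7c8fddbadf9fd5819d168c945a9e8008af6a40a0b1257af53602e0d8cfaf450d449336a6 = true := by decide +kernel

theorem cB20_8_3_93 : chunkOkM (LB20_8.ctx true true 268 173 64 9 16 966 1844 4 32) muQ true true 64 RtB20_8.Cx.right.right RtB20_8.CX RtB20_8.Ctp.right.right.right.right.left.left.left RtB20_8.Ce.right.right.right.left.left.right.right RtB20_8.CTp.left RtB20_8.CEr 0x49591c662f7787cb4c9bae162af6ce12977a52af5536e6a36c1af440d92ba62f619fd1766f4278c7e84496bb82bf5f7909f819e60765aebbf61010db2c461bf5a5b2dafbe0af470d647493 = true := by decide +kernel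

theorem cB20_8_3_94 : chunkOkM (LB20_8.ctx true true 276 347 128 9 16 486 1852 4 32) muQ true true 64 RtB20_8.Cx.right.right RtB20_8.CX RtB20_8.Ctp.right.right.right.right.left.left.right RtB20_8.Ce.right.right.right.left.left.right.right RtB20_8.CTp.left RtB20_8.CEr 0x197f7b878ca335ee8d05af6c33f7eda26af53eda9fd089af440ddb49a33409fd203afee78c5344136bb92fceb77e9f81c91557776dbf6b915eaf6dfaf54ea274a184af470d61a2f46f78c21f10bb1fcd5fdf6c9f4467c2b0acf430d413e29c9887c71aea97699af6c7397b151faf51fd05a0a20af440dda6e008b69fd1ffda5078c5ae8d06bb91e3538b09f81f1af815795bf6c77d73aaadaf560d621719399f8ae9fd165cad2a87c87eab1f047af6aaa570a65eaf5162d88bf64af450d10a48af7e8afd25949f978c5c04636bbb47107a369f812b867e7672bf6c315ce45c9af560d647 = true := by decide +kernel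

theorem cB20_8_3_95 : chunkOkM (LB20_8.ctx true true 268 175 64 9 16 974 1852 4 32) muQ true true 64 RtB20_8.Cx.right.right RtB20_8.CX RtB20_8.Ctp.right.right.right.right.left.left RtB20_8.Ce.right.right.right.left.left.right.right RtB20_8.CTp.right RtB20_8.CEr 0xd2c6113c69fd6a548b68c37b3f967d7af6aa56c3b7dfaf51ac163bec5af450dc6b632b299fd762e7c68c19ffd4f5d0dbf6bbdf59dfa4af5988672ed50af450d33dbdfdfca48bf04b4d94b7817f9fd77e9b568c14076335903bf6c819fd7449af540de11bb61269fd80088c68ce32228a93faf6b41a2b0bb5af516f3732959af450d47e5bc80e7d9fd7dcd8d68c3be5e0f02baf6e49f050fe5af517d5459b397bf450d36a6 = true := by decide +kernel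

theorem cB20_8_3_96 : chunkOkM (LB20_8.ctx true true 241 87 32 9 16 246 460 2 16) muQ true true 64 RtB20_8.Cx.right.right RtB20_8.CX RtB20_8.Ctp.right.right.right.right.left.right RtB20_8.Ce.right.right.right.left.left.right RtB20_8.CTp RtB20_8.CEr 0xe5cf48e6f9fd98dcb6e599f88241a34df7abf11de06a8a1509cf040d = true := by decide +kernel

theorem cB20_8_3_97 : chunkOkM (LB20_8.ctx true true 110 1 1 1 1 1 1 1 1) muQ true true 64 RtB20_8.Cx.right.left RtB20_8.CX RtB20_8.Ctp.right.right.right.right.left RtB20_8.Ce.right.right.right.left.right.left RtB20_8.CTp RtB20_8.CEr 0x21 = true := by decide +kernel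

theorem cB20_8_3_98 : chunkOkM (LB20_8.ctx true true 269 175 64 9 16 974 1868 4 32) muQ true true 64 RtB20_8.Cx.right.right RtB20_8.CX RtB20_8.Ctp.right.right.right.right.left.left RtB20_8.Ce.right.right.right.left.right.left.left RtB20_8.CTp.left RtB20_8.CEr 0xa9bd4446c9fd2578f13f87cbab2d04811af6c92b76e2c5af540dd277e39d89fd208e98778c63f21f6bb885afe0999f8181484e45e3bf6d3be4e95d6af5767436b7ddaf470d6195b154187c6dbeac03e9af6b2b0e780e2af53122481f76af440de5fac20369fd1d8862178c5810366bb5febb8e829f8f5fd1b90e4af6bdf63b85b8af57362c004b9f470da861654d19fd1b3c33c78c2c7eb9745f6bf6d425a4038f7bf54f4b15eac581cf450d3642171419cb785734cf471ccf6bd6cabf220d3 = true := by decide +kernel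

theorem cB20_8_3_99 : chunkOkM (LB20_8.ctx true true 269 175 64 9 16 974 1868 4 32) muQ true true 64 RtB20_8.Cx.right.right RtB20_8.CX RtB20_8.Ctp.right.right.right.right.left.left RtB20_8.Ce.right.right.right.left.right.left.left RtB20_8.CTp.right RtB20_8.CEr 0xd8e1cc5889fd7bde2768c103cd6ae7babf6ca7a03c09caf59c2621ae00af450de442e82bd9fd6e20c268ce6f53c0835af6b39f5676f9af53a34a7d808af450d109890514dafdc8ad3668cceb4de1a004bf54f3e5cc2b965cf440d34217172dd30931d6cf473d84b03b2fbf220d36a6 = true := by decide +kernel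

theorem cB20_8_3_100 : chunkOkM (LB20_8.ctx true true 110 1 1 1 1 1 1 1 1) muQ true true 64 RtB20_8.Cx.right.right RtB20_8.CX RtB20_8.Ctp.right.right.right.right.left.left RtB20_8.Ce.right.right.right.left.right.left.right RtB20_8.CTp RtB20_8.CEr 0x59 = true := by decide +kernel

theorem cB20_8_3_101 : chunkOkM (LB20_8.ctx true true 110 1 1 1 1 1 1 1 1) muQ true true 64 RtB20_8.Cx.right.right.left RtB20_8.CX RtB20_8.Ctp.right.right.right.right.left.right RtB20_8.Ce.right.right.right.left.right.left RtB20_8.CTp RtB20_8.CEr 0x01 = true := by decide +kernel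

theorem cB20_8_3_102 : chunkOkM (LB20_8.ctx true true 264 175 64 9 16 490 1868 4 32) muQ true true 64 RtB20_8.Cx.right.right.right RtB20_8.CX RtB20_8.Ctp.right.right.right.right.left.right.left RtB20_8.Ce.right.right.right.left.right.left.left RtB20_8.CTp RtB20_8.CEr 0xf905f72159fd8f8b3868c6f6233937eaf6b5918318b7af540d6a61ae0eddb59fd1b06b4c887c55b1c39bffaf6bc7d7e340aaf540dbf7817fda9fd18ec08c78c6d52356bb4957266a09f811243dd51cebf6bea1183f6baf51f9ac394f9af270d611cf4ec85fafd237855478c10a2b7eafd1bf6a6cd49152faf540dec25052299fd1fc9a0978c6580b56bb6d5cfb3dc9f818c3d05fb62bf6a9066c6e39af560d645 = true := by decide +kernel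

theorem cB20_8_3_103 : chunkOkM (LB20_8.ctx true true 271 351 128 9 16 490 1876 4 32) muQ true true 64 RtB20_8.Cx.right.right.right RtB20_8.CX RtB20_8.Ctp.right.right.right.right.left.right.left RtB20_8.Ce.right.right.right.left.right.left.right RtB20_8.CTp RtB20_8.CEr 0x21f4eca4efd9fd792ac268c1d658cb58f8cc97ff40fcaf6be360f14caaf550d6a6362b57a219fd1c7a89a687c1041b0b5f8dbf6c559618f5daf540d8033f41009fd1036b0078c66f9a36bb213cdad2f08bf6cccd2b0468af550d652174 = true := by decide +kernel

theorem cB20_8_3_104 : chunkOkM (LB20_8.ctx true true 110 1 1 1 1 1 1 1 1) muQ true true 64 RtB20_8.Cx.right.right.right RtB20_8.CX RtB20_8.Ctp.right.right.right.right.left.right.right RtB20_8.Ce.right.right.right.left.right.left RtB20_8.CTp RtB20_8.CEr 0x01 = true := by decide +kernel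

theorem cB20_8_3_105 : chunkOkM (LB20_8.ctx true true 110 1 1 1 1 1 1 1 1) muQ true true 64 RtB20_8.Cx.right RtB20_8.CX RtB20_8.Ctp.right.right.right.right.left RtB20_8.Ce.right.right.right.left.right.right RtB20_8.CTp RtB20_8.CEr 0x21 = true := by decide +kernel

theorem cB20_8_3_106 : chunkOkM (LB20_8.ctx true true 110 1 1 1 1 1 1 1 1) muQ true true 64 RtB20_8.Cx.right RtB20_8.CX RtB20_8.Ctp.right.right.right.right.right RtB20_8.Ce.right.right.right.left RtB20_8.CTp RtB20_8.CEr 0x01 = true := by decide +kernel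

theorem cB20_8_3_107 : chunkOkM (LB20_8.ctx true true 110 1 1 1 1 1 1 1 1) muQ true true 64 RtB20_8.Cx RtB20_8.CX RtB20_8.Ctp.right.right.right RtB20_8.Ce.right.right.right.right RtB20_8.CTp RtB20_8.CEr 0x21 = true := by decide +kernel

end Vale.Agent.helper4.Q4
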