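import Vale.Agent.helper4.Q4TreeM
import Vale.Agent.helper4.Q4G.PB20_8

/-!
Checks for pairs of intervals of second moments.
-/

set_option maxRecDepth 100000
set_option linter.unusedVariables false

namespace Vale.Agent.helper4.Q4

theorem cB20_8_2_0 : chunkOkM (LB20_8.ctx false true 110 1 1 1 1 1 1 1 1) muQ false true 64 RtB20_8.Cx RtB20_8.CX RtB20_8.Ctn RtB20_8.Ce RtB20_8.CTp RtB20_8.CEr 0x49 = true := by decide +kernel

theorem cB20_8_1_0 : chunkOkM (LB20_8.ctx true false 110 1 1 1 1 1 1 1 1) muQ true false 64 RtB20_8.Cx RtB20_8.CX RtB20_8.Ctp.left RtB20_8.Ce RtB20_8.CTn RtB20_8.CEr 0x41 = true := by decide +kernel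

theorem cB20_8_1_1 : chunkOkM (LB20_8.ctx true false 110 1 1 1 1 1 1 1 1) muQ true false 64 RtB20_8.Cx RtB20_8.CX RtB20_8.Ctp.right.left RtB20_8.Ce RtB20_8.CTn RtB20_8.CEr.left.left.left.left.left 0x41 = true := by decide +kernel

theorem cB20_8_1_2 : chunkOkM (LB20_8.ctx true false 110 1 1 1 1 1 1 1 1) muQ true false 64 RtB20_8.Cx RtB20_8.CX RtB20_8.Ctp.right.right RtB20_8.Ce.left RtB20_8.CTn RtB20_8.CEr.left.left.left.left.left 0x11 = true := by decide +kernel

theorem cB20_8_1_3 : chunkOkM (LB20_8.ctx true false 110 1 1 1 1 1 1 1 1) muQ true false 64 RtB20_8.Cx RtB20_8.CX RtB20_8.Ctp.right.right.left RtB20_8.Ce.right RtB20_8.CTn RtB20_8.CEr.left.left.left.left.left 0x49 = true := by decide +kernel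

theorem cB20_8_1_4 : chunkOkM (LB20_8.ctx true false 110 1 1 1 1 1 1 1 1) muQ true false 64 RtB20_8.Cx RtB20_8.CX RtB20_8.Ctp.right.right.right RtB20_8.Ce.right.left RtB20_8.CTn RtB20_8.CEr.left.left.left.left.left 0x11 = true := by decide +kernel

theorem cB20_8_1_5 : chunkOkM (LB20_8.ctx true false 335 21 8 513 1024 30 100 16384 65536) muQ true false 64 RtB20_8.Cx RtB20_8.CX.left.left.left.left.left.left RtB20_8.Ctp.right.right.right RtB20_8.Ce.right.right.left.left RtB20_8.CTn.left.left.left.left.left.left.left.left.left.left.left.left RtB20_8.CEr.left.left.left.left.left.left.left.left.left.left.left.left 0x38345c72e7bccf43b8ddb15790bf120d = true := by decide +kernel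

theorem cB20_8_1_6 : chunkOkM (LB20_8.ctx true false 359 41 16 513 1024 238 428 16384 65536) muQ true false 64 RtB20_8.Cx RtB20_8.CX.left.left.left.left.left.left RtB20_8.Ctp.right.right.right.left RtB20_8.Ce.right.right.left.right.left RtB20_8.CTn.left.left.left.left.left.left.left.left.left.left.left.left RtB20_8.CEr.left.left.left.left.left.left.left.left.left.left.left.left 0x115aedd594c5af00b44708c917500cfd1691e97826af6bf2265c7aeaf530d37694166d4bc1b81d5e5c1af6c3cce51864af5dd2038af6daf440d4933 = true := by decide +kernel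

theorem cB20_8_1_7 : chunkOkM (LB20_8.ctx true false 365 83 32 513 1024 238 444 16384 65536) muQ true false 64 RtB20_8.Cx RtB20_8.CX.left.left.left.left.left.left RtB20_8.Ctp.right.right.right.left RtB20_8.Ce.right.right.left.right.right RtB20_8.CTn.left.left.left.left.left.left.left.left.left.left.left.left RtB20_8.CEr.left.left.left.left.left.left.left.left.left.left.left.left 0x169a4bc695d4db635e083ab1af6d449e20088af5a6fa1b21eeaf450d691904dc6debfd27a24bc45b02da1b3af6d2145244a3af5196c3fad50af450df653bc6ceb65db31fbb5edc4af6e666f37d92af578c2e252edaf450d3217a886b91b46af05b3c3fb09de5af6dc37307af2af54da9128729af430d328324bc7a3e9d742aaf6cc06754afdaf522e39d6fbeaf240d7475bf93d65e1af611461e04370bf571b8f28a1babf430d3 = true := by decide +kernel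

theorem cB20_8_1_8 : chunkOkM (LB20_8.ctx true false 339 21 8 513 1024 62 108 16384 65536) muQ true false 64 RtB20_8.Cx RtB20_8.CX.left.left.left.left.left.left RtB20_8.Ctp.right.right.right.right RtB20_8.Ce.right.right.left.right RtB20_8.CTn.left.left.left.left.left.left.left.left.left.left.left.left RtB20_8.CEr.left.left.left.left.left.left.left.left.left.left.left.left 0x112c90770f0bf00b = true := by decide +kernel

theorem cB20_8_1_9 : chunkOkM (LB20_8.ctx true false 366 87 32 513 1024 238 468 16384 65536) muQ true false 64 RtB20_8.Cx RtB20_8.CX.left.left.left.left.left.left RtB20_8.Ctp.right.right.right RtB20_8.Ce.right.right.right RtB20_8.CTn.left.left.left.left.left.left.left.left.left.left.left.left RtB20_8.CEr.left.left.left.left.left.left.left.left.left.left.left.left 0x2101214e6e2d3c4cd1cfd31f84bc75479c4127af6f74d785825af5136f6c9f3eaf450d21741314294d7267cfd35c14bc7340f0691aaf6d9acf15553af5331e2d348eaf450d2d5c87f8ae1fcfd31f84bc186d4db9a71c3a373af6e4d143ac63af59dcfd46729f060d724730457958bcfd42584bc3cab1c630daf6c81141cdd0af56c580056f9f050d44301759169a4bc695d4db443fb23007af6eeb30b4d9eaf5a0f3dce9aaaf450d49321711d8526d58a8cf46187435e45cbf220d3434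 = true := by decide +kernel

theorem cB20_8_1_10 : chunkOkM (LB20_8.ctx true false 110 1 1 1 1 1 1 1 1) muQ true false 64 RtB20_8.Cx RtB20_8.CX.left.left.left.left.left.right RtB20_8.Ctp.right.right.right RtB20_8.Ce.right.right RtB20_8.CTn.left.left.left.left.left.left.left.left.left.left.left.left RtB20_8.CEr.left.left.left.left.left.left.left.left.left.left.left.left 0x42 = true := by decide +kernel

theorem cB20_8_1_11 : chunkOkM (LB20_8.ctx true false 110 1 1 1 1 1 1 1 1) muQ true false 64 RtB20_8.Cx RtB20_8.CX.left.left.left.left.right RtB20_8.Ctp.right.right.right RtB20_8.Ce.right.right RtB20_8.CTn.left.left.left.left.left.left.left.left.left.left.left.left RtB20_8.CEr.left.left.left.left.left.left.left.left.left.left.left.left 0x42 = true := by decide +kernel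

theorem cB20_8_1_12 : chunkOkM (LB20_8.ctx true false 110 1 1 1 1 1 1 1 1) muQ true false 64 RtB20_8.Cx RtB20_8.CX.left.left.left.left RtB20_8.Ctp.right.right.right RtB20_8.Ce.right.right RtB20_8.CTn.left.left.left.left.left.left.left.left.left.left.left.left RtB20_8.CEr.left.left.left.left.left.left.left.left.left.left.left.right 0x5a = true := by decide +kernel

theorem cB20_8_1_13 : chunkOkM (LB20_8.ctx true false 110 1 1 1 1 1 1 1 1) muQ true false 64 RtB20_8.Cx RtB20_8.CX.left.left.left.left RtB20_8.Ctp.right.right.right RtB20_8.Ce.right.right RtB20_8.CTn.left.left.left.left.left.left.left.left.left.left.left.right RtB20_8.CEr.left.left.left.left.left.left.left.left.left.left.left 0x5a = true := by decide +kernel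

theorem cB20_8_1_14 : chunkOkM (LB20_8.ctx true false 110 1 1 1 1 1 1 1 1) muQ true false 64 RtB20_8.Cx RtB20_8.CX.left.left.left.left RtB20_8.Ctp.right.right.right RtB20_8.Ce.right.right RtB20_8.CTn.left.left.left.left.left.left.left.left.left.left.right RtB20_8.CEr.left.left.left.left.left.left.left.left.left.left.left 0x5a = true := by decide +kernel

theorem cB20_8_1_15 : chunkOkM (LB20_8.ctx true false 110 1 1 1 1 1 1 1 1) muQ true false 64 RtB20_8.Cx RtB20_8.CX.left.left.left.right RtB20_8.Ctp.right.right.right RtB20_8.Ce.right.right RtB20_8.CTn.left.left.left.left.left.left.left.left.left.left RtB20_8.CEr.left.left.left.left.left.left.left.left.left.left.left 0x42 = true := by decide +kernel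

theorem cB20_8_1_16 : chunkOkM (LB20_8.ctx true false 110 1 1 1 1 1 1 1 1) muQ true false 64 RtB20_8.Cx RtB20_8.CX.left.left.left RtB20_8.Ctp.right.right.right RtB20_8.Ce.right.right RtB20_8.CTn.left.left.left.left.left.left.left.left.left.left RtB20_8.CEr.left.left.left.left.left.left.left.left.left.left.right 0x5a = true := by decide +kernel

theorem cB20_8_1_17 : chunkOkM (LB20_8.ctx true false 110 1 1 1 1 1 1 1 1) muQ true false 64 RtB20_8.Cx RtB20_8.CX.left.left.left RtB20_8.Ctp.right.right.right RtB20_8.Ce.right.right RtB20_8.CTn.left.left.left.left.left.left.left.left.left.left RtB20_8.CEr.left.left.left.left.left.left.left.left.left.right 0x5a = true := by decide +kernel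

theorem cB20_8_1_18 : chunkOkM (LB20_8.ctx true false 110 1 1 1 1 1 1 1 1) muQ true false 64 RtB20_8.Cx RtB20_8.CX.left.left.left RtB20_8.Ctp.right.right.right RtB20_8.Ce.right.right RtB20_8.CTn.left.left.left.left.left.left.left.left.left.right RtB20_8.CEr.left.left.left.left.left.left.left.left.left 0x5a = true := by decide +kernel

theorem cB20_8_1_19 : chunkOkM (LB20_8.ctx true false 110 1 1 1 1 1 1 1 1) muQ true false 64 RtB20_8.Cx RtB20_8.CX.left.left.left RtB20_8.Ctp.right.right.right RtB20_8.Ce.right.right RtB20_8.CTn.left.left.left.left.left.left.left.left.right RtB20_8.CEr.left.left.left.left.left.left.left.left.left 0x5a = true := by decide +kernel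

theorem cB20_8_1_20 : chunkOkM (LB20_8.ctx true false 110 1 1 1 1 1 1 1 1) muQ true false 64 RtB20_8.Cx RtB20_8.CX.left.left.right RtB20_8.Ctp.right.right.right RtB20_8.Ce.right.right RtB20_8.CTn.left.left.left.left.left.left.left.left RtB20_8.CEr.left.left.left.left.left.left.left.left.left 0x42 = true := by decide +kernel

theorem cB20_8_1_21 : chunkOkM (LB20_8.ctx true false 110 1 1 1 1 1 1 1 1) muQ true false 64 RtB20_8.Cx RtB20_8.CX.left.left RtB20_8.Ctp.right.right.right RtB20_8.Ce.right.right RtB20_8.CTn.left.left.left.left.left.left.left.left RtB20_8.CEr.left.left.left.left.left.left.left.left.right 0x5a = true := by decide +kernel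

theorem cB20_8_1_22 : chunkOkM (LB20_8.ctx true false 110 1 1 1 1 1 1 1 1) muQ true false 64 RtB20_8.Cx RtB20_8.CX.left.left RtB20_8.Ctp.right.right.right RtB20_8.Ce.right.right RtB20_8.CTn.left.left.left.left.left.left.left.left RtB20_8.CEr.left.left.left.left.left.left.left.right 0x5a = true := by decide +kernel

theorem cB20_8_1_23 : chunkOkM (LB20_8.ctx true false 110 1 1 1 1 1 1 1 1) muQ true false 64 RtB20_8.Cx RtB20_8.CX.left.left RtB20_8.Ctp.right.right.right RtB20_8.Ce.right.right RtB20_8.CTn.left.left.left.left.left.left.left.right RtB20_8.CEr.left.left.left.left.left.left.left 0x5a = true := by decide +kernel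

theorem cB20_8_1_24 : chunkOkM (LB20_8.ctx true false 110 1 1 1 1 1 1 1 1) muQ true false 64 RtB20_8.Cx RtB20_8.CX.left.left RtB20_8.Ctp.right.right.right RtB20_8.Ce.right.right RtB20_8.CTn.left.left.left.left.left.left.right RtB20_8.CEr.left.left.left.left.left.left.left 0x5a = true := by decide +kernel

theorem cB20_8_1_25 : chunkOkM (LB20_8.ctx true false 110 1 1 1 1 1 1 1 1) muQ true false 64 RtB20_8.Cx RtB20_8.CX.left.right RtB20_8.Ctp.right.right.right RtB20_8.Ce.right.right RtB20_8.CTn.left.left.left.left.left.left RtB20_8.CEr.left.left.left.left.left.left.left 0x42 = true := by decide +kernel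

theorem cB20_8_1_26 : chunkOkM (LB20_8.ctx true false 110 1 1 1 1 1 1 1 1) muQ true false 64 RtB20_8.Cx RtB20_8.CX.left RtB20_8.Ctp.right.right.right RtB20_8.Ce.right.right RtB20_8.CTn.left.left.left.left.left.left RtB20_8.CEr.left.left.left.left.left.left.right 0x5a = true := by decide +kernel

theorem cB20_8_1_27 : chunkOkM (LB20_8.ctx true false 110 1 1 1 1 1 1 1 1) muQ true false 64 RtB20_8.Cx RtB20_8.CX.left RtB20_8.Ctp.right.right.right RtB20_8.Ce.right.right RtB20_8.CTn.left.left.left.left.left.left RtB20_8.CEr.left.left.left.left.left.right 0x5a = true := by decide +kernel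

theorem cB20_8_1_28 : chunkOkM (LB20_8.ctx true false 110 1 1 1 1 1 1 1 1) muQ true false 64 RtB20_8.Cx RtB20_8.CX.right RtB20_8.Ctp.right.right.right RtB20_8.Ce.right.right RtB20_8.CTn.left.left.left.left.left.left RtB20_8.CEr.left.left.left.left.left 0x42 = true := by decide +kernel

theorem cB20_8_1_29 : chunkOkM (LB20_8.ctx true false 110 1 1 1 1 1 1 1 1) muQ true false 64 RtB20_8.Cx RtB20_8.CX RtB20_8.Ctp.right.right.right RtB20_8.Ce.right.right RtB20_8.CTn.left.left.left.left.left.right RtB20_8.CEr.left.left.left.left.left 0x42 = true := by decide +kernel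

theorem cB20_8_1_30 : chunkOkM (LB20_8.ctx true false 110 1 1 1 1 1 1 1 1) muQ true false 64 RtB20_8.Cx RtB20_8.CX RtB20_8.Ctp.right.right.right RtB20_8.Ce.right.right RtB20_8.CTn.left.left.left.left.right RtB20_8.CEr.left.left.left.left.left 0x42 = true := by decide +kernel

theorem cB20_8_1_31 : chunkOkM (LB20_8.ctx true false 110 1 1 1 1 1 1 1 1) muQ true false 64 RtB20_8.Cx RtB20_8.CX RtB20_8.Ctp.right.right.right RtB20_8.Ce.right.right RtB20_8.CTn.left.left.left.right RtB20_8.CEr.left.left.left.left.left 0x42 = true := by decide +kernel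

theorem cB20_8_1_32 : chunkOkM (LB20_8.ctx true false 110 1 1 1 1 1 1 1 1) muQ true false 64 RtB20_8.Cx RtB20_8.CX RtB20_8.Ctp.right.right.right RtB20_8.Ce.right.right RtB20_8.CTn.left.left.right RtB20_8.CEr.left.left.left.left.left 0x12 = true := by decide +kernel

theorem cB20_8_1_33 : chunkOkM (LB20_8.ctx true false 110 1 1 1 1 1 1 1 1) muQ true false 64 RtB20_8.Cx RtB20_8.CX RtB20_8.Ctp.right.right.right RtB20_8.Ce.right.right RtB20_8.CTn.left.right RtB20_8.CEr.left.left.left.left.left 0x12 = true := by decide +kernel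

theorem cB20_8_1_34 : chunkOkM (LB20_8.ctx true false 110 1 1 1 1 1 1 1 1) muQ true false 64 RtB20_8.Cx RtB20_8.CX RtB20_8.Ctp.right.right.right RtB20_8.Ce.right.right RtB20_8.CTn.right RtB20_8.CEr.left.left.left.left.left 0x12 = true := by decide +kernel

theorem cB20_8_1_35 : chunkOkM (LB20_8.ctx true false 110 1 1 1 1 1 1 1 1) muQ true false 64 RtB20_8.Cx RtB20_8.CX RtB20_8.Ctp.right RtB20_8.Ce RtB20_8.CTn RtB20_8.CEr.left.left.left.left.right 0x5a = true := by decide +kernel

theorem cB20_8_1_36 : chunkOkM (LB20_8.ctx true false 110 1 1 1 1 1 1 1 1) muQ true false 64 RtB20_8.Cx RtB20_8.CX RtB20_8.Ctp.right RtB20_8.Ce RtB20_8.CTn RtB20_8.CEr.left.left.left.right 0x5a = true := by decide +kernel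

theorem cB20_8_1_37 : chunkOkM (LB20_8.ctx true false 110 1 1 1 1 1 1 1 1) muQ true false 64 RtB20_8.Cx RtB20_8.CX RtB20_8.Ctp.right RtB20_8.Ce RtB20_8.CTn RtB20_8.CEr.left.left.right 0x5a = true := by decide +kernel

theorem cB20_8_1_38 : chunkOkM (LB20_8.ctx true false 110 1 1 1 1 1 1 1 1) muQ true false 64 RtB20_8.Cx RtB20_8.CX RtB20_8.Ctp.right RtB20_8.Ce RtB20_8.CTn RtB20_8.CEr.left.right 0x5a = true := by decide +kernel

theorem cB20_8_1_39 : chunkOkM (LB20_8.ctx true false 110 1 1 1 1 1 1 1 1) muQ true false 64 RtB20_8.Cx RtB20_8.CX RtB20_8.Ctp.right RtB20_8.Ce RtB20_8.CTn RtB20_8.CEr.right 0x52 = true := by decide +kernel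

theorem cB20_8_0_0 : chunkOkM (LB20_8.ctx false false 110 1 1 1 1 1 1 1 1) muQ false false 64 RtB20_8.Cx RtB20_8.CX RtB20_8.Ctn RtB20_8.Ce RtB20_8.CTn RtB20_8.CEr 0x49 = true := by decide +kernel

end Vale.Agent.helper4.Q4
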