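import Vale.Agent.helper4.Q4TreeM
import Vale.Agent.helper4.Q4G.PB20_8_0
import Vale.Agent.helper4.Q4G.PB20_8_1
import Vale.Agent.helper4.Q4G.PB20_8_2
import Vale.Agent.helper4.Q4G.PB20_8_3
import Vale.Agent.helper4.Q4G.PB20_8_4
import Vale.Agent.helper4.Q4G.PB20_8_5
import Vale.Agent.helper4.Q4G.PB20_8_6

/-!
Checks for pairs of intervals of second moments.
-/

set_option maxRecDepth 100000
set_option linter.unusedVariables false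

namespace Vale.Agent.helper4.Q4

theorem covB20_8 : LB20_8.Full muQ.val RtB20_8 := ⟨(LitT.Cov.split_t (LitT.cov_of_chunkM cB20_8_3_0) (LitT.Cov.split_t (LitT.cov_of_chunkM cB20_8_3_1) (LitT.Cov.split_e (LitT.cov_of_chunkM cB20_8_3_2) (LitT.Cov.split_t (LitT.cov_of_chunkM cB20_8_3_3) (LitT.Cov.split_e (LitT.cov_of_chunkM cB20_8_3_4) (LitT.Cov.split_e (LitT.Cov.split_e (LitT.cov_of_chunkM cB20_8_3_5) (LitT.Cov.split_t (LitT.Cov.split_e (LitT.Cov.split_t (LitT.Cov.split_t (LitT.cov_of_chunkM cB20_8_3_6) (LitT.Cov.split_t (LitT.cov_of_chunkM cB20_8_3_7) (LitT.Cov.split_e (LitT.cov_of_chunkM cB20_8_3_8) (LitT.Cov.split_x (LitT.Cov.split_x (LitT.Cov.split_x (LitT.Cov.split_e (LitT.Cov.split_e (LitT.Cov.split_T (LitT.cov_of_chunkM cB20_8_3_9) (LitT.cov_of_chunkM cB20_8_3_10)) (LitT.cov_of_chunkM cB20_8_3_11)) (LitT.cov_of_chunkM cB20_8_3_12)) (LitT.cov_of_chunkM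 cB20_8_3_13)) (LitT.cov_of_chunkM cB20_8_3_14)) (LitT.cov_of_chunkM cB20_8_3_15))))) (LitT.Cov.split_e (LitT.cov_of_chunkM cB20_8_3_16) (LitT.Cov.split_x (LitT.Cov.split_x (LitT.Cov.split_t (LitT.Cov.split_e (LitT.Cov.split_T (LitT.Cov.split_t (LitT.Cov.split_x (LitT.Cov.split_e (LitT.cov_of_chunkM cB20_8_3_17) (LitT.cov_of_chunkM cB20_8_3_18)) (LitT.cov_of_chunkM cB20_8_3_19)) (LitT.cov_of_chunkM cB20_8_3_20)) (LitT.cov_of_chunkM cB20_8_3_21)) (LitT.Cov.split_x (LitT.Cov.split_t (LitT.cov_of_chunkM cB20_8_3_22) (LitT.Cov.split_T (LitT.cov_of_chunkM cB20_8_3_23) (LitT.cov_of_chunkM cB20_8_3_24))) (LitT.Cov.split_t (LitT.Cov.split_T (LitT.Cov.split_e (LitT.cov_of_chunkM cB20_8_3_25) (LitT.cov_of_chunkM cB20_8_3_26)) (LitT.cov_of_chunkM cB20_8_3_27)) (LitT.cov_of_chunkM cB20_8_3_28)))) (LitT.cov_of_chunkM cB20_8_3_29)) (LitT.cov_of_chunkM cB20_8_3_30))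 (LitT.cov_of_chunkM cB20_8_3_31)))) (LitT.Cov.split_t (LitT.cov_of_chunkM cB20_8_3_32) (LitT.Cov.split_x (LitT.Cov.split_e (LitT.Cov.split_x (LitT.Cov.split_t (LitT.Cov.split_e (LitT.Cov.split_t (LitT.cov_of_chunkM cB20_8_3_33) (LitT.Cov.split_x (LitT.cov_of_chunkM cB20_8_3_34) (LitT.Cov.split_T (LitT.Cov.split_e (LitT.cov_of_chunkM cB20_8_3_35) (LitT.cov_of_chunkM cB20_8_3_36)) (LitT.cov_of_chunkM cB20_8_3_37)))) (LitT.cov_of_chunkM cB20_8_3_38)) (LitT.cov_of_chunkM cB20_8_3_39)) (LitT.Cov.split_t (LitT.Cov.split_t (LitT.cov_of_chunkM cB20_8_3_40) (LitT.Cov.split_e (LitT.cov_of_chunkM cB20_8_3_41) (LitT.Cov.split_x (LitT.Cov.split_T (LitT.Cov.split_e (LitT.cov_of_chunkM cB20_8_3_42) (LitT.cov_of_chunkM cB20_8_3_43)) (LitT.cov_of_chunkM cB20_8_3_44)) (LitT.cov_of_chunkM cB20_8_3_45)))) (LitT.Cov.split_e (LitT.cov_of_chunkM cB20_8_3_46) (LitT.Cov.split_T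 (LitT.Cov.split_t (LitT.Cov.split_x (LitT.Cov.split_e (LitT.cov_of_chunkM cB20_8_3_47) (LitT.cov_of_chunkM cB20_8_3_48)) (LitT.cov_of_chunkM cB20_8_3_49)) (LitT.cov_of_chunkM cB20_8_3_50)) (LitT.cov_of_chunkM cB20_8_3_51))))) (LitT.Cov.split_x (LitT.cov_of_chunkM cB20_8_3_52) (LitT.Cov.split_t (LitT.cov_of_chunkM cB20_8_3_53) (LitT.Cov.split_e (LitT.Cov.split_T (LitT.Cov.split_x (LitT.cov_of_chunkM cB20_8_3_54) (LitT.Cov.split_t (LitT.Cov.split_e (LitT.cov_of_chunkM cB20_8_3_55) (LitT.Cov.split_x (LitT.cov_of_chunkM cB20_8_3_56) (LitT.cov_of_chunkM cB20_8_3_57))) (LitT.cov_of_chunkM cB20_8_3_58))) (LitT.cov_of_chunkM cB20_8_3_59)) (LitT.Cov.split_x (LitT.cov_of_chunkM cB20_8_3_60) (LitT.Cov.split_T (LitT.cov_of_chunkM cB20_8_3_61) (LitT.cov_of_chunkM cB20_8_3_62))))))) (LitT.Cov.split_t (LitT.cov_of_chunkM cB20_8_3_63) (LitT.Cov.split_e (LitT.cov_of_chunkM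 cB20_8_3_64) (LitT.Cov.split_e (LitT.cov_of_chunkM cB20_8_3_65) (LitT.Cov.split_x (LitT.Cov.split_t (LitT.cov_of_chunkM cB20_8_3_66) (LitT.cov_of_chunkM cB20_8_3_67)) (LitT.cov_of_chunkM cB20_8_3_68)))))))) (LitT.cov_of_chunkM cB20_8_3_69))) (LitT.Cov.split_e (LitT.Cov.split_t (LitT.Cov.split_e (LitT.Cov.split_t (LitT.cov_of_chunkM cB20_8_3_70) (LitT.Cov.split_x (LitT.cov_of_chunkM cB20_8_3_71) (LitT.Cov.split_t (LitT.cov_of_chunkM cB20_8_3_72) (LitT.Cov.split_x (LitT.Cov.split_e (LitT.Cov.split_e (LitT.Cov.split_t (LitT.cov_of_chunkM cB20_8_3_73) (LitT.Cov.split_T (LitT.cov_of_chunkM cB20_8_3_74) (LitT.cov_of_chunkM cB20_8_3_75))) (LitT.cov_of_chunkM cB20_8_3_76)) (LitT.cov_of_chunkM cB20_8_3_77)) (LitT.cov_of_chunkM cB20_8_3_78))))) (LitT.cov_of_chunkM cB20_8_3_79)) (LitT.Cov.split_x (LitT.cov_of_chunkM cB20_8_3_80) (LitT.Cov.split_t (LitT.Cov.split_e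 (LitT.Cov.split_e (LitT.Cov.split_t (LitT.Cov.split_x (LitT.Cov.split_e (LitT.cov_of_chunkM cB20_8_3_81) (LitT.Cov.split_T (LitT.cov_of_chunkM cB20_8_3_82) (LitT.cov_of_chunkM cB20_8_3_83))) (LitT.cov_of_chunkM cB20_8_3_84)) (LitT.cov_of_chunkM cB20_8_3_85)) (LitT.Cov.split_x (LitT.Cov.split_e (LitT.Cov.split_x (LitT.cov_of_chunkM cB20_8_3_86) (LitT.Cov.split_t (LitT.Cov.split_T (LitT.cov_of_chunkM cB20_8_3_87) (LitT.cov_of_chunkM cB20_8_3_88)) (LitT.cov_of_chunkM cB20_8_3_89))) (LitT.cov_of_chunkM cB20_8_3_90)) (LitT.Cov.split_t (LitT.Cov.split_e (LitT.Cov.split_T (LitT.cov_of_chunkM cB20_8_3_91) (LitT.cov_of_chunkM cB20_8_3_92)) (LitT.Cov.split_T (LitT.Cov.split_t (LitT.cov_of_chunkM cB20_8_3_93) (LitT.cov_of_chunkM cB20_8_3_94)) (LitT.cov_of_chunkM cB20_8_3_95))) (LitT.cov_of_chunkM cB20_8_3_96)))) (LitT.Cov.split_e (LitT.Cov.split_x (LitT.cov_of_chunkM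 cB20_8_3_97) (LitT.Cov.split_t (LitT.Cov.split_e (LitT.Cov.split_T (LitT.cov_of_chunkM cB20_8_3_98) (LitT.cov_of_chunkM cB20_8_3_99)) (LitT.cov_of_chunkM cB20_8_3_100)) (LitT.Cov.split_x (LitT.cov_of_chunkM cB20_8_3_101) (LitT.Cov.split_t (LitT.Cov.split_e (LitT.cov_of_chunkM cB20_8_3_102) (LitT.cov_of_chunkM cB20_8_3_103)) (LitT.cov_of_chunkM cB20_8_3_104))))) (LitT.cov_of_chunkM cB20_8_3_105))) (LitT.cov_of_chunkM cB20_8_3_106)))) (LitT.cov_of_chunkM cB20_8_3_107)))))))), (LitT.Cov.split_t (LitT.cov_of_chunkM cB20_8_1_0) (LitT.Cov.split_E (LitT.Cov.split_E (LitT.Cov.split_E (LitT.Cov.split_E (LitT.Cov.split_E (LitT.Cov.split_t (LitT.cov_of_chunkM cB20_8_1_1) (LitT.Cov.split_e (LitT.cov_of_chunkM cB20_8_1_2) (LitT.Cov.split_t (LitT.cov_of_chunkM cB20_8_1_3) (LitT.Cov.split_e (LitT.cov_of_chunkM cB20_8_1_4) (LitT.Cov.split_T (LitT.Cov.split_T (LitT.Cov.split_T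 (LitT.Cov.split_T (LitT.Cov.split_T (LitT.Cov.split_T (LitT.Cov.split_X (LitT.Cov.split_E (LitT.Cov.split_E (LitT.Cov.split_X (LitT.Cov.split_T (LitT.Cov.split_T (LitT.Cov.split_E (LitT.Cov.split_E (LitT.Cov.split_X (LitT.Cov.split_T (LitT.Cov.split_T (LitT.Cov.split_E (LitT.Cov.split_E (LitT.Cov.split_X (LitT.Cov.split_T (LitT.Cov.split_T (LitT.Cov.split_E (LitT.Cov.split_X (LitT.Cov.split_X (LitT.Cov.split_e (LitT.Cov.split_e (LitT.cov_of_chunkM cB20_8_1_5) (LitT.Cov.split_t (LitT.Cov.split_e (LitT.cov_of_chunkM cB20_8_1_6) (LitT.cov_of_chunkM cB20_8_1_7)) (LitT.cov_of_chunkM cB20_8_1_8))) (LitT.cov_of_chunkM cB20_8_1_9)) (LitT.cov_of_chunkM cB20_8_1_10)) (LitT.cov_of_chunkM cB20_8_1_11)) (LitT.cov_of_chunkM cB20_8_1_12)) (LitT.cov_of_chunkM cB20_8_1_13)) (LitT.cov_of_chunkM cB20_8_1_14)) (LitT.cov_of_chunkM cB20_8_1_15)) (LitT.cov_of_chunkM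 cB20_8_1_16)) (LitT.cov_of_chunkM cB20_8_1_17)) (LitT.cov_of_chunkM cB20_8_1_18)) (LitT.cov_of_chunkM cB20_8_1_19)) (LitT.cov_of_chunkM cB20_8_1_20)) (LitT.cov_of_chunkM cB20_8_1_21)) (LitT.cov_of_chunkM cB20_8_1_22)) (LitT.cov_of_chunkM cB20_8_1_23)) (LitT.cov_of_chunkM cB20_8_1_24)) (LitT.cov_of_chunkM cB20_8_1_25)) (LitT.cov_of_chunkM cB20_8_1_26)) (LitT.cov_of_chunkM cB20_8_1_27)) (LitT.cov_of_chunkM cB20_8_1_28)) (LitT.cov_of_chunkM cB20_8_1_29)) (LitT.cov_of_chunkM cB20_8_1_30)) (LitT.cov_of_chunkM cB20_8_1_31)) (LitT.cov_of_chunkM cB20_8_1_32)) (LitT.cov_of_chunkM cB20_8_1_33)) (LitT.cov_of_chunkM cB20_8_1_34)))))) (LitT.cov_of_chunkM cB20_8_1_35)) (LitT.cov_of_chunkM cB20_8_1_36)) (LitT.cov_of_chunkM cB20_8_1_37)) (LitT.cov_of_chunkM cB20_8_1_38)) (LitT.cov_of_chunkM cB20_8_1_39))), (LitT.cov_of_chunkM cB20_8_2_0), (LitT.cov_of_chunkM cB20_8_0_0)⟩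

end Vale.Agent.helper4.Q4
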