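import Vale.Agent.helper4.Q4TreeM
import Vale.Agent.helper4.Q4G.PB20_9

/-!
Checks for pairs of intervals of second moments.
-/

set_option maxRecDepth 100000
set_option linter.unusedVariables false

namespace Vale.Agent.helper4.Q4

theorem cB20_9_3_0 : chunkOkM (LB20_9.ctx true true 99 1 1 1 1 1 1 1 1) muQ true true 64 RtB20_9.Cx RtB20_9.CX RtB20_9.Ctp.left RtB20_9.Ce RtB20_9.CTp RtB20_9.CEr 0x41 = true := by decide +kernel

theorem cB20_9_3_1 : chunkOkM (LB20_9.ctx true true 99 1 1 1 1 1 1 1 1) muQ true true 64 RtB20_9.Cx RtB20_9.CX RtB20_9.Ctp.right.left RtB20_9.Ce RtB20_9.CTp RtB20_9.CEr 0x41 = true := by decide +kernel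

theorem cB20_9_3_2 : chunkOkM (LB20_9.ctx true true 99 1 1 1 1 1 1 1 1) muQ true true 64 RtB20_9.Cx RtB20_9.CX RtB20_9.Ctp.right.right RtB20_9.Ce.left RtB20_9.CTp RtB20_9.CEr 0x11 = true := by decide +kernel

theorem cB20_9_3_3 : chunkOkM (LB20_9.ctx true true 99 1 1 1 1 1 1 1 1) muQ true true 64 RtB20_9.Cx RtB20_9.CX RtB20_9.Ctp.right.right.left RtB20_9.Ce.right RtB20_9.CTp RtB20_9.CEr 0x49 = true := by decide +kernel

theorem cB20_9_3_4 : chunkOkM (LB20_9.ctx true true 99 1 1 1 1 1 1 1 1) muQ true true 64 RtB20_9.Cx RtB20_9.CX RtB20_9.Ctp.right.right.right RtB20_9.Ce.right.left RtB20_9.CTp RtB20_9.CEr 0x11 = true := by decide +kernel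

theorem cB20_9_3_5 : chunkOkM (LB20_9.ctx true true 215 21 8 11 16 30 100 32 32) muQ true true 64 RtB20_9.Cx RtB20_9.CX RtB20_9.Ctp.right.right.right RtB20_9.Ce.right.right.left.left RtB20_9.CTp RtB20_9.CEr 0xac54d59bd312ce5d89f4e2995a698f130d = true := by decide +kernel

theorem cB20_9_3_6 : chunkOkM (LB20_9.ctx true true 99 1 1 1 1 1 1 1 1) muQ true true 64 RtB20_9.Cx RtB20_9.CX RtB20_9.Ctp.right.right.right.left.left.left RtB20_9.Ce.right.right.left.right.left RtB20_9.CTp RtB20_9.CEr 0x49 = true := by decide +kernel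

theorem cB20_9_3_7 : chunkOkM (LB20_9.ctx true true 99 1 1 1 1 1 1 1 1) muQ true true 64 RtB20_9.Cx RtB20_9.CX RtB20_9.Ctp.right.right.right.left.left.right.left RtB20_9.Ce.right.right.left.right.left RtB20_9.CTp RtB20_9.CEr 0x49 = true := by decide +kernel

theorem cB20_9_3_8 : chunkOkM (LB20_9.ctx true true 99 1 1 1 1 1 1 1 1) muQ true true 64 RtB20_9.Cx.left RtB20_9.CX RtB20_9.Ctp.right.right.right.left.left.right.right RtB20_9.Ce.right.right.left.right.left.left.left RtB20_9.CTp RtB20_9.CEr 0x69 = true := by decide +kernel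

theorem cB20_9_3_9 : chunkOkM (LB20_9.ctx true true 281 81 32 21 32 462 1692 256 64) muQ true true 64 RtB20_9.Cx.left.left RtB20_9.CX RtB20_9.Ctp.right.right.right.left.left.right.right RtB20_9.Ce.right.right.left.right.left.left.right RtB20_9.CTp.left RtB20_9.CEr 0x4a486b04075c17eab5e78f6232f2fd68f55e7a4637f440d17f72ca75c172b84a78b8823f407f6208bd0278f57ef746e7f450d64eb31cd75c8efcd768bcf098f613aaf616de3d1e5aaf440d484a5425 = true := by decide +kernel

theorem cB20_9_3_10 : chunkOkM (LB20_9.ctx true true 284 321 128 11 16 926 3388 64 128) muQ true true 64 RtB20_9.Cx.left.left RtB20_9.CX RtB20_9.Ctp.right.right.right.left.left.right.right RtB20_9.Ce.right.right.left.right.left.left.right RtB20_9.CTp.right RtB20_9.CEr 0x49692341c3375c8cb75c6f9d892c957f61bd9f06e8f540d1800322c8f05b6769449297aad775c7ba2466f93090c4038f61f7fe77e8f5da6604d7f450d2deb2a575c298ad40b8f61f80889f8f51960032f8f440d626eaeed75c99b4626f93a06fd5e8f61e1aebe18f5ad9bcea7f450d1309f8775c2e2badcf8f61d49a47a8f5185a4457f440d64737613ff6118f04b41a78676c8f05b6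 = true := by decide +kernel

theorem cB20_9_3_11 : chunkOkM (LB20_9.ctx true true 99 1 1 1 1 1 1 1 1) muQ true true 64 RtB20_9.Cx.left.right RtB20_9.CX RtB20_9.Ctp.right.right.right.left.left.right.right RtB20_9.Ce.right.right.left.right.left.left.right RtB20_9.CTp RtB20_9.CEr 0x11 = true := by decide +kernel

theorem cB20_9_3_12 : chunkOkM (LB20_9.ctx true true 99 1 1 1 1 1 1 1 1) muQ true true 64 RtB20_9.Cx.right RtB20_9.CX RtB20_9.Ctp.right.right.right.left.left.right.right RtB20_9.Ce.right.right.left.right.left.left RtB20_9.CTp RtB20_9.CEr 0x11 = true := by decide +kernel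

theorem cB20_9_3_13 : chunkOkM (LB20_9.ctx true true 281 161 64 21 32 462 1708 256 64) muQ true true 64 RtB20_9.Cx.left.left.left RtB20_9.CX RtB20_9.Ctp.right.right.right.left.left.right.right RtB20_9.Ce.right.right.left.right.left.right.left RtB20_9.CTp.left RtB20_9.CEr 0x4a9bed4bd7ed3c4167d75cb49a1e68b564e8ed7f6206666408f56651bb57f460d100e30975c132a1ef78b439bf537f62170d3618f588d51ec7f450d627f4cb575ce7892168b96362287f61fade9388f54234f957f450d155393178bc2ee5ce7f61fa657c68f57c0754b7f440d6484a5425 = true := by decide +kernel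

theorem cB20_9_3_14 : chunkOkM (LB20_9.ctx true true 265 161 64 11 16 462 852 64 64) muQ true true 64 RtB20_9.Cx.left.left.left RtB20_9.CX RtB20_9.Ctp.right.right.right.left.left.right.right RtB20_9.Ce.right.right.left.right.left.right.left RtB20_9.CTp.right RtB20_9.CEr.left 0x7210766d8ed63b866b7f620d6b27c8f5877b6237f440d = true := by decide +kernel

theorem cB20_9_3_15 : chunkOkM (LB20_9.ctx true true 281 323 128 11 16 926 1708 64 128) muQ true true 64 RtB20_9.Cx.left.left.left RtB20_9.CX RtB20_9.Ctp.right.right.right.left.left.right.right RtB20_9.Ce.right.right.left.right.left.right.left RtB20_9.CTp.right RtB20_9.CEr.right 0x2c7029575c7a1d8c6f91877181a8f61f2c40f28f5dfd28fa7f450d28541f175cbb768b6f967b48c568f62206eec78f540d74df009675c1d1435f7f992d600cb8f525c9d70cd9f440d3266b81c75c1b1168448f61e650d148f5ae7ce9f7f440d629245c275c9c1aba6f921874fda8f61d2177998f5a8c23047f450d266521b75ca2edd16f917724da58f61d8af0b68f52a68dfe7f450d729d330675c7e0dd66f912c8b2318f61f5ffc348f5106223ac8f450d31db972b75c348b945d8f620e3c49c8f539c5b587f440d64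 = true := by decide +kernel

theorem cB20_9_3_16 : chunkOkM (LB20_9.ctx true true 99 1 1 1 1 1 1 1 1) muQ true true 64 RtB20_9.Cx.left.left.left RtB20_9.CX RtB20_9.Ctp.right.right.right.left.left.right.right RtB20_9.Ce.right.right.left.right.left.right.right RtB20_9.CTp RtB20_9.CEr 0x59 = true := by decide +kernel

theorem cB20_9_3_17 : chunkOkM (LB20_9.ctx true true 99 1 1 1 1 1 1 1 1) muQ true true 64 RtB20_9.Cx.left.left.right RtB20_9.CX RtB20_9.Ctp.right.right.right.left.left.right.right RtB20_9.Ce.right.right.left.right.left.right RtB20_9.CTp RtB20_9.CEr 0x49 = true := by decide +kernel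

theorem cB20_9_3_18 : chunkOkM (LB20_9.ctx true true 99 1 1 1 1 1 1 1 1) muQ true true 64 RtB20_9.Cx.left.right RtB20_9.CX RtB20_9.Ctp.right.right.right.left.left.right.right RtB20_9.Ce.right.right.left.right.left.right RtB20_9.CTp RtB20_9.CEr 0x49 = true := by decide +kernel

theorem cB20_9_3_19 : chunkOkM (LB20_9.ctx true true 99 1 1 1 1 1 1 1 1) muQ true true 64 RtB20_9.Cx.right RtB20_9.CX RtB20_9.Ctp.right.right.right.left.left.right.right RtB20_9.Ce.right.right.left.right.left.right RtB20_9.CTp RtB20_9.CEr 0x49 = true := by decide +kernel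

theorem cB20_9_3_20 : chunkOkM (LB20_9.ctx true true 99 1 1 1 1 1 1 1 1) muQ true true 64 RtB20_9.Cx RtB20_9.CX RtB20_9.Ctp.right.right.right.left.right RtB20_9.Ce.right.right.left.right.left.left RtB20_9.CTp RtB20_9.CEr 0x69 = true := by decide +kernel

theorem cB20_9_3_21 : chunkOkM (LB20_9.ctx true true 288 163 64 21 32 470 1708 256 64) muQ true true 64 RtB20_9.Cx.left.left RtB20_9.CX RtB20_9.Ctp.right.right.right.left.right.left RtB20_9.Ce.right.right.left.right.left.right.left RtB20_9.CTp.left RtB20_9.CEr 0x4a1a623b6fd6a8062b75c19232169b2a883cb7f82ad054158f250d6bb7a3d75c1c9bc1d78b2a88f527f8135211a9ddcbf61ad4d6d930af450d35cda1b75c4668058b311b85d48f61f0e6a258f540d3b750f65c176fc2678b8a5340b7f61ee80c8a8f540d6357edeb75cdf13e868bbc9c61c7f61d8586b88f540d1a108d9e8f05b647384a5425 = true := by decide +kernel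

theorem cB20_9_3_22 : chunkOkM (LB20_9.ctx true true 282 163 64 11 16 934 1708 64 128) muQ true true 64 RtB20_9.Cx.left.left RtB20_9.CX RtB20_9.Ctp.right.right.right.left.right.left RtB20_9.Ce.right.right.left.right.left.right.left RtB20_9.CTp.right RtB20_9.CEr 0x2aa1dec75c272012d08f220d3a7653f75c55f0f96f915b807e84c3bf61dfc120b9caf440d3189d4b75cfa153697f61a82ef358f530d29bed8275ca409116f9d97f6d07f61cabbed68f51a390a57f450d2fc5ff375c1a1398128f61fa458188f530d6321b05c2cab61075c1ec2eb6f9ace9c527f61b4cf71b8f540d3473786a3e77fd11a82de08f61ea50ab38f530d6 = true := by decide +kernel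

theorem cB20_9_3_23 : chunkOkM (LB20_9.ctx true true 99 1 1 1 1 1 1 1 1) muQ true true 64 RtB20_9.Cx.left.left RtB20_9.CX RtB20_9.Ctp.right.right.right.left.right.left RtB20_9.Ce.right.right.left.right.left.right.right RtB20_9.CTp.left.left RtB20_9.CEr 0x42 = true := by decide +kernel

theorem cB20_9_3_24 : chunkOkM (LB20_9.ctx true true 99 1 1 1 1 1 1 1 1) muQ true true 64 RtB20_9.Cx.left.left RtB20_9.CX RtB20_9.Ctp.right.right.right.left.right.left RtB20_9.Ce.right.right.left.right.left.right.right RtB20_9.CTp.left.right.left RtB20_9.CEr 0x4a = true := by decide +kernel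

theorem cB20_9_3_25 : chunkOkM (LB20_9.ctx true true 278 161 64 21 32 470 860 256 64) muQ true true 64 RtB20_9.Cx.left.left.left RtB20_9.CX.left RtB20_9.Ctp.right.right.right.left.right.left RtB20_9.Ce.right.right.left.right.left.right.right RtB20_9.CTp.left.right.right RtB20_9.CEr 0xe1e296e7ed3655ede75c68ef2f68bb32a7cc7f61cdfbcbb8f550d184d06b75c890b5068ba360a4b7f619b2511b8f5671b0f27f250d62c490b875c74a79e68b15c476858f6221bff1a8f540d1d5448275c1c4449a78b382ba187f6204909aa8f540d63 = true := by decide +kernel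

theorem cB20_9_3_26 : chunkOkM (LB20_9.ctx true true 281 163 64 21 32 470 1724 256 64) muQ true true 64 RtB20_9.Cx.left.left.right RtB20_9.CX.left RtB20_9.Ctp.right.right.right.left.right.left RtB20_9.Ce.right.right.left.right.left.right.right RtB20_9.CTp.left.right.right RtB20_9.CEr 0x78a69c67fd9c164e675c25a41ca78b2535bee78f61f1cd4898f550d1ef128475c1c6612078b14d511b58f61ff12dd28f540d635d201b75c11c7fbac8f61d899ab38f562a880b7f440d149442175ccf58ef68b11032e458f6232a23188f53826a797f450d6120b7b168ed3d13ec475ccf29fb68b1e53f4f28f61db98ad78f591571347f460d1892c4775c10020a078bec9dd307f6212226fe8f5995b0467f450d643 = true := by decide +kernel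

theorem cB20_9_3_27 : chunkOkM (LB20_9.ctx true true 99 1 1 1 1 1 1 1 1) muQ true true 64 RtB20_9.Cx.left.left RtB20_9.CX.right RtB20_9.Ctp.right.right.right.left.right.left RtB20_9.Ce.right.right.left.right.left.right.right RtB20_9.CTp.left.right.right RtB20_9.CEr 0x4a = true := by decide +kernel

theorem cB20_9_3_28 : chunkOkM (LB20_9.ctx true true 255 81 32 11 16 234 860 64 64) muQ true true 64 RtB20_9.Cx.left.left RtB20_9.CX RtB20_9.Ctp.right.right.right.left.right.left RtB20_9.Ce.right.right.left.right.left.right.right RtB20_9.CTp.right RtB20_9.CEr.left 0xd59242f7fd57c6c817f61f7bb8ff8f530d = true := by decide +kernel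

theorem cB20_9_3_29 : chunkOkM (LB20_9.ctx true true 271 161 64 11 16 466 1724 64 128) muQ true true 64 RtB20_9.Cx.left.left.left RtB20_9.CX RtB20_9.Ctp.right.right.right.left.right.left.left RtB20_9.Ce.right.right.left.right.left.right.right RtB20_9.CTp.right RtB20_9.CEr.right 0x2c6180475c4844e9528f61fc7c2448f530d282569875caff5dd6f91a5112a68f61e18f8b78f540d2c45d3f75c7d503668b279853aa8f61fbf2c2a8f540d64 = true := by decide +kernel

end Vale.Agent.helper4.Q4
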