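import Vale.Agent.helper4.Q4TreeM
import Vale.Agent.helper4.Q4G.PB20_9

/-!
Checks for pairs of intervals of second moments.
-/

set_option maxRecDepth 100000
set_option linter.unusedVariables false

namespace Vale.Agent.helper4.Q4

theorem cB20_9_3_30 : chunkOkM (LB20_9.ctx true true 284 325 128 11 16 934 3436 64 128) muQ true true 64 RtB20_9.Cx.left.left.right RtB20_9.CX RtB20_9.Ctp.right.right.right.left.right.left.left RtB20_9.Ce.right.right.left.right.left.right.right.left RtB20_9.CTp.right RtB20_9.CEr.right 0x6928b5bef75c8e6f4b6f9535dd367f61b9aa8318f540d19150be68f05b67694492eac32375c7b5a9f6f931a51a8b8f61f9f4f1c8f5deee6397f450d21d2a2e75c40a65f968f61eb3f1ea8f541d58497f440d62a7fbb575ca9ef926f93d8558948f61e21b6b78f58c2d12a7f450d1c701ff75c7b5e5a218f61d5d217e8f530d6473 = true := by decide +kernel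

theorem cB20_9_3_31 : chunkOkM (LB20_9.ctx true true 281 327 128 11 16 934 1724 64 128) muQ true true 64 RtB20_9.Cx.left.left.right RtB20_9.CX RtB20_9.Ctp.right.right.right.left.right.left.left RtB20_9.Ce.right.right.left.right.left.right.right.right RtB20_9.CTp.right RtB20_9.CEr.right 0x2e8a45775ca8a7a86f9144579018f61dd7c24c8f56f9288b7f450d2cca46775ca1a8246f9d61d8907f61d8df4128f5210331e7f450d72e8e40a75c887fab6f9f9ff7ac7f61f2c0d868f5fd5e7ed7f450d3214647175c31051b008f6206ef73c8f53e047d87f440d6 = true := by decide +kernel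

theorem cB20_9_3_32 : chunkOkM (LB20_9.ctx true true 268 163 64 11 16 470 1724 64 64) muQ true true 64 RtB20_9.Cx.left.left RtB20_9.CX RtB20_9.Ctp.right.right.right.left.right.left.right RtB20_9.Ce.right.right.left.right.left.right.right RtB20_9.CTp.right RtB20_9.CEr.right 0x321ec4875c11bef9e78f61b42f8668f530d30741a475c1892ef1d8f61acea8af8f51fc15277f240d2df80eb75caebde5f9152b8cdc8f618c65be48f529ec27e7f250d47 = true := by decide +kernel

theorem cB20_9_3_33 : chunkOkM (LB20_9.ctx true true 245 81 32 11 16 238 428 32 32) muQ true true 64 RtB20_9.Cx.left.left RtB20_9.CX RtB20_9.Ctp.right.right.right.left.right.right RtB20_9.Ce.right.right.left.right.left.right RtB20_9.CTp RtB20_9.CEr 0x2816b6b68f00b = true := by decide +kernel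

theorem cB20_9_3_34 : chunkOkM (LB20_9.ctx true true 242 83 32 11 16 118 428 32 32) muQ true true 64 RtB20_9.Cx.left.right RtB20_9.CX RtB20_9.Ctp.right.right.right.left.right RtB20_9.Ce.right.right.left.right.left.right RtB20_9.CTp RtB20_9.CEr 0x1865b0f78b201a066f82859bc1f01af42ba0226609f140d = true := by decide +kernel

theorem cB20_9_3_35 : chunkOkM (LB20_9.ctx true true 99 1 1 1 1 1 1 1 1) muQ true true 64 RtB20_9.Cx.right RtB20_9.CX RtB20_9.Ctp.right.right.right.left.right RtB20_9.Ce.right.right.left.right.left.right RtB20_9.CTp RtB20_9.CEr 0x11 = true := by decide +kernel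

theorem cB20_9_3_36 : chunkOkM (LB20_9.ctx true true 226 21 8 11 16 114 220 32 32) muQ true true 64 RtB20_9.Cx RtB20_9.CX RtB20_9.Ctp.right.right.right.left.left RtB20_9.Ce.right.right.left.right.right RtB20_9.CTp RtB20_9.CEr 0x6d36c468b4f96ec418f613e2e0a9c9f54e9d8bb4e9f440d = true := by decide +kernel

theorem cB20_9_3_37 : chunkOkM (LB20_9.ctx true true 281 163 64 21 32 470 1732 256 64) muQ true true 64 RtB20_9.Cx.left.left RtB20_9.CX RtB20_9.Ctp.right.right.right.left.right.left RtB20_9.Ce.right.right.left.right.right.left RtB20_9.CTp.left RtB20_9.CEr 0x4a18d92c6fd752693a75c161a1169b306141d7f81ffe27688f620effc938f560d33941c575cfff383c7f61ddfae028f530d1e45bf575c91ae3768b14cdace38f62235b99b8f540d621759360077c18ed5d6108f75ca6a42368b1c8a39f88f62083c61f8f576a3b637f460d13b6a5475c14d0a3478b47f7cb57f621cac4f88f57f5971f7f450d642173484a5425 = true := by decide +kernel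

theorem cB20_9_3_38 : chunkOkM (LB20_9.ctx true true 252 81 32 11 16 234 436 64 64) muQ true true 64 RtB20_9.Cx.left.left RtB20_9.CX RtB20_9.Ctp.right.right.right.left.right.left RtB20_9.Ce.right.right.left.right.right.left RtB20_9.CTp.right RtB20_9.CEr.left 0x82f116ee8edae092807f621b682688f54d301167f440d = true := by decide +kernel

theorem cB20_9_3_39 : chunkOkM (LB20_9.ctx true true 281 327 128 11 16 934 1732 64 128) muQ true true 64 RtB20_9.Cx.left.left RtB20_9.CX RtB20_9.Ctp.right.right.right.left.right.left.left RtB20_9.Ce.right.right.left.right.right.left.left RtB20_9.CTp.right RtB20_9.CEr.right 0x593249e3c75c7858be6f91aa3bbdb8f61f7ee8bb8f5e786f5e7f450d2d0bc2c75cc2a1996f93d930a2c8f6205449f48f540d729f0a2075c1928baf7f9a6fc4f478f52fe2a13cd9f440d32f0615fd19ae11975c23074cf08f620f967bc8f570840457f450d64217 = true := by decide +kernel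

theorem cB20_9_3_40 : chunkOkM (LB20_9.ctx true true 275 163 64 11 16 942 1740 64 128) muQ true true 64 RtB20_9.Cx.left.left RtB20_9.CX RtB20_9.Ctp.right.right.right.left.right.left.right RtB20_9.Ce.right.right.left.right.right.left.left RtB20_9.CTp.right RtB20_9.CEr.right 0x2e781df75ca985ad6f92015db9d8f61eec53128f540d1ccf10975c56378968bfe223297f61f2dc55d8f540d62d2d6c575c1540c4948f61ac832cf8f530d3066e3e75c8e23ac6f916058a558f61d5e5cde8f540d3d233eb75c13f323a18f61c3809248f530d634217 = true := by decide +kernel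

theorem cB20_9_3_41 : chunkOkM (LB20_9.ctx true true 255 81 32 11 16 234 876 64 64) muQ true true 64 RtB20_9.Cx.left.left RtB20_9.CX RtB20_9.Ctp.right.right.right.left.right.left RtB20_9.Ce.right.right.left.right.right.left.right RtB20_9.CTp.right RtB20_9.CEr.right 0x33e7def75c2267f1a88f61fa717dd8f530d = true := by decide +kernel

theorem cB20_9_3_42 : chunkOkM (LB20_9.ctx true true 291 327 128 21 32 946 1748 256 64) muQ true true 64 RtB20_9.Cx.left.left RtB20_9.CX RtB20_9.Ctp.right.right.right.left.right.right RtB20_9.Ce.right.right.left.right.right.left RtB20_9.CTp RtB20_9.CEr 0x0101212ec954375c188adf7b8f61b4c4dee8f530d1a12977d8f05b64a18d53d77ed7b0616275c1a9f7bb78b31f85747f8ec1e2f77f61ee9504a8f5f928ce6f270d84a5425542c3b67375cdec3e037f617f60c778f530d1dbaee928f02b64a2144836fd766247c75c141324178b30d36687f81232d6688f61be453e88f560d84a54255433017017 = true := by decide +kernel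

theorem cB20_9_3_43 : chunkOkM (LB20_9.ctx true true 99 1 1 1 1 1 1 1 1) muQ true true 64 RtB20_9.Cx.left.right RtB20_9.CX RtB20_9.Ctp.right.right.right.left.right.left.left RtB20_9.Ce.right.right.left.right.right.left RtB20_9.CTp RtB20_9.CEr 0x49 = true := by decide +kernel

theorem cB20_9_3_44 : chunkOkM (LB20_9.ctx true true 272 83 32 21 32 470 868 256 64) muQ true true 64 RtB20_9.Cx.left.right RtB20_9.CX RtB20_9.Ctp.right.right.right.left.right.left.right RtB20_9.Ce.right.right.left.right.right.left.left RtB20_9.CTp.left RtB20_9.CEr 0x4a4d1a1a975cf7815868bb5a8ada7f621101f688f562e6a437f450d16b081575c1795bf69ba787e8a7f621d619fb8f540c3a347f450d684a5425 = true := by decide +kernel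

theorem cB20_9_3_45 : chunkOkM (LB20_9.ctx true true 293 329 128 11 16 942 3484 64 128) muQ true true 64 RtB20_9.Cx.left.right RtB20_9.CX RtB20_9.Ctp.right.right.right.left.right.left.right RtB20_9.Ce.right.right.left.right.right.left.left RtB20_9.CTp.right RtB20_9.CEr 0x6933e975175cf2350fd7f61cdebdd28f530d49351d61a75c7854546f931004f268f6200a59488f5e0eedc47f450d40bcd8a75c29659fed8f61f0040cc8f530d67eef076ed267d92175c968ec66f92fdee92c8f61c8551968f5bd38f127f460d30d676c75c1653458b50a32e768f61ab08ccf8f540d647379ef580075c9502616f9363102b411ebf64284b5e409af440d41a825c838f05b6 = true := by decide +kernel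

theorem cB20_9_3_46 : chunkOkM (LB20_9.ctx true true 290 167 64 21 32 3774 876 256 64) muQ true true 64 RtB20_9.Cx.left.right RtB20_9.CX RtB20_9.Ctp.right.right.right.left.right.left.right RtB20_9.Ce.right.right.left.right.right.left.right RtB20_9.CTp.left RtB20_9.CEr 0x4a31b05c7ddf52a28f04b64934934934445f57e8ed64fe4cb75c195244678b14b1e5528f621e882ff8f546985047f460d1d0724175c1656c9378b8ef9efc7f621d292ac8f5848765f7f450d6784a5425 = true := by decide +kernel

theorem cB20_9_3_47 : chunkOkM (LB20_9.ctx true true 259 83 32 11 16 470 876 64 64) muQ true true 64 RtB20_9.Cx.left.right RtB20_9.CX RtB20_9.Ctp.right.right.right.left.right.left.right RtB20_9.Ce.right.right.left.right.right.left.right RtB20_9.CTp.right RtB20_9.CEr.left 0x5210eb17fd918d75c7f623bfe4088f595976707f440d = true := by decide +kernel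

end Vale.Agent.helper4.Q4
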