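import Vale.Agent.helper4.Q4TreeM
import Vale.Agent.helper4.Q4G.PB20_9

/-!
Checks for pairs of intervals of second moments.
-/

set_option maxRecDepth 100000
set_option linter.unusedVariables false

namespace Vale.Agent.helper4.Q4

theorem cB20_9_3_48 : chunkOkM (LB20_9.ctx true true 291 167 64 11 16 15102 1756 64 128) muQ true true 64 RtB20_9.Cx.left.right RtB20_9.CX RtB20_9.Ctp.right.right.right.left.right.left.right RtB20_9.Ce.right.right.left.right.right.left.right RtB20_9.CTp.right RtB20_9.CEr.right 0x31e9f0275cd6c9e66f917c67bc58f51fa21bd58f440d1169cf088f05b649349349349349335f20d575c8b33396f919b65b298f61f6f213a8f5b480bf67f450d43d8a4575c12642447f9d34c04b18f53fb8e507a9f440d32eb033575c32b92468b210812bd8f61fe97d9a8f5118917f08f450d632a4c4875ca74a856f91032e5168f61e12fbc98f53f691c27f450d3519f6e75c80e69b6f910496e338f61fcd48728f5114340628f450d32a67e0a75c1e27e69f8f61f82dabb8f53dc633a7f440d647 = true := by decide +kernel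

theorem cB20_9_3_49 : chunkOkM (LB20_9.ctx true true 99 1 1 1 1 1 1 1 1) muQ true true 64 RtB20_9.Cx.left.right RtB20_9.CX RtB20_9.Ctp.right.right.right.left.right.right RtB20_9.Ce.right.right.left.right.right.left.left RtB20_9.CTp RtB20_9.CEr 0x11 = true := by decide +kernel

theorem cB20_9_3_50 : chunkOkM (LB20_9.ctx true true 272 83 32 21 32 478 876 256 64) muQ true true 64 RtB20_9.Cx.left.right RtB20_9.CX RtB20_9.Ctp.right.right.right.left.right.right RtB20_9.Ce.right.right.left.right.right.left.right RtB20_9.CTp.left RtB20_9.CEr 0x4a121cea2a8f00badd998a7fdf7059da75cd1337dd7f61f9893878f540d1aa3f5a75c15dae8f78b53291a57f61f99e3158f540d6384a5425 = true := by decide +kernel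

theorem cB20_9_3_51 : chunkOkM (LB20_9.ctx true true 275 165 64 11 16 950 1756 64 128) muQ true true 64 RtB20_9.Cx.left.right RtB20_9.CX RtB20_9.Ctp.right.right.right.left.right.right RtB20_9.Ce.right.right.left.right.right.left.right RtB20_9.CTp.right RtB20_9.CEr 0xcc74ea67f00b692b133e675cdb5d9127f61b2f19288f51c45f937f240d32a918675ca8d9ab6f9ee32e857f61d3a5d108f540d233cbbb75cbdef9257f61c9810808f530d632f7538b75cebe84c97f61c08a6508f530d47386ce9dd7fd10422c158f61fb76ba68f53687c86f240d6 = true := by decide +kernel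

theorem cB20_9_3_52 : chunkOkM (LB20_9.ctx true true 99 1 1 1 1 1 1 1 1) muQ true true 64 RtB20_9.Cx.left.left RtB20_9.CX RtB20_9.Ctp.right.right.right.left.right RtB20_9.Ce.right.right.left.right.right.right RtB20_9.CTp RtB20_9.CEr 0x21 = true := by decide +kernel

theorem cB20_9_3_53 : chunkOkM (LB20_9.ctx true true 360 21247 8192 21 32 15102 28164 256 128) muQ true true 64 RtB20_9.Cx.left.right RtB20_9.CX RtB20_9.Ctp.right.right.right.left.right.left RtB20_9.Ce.right.right.left.right.right.right RtB20_9.CTp RtB20_9.CEr 0x59495949594959346958375c866c856f92cf066b28f6220d69648f5d677eef7f450d1ce194fd8f05b647474749349349349349359595959593d92bea75c6e41776f960f712aa49f653fddbd58f540d1caed8388f05b65975975935974593597459359744935974217593472a5cf7f7fd43492e77f622a5d5d68f514c09a838f440d64a36f234c7fd744977c75c199878c78b5659eb47f6240dfa828f517474b1c8f460d178717075c11bf6a278b4c06e757f623db2ee08f5f7908937f450d684a542554934 = true := by decide +kernel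

theorem cB20_9_3_54 : chunkOkM (LB20_9.ctx true true 278 167 64 21 32 478 884 256 64) muQ true true 64 RtB20_9.Cx.left.right RtB20_9.CX RtB20_9.Ctp.right.right.right.left.right.right RtB20_9.Ce.right.right.left.right.right.right.left RtB20_9.CTp.left RtB20_9.CEr 0x4a19e4366fd8917d2875c1bddf9778b374b5637f8ae436f87f61e73e17a8f560d3dd2fe975ca14c5ce7f61fa52c6d8f546b16007f440db369e565c1a35cc778b91caf2b7f621f1b7978f512a06eb7f450d63737166d75c2a4ea25f8f61fbcf9dd8f530d18b7f4375c16eb41e78b1214fd188f61f1c77698f510196e87f250d6784a5425 = true := by decide +kernel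

theorem cB20_9_3_55 : chunkOkM (LB20_9.ctx true true 255 83 32 11 16 238 884 64 64) muQ true true 64 RtB20_9.Cx.left.right RtB20_9.CX RtB20_9.Ctp.right.right.right.left.right.right RtB20_9.Ce.right.right.left.right.right.right.left RtB20_9.CTp.right RtB20_9.CEr.left 0xa419e677fd115a68a58f62401cbab8f530d = true := by decide +kernel

theorem cB20_9_3_56 : chunkOkM (LB20_9.ctx true true 271 165 64 11 16 474 1772 64 128) muQ true true 64 RtB20_9.Cx.left.right.left RtB20_9.CX RtB20_9.Ctp.right.right.right.left.right.right.left RtB20_9.Ce.right.right.left.right.right.right.left RtB20_9.CTp.right RtB20_9.CEr.right 0x314ebb575c6ff839478f61fddad658f530d2eb491a75caba7336f912beeb598f61e434b628f540d262763475c1ff71d408f61adfa7df8f530d64 = true := by decide +kernel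

theorem cB20_9_3_57 : chunkOkM (LB20_9.ctx true true 284 335 128 11 16 950 3532 64 128) muQ true true 64 RtB20_9.Cx.left.right.right RtB20_9.CX RtB20_9.Ctp.right.right.right.left.right.right.left RtB20_9.Ce.right.right.left.right.right.right.left.left RtB20_9.CTp.right RtB20_9.CEr.right 0x358b6b475c328e3bb78f61a36d1f88f530d4f815b5e8f04b317c92375cb7e3d06f9313b16748f61dd05ad08f580ccbcd7f450d2d414eb75cc5b2458b26b25d588f61e3cd5358f540d62cd238475c9fc3686f9e6353c87f61df822818f53c77dea7f450d2f0000775c3eae0368b56b73d97f61d26ad0f8f540d6473 = true := by decide +kernel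

theorem cB20_9_3_58 : chunkOkM (LB20_9.ctx true true 275 167 64 11 16 950 1772 64 128) muQ true true 64 RtB20_9.Cx.left.right.right RtB20_9.CX RtB20_9.Ctp.right.right.right.left.right.right.left RtB20_9.Ce.right.right.left.right.right.right.left.right RtB20_9.CTp.right RtB20_9.CEr.right 0x398750775ca071db6f9e3e32187f61ea8209f8f538ab2f57f450d3a45c0975c929d626f91478f7678f61f8567a78f512b553c58f450d3259f9a875ceba49da7f61daa8baf8f53d8105a7f440d6 = true := by decide +kernel

theorem cB20_9_3_59 : chunkOkM (LB20_9.ctx true true 259 83 32 11 16 478 884 64 64) muQ true true 64 RtB20_9.Cx.left.right RtB20_9.CX RtB20_9.Ctp.right.right.right.left.right.right.right RtB20_9.Ce.right.right.left.right.right.right.left RtB20_9.CTp.right RtB20_9.CEr.right 0x32fc7b575cc13f29c7f61a5f5bc28f52469b687f240d = true := by decide +kernel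

theorem cB20_9_3_60 : chunkOkM (LB20_9.ctx true true 99 1 1 1 1 1 1 1 1) muQ true true 64 RtB20_9.Cx.left.right.left RtB20_9.CX RtB20_9.Ctp.right.right.right.left.right.right RtB20_9.Ce.right.right.left.right.right.right.right RtB20_9.CTp RtB20_9.CEr 0x21 = true := by decide +kernel

theorem cB20_9_3_61 : chunkOkM (LB20_9.ctx true true 274 167 64 21 32 238 892 256 64) muQ true true 64 RtB20_9.Cx.left.right.right RtB20_9.CX RtB20_9.Ctp.right.right.right.left.right.right RtB20_9.Ce.right.right.left.right.right.right.right RtB20_9.CTp.left RtB20_9.CEr 0x4a572e80475cda10cd68b13a6f2448f623f31fc48f540d25ec45975c204ee0078bf76b26d7f624a12aa08f514b632d7f450d684a5425 = true := by decide +kernel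

theorem cB20_9_3_62 : chunkOkM (LB20_9.ctx true true 276 167 64 11 16 950 1788 64 128) muQ true true 64 RtB20_9.Cx.left.right.right RtB20_9.CX RtB20_9.Ctp.right.right.right.left.right.right RtB20_9.Ce.right.right.left.right.right.right.right RtB20_9.CTp.right RtB20_9.CEr 0x37e6fad75c4bf325f918349c858f61eedf8648f540d35add7a75cb7bd65f912e9e3bf8f61cffa4288f540d43dbfa0775c88e0ab6f913253fe48f6254ad9b98f540d37bf12b75cbfa1b16f917e59bab8f61f2572218f55e4f9167f450d60f066575c19209457f9161d4aba69f572b9978d19f440d3431053fc75ce4f372e7f6203310d98f5af39f267f440d635d20dc27fd2a675dbe8f627e685db8f530d6 = true := by decide +kernel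

theorem cB20_9_3_63 : chunkOkM (LB20_9.ctx true true 99 1 1 1 1 1 1 1 1) muQ true true 64 RtB20_9.Cx.right RtB20_9.CX RtB20_9.Ctp.right.right.right.left.right.left RtB20_9.Ce.right.right.left.right.right RtB20_9.CTp RtB20_9.CEr 0x49 = true := by decide +kernel

theorem cB20_9_3_64 : chunkOkM (LB20_9.ctx true true 99 1 1 1 1 1 1 1 1) muQ true true 64 RtB20_9.Cx.right RtB20_9.CX RtB20_9.Ctp.right.right.right.left.right.right RtB20_9.Ce.right.right.left.right.right.left RtB20_9.CTp RtB20_9.CEr 0x11 = true := by decide +kernel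

theorem cB20_9_3_65 : chunkOkM (LB20_9.ctx true true 244 43 16 11 16 238 884 32 32) muQ true true 64 RtB20_9.Cx.right RtB20_9.CX RtB20_9.Ctp.right.right.right.left.right.right RtB20_9.Ce.right.right.left.right.right.right.left RtB20_9.CTp RtB20_9.CEr 0x8c61ea65c24c4db378b3333fc751aaf43699ccea19f140d = true := by decide +kernel

end Vale.Agent.helper4.Q4
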