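import Vale.Agent.helper4.Q4TreeM
import Vale.Agent.helper4.Q4G.PB20_9

/-!
Checks for pairs of intervals of second moments.
-/

set_option maxRecDepth 100000
set_option linter.unusedVariables false

namespace Vale.Agent.helper4.Q4

theorem cB20_9_3_66 : chunkOkM (LB20_9.ctx true true 280 85 32 21 32 1902 892 256 64) muQ true true 64 RtB20_9.Cx.right.left RtB20_9.CX RtB20_9.Ctp.right.right.right.left.right.right RtB20_9.Ce.right.right.left.right.right.right.right RtB20_9.CTp.left RtB20_9.CEr 0x4a3d7c6dc75cfce2df68bfb03a937f62034851a8f5cedd00d7f450d1fb0f3475c318e9569bbb837a57f6245780b88f53dd3aa77f450d630622967fd615f7ba75c9c4f1047f62172ed798f513229cd38f450d20ca52d75c1bdfd6078b5916a857f62315c3738f5e7a04427f450d6493493384a5425 = true := by decide +kernel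

theorem cB20_9_3_67 : chunkOkM (LB20_9.ctx true true 255 85 32 11 16 238 892 64 64) muQ true true 64 RtB20_9.Cx.right.left RtB20_9.CX RtB20_9.Ctp.right.right.right.left.right.right RtB20_9.Ce.right.right.left.right.right.right.right RtB20_9.CTp.right RtB20_9.CEr.left 0x85913b37fddbc14247f621d1b8f48f5f09bde87f440d = true := by decide +kernel

theorem cB20_9_3_68 : chunkOkM (LB20_9.ctx true true 294 673 256 11 16 1902 3572 64 128) muQ true true 64 RtB20_9.Cx.right.left RtB20_9.CX RtB20_9.Ctp.right.right.right.left.right.right.left RtB20_9.Ce.right.right.left.right.right.right.right RtB20_9.CTp.right RtB20_9.CEr.right 0x494949593ebaeb375c6575546f93c4d5bbd8f623a6c9fe8f5f232cde7f450d3a49a1c75c21341b68beb5738d7f61dc8d8d68f540d6477711493988a7a75c8318306f93296d4188f62175b4638f5e5e7d1e7f450d39da7e375c1785fa68b189fb1a38f587f61727f440d6769474493493 = true := by decide +kernel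

theorem cB20_9_3_69 : chunkOkM (LB20_9.ctx true true 284 339 128 11 16 958 3580 64 128) muQ true true 64 RtB20_9.Cx.right.left RtB20_9.CX RtB20_9.Ctp.right.right.right.left.right.right.right RtB20_9.Ce.right.right.left.right.right.right.right RtB20_9.CTp.right RtB20_9.CEr.right 0x693ddffd075c4cf6fa67f61bfd645f8f530d64f42f3e8f04b3b7515e75c9cfe426f91da7a6868f620b201178f56e774777f450d3f9929e75c796b3768b32d0f78e8f625bc4d308f540d6382774075cba93d26f921c539f18f61f6890c78f5871c1f97f450d2faeb5b75c43767068b58cd53be8f61f1722c98f540d64737694 = true := by decide +kernel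

theorem cB20_9_3_70 : chunkOkM (LB20_9.ctx true true 99 1 1 1 1 1 1 1 1) muQ true true 64 RtB20_9.Cx.right.right RtB20_9.CX RtB20_9.Ctp.right.right.right.left.right.right RtB20_9.Ce.right.right.left.right.right.right.right RtB20_9.CTp RtB20_9.CEr 0x49 = true := by decide +kernel

theorem cB20_9_3_71 : chunkOkM (LB20_9.ctx true true 220 21 8 11 16 62 108 32 32) muQ true true 64 RtB20_9.Cx RtB20_9.CX RtB20_9.Ctp.right.right.right.right RtB20_9.Ce.right.right.left.right RtB20_9.CTp RtB20_9.CEr 0x402bc7b75c769735be8f6520907b08f1162a20d2f9f040d = true := by decide +kernel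

theorem cB20_9_3_72 : chunkOkM (LB20_9.ctx true true 226 21 8 11 16 114 228 32 32) muQ true true 64 RtB20_9.Cx RtB20_9.CX RtB20_9.Ctp.right.right.right.left.left RtB20_9.Ce.right.right.right.left.left RtB20_9.CTp RtB20_9.CEr 0x31d5802229f410c0ad8d39f220d = true := by decide +kernel

theorem cB20_9_3_73 : chunkOkM (LB20_9.ctx true true 99 1 1 1 1 1 1 1 1) muQ true true 64 RtB20_9.Cx.left RtB20_9.CX RtB20_9.Ctp.right.right.right.left.right RtB20_9.Ce.right.right.right.left.left RtB20_9.CTp RtB20_9.CEr 0x21 = true := by decide +kernel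

theorem cB20_9_3_74 : chunkOkM (LB20_9.ctx true true 99 1 1 1 1 1 1 1 1) muQ true true 64 RtB20_9.Cx.right RtB20_9.CX RtB20_9.Ctp.right.right.right.left.right.left RtB20_9.Ce.right.right.right.left.left RtB20_9.CTp RtB20_9.CEr 0x49 = true := by decide +kernel

theorem cB20_9_3_75 : chunkOkM (LB20_9.ctx true true 273 85 32 21 32 478 908 256 64) muQ true true 64 RtB20_9.Cx.right.left RtB20_9.CX RtB20_9.Ctp.right.right.right.left.right.right RtB20_9.Ce.right.right.right.left.left.left RtB20_9.CTp.left RtB20_9.CEr 0x4a4c4839675cd85e9ec7f621f948238f51c76c4bb8f440d2e0dc5075cb332e59bc8711b27f6267a8cf08f514da10ab8f450d64064b8075c126ae66a8f620e4d5a18f51142b5a18f440d216bd6475c1a8372578b1002c4948f623fe103a8f5ad5e2f57f450d696b4a96fde1bced2e8f610d6c84ca9f5458310cca9f440d3484a5425 = true := by decide +kernel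

theorem cB20_9_3_76 : chunkOkM (LB20_9.ctx true true 252 85 32 11 16 238 452 64 64) muQ true true 64 RtB20_9.Cx.right.left RtB20_9.CX RtB20_9.Ctp.right.right.right.left.right.right RtB20_9.Ce.right.right.right.left.left.left RtB20_9.CTp.right RtB20_9.CEr.left 0x9588ff77fddc43ec17f624ab80a38f514a14d0d8f440d = true := by decide +kernel

theorem cB20_9_3_77 : chunkOkM (LB20_9.ctx true true 260 85 32 11 16 474 900 64 64) muQ true true 64 RtB20_9.Cx.right.left RtB20_9.CX RtB20_9.Ctp.right.right.right.left.right.right.left RtB20_9.Ce.right.right.right.left.left.left.left RtB20_9.CTp.right RtB20_9.CEr.right 0x9b5f60f75c21340677f915557ee189f5770e0d5da9f440d = true := by decide +kernel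

theorem cB20_9_3_78 : chunkOkM (LB20_9.ctx true true 279 169 64 11 16 958 1804 64 128) muQ true true 64 RtB20_9.Cx.right.left.left RtB20_9.CX RtB20_9.Ctp.right.right.right.left.right.right.right RtB20_9.Ce.right.right.right.left.left.left.left RtB20_9.CTp.right RtB20_9.CEr.right 0x404639875cb1f38f6f91463c6328f620776a9f8f55e7aaaf7f450d2481af9469f6248fbc2b7caf5db33f82d2eaf430d3362c7d075c6461358bf851f947f6214447ac8f55ace1987f450d636433e375c5483456f9bd1d04a7f61ea093888f540d439470e75c80777d6f9102bfc358f6208de47a8f5119c72cb8f450d32b9440775c21adf3cc8f62006c2ba8f530d64 = true := by decide +kernel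

theorem cB20_9_3_79 : chunkOkM (LB20_9.ctx true true 284 341 128 11 16 958 3612 64 128) muQ true true 64 RtB20_9.Cx.right.left.right RtB20_9.CX RtB20_9.Ctp.right.right.right.left.right.right.right RtB20_9.Ce.right.right.right.left.left.left.left RtB20_9.CTp.right RtB20_9.CEr.right 0x493ed9b7a75cd29f946f923a96a0b8f61e1068808f5141db88a8f450d236a6b475cb261d368b4c5abc5d8f61fccd3eb8f5bba995e7f450d6773c9005e8f04b4694493 = true := by decide +kernel

theorem cB20_9_3_80 : chunkOkM (LB20_9.ctx true true 281 341 128 11 16 958 1812 64 128) muQ true true 64 RtB20_9.Cx.right.left RtB20_9.CX RtB20_9.Ctp.right.right.right.left.right.right RtB20_9.Ce.right.right.right.left.left.left.right RtB20_9.CTp.right RtB20_9.CEr.right 0x495943c450975c97fe7a6f922b0e09e8f62097fab78f51326374e8f450d4812f1375c242b7c618f61ee3404d8f54c14bd37f440d6474933bea5ca75c3d91028f8f6227aff008f530d7295f03cd99f4d1d77f408f220d3 = true := by decide +kernel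

theorem cB20_9_3_81 : chunkOkM (LB20_9.ctx true true 99 1 1 1 1 1 1 1 1) muQ true true 64 RtB20_9.Cx.right.left RtB20_9.CX RtB20_9.Ctp.right.right.right.left.right.right RtB20_9.Ce.right.right.right.left.left.right RtB20_9.CTp RtB20_9.CEr 0x59 = true := by decide +kernel

theorem cB20_9_3_82 : chunkOkM (LB20_9.ctx true true 99 1 1 1 1 1 1 1 1) muQ true true 64 RtB20_9.Cx.right.right RtB20_9.CX RtB20_9.Ctp.right.right.right.left.right.right RtB20_9.Ce.right.right.right.left.left RtB20_9.CTp RtB20_9.CEr 0x49 = true := by decide +kernel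

theorem cB20_9_3_83 : chunkOkM (LB20_9.ctx true true 99 1 1 1 1 1 1 1 1) muQ true true 64 RtB20_9.Cx RtB20_9.CX RtB20_9.Ctp.right.right.right.left RtB20_9.Ce.right.right.right.left.right RtB20_9.CTp RtB20_9.CEr 0x59 = true := by decide +kernel

theorem cB20_9_3_84 : chunkOkM (LB20_9.ctx true true 99 1 1 1 1 1 1 1 1) muQ true true 64 RtB20_9.Cx.left RtB20_9.CX RtB20_9.Ctp.right.right.right.right RtB20_9.Ce.right.right.right.left RtB20_9.CTp RtB20_9.CEr 0x01 = true := by decide +kernel

theorem cB20_9_3_85 : chunkOkM (LB20_9.ctx true true 272 85 32 21 32 482 900 256 64) muQ true true 64 RtB20_9.Cx.right.left RtB20_9.CX RtB20_9.Ctp.right.right.right.right.left.left RtB20_9.Ce.right.right.right.left.left.left.left RtB20_9.CTp RtB20_9.CEr 0x11350219d75c7a050107f61c29002f8f530d1ab618aa8f05b64a405274775c115d46878b82b44fa7f61ec1a6388f540d36cbf9b75cc5d2b59b95796767f61bfe3e5f8f599dcff57f250d684a542553 = true := by decide +kernel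

theorem cB20_9_3_86 : chunkOkM (LB20_9.ctx true true 268 85 32 21 32 242 908 256 64) muQ true true 64 RtB20_9.Cx.right.left RtB20_9.CX RtB20_9.Ctp.right.right.right.right.left.left RtB20_9.Ce.right.right.right.left.left.left.right RtB20_9.CTp.left RtB20_9.CEr 0x4afa4f036fd6680f6a75c1cc02dc78b10e32e168f61fa1df518f524098d47f460d39910c775c1a7592c78b158860d28f622d30d8f8f540d684a5425 = true := by decide +kernel

theorem cB20_9_3_87 : chunkOkM (LB20_9.ctx true true 255 85 32 11 16 242 908 64 64) muQ true true 64 RtB20_9.Cx.right.left RtB20_9.CX RtB20_9.Ctp.right.right.right.right.left.left RtB20_9.Ce.right.right.right.left.left.left.right RtB20_9.CTp.right RtB20_9.CEr.left 0xd260f217fdff63af37f62429e06e8f55562dcb7f240d = true := by decide +kernel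

theorem cB20_9_3_88 : chunkOkM (LB20_9.ctx true true 293 343 128 11 16 966 3628 64 128) muQ true true 64 RtB20_9.Cx.right.left RtB20_9.CX RtB20_9.Ctp.right.right.right.right.left.left.left RtB20_9.Ce.right.right.right.left.left.left.right RtB20_9.CTp.right RtB20_9.CEr.right 0x42c484575cc8bf206f9212823288f6204480e68f56fabe427f450d2c3673a75ce23383f7f61f7b1a478f530d643a4ffa75c1b3908dd8f520df5522c65c3bd529862a0bf6d22cfa6e94af430d3a5047c75ca8887b6f937b67b0d8f62096a0b08f5397370c7f450d558cd0275c19aec3d48f61e911a958f530d637d41ca75c114c8fa18f61e24d1eb8f530d47343a53aa475cffb8fd37f61f19c5d68f53e89c76f240d7 = true := by decide +kernel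

theorem cB20_9_3_89 : chunkOkM (LB20_9.ctx true true 259 85 32 11 16 486 908 64 64) muQ true true 64 RtB20_9.Cx.right.left RtB20_9.CX RtB20_9.Ctp.right.right.right.right.left.left.right RtB20_9.Ce.right.right.right.left.left.left.right RtB20_9.CTp.right RtB20_9.CEr.right 0x2bd2839a8f00b = true := by decide +kernel

theorem cB20_9_3_90 : chunkOkM (LB20_9.ctx true true 247 87 32 11 16 242 452 32 32) muQ true true 64 RtB20_9.Cx.right.right RtB20_9.CX RtB20_9.Ctp.right.right.right.right.left.left RtB20_9.Ce.right.right.right.left.left.left RtB20_9.CTp RtB20_9.CEr 0x1ead40e75c3aedf8178b510fd8c162af4553f731439f140d = true := by decide +kernel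

theorem cB20_9_3_91 : chunkOkM (LB20_9.ctx true true 99 1 1 1 1 1 1 1 1) muQ true true 64 RtB20_9.Cx.right RtB20_9.CX RtB20_9.Ctp.right.right.right.right.left.right RtB20_9.Ce.right.right.right.left.left.left RtB20_9.CTp RtB20_9.CEr 0x11 = true := by decide +kernel

end Vale.Agent.helper4.Q4
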