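import Vale.Agent.helper4.Q4TreeM
import Vale.Agent.helper4.Q4G.PB20_9

/-!
Checks for pairs of intervals of second moments.
-/

set_option maxRecDepth 100000
set_option linter.unusedVariables false

namespace Vale.Agent.helper4.Q4

theorem cB20_9_3_92 : chunkOkM (LB20_9.ctx true true 284 171 64 21 32 486 1836 256 128) muQ true true 64 RtB20_9.Cx.right.left RtB20_9.CX RtB20_9.Ctp.right.right.right.right.left RtB20_9.Ce.right.right.right.left.left.right RtB20_9.CTp RtB20_9.CEr 0x21013bd21ca75cc86657d7f61e491eaf8f530d4421c7f75c43a8926f92a3fde088f530d445409675cbd7e9f6f92a9e2b218f6228294178f5650e9067f450d432e8e3175c388248b136ad1938f620a443248f540d6369e91407fd2a02478a8f628fb5ffd8f530d64a62c228a75cc827bb68b267466ed8f6234fbc6b8f56ef94757f450d319d7d175c15284c278b244849e78f6266c54578f540d684a5425532174 = true := by decide +kernel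

theorem cB20_9_3_93 : chunkOkM (LB20_9.ctx true true 268 87 32 21 32 242 916 256 64) muQ true true 64 RtB20_9.Cx.right.right RtB20_9.CX RtB20_9.Ctp.right.right.right.right.left.left RtB20_9.Ce.right.right.right.left.left.right.left RtB20_9.CTp.left RtB20_9.CEr 0x4a6d479f375c2345612a8f622ff8da88f5f31fcc77f440d269ba9675c18558a69b10d722b38f620a7ef668f510525cb98f450d684a5425 = true := by decide +kernel

theorem cB20_9_3_94 : chunkOkM (LB20_9.ctx true true 296 345 128 11 16 974 3660 64 128) muQ true true 64 RtB20_9.Cx.right.right RtB20_9.CX RtB20_9.Ctp.right.right.right.right.left.left RtB20_9.Ce.right.right.right.left.left.right.left RtB20_9.CTp.right RtB20_9.CEr 0x11155f69c38f00b693fd475675c104221e58f61ea7c1088f530d7371144945fdbc275ced08906f914840e928f620b9f2c28f5c021ecb7f450d43c5db075c1cca4c68bd8f334d7f61f2979d08f5b2234257f450d66942a458b75cc6d7086f91edadca38f620c05ea58f58871d787f450d4787e6075c4290ce68bb239f687f620943ad18f5197d15f18f450d6754960cd75c13000fe0dd15cf64ec64b9a4daf430d44749336af996e7fde73a0a27f6249abf1c8f596f86be7f440d6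 = true := by decide +kernel

theorem cB20_9_3_95 : chunkOkM (LB20_9.ctx true true 268 87 32 21 32 242 924 256 64) muQ true true 64 RtB20_9.Cx.right.right RtB20_9.CX RtB20_9.Ctp.right.right.right.right.left.left RtB20_9.Ce.right.right.right.left.left.right.right RtB20_9.CTp.left RtB20_9.CEr 0x4a503c88075c1522d33a8f6243b97908f5ccafdad7f440d2bb98e675c1cdc0d69b1679f6f78f6251110f28f510503bb78f450d684a5425 = true := by decide +kernel

theorem cB20_9_3_96 : chunkOkM (LB20_9.ctx true true 256 87 32 11 16 242 924 64 64) muQ true true 64 RtB20_9.Cx.right.right RtB20_9.CX RtB20_9.Ctp.right.right.right.right.left.left RtB20_9.Ce.right.right.right.left.left.right.right RtB20_9.CTp.right RtB20_9.CEr.left 0x105eef8c8fd670958e7f625a70d1b8f51432aafe8f440d = true := by decide +kernel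

theorem cB20_9_3_97 : chunkOkM (LB20_9.ctx true true 275 173 64 11 16 966 1844 64 128) muQ true true 64 RtB20_9.Cx.right.right RtB20_9.CX RtB20_9.Ctp.right.right.right.right.left.left.left RtB20_9.Ce.right.right.right.left.left.right.right RtB20_9.CTp.right RtB20_9.CEr.right 0x49593dd3f1075ce778146f9511c8337f6220441f48f51ed301028f450d45ec656fd354a78275c2632cd68bce4694e7f621e99c958f51593ee438f460d647493 = true := by decide +kernel

theorem cB20_9_3_98 : chunkOkM (LB20_9.ctx true true 278 347 128 11 16 486 1852 64 128) muQ true true 64 RtB20_9.Cx.right.right.left RtB20_9.CX RtB20_9.Ctp.right.right.right.right.left.left.right RtB20_9.Ce.right.right.right.left.left.right.right RtB20_9.CTp.right RtB20_9.CEr.right 0x4a6ee2575cfe12ee6f9176c860d8f6208dfa648f594d55677f450d4b1e26975c16dfca68b109887398f621958f9e8f540d62174339dc375ceca8656f9120cba508f61ee920488f57087b647f450d4862dec75c36870468b172c07178f61c0d3b0a8f539446c67f250d64 = true := by decide +kernel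

theorem cB20_9_3_99 : chunkOkM (LB20_9.ctx true true 293 349 128 11 16 3886 3708 64 128) muQ true true 64 RtB20_9.Cx.right.right.right RtB20_9.CX RtB20_9.Ctp.right.right.right.right.left.left.right RtB20_9.Ce.right.right.right.left.left.right.right RtB20_9.CTp.right RtB20_9.CEr.right 0x69441a32675c10b7e6a7f91c0d0d37f61eb5bee48f5a466b227f450d532c33f75c3bec8268b7a17036f61f5b4ab98f540d676944945249e275c111a9657f9609c4fc7f6204ba6358f5107b9eb38f450d471279a75c7bef9368b22e4b0aa8f51f823cb58f440d674512df275c103a9d97f91edb666a8f5baa52b17f440d31b05c644934933662be5be8f04b4 = true := by decide +kernel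

theorem cB20_9_3_100 : chunkOkM (LB20_9.ctx true true 246 87 32 11 16 246 460 32 32) muQ true true 64 RtB20_9.Cx.right.right RtB20_9.CX RtB20_9.Ctp.right.right.right.right.left.right RtB20_9.Ce.right.right.right.left.left.right RtB20_9.CTp RtB20_9.CEr 0x16a212375c1dd5944859f171089e7669f030d = true := by decide +kernel

theorem cB20_9_3_101 : chunkOkM (LB20_9.ctx true true 99 1 1 1 1 1 1 1 1) muQ true true 64 RtB20_9.Cx.right.left RtB20_9.CX RtB20_9.Ctp.right.right.right.right.left RtB20_9.Ce.right.right.right.left.right.left RtB20_9.CTp RtB20_9.CEr 0x21 = true := by decide +kernel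

theorem cB20_9_3_102 : chunkOkM (LB20_9.ctx true true 269 87 32 21 32 242 932 256 64) muQ true true 64 RtB20_9.Cx.right.right RtB20_9.CX RtB20_9.Ctp.right.right.right.right.left.left RtB20_9.Ce.right.right.right.left.right.left.left RtB20_9.CTp.left RtB20_9.CEr 0x4a5d571b475c1ececf418f6231da4758f511555e2b8f440d287cd4975c1c34c069bb419c5f7f627831ed18f51305820c8f450d684a5425 = true := by decide +kernel

theorem cB20_9_3_103 : chunkOkM (LB20_9.ctx true true 276 175 64 11 16 974 1868 64 128) muQ true true 64 RtB20_9.Cx.right.right RtB20_9.CX RtB20_9.Ctp.right.right.right.right.left.left RtB20_9.Ce.right.right.right.left.right.left.left RtB20_9.CTp.right RtB20_9.CEr 0x456160e75c12f239b7f9d80a23a7f620c33fed8f5f16a8577f450d2d5781b75c1b440f97f996523b7cd9f42cc5031699f240d34586be775c6f746668b33cd318c8f626ebdc538f5f6f53dd7f450d647ee81c75c110eabd7f9ab4af667f61f93a9228f5eba2ad77f450d571d51575ce624e26f91e0bd95ad9f5b658ff13a9f440d34e8261675c17c9fb618f620a76ae78f5ba6041c7f440d642172c13b9c409f4dba0dbc18f220d348f31f77fdd6eb37e7f626b8f46b8f5131d2efc8f440d6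 = true := by decide +kernel

theorem cB20_9_3_104 : chunkOkM (LB20_9.ctx true true 99 1 1 1 1 1 1 1 1) muQ true true 64 RtB20_9.Cx.right.right RtB20_9.CX RtB20_9.Ctp.right.right.right.right.left.left RtB20_9.Ce.right.right.right.left.right.left.right RtB20_9.CTp RtB20_9.CEr 0x59 = true := by decide +kernel

theorem cB20_9_3_105 : chunkOkM (LB20_9.ctx true true 99 1 1 1 1 1 1 1 1) muQ true true 64 RtB20_9.Cx.right.right.left RtB20_9.CX RtB20_9.Ctp.right.right.right.right.left.right RtB20_9.Ce.right.right.right.left.right.left RtB20_9.CTp RtB20_9.CEr 0x01 = true := by decide +kernel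

theorem cB20_9_3_106 : chunkOkM (LB20_9.ctx true true 289 175 64 21 32 982 1868 256 128) muQ true true 64 RtB20_9.Cx.right.right.right RtB20_9.CX RtB20_9.Ctp.right.right.right.right.left.right.left RtB20_9.Ce.right.right.right.left.right.left.left RtB20_9.CTp RtB20_9.CEr 0x2e99315c8f00b45cb43475c1405ea77f9e8020db7f61f0842818f58b07ab37f450d35232b7b75c1d34658b11567fda8f61e249c3f8f540d63ac001975c1b2f7f6f9c4429d6f61cf268628f540d41e36fbd68f05b64a52298f875c152b7c578b65500a47f6235ccaab8f5866c8fe7f450d32566a475c183f12478b84ae0c27f622ccaaee8f540d684a54255 = true := by decide +kernel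

end Vale.Agent.helper4.Q4
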