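import Vale.Agent.helper4.Q4TreeM
import Vale.Agent.helper4.Q4G.PB20_9_0
import Vale.Agent.helper4.Q4G.PB20_9_1
import Vale.Agent.helper4.Q4G.PB20_9_2
import Vale.Agent.helper4.Q4G.PB20_9_3
import Vale.Agent.helper4.Q4G.PB20_9_4
import Vale.Agent.helper4.Q4G.PB20_9_5

/-!
Checks for pairs of intervals of second moments.
-/

set_option maxRecDepth 100000
set_option linter.unusedVariables false

namespace Vale.Agent.helper4.Q4

theorem covB20_9 : LB20_9.Full muQ.val RtB20_9 := ⟨(LitT.Cov.split_t (LitT.cov_of_chunkM cB20_9_3_0) (LitT.Cov.split_t (LitT.cov_of_chunkM cB20_9_3_1) (LitT.Cov.split_e (LitT.cov_of_chunkM cB20_9_3_2) (LitT.Cov.split_t (LitT.cov_of_chunkM cB20_9_3_3) (LitT.Cov.split_e (LitT.cov_of_chunkM cB20_9_3_4) (LitT.Cov.split_e (LitT.Cov.split_e (LitT.cov_of_chunkM cB20_9_3_5) (LitT.Cov.split_t (LitT.Cov.split_e (LitT.Cov.split_t (LitT.Cov.split_t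 (LitT.cov_of_chunkM cB20_9_3_6) (LitT.Cov.split_t (LitT.cov_of_chunkM cB20_9_3_7) (LitT.Cov.split_e (LitT.Cov.split_x (LitT.Cov.split_e (LitT.cov_of_chunkM cB20_9_3_8) (LitT.Cov.split_x (LitT.Cov.split_T (LitT.cov_of_chunkM cB20_9_3_9) (LitT.cov_of_chunkM cB20_9_3_10)) (LitT.cov_of_chunkM cB20_9_3_11))) (LitT.cov_of_chunkM cB20_9_3_12)) (LitT.Cov.split_x (LitT.Cov.split_x (LitT.Cov.split_x (LitT.Cov.split_e (LitT.Cov.split_T (LitT.cov_of_chunkM cB20_9_3_13) (LitT.Cov.split_E (LitT.cov_of_chunkM cB20_9_3_14) (LitT.cov_of_chunkM cB20_9_3_15))) (LitT.cov_of_chunkM cB20_9_3_16)) (LitT.cov_of_chunkM cB20_9_3_17)) (LitT.cov_of_chunkM cB20_9_3_18)) (LitT.cov_of_chunkM cB20_9_3_19))))) (LitT.Cov.split_e (LitT.cov_of_chunkM cB20_9_3_20) (LitT.Cov.split_x (LitT.Cov.split_x (LitT.Cov.split_t (LitT.Cov.split_e (LitT.Cov.split_T (LitT.cov_of_chunkM cB20_9_3_21) (LitT.cov_of_chunkM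 cB20_9_3_22)) (LitT.Cov.split_T (LitT.Cov.split_T (LitT.cov_of_chunkM cB20_9_3_23) (LitT.Cov.split_T (LitT.cov_of_chunkM cB20_9_3_24) (LitT.Cov.split_X (LitT.Cov.split_x (LitT.cov_of_chunkM cB20_9_3_25) (LitT.cov_of_chunkM cB20_9_3_26)) (LitT.cov_of_chunkM cB20_9_3_27)))) (LitT.Cov.split_E (LitT.cov_of_chunkM cB20_9_3_28) (LitT.Cov.split_t (LitT.Cov.split_x (LitT.cov_of_chunkM cB20_9_3_29) (LitT.Cov.split_e (LitT.cov_of_chunkM cB20_9_3_30) (LitT.cov_of_chunkM cB20_9_3_31))) (LitT.cov_of_chunkM cB20_9_3_32))))) (LitT.cov_of_chunkM cB20_9_3_33)) (LitT.cov_of_chunkM cB20_9_3_34)) (LitT.cov_of_chunkM cB20_9_3_35)))) (LitT.Cov.split_t (LitT.cov_of_chunkM cB20_9_3_36) (LitT.Cov.split_x (LitT.Cov.split_e (LitT.Cov.split_x (LitT.Cov.split_t (LitT.Cov.split_T (LitT.cov_of_chunkM cB20_9_3_37) (LitT.Cov.split_E (LitT.cov_of_chunkM cB20_9_3_38) (LitT.Cov.split_e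 (LitT.Cov.split_t (LitT.cov_of_chunkM cB20_9_3_39) (LitT.cov_of_chunkM cB20_9_3_40)) (LitT.cov_of_chunkM cB20_9_3_41)))) (LitT.cov_of_chunkM cB20_9_3_42)) (LitT.Cov.split_t (LitT.Cov.split_t (LitT.cov_of_chunkM cB20_9_3_43) (LitT.Cov.split_e (LitT.Cov.split_T (LitT.cov_of_chunkM cB20_9_3_44) (LitT.cov_of_chunkM cB20_9_3_45)) (LitT.Cov.split_T (LitT.cov_of_chunkM cB20_9_3_46) (LitT.Cov.split_E (LitT.cov_of_chunkM cB20_9_3_47) (LitT.cov_of_chunkM cB20_9_3_48))))) (LitT.Cov.split_e (LitT.cov_of_chunkM cB20_9_3_49) (LitT.Cov.split_T (LitT.cov_of_chunkM cB20_9_3_50) (LitT.cov_of_chunkM cB20_9_3_51))))) (LitT.Cov.split_x (LitT.cov_of_chunkM cB20_9_3_52) (LitT.Cov.split_t (LitT.cov_of_chunkM cB20_9_3_53) (LitT.Cov.split_e (LitT.Cov.split_T (LitT.cov_of_chunkM cB20_9_3_54) (LitT.Cov.split_E (LitT.cov_of_chunkM cB20_9_3_55) (LitT.Cov.split_t (LitT.Cov.split_x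 (LitT.cov_of_chunkM cB20_9_3_56) (LitT.Cov.split_e (LitT.cov_of_chunkM cB20_9_3_57) (LitT.cov_of_chunkM cB20_9_3_58))) (LitT.cov_of_chunkM cB20_9_3_59)))) (LitT.Cov.split_x (LitT.cov_of_chunkM cB20_9_3_60) (LitT.Cov.split_T (LitT.cov_of_chunkM cB20_9_3_61) (LitT.cov_of_chunkM cB20_9_3_62))))))) (LitT.Cov.split_t (LitT.cov_of_chunkM cB20_9_3_63) (LitT.Cov.split_e (LitT.cov_of_chunkM cB20_9_3_64) (LitT.Cov.split_e (LitT.cov_of_chunkM cB20_9_3_65) (LitT.Cov.split_x (LitT.Cov.split_T (LitT.cov_of_chunkM cB20_9_3_66) (LitT.Cov.split_E (LitT.cov_of_chunkM cB20_9_3_67) (LitT.Cov.split_t (LitT.cov_of_chunkM cB20_9_3_68) (LitT.cov_of_chunkM cB20_9_3_69)))) (LitT.cov_of_chunkM cB20_9_3_70)))))))) (LitT.cov_of_chunkM cB20_9_3_71))) (LitT.Cov.split_e (LitT.Cov.split_t (LitT.Cov.split_e (LitT.Cov.split_t (LitT.cov_of_chunkM cB20_9_3_72) (LitT.Cov.split_x (LitT.cov_of_chunkM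 cB20_9_3_73) (LitT.Cov.split_t (LitT.cov_of_chunkM cB20_9_3_74) (LitT.Cov.split_x (LitT.Cov.split_e (LitT.Cov.split_T (LitT.cov_of_chunkM cB20_9_3_75) (LitT.Cov.split_E (LitT.cov_of_chunkM cB20_9_3_76) (LitT.Cov.split_e (LitT.Cov.split_t (LitT.cov_of_chunkM cB20_9_3_77) (LitT.Cov.split_x (LitT.cov_of_chunkM cB20_9_3_78) (LitT.cov_of_chunkM cB20_9_3_79))) (LitT.cov_of_chunkM cB20_9_3_80)))) (LitT.cov_of_chunkM cB20_9_3_81)) (LitT.cov_of_chunkM cB20_9_3_82))))) (LitT.cov_of_chunkM cB20_9_3_83)) (LitT.Cov.split_x (LitT.cov_of_chunkM cB20_9_3_84) (LitT.Cov.split_t (LitT.Cov.split_e (LitT.Cov.split_e (LitT.Cov.split_t (LitT.Cov.split_x (LitT.Cov.split_e (LitT.cov_of_chunkM cB20_9_3_85) (LitT.Cov.split_T (LitT.cov_of_chunkM cB20_9_3_86) (LitT.Cov.split_E (LitT.cov_of_chunkM cB20_9_3_87) (LitT.Cov.split_t (LitT.cov_of_chunkM cB20_9_3_88) (LitT.cov_of_chunkM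 cB20_9_3_89))))) (LitT.cov_of_chunkM cB20_9_3_90)) (LitT.cov_of_chunkM cB20_9_3_91)) (LitT.Cov.split_x (LitT.cov_of_chunkM cB20_9_3_92) (LitT.Cov.split_t (LitT.Cov.split_e (LitT.Cov.split_T (LitT.cov_of_chunkM cB20_9_3_93) (LitT.cov_of_chunkM cB20_9_3_94)) (LitT.Cov.split_T (LitT.cov_of_chunkM cB20_9_3_95) (LitT.Cov.split_E (LitT.cov_of_chunkM cB20_9_3_96) (LitT.Cov.split_t (LitT.cov_of_chunkM cB20_9_3_97) (LitT.Cov.split_x (LitT.cov_of_chunkM cB20_9_3_98) (LitT.cov_of_chunkM cB20_9_3_99)))))) (LitT.cov_of_chunkM cB20_9_3_100)))) (LitT.Cov.split_e (LitT.Cov.split_x (LitT.cov_of_chunkM cB20_9_3_101) (LitT.Cov.split_t (LitT.Cov.split_e (LitT.Cov.split_T (LitT.cov_of_chunkM cB20_9_3_102) (LitT.cov_of_chunkM cB20_9_3_103)) (LitT.cov_of_chunkM cB20_9_3_104)) (LitT.Cov.split_x (LitT.cov_of_chunkM cB20_9_3_105) (LitT.Cov.split_t (LitT.Cov.split_e (LitT.cov_of_chunkM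 cB20_9_3_106) (LitT.cov_of_chunkM cB20_9_3_107)) (LitT.cov_of_chunkM cB20_9_3_108))))) (LitT.cov_of_chunkM cB20_9_3_109))) (LitT.cov_of_chunkM cB20_9_3_110)))) (LitT.cov_of_chunkM cB20_9_3_111)))))))), (LitT.cov_of_chunkM cB20_9_1_0), (LitT.cov_of_chunkM cB20_9_2_0), (LitT.cov_of_chunkM cB20_9_0_0)⟩

end Vale.Agent.helper4.Q4
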