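import Vale.Agent.helper4.Q4TreeM
import Vale.Agent.helper4.Q4G.PB21_10

/-!
Checks for pairs of intervals of second moments.
-/

set_option maxRecDepth 100000
set_option linter.unusedVariables false

namespace Vale.Agent.helper4.Q4

theorem cB21_10_3_0 : chunkOkM (LB21_10.ctx true true 105 1 1 1 1 1 1 1 1) muQ true true 64 RtB21_10.Cx RtB21_10.CX RtB21_10.Ctp.left RtB21_10.Ce RtB21_10.CTp RtB21_10.CEr 0x41 = true := by decide +kernel

theorem cB21_10_3_1 : chunkOkM (LB21_10.ctx true true 105 1 1 1 1 1 1 1 1) muQ true true 64 RtB21_10.Cx RtB21_10.CX RtB21_10.Ctp.right RtB21_10.Ce.left RtB21_10.CTp RtB21_10.CEr 0x69 = true := by decide +kernel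

theorem cB21_10_3_2 : chunkOkM (LB21_10.ctx true true 105 1 1 1 1 1 1 1 1) muQ true true 64 RtB21_10.Cx RtB21_10.CX RtB21_10.Ctp.right.left RtB21_10.Ce.right RtB21_10.CTp RtB21_10.CEr 0x41 = true := by decide +kernel

theorem cB21_10_3_3 : chunkOkM (LB21_10.ctx true true 105 1 1 1 1 1 1 1 1) muQ true true 64 RtB21_10.Cx RtB21_10.CX RtB21_10.Ctp.right.right RtB21_10.Ce.right RtB21_10.CTp.left RtB21_10.CEr 0x42 = true := by decide +kernel

theorem cB21_10_3_4 : chunkOkM (LB21_10.ctx true true 105 1 1 1 1 1 1 1 1) muQ true true 64 RtB21_10.Cx RtB21_10.CX RtB21_10.Ctp.right.right.left RtB21_10.Ce.right RtB21_10.CTp.right RtB21_10.CEr 0x49 = true := by decide +kernel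

theorem cB21_10_3_5 : chunkOkM (LB21_10.ctx true true 105 1 1 1 1 1 1 1 1) muQ true true 64 RtB21_10.Cx RtB21_10.CX RtB21_10.Ctp.right.right.right RtB21_10.Ce.right.left RtB21_10.CTp.right RtB21_10.CEr 0x11 = true := by decide +kernel

theorem cB21_10_3_6 : chunkOkM (LB21_10.ctx true true 105 1 1 1 1 1 1 1 1) muQ true true 64 RtB21_10.Cx RtB21_10.CX RtB21_10.Ctp.right.right.right.left RtB21_10.Ce.right.right.left.left RtB21_10.CTp.right RtB21_10.CEr 0x11 = true := by decide +kernel

theorem cB21_10_3_7 : chunkOkM (LB21_10.ctx true true 105 1 1 1 1 1 1 1 1) muQ true true 64 RtB21_10.Cx RtB21_10.CX RtB21_10.Ctp.right.right.right.left RtB21_10.Ce.right.right.left.right.left RtB21_10.CTp.right RtB21_10.CEr 0x69 = true := by decide +kernel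

theorem cB21_10_3_8 : chunkOkM (LB21_10.ctx true true 105 1 1 1 1 1 1 1 1) muQ true true 64 RtB21_10.Cx RtB21_10.CX RtB21_10.Ctp.right.right.right.left.left.left RtB21_10.Ce.right.right.left.right.right RtB21_10.CTp.right RtB21_10.CEr 0x49 = true := by decide +kernel

theorem cB21_10_3_9 : chunkOkM (LB21_10.ctx true true 302 5889 2048 13 16 1955 1853 32 8) muQ true true 64 RtB21_10.Cx RtB21_10.CX RtB21_10.Ctp.right.right.right.left.left.right RtB21_10.Ce.right.right.left.right.right.left RtB21_10.CTp.right RtB21_10.CEr 0x3e8d60e77cd1e40d6ab7f9348d58f81a7f91a203becf41b9b3cae14bbf150d = true := by decide +kernel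

theorem cB21_10_3_10 : chunkOkM (LB21_10.ctx true true 315 22785 8192 13 16 1955 1887 32 16) muQ true true 64 RtB21_10.Cx.left.left RtB21_10.CX RtB21_10.Ctp.right.right.right.left.left.right RtB21_10.Ce.right.right.left.right.right.right RtB21_10.CTp.right RtB21_10.CEr.left 0x179f895f8ab1162ce62e9af81bd0d6d643af6b7a964cdc9f5481411d669f450d = true := by decide +kernel

theorem cB21_10_3_11 : chunkOkM (LB21_10.ctx true true 409 5767425 2097152 13 16 125103 29971 64 75) muQ true true 64 RtB21_10.Cx.left.left RtB21_10.CX RtB21_10.Ctp.right.right.right.left.left.right.left RtB21_10.Ce.right.right.left.right.right.right.left RtB21_10.CTp.right RtB21_10.CEr.right 0x494949594949495949491054947786c5bee41128f95f5f467429f54aa83c60a9f440d10a26a9b86c1955dbb88f9c6624d4349f661fd52e749f5294655c5f0af450d611d05c56944b25514bf9f05bcece4d57fd8f3ae6776c29b350679b37e3bd0819f5e2e3bb8069f450d567747774777493493493493493 = true := by decide +kernel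

theorem cB21_10_3_12 : chunkOkM (LB21_10.ctx true true 360 90369 32768 13 16 7837 59959 64 75) muQ true true 64 RtB21_10.Cx.left.left.left RtB21_10.CX RtB21_10.Ctp.right.right.right.left.left.right.right RtB21_10.Ce.right.right.left.right.right.right.left.left RtB21_10.CTp.right RtB21_10.CEr.right 0x116915103e6f86c43139ca48f98f71e1a0e9f6667ecf14e9f51d684f2349f450de7c96b376c1b180e548f99d96f89239f664c9e856d9f525e934dfb9f450d6ff8256876c532de36b8f9109f70c509f65e0ed5bb79f523bf7713e9f450de72dc6576c263cbbfd8f9258e1ae239f6606de57f89f540d6694694484cdb0bfd96c253c2c35c99b4f85079899f662b86eeb69f51a40ab6849f450d57350eabcf38fdbf6ade67c16e340bb55af66c4f16a929f520f9c278d9f450d241140b18fdc1dbe467c2cb341279b5165f609a9f6605b8d03b9f526de6052d9f460d56 = true := by decide +kernel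

theorem cB21_10_3_13 : chunkOkM (LB21_10.ctx true true 338 45313 16384 13 16 3927 7531 64 32) muQ true true 64 RtB21_10.Cx.left.left.left RtB21_10.CX RtB21_10.Ctp.right.right.right.left.left.right.right RtB21_10.Ce.right.right.left.right.right.right.left.right RtB21_10.CTp.right RtB21_10.CEr.right.left 0x5296e4e18fd9970f467c26e1d4d249f66964007f59f527570827d9f450dc0946187fdaec0f4376c35025e579b4ef43aeb09f6652b7740f9f5299fee18e9f460d5 = true := by decide +kernel

theorem cB21_10_3_14 : chunkOkM (LB21_10.ctx true true 364 181509 65536 13 16 15691 15079 64 75) muQ true true 64 RtB21_10.Cx.left.left.left RtB21_10.CX RtB21_10.Ctp.right.right.right.left.left.right.right.left RtB21_10.Ce.right.right.left.right.right.right.left.right RtB21_10.CTp.right RtB21_10.CEr.right.right 0x4913ca5bd886c57ee17488f959b6560a09f530d1083a1c086c13cabe258f957347e6019f6650106d429f520950f91e9f450d6769449311a4b2ca86c6bc799268f935e550f8e9f6634ed3f7f9f51a32301a09f450d60a3366fde92033076c1bfb39e78f936293668b9f66814ff47d9f52d15d17299f460d677f1f9884296c2375438ca99b58d761e98f65b1cd94399f540d5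 = true := by decide +kernel

theorem cB21_10_3_15 : chunkOkM (LB21_10.ctx true true 365 180995 65536 13 16 15725 15079 64 75) muQ true true 64 RtB21_10.Cx.left.left.left RtB21_10.CX RtB21_10.Ctp.right.right.right.left.left.right.right.right RtB21_10.Ce.right.right.left.right.right.right.left.right RtB21_10.CTp.right RtB21_10.CEr.right.right 0x15ecc0ea86c56a756b78f91c442bb730af66c9edfb4c9f540d902fe747fde6ad7367c12dfdd478f95f5a8022d9f67036583b39f550d611411d05c501f77ea6776c545d82988f91245039089f65e66153a29f540db8dfff576c202d8c518f9eb2e77f209f6613b44e579f540d6217e79307c76c35a87ecd8f96a20b14bf9f65b857e59b9f540d45d492e34696c1a203779299b6fbfbe318f65cd14eed59f540d537 = true := by decide +kernel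

theorem cB21_10_3_16 : chunkOkM (LB21_10.ctx true true 105 1 1 1 1 1 1 1 1) muQ true true 64 RtB21_10.Cx.left.left.right RtB21_10.CX RtB21_10.Ctp.right.right.right.left.left.right.right RtB21_10.Ce.right.right.left.right.right.right.left RtB21_10.CTp.right RtB21_10.CEr.right 0x69 = true := by decide +kernel

theorem cB21_10_3_17 : chunkOkM (LB21_10.ctx true true 322 22785 8192 13 16 3893 3791 32 16) muQ true true 64 RtB21_10.Cx.left.left RtB21_10.CX RtB21_10.Ctp.right.right.right.left.left.right.left RtB21_10.Ce.right.right.left.right.right.right.right RtB21_10.CTp.right RtB21_10.CEr.right 0x9bef1622e9f56918d56e11af420d = true := by decide +kernel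

theorem cB21_10_3_18 : chunkOkM (LB21_10.ctx true true 335 45313 16384 13 16 3927 3791 64 32) muQ true true 64 RtB21_10.Cx.left.left.left RtB21_10.CX RtB21_10.Ctp.right.right.right.left.left.right.right RtB21_10.Ce.right.right.left.right.right.right.right RtB21_10.CTp.right RtB21_10.CEr.right.left 0x603b450c8fd9997b8676c39ff0507d9f66b2300ac49f52107bf60c9f450dafa51657fdabbfd167c35140ce79b362b1c76f9f66af0fedec9f52c65157789f460d5 = true := by decide +kernel

theorem cB21_10_3_19 : chunkOkM (LB21_10.ctx true true 365 181509 65536 13 16 15691 15147 64 75) muQ true true 64 RtB21_10.Cx.left.left.left RtB21_10.CX RtB21_10.Ctp.right.right.right.left.left.right.right RtB21_10.Ce.right.right.left.right.right.right.right.left RtB21_10.CTp.right RtB21_10.CEr.right.right 0x10d55ec586c44b2ec018f95b83111c89f65c3bf23a69f53894e988b9f450dbd53beb76c2e904e2f8f95bc1b97aa9f66528814ff9f51e937df7e9f450d610d2076d86c50f212cf8f933c5c5d7d9f662e6adf9a9f540d223fcc198fd11fcb62a86c20a4ddb18f94af88d2629f66367753489f521eff240e9f460d64f2fc30676c3433c6678f98ba1e1ef59f66bb380b889f540d7495910e451f186c5f842aee8f91bba4200c8af656715760d9f53690b87909f450d49a623168fdeaf1e1576c23ca10238f967ad959f79f523f5680b59f450d6474935973b7c078e4c96c33630addd99b342baa1c89f65da5c955f9f547229286d9f450d5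 = true := by decide +kernel

end Vale.Agent.helper4.Q4
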