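import Vale.Agent.helper4.Q4TreeM
import Vale.Agent.helper4.Q4G.PB21_10

/-!
Checks for pairs of intervals of second moments.
-/

set_option maxRecDepth 100000
set_option linter.unusedVariables false

namespace Vale.Agent.helper4.Q4

theorem cB21_10_3_20 : chunkOkM (LB21_10.ctx true true 360 182023 65536 13 16 7871 15181 64 75) muQ true true 64 RtB21_10.Cx.left.left.left RtB21_10.CX RtB21_10.Ctp.right.right.right.left.left.right.right RtB21_10.Ce.right.right.left.right.right.right.right.right RtB21_10.CTp.right RtB21_10.CEr.right.right 0x2116d87bad86c4c70721d8f969f008be59f513aea46439f440df9bb4127fd128f38dc86c1f3a432a8f91675346c8f66cebbc0bf9f550d659157538096c18ef49a7899b666576bdf9f51c67c71919f440d52174217593 = true := by decide +kernel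

theorem cB21_10_3_21 : chunkOkM (LB21_10.ctx true true 105 1 1 1 1 1 1 1 1) muQ true true 64 RtB21_10.Cx.left.left.right RtB21_10.CX RtB21_10.Ctp.right.right.right.left.left.right.right.left RtB21_10.Ce.right.right.left.right.right.right.right RtB21_10.CTp.right RtB21_10.CEr.right 0x49 = true := by decide +kernel

theorem cB21_10_3_22 : chunkOkM (LB21_10.ctx true true 345 45827 16384 13 16 7871 15147 64 35) muQ true true 64 RtB21_10.Cx.left.left.right RtB21_10.CX RtB21_10.Ctp.right.right.right.left.left.right.right.right RtB21_10.Ce.right.right.left.right.right.right.right.left RtB21_10.CTp.right RtB21_10.CEr.right 0xfbddfc67c32bbce078f93d3936b7e9f61d024fa5acaf440db038b2ae996c317f2c2dc99b1b5fda210daf430d5694181693964eaf04bbe15ee67c334767079b3ea491ac79f61acabe3579af440d56 = true := by decide +kernel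

theorem cB21_10_3_23 : chunkOkM (LB21_10.ctx true true 351 91397 32768 13 16 7871 7599 64 75) muQ true true 64 RtB21_10.Cx.left.left.right RtB21_10.CX RtB21_10.Ctp.right.right.right.left.left.right.right.right RtB21_10.Ce.right.right.left.right.right.right.right.right RtB21_10.CTp.right RtB21_10.CEr.right 0x49114c3d2f86c547293dd8f95a87055379f65ccb3e9c19f5315f1246d9f450d560f23148fd103dddb686c1eb656508f93792881889f66857ecbb09f539374141a9f460d66604da49c96c1c490021799b5be54ea4f9f530d5eaf123176c3b15b85e29f6688cdf03d9f52fefd128a9f440d296c64778fd10385a9f86c3cae05d79b4c9a1241a9f668678daa49f52e99811ac9f460d567 = true := by decide +kernel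

theorem cB21_10_3_24 : chunkOkM (LB21_10.ctx true true 105 1 1 1 1 1 1 1 1) muQ true true 64 RtB21_10.Cx.left.right RtB21_10.CX RtB21_10.Ctp.right.right.right.left.left.right RtB21_10.Ce.right.right.left.right.right.right RtB21_10.CTp.right RtB21_10.CEr 0x49 = true := by decide +kernel

theorem cB21_10_3_25 : chunkOkM (LB21_10.ctx true true 105 1 1 1 1 1 1 1 1) muQ true true 64 RtB21_10.Cx.right RtB21_10.CX RtB21_10.Ctp.right.right.right.left.left.right RtB21_10.Ce.right.right.left.right.right.right RtB21_10.CTp.right RtB21_10.CEr 0x49 = true := by decide +kernel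

theorem cB21_10_3_26 : chunkOkM (LB21_10.ctx true true 355 91397 32768 13 16 7905 15215 64 75) muQ true true 64 RtB21_10.Cx RtB21_10.CX RtB21_10.Ctp.right.right.right.left.right RtB21_10.Ce.right.right.left.right.right RtB21_10.CTp.right RtB21_10.CEr 0x11011101111115fe791786c499e5ca98f9170740e0c9af642a450b3e9f5db91267f8f250d13ec1fbd8fdf1d8bb176c2289ae4d8f94a07ecf109f6628e1301b9f550d6fa5861276c34c9b31b8f96cd0788959f65cfa2e2a99f540d48493cd76e96c252d9f97199b65e79bbd39f530d5735b3681c979f05b1531aea28fdeb76af67c3b9d5a779bc5f13fc88f65e41cae7b9f550d56114301771143455e01d88ab2c2ea4a220af825e75a6e16af64436330a81af240d67114 = true := by decide +kernel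

theorem cB21_10_3_27 : chunkOkM (LB21_10.ctx true true 105 1 1 1 1 1 1 1 1) muQ true true 64 RtB21_10.Cx RtB21_10.CX RtB21_10.Ctp.right.right.right.right RtB21_10.Ce.right.right.left RtB21_10.CTp.right RtB21_10.CEr 0x11 = true := by decide +kernel

theorem cB21_10_3_28 : chunkOkM (LB21_10.ctx true true 299 5889 2048 13 16 969 969 32 8) muQ true true 64 RtB21_10.Cx RtB21_10.CX RtB21_10.Ctp.right.right.right.left.left RtB21_10.Ce.right.right.right.left.left RtB21_10.CTp.right RtB21_10.CEr 0x14dd5bc77c634420b48f82a973e868f6bf634b1ed1da37acf516623b788024fdf450d = true := by decide +kernel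

theorem cB21_10_3_29 : chunkOkM (LB21_10.ctx true true 309 11521 4096 13 16 1989 1921 32 16) muQ true true 64 RtB21_10.Cx.left RtB21_10.CX RtB21_10.Ctp.right.right.right.left.right.left RtB21_10.Ce.right.right.right.left.left.left RtB21_10.CTp.right RtB21_10.CEr.left 0x4a97b5c28ab2b6ab8fbf4af890c448d039f61de0b83f93af423379ca53eaf250d = true := by decide +kernel

theorem cB21_10_3_30 : chunkOkM (LB21_10.ctx true true 105 1 1 1 1 1 1 1 1) muQ true true 64 RtB21_10.Cx.left.left.left RtB21_10.CX RtB21_10.Ctp.right.right.right.left.right.left RtB21_10.Ce.right.right.right.left.left.left.left RtB21_10.CTp.right RtB21_10.CEr.right 0x01 = true := by decide +kernel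

theorem cB21_10_3_31 : chunkOkM (LB21_10.ctx true true 338 45827 16384 13 16 3961 7633 64 32) muQ true true 64 RtB21_10.Cx.left.left.right RtB21_10.CX RtB21_10.Ctp.right.right.right.left.right.left.left RtB21_10.Ce.right.right.right.left.left.left.left.left RtB21_10.CTp.right RtB21_10.CEr.right.left 0x12f8567f8fd116ceac77c5660f5ab42140369a9f663e0759f29f550dbac7c8076c278873879b28ec993319f664c20053f9f5b8ff69b38f450d5 = true := by decide +kernel

theorem cB21_10_3_32 : chunkOkM (LB21_10.ctx true true 359 91911 32768 13 16 15793 15283 64 75) muQ true true 64 RtB21_10.Cx.left.left.right RtB21_10.CX RtB21_10.Ctp.right.right.right.left.right.left.left RtB21_10.Ce.right.right.right.left.left.left.left.left RtB21_10.CTp.right RtB21_10.CEr.right.right 0x2102910d86c1bf124abb0af1733a0a4de6af030d10eaae2286c5afa6a9d8f98a73c32bd9f65b0b088639f52e9f1c7d49f450df0a465a7fd12e96b3286c1d8322168f970e50e71b9f669b45380e9f537a1f571b9f460d66913e82ade86c4a83f9fd8f93deab2c879f668c2769259f5f3e76c4c8f450d46c0054d8fdfd146bd76c1f57c7d68f95dfc533269f666fe1b9759f538309ac949f460d634111620a186c565f72ed8f91092e38d69f664cd7a6da9f540df061d4576c258a5d668f970425d5c59f66ec9226fe9f540d677c8b85e6f96c251908dbd99b2080a06d1daf61998556c19f440d53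 = true := by decide +kernel

theorem cB21_10_3_33 : chunkOkM (LB21_10.ctx true true 105 1 1 1 1 1 1 1 1) muQ true true 64 RtB21_10.Cx.left.left.right.left RtB21_10.CX RtB21_10.Ctp.right.right.right.left.right.left.left RtB21_10.Ce.right.right.right.left.left.left.left.right RtB21_10.CTp.right RtB21_10.CEr.right 0x21 = true := by decide +kernel

theorem cB21_10_3_34 : chunkOkM (LB21_10.ctx true true 344 91911 32768 13 16 3961 7667 64 32) muQ true true 64 RtB21_10.Cx.left.left.right.right RtB21_10.CX RtB21_10.Ctp.right.right.right.left.right.left.left RtB21_10.Ce.right.right.right.left.left.left.left.right RtB21_10.CTp.right RtB21_10.CEr.right.left 0x31e278358fdb9b584f76c51ea5891c9f66187fcdae9f528ca69c359f450dc6d028d76c35698b379b82f90f2299f6702b117529f514f9ce67d9f450d5 = true := by decide +kernel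

theorem cB21_10_3_35 : chunkOkM (LB21_10.ctx true true 365 184079 65536 13 16 15861 15351 64 75) muQ true true 64 RtB21_10.Cx.left.left.right.right RtB21_10.CX RtB21_10.Ctp.right.right.right.left.right.left.left RtB21_10.Ce.right.right.right.left.left.left.left.right RtB21_10.CTp.right RtB21_10.CEr.right.right 0x011103397486c4ffaa1988f9337d837c99f6625e86e879f540d657b22758fdf52377976c78148b83d9f66054c989e9f540d63e10a895496c11c28c20899b20d5fb0efc176c3714fa408f925523bc1a9f662891d9ae9f540d5908ce7c096c18e257ccb99bf6e4e4458f662a09f0d19f540d54301712c149aa86c772615048f933cadde309f6652f7832a9f5275930d6f9f450d4b29931e8fdf84791576c20c19c038f94ced2e5179f668d12ae949f53cd32651f9f460d68f16dd36696c26efa62c799b20d53 = true := by decide +kernel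

theorem cB21_10_3_36 : chunkOkM (LB21_10.ctx true true 105 1 1 1 1 1 1 1 1) muQ true true 64 RtB21_10.Cx.left.left.right RtB21_10.CX RtB21_10.Ctp.right.right.right.left.right.left.right RtB21_10.Ce.right.right.right.left.left.left.left RtB21_10.CTp.right RtB21_10.CEr.right 0x01 = true := by decide +kernel

theorem cB21_10_3_37 : chunkOkM (LB21_10.ctx true true 105 1 1 1 1 1 1 1 1) muQ true true 64 RtB21_10.Cx.left.left RtB21_10.CX RtB21_10.Ctp.right.right.right.left.right.left RtB21_10.Ce.right.right.right.left.left.left.right RtB21_10.CTp.right RtB21_10.CEr.right 0x21 = true := by decide +kernel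

end Vale.Agent.helper4.Q4
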