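import Vale.Agent.helper4.Q4TreeM
import Vale.Agent.helper4.Q4G.PB21_10

/-!
Checks for pairs of intervals of second moments.
-/

set_option maxRecDepth 100000
set_option linter.unusedVariables false

namespace Vale.Agent.helper4.Q4

theorem cB21_10_3_38 : chunkOkM (LB21_10.ctx true true 385 737601 262144 13 16 63359 15351 64 75) muQ true true 64 RtB21_10.Cx.left.right RtB21_10.CX RtB21_10.Ctp.right.right.right.left.right.left RtB21_10.Ce.right.right.right.left.left.left.left RtB21_10.CTp.right RtB21_10.CEr.right 0x1149111118c02e5c86c30e536968f921c634ab59f662d15bccb9f52d121a42f9f450d14095e27fd12ade7f086c1e47011e8f932712e1ff9f65ce45a33e9f550d637b73bc291096c33718f6ea99b64333ff0a9f530d51141149494912171a4986c620e47408f95d570cf149f6655ca730d9f52c2416d689f450d5bbfb6808fdead847c76c17007eee59af668827ebfc9f52e45bd67f9f450d67775c8805c9096c19e1c702a99b722e7aa98f663caf3cb29f52c935a7ee9f450d5769449349349336a3734fb8fda8b56867c8ffb9be399f65e43226e39f553e836c809f450dede1b737fdea1bd567c3d3adc279b6c9090dee9f665933fe739f54a3435c389f460d5676943 = true := by decide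 +kernel

theorem cB21_10_3_39 : chunkOkM (LB21_10.ctx true true 335 46341 16384 13 16 3961 3859 64 32) muQ true true 64 RtB21_10.Cx.left.right.left RtB21_10.CX RtB21_10.Ctp.right.right.right.left.right.left.left RtB21_10.Ce.right.right.right.left.left.left.right RtB21_10.CTp.right RtB21_10.CEr.right.left 0x101b59777c5f4c015ef9f6618059ad19f553701c5a69f440ddbecbd77fdc2248c876c380afec79b32749d30a9f66dedaf5989f5441cc4b139f460d5 = true := by decide +kernel

theorem cB21_10_3_40 : chunkOkM (LB21_10.ctx true true 368 92939 32768 13 16 63563 15419 64 75) muQ true true 64 RtB21_10.Cx.left.right.left RtB21_10.CX RtB21_10.Ctp.right.right.right.left.right.left.left RtB21_10.Ce.right.right.right.left.left.left.right.left RtB21_10.CTp.right RtB21_10.CEr.right.right 0x69118a7c3a86c555d4be58f9648b9e1769f52d510bdff9f440d7761416d8fdff8bf067cebc5afb7f928860afc79f514b7775fd0af450d64933114122c05c54931451d66786c58461cc98f91d3028e219f6664c1628e9f5149bd1fb09f450db4d6d0d76c253bd7678f94dbf89a519f66b987497a9f534cf912629f450d63b70946286cd0481df79b9524f0fe59f68e9f78f259f540d571457c7ae86c1a380f179b35977b5ed5af66e12959a15af52905e678856bf450d3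 = true := by decide +kernel

theorem cB21_10_3_41 : chunkOkM (LB21_10.ctx true true 346 46341 16384 13 16 7939 7735 64 75) muQ true true 64 RtB21_10.Cx.left.right.left RtB21_10.CX RtB21_10.Ctp.right.right.right.left.right.left.left RtB21_10.Ce.right.right.right.left.left.left.right.right RtB21_10.CTp.right RtB21_10.CEr.right.right 0x13d674b286c50985a558f91f9c061e09f66fe0b05759f53c2b2c2ee9f450df28eafa76c1baa429e8f93e16f9c039f66d7a040929f5582435f029f450d611d6714e49f9796ce49c6caf42747248976af230d3ee32e88e496c42f5591fd99b69f5f20b09f551b2841499f440d5 = true := by decide +kernel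

theorem cB21_10_3_42 : chunkOkM (LB21_10.ctx true true 105 1 1 1 1 1 1 1 1) muQ true true 64 RtB21_10.Cx.left.right.right RtB21_10.CX RtB21_10.Ctp.right.right.right.left.right.left.left RtB21_10.Ce.right.right.right.left.left.left.right RtB21_10.CTp.right RtB21_10.CEr.right 0x49 = true := by decide +kernel

theorem cB21_10_3_43 : chunkOkM (LB21_10.ctx true true 355 92939 32768 13 16 7973 15487 64 75) muQ true true 64 RtB21_10.Cx.left.right RtB21_10.CX RtB21_10.Ctp.right.right.right.left.right.left.right RtB21_10.Ce.right.right.right.left.left.left.right RtB21_10.CTp.right RtB21_10.CEr.right 0x6901f3ddf1976c5c22251a8f930bb055179f66824fbff09f522c2cd2029f450de08091b76cdcfc60d7f987b0521739f66460a50e39f540d610348b977c390bf50c8f921ba2064e9f66277ee66e9f540d48234d878596c248bbfcbe99b11eb3fc468af669a3e3eed9f5151c5a00d9f450d564bd901c09f05bd6b108576c28f498479b25e8ac7f09f663a78e3309f540d5631140177 = true := by decide +kernel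

theorem cB21_10_3_44 : chunkOkM (LB21_10.ctx true true 105 1 1 1 1 1 1 1 1) muQ true true 64 RtB21_10.Cx.left.left RtB21_10.CX RtB21_10.Ctp.right.right.right.left.right.left RtB21_10.Ce.right.right.right.left.left.right RtB21_10.CTp.right RtB21_10.CEr 0x21 = true := by decide +kernel

theorem cB21_10_3_45 : chunkOkM (LB21_10.ctx true true 315 23299 8192 13 16 1989 1955 32 16) muQ true true 64 RtB21_10.Cx.left.right RtB21_10.CX RtB21_10.Ctp.right.right.right.left.right.left RtB21_10.Ce.right.right.right.left.left.right RtB21_10.CTp.right RtB21_10.CEr.left 0x386dc89d8ab1f38aad87caf814399b0675af6399230388f040d = true := by decide +kernel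

theorem cB21_10_3_46 : chunkOkM (LB21_10.ctx true true 323 23299 8192 13 16 3961 3893 32 16) muQ true true 64 RtB21_10.Cx.left.right RtB21_10.CX RtB21_10.Ctp.right.right.right.left.right.left.left RtB21_10.Ce.right.right.right.left.left.right.left RtB21_10.CTp.right RtB21_10.CEr.right 0x2a0246077c84b89c8a31af5388bc9befe4bf430d = true := by decide +kernel

theorem cB21_10_3_47 : chunkOkM (LB21_10.ctx true true 361 186135 65536 13 16 7973 15521 64 75) muQ true true 64 RtB21_10.Cx.left.right.left RtB21_10.CX RtB21_10.Ctp.right.right.right.left.right.left.right RtB21_10.Ce.right.right.right.left.left.right.left RtB21_10.CTp.right RtB21_10.CEr.right 0x2121012f5f8ab7fd18545b5c86c75b0125e8f9736c712c69f676fd86d589f550d14a6dd8e8fdf29757976c1af788ae8f9517697e689f66b13fd4389f52862ec41b9f460d649076978b96c145421f5299baa12324c19f66b58bf5029f540b5ec50b9f450d56ce8b71c39f05b22fcc187fd9b70edb76c3bac58979b5b6a112f19f66f3db9aa39f53c7b658b79f460d56321740174 = true := by decide +kernel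

end Vale.Agent.helper4.Q4
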