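import Vale.Agent.helper4.Q4TreeM
import Vale.Agent.helper4.Q4G.PB21_10

/-!
Checks for pairs of intervals of second moments.
-/

set_option maxRecDepth 100000
set_option linter.unusedVariables false

namespace Vale.Agent.helper4.Q4

theorem cB21_10_3_48 : chunkOkM (LB21_10.ctx true true 356 93453 32768 13 16 8007 15555 64 75) muQ true true 64 RtB21_10.Cx.left.right.right RtB21_10.CX RtB21_10.Ctp.right.right.right.left.right.left.right RtB21_10.Ce.right.right.right.left.left.right.left.left RtB21_10.CTp.right RtB21_10.CEr.right 0x17db53a886c390d89b378af1e46a0049d7af030d491779b7d186c4b59489a8f959ea263e29f668b1d1a269f53643c33cb9f450d279c9d07fdbf0847d76c26609d278f9cae4e95939f65f5a57f949f549442e2d59f460d613a8ae6f86c628374b38f967e90a4be9f66a920fac49f5339f042539f450df4320867cf886a6d7f9db5d702c89f670a3726e49f529f6379c09f450d647abc2147996c20aa04ce399bb959480a09af630d5735e73001e8fdb4017967c4085facbb9f66e4218c479f53255eb60d9f450df565af67c3fe1af479b6fa2ff70e9f669feb50b99f53f948b81f9f450d56 = true := by decide +kernel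

theorem cB21_10_3_49 : chunkOkM (LB21_10.ctx true true 338 46855 16384 13 16 3995 7803 64 32) muQ true true 64 RtB21_10.Cx.left.right.right RtB21_10.CX RtB21_10.Ctp.right.right.right.left.right.left.right RtB21_10.Ce.right.right.right.left.left.right.left.right RtB21_10.CTp.right RtB21_10.CEr.right.left 0x414683298fddfb58867c27970d6b89f66e6c3183d9f53b093eb0c9f450dbd2fa9076c3be632079b5eb4b7b1b9f672fc64a819f536e7797e39f450d5 = true := by decide +kernel

theorem cB21_10_3_50 : chunkOkM (LB21_10.ctx true true 352 93453 32768 13 16 7973 7803 64 75) muQ true true 64 RtB21_10.Cx.left.right.right RtB21_10.CX RtB21_10.Ctp.right.right.right.left.right.left.right.left RtB21_10.Ce.right.right.right.left.left.right.left.right RtB21_10.CTp.right RtB21_10.CEr.right.right 0x49123637ab86c4de924e18f967d5a7a429f66aa38dabd9f5493fe9e379f450d432697fb8fd1348c56486c57e813fd79f6707e6b7ab9f5475bb0fd39f450d69f95467ff96c2cc9307cc99b4ede033ab9f66e03ea6a99f54494fa4209f450d57 = true := by decide +kernel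

theorem cB21_10_3_51 : chunkOkM (LB21_10.ctx true true 369 187163 65536 13 16 31977 15623 64 75) muQ true true 64 RtB21_10.Cx.left.right.right RtB21_10.CX RtB21_10.Ctp.right.right.right.left.right.left.right.right RtB21_10.Ce.right.right.right.left.left.right.left.right RtB21_10.CTp.right RtB21_10.CEr.right.right 0x17badc3186c3eba028a8f943ea49f699f665937eade9f5378ca8ed29f450d128976277c1cd6c3588f91c55aa7eb9f66ef3a6aa79f540d67eccd31a396c237dfd5ac99b667613c1b9f521a7ee29c9f440d56940101131d176a86c4ad10f3e8f925accecc59f669887e1349f540d2a3d18908fdd8cc2a376c188a01e98f931efbe8459f66c6b014839f51fba383219f460d648c141ae196c1395301cf99b20d5330177 = true := by decide +kernel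

theorem cB21_10_3_52 : chunkOkM (LB21_10.ctx true true 352 93967 32768 13 16 8007 7837 64 75) muQ true true 64 RtB21_10.Cx.left.right RtB21_10.CX RtB21_10.Ctp.right.right.right.left.right.left RtB21_10.Ce.right.right.right.left.left.right.right RtB21_10.CTp.right RtB21_10.CEr.right 0x2117b9e30886c59dfb7598f9471a585769f666bf028af9f543605af349f450d12f8e90986c185e913b8f943dc5de249f66a849cf389f52e570505f9f450d6784a1eac196c21b800c1599b138a549319f66afdeb8df9f527eec3b699f450d5842227c88fdcfa980176c260b2b78bcaf686a9ef4889f51d3e74c6e9f450d119650108fdd38b60b76c305a8a579b5dac88d5c9f66e7d06f699f5395671bc59f460d564932174217593 = true := by decide +kernel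

theorem cB21_10_3_53 : chunkOkM (LB21_10.ctx true true 105 1 1 1 1 1 1 1 1) muQ true true 64 RtB21_10.Cx.left RtB21_10.CX RtB21_10.Ctp.right.right.right.left.right.right RtB21_10.Ce.right.right.right.left.left RtB21_10.CTp.right RtB21_10.CEr 0x01 = true := by decide +kernel

theorem cB21_10_3_54 : chunkOkM (LB21_10.ctx true true 105 1 1 1 1 1 1 1 1) muQ true true 64 RtB21_10.Cx.right RtB21_10.CX RtB21_10.Ctp.right.right.right.left.right RtB21_10.Ce.right.right.right.left.left.left RtB21_10.CTp.right RtB21_10.CEr 0x69 = true := by decide +kernel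

theorem cB21_10_3_55 : chunkOkM (LB21_10.ctx true true 105 1 1 1 1 1 1 1 1) muQ true true 64 RtB21_10.Cx.right RtB21_10.CX RtB21_10.Ctp.right.right.right.left.right.left.left RtB21_10.Ce.right.right.right.left.left.right RtB21_10.CTp.right RtB21_10.CEr 0x49 = true := by decide +kernel

theorem cB21_10_3_56 : chunkOkM (LB21_10.ctx true true 105 1 1 1 1 1 1 1 1) muQ true true 64 RtB21_10.Cx.right RtB21_10.CX RtB21_10.Ctp.right.right.right.left.right.left.right.left RtB21_10.Ce.right.right.right.left.left.right RtB21_10.CTp.right RtB21_10.CEr 0x49 = true := by decide +kernel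

theorem cB21_10_3_57 : chunkOkM (LB21_10.ctx true true 105 1 1 1 1 1 1 1 1) muQ true true 64 RtB21_10.Cx.right RtB21_10.CX RtB21_10.Ctp.right.right.right.left.right.left.right.right.left RtB21_10.Ce.right.right.right.left.left.right RtB21_10.CTp.right RtB21_10.CEr 0x49 = true := by decide +kernel

theorem cB21_10_3_58 : chunkOkM (LB21_10.ctx true true 321 12035 4096 13 16 16031 1955 32 16) muQ true true 64 RtB21_10.Cx.right RtB21_10.CX RtB21_10.Ctp.right.right.right.left.right.left.right.right.right RtB21_10.Ce.right.right.right.left.left.right RtB21_10.CTp.right RtB21_10.CEr.left 0x92db21698ab60cab76266af81703c0cea03bf430d = true := by decide +kernel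

theorem cB21_10_3_59 : chunkOkM (LB21_10.ctx true true 105 1 1 1 1 1 1 1 1) muQ true true 64 RtB21_10.Cx.right RtB21_10.CX RtB21_10.Ctp.right.right.right.left.right.left.right.right.right RtB21_10.Ce.right.right.right.left.left.right.left RtB21_10.CTp.right RtB21_10.CEr.right 0x11 = true := by decide +kernel

theorem cB21_10_3_60 : chunkOkM (LB21_10.ctx true true 365 188705 65536 13 16 16031 15691 64 75) muQ true true 64 RtB21_10.Cx.right.left.left.left.left RtB21_10.CX RtB21_10.Ctp.right.right.right.left.right.left.right.right.right RtB21_10.Ce.right.right.right.left.left.right.right.left RtB21_10.CTp.right RtB21_10.CEr.right 0x1329c11a86c5d0939888f96499379249f543e0e02379f440d1428088286c1fdb55e48f9670e49a479f56e2a72c2c9f440d65abe6bd4d96c196250fa599be664a63d79f6739af5ccb9f540d5114667536a3f9f05b5be618c7fde0f35a176c3255c9679b6493597379f5809a9200d9f450d56 = true := by decide +kernel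

theorem cB21_10_3_61 : chunkOkM (LB21_10.ctx true true 365 188705 65536 13 16 16031 15725 64 75) muQ true true 64 RtB21_10.Cx.right.left.left.left.left RtB21_10.CX RtB21_10.Ctp.right.right.right.left.right.left.right.right.right RtB21_10.Ce.right.right.right.left.left.right.right.right RtB21_10.CTp.right RtB21_10.CEr.right 0x59197b7e5c86c35555d6c8f92dca01bd69f67601edf529f5940cdb0509f450d1e7500b68fdf8e967e76c186134f68f9743b5257c9f563b03da279f450d6494f5c6c796c146fc92bc99b6a11b0cb39f66e6ac88e19f542e8f25139f450d5750289f5e9f05ba5c59e576c25ba68e79b77d3dfef59f547f743eb49f440d564 = true := by decide +kernel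

theorem cB21_10_3_62 : chunkOkM (LB21_10.ctx true true 105 1 1 1 1 1 1 1 1) muQ true true 64 RtB21_10.Cx.right.left.left.left.right RtB21_10.CX RtB21_10.Ctp.right.right.right.left.right.left.right.right.right RtB21_10.Ce.right.right.right.left.left.right.right RtB21_10.CTp.right RtB21_10.CEr.right 0x49 = true := by decide +kernel

theorem cB21_10_3_63 : chunkOkM (LB21_10.ctx true true 105 1 1 1 1 1 1 1 1) muQ true true 64 RtB21_10.Cx.right.left.left.right RtB21_10.CX RtB21_10.Ctp.right.right.right.left.right.left.right.right.right RtB21_10.Ce.right.right.right.left.left.right.right RtB21_10.CTp.right RtB21_10.CEr.right 0x49 = true := by decide +kernel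

theorem cB21_10_3_64 : chunkOkM (LB21_10.ctx true true 105 1 1 1 1 1 1 1 1) muQ true true 64 RtB21_10.Cx.right.left.right RtB21_10.CX RtB21_10.Ctp.right.right.right.left.right.left.right.right.right RtB21_10.Ce.right.right.right.left.left.right.right RtB21_10.CTp.right RtB21_10.CEr.right 0x49 = true := by decide +kernel

theorem cB21_10_3_65 : chunkOkM (LB21_10.ctx true true 105 1 1 1 1 1 1 1 1) muQ true true 64 RtB21_10.Cx.right.right RtB21_10.CX RtB21_10.Ctp.right.right.right.left.right.left.right.right.right RtB21_10.Ce.right.right.right.left.left.right.right RtB21_10.CTp.right RtB21_10.CEr.right 0x11 = true := by decide +kernel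

end Vale.Agent.helper4.Q4
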