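import Vale.Agent.helper4.Q4TreeM
import Vale.Agent.helper4.Q4G.PB21_10

/-!
Checks for pairs of intervals of second moments.
-/

set_option maxRecDepth 100000
set_option linter.unusedVariables false

namespace Vale.Agent.helper4.Q4

theorem cB21_10_3_66 : chunkOkM (LB21_10.ctx true true 360 94995 32768 13 16 16065 15759 64 75) muQ true true 64 RtB21_10.Cx.right RtB21_10.CX RtB21_10.Ctp.right.right.right.left.right.right RtB21_10.Ce.right.right.right.left.left.right RtB21_10.CTp.right RtB21_10.CEr 0x1111111119b6fc2386c86afa6229c5bf4877521223faf130d152920c986c4ac469e38f911d265da79f66b4bbf2aa9f522dd1a6e59f450d12c7440d86c1cad6b838f91d998b08c2af6815ee0b049f52c4e8c31a9f450d6111148846f86c3bc7aee88f93f3c474cb9f66bf445afe9f529b266d939f450d347f9a0d9b496c23bdcc2ab99b64b5fc24e9f531a6660cf9f440d576aebf507b9f05ba9fc4467c34d7fb679b6cfeee9549f66920030519f536442ab5b9f450d5637114371147a1289768ab6bd9be7d5aaf8fdeeb08989f230d6 = true := by decide +kernel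

theorem cB21_10_3_67 : chunkOkM (LB21_10.ctx true true 105 1 1 1 1 1 1 1 1) muQ true true 64 RtB21_10.Cx.left RtB21_10.CX RtB21_10.Ctp.right.right.right.left RtB21_10.Ce.right.right.right.left.right RtB21_10.CTp.right RtB21_10.CEr 0x21 = true := by decide +kernel

theorem cB21_10_3_68 : chunkOkM (LB21_10.ctx true true 105 1 1 1 1 1 1 1 1) muQ true true 64 RtB21_10.Cx.right RtB21_10.CX RtB21_10.Ctp.right.right.right.left.left RtB21_10.Ce.right.right.right.left.right RtB21_10.CTp.right RtB21_10.CEr 0x49 = true := by decide +kernel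

theorem cB21_10_3_69 : chunkOkM (LB21_10.ctx true true 305 12035 4096 13 16 1003 1989 32 16) muQ true true 64 RtB21_10.Cx.right RtB21_10.CX RtB21_10.Ctp.right.right.right.left.right RtB21_10.Ce.right.right.right.left.right.left RtB21_10.CTp.right RtB21_10.CEr.left 0x561075928ab329a46b86baf872e46d7ad9f6fd82dbe0f9f540d = true := by decide +kernel

theorem cB21_10_3_70 : chunkOkM (LB21_10.ctx true true 310 12035 4096 13 16 1989 1989 32 16) muQ true true 64 RtB21_10.Cx.right RtB21_10.CX RtB21_10.Ctp.right.right.right.left.right.left RtB21_10.Ce.right.right.right.left.right.left RtB21_10.CTp.right RtB21_10.CEr.right 0x3e23c7d77c21c17b808f77de2e95efcaf538e089b64febf440d = true := by decide +kernel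

theorem cB21_10_3_71 : chunkOkM (LB21_10.ctx true true 335 47369 16384 13 16 4029 3961 64 32) muQ true true 64 RtB21_10.Cx.right.left.left RtB21_10.CX RtB21_10.Ctp.right.right.right.left.right.right.left RtB21_10.Ce.right.right.right.left.right.left.left RtB21_10.CTp.right RtB21_10.CEr.right.left 0x5c25f44b8fdea6fe967c45de2a1529f677057673f9f52502feb029f450d8ce752b7fdded11e67c42c2e4579b4533686329f673d21c7189f53735c40fe9f460d5 = true := by decide +kernel

theorem cB21_10_3_72 : chunkOkM (LB21_10.ctx true true 369 190247 65536 13 16 32249 15861 64 75) muQ true true 64 RtB21_10.Cx.right.left.left RtB21_10.CX RtB21_10.Ctp.right.right.right.left.right.right.left RtB21_10.Ce.right.right.right.left.right.left.left RtB21_10.CTp.right RtB21_10.CEr.right.right 0x21010111fb92e986c3bc449958f96f0db3e5a9f6709db7a599f52e024a0e39f450d2d6288d486c8f7072679b105c65d52daf230d53311fd98af86c3ac688088f956a85c5ad9f6724b03ae99f548172c70e9f450d52276d1d396c16edde21499b38a4385b69f671a4bdacd9f56365524969f450d549332174217889ecca79b4a746ac956af11386817661abf030d13ec37a686c773442d88f928d9820a29f669c6697ae9f53ed78f09b9f450dc3c9b257fd11d664a77c1c422bd28f94a2e5a4d29f67101060f69f541bd88e159f460d6a5005a61896c2e5ab22b999b96c801fe8f61d7abc9d92af413dc24007daf250d534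 = true := by decide +kernel

theorem cB21_10_3_73 : chunkOkM (LB21_10.ctx true true 355 95509 32768 13 16 8075 15895 64 75) muQ true true 64 RtB21_10.Cx.right.left.right RtB21_10.CX RtB21_10.Ctp.right.right.right.left.right.right.left RtB21_10.Ce.right.right.right.left.right.left.left RtB21_10.CTp.right RtB21_10.CEr.right 0x6914152ac086c5811352f8f95d3dd48809f669180e8449f53a6081fa79f450dd9809f37fd11db62077c6fd3192aa9f67b4eccd469f53015ff6219f450d678918173f96c21cc1d7d899b6d86ef9d79f532de02d539f440d511e3fb977c3d28fad58f960c4815589f66e16501489f536485aa3d9f450d152c05c5476df9063fe9f05b764b3967fdc3860367c2ed60ab79b41401dcc09f66f8eccb5d9f546e9ab0d59f460d56114493 = true := by decide +kernel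

theorem cB21_10_3_74 : chunkOkM (LB21_10.ctx true true 322 23813 8192 13 16 4063 3961 32 16) muQ true true 64 RtB21_10.Cx.right.left RtB21_10.CX RtB21_10.Ctp.right.right.right.left.right.right.right RtB21_10.Ce.right.right.right.left.right.left.left RtB21_10.CTp.right RtB21_10.CEr.right 0xa4706c4799f00b = true := by decide +kernel

theorem cB21_10_3_75 : chunkOkM (LB21_10.ctx true true 105 1 1 1 1 1 1 1 1) muQ true true 64 RtB21_10.Cx.right.left.left RtB21_10.CX RtB21_10.Ctp.right.right.right.left.right.right RtB21_10.Ce.right.right.right.left.right.left.right RtB21_10.CTp.right RtB21_10.CEr.right 0x21 = true := by decide +kernel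

theorem cB21_10_3_76 : chunkOkM (LB21_10.ctx true true 105 1 1 1 1 1 1 1 1) muQ true true 64 RtB21_10.Cx.right.left.right RtB21_10.CX RtB21_10.Ctp.right.right.right.left.right.right.left.left RtB21_10.Ce.right.right.right.left.right.left.right RtB21_10.CTp.right RtB21_10.CEr.right 0x49 = true := by decide +kernel

theorem cB21_10_3_77 : chunkOkM (LB21_10.ctx true true 339 47883 16384 13 16 8075 3995 64 32) muQ true true 64 RtB21_10.Cx.right.left.right RtB21_10.CX RtB21_10.Ctp.right.right.right.left.right.right.left.right RtB21_10.Ce.right.right.right.left.right.left.right RtB21_10.CTp.right RtB21_10.CEr.right.left 0x710929a98fde3ef2e67c31da9c7ca9f67d7665f699f54867d07da9f450d156d81fb8fd1179aefc86c48001e179b2fb0f524e9f6784e6ad6e9f55170b17249f460d5 = true := by decide +kernel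

theorem cB21_10_3_78 : chunkOkM (LB21_10.ctx true true 365 191789 65536 13 16 16167 15997 64 75) muQ true true 64 RtB21_10.Cx.right.left.right RtB21_10.CX RtB21_10.Ctp.right.right.right.left.right.right.left.right RtB21_10.Ce.right.right.right.left.right.left.right RtB21_10.CTp.right RtB21_10.CEr.right.right 0x49211235468286c3c6a327a8f93e0c205099f673e281b199f551ec497e89f450d5e11621a896c1a49623b299b379657508f61fffd5ec24af414732a8ff6af250d5474932174913a9533586c604249928f9405e1e7449f669c6922e09f543a48ca9e9f450d1174d51186c2363183f8f93d8dc5b2f9f674d236fd79f55049eb92f9f450d676944931ae364c486c562e4f388f951a8924a39f672d8ad3a09f53552c03f79f450d14faaba086ceb0ea607f97eb6038019f680ce7c1c49f52c2e458ed9f450d67928cda8dc96c28bed83aa99b120045f859f6696360f699f540d54 = true := by decide +kernel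

end Vale.Agent.helper4.Q4
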