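import Vale.Agent.helper4.Q4TreeM
import Vale.Agent.helper4.Q4G.PB21_10

/-!
Checks for pairs of intervals of second moments.
-/

set_option maxRecDepth 100000
set_option linter.unusedVariables false

namespace Vale.Agent.helper4.Q4

theorem cB21_10_3_79 : chunkOkM (LB21_10.ctx true true 357 96023 32768 13 16 16201 8007 64 75) muQ true true 64 RtB21_10.Cx.right.left.right RtB21_10.CX RtB21_10.Ctp.right.right.right.left.right.right.right RtB21_10.Ce.right.right.right.left.right.left.right RtB21_10.CTp.right RtB21_10.CEr.right 0x010115387df786c6c44506c8f94096b435e9f66f2e0d00c9f5333f10b579f450d162cd0577c77eb441849f543adfb5fa9f430d66788fd47c96c1dc51d23a99bce68fa45a9f230d5741a7b0199f05bb4cd39676c3ffb6e579b134a066ad9f67bfe2d24b9f52426038809f450d563331029f977cddbde9a1d2af136354fb6f53bf030d4017 = true := by decide +kernel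

theorem cB21_10_3_80 : chunkOkM (LB21_10.ctx true true 356 96537 32768 13 16 16201 16031 64 35) muQ true true 64 RtB21_10.Cx.right.right RtB21_10.CX RtB21_10.Ctp.right.right.right.left.right.right RtB21_10.Ce.right.right.right.left.right.left RtB21_10.CTp.right RtB21_10.CEr.right 0x11111111126c17777c3f10a3c98f9ab003e71d9f66af2539889f568aa063819f450d37d1002577896c3ab1a525899b20504bd430af430d511431121bc4c0dfeaf04bca04846fdde335867c44b77fe79b18196e4e82af64b450006b9f5f8bb920cd9f460d5367114114493 = true := by decide +kernel

theorem cB21_10_3_81 : chunkOkM (LB21_10.ctx true true 105 1 1 1 1 1 1 1 1) muQ true true 64 RtB21_10.Cx.right.left RtB21_10.CX RtB21_10.Ctp.right.right.right.left.right RtB21_10.Ce.right.right.right.left.right.right RtB21_10.CTp.right RtB21_10.CEr 0x21 = true := by decide +kernel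

theorem cB21_10_3_82 : chunkOkM (LB21_10.ctx true true 105 1 1 1 1 1 1 1 1) muQ true true 64 RtB21_10.Cx.right.right RtB21_10.CX RtB21_10.Ctp.right.right.right.left.right.left RtB21_10.Ce.right.right.right.left.right.right RtB21_10.CTp.right RtB21_10.CEr 0x49 = true := by decide +kernel

theorem cB21_10_3_83 : chunkOkM (LB21_10.ctx true true 105 1 1 1 1 1 1 1 1) muQ true true 64 RtB21_10.Cx.right.right RtB21_10.CX RtB21_10.Ctp.right.right.right.left.right.right.left RtB21_10.Ce.right.right.right.left.right.right RtB21_10.CTp.right RtB21_10.CEr 0x49 = true := by decide +kernel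

theorem cB21_10_3_84 : chunkOkM (LB21_10.ctx true true 320 24327 8192 13 16 4063 2023 32 16) muQ true true 64 RtB21_10.Cx.right.right RtB21_10.CX RtB21_10.Ctp.right.right.right.left.right.right.right RtB21_10.Ce.right.right.right.left.right.right RtB21_10.CTp.right RtB21_10.CEr.left 0x4ed2a4448ab2e00053d5eaf829fed1663daf6510dde4045af469a0100d8f150d = true := by decide +kernel

theorem cB21_10_3_85 : chunkOkM (LB21_10.ctx true true 353 96537 32768 13 16 8143 8041 64 75) muQ true true 64 RtB21_10.Cx.right.right.left RtB21_10.CX RtB21_10.Ctp.right.right.right.left.right.right.right RtB21_10.Ce.right.right.right.left.right.right.left.left RtB21_10.CTp.right RtB21_10.CEr.right 0x27ff587486c6cdc6f80b9f69e25e59b0daf127a97be0ef6bf040d491a4f1c7686c5d689e878f92c241d0bf9f66f9ae3db69f55dbe5510b9f450d12bba9077c1fb7a1d88f95c5f804c79f6706db19999f56fac440569f450d67d9ffa98796c22e84109499b54a1352879f67553a46179f540d573100329977c2ddbf799e9f67546bcfb59f548fc895089f440d5eb41387fd1023d8b77c50bc78679b48a2783a19f678268f3889f54e2fb19209f460d56 = true := by decide +kernel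

theorem cB21_10_3_86 : chunkOkM (LB21_10.ctx true true 338 48397 16384 13 16 4063 8075 64 32) muQ true true 64 RtB21_10.Cx.right.right.left RtB21_10.CX RtB21_10.Ctp.right.right.right.left.right.right.right RtB21_10.Ce.right.right.right.left.right.right.left.right RtB21_10.CTp.right RtB21_10.CEr.right.left 0x5f751d508fdeabc7c67c2c15346959f6777447c849f5468041b569f450df5b46bc7fd112edc377c4ade04579b6aecb943c9f679b7d52ee9f5500dd5ed79f460d5 = true := by decide +kernel

theorem cB21_10_3_87 : chunkOkM (LB21_10.ctx true true 382 386919 131072 13 16 64991 32249 64 75) muQ true true 64 RtB21_10.Cx.right.right.left RtB21_10.CX RtB21_10.Ctp.right.right.right.left.right.right.right RtB21_10.Ce.right.right.right.left.right.right.left.right RtB21_10.CTp.right RtB21_10.CEr.right.right 0x135d1a3886c70f39b5d8f93224482929f67276c55849f531f73a3ef9f450d3aff8d718fd1aa91d677c1ecf9a088f95d7fc83559f67050e1cc79f550950e7ab9f460d61112ffd99f86c5a5976058f9f1be4a12a9f66f08a6cae9f54d113fc269f450d15bd25777c25c46e578f98f86487d49f674088d1899f54ff566b829f450d634211291890286c40038a608f96e941b5c69f6758c8d7fd9f52d923b8d39f450d4798203cf7d96c2a96bbe6699b1f631ab324af414fff9d530af240d549212112e6417486c3e026ce08f922d22d03c9f677a206bf59f5554e1b8949f450d23110fb186c66e231a79b26b84b4eb7af417d87705f5af240d54934932174217593473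 = true := by decide +kernel

theorem cB21_10_3_88 : chunkOkM (LB21_10.ctx true true 329 48911 16384 13 16 4063 4029 32 16) muQ true true 64 RtB21_10.Cx.right.right.right RtB21_10.CX RtB21_10.Ctp.right.right.right.left.right.right.right RtB21_10.Ce.right.right.right.left.right.right.left RtB21_10.CTp.right RtB21_10.CEr.right 0x34d8bce77c33400545e9fbf4310f186d9daf130d = true := by decide +kernel

theorem cB21_10_3_89 : chunkOkM (LB21_10.ctx true true 329 24327 8192 13 16 4063 4063 64 32) muQ true true 64 RtB21_10.Cx.right.right RtB21_10.CX RtB21_10.Ctp.right.right.right.left.right.right.right RtB21_10.Ce.right.right.right.left.right.right.right RtB21_10.CTp.right RtB21_10.CEr.right.left 0xa91b532d8fdd2d91e67cbf58a2f58f67ff83ef229f56ca7c390f9f450df62a6967c441c396ab23031e02f9f67e96712359f56a21f3b179f450d5 = true := by decide +kernel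

theorem cB21_10_3_90 : chunkOkM (LB21_10.ctx true true 358 194359 65536 13 16 8143 8109 64 75) muQ true true 64 RtB21_10.Cx.right.right.left RtB21_10.CX RtB21_10.Ctp.right.right.right.left.right.right.right RtB21_10.Ce.right.right.right.left.right.right.right RtB21_10.CTp.right RtB21_10.CEr.right.right 0x211862f86886c477f3a048f94cd107e649f67568db1be9f5372cbf48a9f450d124c3cff8fd1470592086cd40b049ba9f67a5de46429f55670f7f599f450d68710ee87196c25d7134e599b19a81acbc9f6208a16159faf41527d24ea3af250d52174932174 = true := by decide +kernel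

theorem cB21_10_3_91 : chunkOkM (LB21_10.ctx true true 395 780263 262144 13 16 130543 65025 64 75) muQ true true 64 RtB21_10.Cx.right.right.right RtB21_10.CX RtB21_10.Ctp.right.right.right.left.right.right.right RtB21_10.Ce.right.right.right.left.right.right.right RtB21_10.CTp.right RtB21_10.CEr.right.right 0x4949212159134212fb86c40a678a28f91d70170a62af6778eb00b49f556ba026a39f450d26e1e69fc96cab1a7ba189b125443d249f620a1c29e54af415512d5cc4af250d5493493217421759344196e1cc586c4a2733838f92e53fa5139f6724afb8969f53f0e989e09f450df0eb4a576c1e4e5b0b8f91dbabcd33baf65d1423bfb9f5546abd0279f450d64c1cf954a96c1524046fe99b1388719139f67061a42df9f5459e88fed9f450d51361649f86c409b22478f9106a93e770af670739374c9f557ddeba349f450d6ebc9968f96c1ef33ce0b99b23abfc5c98af430d54477493493 = true := by decide +kernel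

theorem cB21_10_3_92 : chunkOkM (LB21_10.ctx true true 105 1 1 1 1 1 1 1 1) muQ true true 64 RtB21_10.Cx.left RtB21_10.CX RtB21_10.Ctp.right.right.right.right RtB21_10.Ce.right.right.right.left RtB21_10.CTp.right RtB21_10.CEr 0x01 = true := by decide +kernel

theorem cB21_10_3_93 : chunkOkM (LB21_10.ctx true true 105 1 1 1 1 1 1 1 1) muQ true true 64 RtB21_10.Cx.right.left RtB21_10.CX RtB21_10.Ctp.right.right.right.right RtB21_10.Ce.right.right.right.left RtB21_10.CTp.right RtB21_10.CEr 0x01 = true := by decide +kernel

theorem cB21_10_3_94 : chunkOkM (LB21_10.ctx true true 105 1 1 1 1 1 1 1 1) muQ true true 64 RtB21_10.Cx.right.right RtB21_10.CX RtB21_10.Ctp.right.right.right.right RtB21_10.Ce.right.right.right.left.left RtB21_10.CTp.right RtB21_10.CEr 0x11 = true := by decide +kernel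

theorem cB21_10_3_95 : chunkOkM (LB21_10.ctx true true 105 1 1 1 1 1 1 1 1) muQ true true 64 RtB21_10.Cx.right.right.left RtB21_10.CX RtB21_10.Ctp.right.right.right.right RtB21_10.Ce.right.right.right.left.right RtB21_10.CTp.right RtB21_10.CEr 0x01 = true := by decide +kernel

theorem cB21_10_3_96 : chunkOkM (LB21_10.ctx true true 105 1 1 1 1 1 1 1 1) muQ true true 64 RtB21_10.Cx.right.right.right RtB21_10.CX RtB21_10.Ctp.right.right.right.right.left RtB21_10.Ce.right.right.right.left.right.left RtB21_10.CTp.right RtB21_10.CEr 0x11 = true := by decide +kernel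

end Vale.Agent.helper4.Q4
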