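import Vale.Agent.helper4.Q4TreeM
import Vale.Agent.helper4.Q4G.PB21_10

/-!
Checks for pairs of intervals of second moments.
-/

set_option maxRecDepth 100000
set_option linter.unusedVariables false

namespace Vale.Agent.helper4.Q4

theorem cB21_10_3_97 : chunkOkM (LB21_10.ctx true true 318 48911 16384 13 16 1037 2023 32 16) muQ true true 64 RtB21_10.Cx.right.right.right RtB21_10.CX RtB21_10.Ctp.right.right.right.right.left RtB21_10.Ce.right.right.right.left.right.right RtB21_10.CTp.right RtB21_10.CEr.left 0x4ad5e7ad8ab308ef9160aaf86bb1afbcc5af68854f915a5af240d = true := by decide +kernel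

theorem cB21_10_3_98 : chunkOkM (LB21_10.ctx true true 105 1 1 1 1 1 1 1 1) muQ true true 64 RtB21_10.Cx.right.right.right RtB21_10.CX RtB21_10.Ctp.right.right.right.right.left.left RtB21_10.Ce.right.right.right.left.right.right.left RtB21_10.CTp.right RtB21_10.CEr.right 0x11 = true := by decide +kernel

theorem cB21_10_3_99 : chunkOkM (LB21_10.ctx true true 336 48911 16384 13 16 8177 8109 32 16) muQ true true 64 RtB21_10.Cx.right.right.right RtB21_10.CX RtB21_10.Ctp.right.right.right.right.left.left.left.left RtB21_10.Ce.right.right.right.left.right.right.right.left RtB21_10.CTp.right RtB21_10.CEr.right 0x33cba4277c16740d66e68bf1593f0d80c30bf030d = true := by decide +kernel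

theorem cB21_10_3_100 : chunkOkM (LB21_10.ctx true true 359 98079 32768 13 16 16337 16303 64 75) muQ true true 64 RtB21_10.Cx.right.right.right RtB21_10.CX RtB21_10.Ctp.right.right.right.right.left.left.left.left RtB21_10.Ce.right.right.right.left.right.right.right.right RtB21_10.CTp.right RtB21_10.CEr.right 0x179f6fec86c67b8b64b8f97907d66ff9f6759092d569f54c03dd98f9f450d1134d5f77c7de6ec77f914de3d0ad9af6718ef7c519f55fd2b4b389f450d690d8b4a7696c28943594299b215f1678b2af41468f06f92af240d5694011636de5c86c618f54248f94c740af259f674c7c9e799f53679f07409f450d13eec1e77c2d7308098f94011030519f66ba7b9f7d9f55d463a1419f450d67913fd1bb96c21d60e3f699bd38f59d28f62104085639af4159d314f6daf250d53757c437538fdf673ef67c5c2085adc9f670fb9433e9f5468c58fb89f450d137793777c5034bd379b3d32471a19f67c91f021f9f54a96e861f9f450d56 = true := by decide +kernel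

theorem cB21_10_3_101 : chunkOkM (LB21_10.ctx true true 105 1 1 1 1 1 1 1 1) muQ true true 64 RtB21_10.Cx.right.right.right RtB21_10.CX RtB21_10.Ctp.right.right.right.right.left.left.left.right RtB21_10.Ce.right.right.right.left.right.right.right RtB21_10.CTp.right RtB21_10.CEr.right 0x01 = true := by decide +kernel

theorem cB21_10_3_102 : chunkOkM (LB21_10.ctx true true 105 1 1 1 1 1 1 1 1) muQ true true 64 RtB21_10.Cx.right.right.right RtB21_10.CX RtB21_10.Ctp.right.right.right.right.left.left.right RtB21_10.Ce.right.right.right.left.right.right.right RtB21_10.CTp.right RtB21_10.CEr.right 0x01 = true := by decide +kernel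

theorem cB21_10_3_103 : chunkOkM (LB21_10.ctx true true 105 1 1 1 1 1 1 1 1) muQ true true 64 RtB21_10.Cx.right.right.right RtB21_10.CX RtB21_10.Ctp.right.right.right.right.left.right RtB21_10.Ce.right.right.right.left.right.right RtB21_10.CTp.right RtB21_10.CEr.right 0x01 = true := by decide +kernel

theorem cB21_10_3_104 : chunkOkM (LB21_10.ctx true true 105 1 1 1 1 1 1 1 1) muQ true true 64 RtB21_10.Cx.right.right.right RtB21_10.CX RtB21_10.Ctp.right.right.right.right.right RtB21_10.Ce.right.right.right.left.right RtB21_10.CTp.right RtB21_10.CEr 0x01 = true := by decide +kernel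

theorem cB21_10_3_105 : chunkOkM (LB21_10.ctx true true 353 98079 32768 13 16 8177 8211 64 75) muQ true true 64 RtB21_10.Cx RtB21_10.CX RtB21_10.Ctp.right.right.right RtB21_10.Ce.right.right.right.right RtB21_10.CTp.right RtB21_10.CEr 0x212121010101012886f4b686c2a75b32d8daf4121d3d0c74d5cf349ed2dffefebf240d15c4941f86c70e679498f92401415769f677ddcff219f520b418b8bd9bf481a7bb80b5af060d12bf32b77c1655b0f58f93fcc1f70b9f6208ba81a1aaf5effa3d277daf49520bec839f12e36d9e86faf070d691cf0431c96c28de6e02c99b3d11c5e8c9f6224fb199a2af4169f300035af250d5485d2d3ad8fde80bc067c2270f88ae9f6829cee2819f516ad367cfbabf4599bebad83af060dd1167b876c450029079b1815964189f67e8feed929f51982a89ffa6bf463f39b8b2baf060d563349e6b3728ab2b57bba9fbaf81426db2fb3af6652f42a834af4529fa42539af250d633493217217217421744 = true := by decide +kernel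

theorem cB21_10_2_0 : chunkOkM (LB21_10.ctx false true 105 1 1 1 1 1 1 1 1) muQ false true 64 RtB21_10.Cx RtB21_10.CX RtB21_10.Ctn RtB21_10.Ce RtB21_10.CTp RtB21_10.CEr 0x49 = true := by decide +kernel

theorem cB21_10_1_0 : chunkOkM (LB21_10.ctx true false 105 1 1 1 1 1 1 1 1) muQ true false 64 RtB21_10.Cx RtB21_10.CX RtB21_10.Ctp RtB21_10.Ce RtB21_10.CTn RtB21_10.CEr 0x4a = true := by decide +kernel

theorem cB21_10_0_0 : chunkOkM (LB21_10.ctx false false 105 1 1 1 1 1 1 1 1) muQ false false 64 RtB21_10.Cx RtB21_10.CX RtB21_10.Ctn RtB21_10.Ce RtB21_10.CTn RtB21_10.CEr 0x49 = true := by decide +kernel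

end Vale.Agent.helper4.Q4
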