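import Vale.Agent.helper4.Q4TreeM
import Vale.Agent.helper4.Q4G.PB21_10_0
import Vale.Agent.helper4.Q4G.PB21_10_1
import Vale.Agent.helper4.Q4G.PB21_10_2
import Vale.Agent.helper4.Q4G.PB21_10_3
import Vale.Agent.helper4.Q4G.PB21_10_4
import Vale.Agent.helper4.Q4G.PB21_10_5
import Vale.Agent.helper4.Q4G.PB21_10_6

/-!
Checks for pairs of intervals of second moments.
-/

set_option maxRecDepth 100000
set_option linter.unusedVariables false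

namespace Vale.Agent.helper4.Q4

theorem covB21_10 : LB21_10.Full muQ.val RtB21_10 := ⟨(LitT.Cov.split_t (LitT.cov_of_chunkM cB21_10_3_0) (LitT.Cov.split_e (LitT.cov_of_chunkM cB21_10_3_1) (LitT.Cov.split_t (LitT.cov_of_chunkM cB21_10_3_2) (LitT.Cov.split_T (LitT.cov_of_chunkM cB21_10_3_3) (LitT.Cov.split_t (LitT.cov_of_chunkM cB21_10_3_4) (LitT.Cov.split_e (LitT.cov_of_chunkM cB21_10_3_5) (LitT.Cov.split_e (LitT.Cov.split_t (LitT.Cov.split_e (LitT.cov_of_chunkM cB21_10_3_6) (LitT.Cov.split_e (LitT.cov_of_chunkM cB21_10_3_7) (LitT.Cov.split_t (LitT.Cov.split_t (LitT.cov_of_chunkM cB21_10_3_8) (LitT.Cov.split_e (LitT.cov_of_chunkM cB21_10_3_9) (LitT.Cov.split_x (LitT.Cov.split_x (LitT.Cov.split_E (LitT.cov_of_chunkM cB21_10_3_10) (LitT.Cov.split_e (LitT.Cov.split_t (LitT.cov_of_chunkM cB21_10_3_11) (LitT.Cov.split_x (LitT.Cov.split_e (LitT.cov_of_chunkM cB21_10_3_12)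 (LitT.Cov.split_E (LitT.cov_of_chunkM cB21_10_3_13) (LitT.Cov.split_t (LitT.cov_of_chunkM cB21_10_3_14) (LitT.cov_of_chunkM cB21_10_3_15)))) (LitT.cov_of_chunkM cB21_10_3_16))) (LitT.Cov.split_t (LitT.cov_of_chunkM cB21_10_3_17) (LitT.Cov.split_x (LitT.Cov.split_E (LitT.cov_of_chunkM cB21_10_3_18) (LitT.Cov.split_e (LitT.cov_of_chunkM cB21_10_3_19) (LitT.cov_of_chunkM cB21_10_3_20))) (LitT.Cov.split_t (LitT.cov_of_chunkM cB21_10_3_21) (LitT.Cov.split_e (LitT.cov_of_chunkM cB21_10_3_22) (LitT.cov_of_chunkM cB21_10_3_23))))))) (LitT.cov_of_chunkM cB21_10_3_24)) (LitT.cov_of_chunkM cB21_10_3_25)))) (LitT.cov_of_chunkM cB21_10_3_26)))) (LitT.cov_of_chunkM cB21_10_3_27)) (LitT.Cov.split_e (LitT.Cov.split_t (LitT.Cov.split_e (LitT.Cov.split_t (LitT.cov_of_chunkM cB21_10_3_28) (LitT.Cov.split_x (LitT.Cov.split_t (LitT.Cov.split_e (LitT.Cov.split_E (LitT.cov_of_chunkM cB21_10_3_29)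 (LitT.Cov.split_x (LitT.Cov.split_e (LitT.Cov.split_x (LitT.cov_of_chunkM cB21_10_3_30) (LitT.Cov.split_t (LitT.Cov.split_e (LitT.Cov.split_E (LitT.cov_of_chunkM cB21_10_3_31) (LitT.cov_of_chunkM cB21_10_3_32)) (LitT.Cov.split_x (LitT.cov_of_chunkM cB21_10_3_33) (LitT.Cov.split_E (LitT.cov_of_chunkM cB21_10_3_34) (LitT.cov_of_chunkM cB21_10_3_35)))) (LitT.cov_of_chunkM cB21_10_3_36))) (LitT.cov_of_chunkM cB21_10_3_37)) (LitT.Cov.split_e (LitT.cov_of_chunkM cB21_10_3_38) (LitT.Cov.split_t (LitT.Cov.split_x (LitT.Cov.split_E (LitT.cov_of_chunkM cB21_10_3_39) (LitT.Cov.split_e (LitT.cov_of_chunkM cB21_10_3_40) (LitT.cov_of_chunkM cB21_10_3_41))) (LitT.cov_of_chunkM cB21_10_3_42)) (LitT.cov_of_chunkM cB21_10_3_43))))) (LitT.Cov.split_x (LitT.cov_of_chunkM cB21_10_3_44) (LitT.Cov.split_E (LitT.cov_of_chunkM cB21_10_3_45) (LitT.Cov.split_e (LitT.Cov.split_t (LitT.cov_of_chunkM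 cB21_10_3_46) (LitT.Cov.split_x (LitT.cov_of_chunkM cB21_10_3_47) (LitT.Cov.split_e (LitT.cov_of_chunkM cB21_10_3_48) (LitT.Cov.split_E (LitT.cov_of_chunkM cB21_10_3_49) (LitT.Cov.split_t (LitT.cov_of_chunkM cB21_10_3_50) (LitT.cov_of_chunkM cB21_10_3_51)))))) (LitT.cov_of_chunkM cB21_10_3_52))))) (LitT.cov_of_chunkM cB21_10_3_53)) (LitT.Cov.split_e (LitT.cov_of_chunkM cB21_10_3_54) (LitT.Cov.split_t (LitT.Cov.split_t (LitT.cov_of_chunkM cB21_10_3_55) (LitT.Cov.split_t (LitT.cov_of_chunkM cB21_10_3_56) (LitT.Cov.split_t (LitT.cov_of_chunkM cB21_10_3_57) (LitT.Cov.split_E (LitT.cov_of_chunkM cB21_10_3_58) (LitT.Cov.split_e (LitT.cov_of_chunkM cB21_10_3_59) (LitT.Cov.split_x (LitT.Cov.split_x (LitT.Cov.split_x (LitT.Cov.split_x (LitT.Cov.split_e (LitT.cov_of_chunkM cB21_10_3_60) (LitT.cov_of_chunkM cB21_10_3_61)) (LitT.cov_of_chunkM cB21_10_3_62)) (LitT.cov_of_chunkM cB21_10_3_63))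 (LitT.cov_of_chunkM cB21_10_3_64)) (LitT.cov_of_chunkM cB21_10_3_65))))))) (LitT.cov_of_chunkM cB21_10_3_66))))) (LitT.Cov.split_x (LitT.cov_of_chunkM cB21_10_3_67) (LitT.Cov.split_t (LitT.cov_of_chunkM cB21_10_3_68) (LitT.Cov.split_e (LitT.Cov.split_E (LitT.cov_of_chunkM cB21_10_3_69) (LitT.Cov.split_t (LitT.cov_of_chunkM cB21_10_3_70) (LitT.Cov.split_x (LitT.Cov.split_e (LitT.Cov.split_t (LitT.Cov.split_x (LitT.Cov.split_E (LitT.cov_of_chunkM cB21_10_3_71) (LitT.cov_of_chunkM cB21_10_3_72)) (LitT.cov_of_chunkM cB21_10_3_73)) (LitT.cov_of_chunkM cB21_10_3_74)) (LitT.Cov.split_x (LitT.cov_of_chunkM cB21_10_3_75) (LitT.Cov.split_t (LitT.Cov.split_t (LitT.cov_of_chunkM cB21_10_3_76) (LitT.Cov.split_E (LitT.cov_of_chunkM cB21_10_3_77) (LitT.cov_of_chunkM cB21_10_3_78))) (LitT.cov_of_chunkM cB21_10_3_79)))) (LitT.cov_of_chunkM cB21_10_3_80)))) (LitT.Cov.split_x (LitT.cov_of_chunkM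 cB21_10_3_81) (LitT.Cov.split_t (LitT.cov_of_chunkM cB21_10_3_82) (LitT.Cov.split_t (LitT.cov_of_chunkM cB21_10_3_83) (LitT.Cov.split_E (LitT.cov_of_chunkM cB21_10_3_84) (LitT.Cov.split_e (LitT.Cov.split_x (LitT.Cov.split_e (LitT.cov_of_chunkM cB21_10_3_85) (LitT.Cov.split_E (LitT.cov_of_chunkM cB21_10_3_86) (LitT.cov_of_chunkM cB21_10_3_87))) (LitT.cov_of_chunkM cB21_10_3_88)) (LitT.Cov.split_E (LitT.cov_of_chunkM cB21_10_3_89) (LitT.Cov.split_x (LitT.cov_of_chunkM cB21_10_3_90) (LitT.cov_of_chunkM cB21_10_3_91)))))))))))) (LitT.Cov.split_x (LitT.cov_of_chunkM cB21_10_3_92) (LitT.Cov.split_x (LitT.cov_of_chunkM cB21_10_3_93) (LitT.Cov.split_e (LitT.cov_of_chunkM cB21_10_3_94) (LitT.Cov.split_x (LitT.cov_of_chunkM cB21_10_3_95) (LitT.Cov.split_t (LitT.Cov.split_e (LitT.cov_of_chunkM cB21_10_3_96) (LitT.Cov.split_E (LitT.cov_of_chunkM cB21_10_3_97) (LitT.Cov.split_t (LitT.Cov.split_e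 (LitT.cov_of_chunkM cB21_10_3_98) (LitT.Cov.split_t (LitT.Cov.split_t (LitT.Cov.split_e (LitT.cov_of_chunkM cB21_10_3_99) (LitT.cov_of_chunkM cB21_10_3_100)) (LitT.cov_of_chunkM cB21_10_3_101)) (LitT.cov_of_chunkM cB21_10_3_102))) (LitT.cov_of_chunkM cB21_10_3_103)))) (LitT.cov_of_chunkM cB21_10_3_104))))))) (LitT.cov_of_chunkM cB21_10_3_105))))))))), (LitT.cov_of_chunkM cB21_10_1_0), (LitT.cov_of_chunkM cB21_10_2_0), (LitT.cov_of_chunkM cB21_10_0_0)⟩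

end Vale.Agent.helper4.Q4
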