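import Vale.Agent.helper4.Q4TreeM
import Vale.Agent.helper4.Q4G.PB21_11

/-!
Checks for pairs of intervals of second moments.
-/

set_option maxRecDepth 100000
set_option linter.unusedVariables false

namespace Vale.Agent.helper4.Q4

theorem cB21_11_3_0 : chunkOkM (LB21_11.ctx true true 99 1 1 1 1 1 1 1 1) muQ true true 64 RtB21_11.Cx RtB21_11.CX RtB21_11.Ctp.left RtB21_11.Ce RtB21_11.CTp RtB21_11.CEr 0x41 = true := by decide +kernel

theorem cB21_11_3_1 : chunkOkM (LB21_11.ctx true true 99 1 1 1 1 1 1 1 1) muQ true true 64 RtB21_11.Cx RtB21_11.CX RtB21_11.Ctp.right RtB21_11.Ce.left RtB21_11.CTp RtB21_11.CEr 0x69 = true := by decide +kernel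

theorem cB21_11_3_2 : chunkOkM (LB21_11.ctx true true 99 1 1 1 1 1 1 1 1) muQ true true 64 RtB21_11.Cx RtB21_11.CX RtB21_11.Ctp.right.left RtB21_11.Ce.right RtB21_11.CTp RtB21_11.CEr 0x41 = true := by decide +kernel

theorem cB21_11_3_3 : chunkOkM (LB21_11.ctx true true 99 1 1 1 1 1 1 1 1) muQ true true 64 RtB21_11.Cx RtB21_11.CX RtB21_11.Ctp.right.right RtB21_11.Ce.right RtB21_11.CTp.left RtB21_11.CEr 0x42 = true := by decide +kernel

theorem cB21_11_3_4 : chunkOkM (LB21_11.ctx true true 99 1 1 1 1 1 1 1 1) muQ true true 64 RtB21_11.Cx RtB21_11.CX RtB21_11.Ctp.right.right RtB21_11.Ce.right RtB21_11.CTp.right RtB21_11.CEr.left 0x6a = true := by decide +kernel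

theorem cB21_11_3_5 : chunkOkM (LB21_11.ctx true true 99 1 1 1 1 1 1 1 1) muQ true true 64 RtB21_11.Cx RtB21_11.CX RtB21_11.Ctp.right.right.left RtB21_11.Ce.right RtB21_11.CTp.right RtB21_11.CEr.right 0x49 = true := by decide +kernel

theorem cB21_11_3_6 : chunkOkM (LB21_11.ctx true true 99 1 1 1 1 1 1 1 1) muQ true true 64 RtB21_11.Cx RtB21_11.CX RtB21_11.Ctp.right.right.right RtB21_11.Ce.right.left RtB21_11.CTp.right RtB21_11.CEr.right 0x11 = true := by decide +kernel

theorem cB21_11_3_7 : chunkOkM (LB21_11.ctx true true 99 1 1 1 1 1 1 1 1) muQ true true 64 RtB21_11.Cx RtB21_11.CX RtB21_11.Ctp.right.right.right.left RtB21_11.Ce.right.right.left.left RtB21_11.CTp.right RtB21_11.CEr.right 0x11 = true := by decide +kernel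

theorem cB21_11_3_8 : chunkOkM (LB21_11.ctx true true 99 1 1 1 1 1 1 1 1) muQ true true 64 RtB21_11.Cx RtB21_11.CX RtB21_11.Ctp.right.right.right.left RtB21_11.Ce.right.right.left.right.left RtB21_11.CTp.right RtB21_11.CEr.right 0x69 = true := by decide +kernel

theorem cB21_11_3_9 : chunkOkM (LB21_11.ctx true true 99 1 1 1 1 1 1 1 1) muQ true true 64 RtB21_11.Cx RtB21_11.CX RtB21_11.Ctp.right.right.right.left.left.left RtB21_11.Ce.right.right.left.right.right RtB21_11.CTp.right RtB21_11.CEr.right 0x49 = true := by decide +kernel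

theorem cB21_11_3_10 : chunkOkM (LB21_11.ctx true true 298 5889 2048 15 16 1955 1853 16 33) muQ true true 64 RtB21_11.Cx RtB21_11.CX RtB21_11.Ctp.right.right.right.left.left.right RtB21_11.Ce.right.right.left.right.right.left RtB21_11.CTp.right RtB21_11.CEr.right 0xbcad39775c4d38aa678b56d0600f88af45a95febe99f140d = true := by decide +kernel

theorem cB21_11_3_11 : chunkOkM (LB21_11.ctx true true 341 22785 8192 57 64 1955 3757 256 77) muQ true true 64 RtB21_11.Cx.left.left RtB21_11.CX RtB21_11.Ctp.right.right.right.left.left.right RtB21_11.Ce.right.right.left.right.right.right.left RtB21_11.CTp.right.left RtB21_11.CEr.right 0x4a4a59d836b75c7768959b7e4fca07f6177b9cda8f5a1e60147f450d35c322075c104ff169befc87417f618be76568f5c1848bd7f450d6884a54a5425 = true := by decide +kernel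

theorem cB21_11_3_12 : chunkOkM (LB21_11.ctx true true 99 1 1 1 1 1 1 1 1) muQ true true 64 RtB21_11.Cx.left.left RtB21_11.CX RtB21_11.Ctp.right.right.right.left.left.right RtB21_11.Ce.right.right.left.right.right.right.left RtB21_11.CTp.right.right RtB21_11.CEr.right.left 0x6a = true := by decide +kernel

theorem cB21_11_3_13 : chunkOkM (LB21_11.ctx true true 404 5767425 2097152 15 16 125103 29971 35 165) muQ true true 64 RtB21_11.Cx.left.left RtB21_11.CX RtB21_11.Ctp.right.right.right.left.left.right.left RtB21_11.Ce.right.right.left.right.right.right.left RtB21_11.CTp.right.right RtB21_11.CEr.right.right 0x4949495949494959494910ac6d47ed5c910c375ca3831d6f92c29b0de8f6155c203d8f58bf98dd7f460d417070375c153cc0488f5128169ba89f430d66947747774777493493493493493 = true := by decide +kernel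

theorem cB21_11_3_14 : chunkOkM (LB21_11.ctx true true 350 90883 32768 15 16 7871 7531 75 165) muQ true true 64 RtB21_11.Cx.left.left RtB21_11.CX RtB21_11.Ctp.right.right.right.left.left.right.right RtB21_11.Ce.right.right.left.right.right.right.left RtB21_11.CTp.right.right RtB21_11.CEr.right.right 0x695d97fd975ca79e606f936d921f7f614b2249c8f540d5c310e275cb49cb06f9b912ede7f61521c6698f5efa442a7f450d41f9836fd21878ee75c291eb3d7f9f62d2027f6174ec02d8f550d175f380a8ed77ed4ac75c2e83bf848f610b216218f56ccd5d17f450d5733f5ee5b75c15a471198f617a33c578f54d2ae437f440d6115a6acbf75cbce0386f9732a2ef7f614c0b75b8f571e05667f450dee40756fd3a6763975c20763d4a8f616339b828f577e01d37f450d6347 = true := by decide +kernel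

theorem cB21_11_3_15 : chunkOkM (LB21_11.ctx true true 341 22785 8192 57 64 1955 3791 256 77) muQ true true 64 RtB21_11.Cx.left.left RtB21_11.CX RtB21_11.Ctp.right.right.right.left.left.right RtB21_11.Ce.right.right.left.right.right.right.right RtB21_11.CTp.right.left RtB21_11.CEr.right 0x4a4a58e1c0d75ca5f96727f616d17c258f5107e5c258f440d469c93a75c1272ca69bf1551377f6187cb3888f5e1ed0457f450d6884a54a5425 = true := by decide +kernel

theorem cB21_11_3_16 : chunkOkM (LB21_11.ctx true true 99 1 1 1 1 1 1 1 1) muQ true true 64 RtB21_11.Cx.left.left RtB21_11.CX RtB21_11.Ctp.right.right.right.left.left.right RtB21_11.Ce.right.right.left.right.right.right.right RtB21_11.CTp.right.right RtB21_11.CEr.right.left 0x6a = true := by decide +kernel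

theorem cB21_11_3_17 : chunkOkM (LB21_11.ctx true true 323 22785 8192 15 16 3893 3791 35 77) muQ true true 64 RtB21_11.Cx.left.left RtB21_11.CX RtB21_11.Ctp.right.right.right.left.left.right.left RtB21_11.Ce.right.right.left.right.right.right.right RtB21_11.CTp.right.right RtB21_11.CEr.right.right 0x1d9d57c7f9225bc0f68f516e773bc09f430d = true := by decide +kernel

theorem cB21_11_3_18 : chunkOkM (LB21_11.ctx true true 353 91397 32768 15 16 7871 15147 75 165) muQ true true 64 RtB21_11.Cx.left.left RtB21_11.CX RtB21_11.Ctp.right.right.right.left.left.right.right RtB21_11.Ce.right.right.left.right.right.right.right RtB21_11.CTp.right.right RtB21_11.CEr.right.right 0x495edb47375ca13cc96f9d8c96bb7f616be1be98f5be455b37f450d1234ec6fd4dbec3475c1e4775648f613f7ad008f5b9767717f450d675dc4d0475ca8544a6f98867d167f65f64e15d8f440d4d0337275c287882888f66dbfbd358f430d669444933dd015fd609239875cb0fdc66f91409d1338f617240eb78f54e59ea47f460d7db6e36fd3a1359c75c1b3114b7f941f4e9c7f6161742598f53a196487f460d5e5faf775c2d735c68b89ec9b77f61676cd528f56cd57967f450d543b6ad2a75cd31c0d77f6170e4c668f5b0786e87f440d67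 = true := by decide +kernel

theorem cB21_11_3_19 : chunkOkM (LB21_11.ctx true true 99 1 1 1 1 1 1 1 1) muQ true true 64 RtB21_11.Cx.left.right RtB21_11.CX RtB21_11.Ctp.right.right.right.left.left.right RtB21_11.Ce.right.right.left.right.right.right RtB21_11.CTp.right RtB21_11.CEr.right 0x49 = true := by decide +kernel

theorem cB21_11_3_20 : chunkOkM (LB21_11.ctx true true 99 1 1 1 1 1 1 1 1) muQ true true 64 RtB21_11.Cx.right RtB21_11.CX RtB21_11.Ctp.right.right.right.left.left.right RtB21_11.Ce.right.right.left.right.right.right RtB21_11.CTp.right RtB21_11.CEr.right 0x49 = true := by decide +kernel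

theorem cB21_11_3_21 : chunkOkM (LB21_11.ctx true true 361 45827 16384 57 64 7905 7599 256 165) muQ true true 64 RtB21_11.Cx RtB21_11.CX RtB21_11.Ctp.right.right.right.left.right RtB21_11.Ce.right.right.left.right.right RtB21_11.CTp.right RtB21_11.CEr.right 0x110111011157daecd75cba7ad36f912ce12c7f614db34018f5f5aff5f450d530f6e075ca07525f940c98157f6163d099d8f540d6311436a64a4a61ffefe75cbbbf059bd4d192e7f617b513d38f540d103ef7408f05b6884a54a54255017731147114 = true := by decide +kernel

theorem cB21_11_3_22 : chunkOkM (LB21_11.ctx true true 99 1 1 1 1 1 1 1 1) muQ true true 64 RtB21_11.Cx RtB21_11.CX RtB21_11.Ctp.right.right.right.right RtB21_11.Ce.right.right.left RtB21_11.CTp.right RtB21_11.CEr.right 0x11 = true := by decide +kernel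

theorem cB21_11_3_23 : chunkOkM (LB21_11.ctx true true 295 5889 2048 15 16 969 969 16 33) muQ true true 64 RtB21_11.Cx RtB21_11.CX RtB21_11.Ctp.right.right.right.left.left RtB21_11.Ce.right.right.right.left.left RtB21_11.CTp.right RtB21_11.CEr.right 0x488a45075c14337fb78b8d7182c7d9f6af0b1310dfaf54a5ae4d0199bf450d = true := by decide +kernel

theorem cB21_11_3_24 : chunkOkM (LB21_11.ctx true true 367 91911 32768 57 64 7939 7667 256 165) muQ true true 64 RtB21_11.Cx.left.left RtB21_11.CX RtB21_11.Ctp.right.right.right.left.right.left RtB21_11.Ce.right.right.right.left.left.left RtB21_11.CTp.right RtB21_11.CEr.right 0x21015f855b175caec52f6f93cbd60f7f61606395c8f540d1fb7f5fd669d65d75c9b827c6f9109c30048f61734e10c8f5bea4b247f460d346496dd75c2d19c8818f6174ebd0f8f5afa16067f440d621764c750675c4c89458b6bf7aac58f11c15a57729f040d61b33ff75cb8e0ab6f9b3fa5c87f6163328c48f57782cfc7f450d35231ddf75c88146117f6169b75168f530d646a64a4a5ba228e75c8dc84668bfc4beb87f6171465b98f55ef6cb37f450d16f4a94d8f05b6884a54a5425530174 = true := by decide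 +kernel

theorem cB21_11_3_25 : chunkOkM (LB21_11.ctx true true 361 46341 16384 57 64 7939 7667 256 165) muQ true true 64 RtB21_11.Cx.left.right RtB21_11.CX RtB21_11.Ctp.right.right.right.left.right.left RtB21_11.Ce.right.right.right.left.left.left.left RtB21_11.CTp.right RtB21_11.CEr.right 0x114966972e475caa54b56f9d189e8c7f6168e726b8f58cf39547f450d5b6cdf675ca60bb26f9a5a4cdc7f6166efc898f510d4ab988f450d3479c2f875c117425598f616390e538f5f9d14cb7f440d6769436a64a4a5e6757475c1b83f59b12b7c40a8f61450d9458f5141fa9b78f450d3a3963e75cfb9f759bf77b3b37f6178f87558f589300297f450d6884a54a54255 = true := by decide +kernel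

end Vale.Agent.helper4.Q4
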