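import Vale.Agent.helper4.Q4TreeM
import Vale.Agent.helper4.Q4G.PB21_11

/-!
Checks for pairs of intervals of second moments.
-/

set_option maxRecDepth 100000
set_option linter.unusedVariables false

namespace Vale.Agent.helper4.Q4

theorem cB21_11_3_26 : chunkOkM (LB21_11.ctx true true 341 23299 8192 57 64 1989 3859 256 77) muQ true true 64 RtB21_11.Cx.left.right RtB21_11.CX RtB21_11.Ctp.right.right.right.left.right.left RtB21_11.Ce.right.right.right.left.left.left.right RtB21_11.CTp.right.left RtB21_11.CEr.right 0x4a4a6dc191475c1071a3988f617931fbf8f5c452aa67f440d89ccea6fd520c53e75c3dbcc59b10600ed28f618cb7eee8f5a4920e67f460d6884a54a5425 = true := by decide +kernel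

theorem cB21_11_3_27 : chunkOkM (LB21_11.ctx true true 351 92939 32768 15 16 7973 7735 75 165) muQ true true 64 RtB21_11.Cx.left.right RtB21_11.CX RtB21_11.Ctp.right.right.right.left.right.left RtB21_11.Ce.right.right.right.left.left.left.right RtB21_11.CTp.right.right RtB21_11.CEr.right 0x69016373a8075cbd55296f990816727f6168a772a8f56dd3c967f450d4bf43b075c883aff27f6175ccd958f5c7eaea6f440d631140177498ff4096fd42981dc75c1479bc47f94b5c6e27f61832a7b58f5f64b8557f460d6869c0775c3c7ae497f61771765b8f5da42e0d7f440d5654994f75cb9fb026f9b34ae487f616dfe10c8f5925e63d7f450d61e9fca75c2571e36f91c8ac58e8f61b62e39f39f5b3d0fe1d99f450d3444e552875c44e6e58b9a748397f6180dd6fb8f5fd3e8257f450d6736a6 = true := by decide +kernel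

theorem cB21_11_3_28 : chunkOkM (LB21_11.ctx true true 99 1 1 1 1 1 1 1 1) muQ true true 64 RtB21_11.Cx.left.left RtB21_11.CX RtB21_11.Ctp.right.right.right.left.right.left RtB21_11.Ce.right.right.right.left.left.right RtB21_11.CTp.right RtB21_11.CEr.right 0x21 = true := by decide +kernel

theorem cB21_11_3_29 : chunkOkM (LB21_11.ctx true true 315 23299 8192 15 16 1989 1955 32 64) muQ true true 64 RtB21_11.Cx.left.right RtB21_11.CX RtB21_11.Ctp.right.right.right.left.right.left RtB21_11.Ce.right.right.right.left.left.right RtB21_11.CTp.right RtB21_11.CEr.right.left 0x6a372cecd75c1ece64578bafb16ae7f6198ddfc18f5e5865457f450d5 = true := by decide +kernel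

theorem cB21_11_3_30 : chunkOkM (LB21_11.ctx true true 319 23299 8192 15 16 1989 3893 32 77) muQ true true 64 RtB21_11.Cx.left.right RtB21_11.CX RtB21_11.Ctp.right.right.right.left.right.left RtB21_11.Ce.right.right.right.left.left.right.left RtB21_11.CTp.right.left RtB21_11.CEr.right.right 0x64ba06b75c1ab5de278beea495a7f61930b9348f5d88e3867f450d = true := by decide +kernel

theorem cB21_11_3_31 : chunkOkM (LB21_11.ctx true true 325 23299 8192 15 16 3961 3893 35 77) muQ true true 64 RtB21_11.Cx.left.right RtB21_11.CX RtB21_11.Ctp.right.right.right.left.right.left.left RtB21_11.Ce.right.right.right.left.left.right.left RtB21_11.CTp.right.right RtB21_11.CEr.right.right 0xf13c5b6fda240b6175c24fff08b3daf49e35e080a9f240d = true := by decide +kernel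

theorem cB21_11_3_32 : chunkOkM (LB21_11.ctx true true 355 186135 65536 15 16 8007 15521 35 165) muQ true true 64 RtB21_11.Cx.left.right RtB21_11.CX RtB21_11.Ctp.right.right.right.left.right.left.right RtB21_11.Ce.right.right.right.left.left.right.left RtB21_11.CTp.right.right RtB21_11.CEr.right.right 0x6ae259f75cb4eebf6f997348dc7f6177af8648f56df0e5e7f450d660aa1e75cb82ec96f9880b5f87f617e09a5b8f511eee4738f450d3547774575c23ca8f558f61838a2aa8f5e6237a97f440d69eeb99775c5cb0729d8f6d0ea034a8f1362dc65dd9f040d68ce7ea75cbcffe06f9114ec8e48f616e5c32d8f5c9075187f450d35553c2a75c1dc45a3d8f61520c35a8f5d2885697f440d64212101681dfaa75cb19e6d6f91c3cf1388f616e2e46b8f59ee0bec7f450de648ad6fd59503e575c123b4f638f6166c54648f540d63217401747 = true := by decide +kernel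

theorem cB21_11_3_33 : chunkOkM (LB21_11.ctx true true 346 93967 32768 15 16 8007 7837 35 165) muQ true true 64 RtB21_11.Cx.left.right RtB21_11.CX RtB21_11.Ctp.right.right.right.left.right.left RtB21_11.Ce.right.right.right.left.left.right.right RtB21_11.CTp.right RtB21_11.CEr.right.right 0x216b8011375cbbf31d6f9e3172467f617cc75ab8f5af4eea67f450d514886775c1cfbd0988f61905c5998f5f7f40dc7f440d65eb58c675c188ee3d78b15f429f38f61886b6898f5102aa9998f450d54932174217593 = true := by decide +kernel

theorem cB21_11_3_34 : chunkOkM (LB21_11.ctx true true 99 1 1 1 1 1 1 1 1) muQ true true 64 RtB21_11.Cx.left RtB21_11.CX RtB21_11.Ctp.right.right.right.left.right.right RtB21_11.Ce.right.right.right.left.left RtB21_11.CTp.right RtB21_11.CEr.right 0x01 = true := by decide +kernel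

theorem cB21_11_3_35 : chunkOkM (LB21_11.ctx true true 99 1 1 1 1 1 1 1 1) muQ true true 64 RtB21_11.Cx.right RtB21_11.CX RtB21_11.Ctp.right.right.right.left.right RtB21_11.Ce.right.right.right.left.left.left RtB21_11.CTp.right RtB21_11.CEr.right 0x69 = true := by decide +kernel

theorem cB21_11_3_36 : chunkOkM (LB21_11.ctx true true 381 188705 65536 57 64 16031 15725 256 165) muQ true true 64 RtB21_11.Cx.right RtB21_11.CX RtB21_11.Ctp.right.right.right.left.right.left RtB21_11.Ce.right.right.right.left.left.right RtB21_11.CTp.right RtB21_11.CEr.right 0x11494949596f47cf375ca7578f6f997d18f47f6198763438f5d26dee47f450d5d4022775c158da268b288005398f6149c0ef98f540d646f3c09675ca72e486f960bc0697f61775e9428f5b59ebd17f450d57bc61675c1429c64f8f5239386528f430d647776a64a4a1822746fd63077ab75c761e159b61d5b277f618e5091f8f5b6736e87f460d177099e28f05b6884a54a542557114493493493 = true := by decide +kernel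

theorem cB21_11_3_37 : chunkOkM (LB21_11.ctx true true 362 47369 16384 57 64 8041 7871 256 165) muQ true true 64 RtB21_11.Cx.right RtB21_11.CX RtB21_11.Ctp.right.right.right.left.right.right RtB21_11.Ce.right.right.right.left.left.right RtB21_11.CTp.right RtB21_11.CEr.right 0x111111115bb23e375ce34e6b6f9b49c6b47f616e61b928f5b37b5687f450d4d66d1c75c100c05268f6184e96be8f5b81f3e87f440d63711436a64a4a6c9eb5475cb3a2459ba0940de7f618ad60bd8f521c64917f450d14a757638f05b6884a54a542557114 = true := by decide +kernel

theorem cB21_11_3_38 : chunkOkM (LB21_11.ctx true true 99 1 1 1 1 1 1 1 1) muQ true true 64 RtB21_11.Cx.left RtB21_11.CX RtB21_11.Ctp.right.right.right.left RtB21_11.Ce.right.right.right.left.right RtB21_11.CTp.right RtB21_11.CEr.right 0x21 = true := by decide +kernel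

theorem cB21_11_3_39 : chunkOkM (LB21_11.ctx true true 99 1 1 1 1 1 1 1 1) muQ true true 64 RtB21_11.Cx.right RtB21_11.CX RtB21_11.Ctp.right.right.right.left.left RtB21_11.Ce.right.right.right.left.right RtB21_11.CTp.right RtB21_11.CEr.right 0x49 = true := by decide +kernel

theorem cB21_11_3_40 : chunkOkM (LB21_11.ctx true true 304 12035 4096 15 16 1989 1989 16 33) muQ true true 64 RtB21_11.Cx.right RtB21_11.CX RtB21_11.Ctp.right.right.right.left.right.left RtB21_11.Ce.right.right.right.left.right.left RtB21_11.CTp.right RtB21_11.CEr.right 0x10dd9f77fd175ca7c088b3c5b256df9f62ba8a8b849f510f175c6b9af450d = true := by decide +kernel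

theorem cB21_11_3_41 : chunkOkM (LB21_11.ctx true true 341 23813 8192 57 64 2023 3961 256 77) muQ true true 64 RtB21_11.Cx.right.left RtB21_11.CX RtB21_11.Ctp.right.right.right.left.right.right RtB21_11.Ce.right.right.right.left.right.left.left RtB21_11.CTp.right.left RtB21_11.CEr.right 0x4a4a65f5a3275cd766f59bf83b7967f619099fb38f599b8bf77f450d55e719175c6155659b40e6c7d7f619319e008f5299cb76f450d6884a54a5425 = true := by decide +kernel

end Vale.Agent.helper4.Q4
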