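import Vale.Agent.helper4.Q4TreeM
import Vale.Agent.helper4.Q4G.PB21_11

/-!
Checks for pairs of intervals of second moments.
-/

set_option maxRecDepth 100000
set_option linter.unusedVariables false

namespace Vale.Agent.helper4.Q4

theorem cB21_11_3_42 : chunkOkM (LB21_11.ctx true true 340 47883 16384 15 16 8075 7939 35 165) muQ true true 64 RtB21_11.Cx.right.left RtB21_11.CX RtB21_11.Ctp.right.right.right.left.right.right RtB21_11.Ce.right.right.right.left.right.left.left RtB21_11.CTp.right.right RtB21_11.CEr.right 0x262b7d808f00b705f0d575cc676016f99fb576e7f617a466148f5cca6c8b7f450d4f185ce75cfba7afd7f619477b1a8f5f1209e27f440d61144936db75da75cc4c8946f917b16dcc8f61959dd668f58fa90be7f450d7ecda9f75c1274ae5239f151f309d249f030d6ba97df75cc7cb776f9c54ed577f6187ac8198f5bb3bf2d7f450d34561ca4a75cd61bef87f6193f839d8f5885ab407f440d6736a6 = true := by decide +kernel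

theorem cB21_11_3_43 : chunkOkM (LB21_11.ctx true true 99 1 1 1 1 1 1 1 1) muQ true true 64 RtB21_11.Cx.right.left.left RtB21_11.CX RtB21_11.Ctp.right.right.right.left.right.right RtB21_11.Ce.right.right.right.left.right.left.right RtB21_11.CTp.right RtB21_11.CEr.right 0x21 = true := by decide +kernel

theorem cB21_11_3_44 : chunkOkM (LB21_11.ctx true true 347 47883 16384 57 64 2023 3995 256 77) muQ true true 64 RtB21_11.Cx.right.left.right RtB21_11.CX RtB21_11.Ctp.right.right.right.left.right.right RtB21_11.Ce.right.right.right.left.right.left.right RtB21_11.CTp.right.left RtB21_11.CEr.right 0x4a4a197858b7fd7f1486875c104b9169b104700038f6195256738f5cf60cfe7f460d4ea6a7b75cb6f5759b15aea4568f6198138a18f5cbb76b27f450d6884a54a5425 = true := by decide +kernel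

theorem cB21_11_3_45 : chunkOkM (LB21_11.ctx true true 351 96023 32768 15 16 16201 8007 35 165) muQ true true 64 RtB21_11.Cx.right.left.right RtB21_11.CX RtB21_11.Ctp.right.right.right.left.right.right RtB21_11.Ce.right.right.right.left.right.left.right RtB21_11.CTp.right.right RtB21_11.CEr.right 0x010168a956075cced7506f9a05a29e7f618ac64528f5bf1cfb47f450d5715d2175c5cbb958b60b57c77f61a5f68948f5a63fee87f450d6336de294275c11820197f92fff05ef99f1bc76358b49f040d4017735777e75cb134196f9b2eb4247f61967adf48f5148e9bc38f450d724092b75cadbb966f912fd22e58f617f108168f5146cef938f450d71d85a575cc193426f9169556348f61912de6e8f5c53a2e67f450d74690c726fd4eb680a75c96cf3867f61a16a1a78f5146533e98f450d649336a6 = true := by decide +kernel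

theorem cB21_11_3_46 : chunkOkM (LB21_11.ctx true true 365 48397 16384 57 64 8109 16031 256 165) muQ true true 64 RtB21_11.Cx.right.right RtB21_11.CX RtB21_11.Ctp.right.right.right.left.right.right RtB21_11.Ce.right.right.right.left.right.left RtB21_11.CTp.right RtB21_11.CEr.right 0x111163cd0fb75cc7b4086f9f6ed8c17f61845308b8f51057ec6e8f450d5be7c7d75c2f9737878f61c6f9f288f5d5b30ad7f440d6114371146a64a4a6d70e2775ccaa6359b17679d1e8f6191731078f513790e0b8f450d501f36688f04b6884a54a54255114493 = true := by decide +kernel

theorem cB21_11_3_47 : chunkOkM (LB21_11.ctx true true 99 1 1 1 1 1 1 1 1) muQ true true 64 RtB21_11.Cx.right.left RtB21_11.CX RtB21_11.Ctp.right.right.right.left.right RtB21_11.Ce.right.right.right.left.right.right RtB21_11.CTp.right RtB21_11.CEr.right 0x21 = true := by decide +kernel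

theorem cB21_11_3_48 : chunkOkM (LB21_11.ctx true true 99 1 1 1 1 1 1 1 1) muQ true true 64 RtB21_11.Cx.right.right RtB21_11.CX RtB21_11.Ctp.right.right.right.left.right.left RtB21_11.Ce.right.right.right.left.right.right RtB21_11.CTp.right RtB21_11.CEr.right 0x49 = true := by decide +kernel

theorem cB21_11_3_49 : chunkOkM (LB21_11.ctx true true 99 1 1 1 1 1 1 1 1) muQ true true 64 RtB21_11.Cx.right.right RtB21_11.CX RtB21_11.Ctp.right.right.right.left.right.right.left RtB21_11.Ce.right.right.right.left.right.right RtB21_11.CTp.right RtB21_11.CEr.right 0x49 = true := by decide +kernel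

theorem cB21_11_3_50 : chunkOkM (LB21_11.ctx true true 345 24327 8192 57 64 4063 4029 256 77) muQ true true 64 RtB21_11.Cx.right.right RtB21_11.CX RtB21_11.Ctp.right.right.right.left.right.right.right RtB21_11.Ce.right.right.right.left.right.right.left RtB21_11.CTp.right.left RtB21_11.CEr.right 0x4a4a763780875c6e73859b93abe0e7f6199862258f510e2050d8f450d5e174e075cc132359b9d4d6707f619cbaf328f59a9219d7f450d6884a54a5425 = true := by decide +kernel

theorem cB21_11_3_51 : chunkOkM (LB21_11.ctx true true 347 97051 32768 15 16 8143 8075 35 165) muQ true true 64 RtB21_11.Cx.right.right RtB21_11.CX RtB21_11.Ctp.right.right.right.left.right.right.right RtB21_11.Ce.right.right.right.left.right.right.left RtB21_11.CTp.right.right RtB21_11.CEr.right 0x32500e57f9b680246ae9f4ae8b2ef78f130d6a0a87d75cd069e36f9f035a3c7f61951410a8f5e59fc277f450d647cb8375cc7f8d76f9141c7c9a8f61a3ac8028f5956a9fb7f450d75d1958f75ce9bb1a6f95002ff77f61a7add5f8f518d3e5588f450d3659b7fd75cfb0782c7f619c418c18f5115312cc8f440d69c8c2f975c1e9be57819f625a59cfec9f1975702eab9f040d49670ba8d75cc6f78a6f910080e888f619bb5b8b8f510ddd4d68f450d73595056975c18750a2b8f6177ae2e88f5e31ace37f440d6476a6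 = true := by decide +kernel

theorem cB21_11_3_52 : chunkOkM (LB21_11.ctx true true 356 194873 65536 15 16 16303 8143 35 165) muQ true true 64 RtB21_11.Cx.right.right RtB21_11.CX RtB21_11.Ctp.right.right.right.left.right.right.right RtB21_11.Ce.right.right.right.left.right.right.right RtB21_11.CTp.right RtB21_11.CEr.right 0x49495fc680675cda34e86f9683095c7f61b2e6ed08f514fb679b8f450d6729e9b75cde1c0e6f9d23c3c17f619b254728f5f73ae047f450d4774934932169bb46775cdd1a4c6f9e8eec297f61a54d3cb8f5d9469f07f450d493217475f29c6c75cd887cc07f6306fafa08f5434acb6c8f484f7b377f150d6776d94b7ed81b7a8b75c1e63f9778bcc2843a7f61ae1897a8f519784dd48f460d56aca5ee96fd24488e375c1f6682278b68cb7947f61bc735d98f519319f338f460d56 = true := by decide +kernel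

end Vale.Agent.helper4.Q4
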