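import Vale.Agent.helper4.Q4TreeM
import Vale.Agent.helper4.Q4G.PB21_11

/-!
Checks for pairs of intervals of second moments.
-/

set_option maxRecDepth 100000
set_option linter.unusedVariables false

namespace Vale.Agent.helper4.Q4

theorem cB21_11_3_53 : chunkOkM (LB21_11.ctx true true 373 98079 32768 57 64 16337 8143 256 165) muQ true true 64 RtB21_11.Cx RtB21_11.CX RtB21_11.Ctp.right.right.right.right RtB21_11.Ce.right.right.right.left RtB21_11.CTp.right RtB21_11.CEr.right 0x01010101674c65875cdabc066f911b966cf8f619ef29cf8f511287bfe8f450d01653161475cdb88c06f9e65b6ea7f61a7391c88f5e58dfeb7f450d3711c6da47fd6b8cc9c75c127cd4888f619093e1a8f58be73237f450d679fdd1775c4d97203739f11364adda5daf030d4336a64a4a7aab9f375c1a840e69bce1e2067f619ed491b8f5201354528f4595ca397f060d17d583898f05b6884a54a5425511431141140170173017 = true := by decide +kernel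

theorem cB21_11_3_54 : chunkOkM (LB21_11.ctx true true 352 98079 32768 15 16 8177 8211 75 165) muQ true true 64 RtB21_11.Cx RtB21_11.CX RtB21_11.Ctp.right.right.right RtB21_11.Ce.right.right.right.right RtB21_11.CTp.right RtB21_11.CEr.right 0x212121010101018a37a6c75c2278d417f9afc809b78f442bc2fe14caf31107256f49af250d5bd0ec975c194c7cf7f98d133f47f615ce9251a9f59f39ffc019f478652f418f11d9c82d669f070d820860475c6e1376e7f617f2ab4cb8af451fd0fda8f25de9f6f979f050d54581286675c239931388f61b926a978f51221b8f28f440d65b1df5e75c130720d78b824408e7f6e754bc008f5848ecb0789f44c03c6ed8f11a9a01aad9f070d56af521d76fd577acfa75c1cb0b6978b90636067f6a14b05d78f557e80e3d59f431e13b248f111923a2c49f080d563333493217217217421744 = true := by decide +kernel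

theorem cB21_11_2_0 : chunkOkM (LB21_11.ctx false true 99 1 1 1 1 1 1 1 1) muQ false true 64 RtB21_11.Cx RtB21_11.CX RtB21_11.Ctn RtB21_11.Ce RtB21_11.CTp RtB21_11.CEr 0x49 = true := by decide +kernel

theorem cB21_11_1_0 : chunkOkM (LB21_11.ctx true false 99 1 1 1 1 1 1 1 1) muQ true false 64 RtB21_11.Cx RtB21_11.CX RtB21_11.Ctp RtB21_11.Ce RtB21_11.CTn RtB21_11.CEr 0x4a = true := by decide +kernel

theorem cB21_11_0_0 : chunkOkM (LB21_11.ctx false false 99 1 1 1 1 1 1 1 1) muQ false false 64 RtB21_11.Cx RtB21_11.CX RtB21_11.Ctn RtB21_11.Ce RtB21_11.CTn RtB21_11.CEr 0x49 = true := by decide +kernel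

end Vale.Agent.helper4.Q4
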