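import Vale.Agent.helper4.Q4TreeM
import Vale.Agent.helper4.Q4G.PB21_12

/-!
Checks for pairs of intervals of second moments.
-/

set_option maxRecDepth 100000
set_option linter.unusedVariables false

namespace Vale.Agent.helper4.Q4

theorem cB21_12_3_0 : chunkOkM (LB21_12.ctx true true 103 1 1 1 1 1 1 1 1) muQ true true 64 RtB21_12.Cx RtB21_12.CX RtB21_12.Ctp.left RtB21_12.Ce RtB21_12.CTp RtB21_12.CEr 0x41 = true := by decide +kernel

theorem cB21_12_3_1 : chunkOkM (LB21_12.ctx true true 103 1 1 1 1 1 1 1 1) muQ true true 64 RtB21_12.Cx RtB21_12.CX RtB21_12.Ctp.right RtB21_12.Ce.left RtB21_12.CTp RtB21_12.CEr 0x69 = true := by decide +kernel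

theorem cB21_12_3_2 : chunkOkM (LB21_12.ctx true true 103 1 1 1 1 1 1 1 1) muQ true true 64 RtB21_12.Cx RtB21_12.CX RtB21_12.Ctp.right.left RtB21_12.Ce.right RtB21_12.CTp RtB21_12.CEr 0x41 = true := by decide +kernel

theorem cB21_12_3_3 : chunkOkM (LB21_12.ctx true true 103 1 1 1 1 1 1 1 1) muQ true true 64 RtB21_12.Cx RtB21_12.CX RtB21_12.Ctp.right.right RtB21_12.Ce.right RtB21_12.CTp.left RtB21_12.CEr 0x42 = true := by decide +kernel

theorem cB21_12_3_4 : chunkOkM (LB21_12.ctx true true 103 1 1 1 1 1 1 1 1) muQ true true 64 RtB21_12.Cx RtB21_12.CX RtB21_12.Ctp.right.right RtB21_12.Ce.right RtB21_12.CTp.right.left RtB21_12.CEr 0x42 = true := by decide +kernel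

theorem cB21_12_3_5 : chunkOkM (LB21_12.ctx true true 103 1 1 1 1 1 1 1 1) muQ true true 64 RtB21_12.Cx RtB21_12.CX RtB21_12.Ctp.right.right RtB21_12.Ce.right RtB21_12.CTp.right.right RtB21_12.CEr.left 0x12 = true := by decide +kernel

theorem cB21_12_3_6 : chunkOkM (LB21_12.ctx true true 103 1 1 1 1 1 1 1 1) muQ true true 64 RtB21_12.Cx RtB21_12.CX RtB21_12.Ctp.right.right.left RtB21_12.Ce.right RtB21_12.CTp.right.right RtB21_12.CEr.right 0x49 = true := by decide +kernel

theorem cB21_12_3_7 : chunkOkM (LB21_12.ctx true true 103 1 1 1 1 1 1 1 1) muQ true true 64 RtB21_12.Cx RtB21_12.CX RtB21_12.Ctp.right.right.right RtB21_12.Ce.right.left RtB21_12.CTp.right.right RtB21_12.CEr.right 0x11 = true := by decide +kernel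

theorem cB21_12_3_8 : chunkOkM (LB21_12.ctx true true 103 1 1 1 1 1 1 1 1) muQ true true 64 RtB21_12.Cx RtB21_12.CX RtB21_12.Ctp.right.right.right.left RtB21_12.Ce.right.right.left.left RtB21_12.CTp.right.right RtB21_12.CEr.right 0x11 = true := by decide +kernel

theorem cB21_12_3_9 : chunkOkM (LB21_12.ctx true true 103 1 1 1 1 1 1 1 1) muQ true true 64 RtB21_12.Cx RtB21_12.CX RtB21_12.Ctp.right.right.right.left RtB21_12.Ce.right.right.left.right.left RtB21_12.CTp.right.right RtB21_12.CEr.right 0x69 = true := by decide +kernel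

theorem cB21_12_3_10 : chunkOkM (LB21_12.ctx true true 103 1 1 1 1 1 1 1 1) muQ true true 64 RtB21_12.Cx RtB21_12.CX RtB21_12.Ctp.right.right.right.left.left.left RtB21_12.Ce.right.right.left.right.right RtB21_12.CTp.right.right RtB21_12.CEr.right 0x49 = true := by decide +kernel

theorem cB21_12_3_11 : chunkOkM (LB21_12.ctx true true 308 5889 2048 17 16 1955 1853 35 39) muQ true true 64 RtB21_12.Cx RtB21_12.CX RtB21_12.Ctp.right.right.right.left.left.right RtB21_12.Ce.right.right.left.right.right.left RtB21_12.CTp.right.right RtB21_12.CEr.right 0x2a50d4076cb99285ab70c644e444abf475aebf1e36af140d = true := by decide +kernel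

theorem cB21_12_3_12 : chunkOkM (LB21_12.ctx true true 322 22785 8192 17 16 1955 1887 35 65) muQ true true 64 RtB21_12.Cx.left.left RtB21_12.CX RtB21_12.Ctp.right.right.right.left.left.right RtB21_12.Ce.right.right.left.right.right.right RtB21_12.CTp.right.right RtB21_12.CEr.right.left 0x3c7b75ed69ab1d05aaf2aecbf8897a75328f61d2de04d99f59f3a16218f450d = true := by decide +kernel

theorem cB21_12_3_13 : chunkOkM (LB21_12.ctx true true 406 5767425 2097152 17 16 125103 14977 35 195) muQ true true 64 RtB21_12.Cx.left.left RtB21_12.CX RtB21_12.Ctp.right.right.right.left.left.right RtB21_12.Ce.right.right.left.right.right.right.left RtB21_12.CTp.right.right RtB21_12.CEr.right.right 0x6956c5e5a76c8a703069bf290253e8f61c6c06f8e9f5a16a3f788f450d499d63976c1585a6c79b26ac5a0c8f61b188e5e99f540d467d93a76c138e28d79b1380b70169f61d35b75c89f5cb8abc5b8f450d36118ad5d6e76ca27c026a8f61c22df9599f5a16c8e0b8f440d467c09f76c117fe9379ba39e1b778f61b8f8b1119f592fd69778f450d6347494949594949495949495b9a6b4f85cbb283f69bace7503a99f6243578cdb9f540d43c686976c10bd43b79b3106271a59f61b75eb3289f5d2fb48918f450d677477747774934934934934933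 = true := by decide +kernel

theorem cB21_12_3_14 : chunkOkM (LB21_12.ctx true true 329 22785 8192 17 16 3893 3791 35 91) muQ true true 64 RtB21_12.Cx.left.left RtB21_12.CX RtB21_12.Ctp.right.right.right.left.left.right.left RtB21_12.Ce.right.right.left.right.right.right.right RtB21_12.CTp.right.right RtB21_12.CEr.right.right 0xf12491e7f92b2d6fcf49f51c31aa55e4af430d = true := by decide +kernel

theorem cB21_12_3_15 : chunkOkM (LB21_12.ctx true true 365 182023 65536 17 16 7871 15181 75 195) muQ true true 64 RtB21_12.Cx.left.left.left RtB21_12.CX RtB21_12.Ctp.right.right.right.left.left.right.right RtB21_12.Ce.right.right.left.right.right.right.right RtB21_12.CTp.right.right RtB21_12.CEr.right.right 0x217e86e6376c7c24b769b668383d399f61ac6e159b9f540d4bfbb3c76c14b0fa779b2b96c985b9f620881e4ce9f540d62174217593535071d76c79de8d69b1034424559f61d9399b819f59c1f404e8f450df7faf507fd42bc11e76c39004269b31dbdd8499f61a6926b989f5a9f77f898f460d4a02c6076c1a400dc79ba8b545858f61cd3a27a09f551522f558f450d564 = true := by decide +kernel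

theorem cB21_12_3_16 : chunkOkM (LB21_12.ctx true true 354 91397 32768 17 16 7871 15147 35 195) muQ true true 64 RtB21_12.Cx.left.left.right RtB21_12.CX RtB21_12.Ctp.right.right.right.left.left.right.right RtB21_12.Ce.right.right.left.right.right.right.right RtB21_12.CTp.right.right RtB21_12.CEr.right.right 0x4955fc4cc76c633a4869b97f63a958f61d1ec49f59f5d586c6668f450d44b496e76c102e47979bc59b83ec8f61c8c937ef9f5c501f3e08f450d6792267d176c874d2dda29f420d4aa578d76c166099e79b35a72296d9f6833faafea9f440d66944493 = true := by decide +kernel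

theorem cB21_12_3_17 : chunkOkM (LB21_12.ctx true true 103 1 1 1 1 1 1 1 1) muQ true true 64 RtB21_12.Cx.left.right RtB21_12.CX RtB21_12.Ctp.right.right.right.left.left.right RtB21_12.Ce.right.right.left.right.right.right RtB21_12.CTp.right.right RtB21_12.CEr.right 0x49 = true := by decide +kernel

theorem cB21_12_3_18 : chunkOkM (LB21_12.ctx true true 103 1 1 1 1 1 1 1 1) muQ true true 64 RtB21_12.Cx.right RtB21_12.CX RtB21_12.Ctp.right.right.right.left.left.right RtB21_12.Ce.right.right.left.right.right.right RtB21_12.CTp.right.right RtB21_12.CEr.right 0x49 = true := by decide +kernel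

theorem cB21_12_3_19 : chunkOkM (LB21_12.ctx true true 347 45827 16384 17 16 7905 7599 35 195) muQ true true 64 RtB21_12.Cx RtB21_12.CX RtB21_12.Ctp.right.right.right.left.right RtB21_12.Ce.right.right.left.right.right RtB21_12.CTp.right.right RtB21_12.CEr.right 0x11011101118e25f1076c134d1b43e9f6190c319ca9f530d46dc21e76c161c61279b26e9f2708f61c26e21789f540d631143017711453a9efa5c9ab282642083bdbf8835a7197f61be7a18e09f540d637114 = true := by decide +kernel

theorem cB21_12_3_20 : chunkOkM (LB21_12.ctx true true 103 1 1 1 1 1 1 1 1) muQ true true 64 RtB21_12.Cx RtB21_12.CX RtB21_12.Ctp.right.right.right.right RtB21_12.Ce.right.right.left RtB21_12.CTp.right.right RtB21_12.CEr.right 0x11 = true := by decide +kernel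

theorem cB21_12_3_21 : chunkOkM (LB21_12.ctx true true 305 5889 2048 17 16 969 969 35 39) muQ true true 64 RtB21_12.Cx RtB21_12.CX RtB21_12.Ctp.right.right.right.left.left RtB21_12.Ce.right.right.right.left.left RtB21_12.CTp.right.right RtB21_12.CEr.right 0x22dc8f076c9baae5abb29eadc4b4af6dd06f4ba91bbf55de2ed18c578cf450d = true := by decide +kernel

theorem cB21_12_3_22 : chunkOkM (LB21_12.ctx true true 316 11521 4096 17 16 1989 1921 35 65) muQ true true 64 RtB21_12.Cx.left RtB21_12.CX RtB21_12.Ctp.right.right.right.left.right.left RtB21_12.Ce.right.right.right.left.left.left RtB21_12.CTp.right.right RtB21_12.CEr.right.left 0x48af6d76e9ab22cf113acbcbf8279abb06a9f62a77f2b98f440d = true := by decide +kernel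

theorem cB21_12_3_23 : chunkOkM (LB21_12.ctx true true 347 91911 32768 17 16 3961 7667 35 195) muQ true true 64 RtB21_12.Cx.left.left RtB21_12.CX RtB21_12.Ctp.right.right.right.left.right.left RtB21_12.Ce.right.right.right.left.left.left RtB21_12.CTp.right.right RtB21_12.CEr.right.right 0x21015bb2da176c5dbe0269b6152e18f8f61db43a1ae9f5d322f0008f450d4dccc3376c15276db79b14a45e4ca9f61e7a817e79f57e7acce48f450d621753c7b5d76c83316f69bff7f00f18f61ca5a10769f59e3480178f450d4d2338876c144b7e079b1139987e39f61d188f0b49f581b5ca9f8f450d6430174 = true := by decide +kernel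

theorem cB21_12_3_24 : chunkOkM (LB21_12.ctx true true 360 46341 16384 17 16 63359 15351 35 195) muQ true true 64 RtB21_12.Cx.left.right RtB21_12.CX RtB21_12.Ctp.right.right.right.left.right.left RtB21_12.Ce.right.right.right.left.left.left.left RtB21_12.CTp.right.right RtB21_12.CEr.right.right 0x11499871f9676c74858b5b8f61d7f8319f9f5c2a493538f440d4f9086176c11880e879bafdbf4d7f61b78feb0a9f546406a77f450d694c398776c1d32df69b1a695cedc9f61c90409b89f51df534e0a9f450d4d4eec576c159b87279b2811cb668f61e838399e9f5fc7777ce8f450d6694493493493376943 = true := by decide +kernel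

theorem cB21_12_3_25 : chunkOkM (LB21_12.ctx true true 351 92939 32768 17 16 7973 7735 35 195) muQ true true 64 RtB21_12.Cx.left.right RtB21_12.CX RtB21_12.Ctp.right.right.right.left.right.left RtB21_12.Ce.right.right.right.left.left.left.right RtB21_12.CTp.right.right RtB21_12.CEr.right.right 0x69016304f6f76c98ee6b69b1e02798dc9f5e45192868f440d4a1e5d776c10ce9a679b3d3cf53f8f61d12377749f519175b7d8f450d631140177496002bee76c77b59869b1204e95129f61ea418ff89f51175cab629f450d4d3b44a76c16659ed79b5d5f9fac8f61fb1a34a59f51a3b586979f450d67eb31bb76c1340c5b79b1f5402f309f61c7f4ad1e9f510a71945f9f450d4fdeef476c164ec7f79b1317131079f61dc1c1ce79f51279e33de9f450d6473 = true := by decide +kernel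

theorem cB21_12_3_26 : chunkOkM (LB21_12.ctx true true 103 1 1 1 1 1 1 1 1) muQ true true 64 RtB21_12.Cx.left.left RtB21_12.CX RtB21_12.Ctp.right.right.right.left.right.left RtB21_12.Ce.right.right.right.left.left.right RtB21_12.CTp.right.right RtB21_12.CEr.right 0x21 = true := by decide +kernel

theorem cB21_12_3_27 : chunkOkM (LB21_12.ctx true true 322 23299 8192 17 16 1989 1955 35 65) muQ true true 64 RtB21_12.Cx.left.right RtB21_12.CX RtB21_12.Ctp.right.right.right.left.right.left RtB21_12.Ce.right.right.right.left.left.right RtB21_12.CTp.right.right RtB21_12.CEr.right.left 0x3a165f894aa9b1bdffb7c4f0bf81cbe3da7c9f623aa038f59f512e47adfd9f450d = true := by decide +kernel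

theorem cB21_12_3_28 : chunkOkM (LB21_12.ctx true true 329 23299 8192 17 16 3961 3893 35 91) muQ true true 64 RtB21_12.Cx.left.right RtB21_12.CX RtB21_12.Ctp.right.right.right.left.right.left.left RtB21_12.Ce.right.right.right.left.left.right.left RtB21_12.CTp.right.right RtB21_12.CEr.right.right 0xdadbb8176c1aaf32e79b209c94d4abaf5dd2cc0c748af440d = true := by decide +kernel

end Vale.Agent.helper4.Q4
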