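import Vale.Agent.helper4.Q4TreeM
import Vale.Agent.helper4.Q4G.PB21_12

/-!
Checks for pairs of intervals of second moments.
-/

set_option maxRecDepth 100000
set_option linter.unusedVariables false

namespace Vale.Agent.helper4.Q4

theorem cB21_12_3_29 : chunkOkM (LB21_12.ctx true true 365 186135 65536 17 16 8007 15521 75 195) muQ true true 64 RtB21_12.Cx.left.right RtB21_12.CX RtB21_12.Ctp.right.right.right.left.right.left.right RtB21_12.Ce.right.right.right.left.left.right.left RtB21_12.CTp.right.right RtB21_12.CEr.right.right 0x596390476cb57fac69b1999d53bc9f61f93a2cf69f5ff0a72a18f450d5f394fb76c43b65169b302b8c4ca9f61df103be19f5e32da8d38f450d662144b76c144aed679b1362bb3769f61f4085b679f5f13bcf138f450d565662d6a76c2d8506579b1637c7ee4aaf158a7a804faaf040d495df082a76c9d7b9569b7c5762fe8f61ec96171f9f5fdd9cc268f450d533019876c18c34f479b77c016338f61e7657e289f5115d3ed899f450d67342121015df7e3676cfe92db69b2fde0a7d19f61e89e228f9f540d4f9f4d276c173508b79b332e0f938f61e5e243f59f5d43faecf8f450d63217401747 = true := by decide +kernel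

theorem cB21_12_3_30 : chunkOkM (LB21_12.ctx true true 351 93967 32768 17 16 8007 7837 35 195) muQ true true 64 RtB21_12.Cx.left.right RtB21_12.CX RtB21_12.Ctp.right.right.right.left.right.left RtB21_12.Ce.right.right.right.left.left.right.right RtB21_12.CTp.right.right RtB21_12.CEr.right.right 0x2173289d776c12257f579b200d2ea289f5129b9cf309f440d57f630376c16e647d79b11146891d9f61fbd541bf9f5f4200e6d8f450d64932174217593 = true := by decide +kernel

theorem cB21_12_3_31 : chunkOkM (LB21_12.ctx true true 103 1 1 1 1 1 1 1 1) muQ true true 64 RtB21_12.Cx.left RtB21_12.CX RtB21_12.Ctp.right.right.right.left.right.right RtB21_12.Ce.right.right.right.left.left RtB21_12.CTp.right.right RtB21_12.CEr.right 0x01 = true := by decide +kernel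

theorem cB21_12_3_32 : chunkOkM (LB21_12.ctx true true 366 188705 65536 17 16 16031 15725 35 195) muQ true true 64 RtB21_12.Cx.right RtB21_12.CX RtB21_12.Ctp.right.right.right.left.right RtB21_12.Ce.right.right.right.left.left RtB21_12.CTp.right.right RtB21_12.CEr.right 0x111111116bf53f876cc8744369be45007fc8f61ed99c6879f51145fd8c49f450d5b530d976c191aa0479bbfd948f48f61ead6b5eb9f5f030eaf08f450d6371143711462804d6c79ab2f45188f5d3bf8b06149de8f61eda16ede9f57958f30e8f450d611494949596b4e3ab76cd66c4169b39b0670f8f61f6198c3e9f5f96c0aa38f450d4f1fcdd76c17e5f1279bc605a2d98f62034e70699f51389239ff9f450d646c448e976cd64ddd69bcffd83008f61f68d526d9f511f5dba7a9f450d568687776c18216a979b1f5ec9d819f5fd4009ad8f440d6114477771145ae0d53029ab2b9c60528c9bf85ef74d1c8f61f94a39059f5141d4ce479f450d64934934933694 = true := by decide +kernel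

theorem cB21_12_3_33 : chunkOkM (LB21_12.ctx true true 103 1 1 1 1 1 1 1 1) muQ true true 64 RtB21_12.Cx.left RtB21_12.CX RtB21_12.Ctp.right.right.right.left RtB21_12.Ce.right.right.right.left.right RtB21_12.CTp.right.right RtB21_12.CEr.right 0x21 = true := by decide +kernel

theorem cB21_12_3_34 : chunkOkM (LB21_12.ctx true true 103 1 1 1 1 1 1 1 1) muQ true true 64 RtB21_12.Cx.right RtB21_12.CX RtB21_12.Ctp.right.right.right.left.left RtB21_12.Ce.right.right.right.left.right RtB21_12.CTp.right.right RtB21_12.CEr.right 0x49 = true := by decide +kernel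

theorem cB21_12_3_35 : chunkOkM (LB21_12.ctx true true 313 12035 4096 17 16 1989 1989 35 39) muQ true true 64 RtB21_12.Cx.right RtB21_12.CX RtB21_12.Ctp.right.right.right.left.right.left RtB21_12.Ce.right.right.right.left.right.left RtB21_12.CTp.right.right RtB21_12.CEr.right 0x1a44d7a786ce3b0136ab3e8343da44af51cd74e6363bbf440d = true := by decide +kernel

theorem cB21_12_3_36 : chunkOkM (LB21_12.ctx true true 316 12035 4096 17 16 2023 1989 35 65) muQ true true 64 RtB21_12.Cx.right RtB21_12.CX RtB21_12.Ctp.right.right.right.left.right.right RtB21_12.Ce.right.right.right.left.right.left RtB21_12.CTp.right.right RtB21_12.CEr.right.left 0x577c16eb89ab29fa5b3afcfbf8247f86ddd9f51085023109f440d = true := by decide +kernel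

theorem cB21_12_3_37 : chunkOkM (LB21_12.ctx true true 361 190247 65536 17 16 8075 15861 35 195) muQ true true 64 RtB21_12.Cx.right.left RtB21_12.CX RtB21_12.Ctp.right.right.right.left.right.right RtB21_12.Ce.right.right.right.left.right.left.left RtB21_12.CTp.right.right RtB21_12.CEr.right.right 0x2e46e3f689f00baaffaa076c61aacb5e8f61ff1a28299f5e66b22d68f440d4aa904376c16e73e679b11f4d92c09f620143e97a9f514198921c9f450d61144932166357be76cb1405d69b2ca78af3a9f6217cd66439f5bf65728b8f450d5d092b476c1929de579b1a673f9c29f6202f79cf79f511de67d249f450d62174217653022276c95525469b124e7e3489f620605ad8c9f5c1fb25d08f450d57eb8fa76c16fa6a379b14e98a5599f61f5bce56c9f5ddc955da8f450d6473 = true := by decide +kernel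

theorem cB21_12_3_38 : chunkOkM (LB21_12.ctx true true 365 191789 65536 17 16 16201 15997 35 195) muQ true true 64 RtB21_12.Cx.right.left RtB21_12.CX RtB21_12.Ctp.right.right.right.left.right.right RtB21_12.Ce.right.right.right.left.right.left.right RtB21_12.CTp.right.right RtB21_12.CEr.right.right 0x01016a60e7176caca0fa69b10739cbc29f6211acba6b9f5119d1c4919f450d57fd54876c19670ea79b11c9f4c3d9f620c952faa9f5110615b589f450d633d49008476c5c110b69b3183f2154baf1c1631d5b6faf040d40174921a2cf26976c8e9a3669b8ad4934ee9f62290c67aa9f513e6f5d7e9f450d5ae1e7176c19a8cc679b14b5c98bd9f62137237de9f5156f3d20a9f450d6474932175d7493f76c94b6a669b34267dba8f6207f663f09f516e435b639f450d5b6cd6976c194b8c079b105ca98149f62153043099f5146f532c29f450d644933217 = true := by decide +kernel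

theorem cB21_12_3_39 : chunkOkM (LB21_12.ctx true true 349 48397 16384 17 16 8109 16031 35 195) muQ true true 64 RtB21_12.Cx.right.right RtB21_12.CX RtB21_12.Ctp.right.right.right.left.right.right RtB21_12.Ce.right.right.right.left.right.left RtB21_12.CTp.right.right RtB21_12.CEr.right.right 0x1111881c03b76c177d40e79b848d083cd9f623e48d1ab9f5259abacef9f450d59bd4b576c19859b879b2f9cdb0f09f61ff3f46d29f519a39657f9f450d611437114114493 = true := by decide +kernel

theorem cB21_12_3_40 : chunkOkM (LB21_12.ctx true true 103 1 1 1 1 1 1 1 1) muQ true true 64 RtB21_12.Cx.right.left RtB21_12.CX RtB21_12.Ctp.right.right.right.left.right RtB21_12.Ce.right.right.right.left.right.right RtB21_12.CTp.right.right RtB21_12.CEr.right 0x21 = true := by decide +kernel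

theorem cB21_12_3_41 : chunkOkM (LB21_12.ctx true true 103 1 1 1 1 1 1 1 1) muQ true true 64 RtB21_12.Cx.right.right RtB21_12.CX RtB21_12.Ctp.right.right.right.left.right.left RtB21_12.Ce.right.right.right.left.right.right RtB21_12.CTp.right.right RtB21_12.CEr.right 0x49 = true := by decide +kernel

theorem cB21_12_3_42 : chunkOkM (LB21_12.ctx true true 103 1 1 1 1 1 1 1 1) muQ true true 64 RtB21_12.Cx.right.right RtB21_12.CX RtB21_12.Ctp.right.right.right.left.right.right.left RtB21_12.Ce.right.right.right.left.right.right RtB21_12.CTp.right.right RtB21_12.CEr.right 0x49 = true := by decide +kernel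

theorem cB21_12_3_43 : chunkOkM (LB21_12.ctx true true 326 24327 8192 17 16 4063 2023 35 65) muQ true true 64 RtB21_12.Cx.right.right RtB21_12.CX RtB21_12.Ctp.right.right.right.left.right.right.right RtB21_12.Ce.right.right.right.left.right.right RtB21_12.CTp.right.right RtB21_12.CEr.right.left 0x48622c0f79ab22bb4662b16bf891c5fafb09f6eac0686fb9f440d = true := by decide +kernel

end Vale.Agent.helper4.Q4
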