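import Vale.Agent.helper4.Q4TreeM
import Vale.Agent.helper4.Q4G.PB21_12

/-!
Checks for pairs of intervals of second moments.
-/

set_option maxRecDepth 100000
set_option linter.unusedVariables false

namespace Vale.Agent.helper4.Q4

theorem cB21_12_3_44 : chunkOkM (LB21_12.ctx true true 352 48911 16384 17 16 8143 8075 75 195) muQ true true 64 RtB21_12.Cx.right.right RtB21_12.CX RtB21_12.Ctp.right.right.right.left.right.right.right RtB21_12.Ce.right.right.right.left.right.right.left RtB21_12.CTp.right.right RtB21_12.CEr.right.right 0xd2dc79276cc1228b69bb6dcf52dbbaf4ac125e7479f140d79e075f76ce71f5669b13241c2069f621a30a19c9f51599f8f729f450d60a1a6876c909de769b10517c1039f62160cbafc9f517b4e2ced9f450d80af66976c239a8f379b13e6444989f622b9ad4fe9f51886799e39f450d5676f065c76c110eb5e79bf061eaf18f620cd743869f5147692a999f450d4c8497b98fdadc09569b9687416469af6f1f2eec3d9f140cba1f8b7af050d58d568376c18ee00879b1948927009f620dba78619f516b669d0d9f450d3647 = true := by decide +kernel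

theorem cB21_12_3_45 : chunkOkM (LB21_12.ctx true true 395 780263 262144 17 16 130543 65025 35 195) muQ true true 64 RtB21_12.Cx.right.right RtB21_12.CX RtB21_12.Ctp.right.right.right.left.right.right.right RtB21_12.Ce.right.right.right.left.right.right.right RtB21_12.CTp.right.right RtB21_12.CEr.right.right 0x49492121596e42267785cc4815069b69c24afc8f62274c1f8c9f515fe5c8ee9f450d61e754176c186998379b6b8f1ba18f6237b201979f515cc011389f450d649349321742175934480c879f76cdc38e969b21537b4c79f513fe9f4369f440d637492f76c1cefbce79b6f9dcccc8f621c1223989f516cf273579f450d6477493493216bbdc6176cade70f69bed11df1b8f6226aaba409f514de9cd849f450d5adfbc876c19334bb79b119453f949f621d60d6189f515ebc65059f450d621749321747 = true := by decide +kernel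

theorem cB21_12_3_46 : chunkOkM (LB21_12.ctx true true 347 48911 16384 17 16 8177 8143 35 195) muQ true true 64 RtB21_12.Cx RtB21_12.CX RtB21_12.Ctp.right.right.right.right RtB21_12.Ce.right.right.right.left RtB21_12.CTp.right.right RtB21_12.CEr.right 0x010101017ff794476c11e2ca579bbd4e33b28f622476c4529f514ec592e29f450d62a3bf976c1b2007179b11288a45c9f622156251d9f5141ce93b39f450d6dc5deef76c30fa4fe79b503e9056ceaf11402701b262bf040d4331145321d55009ab27e43e8290bbf832c8b86e8f68eeb2e71b9f469163f4709f250d631143017017114017 = true := by decide +kernel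

theorem cB21_12_3_47 : chunkOkM (LB21_12.ctx true true 350 98079 32768 17 16 8177 4097 35 195) muQ true true 64 RtB21_12.Cx RtB21_12.CX RtB21_12.Ctp.right.right.right RtB21_12.Ce.right.right.right.right RtB21_12.CTp.right.right RtB21_12.CEr.right 0x21212101010101818bfa376ced47e669bee7aed8e8f618a1397cd1af5540860f437af486cb508059f197e17deb09f070d64c69d676c1d4d11c79be9ed23088f6152d47040faf58aa2c73b9aaf471b5912fd9f118e1205a10af070d63344ea0fd229ab21110cfe6d8bf8cdaab7cb8f67b10238953af46e59f17a29f21c24dc2722af060d633493217217217421744 = true := by decide +kernel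

theorem cB21_12_2_0 : chunkOkM (LB21_12.ctx false true 103 1 1 1 1 1 1 1 1) muQ false true 64 RtB21_12.Cx RtB21_12.CX RtB21_12.Ctn RtB21_12.Ce RtB21_12.CTp RtB21_12.CEr 0x49 = true := by decide +kernel

theorem cB21_12_1_0 : chunkOkM (LB21_12.ctx true false 103 1 1 1 1 1 1 1 1) muQ true false 64 RtB21_12.Cx RtB21_12.CX RtB21_12.Ctp RtB21_12.Ce RtB21_12.CTn RtB21_12.CEr 0x4a = true := by decide +kernel

theorem cB21_12_0_0 : chunkOkM (LB21_12.ctx false false 103 1 1 1 1 1 1 1 1) muQ false false 64 RtB21_12.Cx RtB21_12.CX RtB21_12.Ctn RtB21_12.Ce RtB21_12.CTn RtB21_12.CEr 0x49 = true := by decide +kernel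

end Vale.Agent.helper4.Q4
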