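import Vale.Agent.helper4.Q4TreeM
import Vale.Agent.helper4.Q4G.PB21_13

/-!
Checks for pairs of intervals of second moments.
-/

set_option maxRecDepth 100000
set_option linter.unusedVariables false

namespace Vale.Agent.helper4.Q4

theorem cB21_13_3_0 : chunkOkM (LB21_13.ctx true true 99 1 1 1 1 1 1 1 1) muQ true true 64 RtB21_13.Cx RtB21_13.CX RtB21_13.Ctp.left RtB21_13.Ce RtB21_13.CTp RtB21_13.CEr 0x41 = true := by decide +kernel

theorem cB21_13_3_1 : chunkOkM (LB21_13.ctx true true 99 1 1 1 1 1 1 1 1) muQ true true 64 RtB21_13.Cx RtB21_13.CX RtB21_13.Ctp.right RtB21_13.Ce.left RtB21_13.CTp RtB21_13.CEr 0x69 = true := by decide +kernel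

theorem cB21_13_3_2 : chunkOkM (LB21_13.ctx true true 99 1 1 1 1 1 1 1 1) muQ true true 64 RtB21_13.Cx RtB21_13.CX RtB21_13.Ctp.right.left RtB21_13.Ce.right RtB21_13.CTp RtB21_13.CEr 0x41 = true := by decide +kernel

theorem cB21_13_3_3 : chunkOkM (LB21_13.ctx true true 99 1 1 1 1 1 1 1 1) muQ true true 64 RtB21_13.Cx RtB21_13.CX RtB21_13.Ctp.right.right RtB21_13.Ce.right RtB21_13.CTp.left RtB21_13.CEr 0x42 = true := by decide +kernel

theorem cB21_13_3_4 : chunkOkM (LB21_13.ctx true true 99 1 1 1 1 1 1 1 1) muQ true true 64 RtB21_13.Cx RtB21_13.CX RtB21_13.Ctp.right.right RtB21_13.Ce.right RtB21_13.CTp.right.left RtB21_13.CEr 0x42 = true := by decide +kernel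

theorem cB21_13_3_5 : chunkOkM (LB21_13.ctx true true 99 1 1 1 1 1 1 1 1) muQ true true 64 RtB21_13.Cx RtB21_13.CX RtB21_13.Ctp.right.right.left RtB21_13.Ce.right RtB21_13.CTp.right.right RtB21_13.CEr 0x49 = true := by decide +kernel

theorem cB21_13_3_6 : chunkOkM (LB21_13.ctx true true 99 1 1 1 1 1 1 1 1) muQ true true 64 RtB21_13.Cx RtB21_13.CX RtB21_13.Ctp.right.right.right RtB21_13.Ce.right.left RtB21_13.CTp.right.right RtB21_13.CEr 0x11 = true := by decide +kernel

theorem cB21_13_3_7 : chunkOkM (LB21_13.ctx true true 99 1 1 1 1 1 1 1 1) muQ true true 64 RtB21_13.Cx RtB21_13.CX RtB21_13.Ctp.right.right.right RtB21_13.Ce.right.right RtB21_13.CTp.right.right RtB21_13.CEr.left 0x12 = true := by decide +kernel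

theorem cB21_13_3_8 : chunkOkM (LB21_13.ctx true true 99 1 1 1 1 1 1 1 1) muQ true true 64 RtB21_13.Cx RtB21_13.CX RtB21_13.Ctp.right.right.right.left RtB21_13.Ce.right.right.left.left RtB21_13.CTp.right.right RtB21_13.CEr.right 0x11 = true := by decide +kernel

theorem cB21_13_3_9 : chunkOkM (LB21_13.ctx true true 99 1 1 1 1 1 1 1 1) muQ true true 64 RtB21_13.Cx RtB21_13.CX RtB21_13.Ctp.right.right.right.left RtB21_13.Ce.right.right.left.right.left RtB21_13.CTp.right.right RtB21_13.CEr.right 0x69 = true := by decide +kernel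

theorem cB21_13_3_10 : chunkOkM (LB21_13.ctx true true 99 1 1 1 1 1 1 1 1) muQ true true 64 RtB21_13.Cx RtB21_13.CX RtB21_13.Ctp.right.right.right.left.left.left RtB21_13.Ce.right.right.left.right.right RtB21_13.CTp.right.right RtB21_13.CEr.right 0x49 = true := by decide +kernel

theorem cB21_13_3_11 : chunkOkM (LB21_13.ctx true true 305 5889 2048 19 16 1955 1853 77 21) muQ true true 64 RtB21_13.Cx RtB21_13.CX RtB21_13.Ctp.right.right.right.left.left.right RtB21_13.Ce.right.right.left.right.right.left RtB21_13.CTp.right.right RtB21_13.CEr.right 0x44f7f16fddea837675c81a93269b630c15094faf4672d934d09f150d = true := by decide +kernel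

theorem cB21_13_3_12 : chunkOkM (LB21_13.ctx true true 318 22785 8192 19 16 1955 1887 77 35) muQ true true 64 RtB21_13.Cx.left.left RtB21_13.CX RtB21_13.Ctp.right.right.right.left.left.right RtB21_13.Ce.right.right.left.right.right.right RtB21_13.CTp.right.right RtB21_13.CEr.right.left 0x3f4ccca288b222398408f84d7ed1158f619f8a5a18f57cc29337f450d = true := by decide +kernel

theorem cB21_13_3_13 : chunkOkM (LB21_13.ctx true true 411 5767425 2097152 19 16 125103 29971 165 105) muQ true true 64 RtB21_13.Cx.left.left RtB21_13.CX RtB21_13.Ctp.right.right.right.left.left.right RtB21_13.Ce.right.right.left.right.right.right.left RtB21_13.CTp.right.right RtB21_13.CEr.right.right 0x695fa6a86fd56f7a3075cc8257927f613087ea38f54a562b27f450d7debde9c85c61835c1088b96402ee7f61271a6588f56d502937f450d5128557c7fd3f1600c75c936b8a87f61252bb478f5966c1237f450d2996bb6fd40544ff75c2407e6f78b4cfd36b7f6128cfda08f517ad2627f460d567494949594949495949497de1c847ed554e15d75c19a022308f61317fd298f59b5df207f450d22093154d94c182c0474897b133b7ff18f5ab462b6f440d531b05c1341ad5f8ed3d868c275c10f803d78b11a482e28f540d5669477477747774934934934934933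 = true := by decide +kernel

theorem cB21_13_3_14 : chunkOkM (LB21_13.ctx true true 329 22785 8192 19 16 1955 3791 165 91) muQ true true 64 RtB21_13.Cx.left.left RtB21_13.CX RtB21_13.Ctp.right.right.right.left.left.right RtB21_13.Ce.right.right.left.right.right.right.right RtB21_13.CTp.right.right RtB21_13.CEr.right.right.left 0x1099e797fd4020dd975c15e8e72d8f61631f31f8f5c03f9197f450ddfc9606fd472921575c23e70db78bcdcbbd67f61487b3788f5c9399037f460d5 = true := by decide +kernel

theorem cB21_13_3_15 : chunkOkM (LB21_13.ctx true true 353 91397 32768 19 16 7871 7599 165 105) muQ true true 64 RtB21_13.Cx.left.left RtB21_13.CX RtB21_13.Ctp.right.right.right.left.left.right RtB21_13.Ce.right.right.left.right.right.right.right RtB21_13.CTp.right.right RtB21_13.CEr.right.right.right 0x496319ed6fd5c079e575c102b15558f6144a62ea8f5ac721dd7f450d4a8f006885c383b5e0f88bb2f84377f6139a5bd68f5bf1b7007f450d5a1e4966fd4f6bec075cf446858b13ef40ae8f6590c73be8f450d5ad1adb485c453e3be788b5669bb228f430d547493b54c806fd5c4a09b75cf5023b27f614b870598f57d8c9cc7f450d8d43ada485c700ce07988b3c07fb918f6ab49966f040d57e4613d68b3b347ff7f96bbbb4538f525554b33e9f440d3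 = true := by decide +kernel

theorem cB21_13_3_16 : chunkOkM (LB21_13.ctx true true 99 1 1 1 1 1 1 1 1) muQ true true 64 RtB21_13.Cx.left.right RtB21_13.CX RtB21_13.Ctp.right.right.right.left.left.right RtB21_13.Ce.right.right.left.right.right.right RtB21_13.CTp.right.right RtB21_13.CEr.right 0x49 = true := by decide +kernel

theorem cB21_13_3_17 : chunkOkM (LB21_13.ctx true true 99 1 1 1 1 1 1 1 1) muQ true true 64 RtB21_13.Cx.right RtB21_13.CX RtB21_13.Ctp.right.right.right.left.left.right RtB21_13.Ce.right.right.left.right.right.right RtB21_13.CTp.right.right RtB21_13.CEr.right 0x49 = true := by decide +kernel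

theorem cB21_13_3_18 : chunkOkM (LB21_13.ctx true true 343 45827 16384 19 16 3961 7599 165 105) muQ true true 64 RtB21_13.Cx RtB21_13.CX RtB21_13.Ctp.right.right.right.left.right RtB21_13.Ce.right.right.left.right.right RtB21_13.CTp.right.right RtB21_13.CEr.right 0x11011101609ab56fd55eedc675c8e098a07f61201c4778f540d86cc472385c68567f1d88b20f2f7168f230d51421b3c7fd4718a2e75c6fa274f7f6145fdae38f540ddd4dfb6fd392037875c135c5cf78bea3ce4e7f6136743018f52e1f3637f460d56311401773114ce96c8e79b50a05cad8f814caaf178f649e5a59a8f240d67114 = true := by decide +kernel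

theorem cB21_13_3_19 : chunkOkM (LB21_13.ctx true true 99 1 1 1 1 1 1 1 1) muQ true true 64 RtB21_13.Cx RtB21_13.CX RtB21_13.Ctp.right.right.right.right RtB21_13.Ce.right.right.left RtB21_13.CTp.right.right RtB21_13.CEr.right 0x11 = true := by decide +kernel

theorem cB21_13_3_20 : chunkOkM (LB21_13.ctx true true 302 5889 2048 19 16 969 969 77 21) muQ true true 64 RtB21_13.Cx RtB21_13.CX RtB21_13.Ctp.right.right.right.left.left RtB21_13.Ce.right.right.right.left.left RtB21_13.CTp.right.right RtB21_13.CEr.right 0x7bb2c5fd32a54be75cce9749b9dd5bf6cb9f6c335a14ee5af552ed83de4c0bf460d = true := by decide +kernel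

theorem cB21_13_3_21 : chunkOkM (LB21_13.ctx true true 312 11521 4096 19 16 1989 1921 77 35) muQ true true 64 RtB21_13.Cx.left RtB21_13.CX RtB21_13.Ctp.right.right.right.left.right.left RtB21_13.Ce.right.right.right.left.left.left RtB21_13.CTp.right.right RtB21_13.CEr.right.left 0x46c838579b29d1d8778f8591bfc578f625c89217f140d = true := by decide +kernel

theorem cB21_13_3_22 : chunkOkM (LB21_13.ctx true true 340 45827 16384 19 16 3961 3825 165 105) muQ true true 64 RtB21_13.Cx.left.left RtB21_13.CX RtB21_13.Ctp.right.right.right.left.right.left RtB21_13.Ce.right.right.right.left.left.left RtB21_13.CTp.right.right RtB21_13.CEr.right.right 0x21016b850d6fd57ac6a875ca272cb77f6139b745f8f54957bf17f450d73286b7385c5775455a88bb56dd8e7f6135964568f59872d157f450d519d8fb57fd3e67b5c75c958caf27f6153e9b6f8f57ee234a7f450d19af2b6fd4b7650175c2b2df8d78bbd694577f613fe9fae8f5199c8887f460d5630174 = true := by decide +kernel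

theorem cB21_13_3_23 : chunkOkM (LB21_13.ctx true true 343 46341 16384 19 16 3961 7667 165 105) muQ true true 64 RtB21_13.Cx.left.right RtB21_13.CX RtB21_13.Ctp.right.right.right.left.right.left RtB21_13.Ce.right.right.right.left.left.left.left RtB21_13.CTp.right.right RtB21_13.CEr.right.right 0x1149de32d96fd5a4590a75c1aeae5948f6144b71e18f59889de77f450d7b91549e85c6070aea188b82549007f6134724fc8f540d57182462f7fd4431d8a75ce7449df7f61401604b8f59f2b8477f450dd1f7c46fd4b13eaf75c1f943e078bda3e32c7f611cebcfc8f5d0f42417f460d563694 = true := by decide +kernel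

end Vale.Agent.helper4.Q4
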