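import Vale.Agent.helper4.Q4TreeM
import Vale.Agent.helper4.Q4G.PB21_13

/-!
Checks for pairs of intervals of second moments.
-/

set_option maxRecDepth 100000
set_option linter.unusedVariables false

namespace Vale.Agent.helper4.Q4

theorem cB21_13_3_24 : chunkOkM (LB21_13.ctx true true 353 92939 32768 19 16 7973 7735 165 105) muQ true true 64 RtB21_13.Cx.left.right RtB21_13.CX RtB21_13.Ctp.right.right.right.left.right.left RtB21_13.Ce.right.right.right.left.left.left.right RtB21_13.CTp.right.right RtB21_13.CEr.right.right 0x690143b3be6fd5e5acbe75c127dffa98f61454734f8f546ddaef7f450d51baba9485c3df9345788b139db3468f541d47ee7f440d534fb793f75c1207e7b28f615d631598f53d23196f440d45e444675c239d61378be1d9b967f613eeff4a8f547e8cbf7f450d561140177498c588a6fd61c907175c8bfbe1c7f614c02e4e8f5e9e50e97f450d90431a9f85c6f32fc0588b1acca6d7f61483e54e8f59946d217f450d5138a0457fd3b2aa4b75c57ef7d17f615078d3c8f5b29efd97f450dbdb5596fd4eb324b75c234cabc78ba0ab9e37f614a0e89e8f5ac57e857f460d5673 = true := by decide +kernel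

theorem cB21_13_3_25 : chunkOkM (LB21_13.ctx true true 99 1 1 1 1 1 1 1 1) muQ true true 64 RtB21_13.Cx.left.left RtB21_13.CX RtB21_13.Ctp.right.right.right.left.right.left RtB21_13.Ce.right.right.right.left.left.right RtB21_13.CTp.right.right RtB21_13.CEr.right 0x21 = true := by decide +kernel

theorem cB21_13_3_26 : chunkOkM (LB21_13.ctx true true 318 23299 8192 19 16 1989 1955 77 35) muQ true true 64 RtB21_13.Cx.left.right RtB21_13.CX RtB21_13.Ctp.right.right.right.left.right.left RtB21_13.Ce.right.right.right.left.left.right RtB21_13.CTp.right.right RtB21_13.CEr.right.left 0x9ee7108788b3a4f773b8f87ca7a83c8f45094aa658f240d = true := by decide +kernel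

theorem cB21_13_3_27 : chunkOkM (LB21_13.ctx true true 363 186135 65536 19 16 7973 15521 165 105) muQ true true 64 RtB21_13.Cx.left.right RtB21_13.CX RtB21_13.Ctp.right.right.right.left.right.left RtB21_13.Ce.right.right.right.left.left.right.left RtB21_13.CTp.right.right RtB21_13.CEr.right.right 0xa0c7096fd65f215775cb92599c7f614f480ab8f5b0b29d07f450d792dcd3885c6624b77088b11f646d48f59f59cbf7f040d52121014dd43c6fd5f80f1475c1e160cc88f61598f2088f560272c87f450d3e9e109fc94c2ec61e2288b3f4b07208f6159d9f818f540d5321740174723196b178b530bd3c7f9206a685d33af48b351ca4c9f240d317cfe2d7fd3e1edbd75cf55b3b57f61604c3038f59be8f1c7f450db932656fd51e8b4475c2841c2578bcf311a77f6149ca4ef8f5c8965d67f460d56 = true := by decide +kernel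

theorem cB21_13_3_28 : chunkOkM (LB21_13.ctx true true 353 93967 32768 19 16 8007 7837 165 105) muQ true true 64 RtB21_13.Cx.left.right RtB21_13.CX RtB21_13.Ctp.right.right.right.left.right.left RtB21_13.Ce.right.right.right.left.left.right.right RtB21_13.CTp.right.right RtB21_13.CEr.right.right 0x2171b0cb6fd5de071175ca504d4d7f6152785b38f5b40f7057f450d5ae9b84585c41c75f6488b11f4825f8f61b770af98f550e221a7f050d51d311ec7fd41cebe575c62bd4507f61576f07e8f5a91c40b7f450d5d86b26fd4b75a9475c235704478b15ea09348f5b6145747f450d564932174217593 = true := by decide +kernel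

theorem cB21_13_3_29 : chunkOkM (LB21_13.ctx true true 99 1 1 1 1 1 1 1 1) muQ true true 64 RtB21_13.Cx.left RtB21_13.CX RtB21_13.Ctp.right.right.right.left.right.right RtB21_13.Ce.right.right.right.left.left RtB21_13.CTp.right.right RtB21_13.CEr.right 0x01 = true := by decide +kernel

theorem cB21_13_3_30 : chunkOkM (LB21_13.ctx true true 99 1 1 1 1 1 1 1 1) muQ true true 64 RtB21_13.Cx.right RtB21_13.CX RtB21_13.Ctp.right.right.right.left.right RtB21_13.Ce.right.right.right.left.left.left RtB21_13.CTp.right.right RtB21_13.CEr.right 0x69 = true := by decide +kernel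

theorem cB21_13_3_31 : chunkOkM (LB21_13.ctx true true 308 12035 4096 19 16 1003 1955 77 35) muQ true true 64 RtB21_13.Cx.right RtB21_13.CX RtB21_13.Ctp.right.right.right.left.right RtB21_13.Ce.right.right.right.left.left.right RtB21_13.CTp.right.right RtB21_13.CEr.right.left 0xbb6cc1b79b4aad8f178f81d18c7e489f430d = true := by decide +kernel

theorem cB21_13_3_32 : chunkOkM (LB21_13.ctx true true 366 188705 65536 19 16 16031 15725 165 105) muQ true true 64 RtB21_13.Cx.right RtB21_13.CX RtB21_13.Ctp.right.right.right.left.right.left RtB21_13.Ce.right.right.right.left.left.right RtB21_13.CTp.right.right RtB21_13.CEr.right.right 0x11494949595a51fe6fd62424ec75cc3cc06b7f6158027d18f5c976bb87f450d409e6644b94c3006187a88b158590b68f6148fa6968f5c5621b77f450d5410458aa7fd63da8d975c18482cd88f61499707f8f5e0c86577f450d4c8d76ac85c3a01257688b20d5424d8aae7fd5cb132c75cb66048f7f61553c6898f590a2fea7f450d3b3475475c1bac19478bd1cabb87f614b275628f51c06c5028f450d567777114493493493 = true := by decide +kernel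

theorem cB21_13_3_33 : chunkOkM (LB21_13.ctx true true 348 47369 16384 19 16 8041 7871 165 105) muQ true true 64 RtB21_13.Cx.right RtB21_13.CX RtB21_13.Ctp.right.right.right.left.right.right RtB21_13.Ce.right.right.right.left.left.right RtB21_13.CTp.right.right RtB21_13.CEr.right.right 0x111111114b8b8f6fd66b998575cf19ee0a7f615b257e58f5a2544257f450d6c0200d885c4d943b1888bbf5fe3a48f6833732be8f440d5719707277fd4cc2c0b75cb5fed817f615b2ac598f511439fe98f450de1fff46fd4a22d2575c1d5860078b13e9077d8f557601657f450d56331147114 = true := by decide +kernel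

theorem cB21_13_3_34 : chunkOkM (LB21_13.ctx true true 99 1 1 1 1 1 1 1 1) muQ true true 64 RtB21_13.Cx.left RtB21_13.CX RtB21_13.Ctp.right.right.right.left RtB21_13.Ce.right.right.right.left.right RtB21_13.CTp.right.right RtB21_13.CEr.right 0x21 = true := by decide +kernel

theorem cB21_13_3_35 : chunkOkM (LB21_13.ctx true true 99 1 1 1 1 1 1 1 1) muQ true true 64 RtB21_13.Cx.right RtB21_13.CX RtB21_13.Ctp.right.right.right.left.left RtB21_13.Ce.right.right.right.left.right RtB21_13.CTp.right.right RtB21_13.CEr.right 0x49 = true := by decide +kernel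

theorem cB21_13_3_36 : chunkOkM (LB21_13.ctx true true 308 12035 4096 19 16 1003 1989 77 35) muQ true true 64 RtB21_13.Cx.right RtB21_13.CX RtB21_13.Ctp.right.right.right.left.right RtB21_13.Ce.right.right.right.left.right.left RtB21_13.CTp.right.right RtB21_13.CEr.right.left 0xd6a35ca79b5a80aa178f83e2ef3e7f6188dfccc8f517a30d358f450d = true := by decide +kernel

theorem cB21_13_3_37 : chunkOkM (LB21_13.ctx true true 314 12035 4096 19 16 1989 1989 77 49) muQ true true 64 RtB21_13.Cx.right RtB21_13.CX RtB21_13.Ctp.right.right.right.left.right.left RtB21_13.Ce.right.right.right.left.right.left RtB21_13.CTp.right.right RtB21_13.CEr.right.right 0xfa8b246fdbb5cf7975c88f49ec78b1fa993d579f5e777cee299f450d = true := by decide +kernel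

theorem cB21_13_3_38 : chunkOkM (LB21_13.ctx true true 347 47883 16384 19 16 8075 7939 165 105) muQ true true 64 RtB21_13.Cx.right.left RtB21_13.CX RtB21_13.Ctp.right.right.right.left.right.right RtB21_13.Ce.right.right.right.left.right.left.left RtB21_13.CTp.right.right RtB21_13.CEr.right.right 0x2940a9378b50e16397f9389b3d488f1103ded5a89f040d56c7196fd659919075cb7913067f615c37ed88f5ed2a81d7f450d8a02a90e85c612e937d88b20d51144937234056fd65d44dc75cbdf16527f61673ba578f5885beaf7f450d9802a24285c7515d78088b6f4edb97f65c30e6888f43de7a5888f250d57320f58877fd42080cf75c103c1b258f613e06aae8f5baeb54c7f450d846c316fd57e1c4875c27f655d78bd21010a7f6157a2c1d8f56fc38317f460d56 = true := by decide +kernel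

end Vale.Agent.helper4.Q4
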