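import Vale.Agent.helper4.Q4TreeM
import Vale.Agent.helper4.Q4G.PB21_13

/-!
Checks for pairs of intervals of second moments.
-/

set_option maxRecDepth 100000
set_option linter.unusedVariables false

namespace Vale.Agent.helper4.Q4

theorem cB21_13_3_39 : chunkOkM (LB21_13.ctx true true 358 96023 32768 19 16 16201 8007 165 105) muQ true true 64 RtB21_13.Cx.right.left RtB21_13.CX RtB21_13.Ctp.right.right.right.left.right.right RtB21_13.Ce.right.right.right.left.right.left.right RtB21_13.CTp.right.right RtB21_13.CEr.right.right 0x010192203f6fd6613f6575cc73358c7f6166dabc58f5a5eb4ab7f450d51fdcdc785c3da38fda88b673350f7f6610284508f44107e53b8f250d5556e45f75c1e24651409f178dead9579f030d4330178ece166fd622401e75c7d793467f6171f58da8f5d74eb357f450d908ea02385c6f08997788b37681aa7f6646a824a8f44329c92b8f250d5493328f54967fd4416c6c75c12ba99018f6180f16368f582eb8c57f450dbd22376fd5f9817e75c2c7044078b138e549a8f617824fab8f589dad227f460d56217 = true := by decide +kernel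

theorem cB21_13_3_40 : chunkOkM (LB21_13.ctx true true 338 24327 8192 19 16 4063 8007 165 105) muQ true true 64 RtB21_13.Cx.right.right RtB21_13.CX RtB21_13.Ctp.right.right.right.left.right.right RtB21_13.Ce.right.right.right.left.right.left RtB21_13.CTp.right.right RtB21_13.CEr.right.right 0x19180c27fd5bde8a675c1a75223c8f61529f29f8f5114b31248f450def38eee485cbb12792588b650dcb678f430d524f267c7fd47b175575c27129d6f9eced6077f61723a6408f511384e898f460d4d74fda75c27428f278be9d19ca7f615cb8ef28f510037c7f8f450d56114114493 = true := by decide +kernel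

theorem cB21_13_3_41 : chunkOkM (LB21_13.ctx true true 99 1 1 1 1 1 1 1 1) muQ true true 64 RtB21_13.Cx.right.left RtB21_13.CX RtB21_13.Ctp.right.right.right.left.right RtB21_13.Ce.right.right.right.left.right.right RtB21_13.CTp.right.right RtB21_13.CEr.right 0x21 = true := by decide +kernel

theorem cB21_13_3_42 : chunkOkM (LB21_13.ctx true true 99 1 1 1 1 1 1 1 1) muQ true true 64 RtB21_13.Cx.right.right RtB21_13.CX RtB21_13.Ctp.right.right.right.left.right.left RtB21_13.Ce.right.right.right.left.right.right RtB21_13.CTp.right.right RtB21_13.CEr.right 0x49 = true := by decide +kernel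

theorem cB21_13_3_43 : chunkOkM (LB21_13.ctx true true 99 1 1 1 1 1 1 1 1) muQ true true 64 RtB21_13.Cx.right.right RtB21_13.CX RtB21_13.Ctp.right.right.right.left.right.right.left RtB21_13.Ce.right.right.right.left.right.right RtB21_13.CTp.right.right RtB21_13.CEr.right 0x49 = true := by decide +kernel

theorem cB21_13_3_44 : chunkOkM (LB21_13.ctx true true 323 24327 8192 19 16 4063 2023 77 35) muQ true true 64 RtB21_13.Cx.right.right RtB21_13.CX RtB21_13.Ctp.right.right.right.left.right.right.right RtB21_13.Ce.right.right.right.left.right.right RtB21_13.CTp.right.right RtB21_13.CEr.right.left 0x49436a879b2a5993328f8d2d6bb9b8f62d356d928f440d = true := by decide +kernel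

theorem cB21_13_3_45 : chunkOkM (LB21_13.ctx true true 344 48911 16384 19 16 4063 8075 165 105) muQ true true 64 RtB21_13.Cx.right.right RtB21_13.CX RtB21_13.Ctp.right.right.right.left.right.right.right RtB21_13.Ce.right.right.right.left.right.right.left RtB21_13.CTp.right.right RtB21_13.CEr.right.right 0x8d03a4778bcaec5b07f989f3ff3609f47f80ec5c8f140d5d50836fd6bd1cae75c10705a928f616f7f2718f5f91a6e17f450d7935e76fd6b72c0475cf09900b7f6171968758f5d68dc157f450d487cc9f9585c6925ae6e88bb75a44b7f6146d5b248f5d6520d47f450d5711825b67fd55fed2d75c740c0037f616e4a6cf8f5fa2f29f7f450dfe490d6fd5c7a8b575c2dc4a3278b4172dbd7f615a0a4c68f5ecb9d3d7f460d56 = true := by decide +kernel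

theorem cB21_13_3_46 : chunkOkM (LB21_13.ctx true true 341 48911 16384 19 16 4063 4063 165 105) muQ true true 64 RtB21_13.Cx.right.right RtB21_13.CX RtB21_13.Ctp.right.right.right.left.right.right.right RtB21_13.Ce.right.right.right.left.right.right.right RtB21_13.CTp.right.right RtB21_13.CEr.right.right 0x515a086fd69c129375c98b2be87f616f980198f518a090a38f450d749eb76fd694038a75ca0ad8a67f6180101588f5ed729817f450d7e946e96b85cb60946f588bb68e506f67296a4498f4476f4ffc8f250d524c812e7fd4d6337c75c203537d7f618975f7b8f51632b0208f450d48feebe75c25d444378b24775cb7f6181546c78f51217fd918f450d56 = true := by decide +kernel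

theorem cB21_13_3_47 : chunkOkM (LB21_13.ctx true true 348 48911 16384 19 16 8177 8143 165 105) muQ true true 64 RtB21_13.Cx RtB21_13.CX RtB21_13.Ctp.right.right.right.right RtB21_13.Ce.right.right.right.left RtB21_13.CTp.right.right RtB21_13.CEr.right 0x010101012df85c6fd720530675cc73801d7f616e55e838f5ff670837f450d6d8506c785c53c28cba88b667d850e8f445a70af48f240d56484f1075c558cea68b33d92e6f8f6384c5210f9f1e346341379f050d425696917fd4a9186175c5b63a9f7f616b422f08f5a2657847f450de9bda16fd4aa703d75c1d1b20978b55c889c7f65a3bd43c8f44149a9468f260d56331143c8dce1279b53904fc68f81140a4b789f230d61141140170173017 = true := by decide +kernel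

theorem cB21_13_3_48 : chunkOkM (LB21_13.ctx true true 351 98079 32768 19 16 8177 4097 165 105) muQ true true 64 RtB21_13.Cx RtB21_13.CX RtB21_13.Ctp.right.right.right RtB21_13.Ce.right.right.right.right RtB21_13.CTp.right.right RtB21_13.CEr.right 0x212121010101014dbb356fd6f4010f75c8a2bccb7f6b4a25a7b8f558de4e3959f43abe43928f11115e78209f070d9cc0901985c79f5ff5c88b7b487b338f43eb9a7dd8f240d52762ff17fd4a8f9c575c7e1b4617f618ba952c8f5524aa23669f4145c3b91f9f060d53a1016fd643431d75c2da9a7178b2959247c8f62964a48a99f550ff6be699f4eeab976e8f170d56333e36d13679b54f10bb38f8413de4288f230d63493217217217421744 = true := by decide +kernel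

theorem cB21_13_2_0 : chunkOkM (LB21_13.ctx false true 99 1 1 1 1 1 1 1 1) muQ false true 64 RtB21_13.Cx RtB21_13.CX RtB21_13.Ctn RtB21_13.Ce RtB21_13.CTp RtB21_13.CEr 0x49 = true := by decide +kernel

theorem cB21_13_1_0 : chunkOkM (LB21_13.ctx true false 99 1 1 1 1 1 1 1 1) muQ true false 64 RtB21_13.Cx RtB21_13.CX RtB21_13.Ctp RtB21_13.Ce RtB21_13.CTn RtB21_13.CEr 0x4a = true := by decide +kernel

theorem cB21_13_0_0 : chunkOkM (LB21_13.ctx false false 99 1 1 1 1 1 1 1 1) muQ false false 64 RtB21_13.Cx RtB21_13.CX RtB21_13.Ctn RtB21_13.Ce RtB21_13.CTn RtB21_13.CEr 0x49 = true := by decide +kernel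

end Vale.Agent.helper4.Q4
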