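import Vale.Agent.helper4.Q4TreeM
import Vale.Agent.helper4.Q4G.PB21_7

/-!
Checks for pairs of intervals of second moments.
-/

set_option maxRecDepth 100000
set_option linter.unusedVariables false

namespace Vale.Agent.helper4.Q4

theorem cB21_7_3_0 : chunkOkM (LB21_7.ctx true true 100 1 1 1 1 1 1 1 1) muQ true true 64 RtB21_7.Cx RtB21_7.CX RtB21_7.Ctp.left RtB21_7.Ce RtB21_7.CTp RtB21_7.CEr 0x41 = true := by decide +kernel

theorem cB21_7_3_1 : chunkOkM (LB21_7.ctx true true 100 1 1 1 1 1 1 1 1) muQ true true 64 RtB21_7.Cx RtB21_7.CX RtB21_7.Ctp.right RtB21_7.Ce.left RtB21_7.CTp RtB21_7.CEr 0x69 = true := by decide +kernel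

theorem cB21_7_3_2 : chunkOkM (LB21_7.ctx true true 100 1 1 1 1 1 1 1 1) muQ true true 64 RtB21_7.Cx RtB21_7.CX RtB21_7.Ctp.right.left RtB21_7.Ce.right RtB21_7.CTp RtB21_7.CEr 0x41 = true := by decide +kernel

theorem cB21_7_3_3 : chunkOkM (LB21_7.ctx true true 100 1 1 1 1 1 1 1 1) muQ true true 64 RtB21_7.Cx RtB21_7.CX RtB21_7.Ctp.right.right.left RtB21_7.Ce.right RtB21_7.CTp RtB21_7.CEr 0x49 = true := by decide +kernel

theorem cB21_7_3_4 : chunkOkM (LB21_7.ctx true true 100 1 1 1 1 1 1 1 1) muQ true true 64 RtB21_7.Cx RtB21_7.CX RtB21_7.Ctp.right.right.right RtB21_7.Ce.right.left RtB21_7.CTp RtB21_7.CEr 0x11 = true := by decide +kernel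

theorem cB21_7_3_5 : chunkOkM (LB21_7.ctx true true 100 1 1 1 1 1 1 1 1) muQ true true 64 RtB21_7.Cx RtB21_7.CX RtB21_7.Ctp.right.right.right RtB21_7.Ce.right.right.left.left RtB21_7.CTp RtB21_7.CEr 0x11 = true := by decide +kernel

theorem cB21_7_3_6 : chunkOkM (LB21_7.ctx true true 100 1 1 1 1 1 1 1 1) muQ true true 64 RtB21_7.Cx RtB21_7.CX RtB21_7.Ctp.right.right.right.left RtB21_7.Ce.right.right.left.right.left RtB21_7.CTp RtB21_7.CEr 0x69 = true := by decide +kernel

theorem cB21_7_3_7 : chunkOkM (LB21_7.ctx true true 100 1 1 1 1 1 1 1 1) muQ true true 64 RtB21_7.Cx RtB21_7.CX RtB21_7.Ctp.right.right.right.left.left.left RtB21_7.Ce.right.right.left.right.right RtB21_7.CTp RtB21_7.CEr 0x49 = true := by decide +kernel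

theorem cB21_7_3_8 : chunkOkM (LB21_7.ctx true true 299 5889 2048 7 16 1955 1853 16 32) muQ true true 64 RtB21_7.Cx RtB21_7.CX RtB21_7.Ctp.right.right.right.left.left.right RtB21_7.Ce.right.right.left.right.right.left RtB21_7.CTp RtB21_7.CEr 0x6abff666c637d91d7f8ce759cb490af4d74fe0e829f140d = true := by decide +kernel

theorem cB21_7_3_9 : chunkOkM (LB21_7.ctx true true 396 5767425 2097152 7 16 125103 14977 32 64) muQ true true 64 RtB21_7.Cx.left.left RtB21_7.CX RtB21_7.Ctp.right.right.right.left.left.right.left RtB21_7.Ce.right.right.left.right.right.right.left RtB21_7.CTp RtB21_7.CEr 0x49494959494949591e4a6607f8922370378f6434efb028f5332d69f28f440d71b05c5494930e68f57f01c91b05c577647774777493493493493493 = true := by decide +kernel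

theorem cB21_7_3_10 : chunkOkM (LB21_7.ctx true true 335 45313 16384 7 16 7837 7497 32 64) muQ true true 64 RtB21_7.Cx.left.left RtB21_7.CX RtB21_7.Ctp.right.right.right.left.left.right.right RtB21_7.Ce.right.right.left.right.right.right.left.left RtB21_7.CTp RtB21_7.CEr 0x1111a544426fd24d2bc17f81f4fa45b8f63ca980088f512eabee08f450dc85750475c27516f6e8f6453bc4a28f5332e10358f440d53a01cfbb7fd16e190068f6474aba0f8f52baec9258f440d4c96e627fdf99d3c66c5d228ca7f8ad93f0da8f6411892e78f550d567 = true := by decide +kernel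

theorem cB21_7_3_11 : chunkOkM (LB21_7.ctx true true 345 90883 32768 7 16 15691 7531 32 64) muQ true true 64 RtB21_7.Cx.left.left RtB21_7.CX RtB21_7.Ctp.right.right.right.left.left.right.right RtB21_7.Ce.right.right.left.right.right.right.left.right RtB21_7.CTp RtB21_7.CEr 0x6975d8ae6fd1c924067f81af285648f63bd05c858f540db33822375c218b7fe78f640ab33988f530d520e5ee6fd1991d967f8486c61b18f641e252f98f53988c52c8f450ddcb8d6375c4ae8ae9d8f6478fd16e8f531030d0a8f440d549342f51e6fd1ce8c047f84dad655d8f6420e13a58f528a450748f450d101ae8de85c3c5a22c7f6498fa7ae8f5302f98858f440d57311b886bb8fd15633e1c8f648ecc4168f5254e224c8f440daab4b866c238e1c9e8f64702c3218f517a4f6168f440d567 = true := by decide +kernel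

theorem cB21_7_3_12 : chunkOkM (LB21_7.ctx true true 315 22785 8192 7 16 3893 3791 16 32) muQ true true 64 RtB21_7.Cx.left.left RtB21_7.CX RtB21_7.Ctp.right.right.right.left.left.right.left RtB21_7.Ce.right.right.left.right.right.right.right RtB21_7.CTp RtB21_7.CEr 0x78ab5c508f5495568e809f420d = true := by decide +kernel

theorem cB21_7_3_13 : chunkOkM (LB21_7.ctx true true 354 181509 65536 7 16 15691 15113 32 64) muQ true true 64 RtB21_7.Cx.left.left.left RtB21_7.CX RtB21_7.Ctp.right.right.right.left.left.right.right RtB21_7.Ce.right.right.left.right.right.right.right.left RtB21_7.CTp RtB21_7.CEr 0xc4868d6fd2328ce77f823fbbbf38f63f45d2868f5daed56d7f450de5e404375c5f4772a7f6499a610b8f5248c8ef18f440d549591d5aee6fd1eee4457f856edf4e58f6420b6bc48f5280f5a3e8f450dcdf7a9075c46dee6828f64771cfec8f52ccfaaf68f440d5474935973d37501a7fd1ec8b2a38f64aba5bd68f526cefe7e8f440dcfc35db75c58cdfe17f87b8aecfe8f643e90b0a8f5144365088f450d56 = true := by decide +kernel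

theorem cB21_7_3_14 : chunkOkM (LB21_7.ctx true true 351 182023 65536 7 16 7871 15181 32 64) muQ true true 64 RtB21_7.Cx.left.left.left RtB21_7.CX RtB21_7.Ctp.right.right.right.left.left.right.right RtB21_7.Ce.right.right.left.right.right.right.right.right RtB21_7.CTp RtB21_7.CEr 0x21700fde6fd1f6d93d7f8b0442bfa8f6459fa4d28f51186ec128f450d7fb1f8f75c2e76909d09f6532433958f530d5a6f1bf97fd6e234e098f6536caefa8f530d1c5249a7fdd0467ad75c117d544649f6557d52048f540d562174217593 = true := by decide +kernel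

theorem cB21_7_3_15 : chunkOkM (LB21_7.ctx true true 342 91397 32768 7 16 7871 7599 32 64) muQ true true 64 RtB21_7.Cx.left.left.right RtB21_7.CX RtB21_7.Ctp.right.right.right.left.left.right.right RtB21_7.Ce.right.right.left.right.right.right.right RtB21_7.CTp RtB21_7.CEr 0x491a5fffe7f84c4aeb5d8f6432331098f5398f5cf78f440db6f1ec075c5de05cbc8f64bd2d6128f53baa47c98f440d5a9bcbad7fd170dedfe8f64754ac448f53276fc708f440d469caa6fdf58d45275c628b2437f84dfa9de98f646563f628f5220c78738f460d5675aa1346fd19db2be7f815ece70389f616c74f11a9f440db1b05c55f153e57f01ccd8a3c66c34574cbf99f6f85b106a8f430d564493 = true := by decide +kernel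

theorem cB21_7_3_16 : chunkOkM (LB21_7.ctx true true 100 1 1 1 1 1 1 1 1) muQ true true 64 RtB21_7.Cx.left.right RtB21_7.CX RtB21_7.Ctp.right.right.right.left.left.right RtB21_7.Ce.right.right.left.right.right.right RtB21_7.CTp RtB21_7.CEr 0x49 = true := by decide +kernel

theorem cB21_7_3_17 : chunkOkM (LB21_7.ctx true true 100 1 1 1 1 1 1 1 1) muQ true true 64 RtB21_7.Cx.right RtB21_7.CX RtB21_7.Ctp.right.right.right.left.left.right RtB21_7.Ce.right.right.left.right.right.right RtB21_7.CTp RtB21_7.CEr 0x49 = true := by decide +kernel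

theorem cB21_7_3_18 : chunkOkM (LB21_7.ctx true true 335 45827 16384 7 16 7905 7599 32 64) muQ true true 64 RtB21_7.Cx RtB21_7.CX RtB21_7.Ctp.right.right.right.left.right RtB21_7.Ce.right.right.left.right.right RtB21_7.CTp RtB21_7.CEr 0x110111011178e2806fd1f247627f8f4e98427f63d0c61e98f540d8d1caa675cd5841a988f643caf5788f530d53a518c687fd86ffb287f643a293478f530dec7e3a66c6fe31747f824fe03848f63546cf1c8f51e49c3c98f250d561143017711437114 = true := by decide +kernel

theorem cB21_7_3_19 : chunkOkM (LB21_7.ctx true true 100 1 1 1 1 1 1 1 1) muQ true true 64 RtB21_7.Cx RtB21_7.CX RtB21_7.Ctp.right.right.right.right RtB21_7.Ce.right.right.left.right RtB21_7.CTp RtB21_7.CEr 0x11 = true := by decide +kernel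

theorem cB21_7_3_20 : chunkOkM (LB21_7.ctx true true 296 5889 2048 7 16 969 969 16 32) muQ true true 64 RtB21_7.Cx RtB21_7.CX RtB21_7.Ctp.right.right.right.left.left RtB21_7.Ce.right.right.right.left.left RtB21_7.CTp RtB21_7.CEr 0x32ad95548fd1687698f2eaf61a350f9f87dbf5b2085782c44bf440d = true := by decide +kernel

theorem cB21_7_3_21 : chunkOkM (LB21_7.ctx true true 100 1 1 1 1 1 1 1 1) muQ true true 64 RtB21_7.Cx.left.left.left RtB21_7.CX RtB21_7.Ctp.right.right.right.left.right.left RtB21_7.Ce.right.right.right.left.left.left.left RtB21_7.CTp RtB21_7.CEr 0x01 = true := by decide +kernel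

end Vale.Agent.helper4.Q4
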