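import Vale.Agent.helper4.Q4TreeM
import Vale.Agent.helper4.Q4G.PB21_7

/-!
Checks for pairs of intervals of second moments.
-/

set_option maxRecDepth 100000
set_option linter.unusedVariables false

namespace Vale.Agent.helper4.Q4

theorem cB21_7_3_22 : chunkOkM (LB21_7.ctx true true 335 45827 16384 7 16 7939 7633 32 64) muQ true true 64 RtB21_7.Cx.left.left.right RtB21_7.CX RtB21_7.Ctp.right.right.right.left.right.left.left RtB21_7.Ce.right.right.right.left.left.left.left.left RtB21_7.CTp RtB21_7.CEr 0x6978c1588f00bdf49516fd250927a7f82c6ce16b8f64066394f8f514b3e4b18f450dc1e23c375c2cc03c658f6469f484c8f52d357fb88f440d53cf3f4b27fd218b174c8f6485d920c8f51eef49158f440d720a6666c353f802c8f637a1153c8f57856c187f240d56 = true := by decide +kernel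

theorem cB21_7_3_23 : chunkOkM (LB21_7.ctx true true 347 184079 65536 7 16 7939 7667 32 64) muQ true true 64 RtB21_7.Cx.left.left.right RtB21_7.CX RtB21_7.Ctp.right.right.right.left.right.left.left RtB21_7.Ce.right.right.right.left.left.left.left.right RtB21_7.CTp RtB21_7.CEr 0x661fee6fd1cc14427f835b4ee0b8f641ecf2f18f540d5fa1ac575c134c34ab29f63fddfe048f530d50174404296fd17fa15d7f85a0a65b68f645b4f80f8f53b073c568f450dddfd59475c21d3f90c8f64cf1ba248f52e43f6668f440d53e5661127fd14caf45029f66de6fadd8f530dcb155db75c2feffeb78f64a099fa68f524d73d918f440d56217 = true := by decide +kernel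

theorem cB21_7_3_24 : chunkOkM (LB21_7.ctx true true 100 1 1 1 1 1 1 1 1) muQ true true 64 RtB21_7.Cx.left.left.right RtB21_7.CX RtB21_7.Ctp.right.right.right.left.right.left.right RtB21_7.Ce.right.right.right.left.left.left.left RtB21_7.CTp RtB21_7.CEr 0x01 = true := by decide +kernel

theorem cB21_7_3_25 : chunkOkM (LB21_7.ctx true true 100 1 1 1 1 1 1 1 1) muQ true true 64 RtB21_7.Cx.left.left RtB21_7.CX RtB21_7.Ctp.right.right.right.left.right.left RtB21_7.Ce.right.right.right.left.left.left.right RtB21_7.CTp RtB21_7.CEr 0x21 = true := by decide +kernel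

theorem cB21_7_3_26 : chunkOkM (LB21_7.ctx true true 347 46341 16384 7 16 63359 7667 32 64) muQ true true 64 RtB21_7.Cx.left.right RtB21_7.CX RtB21_7.Ctp.right.right.right.left.right.left RtB21_7.Ce.right.right.right.left.left.left.left RtB21_7.CTp RtB21_7.CEr 0x11498211de6fd1e710c57f84cd499d68f63e425a988f51c4601c28f450d11c05c56d9b656fd1d724ef7f857d98d728f6406f50da8f53f234cee8f450de69fa8375c5b4bb6398f642dcd5138f52ab6eced8f440d54934934933d19bf607fd268294da8f6459dd61c8f53a10f9d38f440d105550076c77ad8e77f8f25142878f6400348cb8f52a91018a8f450d5676943 = true := by decide +kernel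

theorem cB21_7_3_27 : chunkOkM (LB21_7.ctx true true 336 46341 16384 7 16 7939 7701 32 64) muQ true true 64 RtB21_7.Cx.left.right.left RtB21_7.CX RtB21_7.Ctp.right.right.right.left.right.left.left RtB21_7.Ce.right.right.right.left.left.left.right.left RtB21_7.CTp RtB21_7.CEr 0x644ca76fd1aa61de7f8350f31658f6438e7dc78f52c5904248f450dcf1ef2475c1fa53c5b8f6478d7d9a8f532a1c4728f440d593aa8b65c3ff0cc0559f51a66f6f9d3af430d3abaa0717fd34e4d3598f64b6aa69a8f536cd11548f440de27c9666c54f7afb7f82ff5d3f48f64ae2cecc8f534fa8f3b8f450d56 = true := by decide +kernel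

theorem cB21_7_3_28 : chunkOkM (LB21_7.ctx true true 335 46341 16384 7 16 7939 7735 32 64) muQ true true 64 RtB21_7.Cx.left.right.left RtB21_7.CX RtB21_7.Ctp.right.right.right.left.right.left.left RtB21_7.Ce.right.right.right.left.left.left.right.right RtB21_7.CTp RtB21_7.CEr 0x1a0fc677f82c4c591b8f645ca639a8f53e5311c88f440d104bb0de85c9155e1e7f642e8a34d8f530d55747335db9f41eac51c569f220d3d9fc4387fd4d3180a7f64a803f128f52cad66548f440d14ce5b3d85c9f854277f83d760e798f64b0ac8088f536eacc288f450d56 = true := by decide +kernel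

theorem cB21_7_3_29 : chunkOkM (LB21_7.ctx true true 100 1 1 1 1 1 1 1 1) muQ true true 64 RtB21_7.Cx.left.right.right RtB21_7.CX RtB21_7.Ctp.right.right.right.left.right.left.left RtB21_7.Ce.right.right.right.left.left.left.right RtB21_7.CTp RtB21_7.CEr 0x49 = true := by decide +kernel

theorem cB21_7_3_30 : chunkOkM (LB21_7.ctx true true 341 92939 32768 7 16 7973 7735 32 64) muQ true true 64 RtB21_7.Cx.left.right RtB21_7.CX RtB21_7.Ctp.right.right.right.left.right.left.right RtB21_7.Ce.right.right.right.left.left.left.right RtB21_7.CTp RtB21_7.CEr 0x6901934e9a6fd1e3b0237f83b01694c8f6411560d28f5178446fb8f450dcce88b475cb6b23bf98f641a5425c8f530d53a8a85117fd113422d619f64732fb1b8f596346c57f440dacfd7566c4a124e9c8f63f409d4c8f530d56017797a0306fd15571da76cd3e22157f83d6029da89f1ee59c55649f050d4 = true := by decide +kernel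

theorem cB21_7_3_31 : chunkOkM (LB21_7.ctx true true 100 1 1 1 1 1 1 1 1) muQ true true 64 RtB21_7.Cx.left.left RtB21_7.CX RtB21_7.Ctp.right.right.right.left.right.left RtB21_7.Ce.right.right.right.left.left.right RtB21_7.CTp RtB21_7.CEr 0x21 = true := by decide +kernel

theorem cB21_7_3_32 : chunkOkM (LB21_7.ctx true true 317 23299 8192 7 16 3961 3893 16 32) muQ true true 64 RtB21_7.Cx.left.right RtB21_7.CX RtB21_7.Ctp.right.right.right.left.right.left.left RtB21_7.Ce.right.right.right.left.left.right.left RtB21_7.CTp RtB21_7.CEr 0x1dc6ac57fd1f23f1275c884e7cbf8f66147c5a72baf41a82e3707eaf250d = true := by decide +kernel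

theorem cB21_7_3_33 : chunkOkM (LB21_7.ctx true true 350 186135 65536 7 16 7973 15521 32 64) muQ true true 64 RtB21_7.Cx.left.right.left RtB21_7.CX RtB21_7.Ctp.right.right.right.left.right.left.right RtB21_7.Ce.right.right.right.left.left.right.left RtB21_7.CTp RtB21_7.CEr 0x2121018f399e6fd20b17d87f876950d0d8f63faaf5be8f5168603928f450dba3227d7fd8726d117f64e5b9cac8f530d615a3d47685c93c9d037f8951842a78f64590488a8f5f04b5567f450d5321740174 = true := by decide +kernel

theorem cB21_7_3_34 : chunkOkM (LB21_7.ctx true true 341 93453 32768 7 16 8007 7769 32 64) muQ true true 64 RtB21_7.Cx.left.right.right RtB21_7.CX RtB21_7.Ctp.right.right.right.left.right.left.right RtB21_7.Ce.right.right.right.left.left.right.left.left RtB21_7.CTp RtB21_7.CEr 0x20be6907fd30ab25f75c2225aa4379f188acd6bf19f040d49a5ac1a6fd1dd934b7f85722a4718f6405931908f532742fdc8f450dc731bf475c31395c188f6463707588f536bd95068f440d573f14e8037fd32bd9c928f6498c78f58f53dce121a8f440dec6f7f66c562ae627f82bb8671e8f6417668c28f5146bfa8a8f450d56 = true :=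 by decide +kernel

end Vale.Agent.helper4.Q4
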