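import Vale.Agent.helper4.Q4TreeM
import Vale.Agent.helper4.Q4G.PB21_7

/-!
Checks for pairs of intervals of second moments.
-/

set_option maxRecDepth 100000
set_option linter.unusedVariables false

namespace Vale.Agent.helper4.Q4

theorem cB21_7_3_35 : chunkOkM (LB21_7.ctx true true 341 93453 32768 7 16 8007 7803 32 64) muQ true true 64 RtB21_7.Cx.left.right.right RtB21_7.CX RtB21_7.Ctp.right.right.right.left.right.left.right RtB21_7.Ce.right.right.right.left.left.right.left.right RtB21_7.CTp RtB21_7.CEr 0xdb995d6fd215b4da7f822cc08dd8f641fe7d538f514178ea98f450de8a318d75c266976fb8f64a73cbdf8f527969c718f440d5496150666fd186b3c87f87e9ee2c28f64826c9da8f53d5a1a218f450df47462075c41e5f8018f6484c79ee8f5397a11f68f440d57319096da98fd328be61b8f648fde0db8f5383c44928f440d10558e276c59461947f815d3c4098f643647d4d8f53c8ee2d48f450d56 = true := by decide +kernel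

theorem cB21_7_3_36 : chunkOkM (LB21_7.ctx true true 341 93967 32768 7 16 8007 7837 32 64) muQ true true 64 RtB21_7.Cx.left.right RtB21_7.CX RtB21_7.Ctp.right.right.right.left.right.left RtB21_7.Ce.right.right.right.left.left.right.right RtB21_7.CTp RtB21_7.CEr 0x2153770b6fd15e211c7f8554a0ee28f648ab6cb38f53619769d8f450d11db985d85c5c5898f7f64d676b0c8f530c891b78f440d5af58c977fd278055248f64d5df0f78f5335dd6258f440dc7bdec375c6c33b5fe8f648f2e3488f53fa7ff348f440d564932174217593 = true := by decide +kernel

theorem cB21_7_3_37 : chunkOkM (LB21_7.ctx true true 100 1 1 1 1 1 1 1 1) muQ true true 64 RtB21_7.Cx.left RtB21_7.CX RtB21_7.Ctp.right.right.right.left.right.right RtB21_7.Ce.right.right.right.left.left RtB21_7.CTp RtB21_7.CEr 0x01 = true := by decide +kernel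

theorem cB21_7_3_38 : chunkOkM (LB21_7.ctx true true 100 1 1 1 1 1 1 1 1) muQ true true 64 RtB21_7.Cx.right RtB21_7.CX RtB21_7.Ctp.right.right.right.left.right RtB21_7.Ce.right.right.right.left.left.left RtB21_7.CTp RtB21_7.CEr 0x69 = true := by decide +kernel

theorem cB21_7_3_39 : chunkOkM (LB21_7.ctx true true 354 188705 65536 7 16 16031 15725 32 64) muQ true true 64 RtB21_7.Cx.right RtB21_7.CX RtB21_7.Ctp.right.right.right.left.right.left RtB21_7.Ce.right.right.right.left.left.right RtB21_7.CTp RtB21_7.CEr 0x1149494959e3c3f46fd1d699357f891b2e5e68f64938575c8f53eba47088f450dbac83847fd168aa68a8f64b991c648f535f2a51a8f440d6162c32cd85c8bf2f2b7f8849368188f64a3b578f8f54665e3098f450d5477711c353096fd1e752857f899d3e9478f63d9240678f54311ef418f450dd1b05c571168ef1377f01c107678b76c63a00d07f8b9a654268f62d8bd7168f5922a633f8f450d57647114493493493 = true := by decide +kernel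

theorem cB21_7_3_40 : chunkOkM (LB21_7.ctx true true 335 47369 16384 7 16 8041 7871 32 64) muQ true true 64 RtB21_7.Cx.right RtB21_7.CX RtB21_7.Ctp.right.right.right.left.right.right RtB21_7.Ce.right.right.right.left.left.right RtB21_7.CTp RtB21_7.CEr 0x11111111ec55a46fd21dd90b7f8348238c88f6418ce52f8f51ae1bfd68f450dcbb05ba75c2459d0118f648eb9a348f5322798948f440d5b87566f7fdb3ba6687f64b991e2c8f5281d067e8f440dbb391466c136296c7f83290cf4c8f63d19d5a18f541e16ee7f450d563711437114 = true := by decide +kernel

theorem cB21_7_3_41 : chunkOkM (LB21_7.ctx true true 100 1 1 1 1 1 1 1 1) muQ true true 64 RtB21_7.Cx.left RtB21_7.CX RtB21_7.Ctp.right.right.right.left RtB21_7.Ce.right.right.right.left.right RtB21_7.CTp RtB21_7.CEr 0x21 = true := by decide +kernel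

theorem cB21_7_3_42 : chunkOkM (LB21_7.ctx true true 100 1 1 1 1 1 1 1 1) muQ true true 64 RtB21_7.Cx.right RtB21_7.CX RtB21_7.Ctp.right.right.right.left.left RtB21_7.Ce.right.right.right.left.right RtB21_7.CTp RtB21_7.CEr 0x49 = true := by decide +kernel

theorem cB21_7_3_43 : chunkOkM (LB21_7.ctx true true 304 12035 4096 7 16 1989 1989 16 32) muQ true true 64 RtB21_7.Cx.right RtB21_7.CX RtB21_7.Ctp.right.right.right.left.right.left RtB21_7.Ce.right.right.right.left.right.left RtB21_7.CTp RtB21_7.CEr 0x123e16176cd1769e87f84ac5b4798f6515686bde9f5236b035cb0af450d = true := by decide +kernel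

theorem cB21_7_3_44 : chunkOkM (LB21_7.ctx true true 336 47369 16384 7 16 8075 7905 32 64) muQ true true 64 RtB21_7.Cx.right.left.left RtB21_7.CX RtB21_7.Ctp.right.right.right.left.right.right.left RtB21_7.Ce.right.right.right.left.right.left.left.left RtB21_7.CTp RtB21_7.CEr 0x2e69e517fd3a5622875c29a95af68f62e76af35c9f1bae10d3bc9f050dbaa5896fd13d70317f8372d97328f64758a62f8f54056b1288f450de462e0d75c1d3d3b2d8f64b9b03008f538c7b51a8f440d53c3549f07fd1d3de0118f64cfb78c98f52afcee158f440d221b29e7fdc67ed966c2b0ac3998f63ddeb2028f512164d898f450d56 = true := by decide +kernel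

theorem cB21_7_3_45 : chunkOkM (LB21_7.ctx true true 355 190247 65536 7 16 16099 15861 32 64) muQ true true 64 RtB21_7.Cx.right.left.left RtB21_7.CX RtB21_7.Ctp.right.right.right.left.right.right.left RtB21_7.Ce.right.right.right.left.right.left.left.right RtB21_7.CTp RtB21_7.CEr 0x21ff78066fd207af937f87ce6ce188f6424ca1af8f540d74752cc75c365bd3a2e9f6230df7e88f521446bdb8f240d5bd3f3ed7fd171d4fea8f64c6786698f531cbc5548f440dfcdb2b875c60730da38f647ef12388f52a257e97f440d56c473ae6fd1cccdfb7f8594ce5ac8f64495e66e8f53d8f67c18f450d3b310a598f8186f536ad9f4eb4a8d0b8f230d616d4744f85c98e532b7f82d0397a58f65866166b8f529850c8c8f450d549332174217 = true := by decide +kernel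

theorem cB21_7_3_46 : chunkOkM (LB21_7.ctx true true 336 47883 16384 7 16 8075 7939 32 64) muQ true true 64 RtB21_7.Cx.right.left.right RtB21_7.CX RtB21_7.Ctp.right.right.right.left.right.right.left RtB21_7.Ce.right.right.right.left.right.left.left RtB21_7.CTp RtB21_7.CEr 0x124f73a7fd214a8f67f827cbcc838f6448c5cad8f520bb1e928f450df36af2b75c32f6d45b8f64c1494ee8f544235ac88f440d5be6d0f77fd1f80610c8f64d5461dc8f53bf2ce628f440dfacbf666cf08e8c278f62ed6123a8f53042c30d8f440d56114493 = true := by decide +kernel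

theorem cB21_7_3_47 : chunkOkM (LB21_7.ctx true true 315 23813 8192 7 16 4063 3961 16 32) muQ true true 64 RtB21_7.Cx.right.left RtB21_7.CX RtB21_7.Ctp.right.right.right.left.right.right.right RtB21_7.Ce.right.right.right.left.right.left.left RtB21_7.CTp RtB21_7.CEr 0x6746f4608f00b = true := by decide +kernel

theorem cB21_7_3_48 : chunkOkM (LB21_7.ctx true true 100 1 1 1 1 1 1 1 1) muQ true true 64 RtB21_7.Cx.right.left.left RtB21_7.CX RtB21_7.Ctp.right.right.right.left.right.right RtB21_7.Ce.right.right.right.left.right.left.right RtB21_7.CTp RtB21_7.CEr 0x21 = true := by decide +kernel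

end Vale.Agent.helper4.Q4
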