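import Vale.Agent.helper4.Q4TreeM
import Vale.Agent.helper4.Q4G.PB21_7

/-!
Checks for pairs of intervals of second moments.
-/

set_option maxRecDepth 100000
set_option linter.unusedVariables false

namespace Vale.Agent.helper4.Q4

theorem cB21_7_3_49 : chunkOkM (LB21_7.ctx true true 356 191789 65536 7 16 16167 15997 32 64) muQ true true 64 RtB21_7.Cx.right.left.right RtB21_7.CX RtB21_7.Ctp.right.right.right.left.right.right.left RtB21_7.Ce.right.right.right.left.right.left.right RtB21_7.CTp RtB21_7.CEr 0x4921d250f06fd1bb38ee7f8f1e1e3448f64a4708248f5448071c78f450de908a837fd78d0bd2159f696509e0e8f530d614dd52b485c79a06257f825a13f7d19f657a268788f5575980b7f450d547493217b0d95a6fd14fa9df7f8358e47488f6486199508f5461791048f450dd80bf7575c34a1b2278f64c7e790a8f540c729628f440d5124e9a6c8fde23711ac8f683d186708f532f008508f440d137ea9476cabe86007f8448682c48f64e3a07018f5411f18bb8f450d564493 = true := by decide +kernel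

theorem cB21_7_3_50 : chunkOkM (LB21_7.ctx true true 346 96023 32768 7 16 16201 8007 32 64) muQ true true 64 RtB21_7.Cx.right.left.right RtB21_7.CX RtB21_7.Ctp.right.right.right.left.right.right.right RtB21_7.Ce.right.right.right.left.right.left.right RtB21_7.CTp RtB21_7.CEr 0x010112f18c87fd21e252d7f838f219c88f64311fd1a8f521a2acbf8f450dbfe89717fd1168bc7c8f64e5eb0278f532eb264e8f440d6136709f385c64624b37f8488451268f643db0c548f5221418cf8f450d533814e366fd179282ee85ce3123257f8887e403149f121db384f87af050d4017 = true := by decide +kernel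

theorem cB21_7_3_51 : chunkOkM (LB21_7.ctx true true 332 48397 16384 7 16 4063 8007 32 64) muQ true true 64 RtB21_7.Cx.right.right RtB21_7.CX RtB21_7.Ctp.right.right.right.left.right.right RtB21_7.Ce.right.right.right.left.right.left RtB21_7.CTp RtB21_7.CEr 0x11fbacd96fd1c42e4b7f8c5c969778f63be290398f54b469c068f450de1b05c578c588d7f01c12c2e0776c79465af7f847cc22588f6459074558f516a33a838f450d567114114493 = true := by decide +kernel

theorem cB21_7_3_52 : chunkOkM (LB21_7.ctx true true 100 1 1 1 1 1 1 1 1) muQ true true 64 RtB21_7.Cx.right.left RtB21_7.CX RtB21_7.Ctp.right.right.right.left.right RtB21_7.Ce.right.right.right.left.right.right RtB21_7.CTp RtB21_7.CEr 0x21 = true := by decide +kernel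

theorem cB21_7_3_53 : chunkOkM (LB21_7.ctx true true 100 1 1 1 1 1 1 1 1) muQ true true 64 RtB21_7.Cx.right.right RtB21_7.CX RtB21_7.Ctp.right.right.right.left.right.left RtB21_7.Ce.right.right.right.left.right.right RtB21_7.CTp RtB21_7.CEr 0x49 = true := by decide +kernel

theorem cB21_7_3_54 : chunkOkM (LB21_7.ctx true true 100 1 1 1 1 1 1 1 1) muQ true true 64 RtB21_7.Cx.right.right RtB21_7.CX RtB21_7.Ctp.right.right.right.left.right.right.left RtB21_7.Ce.right.right.right.left.right.right RtB21_7.CTp RtB21_7.CEr 0x49 = true := by decide +kernel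

theorem cB21_7_3_55 : chunkOkM (LB21_7.ctx true true 343 96537 32768 7 16 8143 8041 32 64) muQ true true 64 RtB21_7.Cx.right.right.left RtB21_7.CX RtB21_7.Ctp.right.right.right.left.right.right.right RtB21_7.Ce.right.right.right.left.right.right.left.left RtB21_7.CTp RtB21_7.CEr 0x95103497fd838149d75c25ac45c639f65732a2dc39f115ea84f3ffaf050d49b153f06fd19202ab7f84d5384dc8f6476d41d58f549e02b958f450dda6839475c4fa6a8aa8f64aa1f7e88f543a82a498f440d573cc946067fd169996588f64f6defa18f53bf403ac8f440de0666866c30b6bdc88f645624c7c8f536e4db4d8f440d56 = true := by decide +kernel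

theorem cB21_7_3_56 : chunkOkM (LB21_7.ctx true true 372 386919 131072 7 16 64991 32249 32 64) muQ true true 64 RtB21_7.Cx.right.right.left RtB21_7.CX RtB21_7.Ctp.right.right.right.left.right.right.right RtB21_7.Ce.right.right.right.left.right.right.left.right RtB21_7.CTp RtB21_7.CEr 0x178eff97fd249b8237f82a979d0f8f6457188348f51eb1718b8f450dffad1af75c4236456a8f6518ec7d18f57294b3b18f440d549212110faeb97fd1db14dc7f89cfb4f538f6479751448f52e21593b8f450df1b05c54934932174217593473c0680307fd18997a868f64f1693da8f54059872f8f440d109ae4676c410d61498f654126cc28f53890a90e8f440d56 = true := by decide +kernel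

theorem cB21_7_3_57 : chunkOkM (LB21_7.ctx true true 322 48911 16384 7 16 4063 4029 16 32) muQ true true 64 RtB21_7.Cx.right.right.right RtB21_7.CX RtB21_7.Ctp.right.right.right.left.right.right.right RtB21_7.Ce.right.right.right.left.right.right.left RtB21_7.CTp RtB21_7.CEr 0x36b901d76c16a59a8e8f821cd82101faf41e2a5bf619f140d = true := by decide +kernel

theorem cB21_7_3_58 : chunkOkM (LB21_7.ctx true true 348 194359 65536 7 16 8143 8109 32 64) muQ true true 64 RtB21_7.Cx.right.right.left RtB21_7.CX RtB21_7.Ctp.right.right.right.left.right.right.right RtB21_7.Ce.right.right.right.left.right.right.right RtB21_7.CTp RtB21_7.CEr 0x21eaabc86fd18b566a7f85c1f52638f649bd2fda8f547acfc628f450dd02aeb37fd1ef0a2998f650eaf0cd8f5347063a48f440d6131ef9bd85c4af33967f810bfc87789f6431418828f525f1ebdc8f450d52174932174 = true := by decide +kernel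

theorem cB21_7_3_59 : chunkOkM (LB21_7.ctx true true 385 780263 262144 7 16 130543 65025 32 64) muQ true true 64 RtB21_7.Cx.right.right.right RtB21_7.CX RtB21_7.Ctp.right.right.right.left.right.right.right RtB21_7.Ce.right.right.right.left.right.right.right RtB21_7.CTp RtB21_7.CEr 0x494921215912b19ec7fd1e046d27f811ac3c4df9f648605c558f53fc529758f450d11c05c5455b0d17f01c11c05c5649349321742175934412b50257fd1af98bc7f849b8590d8f6470a9d4d8f54dbadeef8f450dcee11367fd1dd8e7648f64edcecc08f53fd459c88f440d6198f0ffc85cad56a7b7f8570822cf8f65016e1e58f5317fa6708f450d5477493493 = true := by decide +kernel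

end Vale.Agent.helper4.Q4
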