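import Vale.Agent.helper4.Q4TreeM
import Vale.Agent.helper4.Q4G.PB21_7

/-!
Checks for pairs of intervals of second moments.
-/

set_option maxRecDepth 100000
set_option linter.unusedVariables false

namespace Vale.Agent.helper4.Q4

theorem cB21_7_3_60 : chunkOkM (LB21_7.ctx true true 340 48911 16384 7 16 8177 16303 32 64) muQ true true 64 RtB21_7.Cx RtB21_7.CX RtB21_7.Ctp.right.right.right.right RtB21_7.Ce.right.right.right.left RtB21_7.CTp RtB21_7.CEr 0x010101011afa5c27fd248ad8f7f8399c3e918f620b508dac9f53aac2f8fe9f4a9d445f98f160d188a2ba7fd21991ec7f84c029e308f643dfa63e8f5282535a98f450d4bc870397fd2665fb8e8f64fff25898f53cbada618f440d618a8311985ca6ca15a7f83b634f528f61c70dc07b9f5312f520d39f48e1871b48f160d532a458da7fda93dc566ce64c1673a9f13aa8f29d7eaf040d4311431143114017017017 = true := by decide +kernel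

theorem cB21_7_3_61 : chunkOkM (LB21_7.ctx true true 344 98079 32768 7 16 8177 8211 32 64) muQ true true 64 RtB21_7.Cx RtB21_7.CX RtB21_7.Ctp.right.right.right RtB21_7.Ce.right.right.right.right RtB21_7.CTp RtB21_7.CEr 0x21212101010101705729675c19baf1e7f8231d6a55a9f410435f04a29bf3424950b773af250d1404ebc7fd1c8af777f857f313c28f64ce95c33b9f51ce9bd4d62af41b0da84df9f14eccc7e2b9f070dc68c7007fd2463bdb98f650efee1f8f5930de138b9f423ba7cb0d9f050d619a5416585ca00bf1b7f89d7da8138f65517554a8f523b352728f450d543333493217217421742174 = true := by decide +kernel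

theorem cB21_7_2_0 : chunkOkM (LB21_7.ctx false true 100 1 1 1 1 1 1 1 1) muQ false true 64 RtB21_7.Cx RtB21_7.CX RtB21_7.Ctn RtB21_7.Ce RtB21_7.CTp RtB21_7.CEr 0x49 = true := by decide +kernel

theorem cB21_7_1_0 : chunkOkM (LB21_7.ctx true false 100 1 1 1 1 1 1 1 1) muQ true false 64 RtB21_7.Cx RtB21_7.CX RtB21_7.Ctp.left RtB21_7.Ce RtB21_7.CTn RtB21_7.CEr 0x41 = true := by decide +kernel

theorem cB21_7_1_1 : chunkOkM (LB21_7.ctx true false 100 1 1 1 1 1 1 1 1) muQ true false 64 RtB21_7.Cx RtB21_7.CX RtB21_7.Ctp.right RtB21_7.Ce.left RtB21_7.CTn RtB21_7.CEr 0x69 = true := by decide +kernel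

theorem cB21_7_1_2 : chunkOkM (LB21_7.ctx true false 100 1 1 1 1 1 1 1 1) muQ true false 64 RtB21_7.Cx RtB21_7.CX RtB21_7.Ctp.right.left RtB21_7.Ce.right RtB21_7.CTn RtB21_7.CEr 0x41 = true := by decide +kernel

theorem cB21_7_1_3 : chunkOkM (LB21_7.ctx true false 100 1 1 1 1 1 1 1 1) muQ true false 64 RtB21_7.Cx RtB21_7.CX RtB21_7.Ctp.right.right.left RtB21_7.Ce.right RtB21_7.CTn RtB21_7.CEr 0x49 = true := by decide +kernel

theorem cB21_7_1_4 : chunkOkM (LB21_7.ctx true false 100 1 1 1 1 1 1 1 1) muQ true false 64 RtB21_7.Cx RtB21_7.CX RtB21_7.Ctp.right.right.right RtB21_7.Ce.right.left RtB21_7.CTn RtB21_7.CEr 0x11 = true := by decide +kernel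

theorem cB21_7_1_5 : chunkOkM (LB21_7.ctx true false 312 5889 2048 7 16 1955 1887 32 512) muQ true false 64 RtB21_7.Cx RtB21_7.CX RtB21_7.Ctp.right.right.right RtB21_7.Ce.right.right.left RtB21_7.CTn.left.left.left RtB21_7.CEr.left.left.left.left 0x11fe5db447fdc93ac57c8d7c3c77f650601a4b8f56dee66a7f150d13a34367c15b016ad8f645f247f08f53f3b6fc68f440dced2e2bb8f04b449336943114 = true := by decide +kernel

theorem cB21_7_1_6 : chunkOkM (LB21_7.ctx true false 326 12035 4096 7 16 2023 2023 32 512) muQ true false 64 RtB21_7.Cx RtB21_7.CX RtB21_7.Ctp.right.right.right RtB21_7.Ce.right.right.right.left RtB21_7.CTn.left.left.left RtB21_7.CEr.left.left.left.left 0x1c512f67cb4d93057f684f1ea378f522431730a9f4169d34878f17a61d5558f060d2acb9a67c1dc7cee58f614d926b419f565a80b8a79f45d9a6c758f110f57a82d9f060d1ba101b76c18b0e0ae8f64e8f446e8f51bd6f6b88f440d2ec431ec8f65229f9328f5284fab8769f430d344932171a90fe976c2c610cb68f63ba863c48f55454e50f8f440d69401191894376ceb6dddf7f64ee221518f51e6d2bc68f440d1477bd176c1767ad7c8f648dd64c48f599d10c67f440d437462c44e58fd1425a7e0deaf618e725e1ab8bf5a933fb9cc4cbf440d343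 = true := by decide +kernel

theorem cB21_7_1_7 : chunkOkM (LB21_7.ctx true false 332 98079 32768 7 16 527 4097 32 512) muQ true false 64 RtB21_7.Cx RtB21_7.CX RtB21_7.Ctp.right.right.right RtB21_7.Ce.right.right.right.right RtB21_7.CTn.left.left.left RtB21_7.CEr.left.left.left.left 0x212121ef0d9197fd153536d76c18b31e028f66248080179f4e5b5b6498f21364742b29f060d493217217421742174 = true := by decide +kernel

theorem cB21_7_1_8 : chunkOkM (LB21_7.ctx true false 100 1 1 1 1 1 1 1 1) muQ true false 64 RtB21_7.Cx RtB21_7.CX RtB21_7.Ctp.right.right.right RtB21_7.Ce.right.right RtB21_7.CTn.left.left.left RtB21_7.CEr.left.left.left.right 0x5a = true := by decide +kernel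

theorem cB21_7_1_9 : chunkOkM (LB21_7.ctx true false 100 1 1 1 1 1 1 1 1) muQ true false 64 RtB21_7.Cx RtB21_7.CX RtB21_7.Ctp.right.right.right RtB21_7.Ce.right.right RtB21_7.CTn.left.left.left RtB21_7.CEr.left.left.right 0x5a = true := by decide +kernel

theorem cB21_7_1_10 : chunkOkM (LB21_7.ctx true false 100 1 1 1 1 1 1 1 1) muQ true false 64 RtB21_7.Cx RtB21_7.CX RtB21_7.Ctp.right.right.right RtB21_7.Ce.right.right RtB21_7.CTn.left.left.left RtB21_7.CEr.left.right 0x5a = true := by decide +kernel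

theorem cB21_7_1_11 : chunkOkM (LB21_7.ctx true false 100 1 1 1 1 1 1 1 1) muQ true false 64 RtB21_7.Cx RtB21_7.CX RtB21_7.Ctp.right.right.right RtB21_7.Ce.right.right RtB21_7.CTn.left.left.left RtB21_7.CEr.right 0x52 = true := by decide +kernel

theorem cB21_7_1_12 : chunkOkM (LB21_7.ctx true false 100 1 1 1 1 1 1 1 1) muQ true false 64 RtB21_7.Cx RtB21_7.CX RtB21_7.Ctp.right.right.right RtB21_7.Ce.right.right RtB21_7.CTn.left.left.right RtB21_7.CEr 0x5a = true := by decide +kernel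

theorem cB21_7_1_13 : chunkOkM (LB21_7.ctx true false 100 1 1 1 1 1 1 1 1) muQ true false 64 RtB21_7.Cx RtB21_7.CX RtB21_7.Ctp.right.right.right RtB21_7.Ce.right.right RtB21_7.CTn.left.right RtB21_7.CEr 0x5a = true := by decide +kernel

theorem cB21_7_1_14 : chunkOkM (LB21_7.ctx true false 100 1 1 1 1 1 1 1 1) muQ true false 64 RtB21_7.Cx RtB21_7.CX RtB21_7.Ctp.right.right.right RtB21_7.Ce.right.right RtB21_7.CTn.right RtB21_7.CEr 0x5a = true := by decide +kernel

theorem cB21_7_0_0 : chunkOkM (LB21_7.ctx false false 100 1 1 1 1 1 1 1 1) muQ false false 64 RtB21_7.Cx RtB21_7.CX RtB21_7.Ctn RtB21_7.Ce RtB21_7.CTn RtB21_7.CEr 0x49 = true := by decide +kernel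

end Vale.Agent.helper4.Q4
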