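import Vale.Agent.helper4.Q4TreeM
import Vale.Agent.helper4.Q4G.PB21_7_0
import Vale.Agent.helper4.Q4G.PB21_7_1
import Vale.Agent.helper4.Q4G.PB21_7_2
import Vale.Agent.helper4.Q4G.PB21_7_3
import Vale.Agent.helper4.Q4G.PB21_7_4

/-!
Checks for pairs of intervals of second moments.
-/

set_option maxRecDepth 100000
set_option linter.unusedVariables false

namespace Vale.Agent.helper4.Q4

theorem covB21_7 : LB21_7.Full muQ.val RtB21_7 := ⟨(LitT.Cov.split_t (LitT.cov_of_chunkM cB21_7_3_0) (LitT.Cov.split_e (LitT.cov_of_chunkM cB21_7_3_1) (LitT.Cov.split_t (LitT.cov_of_chunkM cB21_7_3_2) (LitT.Cov.split_t (LitT.cov_of_chunkM cB21_7_3_3) (LitT.Cov.split_e (LitT.cov_of_chunkM cB21_7_3_4) (LitT.Cov.split_e (LitT.Cov.split_e (LitT.cov_of_chunkM cB21_7_3_5) (LitT.Cov.split_t (LitT.Cov.split_e (LitT.cov_of_chunkM cB21_7_3_6) (LitT.Cov.split_t (LitT.Cov.split_t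 (LitT.cov_of_chunkM cB21_7_3_7) (LitT.Cov.split_e (LitT.cov_of_chunkM cB21_7_3_8) (LitT.Cov.split_x (LitT.Cov.split_x (LitT.Cov.split_e (LitT.Cov.split_t (LitT.cov_of_chunkM cB21_7_3_9) (LitT.Cov.split_e (LitT.cov_of_chunkM cB21_7_3_10) (LitT.cov_of_chunkM cB21_7_3_11))) (LitT.Cov.split_t (LitT.cov_of_chunkM cB21_7_3_12) (LitT.Cov.split_x (LitT.Cov.split_e (LitT.cov_of_chunkM cB21_7_3_13) (LitT.cov_of_chunkM cB21_7_3_14)) (LitT.cov_of_chunkM cB21_7_3_15)))) (LitT.cov_of_chunkM cB21_7_3_16)) (LitT.cov_of_chunkM cB21_7_3_17)))) (LitT.cov_of_chunkM cB21_7_3_18))) (LitT.cov_of_chunkM cB21_7_3_19))) (LitT.Cov.split_e (LitT.Cov.split_t (LitT.Cov.split_e (LitT.Cov.split_t (LitT.cov_of_chunkM cB21_7_3_20) (LitT.Cov.split_x (LitT.Cov.split_t (LitT.Cov.split_e (LitT.Cov.split_x (LitT.Cov.split_e (LitT.Cov.split_x (LitT.cov_of_chunkM cB21_7_3_21) (LitT.Cov.split_t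 (LitT.Cov.split_e (LitT.cov_of_chunkM cB21_7_3_22) (LitT.cov_of_chunkM cB21_7_3_23)) (LitT.cov_of_chunkM cB21_7_3_24))) (LitT.cov_of_chunkM cB21_7_3_25)) (LitT.Cov.split_e (LitT.cov_of_chunkM cB21_7_3_26) (LitT.Cov.split_t (LitT.Cov.split_x (LitT.Cov.split_e (LitT.cov_of_chunkM cB21_7_3_27) (LitT.cov_of_chunkM cB21_7_3_28)) (LitT.cov_of_chunkM cB21_7_3_29)) (LitT.cov_of_chunkM cB21_7_3_30)))) (LitT.Cov.split_x (LitT.cov_of_chunkM cB21_7_3_31) (LitT.Cov.split_e (LitT.Cov.split_t (LitT.cov_of_chunkM cB21_7_3_32) (LitT.Cov.split_x (LitT.cov_of_chunkM cB21_7_3_33) (LitT.Cov.split_e (LitT.cov_of_chunkM cB21_7_3_34) (LitT.cov_of_chunkM cB21_7_3_35)))) (LitT.cov_of_chunkM cB21_7_3_36)))) (LitT.cov_of_chunkM cB21_7_3_37)) (LitT.Cov.split_e (LitT.cov_of_chunkM cB21_7_3_38) (LitT.Cov.split_t (LitT.cov_of_chunkM cB21_7_3_39) (LitT.cov_of_chunkM cB21_7_3_40)))))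 (LitT.Cov.split_x (LitT.cov_of_chunkM cB21_7_3_41) (LitT.Cov.split_t (LitT.cov_of_chunkM cB21_7_3_42) (LitT.Cov.split_e (LitT.Cov.split_t (LitT.cov_of_chunkM cB21_7_3_43) (LitT.Cov.split_x (LitT.Cov.split_e (LitT.Cov.split_t (LitT.Cov.split_x (LitT.Cov.split_e (LitT.cov_of_chunkM cB21_7_3_44) (LitT.cov_of_chunkM cB21_7_3_45)) (LitT.cov_of_chunkM cB21_7_3_46)) (LitT.cov_of_chunkM cB21_7_3_47)) (LitT.Cov.split_x (LitT.cov_of_chunkM cB21_7_3_48) (LitT.Cov.split_t (LitT.cov_of_chunkM cB21_7_3_49) (LitT.cov_of_chunkM cB21_7_3_50)))) (LitT.cov_of_chunkM cB21_7_3_51))) (LitT.Cov.split_x (LitT.cov_of_chunkM cB21_7_3_52) (LitT.Cov.split_t (LitT.cov_of_chunkM cB21_7_3_53) (LitT.Cov.split_t (LitT.cov_of_chunkM cB21_7_3_54) (LitT.Cov.split_e (LitT.Cov.split_x (LitT.Cov.split_e (LitT.cov_of_chunkM cB21_7_3_55) (LitT.cov_of_chunkM cB21_7_3_56)) (LitT.cov_of_chunkM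 cB21_7_3_57)) (LitT.Cov.split_x (LitT.cov_of_chunkM cB21_7_3_58) (LitT.cov_of_chunkM cB21_7_3_59)))))))))) (LitT.cov_of_chunkM cB21_7_3_60)) (LitT.cov_of_chunkM cB21_7_3_61)))))))), (LitT.Cov.split_t (LitT.cov_of_chunkM cB21_7_1_0) (LitT.Cov.split_e (LitT.cov_of_chunkM cB21_7_1_1) (LitT.Cov.split_t (LitT.cov_of_chunkM cB21_7_1_2) (LitT.Cov.split_t (LitT.cov_of_chunkM cB21_7_1_3) (LitT.Cov.split_e (LitT.cov_of_chunkM cB21_7_1_4) (LitT.Cov.split_T (LitT.Cov.split_T (LitT.Cov.split_T (LitT.Cov.split_E (LitT.Cov.split_E (LitT.Cov.split_E (LitT.Cov.split_E (LitT.Cov.split_e (LitT.cov_of_chunkM cB21_7_1_5) (LitT.Cov.split_e (LitT.cov_of_chunkM cB21_7_1_6) (LitT.cov_of_chunkM cB21_7_1_7))) (LitT.cov_of_chunkM cB21_7_1_8)) (LitT.cov_of_chunkM cB21_7_1_9)) (LitT.cov_of_chunkM cB21_7_1_10)) (LitT.cov_of_chunkM cB21_7_1_11)) (LitT.cov_of_chunkM cB21_7_1_12)) (LitT.cov_of_chunkM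 cB21_7_1_13)) (LitT.cov_of_chunkM cB21_7_1_14))))))), (LitT.cov_of_chunkM cB21_7_2_0), (LitT.cov_of_chunkM cB21_7_0_0)⟩

end Vale.Agent.helper4.Q4
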