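import Vale.Agent.helper4.Q4TreeM
import Vale.Agent.helper4.Q4G.PB21_8

/-!
Checks for pairs of intervals of second moments.
-/

set_option maxRecDepth 100000
set_option linter.unusedVariables false

namespace Vale.Agent.helper4.Q4

theorem cB21_8_3_0 : chunkOkM (LB21_8.ctx true true 99 1 1 1 1 1 1 1 1) muQ true true 64 RtB21_8.Cx RtB21_8.CX RtB21_8.Ctp.left RtB21_8.Ce RtB21_8.CTp RtB21_8.CEr 0x41 = true := by decide +kernel

theorem cB21_8_3_1 : chunkOkM (LB21_8.ctx true true 99 1 1 1 1 1 1 1 1) muQ true true 64 RtB21_8.Cx RtB21_8.CX RtB21_8.Ctp.right RtB21_8.Ce.left RtB21_8.CTp RtB21_8.CEr 0x69 = true := by decide +kernel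

theorem cB21_8_3_2 : chunkOkM (LB21_8.ctx true true 99 1 1 1 1 1 1 1 1) muQ true true 64 RtB21_8.Cx RtB21_8.CX RtB21_8.Ctp.right.left RtB21_8.Ce.right RtB21_8.CTp RtB21_8.CEr 0x41 = true := by decide +kernel

theorem cB21_8_3_3 : chunkOkM (LB21_8.ctx true true 99 1 1 1 1 1 1 1 1) muQ true true 64 RtB21_8.Cx RtB21_8.CX RtB21_8.Ctp.right.right.left RtB21_8.Ce.right RtB21_8.CTp RtB21_8.CEr 0x49 = true := by decide +kernel

theorem cB21_8_3_4 : chunkOkM (LB21_8.ctx true true 99 1 1 1 1 1 1 1 1) muQ true true 64 RtB21_8.Cx RtB21_8.CX RtB21_8.Ctp.right.right.right RtB21_8.Ce.right.left RtB21_8.CTp RtB21_8.CEr 0x11 = true := by decide +kernel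

theorem cB21_8_3_5 : chunkOkM (LB21_8.ctx true true 99 1 1 1 1 1 1 1 1) muQ true true 64 RtB21_8.Cx RtB21_8.CX RtB21_8.Ctp.right.right.right.left RtB21_8.Ce.right.right.left.left RtB21_8.CTp RtB21_8.CEr 0x11 = true := by decide +kernel

theorem cB21_8_3_6 : chunkOkM (LB21_8.ctx true true 99 1 1 1 1 1 1 1 1) muQ true true 64 RtB21_8.Cx RtB21_8.CX RtB21_8.Ctp.right.right.right.left RtB21_8.Ce.right.right.left.right.left RtB21_8.CTp RtB21_8.CEr 0x69 = true := by decide +kernel

theorem cB21_8_3_7 : chunkOkM (LB21_8.ctx true true 99 1 1 1 1 1 1 1 1) muQ true true 64 RtB21_8.Cx RtB21_8.CX RtB21_8.Ctp.right.right.right.left.left.left RtB21_8.Ce.right.right.left.right.right RtB21_8.CTp RtB21_8.CEr 0x49 = true := by decide +kernel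

theorem cB21_8_3_8 : chunkOkM (LB21_8.ctx true true 283 5889 2048 9 16 1955 1853 2 16) muQ true true 64 RtB21_8.Cx RtB21_8.CX RtB21_8.Ctp.right.right.right.left.left.right RtB21_8.Ce.right.right.left.right.right.left RtB21_8.CTp RtB21_8.CEr 0x203304175c6511566f85bd39f4db4af45fb37c8289f140d = true := by decide +kernel

theorem cB21_8_3_9 : chunkOkM (LB21_8.ctx true true 380 5767425 2097152 9 16 125103 14977 4 32) muQ true true 64 RtB21_8.Cx.left.left RtB21_8.CX RtB21_8.Ctp.right.right.right.left.left.right.left RtB21_8.Ce.right.right.left.right.right.right.left RtB21_8.CTp RtB21_8.CEr 0x49494959494949591a56b0598f05b31b05c549496a255703b75c9764b568b195071428f61eaf48688f517eef357f450d577647774777493493493493493 = true := by decide +kernel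

theorem cB21_8_3_10 : chunkOkM (LB21_8.ctx true true 332 90369 32768 9 16 15691 15011 4 32) muQ true true 64 RtB21_8.Cx.left.left RtB21_8.CX RtB21_8.Ctp.right.right.right.left.left.right.right RtB21_8.Ce.right.right.left.right.right.right.left.left RtB21_8.CTp RtB21_8.CEr 0x11116917fa9c478f05b271f6097ed2fe1da175c2db31c048f61a6c27308f540d55b49ed65c2a67d16f9342dbddb8f61cdd6c448f5f7d97bf7f450d35ccd2975cdb9e156f61c997d9b8f5b7dd4597f440d53717ef1ace8f05b21b05c546a2017bae75ca2de6268b19667d318f61e1c5bd78f575c89607f450d5637 = true := by decide +kernel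

theorem cB21_8_3_11 : chunkOkM (LB21_8.ctx true true 315 45313 16384 9 16 3927 7531 4 32) muQ true true 64 RtB21_8.Cx.left.left.left RtB21_8.CX RtB21_8.Ctp.right.right.right.left.left.right.right RtB21_8.Ce.right.right.left.right.right.right.left.right RtB21_8.CTp RtB21_8.CEr.left 0x6a26bea7875c7d83aa68b1fbfbe128f61f9cc7be8f588e33b27f450d5 = true := by decide +kernel

theorem cB21_8_3_12 : chunkOkM (LB21_8.ctx true true 338 180995 65536 9 16 15691 15079 4 32) muQ true true 64 RtB21_8.Cx.left.left.left RtB21_8.CX RtB21_8.Ctp.right.right.right.left.left.right.right.left RtB21_8.Ce.right.right.left.right.right.right.left.right RtB21_8.CTp RtB21_8.CEr.right 0xbfa10965c2f3e526f94e4abc678f61f29c55f8f5d4ab4967f450d414273975c7e8401e7f61d99eaff8f5cd3539c7f440d569449380c45365cc5aa35f92ae8d1b58f61f2b078c8f5131c05d08f450d36c93cc784c1b330f698f61d6cb1588f5cab52ed7f440d52176ddfdb65c32658d6f9343520008f61f8994ad8f59280b697f450d2a4fc59484c10e0cae18f61d972f058f5a88acb87f440d547 = true := by decide +kernel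

theorem cB21_8_3_13 : chunkOkM (LB21_8.ctx true true 338 180995 65536 9 16 15725 15079 4 32) muQ true true 64 RtB21_8.Cx.left.left.left RtB21_8.CX RtB21_8.Ctp.right.right.right.left.left.right.right.right RtB21_8.Ce.right.right.left.right.right.right.left.right RtB21_8.CTp RtB21_8.CEr.right 0x158375e38f05b21b05c5011a34966c8f05b2fbe894784c2fa297fb8f61b4982bd8f530d53217711012d4333958f00b349658b75c1ba11c588f520d5374 = true := by decide +kernel

theorem cB21_8_3_14 : chunkOkM (LB21_8.ctx true true 99 1 1 1 1 1 1 1 1) muQ true true 64 RtB21_8.Cx.left.left.right RtB21_8.CX RtB21_8.Ctp.right.right.right.left.left.right.right RtB21_8.Ce.right.right.left.right.right.right.left.right RtB21_8.CTp RtB21_8.CEr 0x69 = true := by decide +kernel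

theorem cB21_8_3_15 : chunkOkM (LB21_8.ctx true true 299 22785 8192 9 16 3893 3791 2 16) muQ true true 64 RtB21_8.Cx.left.left RtB21_8.CX RtB21_8.Ctp.right.right.right.left.left.right.left RtB21_8.Ce.right.right.left.right.right.right.right RtB21_8.CTp RtB21_8.CEr 0x3110cc438f520f89eceb9f420d = true := by decide +kernel

theorem cB21_8_3_16 : chunkOkM (LB21_8.ctx true true 319 45313 16384 9 16 7871 7599 4 32) muQ true true 64 RtB21_8.Cx.left.left.left RtB21_8.CX RtB21_8.Ctp.right.right.right.left.left.right.right RtB21_8.Ce.right.right.left.right.right.right.right RtB21_8.CTp RtB21_8.CEr.left 0x6a1c1da8c75c80b7d868b32f845878f622d2fd5f8f540d1d50d1e75c5480b368b1d600e108f61eb6b1788f52feda6d7f450d2b725b775ca5f75e68bcbcd0a07f621398b618f517b68c138f450d345 = true := by decide +kernel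

theorem cB21_8_3_17 : chunkOkM (LB21_8.ctx true true 338 181509 65536 9 16 15691 15113 4 32) muQ true true 64 RtB21_8.Cx.left.left.left RtB21_8.CX RtB21_8.Ctp.right.right.right.left.left.right.right.left RtB21_8.Ce.right.right.left.right.right.right.right.left RtB21_8.CTp RtB21_8.CEr.right 0x495998908365c1b4a036f926c5d1d08f6200b5cda8f5153b0f4d8f450d35c89c0984c3be313c7f61e0e92fb8f5cba8e2e7f440d547493597 = true := by decide +kernel

theorem cB21_8_3_18 : chunkOkM (LB21_8.ctx true true 359 724751 262144 9 16 15759 60401 4 32) muQ true true 64 RtB21_8.Cx.left.left.left RtB21_8.CX RtB21_8.Ctp.right.right.right.left.left.right.right.right RtB21_8.Ce.right.right.left.right.right.right.right.left RtB21_8.CTp RtB21_8.CEr.right 0x74656465c2318d36f92dbed2ea8f61f2cc3ab8f5974156f7f450d3750962c84c869e7b87f61d9965688f5b2b02767f440d52c90fcf78f02b374936275c1bcdd2618f520d5641ac165c228f676f9168466bc8f61d3c51ff8f5ae0cd0e7f450d3110b9375c1cfec7778f566ac1917f430d534212121011adfd07f8f05b716d4b2b84c5a850c17d9f63950c18f8f530d532174217421747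 = true := by decide +kernel

theorem cB21_8_3_19 : chunkOkM (LB21_8.ctx true true 335 182023 65536 9 16 7871 15181 4 32) muQ true true 64 RtB21_8.Cx.left.left.left RtB21_8.CX RtB21_8.Ctp.right.right.right.left.left.right.right RtB21_8.Ce.right.right.left.right.right.right.right.right RtB21_8.CTp RtB21_8.CEr.right 0x219a0f2065c6591f5f959232acd8f61f8c45698f5f981cda7f450d41ad9ee7ed399b4c4984cdeece207f61dd2c3e98f540d52174217593 = true := by decide +kernel

end Vale.Agent.helper4.Q4
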