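import Vale.Agent.helper4.Q4TreeM
import Vale.Agent.helper4.Q4G.PB21_8

/-!
Checks for pairs of intervals of second moments.
-/

set_option maxRecDepth 100000
set_option linter.unusedVariables false

namespace Vale.Agent.helper4.Q4

theorem cB21_8_3_20 : chunkOkM (LB21_8.ctx true true 329 91397 32768 9 16 7871 15215 4 32) muQ true true 64 RtB21_8.Cx.left.left.right RtB21_8.CX RtB21_8.Ctp.right.right.right.left.left.right.right RtB21_8.Ce.right.right.left.right.right.right.right RtB21_8.CTp RtB21_8.CEr 0x49a3ae4265c273bb5f91d404a7a8f621c2ce138f51494a26e8f450d366df1675c469ab44d8f62182fb228f5d2c93f67f440d56c0f0a65c1aeab0ca8f61f34977a8f514e2af878f440d245b30f28ed558fb5575c1ac22aac8f61cabe79c8f540d546a284476a75cbf798868b1daab21a8f620e0dd4b8f513334fe98f450d567117867a06b8f04b37f3b1b75c175691438f684e0530c8f430d57694bed53d65cc1dac268b40a1f6ac8f68b4289108f440d64493 = true := by decide +kernel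

theorem cB21_8_3_21 : chunkOkM (LB21_8.ctx true true 99 1 1 1 1 1 1 1 1) muQ true true 64 RtB21_8.Cx.left.right RtB21_8.CX RtB21_8.Ctp.right.right.right.left.left.right RtB21_8.Ce.right.right.left.right.right.right RtB21_8.CTp RtB21_8.CEr 0x49 = true := by decide +kernel

theorem cB21_8_3_22 : chunkOkM (LB21_8.ctx true true 99 1 1 1 1 1 1 1 1) muQ true true 64 RtB21_8.Cx.right RtB21_8.CX RtB21_8.Ctp.right.right.right.left.left.right RtB21_8.Ce.right.right.left.right.right.right RtB21_8.CTp RtB21_8.CEr 0x49 = true := by decide +kernel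

theorem cB21_8_3_23 : chunkOkM (LB21_8.ctx true true 332 91397 32768 9 16 15827 15215 4 32) muQ true true 64 RtB21_8.Cx RtB21_8.CX RtB21_8.Ctp.right.right.right.left.right RtB21_8.Ce.right.right.left.right.right RtB21_8.CTp RtB21_8.CEr 0x11011101111121e8dd018f00b1b7a884e8f05b3903cfd75c1bbf57bf8f520d5372f62499c8f02b21b05c546a2382cb175cc35a1f68b23c45a7f8f61d1445778f540d5631143017711437114 = true := by decide +kernel

theorem cB21_8_3_24 : chunkOkM (LB21_8.ctx true true 99 1 1 1 1 1 1 1 1) muQ true true 64 RtB21_8.Cx RtB21_8.CX RtB21_8.Ctp.right.right.right.right RtB21_8.Ce.right.right.left RtB21_8.CTp RtB21_8.CEr 0x11 = true := by decide +kernel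

theorem cB21_8_3_25 : chunkOkM (LB21_8.ctx true true 280 5889 2048 9 16 969 969 2 16) muQ true true 64 RtB21_8.Cx RtB21_8.CX RtB21_8.Ctp.right.right.right.left.left RtB21_8.Ce.right.right.right.left.left RtB21_8.CTp RtB21_8.CEr 0x1a355e175c9676706f8b282a30d89f6dc5d873031af55d996e91e77bf450d = true := by decide +kernel

theorem cB21_8_3_26 : chunkOkM (LB21_8.ctx true true 99 1 1 1 1 1 1 1 1) muQ true true 64 RtB21_8.Cx.left.left.left RtB21_8.CX RtB21_8.Ctp.right.right.right.left.right.left RtB21_8.Ce.right.right.right.left.left.left.left RtB21_8.CTp RtB21_8.CEr 0x01 = true := by decide +kernel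

theorem cB21_8_3_27 : chunkOkM (LB21_8.ctx true true 315 45827 16384 9 16 3961 7633 4 32) muQ true true 64 RtB21_8.Cx.left.left.right RtB21_8.CX RtB21_8.Ctp.right.right.right.left.right.left.left RtB21_8.Ce.right.right.right.left.left.left.left.left RtB21_8.CTp RtB21_8.CEr.left 0x6a2413f5475c9761f668b200463f28f61fce49d68f5786010d7f450d5 = true := by decide +kernel

theorem cB21_8_3_28 : chunkOkM (LB21_8.ctx true true 374 1466207 524288 9 16 63223 122145 4 32) muQ true true 64 RtB21_8.Cx.left.left.right.left RtB21_8.CX RtB21_8.Ctp.right.right.right.left.right.left.left.left RtB21_8.Ce.right.right.right.left.left.left.left.left RtB21_8.CTp RtB21_8.CEr.right 0x211b2211148f05b36d0fe3b84c25e0654c8f61a6d607a8f55562eb27f240d559591bddede88f05b31b05c55974593459332172174217b7d0b465ce6db55f96d87078d8f61f2d8dd98f540d37dbfc7d84cc41296c7f61e6506d88f57b1c7ca7f440d54 = true := by decide +kernel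

theorem cB21_8_3_29 : chunkOkM (LB21_8.ctx true true 329 91911 32768 9 16 7905 15283 4 32) muQ true true 64 RtB21_8.Cx.left.left.right.right RtB21_8.CX RtB21_8.Ctp.right.right.right.left.right.left.left.left RtB21_8.Ce.right.right.right.left.left.left.left.left RtB21_8.CTp RtB21_8.CEr.right 0xbe4c2865c249f15f92bc165a58f621138d508f5127e52458f450d28b1a2b7ed3dd520675c1df1e1bf8f5b95055d7f440d596bb1165cc6b5d5f92aa23e578f620821a0f8f5ab1e7957f450d25cf031f8ed4ec57c075c9b0635648f619eeb44a8f5103223dc8f450d54 = true := by decide +kernel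

theorem cB21_8_3_30 : chunkOkM (LB21_8.ctx true true 315 45827 16384 9 16 7939 7633 2 32) muQ true true 64 RtB21_8.Cx.left.left.right RtB21_8.CX RtB21_8.Ctp.right.right.right.left.right.left.left.right RtB21_8.Ce.right.right.right.left.left.left.left.left RtB21_8.CTp RtB21_8.CEr.right 0x2f19d0238f00b = true := by decide +kernel

theorem cB21_8_3_31 : chunkOkM (LB21_8.ctx true true 99 1 1 1 1 1 1 1 1) muQ true true 64 RtB21_8.Cx.left.left.right.left RtB21_8.CX RtB21_8.Ctp.right.right.right.left.right.left.left RtB21_8.Ce.right.right.right.left.left.left.left.right RtB21_8.CTp RtB21_8.CEr 0x21 = true := by decide +kernel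

theorem cB21_8_3_32 : chunkOkM (LB21_8.ctx true true 321 91911 32768 9 16 3961 7667 4 32) muQ true true 64 RtB21_8.Cx.left.left.right.right RtB21_8.CX RtB21_8.Ctp.right.right.right.left.right.left.left RtB21_8.Ce.right.right.right.left.left.left.left.right RtB21_8.CTp RtB21_8.CEr.left 0x6a2ba286975c82651e68b17ef18ca8f621e2ec9b8f57aa76f37f450d5 = true := by decide +kernel

theorem cB21_8_3_33 : chunkOkM (LB21_8.ctx true true 348 368415 131072 9 16 15861 30685 4 32) muQ true true 64 RtB21_8.Cx.left.left.right.right RtB21_8.CX RtB21_8.Ctp.right.right.right.left.right.left.left RtB21_8.Ce.right.right.right.left.left.left.left.right RtB21_8.CTp RtB21_8.CEr.right 0x011d57c3ba8f05b39db59c084c1eca59258f520d5319579a9e8f05b452a05c5401759a51be765c13dacf6f956ab68218f620d7cc2b8f5154d3faa8f450d9e7ed91384c1f2de6708f520d5597421759390ad6e65c14a6ef6f92aa392908f61f9a3baf8f516d603ba8f450d47e04f175cd8e20db7f61eff51668f5d84d8f57f440d543 = true := by decide +kernel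

theorem cB21_8_3_34 : chunkOkM (LB21_8.ctx true true 99 1 1 1 1 1 1 1 1) muQ true true 64 RtB21_8.Cx.left.left.right RtB21_8.CX RtB21_8.Ctp.right.right.right.left.right.left.right RtB21_8.Ce.right.right.right.left.left.left.left RtB21_8.CTp RtB21_8.CEr 0x01 = true := by decide +kernel

theorem cB21_8_3_35 : chunkOkM (LB21_8.ctx true true 99 1 1 1 1 1 1 1 1) muQ true true 64 RtB21_8.Cx.left.left RtB21_8.CX RtB21_8.Ctp.right.right.right.left.right.left RtB21_8.Ce.right.right.right.left.left.left.right RtB21_8.CTp RtB21_8.CEr 0x21 = true := by decide +kernel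

theorem cB21_8_3_36 : chunkOkM (LB21_8.ctx true true 341 92425 32768 9 16 63359 15351 4 32) muQ true true 64 RtB21_8.Cx.left.right RtB21_8.CX RtB21_8.Ctp.right.right.right.left.right.left RtB21_8.Ce.right.right.right.left.left.left.left RtB21_8.CTp RtB21_8.CEr 0x114911bc8c8165c2b2bd26f917f831ee8f6200f1d668f5663c85c7f450d33d2da075c2f692fa18f61cca33bd8f5b005c027f440d571146a1dbf28f75c9ca59268b34ea9f008f620fe69378f540d511461185774465ca0b695f924d848d98f61fc8d2f18f58ed06dd7f450d4707abb75c7ce48d77f61ebf9cd08f5d820ecf7f440d576a35821d975c9c1ef968b11e5e6f68f6228a99908f514594d648f450d56694493493493376943 = true := by decide +kernel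

end Vale.Agent.helper4.Q4
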