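import Vale.Agent.helper4.Q4TreeM
import Vale.Agent.helper4.Q4G.PB21_8

/-!
Checks for pairs of intervals of second moments.
-/

set_option maxRecDepth 100000
set_option linter.unusedVariables false

namespace Vale.Agent.helper4.Q4

theorem cB21_8_3_48 : chunkOkM (LB21_8.ctx true true 353 374583 131072 9 16 31977 31229 4 32) muQ true true 64 RtB21_8.Cx.left.right.right RtB21_8.CX RtB21_8.Ctp.right.right.right.left.right.left.right.right RtB21_8.Ce.right.right.right.left.left.right.left.right RtB21_8.CTp RtB21_8.CEr.right 0x86b09465cb4c385f91ab81c498f62035d1348f5917eb527f450d3aab83975c20a246968f61e2245138f5e97c62a7f440d5694010121125ca9f75c3bc50b6f9659f83558f61df5d82a8f540d491a58d78ed77a2fb3e84c184e3474f9f616ad5adf8f540d52174b644de65c30ee0d938f61e5f9f108f530d3d3469f884c1f514aef8f520d54330177 = true := by decide +kernel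

theorem cB21_8_3_49 : chunkOkM (LB21_8.ctx true true 335 188191 65536 9 16 8007 15691 4 32) muQ true true 64 RtB21_8.Cx.left.right RtB21_8.CX RtB21_8.Ctp.right.right.right.left.right.left RtB21_8.Ce.right.right.right.left.left.right.right RtB21_8.CTp RtB21_8.CEr 0x21caf47c65c3f2dc56f934be241c8f6236680458f5de31c7c7f450d4667586f84c128949548f62075921a8f511cd6b028f440d521796b33c65c133de36f931550f668f6212aa9998f5fdd85fe7f450d42b72ed75c81c50977f6202d322c8f5e5fb3267f440d546a2ccbbd075c57f3fe68b13a5f4648f62210ebc98f5a65c1127f450d564932174217593 = true := by decide +kernel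

theorem cB21_8_3_50 : chunkOkM (LB21_8.ctx true true 99 1 1 1 1 1 1 1 1) muQ true true 64 RtB21_8.Cx.left RtB21_8.CX RtB21_8.Ctp.right.right.right.left.right.right RtB21_8.Ce.right.right.right.left.left RtB21_8.CTp RtB21_8.CEr 0x01 = true := by decide +kernel

theorem cB21_8_3_51 : chunkOkM (LB21_8.ctx true true 99 1 1 1 1 1 1 1 1) muQ true true 64 RtB21_8.Cx.right RtB21_8.CX RtB21_8.Ctp.right.right.right.left.right RtB21_8.Ce.right.right.right.left.left.left RtB21_8.CTp RtB21_8.CEr 0x69 = true := by decide +kernel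

theorem cB21_8_3_52 : chunkOkM (LB21_8.ctx true true 339 188705 65536 9 16 16031 15725 4 32) muQ true true 64 RtB21_8.Cx.right RtB21_8.CX RtB21_8.Ctp.right.right.right.left.right.left RtB21_8.Ce.right.right.right.left.left.right RtB21_8.CTp RtB21_8.CEr 0x114949495914bc27e75c387ae36f92f32225e8f620f9e8ec8f51a1c661e8f450d385a27e884c8b9687458f62510d5b08f51b1673688f440d56a2eab33a75c99790b68b2a766e628f625f6145a8f515ec56568f450d5647771111bad03765c127c676f91afadb928f6223714488f5155b43ae8f450d4503cc275cb92638e7f61feec9f08f512d8caf78f440d571146a2f6ad7575cc8da7f68b2147e5768f61e417b5a8f51e74bb1e8f450d51146747114493493493 = true := by decide +kernel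

theorem cB21_8_3_53 : chunkOkM (LB21_8.ctx true true 334 94995 32768 9 16 16065 15759 4 32) muQ true true 64 RtB21_8.Cx.right RtB21_8.CX RtB21_8.Ctp.right.right.right.left.right.right RtB21_8.Ce.right.right.right.left.left.right RtB21_8.CTp RtB21_8.CEr 0x1111111128d4b5f75c2792aa86daaf427c03575c9f130dab76cc65c74b015f92378ba268f62258b7638f5f39b3597f450d412c32a75c2a9280518f62353d1148f514a8314b8f440d511a9af3665c12c3106f92a3272f38f62066ba218f5fdd0beb7f450d441fa9c75c207188f88f5fb3c3c17f430d53476a263fb7175c80ed5268b1745d1d28f620c025598f56e21b217f450d563711437114 = true := by decide +kernel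

theorem cB21_8_3_54 : chunkOkM (LB21_8.ctx true true 99 1 1 1 1 1 1 1 1) muQ true true 64 RtB21_8.Cx.left RtB21_8.CX RtB21_8.Ctp.right.right.right.left RtB21_8.Ce.right.right.right.left.right RtB21_8.CTp RtB21_8.CEr 0x21 = true := by decide +kernel

theorem cB21_8_3_55 : chunkOkM (LB21_8.ctx true true 99 1 1 1 1 1 1 1 1) muQ true true 64 RtB21_8.Cx.right RtB21_8.CX RtB21_8.Ctp.right.right.right.left.left RtB21_8.Ce.right.right.right.left.right RtB21_8.CTp RtB21_8.CEr 0x49 = true := by decide +kernel

theorem cB21_8_3_56 : chunkOkM (LB21_8.ctx true true 288 12035 4096 9 16 1989 1989 2 16) muQ true true 64 RtB21_8.Cx.right RtB21_8.CX RtB21_8.Ctp.right.right.right.left.right.left RtB21_8.Ce.right.right.right.left.right.left RtB21_8.CTp RtB21_8.CEr 0x73d8eb975c3433eeb7f826f0cfd28f628ad7bdf49f5119efcdaadaf450d = true := by decide +kernel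

theorem cB21_8_3_57 : chunkOkM (LB21_8.ctx true true 316 47369 16384 9 16 4029 7905 4 32) muQ true true 64 RtB21_8.Cx.right.left.left RtB21_8.CX RtB21_8.Ctp.right.right.right.left.right.right.left RtB21_8.Ce.right.right.right.left.right.left.left.left RtB21_8.CTp RtB21_8.CEr.left 0x6a315ad5975c874c6868b286399048f622f252ff8f5b3304667f450d5 = true := by decide +kernel

theorem cB21_8_3_58 : chunkOkM (LB21_8.ctx true true 360 1515551 524288 9 16 16099 31569 4 32) muQ true true 64 RtB21_8.Cx.right.left.left RtB21_8.CX RtB21_8.Ctp.right.right.right.left.right.right.left.left RtB21_8.Ce.right.right.right.left.right.left.left.left RtB21_8.CTp RtB21_8.CEr.right 0xbd70ec65cae81e5f92175cafb8f6222838fe8f5185df0348f450d49b102b75c14ebedb7f6222d511e8f51318b3188f440d57b343965c2d91c0a98f61fdf8ebb8f516ddf9e88f440d4c5a2df75c33eaa2e58f624b6963a8f51952c8238f440d542121bd535565c583244248f621142cd18f530d31b05c5017017d127c165c737925f98b6a5137f62467a0e08f51839c07c8f450d50d6560484c1bd9cadc8f620ac97558f511076d4f8f440d53217421747 = true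 := by decide +kernel

theorem cB21_8_3_59 : chunkOkM (LB21_8.ctx true true 316 47369 16384 9 16 8075 7905 2 32) muQ true true 64 RtB21_8.Cx.right.left.left RtB21_8.CX RtB21_8.Ctp.right.right.right.left.right.right.left.right RtB21_8.Ce.right.right.right.left.right.left.left.left RtB21_8.CTp RtB21_8.CEr.right 0x78b1ab375c1697c9c3d9f15af6c334c9f030d = true := by decide +kernel

theorem cB21_8_3_60 : chunkOkM (LB21_8.ctx true true 343 190247 65536 9 16 32249 15861 4 32) muQ true true 64 RtB21_8.Cx.right.left.left RtB21_8.CX RtB21_8.Ctp.right.right.right.left.right.right.left RtB21_8.Ce.right.right.right.left.right.left.left.right RtB21_8.CTp RtB21_8.CEr 0x210101bd842065c1bbe6e238f621a208be8f510e4483c8f440d52ed991284c26069e158f517ca34968f430d5336a24f3e0b75cd6f28368b2effcf888f626c95f6b8f5b5068307f450d56a446e365ce93ca5f921c96cc18f620dfe8388f5141f1a148f450d4fddb0e184ca39625698f61f2268268f530d56a289c83275cabb3e468b575e65e48f62360d7ab8f51ee0612a8f450d5649332174217 = true := by decide +kernel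

end Vale.Agent.helper4.Q4
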