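import Vale.Agent.helper4.Q4TreeM
import Vale.Agent.helper4.Q4G.PB21_8

/-!
Checks for pairs of intervals of second moments.
-/

set_option maxRecDepth 100000
set_option linter.unusedVariables false

namespace Vale.Agent.helper4.Q4

theorem cB21_8_3_61 : chunkOkM (LB21_8.ctx true true 329 95509 32768 9 16 8075 15895 4 32) muQ true true 64 RtB21_8.Cx.right.left.right RtB21_8.CX RtB21_8.Ctp.right.right.right.left.right.right.left RtB21_8.Ce.right.right.right.left.right.left.left RtB21_8.CTp RtB21_8.CEr 0x69c35d4765c1810c66f936d385b78f622500a728f5134930788f450d51f788175c19896aec8f62199e6038f510ed46008f440d5711ac6e2965c178efe6f91a60f2328f61ff4d9888f51066f6248f450d51b05c5746a36db83075ca3fb2768b18a0ee6c8f622fa4eba8f5e3ff7cb7f450d56114493 = true := by decide +kernel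

theorem cB21_8_3_62 : chunkOkM (LB21_8.ctx true true 300 23813 8192 9 16 4063 3961 2 16) muQ true true 64 RtB21_8.Cx.right.left RtB21_8.CX RtB21_8.Ctp.right.right.right.left.right.right.right RtB21_8.Ce.right.right.right.left.right.left.left RtB21_8.CTp RtB21_8.CEr 0x2f8d05838f00b = true := by decide +kernel

theorem cB21_8_3_63 : chunkOkM (LB21_8.ctx true true 99 1 1 1 1 1 1 1 1) muQ true true 64 RtB21_8.Cx.right.left.left RtB21_8.CX RtB21_8.Ctp.right.right.right.left.right.right RtB21_8.Ce.right.right.right.left.right.left.right RtB21_8.CTp RtB21_8.CEr 0x21 = true := by decide +kernel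

theorem cB21_8_3_64 : chunkOkM (LB21_8.ctx true true 99 1 1 1 1 1 1 1 1) muQ true true 64 RtB21_8.Cx.right.left.right RtB21_8.CX RtB21_8.Ctp.right.right.right.left.right.right.left.left RtB21_8.Ce.right.right.right.left.right.left.right RtB21_8.CTp RtB21_8.CEr 0x49 = true := by decide +kernel

theorem cB21_8_3_65 : chunkOkM (LB21_8.ctx true true 348 382807 131072 9 16 16167 31909 4 32) muQ true true 64 RtB21_8.Cx.right.left.right RtB21_8.CX RtB21_8.Ctp.right.right.right.left.right.right.left.right RtB21_8.Ce.right.right.right.left.right.left.right.left RtB21_8.CTp RtB21_8.CEr 0xa2becd65c95dd25f927aac50d8f6214f1c938f51309fc858f450d55f935975ca7d572f7f621070e0a8f5164a519a8f440d569449321c378ff65c16af1f6f92b36bddc8f62454cd578f5ccb48837f450d47730ef584c1ac868888f6234079f68f530d54932174217ab25ec65ca86855f935433bd08f622b2b1a98f5126f51e08f450d484857375c14984cd98f621c6cd488f51154895d8f440d5476a384d2dd75cd77e0d68b196c54ad8f6243d4e008f517f72a558f450d56 = true := by decide +kernel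

theorem cB21_8_3_66 : chunkOkM (LB21_8.ctx true true 339 191789 65536 9 16 16167 15997 4 32) muQ true true 64 RtB21_8.Cx.right.left.right RtB21_8.CX RtB21_8.Ctp.right.right.right.left.right.right.left.right RtB21_8.Ce.right.right.right.left.right.left.right.right RtB21_8.CTp RtB21_8.CEr 0x4921e9ec1865c1a23236f91bd444858f622a3f95a8f51b2338938f450d3260850b84c85b26847f625380c678f515c3aec68f440d56a2a07ff975ca2d7d168b204971808f6233aaa028f51487b91d8f450d5647493217 = true := by decide +kernel

theorem cB21_8_3_67 : chunkOkM (LB21_8.ctx true true 340 192303 65536 9 16 16201 16031 4 32) muQ true true 64 RtB21_8.Cx.right.left.right RtB21_8.CX RtB21_8.Ctp.right.right.right.left.right.right.right RtB21_8.Ce.right.right.right.left.right.left.right RtB21_8.CTp RtB21_8.CEr 0x0101ba6ee165cb14b05f914cd170a8f6228e2f8c8f515c08beb8f450d4c64735284c1878ce698f622d75eb88f5131300278f440d52179c648d65c12e689848f6217fdf188f51449bc488f440d1a377e208ed413742575c42bc64cc8f61ea46cdb8f5245c7e47f050d546a3855f4175cae3ad468b1ebebb158f6239444658f5123d3e498f450d5633181341db85c7859f3b7f84668a3c8f9f1114823675daf040d4017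 = true := by decide +kernel

theorem cB21_8_3_68 : chunkOkM (LB21_8.ctx true true 341 96537 32768 9 16 64855 16031 4 32) muQ true true 64 RtB21_8.Cx.right.right RtB21_8.CX RtB21_8.Ctp.right.right.right.left.right.right RtB21_8.Ce.right.right.right.left.right.left RtB21_8.CTp RtB21_8.CEr 0x111111119edc6065c20f9643b8f51620d1c88f430d31b05c5493493371146a2dd735175cc7707268b2f6bf0e78f62223fede8f5227d03468f450d5114637114114493 = true := by decide +kernel

theorem cB21_8_3_69 : chunkOkM (LB21_8.ctx true true 99 1 1 1 1 1 1 1 1) muQ true true 64 RtB21_8.Cx.right.left RtB21_8.CX RtB21_8.Ctp.right.right.right.left.right RtB21_8.Ce.right.right.right.left.right.right RtB21_8.CTp RtB21_8.CEr 0x21 = true := by decide +kernel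

theorem cB21_8_3_70 : chunkOkM (LB21_8.ctx true true 99 1 1 1 1 1 1 1 1) muQ true true 64 RtB21_8.Cx.right.right RtB21_8.CX RtB21_8.Ctp.right.right.right.left.right.left RtB21_8.Ce.right.right.right.left.right.right RtB21_8.CTp RtB21_8.CEr 0x49 = true := by decide +kernel

theorem cB21_8_3_71 : chunkOkM (LB21_8.ctx true true 99 1 1 1 1 1 1 1 1) muQ true true 64 RtB21_8.Cx.right.right RtB21_8.CX RtB21_8.Ctp.right.right.right.left.right.right.left RtB21_8.Ce.right.right.right.left.right.right RtB21_8.CTp RtB21_8.CEr 0x49 = true := by decide +kernel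

theorem cB21_8_3_72 : chunkOkM (LB21_8.ctx true true 337 96537 32768 9 16 16235 16099 4 64) muQ true true 64 RtB21_8.Cx.right.right.left RtB21_8.CX RtB21_8.Ctp.right.right.right.left.right.right.right RtB21_8.Ce.right.right.right.left.right.right.left.left RtB21_8.CTp RtB21_8.CEr 0xd108bc775c10f319778b5783062c79f115c3e23396af040d49c83ee965c8d6d176f928663e278f622ccd3578f5162f17728f450d957cdf6fd235aed375cccb9d307f627efba3c8f518439aa88f450d69ee86587ed35d651f75c311527f58f62590767e8f5130d7e328f450d5aee18f65ca8a74f91cb51d888f6214944a88f5174c46788f450d9c1f0a65c898bc5f91a2747db8f624517c058f529cb87a68f450d3400308e75c694d4f608f624037bf38f51951bfd58f440d546a28bf56875cbc094368b14fdd04f8f62536ab238f519829ad08f450d5673 = true := by decide +kernel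

theorem cB21_8_3_73 : chunkOkM (LB21_8.ctx true true 320 48397 16384 9 16 8143 8075 4 32) muQ true true 64 RtB21_8.Cx.right.right.left RtB21_8.CX RtB21_8.Ctp.right.right.right.left.right.right.right RtB21_8.Ce.right.right.right.left.right.right.left.right RtB21_8.CTp RtB21_8.CEr.left 0x6a42e320775ca0b36968bbd5a1f6f8117a5a798f623d5ca848f56ac89947f460d2e078e075cf8fc7168b1fc6d4b28f62754be138f51e0816048f450d35 = true := by decide +kernel

theorem cB21_8_3_74 : chunkOkM (LB21_8.ctx true true 356 386919 131072 9 16 64991 32249 4 32) muQ true true 64 RtB21_8.Cx.right.right.left RtB21_8.CX RtB21_8.Ctp.right.right.right.left.right.right.right.left RtB21_8.Ce.right.right.right.left.right.right.left.right RtB21_8.CTp RtB21_8.CEr.right 0x492121a3756f65ce972b5f914586d428f621bf8f598f5169144388f450d70064b1a84cadd3c0598f472d4d3088f230d5493493217421759347 = true := by decide +kernel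

end Vale.Agent.helper4.Q4
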