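import Vale.Agent.helper4.Q4TreeM
import Vale.Agent.helper4.Q4G.PB21_8

/-!
Checks for pairs of intervals of second moments.
-/

set_option maxRecDepth 100000
set_option linter.unusedVariables false

namespace Vale.Agent.helper4.Q4

theorem cB21_8_3_75 : chunkOkM (LB21_8.ctx true true 352 386919 131072 9 16 16303 32249 4 64) muQ true true 64 RtB21_8.Cx.right.right.left RtB21_8.CX RtB21_8.Ctp.right.right.right.left.right.right.right.right RtB21_8.Ce.right.right.right.left.right.right.left.right RtB21_8.CTp RtB21_8.CEr.right 0x3a9473f78f00bd324c06fd7bec6465c5f714b6f917181e168f6228cd80c8f516b62cbc8f460d42fac9b7fd2ecbffb75c2ae83c5a8f622e9c9808f51350b2c98f450d633ca048c75c27df76f98f6221020178f5a0cdb507f440d59adae465c1823c36f9131ddcf98f6206b535e8f513b37c358f450d4455cbe75c3c579f148f61fd354e08f514ee44408f440d54212197630165c17b205f921c8c52f8f62048202e8f512a2c2d28f450d34adbc575c1b820a9349f61aae078c8f52ac7dc37f240d5017401747 = true := by decide +kernel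

theorem cB21_8_3_76 : chunkOkM (LB21_8.ctx true true 306 48911 16384 9 16 4063 4029 2 16) muQ true true 64 RtB21_8.Cx.right.right.right RtB21_8.CX RtB21_8.Ctp.right.right.right.left.right.right.right RtB21_8.Ce.right.right.right.left.right.right.left RtB21_8.CTp RtB21_8.CEr 0x9ea6656c8f04b = true := by decide +kernel

theorem cB21_8_3_77 : chunkOkM (LB21_8.ctx true true 339 194359 65536 9 16 16303 16201 4 32) muQ true true 64 RtB21_8.Cx.right.right.left RtB21_8.CX RtB21_8.Ctp.right.right.right.left.right.right.right RtB21_8.Ce.right.right.right.left.right.right.right RtB21_8.CTp RtB21_8.CEr 0x2121959d1b65ce4c735f91324701c8f621aa4da18f512a68d8e8f450da8597c65c1457f86f914929c448f6233263f78f52009c3458f450d34d73991884c68c4aed7f6232f9a9d8f514a2e9e68f440d546a339438775cd156b068b580585538f626267b7a8f514b7977c8f450d562174932174 = true := by decide +kernel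

theorem cB21_8_3_78 : chunkOkM (LB21_8.ctx true true 99 1 1 1 1 1 1 1 1) muQ true true 64 RtB21_8.Cx.right.right.right RtB21_8.CX RtB21_8.Ctp.right.right.right.left.right.right.right.left RtB21_8.Ce.right.right.right.left.right.right.right RtB21_8.CTp RtB21_8.CEr 0x49 = true := by decide +kernel

theorem cB21_8_3_79 : chunkOkM (LB21_8.ctx true true 99 1 1 1 1 1 1 1 1) muQ true true 64 RtB21_8.Cx.right.right.right RtB21_8.CX RtB21_8.Ctp.right.right.right.left.right.right.right.right.left RtB21_8.Ce.right.right.right.left.right.right.right RtB21_8.CTp RtB21_8.CEr 0x49 = true := by decide +kernel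

theorem cB21_8_3_80 : chunkOkM (LB21_8.ctx true true 343 194873 65536 9 16 16303 16235 4 64) muQ true true 64 RtB21_8.Cx.right.right.right.left.left RtB21_8.CX RtB21_8.Ctp.right.right.right.left.right.right.right.right.right RtB21_8.Ce.right.right.right.left.right.right.right.left RtB21_8.CTp RtB21_8.CEr 0x139a8017fd68d26665c4d13126f91ad6eb2f8f622ff18838f517e947618f460d5829d46fd19a311f75c2a15ae0b8f6260667d18f521a6231f8f450d650dd17b684c112852378f622a9c4478f5164964eb8f440d56a2941eb975cd0159e68b5dc6291b8f621fe24898f51cc96de28f450d568f1c6a65c3581471c8f620b983bc8f51a94f77c8f440d61b05c56a45898a875c78c6e768b13668aebb9f6f66036278f466289047f150d564 = true := by decide +kernel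

theorem cB21_8_3_81 : chunkOkM (LB21_8.ctx true true 369 780263 262144 9 16 130543 65025 4 32) muQ true true 64 RtB21_8.Cx.right.right.right.left.left RtB21_8.CX RtB21_8.Ctp.right.right.right.left.right.right.right.right.right RtB21_8.Ce.right.right.right.left.right.right.right.right RtB21_8.CTp RtB21_8.CEr 0x21215991e16065cbe655007f6223be1a28f5196733998f440d61b05c56a300d28e75cbbe38a68b126fb1278f62e45e5858f54b757a0f8f450d56493493217421759344 = true := by decide +kernel

theorem cB21_8_3_82 : chunkOkM (LB21_8.ctx true true 99 1 1 1 1 1 1 1 1) muQ true true 64 RtB21_8.Cx.right.right.right.left.right RtB21_8.CX RtB21_8.Ctp.right.right.right.left.right.right.right.right.right RtB21_8.Ce.right.right.right.left.right.right.right RtB21_8.CTp RtB21_8.CEr 0x49 = true := by decide +kernel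

theorem cB21_8_3_83 : chunkOkM (LB21_8.ctx true true 99 1 1 1 1 1 1 1 1) muQ true true 64 RtB21_8.Cx.right.right.right.right RtB21_8.CX RtB21_8.Ctp.right.right.right.left.right.right.right.right.right RtB21_8.Ce.right.right.right.left.right.right.right RtB21_8.CTp RtB21_8.CEr 0x49 = true := by decide +kernel

theorem cB21_8_3_84 : chunkOkM (LB21_8.ctx true true 99 1 1 1 1 1 1 1 1) muQ true true 64 RtB21_8.Cx.left RtB21_8.CX RtB21_8.Ctp.right.right.right.right RtB21_8.Ce.right.right.right.left RtB21_8.CTp RtB21_8.CEr 0x01 = true := by decide +kernel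

theorem cB21_8_3_85 : chunkOkM (LB21_8.ctx true true 99 1 1 1 1 1 1 1 1) muQ true true 64 RtB21_8.Cx.right.left RtB21_8.CX RtB21_8.Ctp.right.right.right.right RtB21_8.Ce.right.right.right.left RtB21_8.CTp RtB21_8.CEr 0x01 = true := by decide +kernel

theorem cB21_8_3_86 : chunkOkM (LB21_8.ctx true true 99 1 1 1 1 1 1 1 1) muQ true true 64 RtB21_8.Cx.right.right.left RtB21_8.CX RtB21_8.Ctp.right.right.right.right RtB21_8.Ce.right.right.right.left RtB21_8.CTp RtB21_8.CEr 0x01 = true := by decide +kernel

theorem cB21_8_3_87 : chunkOkM (LB21_8.ctx true true 99 1 1 1 1 1 1 1 1) muQ true true 64 RtB21_8.Cx.right.right.right RtB21_8.CX RtB21_8.Ctp.right.right.right.right RtB21_8.Ce.right.right.right.left.left RtB21_8.CTp RtB21_8.CEr 0x11 = true := by decide +kernel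

theorem cB21_8_3_88 : chunkOkM (LB21_8.ctx true true 99 1 1 1 1 1 1 1 1) muQ true true 64 RtB21_8.Cx.right.right.right RtB21_8.CX RtB21_8.Ctp.right.right.right.right.left RtB21_8.Ce.right.right.right.left.right.left RtB21_8.CTp RtB21_8.CEr 0x11 = true := by decide +kernel

theorem cB21_8_3_89 : chunkOkM (LB21_8.ctx true true 99 1 1 1 1 1 1 1 1) muQ true true 64 RtB21_8.Cx.right.right.right RtB21_8.CX RtB21_8.Ctp.right.right.right.right.left.left RtB21_8.Ce.right.right.right.left.right.right.left RtB21_8.CTp RtB21_8.CEr 0x11 = true := by decide +kernel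

theorem cB21_8_3_90 : chunkOkM (LB21_8.ctx true true 311 48911 16384 9 16 4097 8109 2 16) muQ true true 64 RtB21_8.Cx.right.right.right RtB21_8.CX RtB21_8.Ctp.right.right.right.right.left.left.left RtB21_8.Ce.right.right.right.left.right.right.right.left RtB21_8.CTp RtB21_8.CEr 0x4efa71675c119aa6778b2151171df9f674e0b7c189f11d57bad02faf050d = true := by decide +kernel

theorem cB21_8_3_91 : chunkOkM (LB21_8.ctx true true 320 48911 16384 9 16 8177 8143 4 32) muQ true true 64 RtB21_8.Cx.right.right.right RtB21_8.CX RtB21_8.Ctp.right.right.right.right.left.left.left.left RtB21_8.Ce.right.right.right.left.right.right.right.right RtB21_8.CTp RtB21_8.CEr.left 0x6a3f8c6bb75ca55ea068b211f446f8f6a15b0cfa8f510f84c1459f42f1df2358f160d5 = true := by decide +kernel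

theorem cB21_8_3_92 : chunkOkM (LB21_8.ctx true true 348 391031 131072 9 16 16337 16303 4 64) muQ true true 64 RtB21_8.Cx.right.right.right.left RtB21_8.CX RtB21_8.Ctp.right.right.right.right.left.left.left.left RtB21_8.Ce.right.right.right.left.right.right.right.right RtB21_8.CTp RtB21_8.CEr.right 0x01168a58bc8ed4b4ab765c3a442a6f9244df6a18f6232a86ba8f5167bd8ec8f460d74ce8d57ed1792b8875c12a7a7998f622c2962e8f5148302f68f450d6a5e1dc8b84cba625b288f47ecec9f48f230d5217217191afde7fd43d82b65c3d54ff6f91a66be2d8f621f241278f51401f93f8f460d20616f6f8f05b644ff06675c4b3826b68f62616b7568f55788be17f440d543 = true := by decide +kernel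

theorem cB21_8_3_93 : chunkOkM (LB21_8.ctx true true 353 195901 65536 9 16 32691 32623 4 64) muQ true true 64 RtB21_8.Cx.right.right.right.right RtB21_8.CX RtB21_8.Ctp.right.right.right.right.left.left.left.left RtB21_8.Ce.right.right.right.left.right.right.right.right RtB21_8.CTp RtB21_8.CEr.right 0x3cda0bfa8f00b491b584a3e8ed3cab6265c2f89706f91ce8c1de8f62235ede48f51978f4058f460d1cc9af875cca32d59d8f622308eaa8f53ff064e88f440d67f3bb7265c13fe868046abf413fd4402c3af130d4493357d9bb775c3142ba2e8f6237c467a8f519c9cd838f440d5694 = true := by decide +kernel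

theorem cB21_8_3_94 : chunkOkM (LB21_8.ctx true true 99 1 1 1 1 1 1 1 1) muQ true true 64 RtB21_8.Cx.right.right.right RtB21_8.CX RtB21_8.Ctp.right.right.right.right.left.left.left.right RtB21_8.Ce.right.right.right.left.right.right.right.right RtB21_8.CTp RtB21_8.CEr 0x01 = true := by decide +kernel

theorem cB21_8_3_95 : chunkOkM (LB21_8.ctx true true 99 1 1 1 1 1 1 1 1) muQ true true 64 RtB21_8.Cx.right.right.right RtB21_8.CX RtB21_8.Ctp.right.right.right.right.left.left.right RtB21_8.Ce.right.right.right.left.right.right.right RtB21_8.CTp RtB21_8.CEr 0x01 = true := by decide +kernel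

theorem cB21_8_3_96 : chunkOkM (LB21_8.ctx true true 99 1 1 1 1 1 1 1 1) muQ true true 64 RtB21_8.Cx.right.right.right RtB21_8.CX RtB21_8.Ctp.right.right.right.right.left.right RtB21_8.Ce.right.right.right.left.right.right RtB21_8.CTp RtB21_8.CEr 0x01 = true := by decide +kernel

theorem cB21_8_3_97 : chunkOkM (LB21_8.ctx true true 99 1 1 1 1 1 1 1 1) muQ true true 64 RtB21_8.Cx.right.right.right RtB21_8.CX RtB21_8.Ctp.right.right.right.right.right RtB21_8.Ce.right.right.right.left.right RtB21_8.CTp RtB21_8.CEr 0x01 = true := by decide +kernel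

theorem cB21_8_3_98 : chunkOkM (LB21_8.ctx true true 99 1 1 1 1 1 1 1 1) muQ true true 64 RtB21_8.Cx.left RtB21_8.CX RtB21_8.Ctp.right.right.right RtB21_8.Ce.right.right.right.right.left.left RtB21_8.CTp RtB21_8.CEr 0x21 = true := by decide +kernel

theorem cB21_8_3_99 : chunkOkM (LB21_8.ctx true true 99 1 1 1 1 1 1 1 1) muQ true true 64 RtB21_8.Cx.right.left RtB21_8.CX RtB21_8.Ctp.right.right.right RtB21_8.Ce.right.right.right.right.left.left.left RtB21_8.CTp RtB21_8.CEr 0x21 = true := by decide +kernel

theorem cB21_8_3_100 : chunkOkM (LB21_8.ctx true true 99 1 1 1 1 1 1 1 1) muQ true true 64 RtB21_8.Cx.right.right.left RtB21_8.CX RtB21_8.Ctp.right.right.right RtB21_8.Ce.right.right.right.right.left.left.left RtB21_8.CTp RtB21_8.CEr 0x21 = true := by decide +kernel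

theorem cB21_8_3_101 : chunkOkM (LB21_8.ctx true true 99 1 1 1 1 1 1 1 1) muQ true true 64 RtB21_8.Cx.right.right.right.left RtB21_8.CX RtB21_8.Ctp.right.right.right RtB21_8.Ce.right.right.right.right.left.left.left RtB21_8.CTp RtB21_8.CEr 0x21 = true := by decide +kernel

theorem cB21_8_3_102 : chunkOkM (LB21_8.ctx true true 99 1 1 1 1 1 1 1 1) muQ true true 64 RtB21_8.Cx.right.right.right.right RtB21_8.CX RtB21_8.Ctp.right.right.right.left RtB21_8.Ce.right.right.right.right.left.left.left RtB21_8.CTp RtB21_8.CEr 0x49 = true := by decide +kernel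

theorem cB21_8_3_103 : chunkOkM (LB21_8.ctx true true 327 98079 32768 9 16 8177 8177 4 32) muQ true true 64 RtB21_8.Cx.right.right.right.right RtB21_8.CX RtB21_8.Ctp.right.right.right.right.left.left.left.left RtB21_8.Ce.right.right.right.right.left.left.left.left RtB21_8.CTp RtB21_8.CEr.left 0x6a3fd770875cab1a5668b1c9966548f622f8080039f58824a99aa9f4c3b7d3e38f1116c5ae009f070d5 = true := by decide +kernel

end Vale.Agent.helper4.Q4
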