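import Vale.Agent.helper4.Q4TreeM
import Vale.Agent.helper4.Q4G.PB21_8

/-!
Checks for pairs of intervals of second moments.
-/

set_option maxRecDepth 100000
set_option linter.unusedVariables false

namespace Vale.Agent.helper4.Q4

theorem cB21_8_3_104 : chunkOkM (LB21_8.ctx true true 378 1566951 524288 9 16 130815 65297 4 64) muQ true true 64 RtB21_8.Cx.right.right.right.right RtB21_8.CX RtB21_8.Ctp.right.right.right.right.left.left.left.left RtB21_8.Ce.right.right.right.right.left.left.left.left.left RtB21_8.CTp RtB21_8.CEr.right 0x1e684167fd2c908865c1953856f92566e8748f622246fe68f51a7972838f460d2adeb36fd21b3c8075c7af147028f61db8fb818f5233d5dfd8f450d6694011affdd5a8ed3c172165c35856b6f9210d497c8f6222b29818f5159762058f460d214489498f05b637494921211bb243e88ed29341365c1cd52d6f9229576228f519ba89178f450d1e9b1b5b8f05b649321721759344774933389a5a675c2347aada8f62434b5e48f51854a0be8f440d5 = true := by decide +kernel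

theorem cB21_8_3_105 : chunkOkM (LB21_8.ctx true true 353 393087 131072 9 16 16371 32759 4 64) muQ true true 64 RtB21_8.Cx.right.right.right.right RtB21_8.CX RtB21_8.Ctp.right.right.right.right.left.left.left.left RtB21_8.Ce.right.right.right.right.left.left.left.left.right RtB21_8.CTp RtB21_8.CEr.right 0x1d2aabf08ed2c198e65c28b1306f92337c0d78f614fd27309aaf4372f570099f2612eb7a88f1390c7f06b9f080d2171c85c7368ed3bbecb65c30c3a66f9214426fb8f622ef52718f51080cc7b09f43ba7a1c68f070d46edebb6fd194db9675c2aad34458f6160e1aee29f513e99973b9af475c3f9148f1457c43b9e9f070d6352f05eb84c1284e36239f63171cd2cbdaf4e5d649c2b9f21c12583489f1536fa7f649f060d5493217 = true := by decide +kernel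

theorem cB21_8_3_106 : chunkOkM (LB21_8.ctx true true 321 98079 32768 9 16 8177 8211 2 16) muQ true true 64 RtB21_8.Cx.right.right.right.right RtB21_8.CX RtB21_8.Ctp.right.right.right.right.left.left.left.left RtB21_8.Ce.right.right.right.right.left.left.left.right RtB21_8.CTp RtB21_8.CEr 0xc9d527b75c26b1b3578bae0c436e8f49135cbda7caf324ba5b4914af250d = true := by decide +kernel

theorem cB21_8_3_107 : chunkOkM (LB21_8.ctx true true 99 1 1 1 1 1 1 1 1) muQ true true 64 RtB21_8.Cx.right.right.right.right RtB21_8.CX RtB21_8.Ctp.right.right.right.right.left.left.left.right RtB21_8.Ce.right.right.right.right.left.left.left RtB21_8.CTp RtB21_8.CEr 0x01 = true := by decide +kernel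

theorem cB21_8_3_108 : chunkOkM (LB21_8.ctx true true 99 1 1 1 1 1 1 1 1) muQ true true 64 RtB21_8.Cx.right.right.right.right RtB21_8.CX RtB21_8.Ctp.right.right.right.right.left.left.right RtB21_8.Ce.right.right.right.right.left.left.left RtB21_8.CTp RtB21_8.CEr 0x01 = true := by decide +kernel

theorem cB21_8_3_109 : chunkOkM (LB21_8.ctx true true 99 1 1 1 1 1 1 1 1) muQ true true 64 RtB21_8.Cx.right.right.right.right RtB21_8.CX RtB21_8.Ctp.right.right.right.right.left.right RtB21_8.Ce.right.right.right.right.left.left.left RtB21_8.CTp RtB21_8.CEr 0x01 = true := by decide +kernel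

theorem cB21_8_3_110 : chunkOkM (LB21_8.ctx true true 99 1 1 1 1 1 1 1 1) muQ true true 64 RtB21_8.Cx.right.right.right.right RtB21_8.CX RtB21_8.Ctp.right.right.right.right.right RtB21_8.Ce.right.right.right.right.left.left.left RtB21_8.CTp RtB21_8.CEr 0x01 = true := by decide +kernel

theorem cB21_8_3_111 : chunkOkM (LB21_8.ctx true true 99 1 1 1 1 1 1 1 1) muQ true true 64 RtB21_8.Cx.right RtB21_8.CX RtB21_8.Ctp.right.right.right RtB21_8.Ce.right.right.right.right.left.left.right RtB21_8.CTp RtB21_8.CEr 0x21 = true := by decide +kernel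

theorem cB21_8_3_112 : chunkOkM (LB21_8.ctx true true 99 1 1 1 1 1 1 1 1) muQ true true 64 RtB21_8.Cx RtB21_8.CX RtB21_8.Ctp.right.right.right RtB21_8.Ce.right.right.right.right.left.right RtB21_8.CTp RtB21_8.CEr 0x21 = true := by decide +kernel

theorem cB21_8_3_113 : chunkOkM (LB21_8.ctx true true 99 1 1 1 1 1 1 1 1) muQ true true 64 RtB21_8.Cx RtB21_8.CX RtB21_8.Ctp.right.right.right RtB21_8.Ce.right.right.right.right.right RtB21_8.CTp RtB21_8.CEr 0x21 = true := by decide +kernel

theorem cB21_8_2_0 : chunkOkM (LB21_8.ctx false true 99 1 1 1 1 1 1 1 1) muQ false true 64 RtB21_8.Cx RtB21_8.CX RtB21_8.Ctn RtB21_8.Ce RtB21_8.CTp RtB21_8.CEr 0x49 = true := by decide +kernel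

theorem cB21_8_1_0 : chunkOkM (LB21_8.ctx true false 99 1 1 1 1 1 1 1 1) muQ true false 64 RtB21_8.Cx RtB21_8.CX RtB21_8.Ctp.left RtB21_8.Ce RtB21_8.CTn RtB21_8.CEr 0x41 = true := by decide +kernel

theorem cB21_8_1_1 : chunkOkM (LB21_8.ctx true false 99 1 1 1 1 1 1 1 1) muQ true false 64 RtB21_8.Cx RtB21_8.CX RtB21_8.Ctp.right RtB21_8.Ce.left RtB21_8.CTn RtB21_8.CEr 0x69 = true := by decide +kernel

theorem cB21_8_1_2 : chunkOkM (LB21_8.ctx true false 99 1 1 1 1 1 1 1 1) muQ true false 64 RtB21_8.Cx RtB21_8.CX RtB21_8.Ctp.right.left RtB21_8.Ce.right RtB21_8.CTn RtB21_8.CEr 0x41 = true := by decide +kernel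

theorem cB21_8_1_3 : chunkOkM (LB21_8.ctx true false 99 1 1 1 1 1 1 1 1) muQ true false 64 RtB21_8.Cx RtB21_8.CX.left.left.left.left.left.left RtB21_8.Ctp.right.right.left RtB21_8.Ce.right RtB21_8.CTn.left.left.left.left.left.left.left.left.left.left.left.left RtB21_8.CEr.left.left.left.left.left.left.left.left.left.left.left.left 0x49 = true := by decide +kernel

theorem cB21_8_1_4 : chunkOkM (LB21_8.ctx true false 99 1 1 1 1 1 1 1 1) muQ true false 64 RtB21_8.Cx RtB21_8.CX.left.left.left.left.left.left RtB21_8.Ctp.right.right.right RtB21_8.Ce.right.left RtB21_8.CTn.left.left.left.left.left.left.left.left.left.left.left.left RtB21_8.CEr.left.left.left.left.left.left.left.left.left.left.left.left 0x11 = true := by decide +kernel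

theorem cB21_8_1_5 : chunkOkM (LB21_8.ctx true false 413 22785 8192 513 1024 1955 3791 16384 65536) muQ true false 64 RtB21_8.Cx RtB21_8.CX.left.left.left.left.left.left RtB21_8.Ctp.right.right.right RtB21_8.Ce.right.right.left RtB21_8.CTn.left.left.left.left.left.left.left.left.left.left.left.left RtB21_8.CEr.left.left.left.left.left.left.left.left.left.left.left.left 0x1176d348c40934ab17dbaea7f62b4a906f8f55df4b0b7f150d1144949394548ca7444abcaac04a7f6260300e68f514109cb88f450d295648cc5544abe7ffb797f623cdca8a8f5112d1b328f450d477715933a88f04b449336941143 = true := by decide +kernel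

theorem cB21_8_1_6 : chunkOkM (LB21_8.ctx true false 420 23299 8192 513 1024 2023 3927 16384 65536) muQ true false 64 RtB21_8.Cx RtB21_8.CX.left.left.left.left.left.left RtB21_8.Ctp.right.right.right.left RtB21_8.Ce.right.right.right.left.left RtB21_8.CTn.left.left.left.left.left.left.left.left.left.left.left.left RtB21_8.CEr.left.left.left.left.left.left.left.left.left.left.left.left 0x1f2576b98f05bd0614968c460d9237f625ca12ea8f5313a18dc8f440d3694013f3548cceb24ab19cb8e4b8f6257ec2138f514ee70c18f450d1331d8d8a9fd467a48c131309a18f6258b88af8f5148d4c4d8f450d421710b88b9789fd486c48c15eebb7b8f6241e8ffe8f511d2baf78f450d17488ac949fd4a7048c133e73388f622eb03d68f510bef8698f450d4b54fb5618fd4b2948c96bde8b7f62670ab948f59d06476f150d7437425d48cb02fbd38a9f6da1ac9fb15af55ca183b335dbf440d3 = true := by decide +kernel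

theorem cB21_8_1_7 : chunkOkM (LB21_8.ctx true false 418 24327 8192 513 1024 4063 3995 16384 65536) muQ true false 64 RtB21_8.Cx RtB21_8.CX.left.left.left.left.left.left RtB21_8.Ctp.right.right.right.left RtB21_8.Ce.right.right.right.left.right RtB21_8.CTn.left.left.left.left.left.left.left.left.left.left.left.left RtB21_8.CEr.left.left.left.left.left.left.left.left.left.left.left.left 0x570248c38d5ca37f9f81202947a8f629a08e448f519978af08f450d49349321768405fb68fd537448c219a4ab1518bcb58f6249d77868f521f5beba8f460d58c148cf9936897f6270be1808f5123c7f238f440d19e3365799fd583048c11d0171c8f625816b288f5102054718f450d47575748c1238bdb08f62e92ed828f517f5e70469f440d34493217 = true := by decide +kernel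

theorem cB21_8_1_8 : chunkOkM (LB21_8.ctx true false 391 12035 4096 513 1024 527 493 16384 65536) muQ true false 64 RtB21_8.Cx RtB21_8.CX.left.left.left.left.left.left RtB21_8.Ctp.right.right.right.right RtB21_8.Ce.right.right.right.left RtB21_8.CTn.left.left.left.left.left.left.left.left.left.left.left.left RtB21_8.CEr.left.left.left.left.left.left.left.left.left.left.left.left 0x5c6748c8e4f19d7f6dfa2dab98f51db1d36b19f44640984f8f11dddc4678f060d017 = true := by decide +kernel

theorem cB21_8_1_9 : chunkOkM (LB21_8.ctx true false 419 98079 32768 513 1024 527 4097 16384 65536) muQ true false 64 RtB21_8.Cx RtB21_8.CX.left.left.left.left.left.left RtB21_8.Ctp.right.right.right RtB21_8.Ce.right.right.right.right RtB21_8.CTn.left.left.left.left.left.left.left.left.left.left.left.left RtB21_8.CEr.left.left.left.left.left.left.left.left.left.left.left.left 0x2121215d8f48c7bdf4abe2bd7dd7f666f5ea49e9f4752af4de8f216d5b65519f060d493217217217421744 = true := by decide +kernel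

theorem cB21_8_1_10 : chunkOkM (LB21_8.ctx true false 99 1 1 1 1 1 1 1 1) muQ true false 64 RtB21_8.Cx RtB21_8.CX.left.left.left.left.left.right RtB21_8.Ctp.right.right RtB21_8.Ce.right RtB21_8.CTn.left.left.left.left.left.left.left.left.left.left.left.left RtB21_8.CEr.left.left.left.left.left.left.left.left.left.left.left.left 0x42 = true := by decide +kernel

theorem cB21_8_1_11 : chunkOkM (LB21_8.ctx true false 99 1 1 1 1 1 1 1 1) muQ true false 64 RtB21_8.Cx RtB21_8.CX.left.left.left.left.right RtB21_8.Ctp.right.right RtB21_8.Ce.right RtB21_8.CTn.left.left.left.left.left.left.left.left.left.left.left.left RtB21_8.CEr.left.left.left.left.left.left.left.left.left.left.left.left 0x42 = true := by decide +kernel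

theorem cB21_8_1_12 : chunkOkM (LB21_8.ctx true false 99 1 1 1 1 1 1 1 1) muQ true false 64 RtB21_8.Cx RtB21_8.CX.left.left.left.left RtB21_8.Ctp.right.right RtB21_8.Ce.right RtB21_8.CTn.left.left.left.left.left.left.left.left.left.left.left.right RtB21_8.CEr.left.left.left.left.left.left.left.left.left.left.left.left 0x5a = true := by decide +kernel

theorem cB21_8_1_13 : chunkOkM (LB21_8.ctx true false 99 1 1 1 1 1 1 1 1) muQ true false 64 RtB21_8.Cx RtB21_8.CX.left.left.left.left RtB21_8.Ctp.right.right RtB21_8.Ce.right RtB21_8.CTn.left.left.left.left.left.left.left.left.left.left.right RtB21_8.CEr.left.left.left.left.left.left.left.left.left.left.left.left 0x62 = true := by decide +kernel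

theorem cB21_8_1_14 : chunkOkM (LB21_8.ctx true false 99 1 1 1 1 1 1 1 1) muQ true false 64 RtB21_8.Cx RtB21_8.CX.left.left.left.left RtB21_8.Ctp.right.right RtB21_8.Ce.right RtB21_8.CTn.left.left.left.left.left.left.left.left.left.left RtB21_8.CEr.left.left.left.left.left.left.left.left.left.left.left.right 0x5a = true := by decide +kernel

theorem cB21_8_1_15 : chunkOkM (LB21_8.ctx true false 99 1 1 1 1 1 1 1 1) muQ true false 64 RtB21_8.Cx RtB21_8.CX.left.left.left.right RtB21_8.Ctp.right.right RtB21_8.Ce.right RtB21_8.CTn.left.left.left.left.left.left.left.left.left.left RtB21_8.CEr.left.left.left.left.left.left.left.left.left.left.left 0x42 = true := by decide +kernel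

theorem cB21_8_1_16 : chunkOkM (LB21_8.ctx true false 99 1 1 1 1 1 1 1 1) muQ true false 64 RtB21_8.Cx RtB21_8.CX.left.left.left RtB21_8.Ctp.right.right RtB21_8.Ce.right RtB21_8.CTn.left.left.left.left.left.left.left.left.left.right RtB21_8.CEr.left.left.left.left.left.left.left.left.left.left.left 0x62 = true := by decide +kernel

theorem cB21_8_1_17 : chunkOkM (LB21_8.ctx true false 99 1 1 1 1 1 1 1 1) muQ true false 64 RtB21_8.Cx RtB21_8.CX.left.left.left RtB21_8.Ctp.right.right RtB21_8.Ce.right RtB21_8.CTn.left.left.left.left.left.left.left.left.right RtB21_8.CEr.left.left.left.left.left.left.left.left.left.left.left 0x12 = true := by decide +kernel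

theorem cB21_8_1_18 : chunkOkM (LB21_8.ctx true false 99 1 1 1 1 1 1 1 1) muQ true false 64 RtB21_8.Cx RtB21_8.CX.left.left.left RtB21_8.Ctp.right.right RtB21_8.Ce.right RtB21_8.CTn.left.left.left.left.left.left.left.left RtB21_8.CEr.left.left.left.left.left.left.left.left.left.left.right 0x5a = true := by decide +kernel

theorem cB21_8_1_19 : chunkOkM (LB21_8.ctx true false 99 1 1 1 1 1 1 1 1) muQ true false 64 RtB21_8.Cx RtB21_8.CX.left.left.left RtB21_8.Ctp.right.right RtB21_8.Ce.right RtB21_8.CTn.left.left.left.left.left.left.left.left RtB21_8.CEr.left.left.left.left.left.left.left.left.left.right 0x5a = true := by decide +kernel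

theorem cB21_8_1_20 : chunkOkM (LB21_8.ctx true false 99 1 1 1 1 1 1 1 1) muQ true false 64 RtB21_8.Cx RtB21_8.CX.left.left.right RtB21_8.Ctp.right.right RtB21_8.Ce.right RtB21_8.CTn.left.left.left.left.left.left.left.left RtB21_8.CEr.left.left.left.left.left.left.left.left.left 0x42 = true := by decide +kernel

theorem cB21_8_1_21 : chunkOkM (LB21_8.ctx true false 99 1 1 1 1 1 1 1 1) muQ true false 64 RtB21_8.Cx RtB21_8.CX.left.left RtB21_8.Ctp.right.right RtB21_8.Ce.right RtB21_8.CTn.left.left.left.left.left.left.left.right RtB21_8.CEr.left.left.left.left.left.left.left.left.left 0x62 = true := by decide +kernel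

theorem cB21_8_1_22 : chunkOkM (LB21_8.ctx true false 99 1 1 1 1 1 1 1 1) muQ true false 64 RtB21_8.Cx RtB21_8.CX.left.left RtB21_8.Ctp.right.right RtB21_8.Ce.right RtB21_8.CTn.left.left.left.left.left.left.right RtB21_8.CEr.left.left.left.left.left.left.left.left.left 0x12 = true := by decide +kernel

theorem cB21_8_1_23 : chunkOkM (LB21_8.ctx true false 99 1 1 1 1 1 1 1 1) muQ true false 64 RtB21_8.Cx RtB21_8.CX.left.left RtB21_8.Ctp.right.right RtB21_8.Ce.right RtB21_8.CTn.left.left.left.left.left.left RtB21_8.CEr.left.left.left.left.left.left.left.left.right 0x5a = true := by decide +kernel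

theorem cB21_8_1_24 : chunkOkM (LB21_8.ctx true false 99 1 1 1 1 1 1 1 1) muQ true false 64 RtB21_8.Cx RtB21_8.CX.left.left RtB21_8.Ctp.right.right RtB21_8.Ce.right RtB21_8.CTn.left.left.left.left.left.left RtB21_8.CEr.left.left.left.left.left.left.left.right 0x5a = true := by decide +kernel

theorem cB21_8_1_25 : chunkOkM (LB21_8.ctx true false 99 1 1 1 1 1 1 1 1) muQ true false 64 RtB21_8.Cx RtB21_8.CX.left.right RtB21_8.Ctp.right.right RtB21_8.Ce.right RtB21_8.CTn.left.left.left.left.left.left RtB21_8.CEr.left.left.left.left.left.left.left 0x42 = true := by decide +kernel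

theorem cB21_8_1_26 : chunkOkM (LB21_8.ctx true false 99 1 1 1 1 1 1 1 1) muQ true false 64 RtB21_8.Cx RtB21_8.CX.left RtB21_8.Ctp.right.right RtB21_8.Ce.right RtB21_8.CTn.left.left.left.left.left.left RtB21_8.CEr.left.left.left.left.left.left.right 0x5a = true := by decide +kernel

theorem cB21_8_1_27 : chunkOkM (LB21_8.ctx true false 99 1 1 1 1 1 1 1 1) muQ true false 64 RtB21_8.Cx RtB21_8.CX.left RtB21_8.Ctp.right.right RtB21_8.Ce.right RtB21_8.CTn.left.left.left.left.left.left RtB21_8.CEr.left.left.left.left.left.right 0x5a = true := by decide +kernel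

theorem cB21_8_1_28 : chunkOkM (LB21_8.ctx true false 99 1 1 1 1 1 1 1 1) muQ true false 64 RtB21_8.Cx RtB21_8.CX.right RtB21_8.Ctp.right.right RtB21_8.Ce.right RtB21_8.CTn.left.left.left.left.left.left RtB21_8.CEr.left.left.left.left.left 0x42 = true := by decide +kernel

theorem cB21_8_1_29 : chunkOkM (LB21_8.ctx true false 99 1 1 1 1 1 1 1 1) muQ true false 64 RtB21_8.Cx RtB21_8.CX RtB21_8.Ctp.right.right RtB21_8.Ce.right RtB21_8.CTn.left.left.left.left.left.right RtB21_8.CEr.left.left.left.left.left 0x42 = true := by decide +kernel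

theorem cB21_8_1_30 : chunkOkM (LB21_8.ctx true false 99 1 1 1 1 1 1 1 1) muQ true false 64 RtB21_8.Cx RtB21_8.CX RtB21_8.Ctp.right.right RtB21_8.Ce.right RtB21_8.CTn.left.left.left.left.right RtB21_8.CEr.left.left.left.left.left 0x42 = true := by decide +kernel

theorem cB21_8_1_31 : chunkOkM (LB21_8.ctx true false 99 1 1 1 1 1 1 1 1) muQ true false 64 RtB21_8.Cx RtB21_8.CX RtB21_8.Ctp.right.right RtB21_8.Ce.right RtB21_8.CTn.left.left.left.right RtB21_8.CEr.left.left.left.left.left 0x42 = true := by decide +kernel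

theorem cB21_8_1_32 : chunkOkM (LB21_8.ctx true false 99 1 1 1 1 1 1 1 1) muQ true false 64 RtB21_8.Cx RtB21_8.CX RtB21_8.Ctp.right.right RtB21_8.Ce.right RtB21_8.CTn.left.left.right RtB21_8.CEr.left.left.left.left.left 0x12 = true := by decide +kernel

theorem cB21_8_1_33 : chunkOkM (LB21_8.ctx true false 99 1 1 1 1 1 1 1 1) muQ true false 64 RtB21_8.Cx RtB21_8.CX RtB21_8.Ctp.right.right RtB21_8.Ce.right RtB21_8.CTn.left.right RtB21_8.CEr.left.left.left.left.left 0x12 = true := by decide +kernel

theorem cB21_8_1_34 : chunkOkM (LB21_8.ctx true false 99 1 1 1 1 1 1 1 1) muQ true false 64 RtB21_8.Cx RtB21_8.CX RtB21_8.Ctp.right.right RtB21_8.Ce.right RtB21_8.CTn.right RtB21_8.CEr.left.left.left.left.left 0x12 = true := by decide +kernel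

theorem cB21_8_1_35 : chunkOkM (LB21_8.ctx true false 99 1 1 1 1 1 1 1 1) muQ true false 64 RtB21_8.Cx RtB21_8.CX RtB21_8.Ctp.right.right RtB21_8.Ce.right RtB21_8.CTn RtB21_8.CEr.left.left.left.left.right 0x5a = true := by decide +kernel

theorem cB21_8_1_36 : chunkOkM (LB21_8.ctx true false 99 1 1 1 1 1 1 1 1) muQ true false 64 RtB21_8.Cx RtB21_8.CX RtB21_8.Ctp.right.right RtB21_8.Ce.right RtB21_8.CTn RtB21_8.CEr.left.left.left.right 0x5a = true := by decide +kernel

theorem cB21_8_1_37 : chunkOkM (LB21_8.ctx true false 99 1 1 1 1 1 1 1 1) muQ true false 64 RtB21_8.Cx RtB21_8.CX RtB21_8.Ctp.right.right RtB21_8.Ce.right RtB21_8.CTn RtB21_8.CEr.left.left.right 0x5a = true := by decide +kernel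

theorem cB21_8_1_38 : chunkOkM (LB21_8.ctx true false 99 1 1 1 1 1 1 1 1) muQ true false 64 RtB21_8.Cx RtB21_8.CX RtB21_8.Ctp.right.right RtB21_8.Ce.right RtB21_8.CTn RtB21_8.CEr.left.right 0x5a = true := by decide +kernel

theorem cB21_8_1_39 : chunkOkM (LB21_8.ctx true false 99 1 1 1 1 1 1 1 1) muQ true false 64 RtB21_8.Cx RtB21_8.CX RtB21_8.Ctp.right.right RtB21_8.Ce.right RtB21_8.CTn RtB21_8.CEr.right 0x52 = true := by decide +kernel

theorem cB21_8_0_0 : chunkOkM (LB21_8.ctx false false 99 1 1 1 1 1 1 1 1) muQ false false 64 RtB21_8.Cx RtB21_8.CX RtB21_8.Ctn RtB21_8.Ce RtB21_8.CTn RtB21_8.CEr 0x49 = true := by decide +kernel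

end Vale.Agent.helper4.Q4
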