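import Vale.Agent.helper4.Q4TreeM
import Vale.Agent.helper4.Q4G.PB21_8_0
import Vale.Agent.helper4.Q4G.PB21_8_1
import Vale.Agent.helper4.Q4G.PB21_8_2_0
import Vale.Agent.helper4.Q4G.PB21_8_2_1
import Vale.Agent.helper4.Q4G.PB21_8_2_2
import Vale.Agent.helper4.Q4G.PB21_8_3
import Vale.Agent.helper4.Q4G.PB21_8_4
import Vale.Agent.helper4.Q4G.PB21_8_5
import Vale.Agent.helper4.Q4G.PB21_8_6

/-!
Checks for pairs of intervals of second moments.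
-/

set_option maxRecDepth 100000
set_option linter.unusedVariables false

namespace Vale.Agent.helper4.Q4

theorem covB21_8 : LB21_8.Full muQ.val RtB21_8 := ⟨(LitT.Cov.split_t (LitT.cov_of_chunkM cB21_8_3_0) (LitT.Cov.split_e (LitT.cov_of_chunkM cB21_8_3_1) (LitT.Cov.split_t (LitT.cov_of_chunkM cB21_8_3_2) (LitT.Cov.split_t (LitT.cov_of_chunkM cB21_8_3_3) (LitT.Cov.split_e (LitT.cov_of_chunkM cB21_8_3_4) (LitT.Cov.split_e (LitT.Cov.split_t (LitT.Cov.split_e (LitT.cov_of_chunkM cB21_8_3_5) (LitT.Cov.split_e (LitT.cov_of_chunkM cB21_8_3_6) (LitT.Cov.split_t (LitT.Cov.split_t (LitT.cov_of_chunkM cB21_8_3_7) (LitT.Cov.split_e (LitT.cov_of_chunkM cB21_8_3_8) (LitT.Cov.split_x (LitT.Cov.split_x (LitT.Cov.split_e (LitT.Cov.split_t (LitT.cov_of_chunkM cB21_8_3_9) (LitT.Cov.split_e (LitT.cov_of_chunkM cB21_8_3_10) (LitT.Cov.split_x (LitT.Cov.split_E (LitT.cov_of_chunkM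 cB21_8_3_11) (LitT.Cov.split_t (LitT.cov_of_chunkM cB21_8_3_12) (LitT.cov_of_chunkM cB21_8_3_13))) (LitT.cov_of_chunkM cB21_8_3_14)))) (LitT.Cov.split_t (LitT.cov_of_chunkM cB21_8_3_15) (LitT.Cov.split_x (LitT.Cov.split_E (LitT.cov_of_chunkM cB21_8_3_16) (LitT.Cov.split_e (LitT.Cov.split_t (LitT.cov_of_chunkM cB21_8_3_17) (LitT.cov_of_chunkM cB21_8_3_18)) (LitT.cov_of_chunkM cB21_8_3_19))) (LitT.cov_of_chunkM cB21_8_3_20)))) (LitT.cov_of_chunkM cB21_8_3_21)) (LitT.cov_of_chunkM cB21_8_3_22)))) (LitT.cov_of_chunkM cB21_8_3_23)))) (LitT.cov_of_chunkM cB21_8_3_24)) (LitT.Cov.split_e (LitT.Cov.split_t (LitT.Cov.split_e (LitT.Cov.split_t (LitT.cov_of_chunkM cB21_8_3_25) (LitT.Cov.split_x (LitT.Cov.split_t (LitT.Cov.split_e (LitT.Cov.split_x (LitT.Cov.split_e (LitT.Cov.split_x (LitT.cov_of_chunkM cB21_8_3_26) (LitT.Cov.split_t (LitT.Cov.split_e (LitT.Cov.split_E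 (LitT.cov_of_chunkM cB21_8_3_27) (LitT.Cov.split_t (LitT.Cov.split_x (LitT.cov_of_chunkM cB21_8_3_28) (LitT.cov_of_chunkM cB21_8_3_29)) (LitT.cov_of_chunkM cB21_8_3_30))) (LitT.Cov.split_x (LitT.cov_of_chunkM cB21_8_3_31) (LitT.Cov.split_E (LitT.cov_of_chunkM cB21_8_3_32) (LitT.cov_of_chunkM cB21_8_3_33)))) (LitT.cov_of_chunkM cB21_8_3_34))) (LitT.cov_of_chunkM cB21_8_3_35)) (LitT.Cov.split_e (LitT.cov_of_chunkM cB21_8_3_36) (LitT.Cov.split_t (LitT.Cov.split_x (LitT.Cov.split_e (LitT.Cov.split_E (LitT.cov_of_chunkM cB21_8_3_37) (LitT.cov_of_chunkM cB21_8_3_38)) (LitT.cov_of_chunkM cB21_8_3_39)) (LitT.cov_of_chunkM cB21_8_3_40)) (LitT.cov_of_chunkM cB21_8_3_41)))) (LitT.Cov.split_x (LitT.cov_of_chunkM cB21_8_3_42) (LitT.Cov.split_e (LitT.Cov.split_t (LitT.cov_of_chunkM cB21_8_3_43) (LitT.Cov.split_x (LitT.cov_of_chunkM cB21_8_3_44) (LitT.Cov.split_e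 (LitT.cov_of_chunkM cB21_8_3_45) (LitT.Cov.split_E (LitT.cov_of_chunkM cB21_8_3_46) (LitT.Cov.split_t (LitT.cov_of_chunkM cB21_8_3_47) (LitT.cov_of_chunkM cB21_8_3_48)))))) (LitT.cov_of_chunkM cB21_8_3_49)))) (LitT.cov_of_chunkM cB21_8_3_50)) (LitT.Cov.split_e (LitT.cov_of_chunkM cB21_8_3_51) (LitT.Cov.split_t (LitT.cov_of_chunkM cB21_8_3_52) (LitT.cov_of_chunkM cB21_8_3_53))))) (LitT.Cov.split_x (LitT.cov_of_chunkM cB21_8_3_54) (LitT.Cov.split_t (LitT.cov_of_chunkM cB21_8_3_55) (LitT.Cov.split_e (LitT.Cov.split_t (LitT.cov_of_chunkM cB21_8_3_56) (LitT.Cov.split_x (LitT.Cov.split_e (LitT.Cov.split_t (LitT.Cov.split_x (LitT.Cov.split_e (LitT.Cov.split_E (LitT.cov_of_chunkM cB21_8_3_57) (LitT.Cov.split_t (LitT.cov_of_chunkM cB21_8_3_58) (LitT.cov_of_chunkM cB21_8_3_59))) (LitT.cov_of_chunkM cB21_8_3_60)) (LitT.cov_of_chunkM cB21_8_3_61)) (LitT.cov_of_chunkM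 cB21_8_3_62)) (LitT.Cov.split_x (LitT.cov_of_chunkM cB21_8_3_63) (LitT.Cov.split_t (LitT.Cov.split_t (LitT.cov_of_chunkM cB21_8_3_64) (LitT.Cov.split_e (LitT.cov_of_chunkM cB21_8_3_65) (LitT.cov_of_chunkM cB21_8_3_66))) (LitT.cov_of_chunkM cB21_8_3_67)))) (LitT.cov_of_chunkM cB21_8_3_68))) (LitT.Cov.split_x (LitT.cov_of_chunkM cB21_8_3_69) (LitT.Cov.split_t (LitT.cov_of_chunkM cB21_8_3_70) (LitT.Cov.split_t (LitT.cov_of_chunkM cB21_8_3_71) (LitT.Cov.split_e (LitT.Cov.split_x (LitT.Cov.split_e (LitT.cov_of_chunkM cB21_8_3_72) (LitT.Cov.split_E (LitT.cov_of_chunkM cB21_8_3_73) (LitT.Cov.split_t (LitT.cov_of_chunkM cB21_8_3_74) (LitT.cov_of_chunkM cB21_8_3_75)))) (LitT.cov_of_chunkM cB21_8_3_76)) (LitT.Cov.split_x (LitT.cov_of_chunkM cB21_8_3_77) (LitT.Cov.split_t (LitT.cov_of_chunkM cB21_8_3_78) (LitT.Cov.split_t (LitT.cov_of_chunkM cB21_8_3_79) (LitT.Cov.split_x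 (LitT.Cov.split_x (LitT.Cov.split_e (LitT.cov_of_chunkM cB21_8_3_80) (LitT.cov_of_chunkM cB21_8_3_81)) (LitT.cov_of_chunkM cB21_8_3_82)) (LitT.cov_of_chunkM cB21_8_3_83))))))))))))) (LitT.Cov.split_x (LitT.cov_of_chunkM cB21_8_3_84) (LitT.Cov.split_x (LitT.cov_of_chunkM cB21_8_3_85) (LitT.Cov.split_x (LitT.cov_of_chunkM cB21_8_3_86) (LitT.Cov.split_e (LitT.cov_of_chunkM cB21_8_3_87) (LitT.Cov.split_t (LitT.Cov.split_e (LitT.cov_of_chunkM cB21_8_3_88) (LitT.Cov.split_t (LitT.Cov.split_e (LitT.cov_of_chunkM cB21_8_3_89) (LitT.Cov.split_t (LitT.Cov.split_e (LitT.cov_of_chunkM cB21_8_3_90) (LitT.Cov.split_t (LitT.Cov.split_E (LitT.cov_of_chunkM cB21_8_3_91) (LitT.Cov.split_x (LitT.cov_of_chunkM cB21_8_3_92) (LitT.cov_of_chunkM cB21_8_3_93))) (LitT.cov_of_chunkM cB21_8_3_94))) (LitT.cov_of_chunkM cB21_8_3_95))) (LitT.cov_of_chunkM cB21_8_3_96))) (LitT.cov_of_chunkM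 cB21_8_3_97))))))) (LitT.Cov.split_e (LitT.Cov.split_e (LitT.Cov.split_x (LitT.cov_of_chunkM cB21_8_3_98) (LitT.Cov.split_e (LitT.Cov.split_x (LitT.cov_of_chunkM cB21_8_3_99) (LitT.Cov.split_x (LitT.cov_of_chunkM cB21_8_3_100) (LitT.Cov.split_x (LitT.cov_of_chunkM cB21_8_3_101) (LitT.Cov.split_t (LitT.cov_of_chunkM cB21_8_3_102) (LitT.Cov.split_t (LitT.Cov.split_t (LitT.Cov.split_t (LitT.Cov.split_t (LitT.Cov.split_e (LitT.Cov.split_E (LitT.cov_of_chunkM cB21_8_3_103) (LitT.Cov.split_e (LitT.cov_of_chunkM cB21_8_3_104) (LitT.cov_of_chunkM cB21_8_3_105))) (LitT.cov_of_chunkM cB21_8_3_106)) (LitT.cov_of_chunkM cB21_8_3_107)) (LitT.cov_of_chunkM cB21_8_3_108)) (LitT.cov_of_chunkM cB21_8_3_109)) (LitT.cov_of_chunkM cB21_8_3_110)))))) (LitT.cov_of_chunkM cB21_8_3_111))) (LitT.cov_of_chunkM cB21_8_3_112)) (LitT.cov_of_chunkM cB21_8_3_113))))))))), (LitT.Cov.split_t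 (LitT.cov_of_chunkM cB21_8_1_0) (LitT.Cov.split_e (LitT.cov_of_chunkM cB21_8_1_1) (LitT.Cov.split_t (LitT.cov_of_chunkM cB21_8_1_2) (LitT.Cov.split_E (LitT.Cov.split_E (LitT.Cov.split_E (LitT.Cov.split_E (LitT.Cov.split_E (LitT.Cov.split_T (LitT.Cov.split_T (LitT.Cov.split_T (LitT.Cov.split_T (LitT.Cov.split_T (LitT.Cov.split_T (LitT.Cov.split_X (LitT.Cov.split_E (LitT.Cov.split_E (LitT.Cov.split_X (LitT.Cov.split_E (LitT.Cov.split_E (LitT.Cov.split_T (LitT.Cov.split_T (LitT.Cov.split_X (LitT.Cov.split_E (LitT.Cov.split_E (LitT.Cov.split_T (LitT.Cov.split_T (LitT.Cov.split_X (LitT.Cov.split_E (LitT.Cov.split_T (LitT.Cov.split_T (LitT.Cov.split_X (LitT.Cov.split_X (LitT.Cov.split_t (LitT.cov_of_chunkM cB21_8_1_3) (LitT.Cov.split_e (LitT.cov_of_chunkM cB21_8_1_4) (LitT.Cov.split_e (LitT.cov_of_chunkM cB21_8_1_5) (LitT.Cov.split_e (LitT.Cov.split_t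 (LitT.Cov.split_e (LitT.cov_of_chunkM cB21_8_1_6) (LitT.cov_of_chunkM cB21_8_1_7)) (LitT.cov_of_chunkM cB21_8_1_8)) (LitT.cov_of_chunkM cB21_8_1_9))))) (LitT.cov_of_chunkM cB21_8_1_10)) (LitT.cov_of_chunkM cB21_8_1_11)) (LitT.cov_of_chunkM cB21_8_1_12)) (LitT.cov_of_chunkM cB21_8_1_13)) (LitT.cov_of_chunkM cB21_8_1_14)) (LitT.cov_of_chunkM cB21_8_1_15)) (LitT.cov_of_chunkM cB21_8_1_16)) (LitT.cov_of_chunkM cB21_8_1_17)) (LitT.cov_of_chunkM cB21_8_1_18)) (LitT.cov_of_chunkM cB21_8_1_19)) (LitT.cov_of_chunkM cB21_8_1_20)) (LitT.cov_of_chunkM cB21_8_1_21)) (LitT.cov_of_chunkM cB21_8_1_22)) (LitT.cov_of_chunkM cB21_8_1_23)) (LitT.cov_of_chunkM cB21_8_1_24)) (LitT.cov_of_chunkM cB21_8_1_25)) (LitT.cov_of_chunkM cB21_8_1_26)) (LitT.cov_of_chunkM cB21_8_1_27)) (LitT.cov_of_chunkM cB21_8_1_28)) (LitT.cov_of_chunkM cB21_8_1_29)) (LitT.cov_of_chunkM cB21_8_1_30))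 (LitT.cov_of_chunkM cB21_8_1_31)) (LitT.cov_of_chunkM cB21_8_1_32)) (LitT.cov_of_chunkM cB21_8_1_33)) (LitT.cov_of_chunkM cB21_8_1_34)) (LitT.cov_of_chunkM cB21_8_1_35)) (LitT.cov_of_chunkM cB21_8_1_36)) (LitT.cov_of_chunkM cB21_8_1_37)) (LitT.cov_of_chunkM cB21_8_1_38)) (LitT.cov_of_chunkM cB21_8_1_39))))), (LitT.cov_of_chunkM cB21_8_2_0), (LitT.cov_of_chunkM cB21_8_0_0)⟩

end Vale.Agent.helper4.Q4
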