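import Vale.Agent.helper4.Q4TreeM
import Vale.Agent.helper4.Q4G.PB21_9

/-!
Checks for pairs of intervals of second moments.
-/

set_option maxRecDepth 100000
set_option linter.unusedVariables false

namespace Vale.Agent.helper4.Q4

theorem cB21_9_3_0 : chunkOkM (LB21_9.ctx true true 103 1 1 1 1 1 1 1 1) muQ true true 64 RtB21_9.Cx RtB21_9.CX RtB21_9.Ctp.left RtB21_9.Ce RtB21_9.CTp RtB21_9.CEr 0x41 = true := by decide +kernel

theorem cB21_9_3_1 : chunkOkM (LB21_9.ctx true true 103 1 1 1 1 1 1 1 1) muQ true true 64 RtB21_9.Cx RtB21_9.CX RtB21_9.Ctp.right RtB21_9.Ce.left RtB21_9.CTp RtB21_9.CEr 0x69 = true := by decide +kernel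

theorem cB21_9_3_2 : chunkOkM (LB21_9.ctx true true 103 1 1 1 1 1 1 1 1) muQ true true 64 RtB21_9.Cx RtB21_9.CX RtB21_9.Ctp.right.left RtB21_9.Ce.right RtB21_9.CTp RtB21_9.CEr 0x41 = true := by decide +kernel

theorem cB21_9_3_3 : chunkOkM (LB21_9.ctx true true 103 1 1 1 1 1 1 1 1) muQ true true 64 RtB21_9.Cx RtB21_9.CX RtB21_9.Ctp.right.right.left RtB21_9.Ce.right RtB21_9.CTp RtB21_9.CEr 0x49 = true := by decide +kernel

theorem cB21_9_3_4 : chunkOkM (LB21_9.ctx true true 103 1 1 1 1 1 1 1 1) muQ true true 64 RtB21_9.Cx RtB21_9.CX RtB21_9.Ctp.right.right.right RtB21_9.Ce.right.left RtB21_9.CTp RtB21_9.CEr 0x11 = true := by decide +kernel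

theorem cB21_9_3_5 : chunkOkM (LB21_9.ctx true true 103 1 1 1 1 1 1 1 1) muQ true true 64 RtB21_9.Cx RtB21_9.CX RtB21_9.Ctp.right.right.right.left RtB21_9.Ce.right.right.left.left RtB21_9.CTp RtB21_9.CEr 0x11 = true := by decide +kernel

theorem cB21_9_3_6 : chunkOkM (LB21_9.ctx true true 103 1 1 1 1 1 1 1 1) muQ true true 64 RtB21_9.Cx RtB21_9.CX RtB21_9.Ctp.right.right.right.left RtB21_9.Ce.right.right.left.right.left RtB21_9.CTp RtB21_9.CEr 0x69 = true := by decide +kernel

theorem cB21_9_3_7 : chunkOkM (LB21_9.ctx true true 103 1 1 1 1 1 1 1 1) muQ true true 64 RtB21_9.Cx RtB21_9.CX RtB21_9.Ctp.right.right.right.left.left.left RtB21_9.Ce.right.right.left.right.right RtB21_9.CTp RtB21_9.CEr 0x49 = true := by decide +kernel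

theorem cB21_9_3_8 : chunkOkM (LB21_9.ctx true true 306 5889 2048 11 16 1955 1853 32 32) muQ true true 64 RtB21_9.Cx RtB21_9.CX RtB21_9.Ctp.right.right.right.left.left.right RtB21_9.Ce.right.right.left.right.right.left RtB21_9.CTp RtB21_9.CEr 0x17b290c76c161cebf79b64251460706bf46874b9a530af140d = true := by decide +kernel

theorem cB21_9_3_9 : chunkOkM (LB21_9.ctx true true 404 1442049 524288 21 32 125103 14977 256 64) muQ true true 64 RtB21_9.Cx.left.left RtB21_9.CX RtB21_9.Ctp.right.right.right.left.left.right RtB21_9.Ce.right.right.left.right.right.right.left RtB21_9.CTp.left RtB21_9.CEr 0x4a6935f4f6076cf30f9469b75cf64ee8f61c223fdbb9f56f25994c8f450ded3aef66c1320c1279b1772518f39f61de6411e09f5c4be12968f450d6449d7c476ca72de169bd9a608678f61b5418bf89f5cdbe46ed8f450d1d7f0a176cbcaefe69b101cc5d069f61da8913a19f540d647494949594949495931c05c1a196057a9f05b647774777493493493493493384a5425 = true := by decide +kernel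

theorem cB21_9_3_10 : chunkOkM (LB21_9.ctx true true 325 22785 8192 11 16 1955 3757 64 64) muQ true true 64 RtB21_9.Cx.left.left RtB21_9.CX RtB21_9.Ctp.right.right.right.left.left.right RtB21_9.Ce.right.right.left.right.right.right.left RtB21_9.CTp.right RtB21_9.CEr.left 0x546ba2938fdabd5fb5a8f61bc068cec9f511c72dd939f440d = true := by decide +kernel

theorem cB21_9_3_11 : chunkOkM (LB21_9.ctx true true 407 5767425 2097152 11 16 125103 14977 64 128) muQ true true 64 RtB21_9.Cx.left.left RtB21_9.CX RtB21_9.Ctp.right.right.right.left.left.right.left RtB21_9.Ce.right.right.left.right.right.right.left RtB21_9.CTp.right RtB21_9.CEr.right 0x494949594949495949492de9e4976cae9602e7f918deb03119f51cc7f45b49f440d39677db76c4f6f0e5f19f61f9fd78859f5b69f93f48f440d67747774777493493493493493 = true := by decide +kernel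

theorem cB21_9_3_12 : chunkOkM (LB21_9.ctx true true 359 90369 32768 11 16 15691 15011 64 128) muQ true true 64 RtB21_9.Cx.left.left RtB21_9.CX RtB21_9.Ctp.right.right.right.left.left.right.right RtB21_9.Ce.right.right.left.right.right.right.left.left RtB21_9.CTp.right RtB21_9.CEr.right 0x1111692c56c6576ca42b3b57f9180b0693c9f530d2dcff8c76cb5fa4c77f915a22c1429f61a3b832909f5970723ca8f450d33d9432276c35f7fe89b9f619d8981cb9f530d67112de9b8176caac3a5e7f9100dfa49e9f61904af97d9f5a04db0ff8f450d21c05c67437 = true := by decide +kernel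

theorem cB21_9_3_13 : chunkOkM (LB21_9.ctx true true 359 90883 32768 11 16 15691 15079 64 128) muQ true true 64 RtB21_9.Cx.left.left.left RtB21_9.CX RtB21_9.Ctp.right.right.right.left.left.right.right.left RtB21_9.Ce.right.right.left.right.right.right.left.right RtB21_9.CTp.right RtB21_9.CEr.right 0x32541ca76c959931b7f9135c25b8a9f61ae2bcccc9f5124e8bea79f450d493310fa2a76c9be42ac7f9288b477f69f61c3578a1b9f5c2f306b18f450d2e6ed8476ca4d37087f9224acd35b9f61a9f86dcc9f58626b4f48f450d309a07a76c9a55e647f911eb108fa9f61b80cfc6e9f511303e78f9f450d3472b6982576c97c4c1d68f61af0c146e9f5137e968e99f440d6 = true := by decide +kernel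

theorem cB21_9_3_14 : chunkOkM (LB21_9.ctx true true 365 180995 65536 11 16 15725 15079 64 128) muQ true true 64 RtB21_9.Cx.left.left.left RtB21_9.CX RtB21_9.Ctp.right.right.right.left.left.right.right.right RtB21_9.Ce.right.right.left.right.right.right.left.right RtB21_9.CTp.right RtB21_9.CEr.right 0x82de556fd35186b676c73cba637f9286c43d989f619ad603469f550d21c05c61140126ba3b176c8545e8b7f9f9ca55818f61bf14e84f9f540d384867b76c407f3bf879f618b15f52c9f530d62172e79ea076c11bc5147f912078824f9f618fd450109f540d437 = true := by decide +kernel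

theorem cB21_9_3_15 : chunkOkM (LB21_9.ctx true true 103 1 1 1 1 1 1 1 1) muQ true true 64 RtB21_9.Cx.left.left.right RtB21_9.CX RtB21_9.Ctp.right.right.right.left.left.right.right RtB21_9.Ce.right.right.left.right.right.right.left.right RtB21_9.CTp.right RtB21_9.CEr.right 0x69 = true := by decide +kernel

theorem cB21_9_3_16 : chunkOkM (LB21_9.ctx true true 356 45827 16384 21 32 7871 7599 256 64) muQ true true 64 RtB21_9.Cx.left.left RtB21_9.CX RtB21_9.Ctp.right.right.right.left.left.right RtB21_9.Ce.right.right.left.right.right.right.right RtB21_9.CTp.left RtB21_9.CEr 0x4a3960cd576c80c1ce69b6aa0bed18f61eac9a6c79f511df883049f450d182175076cd9429469bc45206928f61d48991749f5967041d38f450d68349a26fd76f345c76c18fecef79b2d4328ea8f82a829b1aa9f685156f6d99f460d44933fd47fd76c139878679b1482b1ea79f61ef9691d69f540d1c7516476cdb517c69b8dc0816b8f61cc3850df9f5abe7d2aa8f450d672a9f26b1d9f51b25a7ac36af420d384a5425 = true := by decide +kernel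

theorem cB21_9_3_17 : chunkOkM (LB21_9.ctx true true 326 22785 8192 11 16 1955 3791 64 64) muQ true true 64 RtB21_9.Cx.left.left RtB21_9.CX RtB21_9.Ctp.right.right.right.left.left.right RtB21_9.Ce.right.right.left.right.right.right.right RtB21_9.CTp.right RtB21_9.CEr.left 0x499a994a8fdd43874698f61f5b55ad39f51273cd43e9f440d = true := by decide +kernel

theorem cB21_9_3_18 : chunkOkM (LB21_9.ctx true true 330 22785 8192 11 16 3893 3791 64 64) muQ true true 64 RtB21_9.Cx.left.left RtB21_9.CX RtB21_9.Ctp.right.right.right.left.left.right.left RtB21_9.Ce.right.right.left.right.right.right.right RtB21_9.CTp.right RtB21_9.CEr.right 0x2967038ef9f51a0b56a39eaf420d = true := by decide +kernel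

theorem cB21_9_3_19 : chunkOkM (LB21_9.ctx true true 361 182023 65536 11 16 7871 15181 64 128) muQ true true 64 RtB21_9.Cx.left.left.left RtB21_9.CX RtB21_9.Ctp.right.right.right.left.left.right.right RtB21_9.Ce.right.right.left.right.right.right.right RtB21_9.CTp.right RtB21_9.CEr.right 0x2131facce76c91632837f93cc9d4d399f6201e134089f540d2604fa776c70546c69b1ccbb25c29f61c63e80fd9f540d621742175932fdc4b876cb9a9f7e7f922165f87f9f61b32ef97c9f5857c6bde8f450d30091ba76caf33b077f913257cfa59f61a4be400f9f5810c7d298f450d43179b9c76c9fd85497f917f2930729f6192b694e29f540d731697b676ca2c3b047f9b7136a888f61c27c009f9f5132baf95a9f450d320742be76c12d8a5cab9f61a193254d9f5786073778f440d64 = true := by decide +kernel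

end Vale.Agent.helper4.Q4
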