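import Vale.Agent.helper4.Q4TreeM
import Vale.Agent.helper4.Q4G.PB21_9

/-!
Checks for pairs of intervals of second moments.
-/

set_option maxRecDepth 100000
set_option linter.unusedVariables false

namespace Vale.Agent.helper4.Q4

theorem cB21_9_3_20 : chunkOkM (LB21_9.ctx true true 355 91397 32768 11 16 7871 15215 64 128) muQ true true 64 RtB21_9.Cx.left.left.right RtB21_9.CX RtB21_9.Ctp.right.right.right.left.left.right.right RtB21_9.Ce.right.right.left.right.right.right.right RtB21_9.CTp.right RtB21_9.CEr.right 0x4934269ca76c9ba75817f9165320b219f61c719e5969f511ccdeca99f450d337888876ca18ad8f7f926b394a259f61ada051009f5121df54b99f450d42d87b1476c2690a3d3e9f61ca5645eb9f51079c74039f440d671130ce56776ca34bb067f91c786ba1c9f67495d95ac9f440d471cf7576c1a144569b2f4aae0479f679f3f3f0e9f440d676944493 = true := by decide +kernel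

theorem cB21_9_3_21 : chunkOkM (LB21_9.ctx true true 103 1 1 1 1 1 1 1 1) muQ true true 64 RtB21_9.Cx.left.right RtB21_9.CX RtB21_9.Ctp.right.right.right.left.left.right RtB21_9.Ce.right.right.left.right.right.right RtB21_9.CTp RtB21_9.CEr 0x49 = true := by decide +kernel

theorem cB21_9_3_22 : chunkOkM (LB21_9.ctx true true 103 1 1 1 1 1 1 1 1) muQ true true 64 RtB21_9.Cx.right RtB21_9.CX RtB21_9.Ctp.right.right.right.left.left.right RtB21_9.Ce.right.right.left.right.right.right RtB21_9.CTp RtB21_9.CEr 0x49 = true := by decide +kernel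

theorem cB21_9_3_23 : chunkOkM (LB21_9.ctx true true 368 91397 32768 21 32 7905 15215 256 128) muQ true true 64 RtB21_9.Cx RtB21_9.CX RtB21_9.Ctp.right.right.right.left.right RtB21_9.Ce.right.right.left.right.right RtB21_9.CTp RtB21_9.CEr 0x1101110111112fb957076ca382df27f94771e6868f61a5ad0f289f540d2e20b4d76c3e871769b8ab6ace58f61a045da699f540d67112fdcfea76c14328797f926bef4b139f618b965a6e9f540d74311411f6d65179f05b64a398128976ce2c2d969b90ed60938f61c372dd7a9f540d1c43ef776c104c57479b4c2f62c5b9f615d5f57699f540d684a542553017711437114 = true := by decide +kernel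

theorem cB21_9_3_24 : chunkOkM (LB21_9.ctx true true 103 1 1 1 1 1 1 1 1) muQ true true 64 RtB21_9.Cx RtB21_9.CX RtB21_9.Ctp.right.right.right.right RtB21_9.Ce.right.right.left RtB21_9.CTp RtB21_9.CEr 0x11 = true := by decide +kernel

theorem cB21_9_3_25 : chunkOkM (LB21_9.ctx true true 303 5889 2048 11 16 969 969 32 32) muQ true true 64 RtB21_9.Cx RtB21_9.CX RtB21_9.Ctp.right.right.right.left.left RtB21_9.Ce.right.right.right.left.left RtB21_9.CTp RtB21_9.CEr 0x33d84b67fddc549c66c9f9440107eaf6c4e8a46a6a1bf553a2312ac591cf450d = true := by decide +kernel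

theorem cB21_9_3_26 : chunkOkM (LB21_9.ctx true true 103 1 1 1 1 1 1 1 1) muQ true true 64 RtB21_9.Cx.left.left.left RtB21_9.CX RtB21_9.Ctp.right.right.right.left.right.left RtB21_9.Ce.right.right.right.left.left.left.left RtB21_9.CTp RtB21_9.CEr 0x01 = true := by decide +kernel

theorem cB21_9_3_27 : chunkOkM (LB21_9.ctx true true 349 45827 16384 21 32 3961 3825 256 64) muQ true true 64 RtB21_9.Cx.left.left.right RtB21_9.CX RtB21_9.Ctp.right.right.right.left.right.left.left RtB21_9.Ce.right.right.right.left.left.left.left RtB21_9.CTp.left RtB21_9.CEr 0x4a48c8c1176c1a13049eb9f61c70b3d969f58c0eac678f440d1c5052976cdb4aa269bf31c79278f61f3f4a7ca9f5fcf6fda7f450d684a5425 = true := by decide +kernel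

theorem cB21_9_3_28 : chunkOkM (LB21_9.ctx true true 336 45827 16384 11 16 3961 3825 64 64) muQ true true 64 RtB21_9.Cx.left.left.right RtB21_9.CX RtB21_9.Ctp.right.right.right.left.right.left.left RtB21_9.Ce.right.right.right.left.left.left.left RtB21_9.CTp.right RtB21_9.CEr.left 0x42a3b12c8fdf7f550188f61eca18c319f59ce4bd268f440d = true := by decide +kernel

theorem cB21_9_3_29 : chunkOkM (LB21_9.ctx true true 355 91911 32768 11 16 7939 15283 64 128) muQ true true 64 RtB21_9.Cx.left.left.right RtB21_9.CX RtB21_9.Ctp.right.right.right.left.right.left.left RtB21_9.Ce.right.right.right.left.left.left.left.left RtB21_9.CTp.right RtB21_9.CEr.right 0x2949a65e99f00b32b5fd676cc05c4ea7f9263037b6c9f61c030dd2b9f5b7bd1d0d8f450d2d1790c76c8eb05bb7f9452141bb09f619d49f9e49f5114a26c569f450d432541f876cbcd3f347f917b0f18ab9f61bd32f77a9f5656950aa8f450d727d959276c140cfbfb09f61ac3e777e9f5356ccba68f440d63 = true := by decide +kernel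

theorem cB21_9_3_30 : chunkOkM (LB21_9.ctx true true 365 184079 65536 11 16 15861 15351 64 128) muQ true true 64 RtB21_9.Cx.left.left.right RtB21_9.CX RtB21_9.Ctp.right.right.right.left.right.left.left RtB21_9.Ce.right.right.right.left.left.left.left.right RtB21_9.CTp.right RtB21_9.CEr.right 0x0132edae076ca7465837f91afb28fb29f530d2e6771776c70a21569b109d8f1689f61cb69cdd19f540d6333f586d76caba8eff7f91e5dfed4b9f619d3f757d9f540d2e02eb876c4735eb69b1546e536d9f530d64017323891776cb34c0b87f922f4075a99f61b88d37589f5111b4506e9f450d364de3776c9c2d8447f92309a49f19f61cb97b2189f510e9e5f9e9f450d4338000876ca04c959b144993fe79f61a6c2c5bd9f5c8a124c18f450d63217 = true := by decide +kernel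

theorem cB21_9_3_31 : chunkOkM (LB21_9.ctx true true 103 1 1 1 1 1 1 1 1) muQ true true 64 RtB21_9.Cx.left.left.right RtB21_9.CX RtB21_9.Ctp.right.right.right.left.right.left.right RtB21_9.Ce.right.right.right.left.left.left.left RtB21_9.CTp RtB21_9.CEr 0x01 = true := by decide +kernel

theorem cB21_9_3_32 : chunkOkM (LB21_9.ctx true true 103 1 1 1 1 1 1 1 1) muQ true true 64 RtB21_9.Cx.left.left RtB21_9.CX RtB21_9.Ctp.right.right.right.left.right.left RtB21_9.Ce.right.right.right.left.left.left.right RtB21_9.CTp RtB21_9.CEr 0x21 = true := by decide +kernel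

theorem cB21_9_3_33 : chunkOkM (LB21_9.ctx true true 380 92425 32768 21 32 63359 15351 256 128) muQ true true 64 RtB21_9.Cx.left.right RtB21_9.CX RtB21_9.Ctp.right.right.right.left.right.left RtB21_9.Ce.right.right.right.left.left.left.left RtB21_9.CTp RtB21_9.CEr 0x1149113652cc776cc49ca1a7f910d65673a9f61b78957ae9f58ae5aed28f450d37a26c876c5f0c7869b1932102d99f5cd06ab218f440d671141135186cc76ca760d997f9cfcfc0c18f61d86ca3a19f5130237a409f450d2ca42b476c11c3de3095af613d0934dc9f52178235629f440d67694493493493373691e4a58fd10d888cb19f61ce7530db9f5116fcb3549f440d64a3b8bafe76c10d948a79b22f4b93ab9f6183ddbcdd9f519f5cc9cb9f450d2c68f4276c127643979b1a5dd3d9a9f61ced6a3ce9f5134bce6f09f450d684a542556943 = true := by decide +kernel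

theorem cB21_9_3_34 : chunkOkM (LB21_9.ctx true true 355 92939 32768 21 32 3995 3859 256 64) muQ true true 64 RtB21_9.Cx.left.right RtB21_9.CX RtB21_9.Ctp.right.right.right.left.right.left RtB21_9.Ce.right.right.right.left.left.left.right RtB21_9.CTp.left RtB21_9.CEr 0x4a694c0a1c876c16856c5cc9f61efb6f45d9f55e76c99e8f440d284556376cf863a069b74ced51d8f61e68d27259f540d601774928783dd76ce3750669bfe86f78c8f61e8f4dc8e9f51191bd3ea9f450d2b2b72c76c12119de79b73fd332f8f61ee08ccdd9f5f440243e8f450d67384a5425 = true := by decide +kernel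

theorem cB21_9_3_35 : chunkOkM (LB21_9.ctx true true 326 23299 8192 11 16 1989 3859 64 64) muQ true true 64 RtB21_9.Cx.left.right RtB21_9.CX RtB21_9.Ctp.right.right.right.left.right.left RtB21_9.Ce.right.right.right.left.left.left.right RtB21_9.CTp.right RtB21_9.CEr.left 0x77395c318fd1398ee5ba9f61dd2104c49f5106d19be69f440d = true := by decide +kernel

end Vale.Agent.helper4.Q4
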