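import Vale.Agent.helper4.Q4TreeM
import Vale.Agent.helper4.Q4G.PB21_9

/-!
Checks for pairs of intervals of second moments.
-/

set_option maxRecDepth 100000
set_option linter.unusedVariables false

namespace Vale.Agent.helper4.Q4

theorem cB21_9_3_36 : chunkOkM (LB21_9.ctx true true 360 92939 32768 11 16 15895 15419 64 128) muQ true true 64 RtB21_9.Cx.left.right.left RtB21_9.CX RtB21_9.Ctp.right.right.right.left.right.left.left RtB21_9.Ce.right.right.right.left.left.left.right.left RtB21_9.CTp.right RtB21_9.CEr.right 0x336374f76cb54ddf27f977f57afe09f6199c3e2009f512a98f5ef9f450d33f3ebe76c53327e69b13f8baceb9f530d6114493351cebd76cc8557847f9254c6b0c19f61c8ffcac89f5b3ee79508f450d349ba3576cbf709aa7f9274fd80019f61c1d7bc659f5ab68bf9c8f450d4304ff7f76c1ebdf53479f61ae9628799f5beb5e9a68f440d677dcad8a76c253c10f972af5fce7a29d4aaf430d3 = true := by decide +kernel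

theorem cB21_9_3_37 : chunkOkM (LB21_9.ctx true true 352 92939 32768 11 16 7939 7735 64 128) muQ true true 64 RtB21_9.Cx.left.right.left RtB21_9.CX RtB21_9.Ctp.right.right.right.left.right.left.left RtB21_9.Ce.right.right.right.left.left.left.right.right RtB21_9.CTp.right RtB21_9.CEr.right 0x391920b76ca1771f37f9dfcbe8ba8f61d766e1ea9f514290fa879f450d348b44876cc74a2a57f96844268b49f61ffb973fc9f540d758e7d2b7f9202a348145af4a2c0e11d49f230d321c807e76c42909e69b1b1dff0689f61cde2b3359f5ff48a5808f450d6 = true := by decide +kernel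

theorem cB21_9_3_38 : chunkOkM (LB21_9.ctx true true 103 1 1 1 1 1 1 1 1) muQ true true 64 RtB21_9.Cx.left.right.right RtB21_9.CX RtB21_9.Ctp.right.right.right.left.right.left.left RtB21_9.Ce.right.right.right.left.left.left.right RtB21_9.CTp.right RtB21_9.CEr.right 0x49 = true := by decide +kernel

theorem cB21_9_3_39 : chunkOkM (LB21_9.ctx true true 355 92939 32768 11 16 7973 15487 64 128) muQ true true 64 RtB21_9.Cx.left.right RtB21_9.CX RtB21_9.Ctp.right.right.right.left.right.left.right RtB21_9.Ce.right.right.right.left.left.left.right RtB21_9.CTp.right RtB21_9.CEr.right 0x690136525a676cc60da0a7f9261e2e4af9f61be0587669f5a915f1dc8f450d32e608776c5f04f03909f618dff97919f530d634dd1b076cb6c4fe37f92b20de50b9f619c02f2f19f540d2d5ead976c78c59d69b1a2e4fd309f530d6431140177 = true := by decide +kernel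

theorem cB21_9_3_40 : chunkOkM (LB21_9.ctx true true 103 1 1 1 1 1 1 1 1) muQ true true 64 RtB21_9.Cx.left.left RtB21_9.CX RtB21_9.Ctp.right.right.right.left.right.left RtB21_9.Ce.right.right.right.left.left.right RtB21_9.CTp RtB21_9.CEr 0x21 = true := by decide +kernel

theorem cB21_9_3_41 : chunkOkM (LB21_9.ctx true true 345 23299 8192 21 32 1989 3927 256 256) muQ true true 64 RtB21_9.Cx.left.right RtB21_9.CX RtB21_9.Ctp.right.right.right.left.right.left RtB21_9.Ce.right.right.right.left.left.right RtB21_9.CTp RtB21_9.CEr.left 0x5fcdce228fddbf3d00e8f61f839606d9f513fa941809f440d4a2bd14867cccae65ab1be8756a19f622727183d9f584e585618f450d348f9767c119019379b1111ce2fe9f61e4914d8a9f513bcc5ada9f450d46a612684a54255 = true := by decide +kernel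

theorem cB21_9_3_42 : chunkOkM (LB21_9.ctx true true 327 23299 8192 11 16 3961 3893 32 64) muQ true true 64 RtB21_9.Cx.left.right RtB21_9.CX RtB21_9.Ctp.right.right.right.left.right.left.left RtB21_9.Ce.right.right.right.left.left.right.left RtB21_9.CTp RtB21_9.CEr.right 0x87ed45e76c2a587b25d81bf4b5c1a6572caf230d = true := by decide +kernel

theorem cB21_9_3_43 : chunkOkM (LB21_9.ctx true true 361 186135 65536 11 16 7973 15521 64 128) muQ true true 64 RtB21_9.Cx.left.right.left RtB21_9.CX RtB21_9.Ctp.right.right.right.left.right.left.right RtB21_9.Ce.right.right.right.left.left.right.left RtB21_9.CTp RtB21_9.CEr.right 0x212101369004476ccccb7d07f922b9e48059f61cb4b95819f59623eb188f450d2f0c70976c3706f469bc069ec8a8f61bc855c209f58395958f8f450d632c5e96b76c53b58f69b277baf9ee9f61d36e50fd9f540d521740174 = true := by decide +kernel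

theorem cB21_9_3_44 : chunkOkM (LB21_9.ctx true true 355 93453 32768 11 16 8007 15555 64 128) muQ true true 64 RtB21_9.Cx.left.right.right RtB21_9.CX RtB21_9.Ctp.right.right.right.left.right.left.right RtB21_9.Ce.right.right.right.left.left.right.left.left RtB21_9.CTp RtB21_9.CEr.right 0x2ccd50cb79f00b49386639d76ca66da8e7f921360180d9f61cdcd40949f513c36606b9f450d2a86e0e76c15fb1c3399f61d51a4b659f5bfec5e758f440d63b01dd576ccca74927f930e4d1ad19f61cc6870769f5e0a22f738f450d31470c476c49704969b2c3b4334a9f6195d18de89f51621d13219f450d647342cb87276c102ba8179ba3862c7c8f61e4b4de9b9f56dbb7fd88f450d5 = true := by decide +kernel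

theorem cB21_9_3_45 : chunkOkM (LB21_9.ctx true true 339 46855 16384 11 16 3995 7803 64 64) muQ true true 64 RtB21_9.Cx.left.right.right RtB21_9.CX RtB21_9.Ctp.right.right.right.left.right.left.right RtB21_9.Ce.right.right.right.left.left.right.left.right RtB21_9.CTp.left RtB21_9.CEr.right 0x3bae75e76c19604f979b13cbeede89f61f55ad70b9f51435b382e9f450d = true := by decide +kernel

theorem cB21_9_3_46 : chunkOkM (LB21_9.ctx true true 378 374583 131072 11 16 31977 31229 64 128) muQ true true 64 RtB21_9.Cx.left.right.right RtB21_9.CX RtB21_9.Ctp.right.right.right.left.right.left.right RtB21_9.Ce.right.right.right.left.left.right.left.right RtB21_9.CTp.right RtB21_9.CEr.right 0x3b4513b76cd9ea9677f922c62da8a9f61be750d489f5d39d53428f450d3941d6176c2f150369b873fe3fb8f61c5699f7e9f514c34941c9f450d669401012137f4b7c76cba816d27f9cd9ab7fa59f620196c7af9f59fc8fe488f450d432262876c56c58f7e59f617c97fef49f530d6217440604e676ccb225da7f9db51fb938f61c2b7076c9f540d42a87b576c85acdc7739f61427cbb5e9f530d64330177493b53a7776caeb5c1f7f912a3b19849f61e0dbf0d39f514b5d46f39f450d2f5842c76c3048d487e9f61b88ee33a9f5e6c16d318f440d673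 = true := by decide +kernel

theorem cB21_9_3_47 : chunkOkM (LB21_9.ctx true true 355 93967 32768 11 16 8007 15691 64 128) muQ true true 64 RtB21_9.Cx.left.right RtB21_9.CX RtB21_9.Ctp.right.right.right.left.right.left RtB21_9.Ce.right.right.right.left.left.right.right RtB21_9.CTp RtB21_9.CEr.right 0x213a6411976ccff97987f92652eed8b9f61d6dfa67c9f5e8eeb5178f450d3b4513b76cc037cd67f91a7fe19f59f61ca5bb4f49f510b9337649f450d434eb60176c2854c069b8547c61f8f61da7eda3a9f5be4d07678f450d6595f74076cbec13169bb90cfd828f62027189e29f5f96230208f450d54932174217593 = true := by decide +kernel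

theorem cB21_9_3_48 : chunkOkM (LB21_9.ctx true true 103 1 1 1 1 1 1 1 1) muQ true true 64 RtB21_9.Cx.left RtB21_9.CX RtB21_9.Ctp.right.right.right.left.right.right RtB21_9.Ce.right.right.right.left.left RtB21_9.CTp RtB21_9.CEr 0x01 = true := by decide +kernel

theorem cB21_9_3_49 : chunkOkM (LB21_9.ctx true true 103 1 1 1 1 1 1 1 1) muQ true true 64 RtB21_9.Cx.right RtB21_9.CX RtB21_9.Ctp.right.right.right.left.right RtB21_9.Ce.right.right.right.left.left.left RtB21_9.CTp RtB21_9.CEr 0x69 = true := by decide +kernel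

theorem cB21_9_3_50 : chunkOkM (LB21_9.ctx true true 103 1 1 1 1 1 1 1 1) muQ true true 64 RtB21_9.Cx.right RtB21_9.CX RtB21_9.Ctp.right.right.right.left.right.left.left RtB21_9.Ce.right.right.right.left.left.right RtB21_9.CTp RtB21_9.CEr 0x49 = true := by decide +kernel

theorem cB21_9_3_51 : chunkOkM (LB21_9.ctx true true 103 1 1 1 1 1 1 1 1) muQ true true 64 RtB21_9.Cx.right RtB21_9.CX RtB21_9.Ctp.right.right.right.left.right.left.right.left RtB21_9.Ce.right.right.right.left.left.right RtB21_9.CTp RtB21_9.CEr 0x49 = true := by decide +kernel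

theorem cB21_9_3_52 : chunkOkM (LB21_9.ctx true true 103 1 1 1 1 1 1 1 1) muQ true true 64 RtB21_9.Cx.right RtB21_9.CX RtB21_9.Ctp.right.right.right.left.right.left.right.right.left RtB21_9.Ce.right.right.right.left.left.right RtB21_9.CTp RtB21_9.CEr 0x49 = true := by decide +kernel

theorem cB21_9_3_53 : chunkOkM (LB21_9.ctx true true 103 1 1 1 1 1 1 1 1) muQ true true 64 RtB21_9.Cx.right RtB21_9.CX RtB21_9.Ctp.right.right.right.left.right.left.right.right.right RtB21_9.Ce.right.right.right.left.left.right.left RtB21_9.CTp RtB21_9.CEr 0x11 = true := by decide +kernel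

end Vale.Agent.helper4.Q4
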