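import Vale.Agent.helper4.Q4TreeM
import Vale.Agent.helper4.Q4G.PB21_9

/-!
Checks for pairs of intervals of second moments.
-/

set_option maxRecDepth 100000
set_option linter.unusedVariables false

namespace Vale.Agent.helper4.Q4

theorem cB21_9_3_54 : chunkOkM (LB21_9.ctx true true 375 188705 65536 21 32 16031 15725 256 64) muQ true true 64 RtB21_9.Cx.right.left.left.left.left RtB21_9.CX RtB21_9.Ctp.right.right.right.left.right.left.right.right.right RtB21_9.Ce.right.right.right.left.left.right.right RtB21_9.CTp.left RtB21_9.CEr 0x4a593ebafe9e85caa18cd69b1a7e149499f61d9cc41bb9f5e7e525718f450d2d69a6276c4887ff9d59f61c321f8e19f5135d0b7219f440d646b9237028fda0fc57476c5727dc69b205366e0a9f61c1de5c6b9f51a7c4120b9f460d34626cb76c100286a79b1c98f28429f51b34f55389f440d6484a5425 = true := by decide +kernel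

theorem cB21_9_3_55 : chunkOkM (LB21_9.ctx true true 365 188705 65536 11 16 16031 15725 64 128) muQ true true 64 RtB21_9.Cx.right.left.left.left.left RtB21_9.CX RtB21_9.Ctp.right.right.right.left.right.left.right.right.right RtB21_9.Ce.right.right.right.left.left.right.right RtB21_9.CTp.right RtB21_9.CEr 0x593d34c4a76c7fcf3167f917bc630e8f61f57d67029f516a013c6b9f450d5c0802b7fd4c1707376c2a027cc219f61976cc1d89f5e1b49a47f450d6436a63ba76cd0cab3b7f9154b344259f61dc958eb89f5adbbdab48f450d315164e76c3eb63469b16394edea9f61e27f20649f540d611441c83caa2c9f05b6 = true := by decide +kernel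

theorem cB21_9_3_56 : chunkOkM (LB21_9.ctx true true 103 1 1 1 1 1 1 1 1) muQ true true 64 RtB21_9.Cx.right.left.left.left.right RtB21_9.CX RtB21_9.Ctp.right.right.right.left.right.left.right.right.right RtB21_9.Ce.right.right.right.left.left.right.right RtB21_9.CTp RtB21_9.CEr 0x49 = true := by decide +kernel

theorem cB21_9_3_57 : chunkOkM (LB21_9.ctx true true 103 1 1 1 1 1 1 1 1) muQ true true 64 RtB21_9.Cx.right.left.left.right RtB21_9.CX RtB21_9.Ctp.right.right.right.left.right.left.right.right.right RtB21_9.Ce.right.right.right.left.left.right.right RtB21_9.CTp RtB21_9.CEr 0x49 = true := by decide +kernel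

theorem cB21_9_3_58 : chunkOkM (LB21_9.ctx true true 103 1 1 1 1 1 1 1 1) muQ true true 64 RtB21_9.Cx.right.left.right RtB21_9.CX RtB21_9.Ctp.right.right.right.left.right.left.right.right.right RtB21_9.Ce.right.right.right.left.left.right.right RtB21_9.CTp RtB21_9.CEr 0x49 = true := by decide +kernel

theorem cB21_9_3_59 : chunkOkM (LB21_9.ctx true true 103 1 1 1 1 1 1 1 1) muQ true true 64 RtB21_9.Cx.right.right RtB21_9.CX RtB21_9.Ctp.right.right.right.left.right.left.right.right.right RtB21_9.Ce.right.right.right.left.left.right.right RtB21_9.CTp RtB21_9.CEr 0x11 = true := by decide +kernel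

theorem cB21_9_3_60 : chunkOkM (LB21_9.ctx true true 373 94995 32768 21 32 16065 15759 256 128) muQ true true 64 RtB21_9.Cx.right RtB21_9.CX RtB21_9.Ctp.right.right.right.left.right.right RtB21_9.Ce.right.right.right.left.left.right RtB21_9.CTp RtB21_9.CEr 0x11111111506dd1876c48261a47f73042a98d9d4bf430a67afefeaf140d3d15c8e76cdb5097a7f91ec4589bf9f61d448da1b9f5b053433b8f450d32a2ddd76c440dc669b8196258f8f61c78c4a629f540d6113b0d11576cd3e5abd7f9806014848f61b5def2829f5db3d48178f450d33d9f0f76c1f6ee969b3ae650598f61c3bcb0ee9f5e05118c58f450d63473718b5684819f05b64a33695d3e8fd716b2d376c12895d079bc75aff258f61e4d731c99f5d08b9e1c8f460d25e8d0e76c1424e26abfd1478818f61dbe85ced9f5122afc3b29f450d684a5425511437114 = true := by decide +kernel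

theorem cB21_9_3_61 : chunkOkM (LB21_9.ctx true true 103 1 1 1 1 1 1 1 1) muQ true true 64 RtB21_9.Cx.left RtB21_9.CX RtB21_9.Ctp.right.right.right.left RtB21_9.Ce.right.right.right.left.right RtB21_9.CTp RtB21_9.CEr 0x21 = true := by decide +kernel

theorem cB21_9_3_62 : chunkOkM (LB21_9.ctx true true 103 1 1 1 1 1 1 1 1) muQ true true 64 RtB21_9.Cx.right RtB21_9.CX RtB21_9.Ctp.right.right.right.left.left RtB21_9.Ce.right.right.right.left.right RtB21_9.CTp RtB21_9.CEr 0x49 = true := by decide +kernel

theorem cB21_9_3_63 : chunkOkM (LB21_9.ctx true true 311 12035 4096 11 16 1989 1989 32 32) muQ true true 64 RtB21_9.Cx.right RtB21_9.CX RtB21_9.Ctp.right.right.right.left.right.left RtB21_9.Ce.right.right.right.left.right.left RtB21_9.CTp RtB21_9.CEr 0x7862e766cd58e4869b35cf0838d9f634efe1c35baf5175c072fc4cbf450d = true := by decide +kernel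

theorem cB21_9_3_64 : chunkOkM (LB21_9.ctx true true 353 47883 16384 21 32 8075 3961 256 64) muQ true true 64 RtB21_9.Cx.right.left RtB21_9.CX RtB21_9.Ctp.right.right.right.left.right.right RtB21_9.Ce.right.right.right.left.right.left.left RtB21_9.CTp.left RtB21_9.CEr 0x4a29b27f9b99f00b55da09976c98fede69b9d7e433d8f6202f3f1149f5c61130178f450d2de108a76c126828d79bdcf361478f6213d5cc159f5c2b35afd8f450d649333513947fd4535a1476c129e6dbee9f61d99078cf9f59c153a538f450d1bb02e376c19844ae79ba1d3535d8f6204abe6559f51185944cc9f450d67384a5425 = true := by decide +kernel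

theorem cB21_9_3_65 : chunkOkM (LB21_9.ctx true true 326 23813 8192 11 16 2023 3961 64 64) muQ true true 64 RtB21_9.Cx.right.left RtB21_9.CX RtB21_9.Ctp.right.right.right.left.right.right RtB21_9.Ce.right.right.right.left.right.left.left RtB21_9.CTp.right RtB21_9.CEr.left 0x689e72308fd144e21d489f61da3cf8849f511e91c7429f440d = true := by decide +kernel

theorem cB21_9_3_66 : chunkOkM (LB21_9.ctx true true 370 190247 65536 11 16 32249 15861 64 128) muQ true true 64 RtB21_9.Cx.right.left.left RtB21_9.CX RtB21_9.Ctp.right.right.right.left.right.right.left RtB21_9.Ce.right.right.right.left.right.left.left RtB21_9.CTp.right RtB21_9.CEr.right 0x210101416b3fb76cd4635347f927b5ab1359f61d4eb13339f5ac383f9a8f450d382693176cde5d9aa1d9f61b452b7fc9f5a22294578f440d633406dcc676cd016a337f919427c8f69f61ec2587c19f51605484069f450d47efa1876c1facc3f749f61d1ccf59d9f5f68b157e8f440d6493321742173b8628676c1aa92669b186c36c469f61d176e7b49af173d1eb5d2eaf050d41746a476cad00f0b7f9169c338759f61e6ef599d9f516bfcc42b9f450d3c5763176cdda51027f92170e553c9f61ea81ff3d9f592fc76598f450d716d0da37fd4bc38f176c1348dbe119f61e91c70139f514fce50dd9f450d634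 = true := by decide +kernel

theorem cB21_9_3_67 : chunkOkM (LB21_9.ctx true true 356 95509 32768 11 16 8075 15895 64 128) muQ true true 64 RtB21_9.Cx.right.left.right RtB21_9.CX RtB21_9.Ctp.right.right.right.left.right.right.left RtB21_9.Ce.right.right.right.left.right.left.left RtB21_9.CTp.right RtB21_9.CEr.right 0x69415602376cebc09297f9221281abc9f61c8fad1799f51126430179f450d517d65a76c18f8f6fdc9f61d28510db9f514ead958b9f440d67113d00ae976c9234bd87f9d030ecaa8f61e54674459f588b7b74e8f450d451c24276c134a13f8cdaf623df08e049f530d674114493 = true := by decide +kernel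

theorem cB21_9_3_68 : chunkOkM (LB21_9.ctx true true 330 23813 8192 11 16 4063 3961 64 64) muQ true true 64 RtB21_9.Cx.right.left RtB21_9.CX RtB21_9.Ctp.right.right.right.left.right.right.right RtB21_9.Ce.right.right.right.left.right.left.left RtB21_9.CTp.right RtB21_9.CEr.right 0x258de87e79f00b = true := by decide +kernel

theorem cB21_9_3_69 : chunkOkM (LB21_9.ctx true true 103 1 1 1 1 1 1 1 1) muQ true true 64 RtB21_9.Cx.right.left.left RtB21_9.CX RtB21_9.Ctp.right.right.right.left.right.right RtB21_9.Ce.right.right.right.left.right.left.right RtB21_9.CTp RtB21_9.CEr 0x21 = true := by decide +kernel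

theorem cB21_9_3_70 : chunkOkM (LB21_9.ctx true true 336 47883 16384 11 16 2023 3995 128 64) muQ true true 64 RtB21_9.Cx.right.left.right RtB21_9.CX RtB21_9.Ctp.right.right.right.left.right.right RtB21_9.Ce.right.right.right.left.right.left.right RtB21_9.CTp RtB21_9.CEr.left 0x4b79482b8fd1349046d89f61e9ea915b9f5fdc50fac8f440d2d2bf2176c1cd402979b17b2c2e869f620a0fee719f511e3bf11a9f450d4255 = true := by decide +kernel

end Vale.Agent.helper4.Q4
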