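import Vale.Agent.helper4.Q4TreeM
import Vale.Agent.helper4.Q4G.PB21_9

/-!
Checks for pairs of intervals of second moments.
-/

set_option maxRecDepth 100000
set_option linter.unusedVariables false

namespace Vale.Agent.helper4.Q4

theorem cB21_9_3_71 : chunkOkM (LB21_9.ctx true true 365 191789 65536 11 16 16167 15997 64 128) muQ true true 64 RtB21_9.Cx.right.left.right RtB21_9.CX RtB21_9.Ctp.right.right.right.left.right.right.left RtB21_9.Ce.right.right.right.left.right.left.right RtB21_9.CTp RtB21_9.CEr.right 0x4921429af0d76cd5a978d7f91c795a4bb9f620042b3e09f516f877aff9f450d4ce32c776c22de10aa99f61c8e7b7279f52715e52009f440d64ac3cbce85ce9d325278b1f87e8a679f5160a9a4579f440d547493217428ed2376cc3838757f9122569d919f61e8097ac19f51adec2d469f450d4133ca076ccd7d6907f91a134bdc79f61f28777969f51309281029f450d73341fd276c1a96adddc9f61c34385289f510873636b9f440d65647e9e7fd489de7a76c11e00ad79b15debaa429f620f09e03d9f5c45924c48f460d54493 = true := by decide +kernel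

theorem cB21_9_3_72 : chunkOkM (LB21_9.ctx true true 357 96023 32768 11 16 16201 8007 64 128) muQ true true 64 RtB21_9.Cx.right.left.right RtB21_9.CX RtB21_9.Ctp.right.right.right.left.right.right.right RtB21_9.Ce.right.right.right.left.right.left.right RtB21_9.CTp RtB21_9.CEr.right 0x0101426ce3f76cd2cf4847f9136b588c49f61f7b82deb9f51085bacd29f450d3ac291a76c2f66616179f61b11436e09f5bd13feaa8f440d63349aabc076cd5ed2469b10bf09fb39f61d04850f59f5d4a3757f8f450d54477af876c2e9dda479b2f93a8d932af1be62b2faf8af040d4017 = true := by decide +kernel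

theorem cB21_9_3_73 : chunkOkM (LB21_9.ctx true true 369 96537 32768 21 32 8109 16031 256 128) muQ true true 64 RtB21_9.Cx.right.right RtB21_9.CX RtB21_9.Ctp.right.right.right.left.right.right RtB21_9.Ce.right.right.right.left.right.left RtB21_9.CTp RtB21_9.CEr 0x111111496318876cf317d837f93902c54f09f61ceb11ad59f51cc5b4e279f450d30b236476cde6eff1219f618808e6e39f524929e95d9f440d67114371144f796de4a9f04b64a496d7c576c73428b69b15d6322c59f61e88fdce59f51515526db9f450d2a2f33e76c14c9ef6ab1792211189f6206a47ced9f516913c0429f450d684a54255114493 = true := by decide +kernel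

theorem cB21_9_3_74 : chunkOkM (LB21_9.ctx true true 103 1 1 1 1 1 1 1 1) muQ true true 64 RtB21_9.Cx.right.left RtB21_9.CX RtB21_9.Ctp.right.right.right.left.right RtB21_9.Ce.right.right.right.left.right.right RtB21_9.CTp RtB21_9.CEr 0x21 = true := by decide +kernel

theorem cB21_9_3_75 : chunkOkM (LB21_9.ctx true true 103 1 1 1 1 1 1 1 1) muQ true true 64 RtB21_9.Cx.right.right RtB21_9.CX RtB21_9.Ctp.right.right.right.left.right.left RtB21_9.Ce.right.right.right.left.right.right RtB21_9.CTp RtB21_9.CEr 0x49 = true := by decide +kernel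

theorem cB21_9_3_76 : chunkOkM (LB21_9.ctx true true 103 1 1 1 1 1 1 1 1) muQ true true 64 RtB21_9.Cx.right.right RtB21_9.CX RtB21_9.Ctp.right.right.right.left.right.right.left RtB21_9.Ce.right.right.right.left.right.right RtB21_9.CTp RtB21_9.CEr 0x49 = true := by decide +kernel

theorem cB21_9_3_77 : chunkOkM (LB21_9.ctx true true 349 48911 16384 21 32 4063 4029 256 64) muQ true true 64 RtB21_9.Cx.right.right RtB21_9.CX RtB21_9.Ctp.right.right.right.left.right.right.right RtB21_9.Ce.right.right.right.left.right.right.left RtB21_9.CTp.left RtB21_9.CEr 0x4a9089ae5469f04b718067076c126597679bc4a53cf28f6231ee94f39f51581517df9f450d3a0117c76cc137bf69ba233f5e48f6219cca17c9f510ec526049f450d6784a5425 = true := by decide +kernel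

theorem cB21_9_3_78 : chunkOkM (LB21_9.ctx true true 330 24327 8192 11 16 4063 4029 64 64) muQ true true 64 RtB21_9.Cx.right.right RtB21_9.CX RtB21_9.Ctp.right.right.right.left.right.right.right RtB21_9.Ce.right.right.right.left.right.right.left RtB21_9.CTp.right RtB21_9.CEr.left 0x6e4b383c8fdb53648af8f61fcfda4749f51b55493e49f440d = true := by decide +kernel

theorem cB21_9_3_79 : chunkOkM (LB21_9.ctx true true 353 97051 32768 11 16 8143 8075 64 128) muQ true true 64 RtB21_9.Cx.right.right RtB21_9.CX RtB21_9.Ctp.right.right.right.left.right.right.right RtB21_9.Ce.right.right.right.left.right.right.left RtB21_9.CTp.right RtB21_9.CEr.right 0x8768cac2a9f04b472780376ceebbeac7f91d5e34af09f61f95099f09f510c77f85b9f450d435ab9a76cea0406c7f916eb9b09f9f61f965620a9f5acbb1b848f450d742d1dbc76cd91e5557f97bbc3c7e8f6205ffa61b9f521dd00f269f450d345106e476c1b51575519f62104e06579f510e3336f39f440d6b6f873376c47e9bcd5a9f638e8ccb5a3af1e32af49af4af040d49458579e76cc5f3bda7f91a60dbd019f61f75006f29f5197260b339f450d3df158276cbead159bcb15e0e78f61dcbf2ffc9f511358b56e9f450d67347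 = true := by decide +kernel

theorem cB21_9_3_80 : chunkOkM (LB21_9.ctx true true 330 24327 8192 11 16 4063 4063 64 64) muQ true true 64 RtB21_9.Cx.right.right RtB21_9.CX RtB21_9.Ctp.right.right.right.left.right.right.right RtB21_9.Ce.right.right.right.left.right.right.right RtB21_9.CTp RtB21_9.CEr.left 0x42c2cd758fd569778af8f63e33382569f552c3c3e509f4a7d8c4378f150d3057ff976c22b93fa79bb4cbbbea8f6221e08d8c9f5217fcbeb19f450d5 = true := by decide +kernel

theorem cB21_9_3_81 : chunkOkM (LB21_9.ctx true true 358 194359 65536 11 16 8143 8109 64 128) muQ true true 64 RtB21_9.Cx.right.right.left RtB21_9.CX RtB21_9.Ctp.right.right.right.left.right.right.right RtB21_9.Ce.right.right.right.left.right.right.right RtB21_9.CTp RtB21_9.CEr.right 0x21469eeed76cd61d9bd7f9195afef339f61f7ed66959f51a375d8239f450d4129f0176c1d471369b21b5d9edb9f59b90b6c58f440d656ca1ce285c101d83979b4ae3cd218f62202186559f5120309a4f9f450d52174932174 = true := by decide +kernel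

end Vale.Agent.helper4.Q4
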