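import Vale.Agent.helper4.Q4TreeM
import Vale.Agent.helper4.Q4G.PB21_9

/-!
Checks for pairs of intervals of second moments.
-/

set_option maxRecDepth 100000
set_option linter.unusedVariables false

namespace Vale.Agent.helper4.Q4

theorem cB21_9_3_82 : chunkOkM (LB21_9.ctx true true 398 780263 262144 11 16 130543 65025 64 128) muQ true true 64 RtB21_9.Cx.right.right.right RtB21_9.CX RtB21_9.Ctp.right.right.right.left.right.right.right RtB21_9.Ce.right.right.right.left.right.right.right RtB21_9.CTp RtB21_9.CEr.right 0x494921215945f2d9376ce68c3c87f98c256cb5a9f620f1d3e359f51864e2d119f450d2d87b3376c22803269b96eb293380af62176e91ed9f2431e7f288f050d6197370d18fd6a0767b685c121fb9eb88b52710e9a8f622bdd74fd9f557c42590d9f460d54934932174217593444b47dab76cf4c06f17f9260ffaaf19f620c37791a9f517bd71df49f450d3be7f7176c355f2169baf9a38c78f61e5300ed39f5122dc94a39f450d645c35b576cef0dd457f910168b1a09f61bea239e59f51c673e57c9f450d34eab1a76c67233469b1c50754369f5a2298dc18f440d645ae844a7fd4e0b45b76cb0691369b7404f8a38f61e99b9add9f5fc3fe3358f460d5477493493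 = true := by decide +kernel

theorem cB21_9_3_83 : chunkOkM (LB21_9.ctx true true 373 98079 32768 21 32 16337 16303 256 128) muQ true true 64 RtB21_9.Cx RtB21_9.CX RtB21_9.Ctp.right.right.right.right RtB21_9.Ce.right.right.right.left RtB21_9.CTp RtB21_9.CEr 0x0101010148ab73d76ce82696e7f93d11b7ef09f61ef757bab9f51b07acefd9f450d2cac0f676cd74a72b129f615ca750da9f5f764e7a68f440d66940148788d576cf54420e7f913dc30d5a9f62046e1fdc9f512118150d9f450d46eaa8576c1627255539f61d7078ac99f5a54dc1938f440d637a95170d76c4859a74be4af111ff88d3687bf030d41d0dbd6bd9f05b64a4d4a87476cbef62f69bddd00a748f620dbeec449f512709a1589f450d3218cbb76c14487be79b829d7d3a8f62205312839f51101c1d989f450d684a542553311431143017114017017 = true := by decide +kernel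

theorem cB21_9_3_84 : chunkOkM (LB21_9.ctx true true 357 98079 32768 11 16 8177 16371 64 128) muQ true true 64 RtB21_9.Cx RtB21_9.CX RtB21_9.Ctp.right.right.right RtB21_9.Ce.right.right.right.right RtB21_9.CTp RtB21_9.CEr 0x21212101010101165555376c14f298d68f9c833bd5b89f45497623f873bf315a5e65898ebf250d4b41e8976cf368a527f91da498d469f619c21f596aaf5382c3e14aeaf48e33ff69b9f11d9d8ee119f070d498d5c076ce19a1417f9230426cc79f68f0a0979e9f5297cccfad6af4294e327f79f168fa83a419f070d4378091476c70d64b69b17671897c9f621efc1b605af541068dfa04af4bfbb333b49f160d64d6d8dad7fd5e8222e76c1107afb79b6af2c3aa8f6a5be6c16b9f5121f0689d0af43100d70549f170d523c677a4d9f05b316a7d876c22b8f4479b890d6b1f8f611829c62e1af582084b814faf45bd726e229f118884c001caf070d563333493217217217421744 = true := by decide +kernel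

theorem cB21_9_2_0 : chunkOkM (LB21_9.ctx false true 103 1 1 1 1 1 1 1 1) muQ false true 64 RtB21_9.Cx RtB21_9.CX RtB21_9.Ctn RtB21_9.Ce RtB21_9.CTp RtB21_9.CEr 0x49 = true := by decide +kernel

theorem cB21_9_1_0 : chunkOkM (LB21_9.ctx true false 103 1 1 1 1 1 1 1 1) muQ true false 64 RtB21_9.Cx RtB21_9.CX RtB21_9.Ctp RtB21_9.Ce RtB21_9.CTn RtB21_9.CEr 0x4a = true := by decide +kernel

theorem cB21_9_0_0 : chunkOkM (LB21_9.ctx false false 103 1 1 1 1 1 1 1 1) muQ false false 64 RtB21_9.Cx RtB21_9.CX RtB21_9.Ctn RtB21_9.Ce RtB21_9.CTn RtB21_9.CEr 0x49 = true := by decide +kernel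

end Vale.Agent.helper4.Q4
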