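import Vale.Agent.helper4.Q4TreeM
import Vale.Agent.helper4.Q4G.PB21_9_0
import Vale.Agent.helper4.Q4G.PB21_9_1
import Vale.Agent.helper4.Q4G.PB21_9_2
import Vale.Agent.helper4.Q4G.PB21_9_3
import Vale.Agent.helper4.Q4G.PB21_9_4
import Vale.Agent.helper4.Q4G.PB21_9_5

/-!
Checks for pairs of intervals of second moments.
-/

set_option maxRecDepth 100000
set_option linter.unusedVariables false

namespace Vale.Agent.helper4.Q4

theorem covB21_9 : LB21_9.Full muQ.val RtB21_9 := ⟨(LitT.Cov.split_t (LitT.cov_of_chunkM cB21_9_3_0) (LitT.Cov.split_e (LitT.cov_of_chunkM cB21_9_3_1) (LitT.Cov.split_t (LitT.cov_of_chunkM cB21_9_3_2) (LitT.Cov.split_t (LitT.cov_of_chunkM cB21_9_3_3) (LitT.Cov.split_e (LitT.cov_of_chunkM cB21_9_3_4) (LitT.Cov.split_e (LitT.Cov.split_t (LitT.Cov.split_e (LitT.cov_of_chunkM cB21_9_3_5) (LitT.Cov.split_e (LitT.cov_of_chunkM cB21_9_3_6)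 (LitT.Cov.split_t (LitT.Cov.split_t (LitT.cov_of_chunkM cB21_9_3_7) (LitT.Cov.split_e (LitT.cov_of_chunkM cB21_9_3_8) (LitT.Cov.split_x (LitT.Cov.split_x (LitT.Cov.split_e (LitT.Cov.split_T (LitT.cov_of_chunkM cB21_9_3_9) (LitT.Cov.split_E (LitT.cov_of_chunkM cB21_9_3_10) (LitT.Cov.split_t (LitT.cov_of_chunkM cB21_9_3_11) (LitT.Cov.split_e (LitT.cov_of_chunkM cB21_9_3_12) (LitT.Cov.split_x (LitT.Cov.split_t (LitT.cov_of_chunkM cB21_9_3_13) (LitT.cov_of_chunkM cB21_9_3_14)) (LitT.cov_of_chunkM cB21_9_3_15)))))) (LitT.Cov.split_T (LitT.cov_of_chunkM cB21_9_3_16) (LitT.Cov.split_E (LitT.cov_of_chunkM cB21_9_3_17) (LitT.Cov.split_t (LitT.cov_of_chunkM cB21_9_3_18) (LitT.Cov.split_x (LitT.cov_of_chunkM cB21_9_3_19) (LitT.cov_of_chunkM cB21_9_3_20)))))) (LitT.cov_of_chunkM cB21_9_3_21)) (LitT.cov_of_chunkM cB21_9_3_22)))) (LitT.cov_of_chunkM cB21_9_3_23))))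 (LitT.cov_of_chunkM cB21_9_3_24)) (LitT.Cov.split_e (LitT.Cov.split_t (LitT.Cov.split_e (LitT.Cov.split_t (LitT.cov_of_chunkM cB21_9_3_25) (LitT.Cov.split_x (LitT.Cov.split_t (LitT.Cov.split_e (LitT.Cov.split_x (LitT.Cov.split_e (LitT.Cov.split_x (LitT.cov_of_chunkM cB21_9_3_26) (LitT.Cov.split_t (LitT.Cov.split_T (LitT.cov_of_chunkM cB21_9_3_27) (LitT.Cov.split_E (LitT.cov_of_chunkM cB21_9_3_28) (LitT.Cov.split_e (LitT.cov_of_chunkM cB21_9_3_29) (LitT.cov_of_chunkM cB21_9_3_30)))) (LitT.cov_of_chunkM cB21_9_3_31))) (LitT.cov_of_chunkM cB21_9_3_32)) (LitT.Cov.split_e (LitT.cov_of_chunkM cB21_9_3_33) (LitT.Cov.split_T (LitT.cov_of_chunkM cB21_9_3_34) (LitT.Cov.split_E (LitT.cov_of_chunkM cB21_9_3_35) (LitT.Cov.split_t (LitT.Cov.split_x (LitT.Cov.split_e (LitT.cov_of_chunkM cB21_9_3_36) (LitT.cov_of_chunkM cB21_9_3_37)) (LitT.cov_of_chunkM cB21_9_3_38))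 (LitT.cov_of_chunkM cB21_9_3_39)))))) (LitT.Cov.split_x (LitT.cov_of_chunkM cB21_9_3_40) (LitT.Cov.split_E (LitT.cov_of_chunkM cB21_9_3_41) (LitT.Cov.split_e (LitT.Cov.split_t (LitT.cov_of_chunkM cB21_9_3_42) (LitT.Cov.split_x (LitT.cov_of_chunkM cB21_9_3_43) (LitT.Cov.split_e (LitT.cov_of_chunkM cB21_9_3_44) (LitT.Cov.split_T (LitT.cov_of_chunkM cB21_9_3_45) (LitT.cov_of_chunkM cB21_9_3_46))))) (LitT.cov_of_chunkM cB21_9_3_47))))) (LitT.cov_of_chunkM cB21_9_3_48)) (LitT.Cov.split_e (LitT.cov_of_chunkM cB21_9_3_49) (LitT.Cov.split_t (LitT.Cov.split_t (LitT.cov_of_chunkM cB21_9_3_50) (LitT.Cov.split_t (LitT.cov_of_chunkM cB21_9_3_51) (LitT.Cov.split_t (LitT.cov_of_chunkM cB21_9_3_52) (LitT.Cov.split_e (LitT.cov_of_chunkM cB21_9_3_53) (LitT.Cov.split_x (LitT.Cov.split_x (LitT.Cov.split_x (LitT.Cov.split_x (LitT.Cov.split_T (LitT.cov_of_chunkM cB21_9_3_54)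 (LitT.cov_of_chunkM cB21_9_3_55)) (LitT.cov_of_chunkM cB21_9_3_56)) (LitT.cov_of_chunkM cB21_9_3_57)) (LitT.cov_of_chunkM cB21_9_3_58)) (LitT.cov_of_chunkM cB21_9_3_59)))))) (LitT.cov_of_chunkM cB21_9_3_60))))) (LitT.Cov.split_x (LitT.cov_of_chunkM cB21_9_3_61) (LitT.Cov.split_t (LitT.cov_of_chunkM cB21_9_3_62) (LitT.Cov.split_e (LitT.Cov.split_t (LitT.cov_of_chunkM cB21_9_3_63) (LitT.Cov.split_x (LitT.Cov.split_e (LitT.Cov.split_T (LitT.cov_of_chunkM cB21_9_3_64) (LitT.Cov.split_E (LitT.cov_of_chunkM cB21_9_3_65) (LitT.Cov.split_t (LitT.Cov.split_x (LitT.cov_of_chunkM cB21_9_3_66) (LitT.cov_of_chunkM cB21_9_3_67)) (LitT.cov_of_chunkM cB21_9_3_68)))) (LitT.Cov.split_x (LitT.cov_of_chunkM cB21_9_3_69) (LitT.Cov.split_E (LitT.cov_of_chunkM cB21_9_3_70) (LitT.Cov.split_t (LitT.cov_of_chunkM cB21_9_3_71) (LitT.cov_of_chunkM cB21_9_3_72))))) (LitT.cov_of_chunkM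 cB21_9_3_73))) (LitT.Cov.split_x (LitT.cov_of_chunkM cB21_9_3_74) (LitT.Cov.split_t (LitT.cov_of_chunkM cB21_9_3_75) (LitT.Cov.split_t (LitT.cov_of_chunkM cB21_9_3_76) (LitT.Cov.split_e (LitT.Cov.split_T (LitT.cov_of_chunkM cB21_9_3_77) (LitT.Cov.split_E (LitT.cov_of_chunkM cB21_9_3_78) (LitT.cov_of_chunkM cB21_9_3_79))) (LitT.Cov.split_E (LitT.cov_of_chunkM cB21_9_3_80) (LitT.Cov.split_x (LitT.cov_of_chunkM cB21_9_3_81) (LitT.cov_of_chunkM cB21_9_3_82))))))))))) (LitT.cov_of_chunkM cB21_9_3_83)) (LitT.cov_of_chunkM cB21_9_3_84)))))))), (LitT.cov_of_chunkM cB21_9_1_0), (LitT.cov_of_chunkM cB21_9_2_0), (LitT.cov_of_chunkM cB21_9_0_0)⟩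

end Vale.Agent.helper4.Q4
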