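import Vale.Agent.helper4.Q4TreeM
import Vale.Agent.helper4.Q4G.PA22_18

/-!
Checks for pairs of intervals of second moments.
-/

set_option maxRecDepth 100000
set_option linter.unusedVariables false

namespace Vale.Agent.helper4.Q4

theorem cA22_18_3_0 : chunkOkM (LA22_18.ctx true true 87 1 1 1 1 1 1 1 1) muQ true true 64 RtA22_18.Cx RtA22_18.CX RtA22_18.Ctp RtA22_18.Ce RtA22_18.CTp.left RtA22_18.CEr 0x42 = true := by decide +kernel

theorem cA22_18_3_1 : chunkOkM (LA22_18.ctx true true 87 1 1 1 1 1 1 1 1) muQ true true 64 RtA22_18.Cx RtA22_18.CX RtA22_18.Ctp RtA22_18.Ce RtA22_18.CTp.right RtA22_18.CEr.left 0x6a = true := by decide +kernel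

theorem cA22_18_3_2 : chunkOkM (LA22_18.ctx true true 87 1 1 1 1 1 1 1 1) muQ true true 64 RtA22_18.Cx RtA22_18.CX RtA22_18.Ctp RtA22_18.Ce RtA22_18.CTp.right.left RtA22_18.CEr.right 0x42 = true := by decide +kernel

theorem cA22_18_3_3 : chunkOkM (LA22_18.ctx true true 87 1 1 1 1 1 1 1 1) muQ true true 64 RtA22_18.Cx RtA22_18.CX RtA22_18.Ctp RtA22_18.Ce RtA22_18.CTp.right.right.left RtA22_18.CEr.right 0x4a = true := by decide +kernel

theorem cA22_18_3_4 : chunkOkM (LA22_18.ctx true true 87 1 1 1 1 1 1 1 1) muQ true true 64 RtA22_18.Cx RtA22_18.CX RtA22_18.Ctp RtA22_18.Ce RtA22_18.CTp.right.right.right RtA22_18.CEr.right.left 0x12 = true := by decide +kernel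

theorem cA22_18_3_5 : chunkOkM (LA22_18.ctx true true 87 1 1 1 1 1 1 1 1) muQ true true 64 RtA22_18.Cx RtA22_18.CX RtA22_18.Ctp.left RtA22_18.Ce RtA22_18.CTp.right.right.right RtA22_18.CEr.right.right 0x41 = true := by decide +kernel

theorem cA22_18_3_6 : chunkOkM (LA22_18.ctx true true 87 1 1 1 1 1 1 1 1) muQ true true 64 RtA22_18.Cx RtA22_18.CX RtA22_18.Ctp.right.left RtA22_18.Ce RtA22_18.CTp.right.right.right RtA22_18.CEr.right.right 0x41 = true := by decide +kernel

theorem cA22_18_3_7 : chunkOkM (LA22_18.ctx true true 87 1 1 1 1 1 1 1 1) muQ true true 64 RtA22_18.Cx RtA22_18.CX RtA22_18.Ctp.right.right RtA22_18.Ce.left RtA22_18.CTp.right.right.right RtA22_18.CEr.right.right 0x11 = true := by decide +kernel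

theorem cA22_18_3_8 : chunkOkM (LA22_18.ctx true true 87 1 1 1 1 1 1 1 1) muQ true true 64 RtA22_18.Cx RtA22_18.CX RtA22_18.Ctp.right.right.left RtA22_18.Ce.right RtA22_18.CTp.right.right.right RtA22_18.CEr.right.right 0x49 = true := by decide +kernel

theorem cA22_18_3_9 : chunkOkM (LA22_18.ctx true true 87 1 1 1 1 1 1 1 1) muQ true true 64 RtA22_18.Cx RtA22_18.CX RtA22_18.Ctp.right.right.right RtA22_18.Ce.right.left RtA22_18.CTp.right.right.right RtA22_18.CEr.right.right 0x11 = true := by decide +kernel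

theorem cA22_18_3_10 : chunkOkM (LA22_18.ctx true true 245 21 8 2949 2048 30 100 45 119) muQ true true 64 RtA22_18.Cx RtA22_18.CX RtA22_18.Ctp.right.right.right RtA22_18.Ce.right.right.left.left RtA22_18.CTp.right.right.right RtA22_18.CEr.right.right 0x1fcb9b77dd1df6b6b76b179c4a57d8343527e48e43861153689c150d = true := by decide +kernel

theorem cA22_18_3_11 : chunkOkM (LA22_18.ctx true true 294 161 64 2949 2048 462 852 87 459) muQ true true 64 RtA22_18.Cx RtA22_18.CX RtA22_18.Ctp.right.right.right.left.left RtA22_18.Ce.right.right.left.right.left RtA22_18.CTp.right.right.right RtA22_18.CEr.right.right 0x49494959c2551807cd218d603182c3818430c85bee0bf4d7c820e51acf8c7c08c08d7d660d4cc2e26f7cd4043c04782c45802cc76b1a1997b08c824e4f6688c7c996aa37d6c38e466c170d69441218375a4f8cd73016c66b6d020727c84673556d69642b5e4f5da4917c160d51266493493777 = true := by decide +kernel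

theorem cA22_18_3_12 : chunkOkM (LA22_18.ctx true true 87 1 1 1 1 1 1 1 1) muQ true true 64 RtA22_18.Cx.left RtA22_18.CX RtA22_18.Ctp.right.right.right.left.right RtA22_18.Ce.right.right.left.right.left.left RtA22_18.CTp.right.right.right RtA22_18.CEr.right.right 0x69 = true := by decide +kernel

theorem cA22_18_3_13 : chunkOkM (LA22_18.ctx true true 273 41 16 2949 2048 118 428 87 459) muQ true true 64 RtA22_18.Cx.left RtA22_18.CX RtA22_18.Ctp.right.right.right.left.right RtA22_18.Ce.right.right.left.right.left.right RtA22_18.CTp.right.right.right RtA22_18.CEr.right.right.left 0x1215e8f2a38cd69b9d966b67e6e3a7c8da4ca017c6402bc46d41013d1978c160d5126 = true := by decide +kernel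

theorem cA22_18_3_14 : chunkOkM (LA22_18.ctx true true 314 83 32 24523 16384 470 860 93 4097) muQ true true 64 RtA22_18.Cx.left RtA22_18.CX RtA22_18.Ctp.right.right.right.left.right RtA22_18.Ce.right.right.left.right.left.right RtA22_18.CTp.right.right.right RtA22_18.CEr.right.right.right 0xa7d59c77cd358b5f6c8145fa55349c13d0780098d040d22222244f4f647dd612c4ea7c8b0391c6d7622da867c6d6f83cb7c150d4a5666228228228b1ca6207cd8193b166b5c9ebc97c834f718d58e43b120c9fc9c150dfbfd6567cd1ad1d7873c64236466be76c4337c8b2acd06d6e0f291b7c160d11d1b0d08cd147f492682c1049b24c85bab71e927c853118397c71ea61037d6ece856e7c170d5b0742d37cd447b556d977b28c07c87835026d6f0e97167c150d107e6ea48cd5703017f82c1b937e2885b22ea47c38c821a1ec27d6cb8ec8d7c160d53c43f21b7cd22d8fe376b20fae7f7c817b9f9f7d7331bd797d6171cded38c160ddac50d97cdfd584463c3c861a376b95ad8a67c826ca34cb8c72d2e53a7d6d270f327c170d34763 = true := by decide +kernel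

theorem cA22_18_3_15 : chunkOkM (LA22_18.ctx true true 87 1 1 1 1 1 1 1 1) muQ true true 64 RtA22_18.Cx.right RtA22_18.CX RtA22_18.Ctp.right.right.right.left.right RtA22_18.Ce.right.right.left.right.left RtA22_18.CTp.right.right.right RtA22_18.CEr.right.right 0x11 = true := by decide +kernel

theorem cA22_18_3_16 : chunkOkM (LA22_18.ctx true true 256 21 8 2949 2048 114 220 45 119) muQ true true 64 RtA22_18.Cx RtA22_18.CX RtA22_18.Ctp.right.right.right.left.left RtA22_18.Ce.right.right.left.right.right RtA22_18.CTp.right.right.right RtA22_18.CEr.right.right 0x1337991c8cd2820b0376ba6caad37c84558192d8d51abc2096a9d450d = true := by decide +kernel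

theorem cA22_18_3_17 : chunkOkM (LA22_18.ctx true true 282 85 32 2949 2048 238 444 87 459) muQ true true 64 RtA22_18.Cx RtA22_18.CX RtA22_18.Ctp.right.right.right.left.right RtA22_18.Ce.right.right.left.right.right RtA22_18.CTp.right.right.right RtA22_18.CEr.right.right.left 0x1249115292de8cd4022be66b611eca67c8111ed857d61686bb6e4106597178c160d1144937144439568cd52f3aa66b69582077c8cdb91f6d6efb34b07c150ddbf2a947cdaa27d56b39863b57c812ed83458c6d035adb7d450d321715e85c7e8cd6cb73d66b68d91a27c8c864776d61032ce2a8c150d18983da08cd6df82b66b67e51187c8bb9ba76d615b500b7d4fd2205d7c160db636e397cd7194656b422b1e17c8ad8f3877c6eb4b9787c150d73475126 = true := by decide +kernel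

theorem cA22_18_3_18 : chunkOkM (LA22_18.ctx true true 319 165 64 24523 16384 470 876 93 4097) muQ true true 64 RtA22_18.Cx.left RtA22_18.CX RtA22_18.Ctp.right.right.right.left.right.left RtA22_18.Ce.right.right.left.right.right.left RtA22_18.CTp.right.right.right RtA22_18.CEr.right.right.right 0x22222231863e67dd53be4407c81e708587c760af77b7c67a08246d4ef9c1847c160d4a5228228228666151f795e8cde9d1f56b71a679d7c810ae6657d6587b6b6d4e9e87f77c160d118581d48cd4736bc0582c26a2ed3785b1dc360f78c8b26a8627c71e61d6e7d6a37a336d4d75c0267c180d569d376efd7cdaa782d63c312f5f076b7deb6a27c8200e8be48c7577374e7d6a64f0637c170d74493cb84d3f7cd1b96a3d685b2448afb7c814a62e098c718795c368c68fd1d247c160dd95e90d7cdbbd4b5d94bf61167c8585fb66d6ed45d357c150d10190c748cd5786bd0682c1c9b183985b23181aae8c8249a5a47d6d7f4d277c160d5476 = true := by decide +kernel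

theorem cA22_18_3_19 : chunkOkM (LA22_18.ctx true true 304 327 128 2949 2048 946 876 93 527) muQ true true 64 RtA22_18.Cx.left RtA22_18.CX RtA22_18.Ctp.right.right.right.left.right.right RtA22_18.Ce.right.right.left.right.right.left RtA22_18.CTp.right.right.right RtA22_18.CEr.right.right.right 0x69fdf4a8f7cdb8b69cda85b7a4d4968a10b8229fe9c9459503348c83b8df697d6f3bbe087c170d135acce38cd104beb66b34363987c84eea235f8c124b4edda8d050dbeb9d887cd6a1c2b17c82fd82a6c79418586d6e869dff7c150d11f323dd8cd151b65bc82c202b4c7f85bb42a58f7c8110131f08c73da8ac87d6f50243c7c170d53671140101140564658cdab072adf85b1814d768af53c895e8c93fb4f4308c8ad68ef6d6f4040117c170de27c54c7cd38036ce285b2f98ffd7c827b3562c8c73865b417d68686ac6d2e22e9697c170ddbaaf127cd2cef6e9a82c17337af76b13f525a08c8601aaa47c7310655e7d6ce301377c170d46017017337 = true := by decide +kernel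

theorem cA22_18_3_20 : chunkOkM (LA22_18.ctx true true 319 167 64 24523 16384 478 892 93 4097) muQ true true 64 RtA22_18.Cx.left RtA22_18.CX RtA22_18.Ctp.right.right.right.left.right RtA22_18.Ce.right.right.left.right.right.right RtA22_18.CTp.right.right.right RtA22_18.CEr.right.right.right 0x2222224e64bc77dd27a0f8ed86b9507a047c81c49088bd9c710474a6d6e1c574b7c160d4a5228228228666ddc92667cd613446b57fc18c7c84c63716d6eacdc117c150d11e9a38f8cd4c7926bf82c274c4b6085b1f915e898c8acd16667c7224e48a7d6dae28ea7c170d5217e129e287cd66bb2db7c81388376c785d2036d6fcbc4fe7c150d12ca9f1e8cd25c0b5e182cdfe84466b10ee2ba18c81d0bd3e7d61062bb918c160d5f2d5be97cd515226976b58f59a17c8398b93628c794a1286d6f053cd07c160d11eed3ab8cd49664fff82c2835e2aa85b1e85bd3b8c8bd8eb867c724977487d6dc96eb87c170d5346f1682447cd2aea43e382c357a84c76b12216b7d8c81c61b0258c74486c5f98c6ca5f6567d470d3217 = true := by decide +kernel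

theorem cA22_18_3_21 : chunkOkM (LA22_18.ctx true true 341 673 256 24523 16384 1902 1788 93 4097) muQ true true 64 RtA22_18.Cx.right RtA22_18.CX RtA22_18.Ctp.right.right.right.left.right RtA22_18.Ce.right.right.left.right.right RtA22_18.CTp.right.right.right RtA22_18.CEr.right.right.right 0x492222221eb92747dd5bd0f4476b61106b67c84138cdb7d78a202ee7c69050246d4ee477887c170d4a566622822822869ddd71697cd27e52c276b59a3c167c81bea1c3a8c72d8a2497d6cf8fd86d160d10d3634d8cd1cabeb4f82ca83987575becbb4637c86ba75357d6c5bdabd7c160d56947494949c73df587cd1404bed085b59155d17c8e90a05d7c761c4c5e684e875e4f191fc6d170d106d81e18cd6c1dff5e82c261b874785b2c05d8328c82cd87af7c7369f9df7d6ab050da7c170d54934137773a20e12f7cd472dc966b558b4f77c8364107998e43b641ab179c150d461144937 = true := by decide +kernel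

theorem cA22_18_3_22 : chunkOkM (LA22_18.ctx true true 249 21 8 2949 2048 62 108 45 119) muQ true true 64 RtA22_18.Cx RtA22_18.CX RtA22_18.Ctp.right.right.right.right RtA22_18.Ce.right.right.left.right RtA22_18.CTp.right.right.right RtA22_18.CEr.right.right 0x17e954ac8cd60a085d81917d697d76c00d22489c11788f32dd9d050d = true := by decide +kernel

theorem cA22_18_3_23 : chunkOkM (LA22_18.ctx true true 285 85 32 2949 2048 238 908 87 459) muQ true true 64 RtA22_18.Cx RtA22_18.CX RtA22_18.Ctp.right.right.right.left RtA22_18.Ce.right.right.right.left.left RtA22_18.CTp.right.right.right RtA22_18.CEr.right.right.left 0x12495913a66da58cd2f50c866b6a055f57c817da49e7d6fb7b4c6d4d9a0b357c160dff5a54a7cd36656966b64d6d0d7c816bbec97d6d1fdfd6d4f4611607c160d449347217ca61f5f04b35126 = true := by decide +kernel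

theorem cA22_18_3_24 : chunkOkM (LA22_18.ctx true true 258 21 8 2949 2048 114 228 45 255) muQ true true 64 RtA22_18.Cx RtA22_18.CX RtA22_18.Ctp.right.right.right.left.left RtA22_18.Ce.right.right.right.left.left RtA22_18.CTp.right.right.right RtA22_18.CEr.right.right.right 0x17dc697d8cd45eef06d7616c547d8d418f6d7988d240d = true := by decide +kernel

end Vale.Agent.helper4.Q4
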