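import Vale.Agent.helper4.Q4TreeM
import Vale.Agent.helper4.Q4G.PA22_18

/-!
Checks for pairs of intervals of second moments.
-/

set_option maxRecDepth 100000
set_option linter.unusedVariables false

namespace Vale.Agent.helper4.Q4

theorem cA22_18_3_38 : chunkOkM (LA22_18.ctx true true 332 351 128 24523 16384 982 1876 93 4097) muQ true true 64 RtA22_18.Cx.right.right RtA22_18.CX RtA22_18.Ctp.right.right.right.right.left.right RtA22_18.Ce.right.right.right.left.right.left RtA22_18.CTp.right.right.right RtA22_18.CEr.right.right.right 0x01222222299e1477dd11127e2186b647911e7c8c1b673198c7214f616d6ef668f77c160d4a522822822866621edcb44f7cd508a054a82c1a269c176b247803d88c8d9ee666d6f3d7406d160d170f7bff8cdb54f9ef182c3b0772c385b4844dc078c82b9ba1b7d6f13e8947c160d122efe968cd273e27c382ccbd476e75b13d293b38c8345d7117d6e2d96f07c160d654217fd5a92e7cd319ce66d997485597c82b8f466d6f4124e4f37f2d47c160d214921f18cd84b68aa7c8246149608d28010b5ab8c140d11f709828cd73ead52d82c6cb5912f85b2fa1c9ac8c83216b3f08c7393b1267d6111e8b8e8c170deabd4db7cd24ed0bd882cbc3396075b127b43d38c86f750107d6e018ea47c160d6312187f1a8cd4f97cdfc82c1f1efb376b21ca61218c8404bdd57c741e39d17d610588aed8c170d45460173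 = true := by decide +kernel

theorem cA22_18_3_39 : chunkOkM (LA22_18.ctx true true 87 1 1 1 1 1 1 1 1) muQ true true 64 RtA22_18.Cx.right RtA22_18.CX RtA22_18.Ctp.right.right.right.right.left RtA22_18.Ce.right.right.right.left.right.right RtA22_18.CTp.right.right.right RtA22_18.CEr.right.right 0x21 = true := by decide +kernel

theorem cA22_18_3_40 : chunkOkM (LA22_18.ctx true true 87 1 1 1 1 1 1 1 1) muQ true true 64 RtA22_18.Cx RtA22_18.CX RtA22_18.Ctp.right.right.right.right.right RtA22_18.Ce.right.right.right.left RtA22_18.CTp.right.right.right RtA22_18.CEr.right.right 0x01 = true := by decide +kernel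

theorem cA22_18_3_41 : chunkOkM (LA22_18.ctx true true 87 1 1 1 1 1 1 1 1) muQ true true 64 RtA22_18.Cx RtA22_18.CX RtA22_18.Ctp.right.right.right RtA22_18.Ce.right.right.right.right RtA22_18.CTp.right.right.right RtA22_18.CEr.right.right 0x21 = true := by decide +kernel

theorem cA22_18_2_0 : chunkOkM (LA22_18.ctx false true 87 1 1 1 1 1 1 1 1) muQ false true 64 RtA22_18.Cx RtA22_18.CX RtA22_18.Ctn RtA22_18.Ce RtA22_18.CTp RtA22_18.CEr 0x49 = true := by decide +kernel

theorem cA22_18_1_0 : chunkOkM (LA22_18.ctx true false 87 1 1 1 1 1 1 1 1) muQ true false 64 RtA22_18.Cx RtA22_18.CX RtA22_18.Ctp RtA22_18.Ce RtA22_18.CTn RtA22_18.CEr 0x4a = true := by decide +kernel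

theorem cA22_18_0_0 : chunkOkM (LA22_18.ctx false false 87 1 1 1 1 1 1 1 1) muQ false false 64 RtA22_18.Cx RtA22_18.CX RtA22_18.Ctn RtA22_18.Ce RtA22_18.CTn RtA22_18.CEr 0x49 = true := by decide +kernel

end Vale.Agent.helper4.Q4
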