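import Vale.Agent.helper4.Q4TreeM
import Vale.Agent.helper4.Q4G.PA23_15

/-!
Checks for pairs of intervals of second moments.
-/

set_option maxRecDepth 100000
set_option linter.unusedVariables false

namespace Vale.Agent.helper4.Q4

theorem cA23_15_3_0 : chunkOkM (LA23_15.ctx true true 77 1 1 1 1 1 1 1 1) muQ true true 64 RtA23_15.Cx RtA23_15.CX RtA23_15.Ctp.left RtA23_15.Ce RtA23_15.CTp RtA23_15.CEr 0x41 = true := by decide +kernel

theorem cA23_15_3_1 : chunkOkM (LA23_15.ctx true true 77 1 1 1 1 1 1 1 1) muQ true true 64 RtA23_15.Cx RtA23_15.CX RtA23_15.Ctp.right RtA23_15.Ce.left RtA23_15.CTp RtA23_15.CEr 0x69 = true := by decide +kernel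

theorem cA23_15_3_2 : chunkOkM (LA23_15.ctx true true 77 1 1 1 1 1 1 1 1) muQ true true 64 RtA23_15.Cx RtA23_15.CX RtA23_15.Ctp.right.left RtA23_15.Ce.right RtA23_15.CTp RtA23_15.CEr 0x41 = true := by decide +kernel

theorem cA23_15_3_3 : chunkOkM (LA23_15.ctx true true 77 1 1 1 1 1 1 1 1) muQ true true 64 RtA23_15.Cx RtA23_15.CX RtA23_15.Ctp.right.right.left RtA23_15.Ce.right RtA23_15.CTp RtA23_15.CEr 0x49 = true := by decide +kernel

theorem cA23_15_3_4 : chunkOkM (LA23_15.ctx true true 77 1 1 1 1 1 1 1 1) muQ true true 64 RtA23_15.Cx RtA23_15.CX RtA23_15.Ctp.right.right.right RtA23_15.Ce.right.left RtA23_15.CTp RtA23_15.CEr 0x11 = true := by decide +kernel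

theorem cA23_15_3_5 : chunkOkM (LA23_15.ctx true true 77 1 1 1 1 1 1 1 1) muQ true true 64 RtA23_15.Cx RtA23_15.CX RtA23_15.Ctp.right.right.right RtA23_15.Ce.right.right RtA23_15.CTp.left RtA23_15.CEr 0x4a = true := by decide +kernel

theorem cA23_15_3_6 : chunkOkM (LA23_15.ctx true true 77 1 1 1 1 1 1 1 1) muQ true true 64 RtA23_15.Cx RtA23_15.CX RtA23_15.Ctp.right.right.right RtA23_15.Ce.right.right.left.left RtA23_15.CTp.right RtA23_15.CEr 0x11 = true := by decide +kernel

theorem cA23_15_3_7 : chunkOkM (LA23_15.ctx true true 77 1 1 1 1 1 1 1 1) muQ true true 64 RtA23_15.Cx RtA23_15.CX RtA23_15.Ctp.right.right.right.left RtA23_15.Ce.right.right.left.right.left RtA23_15.CTp.right RtA23_15.CEr 0x69 = true := by decide +kernel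

theorem cA23_15_3_8 : chunkOkM (LA23_15.ctx true true 249 5889 2048 7 8 493 935 16 32) muQ true true 64 RtA23_15.Cx RtA23_15.CX RtA23_15.Ctp.right.right.right.left RtA23_15.Ce.right.right.left.right.right RtA23_15.CTp.right RtA23_15.CEr.left 0x1400d651e94bdbdc368cd9a84f432e6a61fc79d77a14090366b050d = true := by decide +kernel

theorem cA23_15_3_9 : chunkOkM (LA23_15.ctx true true 313 91397 32768 13 16 7905 7599 64 128) muQ true true 64 RtA23_15.Cx RtA23_15.CX RtA23_15.Ctp.right.right.right.left RtA23_15.Ce.right.right.left.right.right RtA23_15.CTp.right.left RtA23_15.CEr.right 0x60078e77add28131370c3e3117173bae1ecd7796489f32a7a53ce670a7a1250126c7a070d1111111111111d9c58ec89d18eec2b7a815559c87b6304f56c7a1737abc6b050d1d7db33b89d56a919272b150fc2e7b68d92966b238930097a150d57114301771143711434949269d7e87adb8b8fd6a855a55ca7a623b3abe7a14da5b4b7a050d4f02ea77ada7c4886a68aec0f6b23bcad937a140d6148203e7ad1517c3a7a819445d4d49b41ac604f3e9a140d4422eba0ad7ad1775f1370c35f5e8f7a683bfdce7a234fc46e289150d854937736 = true := by decide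 +kernel

theorem cA23_15_3_10 : chunkOkM (LA23_15.ctx true true 77 1 1 1 1 1 1 1 1) muQ true true 64 RtA23_15.Cx.left.left RtA23_15.CX RtA23_15.Ctp.right.right.right.left.left.left RtA23_15.Ce.right.right.left.right.right RtA23_15.CTp.right.right RtA23_15.CEr.right 0x49 = true := by decide +kernel

theorem cA23_15_3_11 : chunkOkM (LA23_15.ctx true true 275 22785 8192 7 8 1955 1853 35 33) muQ true true 64 RtA23_15.Cx.left.left RtA23_15.CX RtA23_15.Ctp.right.right.right.left.left.right RtA23_15.Ce.right.right.left.right.right.left RtA23_15.CTp.right.right RtA23_15.CEr.right 0x17ce58c7ad2a32e7e7a82715952a69b42902437789a140d = true := by decide +kernel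

theorem cA23_15_3_12 : chunkOkM (LA23_15.ctx true true 294 22785 8192 13 16 3927 1887 65 256) muQ true true 64 RtA23_15.Cx.left.left RtA23_15.CX RtA23_15.Ctp.right.right.right.left.left.right RtA23_15.Ce.right.right.left.right.right.right RtA23_15.CTp.right.right RtA23_15.CEr.right.left 0x6a021bba19b7ad8f20386a9126bf567a86a16e56a716661f17a692b190b7a23c24e997a170dce54cb6ad18333997a91bf96d37a8a64be337a61dc8b9fa89150d36a651268 = true := by decide +kernel

theorem cA23_15_3_13 : chunkOkM (LA23_15.ctx true true 358 5767425 2097152 7 8 125103 29971 75 77) muQ true true 64 RtA23_15.Cx.left.left RtA23_15.CX RtA23_15.Ctp.right.right.right.left.left.right.left RtA23_15.Ce.right.right.left.right.right.right RtA23_15.CTp.right.right RtA23_15.CEr.right.right 0x494949494949494921215115eb3e9689deec6501798f5c6db279714c0bad7c640d1e97f34e89da05c1b2798e8db4b679714be7367c640d569444413413413413413477777777 = true := by decide +kernel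

theorem cA23_15_3_14 : chunkOkM (LA23_15.ctx true true 307 45313 16384 7 8 7871 7531 135 165) muQ true true 64 RtA23_15.Cx.left.left RtA23_15.CX RtA23_15.Ctp.right.right.right.left.left.right.right RtA23_15.Ce.right.right.left.right.right.right RtA23_15.CTp.right.right.left RtA23_15.CEr.right.right 0x3286925789dfae6ec6a6a5222a87a238bd40dd89140d2770cf77adc1f92e6a8c155336a74917cc57a624d51007a1528f01b7a060d21f25a3c89d11da8e09898df16bb6a75a63b447a6d3bf92079150d31f040cbb89d7a075ce79849b39bb7a628ef51388914bb4d6d7a050d56925039a47ad90ef286a8cc99936a75d1942b7a6288327f7a1533e5577a060d26e72e4789d4ce2dc6a97adb26d7a62cc8c0f7a152f28517a050d511424385a6b89da600f3e798d256986a772be4b6b622edc427a14a2dc8c7a060d1d9090c7add0fc736a8d927366a7a7535c07a679999407a2399c5457a160d431e0f00989d1b55c86a9148a6307a622854af7a154ae5e27a050d53746 = true := by decide +kernel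

theorem cA23_15_3_15 : chunkOkM (LA23_15.ctx true true 305 45313 16384 15 16 3927 3791 145 165) muQ true true 64 RtA23_15.Cx.left.left RtA23_15.CX RtA23_15.Ctp.right.right.right.left.left.right.right RtA23_15.Ce.right.right.left.right.right.right RtA23_15.CTp.right.right.right RtA23_15.CEr.right.right 0x021e51ca9389de56ea88798d549aa6a740582627a61e915cee8914ca991a7a060d2bcaa80489dcdf2cc6a87d07ec6a72d54d107a6225317a7a1521d21b7a060d6691bcdd427adc912912798c2934c6a74666d507a622835bb7a14a116497a060d2ae16a67ad1b2e2207a91e08e3a7a858748f6a69f31ac47a2379be667a160d6740285 = true := by decide +kernel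

theorem cA23_15_3_16 : chunkOkM (LA23_15.ctx true true 77 1 1 1 1 1 1 1 1) muQ true true 64 RtA23_15.Cx.left.right RtA23_15.CX RtA23_15.Ctp.right.right.right.left.left RtA23_15.Ce.right.right.left.right.right RtA23_15.CTp.right.right RtA23_15.CEr.right 0x49 = true := by decide +kernel

theorem cA23_15_3_17 : chunkOkM (LA23_15.ctx true true 77 1 1 1 1 1 1 1 1) muQ true true 64 RtA23_15.Cx.right RtA23_15.CX RtA23_15.Ctp.right.right.right.left.left RtA23_15.Ce.right.right.left.right.right RtA23_15.CTp.right.right RtA23_15.CEr.right 0x49 = true := by decide +kernel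

theorem cA23_15_3_18 : chunkOkM (LA23_15.ctx true true 318 91397 32768 15 16 7905 7599 145 165) muQ true true 64 RtA23_15.Cx RtA23_15.CX RtA23_15.Ctp.right.right.right.left.right RtA23_15.Ce.right.right.left.right.right RtA23_15.CTp.right.right RtA23_15.CEr.right 0x110111011111021919ddba89d220a5f67a91e94b07b898179360e7b6a7cfa86b238c74907a160d028521e21ab289d81459e6798e7da5d87a621415047a1475044e7a050d24e401f7ad1a486d67a91873eff9898514ac86b6acb7016b23ad7aab7a160d6525978c6889d140bd337a86149ba6a73198de6b6a112446b23ec848b7a160d6711430171143711437 = true := by decide +kernel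

theorem cA23_15_3_19 : chunkOkM (LA23_15.ctx true true 77 1 1 1 1 1 1 1 1) muQ true true 64 RtA23_15.Cx RtA23_15.CX RtA23_15.Ctp.right.right.right.right RtA23_15.Ce.right.right.left.right RtA23_15.CTp.right RtA23_15.CEr 0x11 = true := by decide +kernel

theorem cA23_15_3_20 : chunkOkM (LA23_15.ctx true true 246 5889 2048 7 8 493 493 16 32) muQ true true 64 RtA23_15.Cx RtA23_15.CX RtA23_15.Ctp.right.right.right.left RtA23_15.Ce.right.right.right.left RtA23_15.CTp.right RtA23_15.CEr.left 0xee7b860284ba4169efd99a81b44e807a619ed6eb7a16350856b050d = true := by decide +kernel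

theorem cA23_15_3_21 : chunkOkM (LA23_15.ctx true true 262 5889 2048 7 8 969 493 32 64) muQ true true 64 RtA23_15.Cx RtA23_15.CX RtA23_15.Ctp.right.right.right.left.left RtA23_15.Ce.right.right.right.left RtA23_15.CTp.right.left RtA23_15.CEr.right.left 0xb43dabe7ad1afde227a85a63b75079a66f8fc95594aa52f6a07152fab450d = true := by decide +kernel

theorem cA23_15_3_22 : chunkOkM (LA23_15.ctx true true 287 12035 4096 13 16 2023 1955 128 128) muQ true true 64 RtA23_15.Cx RtA23_15.CX RtA23_15.Ctp.right.right.right.left.right RtA23_15.Ce.right.right.right.left.left RtA23_15.CTp.right.left RtA23_15.CEr.right.left 0x26fec6e7ad26681277a8dd3f5427a6718b306b24919a8f7a150d01768a14f27ad105abd17a8138e3f87a6a366a4f7a55a99b4f7a13069f76a060d4c967777ad49c73bb70ccd07dc63b261f8597a685978e27a55229147989160d56934fd4a47ad11ae7ae7a82da3f937a61f229d57a157d478d7a050d74fd066d37ad96d2446a67db37ce7a54f668cb7a118242857a050d634241f915b7ada228f860c11802fe73b2588a088896b145a187a55fe8c0e28915199b86a070d85 = true := by decide +kernel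

theorem cA23_15_3_23 : chunkOkM (LA23_15.ctx true true 289 24327 8192 13 16 2023 2023 64 128) muQ true true 64 RtA23_15.Cx RtA23_15.CX RtA23_15.Ctp.right.right.right.left.right RtA23_15.Ce.right.right.right.left.right RtA23_15.CTp.right.left RtA23_15.CEr.right.left 0x3a93a457ad1d36e057a884213527a66c03f96b4190a2857a15b68fa87a060d21742bab387ad8a6b1e6a83d447ef7a6216530b7a14d43bb77a050defe23c47ad2346cb170c1d21a907a13d41aa6b040d6214532b7ad68cc06608a6f9eb64d28a57572ba6c8b440d34425811cb47ad53a25f60c377d8c17a6d08cac37a540cf0cb7b4578e3637891fd47b027a070d85217 = true := by decide +kernel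

theorem cA23_15_3_24 : chunkOkM (LA23_15.ctx true true 272 5889 2048 7 8 1003 1003 64 143) muQ true true 64 RtA23_15.Cx RtA23_15.CX RtA23_15.Ctp.right.right.right.left RtA23_15.Ce.right.right.right.left RtA23_15.CTp.right.left RtA23_15.CEr.right.right 0x5a6355afd7ad9b4c77270c37a5dc573b19d0bdc2896d465aff7a54092196b4671c076089170d7b4b8ac7ad4f318f570c14cf23373b1df64c3b8961877dc0089154e12087a060d42515a787ad2f7d3963b21554d9b20a96292f16d476aa51180e5e9351ba450d365a5 = true := by decide +kernel

theorem cA23_15_3_25 : chunkOkM (LA23_15.ctx true true 263 5889 2048 7 8 969 969 35 33) muQ true true 64 RtA23_15.Cx RtA23_15.CX RtA23_15.Ctp.right.right.right.left.left RtA23_15.Ce.right.right.right.left.left RtA23_15.CTp.right.right RtA23_15.CEr.right 0x85c8396ad1744bb07a921bdea67a875c8ad3cd9a690280c548daa53d48b8fef6ab460d = true := by decide +kernel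

theorem cA23_15_3_26 : chunkOkM (LA23_15.ctx true true 273 5889 2048 13 16 1003 969 65 256) muQ true true 64 RtA23_15.Cx RtA23_15.CX RtA23_15.Ctp.right.right.right.left.right RtA23_15.Ce.right.right.right.left.left RtA23_15.CTp.right.right RtA23_15.CEr.right.left 0x6a024ca74f17ad18a6aee7a8219ad26a7fe87a66a69397fa67a55ce3bb67a1116df147a070d6a651268 = true := by decide +kernel

theorem cA23_15_3_27 : chunkOkM (LA23_15.ctx true true 312 46341 16384 15 16 7939 3859 145 297) muQ true true 64 RtA23_15.Cx.left RtA23_15.CX RtA23_15.Ctp.right.right.right.left.right.left.left RtA23_15.Ce.right.right.right.left.left.left RtA23_15.CTp.right.right RtA23_15.CEr.right.right 0x02491d8fab8689d2111a087a920feec83898709e6ba7a6205d2047a14fe663a7a060d7217293d04e7adec560b6a8afd2eb6a72e488b47a61e7aa12c89158aab7f7a060d576ca857adb0f81f6a8b2d8a46a717f11e6a6266916d7a1560f8627a060d6402852aaaae3289d4c77bdb79823c2ea37a61d9b013b891616423b7a050d274985a7ad647ac66a8be16ad6a77e308b57a66b91ede7a5546f17e7a160d21732b67567ad1554b017a9198c02b7a82aa60837a6d234a4d7a5749e89a7a160d2d3d37c7addd74346a86c2e626a726d5bc77a6241cdb158915995b287a060d42bc4357adc500386a8e25c966a716743f57a6b190b9e7a566185be7a160d632f5a7387ad508d85a8273ee537a628a6e13189152e3a337a050d5465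 = true := by decide +kernel

theorem cA23_15_3_28 : chunkOkM (LA23_15.ctx true true 305 92939 32768 7 8 7973 7735 75 77) muQ true true 64 RtA23_15.Cx.left RtA23_15.CX RtA23_15.Ctp.right.right.right.left.right.left.right RtA23_15.Ce.right.right.right.left.left.left RtA23_15.CTp.right.right RtA23_15.CEr.right.right 0x69011c25b63f89dea0545e798119e0317a719607917b628f82ae7a14bf7646b060d2038033a89ddd47c7f798f069596a7e44bd96b6284cb017a150cc4847a060d511401737114017 = true := by decide +kernel

theorem cA23_15_3_29 : chunkOkM (LA23_15.ctx true true 77 1 1 1 1 1 1 1 1) muQ true true 64 RtA23_15.Cx.right RtA23_15.CX RtA23_15.Ctp.right.right.right.left.right.left RtA23_15.Ce.right.right.right.left.left.left RtA23_15.CTp.right.right RtA23_15.CEr.right.right 0x69 = true := by decide +kernel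

end Vale.Agent.helper4.Q4
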