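import Vale.Agent.helper4.Q4TreeM
import Vale.Agent.helper4.Q4G.PA23_15

/-!
Checks for pairs of intervals of second moments.
-/

set_option maxRecDepth 100000
set_option linter.unusedVariables false

namespace Vale.Agent.helper4.Q4

theorem cA23_15_3_30 : chunkOkM (LA23_15.ctx true true 288 12035 4096 7 8 3995 1955 135 165) muQ true true 64 RtA23_15.Cx RtA23_15.CX RtA23_15.Ctp.right.right.right.left.right.left RtA23_15.Ce.right.right.right.left.left.right RtA23_15.CTp.right.right.left RtA23_15.CEr.right.right 0x42f9a8a389d78051760c1f802107a6ad8708a7a55cdd4a9689150d2f8fb6c7ade20f526a8fb798d6a741999197a62f2da5b7a228ac3dc7a160d32c6e8a7ad7633836a86ad8a86a72e0fce07a6cf6fe327a570fd438589160d74122cba7ad31b5476a81d31b447a623e2b0e7a52d81ace68913dbe87e7a060d5440470c7a81283542a8a6ed19fdff8a568adb56cb9a440d36 = true := by decide +kernel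

theorem cA23_15_3_31 : chunkOkM (LA23_15.ctx true true 294 5889 2048 15 16 3995 3927 145 341) muQ true true 64 RtA23_15.Cx RtA23_15.CX RtA23_15.Ctp.right.right.right.left.right.left RtA23_15.Ce.right.right.right.left.left.right RtA23_15.CTp.right.right.right RtA23_15.CEr.right.right 0x0260fb92c7ad10aee8c7a893cc536a7aeee3747961b69f77e8914ee6e617a060d4eb251a7ad1efbbd87a810adc497a6a354f227a55c49842a89150d668601117ade162f56a81b3eed6a7e2027fa7961efe52f689153123097a060d759efbd7ad140acf77a87875036a7f0670d6a6bf9716c7a56708728f89160d643d044b47adb82d9e6a8a07ddfe7a6a06f32068a547790f1a79a450d3655d2f37ad27fc4b27a815e1efb7a720cd3c6a6210be927a1529bcd27a060d60285 = true := by decide +kernel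

theorem cA23_15_3_32 : chunkOkM (LA23_15.ctx true true 301 47369 16384 7 8 8041 7871 75 77) muQ true true 64 RtA23_15.Cx RtA23_15.CX RtA23_15.Ctp.right.right.right.left.right.right RtA23_15.Ce.right.right.right.left.left RtA23_15.CTp.right.right RtA23_15.CEr.right.right 0x11111111186b798889d1a5c288989816b28367a7104403d7b61f5d3c67a15067ed6b060d21aa348689d1ea894f7a91cbaa9c889813f6f5a7f95dcaf7a629ad8be7a140c1b687a070d57114371143114017 = true := by decide +kernel

theorem cA23_15_3_33 : chunkOkM (LA23_15.ctx true true 77 1 1 1 1 1 1 1 1) muQ true true 64 RtA23_15.Cx.left RtA23_15.CX RtA23_15.Ctp.right.right.right.left RtA23_15.Ce.right.right.right.left.right RtA23_15.CTp.right.right RtA23_15.CEr.right 0x21 = true := by decide +kernel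

theorem cA23_15_3_34 : chunkOkM (LA23_15.ctx true true 77 1 1 1 1 1 1 1 1) muQ true true 64 RtA23_15.Cx.right RtA23_15.CX RtA23_15.Ctp.right.right.right.left.left RtA23_15.Ce.right.right.right.left.right RtA23_15.CTp.right.right RtA23_15.CEr.right 0x49 = true := by decide +kernel

theorem cA23_15_3_35 : chunkOkM (LA23_15.ctx true true 290 12035 4096 15 16 2023 1989 145 165) muQ true true 64 RtA23_15.Cx.right RtA23_15.CX RtA23_15.Ctp.right.right.right.left.right RtA23_15.Ce.right.right.right.left.right.left RtA23_15.CTp.right.right RtA23_15.CEr.right 0x022ffefa17ad14a5ba37a8faae5f6a72ae25597a61d53aca789150dd0317a060d66d681c7ad835d0d6a813d6c837a710a97c57a621ef0787a14e59a127a060d6028547830f7589dfb19255798288c0b37a616477d2a89158079ac7a050d43da8bb7adb3fa006a892a5406a73b7132c7a6b039b107a562fce827a160d6540ef3fe7ad45b77f6a8153d7967a7fb3fb517a6ae3296b18a550933b0e8b460d353332257ad284ad1d7a81d388637a655edfe07a5446cd2c7a120fe85b7a060d6 = true := by decide +kernel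

theorem cA23_15_3_36 : chunkOkM (LA23_15.ctx true true 298 24327 8192 15 16 4063 2023 145 165) muQ true true 64 RtA23_15.Cx.right RtA23_15.CX RtA23_15.Ctp.right.right.right.left.right RtA23_15.Ce.right.right.right.left.right.right RtA23_15.CTp.right.right RtA23_15.CEr.right 0x022eb9a2f7ad1044f077a8111d9c17a73bb1bc57a61f4bd4bb8914fd04c57a060d3d828047ad1fd21fe7a813058a47a7da7d8b6a66d5e6257a539de24d7a24f1e3757a170d60285393351bc89d3f893107982337fa97a68cbe17c7a5528d51b7a150d2887f427ad137a1a87a81b7705a75401fd07a62713efd7a1489be287a060d65413418b689d28330a27a87a203e6a7145bdb6b6218ef2a7a14ff9db6b060d6493493217 = true := by decide +kernel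

theorem cA23_15_3_37 : chunkOkM (LA23_15.ctx true true 298 48911 16384 7 8 8177 4063 75 77) muQ true true 64 RtA23_15.Cx RtA23_15.CX RtA23_15.Ctp.right.right.right.right RtA23_15.Ce.right.right.right.left RtA23_15.CTp.right RtA23_15.CEr 0x010101011be17adc89d1c9fd9b7a817c25c87a7c88d6d07a624ef5477a14e7a2d6b060d25a2546189db2e5c06a91bb735878988a446f6a75f715517a6b293c0a7a238c88007a170d53b5f878c89d1ea9bfd7a85599996a71d16086b226534927a13fc3306b060d682430c8a89d1aa97f570c132359373b919d2a6b42ed66477a150d30306797ade525226a82109bbd7b6231efa17a149cf016b050d65aa2f06c61140171140171140173333 = true := by decide +kernel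

theorem cA23_15_3_38 : chunkOkM (LA23_15.ctx true true 305 98079 32768 7 8 8177 4097 75 77) muQ true true 64 RtA23_15.Cx RtA23_15.CX RtA23_15.Ctp.right.right.right RtA23_15.Ce.right.right.right.right RtA23_15.CTp.right RtA23_15.CEr 0x212121010101011db6bcbc89d19549fb889817515707a722d727488a61d4f2bb419a51f662bcdb9b4b0c974b78a16f7125c58b080d23785bb989d1f5ff6d7a9239b9b86898151f8e228a63b92713b8b41ec0cdd7a1f4cd89548a070d5267112bf89d2599abd7a8a32a496b6e13a27678a5123f1e46b9b455e05f988a142792be88b070d67781f3bb89d46acafe70c151bc6d73b13e2976b613c2e3aae9b49ebf04b58b213ef410c09a170d3052cdf189dd3c6b66a828a3d137b62115445d39a51a4b1b42b9b4b1d1bdbe8b222ba3746f9a170d65812f06c63333493217217217217444 = true := by decide +kernel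

theorem cA23_15_2_0 : chunkOkM (LA23_15.ctx false true 77 1 1 1 1 1 1 1 1) muQ false true 64 RtA23_15.Cx RtA23_15.CX RtA23_15.Ctn RtA23_15.Ce RtA23_15.CTp RtA23_15.CEr 0x49 = true := by decide +kernel

theorem cA23_15_1_0 : chunkOkM (LA23_15.ctx true false 77 1 1 1 1 1 1 1 1) muQ true false 64 RtA23_15.Cx RtA23_15.CX RtA23_15.Ctp RtA23_15.Ce RtA23_15.CTn RtA23_15.CEr 0x4a = true := by decide +kernel

theorem cA23_15_0_0 : chunkOkM (LA23_15.ctx false false 77 1 1 1 1 1 1 1 1) muQ false false 64 RtA23_15.Cx RtA23_15.CX RtA23_15.Ctn RtA23_15.Ce RtA23_15.CTn RtA23_15.CEr 0x49 = true := by decide +kernel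

end Vale.Agent.helper4.Q4
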