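import Vale.Agent.helper4.Q4TreeM
import Vale.Agent.helper4.Q4G.PA23_17

/-!
Checks for pairs of intervals of second moments.
-/

set_option maxRecDepth 100000
set_option linter.unusedVariables false

namespace Vale.Agent.helper4.Q4

theorem cA23_17_3_0 : chunkOkM (LA23_17.ctx true true 87 1 1 1 1 1 1 1 1) muQ true true 64 RtA23_17.Cx RtA23_17.CX RtA23_17.Ctp.left RtA23_17.Ce RtA23_17.CTp RtA23_17.CEr 0x41 = true := by decide +kernel

theorem cA23_17_3_1 : chunkOkM (LA23_17.ctx true true 87 1 1 1 1 1 1 1 1) muQ true true 64 RtA23_17.Cx RtA23_17.CX RtA23_17.Ctp.right.left RtA23_17.Ce RtA23_17.CTp RtA23_17.CEr 0x41 = true := by decide +kernel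

theorem cA23_17_3_2 : chunkOkM (LA23_17.ctx true true 87 1 1 1 1 1 1 1 1) muQ true true 64 RtA23_17.Cx RtA23_17.CX RtA23_17.Ctp.right.right RtA23_17.Ce.left RtA23_17.CTp RtA23_17.CEr 0x11 = true := by decide +kernel

theorem cA23_17_3_3 : chunkOkM (LA23_17.ctx true true 87 1 1 1 1 1 1 1 1) muQ true true 64 RtA23_17.Cx RtA23_17.CX RtA23_17.Ctp.right.right.left RtA23_17.Ce.right RtA23_17.CTp RtA23_17.CEr 0x49 = true := by decide +kernel

theorem cA23_17_3_4 : chunkOkM (LA23_17.ctx true true 87 1 1 1 1 1 1 1 1) muQ true true 64 RtA23_17.Cx RtA23_17.CX RtA23_17.Ctp.right.right.right RtA23_17.Ce.right.left RtA23_17.CTp RtA23_17.CEr 0x11 = true := by decide +kernel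

theorem cA23_17_3_5 : chunkOkM (LA23_17.ctx true true 87 1 1 1 1 1 1 1 1) muQ true true 64 RtA23_17.Cx RtA23_17.CX RtA23_17.Ctp.right.right.right RtA23_17.Ce.right.right RtA23_17.CTp.left RtA23_17.CEr 0x42 = true := by decide +kernel

theorem cA23_17_3_6 : chunkOkM (LA23_17.ctx true true 87 1 1 1 1 1 1 1 1) muQ true true 64 RtA23_17.Cx RtA23_17.CX RtA23_17.Ctp.right.right.right RtA23_17.Ce.right.right RtA23_17.CTp.right RtA23_17.CEr.left 0x6a = true := by decide +kernel

theorem cA23_17_3_7 : chunkOkM (LA23_17.ctx true true 87 1 1 1 1 1 1 1 1) muQ true true 64 RtA23_17.Cx RtA23_17.CX RtA23_17.Ctp.right.right.right RtA23_17.Ce.right.right RtA23_17.CTp.right.left RtA23_17.CEr.right 0x42 = true := by decide +kernel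

theorem cA23_17_3_8 : chunkOkM (LA23_17.ctx true true 87 1 1 1 1 1 1 1 1) muQ true true 64 RtA23_17.Cx RtA23_17.CX RtA23_17.Ctp.right.right.right RtA23_17.Ce.right.right.left.left RtA23_17.CTp.right.right RtA23_17.CEr.right 0x11 = true := by decide +kernel

theorem cA23_17_3_9 : chunkOkM (LA23_17.ctx true true 87 1 1 1 1 1 1 1 1) muQ true true 64 RtA23_17.Cx RtA23_17.CX RtA23_17.Ctp.right.right.right.left RtA23_17.Ce.right.right.left.right.left RtA23_17.CTp.right.right RtA23_17.CEr.right 0x69 = true := by decide +kernel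

theorem cA23_17_3_10 : chunkOkM (LA23_17.ctx true true 260 5889 2048 21 16 493 935 21 10) muQ true true 64 RtA23_17.Cx RtA23_17.CX RtA23_17.Ctp.right.right.right.left RtA23_17.Ce.right.right.left.right.right RtA23_17.CTp.right.right RtA23_17.CEr.right.left 0x796fda5186b2f9bfb3c8d81911f3a7d230d = true := by decide +kernel

theorem cA23_17_3_11 : chunkOkM (LA23_17.ctx true true 315 22785 8192 41 32 3961 3791 165 110) muQ true true 64 RtA23_17.Cx RtA23_17.CX RtA23_17.Ctp.right.right.right.left RtA23_17.Ce.right.right.left.right.right RtA23_17.CTp.right.right.left RtA23_17.CEr.right.right.left 0x4a11111111dccfa847cd526d0007c81270747c8c62bf3eb97d2943aa257c150d7711431143494910c2b8818cd3ddfe617c8113341658c63576a4c7c112ce36f38c050d1023162d8cd440c94c7c8fe2c6f57c63aa32877c111430a648c050d41e8155f06c3eda9d5c7cd50df2307c8c08f5b37c61646e7b7d268f280a7c15f75feb7c060dd58dfea7cd52bf9737c8fb388647c63aafe937c111f1d667d050d4105c60e28cd5e2e55c7c821953a6a8c6106cdf47c140d36aee8bb6dd142f8066b48a4d8b7c81bf6af61d9d41ddc4d4759c150d44937731264a54a58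 = true := by decide +kernel

theorem cA23_17_3_12 : chunkOkM (LA23_17.ctx true true 316 45313 16384 21 16 3961 3791 171 110) muQ true true 64 RtA23_17.Cx RtA23_17.CX RtA23_17.Ctp.right.right.right.left RtA23_17.Ce.right.right.left.right.right RtA23_17.CTp.right.right.right RtA23_17.CEr.right.right.left 0x0202111111111117382c8cd65093567c8d98a826d62d6f2897d287d64a87c150d7711431143494910b865fb8cd214faf572c624b50e7c8dc6eff6d6316b5eb7c111d91807d060d69e649c697cd406afe62c57cacf47c811ab1e57d622c11c07d282e300f7c160d74a55b0057cdf24ae362c5d9d5357c83a77e43c8c63850b667d450d311df27bf8cd481c2d47c82718127a19d4297486f7b9c140d449377351265126 = true := by decide +kernel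

theorem cA23_17_3_13 : chunkOkM (LA23_17.ctx true true 333 45827 16384 87 64 7871 3791 171 234) muQ true true 64 RtA23_17.Cx RtA23_17.CX RtA23_17.Ctp.right.right.right.left RtA23_17.Ce.right.right.left.right.right RtA23_17.CTp.right.right RtA23_17.CEr.right.right.right 0x22020211111111dc3d9a17cd59fc4157c82336966c8c62d343197d283fc3eb7c150d017771141143349492223ee5b57ddde5bb362c47a74017c8902ba597c62b2061d7c112fbcab08c060d1143b5c0047dd6518cf07c876cdc307c624b94057c140d36228228f7cba3e7cd284d1b672c5fd73157c81269f8908c62391bde7d275491667c160d69d9462807cd191af5972c5afc6aa7c817ccd7e7d629f540e7d28f191a27c160dda169a97cd508686f7c81f02446c712914f27d61df19aa7d27367ecd7c160d228374a187d3d7cd55a02962c5b80bfd7c815cb8cba8c6162a0c77d450d371f93227cd3fe805e7c815423927c717d7611649d4197b7dcd09c150d46493773551e6a4d8449cd11307e20993c1204f2f6196ba8648527c653fae407c1ad37e36d060d56 = true := by decide +kernel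

theorem cA23_17_3_14 : chunkOkM (LA23_17.ctx true true 87 1 1 1 1 1 1 1 1) muQ true true 64 RtA23_17.Cx RtA23_17.CX RtA23_17.Ctp.right.right.right.right RtA23_17.Ce.right.right.left.right RtA23_17.CTp.right.right RtA23_17.CEr.right 0x11 = true := by decide +kernel

theorem cA23_17_3_15 : chunkOkM (LA23_17.ctx true true 250 5889 2048 21 16 255 255 21 10) muQ true true 64 RtA23_17.Cx RtA23_17.CX RtA23_17.Ctp.right.right.right RtA23_17.Ce.right.right.right RtA23_17.CTp.right.right RtA23_17.CEr.right.left 0x6d5a06fc86b2bbbb6848d86d0a4347c61ef21857d040d = true := by decide +kernel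

theorem cA23_17_3_16 : chunkOkM (LA23_17.ctx true true 87 1 1 1 1 1 1 1 1) muQ true true 64 RtA23_17.Cx RtA23_17.CX.left RtA23_17.Ctp.right.right.right.left RtA23_17.Ce.right.right.right.left RtA23_17.CTp.right.right.left.left RtA23_17.CEr.right.right.left 0x4a = true := by decide +kernel

theorem cA23_17_3_17 : chunkOkM (LA23_17.ctx true true 87 1 1 1 1 1 1 1 1) muQ true true 64 RtA23_17.Cx RtA23_17.CX.left RtA23_17.Ctp.right.right.right.left RtA23_17.Ce.right.right.right.left RtA23_17.CTp.right.right.left.right.left RtA23_17.CEr.right.right.left 0x4a = true := by decide +kernel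

theorem cA23_17_3_18 : chunkOkM (LA23_17.ctx true true 87 1 1 1 1 1 1 1 1) muQ true true 64 RtA23_17.Cx RtA23_17.CX.left RtA23_17.Ctp.right.right.right.left RtA23_17.Ce.right.right.right.left RtA23_17.CTp.right.right.left.right.right RtA23_17.CEr.right.right.left.left 0x12 = true := by decide +kernel

theorem cA23_17_3_19 : chunkOkM (LA23_17.ctx true true 289 5889 2048 41 32 969 493 165 54) muQ true true 64 RtA23_17.Cx RtA23_17.CX.left RtA23_17.Ctp.right.right.right.left.left RtA23_17.Ce.right.right.right.left RtA23_17.CTp.right.right.left.right.right RtA23_17.CEr.right.right.left.right 0x294d7b97dd9b88046c84c54094a59c65bc7e6cef4ac52701cb05abad450d = true := by decide +kernel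

theorem cA23_17_3_20 : chunkOkM (LA23_17.ctx true true 313 12035 4096 41 32 3995 3927 165 214) muQ true true 64 RtA23_17.Cx RtA23_17.CX.left RtA23_17.Ctp.right.right.right.left.right.left RtA23_17.Ce.right.right.right.left.left RtA23_17.CTp.right.right.left.right.right RtA23_17.CEr.right.right.left.right 0x2078c8a7dd51009c66b36131c67c81088b2a7c630f0f667c55f5e9437c160d2488e9f58cd316c4b17c8640096f7c62f4381928c51492d89f8c150dbf1dc037cd8fc31d77c874ff1c6c7d1a5bbd7c6122cac1109d44deca9efb9c260d1920a6da8cd40cf1987c88b1ac217c62bdc2a568c51332bdb38c150d437308da197dd4ca91517c82b9e8597c62107e8e68c5e9815d27c150d2a5fe727dd4c0ec2a7c8444ea047c629a3f9fd8c5128168c88c150d44c77fb37dd5bca7b47c82ff52297c62911da638c5121375578c150d62de175368cd7e8c05c7c819174b898c61e3c9956c9c5d3768b968d450d36915417d87dd558e1497c891452ab7c62c2203028c513914a588c150d746 = true := by decide +kernel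

theorem cA23_17_3_21 : chunkOkM (LA23_17.ctx true true 297 12035 4096 41 32 2023 969 165 54) muQ true true 64 RtA23_17.Cx RtA23_17.CX.left RtA23_17.Ctp.right.right.right.left.right.right RtA23_17.Ce.right.right.right.left.left RtA23_17.CTp.right.right.left.right.right RtA23_17.CEr.right.right.left.right 0x11348227dd9545656b5922d707c89f1f05c7c61adb94e7d27e8d8927c160d017 = true := by decide +kernel

theorem cA23_17_3_22 : chunkOkM (LA23_17.ctx true true 305 12035 4096 41 32 4063 1003 165 110) muQ true true 64 RtA23_17.Cx RtA23_17.CX.left RtA23_17.Ctp.right.right.right.left.right RtA23_17.Ce.right.right.right.left.right RtA23_17.CTp.right.right.left.right.right RtA23_17.CEr.right.right.left.right 0x249710998cd22762366b3d172bb7c86f6fa0b7c6280e8c9f8c5113ef2778c160d22495247dd3f2c4d07c88ac81a97c6247b08428c5f308d667c150d31ef5e947dd5440356b76b23027c883f5f827c628bd95fa8c554d32d6d410f94d688c170d6bdcce867c83aafb9bf29c6133e711a59d4305879188d240d3217 = true := by decide +kernel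

theorem cA23_17_3_23 : chunkOkM (LA23_17.ctx true true 87 1 1 1 1 1 1 1 1) muQ true true 64 RtA23_17.Cx RtA23_17.CX.right RtA23_17.Ctp.right.right.right.left RtA23_17.Ce.right.right.right.left RtA23_17.CTp.right.right.left RtA23_17.CEr.right.right.left 0x4a = true := by decide +kernel

theorem cA23_17_3_24 : chunkOkM (LA23_17.ctx true true 87 1 1 1 1 1 1 1 1) muQ true true 64 RtA23_17.Cx RtA23_17.CX RtA23_17.Ctp.right.right.right.left RtA23_17.Ce.right.right.right.left RtA23_17.CTp.right.right.right RtA23_17.CEr.right.right.left.left 0x12 = true := by decide +kernel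

theorem cA23_17_3_25 : chunkOkM (LA23_17.ctx true true 87 1 1 1 1 1 1 1 1) muQ true true 64 RtA23_17.Cx RtA23_17.CX RtA23_17.Ctp.right.right.right.left RtA23_17.Ce.right.right.right.left RtA23_17.CTp.right.right.right.left RtA23_17.CEr.right.right.left.right.left 0x12 = true := by decide +kernel

theorem cA23_17_3_26 : chunkOkM (LA23_17.ctx true true 287 5889 2048 21 16 969 493 171 110) muQ true true 64 RtA23_17.Cx RtA23_17.CX RtA23_17.Ctp.right.right.right.left.left RtA23_17.Ce.right.right.right.left RtA23_17.CTp.right.right.right.left.left RtA23_17.CEr.right.right.left.right.right 0x15f18b57dd7d5e8d07c8528d4c01f9c66593fb5019ac52b2a98ecd1ad450d = true := by decide +kernel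

theorem cA23_17_3_27 : chunkOkM (LA23_17.ctx true true 315 12035 4096 43 32 3995 3859 339 110) muQ true true 64 RtA23_17.Cx RtA23_17.CX RtA23_17.Ctp.right.right.right.left.right RtA23_17.Ce.right.right.right.left RtA23_17.CTp.right.right.right.left.left RtA23_17.CEr.right.right.left.right.right 0x2033bc77dd5616a363caa3f3787c87cd8ea17c61ab80e688c5b5de90a7c16727cd6d070d1f7580768cdceac78c7c8107337c919d4459d49528d240d321712972b87dd8d615a87c810fd58b78c6350bc4d7d2acd28d27c150d017702367068cd3a909566ba26fa6e7c8279b2d87c6298c3bc78c511932a2c8c160d022bfc2f47dd7728ac57c816a9936d73fa075f7c62945017c8c511d29e068c160d58243e29148cdb058b267c823f6c37e8c62cccd49669c513a8805969d450d36917ec3ae78cd25077263c7d0ad9b7c867c84737c632c400b7d2a29f0127c160d16c8e3ec8cd6ba215172c9ad422f7c875186f27c62be14f4e8c5128a30378c160d1773bfb28cd6816e467c883b1a4e7c6294dc7908c5125d00c18c11342396d060d437434 = true := by decide +kernel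

theorem cA23_17_3_28 : chunkOkM (LA23_17.ctx true true 87 1 1 1 1 1 1 1 1) muQ true true 64 RtA23_17.Cx RtA23_17.CX RtA23_17.Ctp.right.right.right.left RtA23_17.Ce.right.right.right.left RtA23_17.CTp.right.right.right.left.right RtA23_17.CEr.right.right.left.right.right 0x02 = true := by decide +kernel

theorem cA23_17_3_29 : chunkOkM (LA23_17.ctx true true 87 1 1 1 1 1 1 1 1) muQ true true 64 RtA23_17.Cx RtA23_17.CX RtA23_17.Ctp.right.right.right.left RtA23_17.Ce.right.right.right.left RtA23_17.CTp.right.right.right.right RtA23_17.CEr.right.right.left.right 0x02 = true := by decide +kernel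

theorem cA23_17_3_30 : chunkOkM (LA23_17.ctx true true 269 5889 2048 21 16 493 493 39 58) muQ true true 64 RtA23_17.Cx RtA23_17.CX RtA23_17.Ctp.right.right.right.left RtA23_17.Ce.right.right.right.left RtA23_17.CTp.right.right.left RtA23_17.CEr.right.right.right.left 0x30135234f9cd166934df193c178e7081996b2663b317c61a00c507d050d = true := by decide +kernel

theorem cA23_17_3_31 : chunkOkM (LA23_17.ctx true true 285 5889 2048 21 16 969 493 171 58) muQ true true 64 RtA23_17.Cx RtA23_17.CX RtA23_17.Ctp.right.right.right.left.left RtA23_17.Ce.right.right.right.left RtA23_17.CTp.right.right.right.left.left RtA23_17.CEr.right.right.right.left 0x15ded7208cda46f556b2fe65cd7c8575e50c1d9c66accc89244ac52d63ae04f7ad460d = true := by decide +kernel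

theorem cA23_17_3_32 : chunkOkM (LA23_17.ctx true true 329 46341 16384 87 64 3995 3825 171 234) muQ true true 64 RtA23_17.Cx.left RtA23_17.CX RtA23_17.Ctp.right.right.right.left.right RtA23_17.Ce.right.right.right.left RtA23_17.CTp.right.right.right.left.left RtA23_17.CEr.right.right.right.left 0x0121223e847b27dd3ea05a67c880a17f57c62d5ff4ed8c512ad57f98c150d228228613b135ed8cd3e676d072c73a70907c8f2ee0827c61edf8837c1132208718c060d14c402078cd529ea2072c7d4a1b37c8eb49ce57c62df6cb37d28d5cea37c160d449c29446d7cd5ee349d7c8e623eb6d8d43e3931e8e9c240d128a365a8cd58896867c8da7ce497c622719287d26f2a26f7c150d4736012121dbc2a737cd2bc56d272c672c7a47c82568a7e7d62c4b3d57d272bcc147c160d440173743 = true := by decide +kernel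

end Vale.Agent.helper4.Q4
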