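import Vale.Agent.helper4.Q4TreeM
import Vale.Agent.helper4.Q4G.PA23_17

/-!
Checks for pairs of intervals of second moments.
-/

set_option maxRecDepth 100000
set_option linter.unusedVariables false

namespace Vale.Agent.helper4.Q4

theorem cA23_17_3_33 : chunkOkM (LA23_17.ctx true true 311 12035 4096 43 32 4063 2023 171 234) muQ true true 64 RtA23_17.Cx.right RtA23_17.CX RtA23_17.Ctp.right.right.right.left.right RtA23_17.Ce.right.right.right.left RtA23_17.CTp.right.right.right.left.left RtA23_17.CEr.right.right.right.left 0x223d9e2977dd427dd0f7c89d516247c644c3a5cf8c5342c9587d41abec9368c160d22861a15306f8cd778ab1d7c8d7734167c67816b7df8c5986a86d7d42db7f06f8c160d18bd46468cd18737866b6bea42b7c88d5ca4e7c626c849b48c510f715c58c160d41af02b198cd6360e862c75b749c7c89e6231f7c622a37c7b8c5dbaf9337c160d36c1b1b827cd12e67866b4e088387c811081b7159d4462aef0b8d250d318958f048cd12fa9c66b50382457c86e23da27c62674b0e68c51245e2498c160d11d4c49d8cd79c11a272c875d1cb7c8d9904117c67e00bbf7c55b3c8d77c160d36944 = true := by decide +kernel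

theorem cA23_17_3_34 : chunkOkM (LA23_17.ctx true true 87 1 1 1 1 1 1 1 1) muQ true true 64 RtA23_17.Cx RtA23_17.CX RtA23_17.Ctp.right.right.right.left RtA23_17.Ce.right.right.right.left RtA23_17.CTp.right.right.right.left.right RtA23_17.CEr.right.right.right.left 0x02 = true := by decide +kernel

theorem cA23_17_3_35 : chunkOkM (LA23_17.ctx true true 87 1 1 1 1 1 1 1 1) muQ true true 64 RtA23_17.Cx RtA23_17.CX RtA23_17.Ctp.right.right.right.left RtA23_17.Ce.right.right.right.left RtA23_17.CTp.right.right.right.right RtA23_17.CEr.right.right.right.left 0x02 = true := by decide +kernel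

theorem cA23_17_3_36 : chunkOkM (LA23_17.ctx true true 87 1 1 1 1 1 1 1 1) muQ true true 64 RtA23_17.Cx RtA23_17.CX RtA23_17.Ctp.right.right.right.left RtA23_17.Ce.right.right.right.left RtA23_17.CTp.right.right RtA23_17.CEr.right.right.right.right 0x22 = true := by decide +kernel

theorem cA23_17_3_37 : chunkOkM (LA23_17.ctx true true 318 48911 16384 41 32 8177 4063 81 58) muQ true true 64 RtA23_17.Cx RtA23_17.CX RtA23_17.Ctp.right.right.right.right RtA23_17.Ce.right.right.right.left RtA23_17.CTp.right.right RtA23_17.CEr.right.right 0x0101010122111c1a258cd7f8207e7c82bd052d7c736a52497d62f764a77d24ec2ede7c160d565734d08cd2a550efe492c2d57e4ec995bbeb5616d671108d6c115830807d060d5610b2b4c38cd8ea8f9f7c84099296d71e93e907d632a0ac6d1136f146e060d4ad086cfd7cd75382057c85859e587d63c48b377c1157cd8c7d050d4a58561140171140171140173333 = true := by decide +kernel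

theorem cA23_17_3_38 : chunkOkM (LA23_17.ctx true true 324 98079 32768 41 32 8177 4097 81 58) muQ true true 64 RtA23_17.Cx RtA23_17.CX RtA23_17.Ctp.right.right.right RtA23_17.Ce.right.right.right.right RtA23_17.CTp.right.right RtA23_17.CEr.right.right 0x212121010101012212440f668cd6dac3a972c9c603007c8318f2387d62ebc05c7e419cd0bd18d23506a3cf8c170d211655f06c56dc6c2097cd8900ce6d9c3dffab7c81ccd376e61a2725e2fb42f5e060d4ad9720ad7cd791d7867c85b8d1b47d644907c8f8d5335b76628e41596710e39d244da974399c170d4a58563333493217217421742174 = true := by decide +kernel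

theorem cA23_17_2_0 : chunkOkM (LA23_17.ctx false true 87 1 1 1 1 1 1 1 1) muQ false true 64 RtA23_17.Cx RtA23_17.CX RtA23_17.Ctn RtA23_17.Ce RtA23_17.CTp RtA23_17.CEr 0x49 = true := by decide +kernel

theorem cA23_17_1_0 : chunkOkM (LA23_17.ctx true false 87 1 1 1 1 1 1 1 1) muQ true false 64 RtA23_17.Cx RtA23_17.CX RtA23_17.Ctp RtA23_17.Ce RtA23_17.CTn RtA23_17.CEr 0x4a = true := by decide +kernel

theorem cA23_17_0_0 : chunkOkM (LA23_17.ctx false false 87 1 1 1 1 1 1 1 1) muQ false false 64 RtA23_17.Cx RtA23_17.CX RtA23_17.Ctn RtA23_17.Ce RtA23_17.CTn RtA23_17.CEr 0x49 = true := by decide +kernel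

end Vale.Agent.helper4.Q4
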