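import Vale.Agent.helper4.Q4TreeM
import Vale.Agent.helper4.Q4G.PA23_18

/-!
Checks for pairs of intervals of second moments.
-/

set_option maxRecDepth 100000
set_option linter.unusedVariables false

namespace Vale.Agent.helper4.Q4

theorem cA23_18_3_53 : chunkOkM (LA23_18.ctx true true 311 48911 16384 24523 16384 8143 3825 723 4097) muQ true true 64 RtA23_18.Cx RtA23_18.CX RtA23_18.Ctp.right.right.right.left RtA23_18.Ce.right.right.right.left RtA23_18.CTp.right.right.right RtA23_18.CEr.right.right.right.right 0x222222020202770aa264b8072146b8145c85b7a14f5fa96b040d18d3f00b114a52f00b2c2f01b437493218e755164b9b6c1e97a8114c8e67a12cdcfa218a040d2b1f9a64b16637dc7a8b1309a6a1191f6f57b040d1f33f00b73471673f02b349321759d5f964b45f1106b9acd9d46b84af9a2338a2c0176c77a150d1e2f01b369401abd85e64b2f53ccd7a815bc41d7a11e4e9b87b040d6aaee764bae319187a8d324126b278581e6b040d32193f00b761a07a64b4c433967a83366b5f7a1253f891c8a040d4362f02b8f980664b3949d2c7a824ab3037a11b5ee9718a040d1a2f01b3430121211b18bc64b511cc8d7a83d73ec868a2b5500de7a140dafd9ad64b81239527a83d3d8d6a1147e4707b040d34401737375e2f05b345554a5228228228666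 = true := by decide +kernel

theorem cA23_18_3_54 : chunkOkM (LA23_18.ctx true true 303 48911 16384 6031 4096 8177 4063 723 4097) muQ true true 64 RtA23_18.Cx RtA23_18.CX RtA23_18.Ctp.right.right.right.right RtA23_18.Ce.right.right.right.left RtA23_18.CTp.right.right.right RtA23_18.CEr.right.right.right 0x0101010122222241502f9a093b5dd653328b9180117f149a81dc5e2e7a117b560f7b050d172904c566602020218ff0d2d8a820b148b7b78edf706b217e1b4a7b040d12602855513f158674b271d3497a81e203737a1193bfc47b040de5137164b9dbf7267a82c212bb7a11f1e4207b040d11d4f8174b11bb2c718a881b8846a12beedb27b040d64a522861ae3f02b533b665f74b19e87ab38a815690447a11cd89537b040d1004c5f88a8fdb371e7a74a0f6f6a121c516d7b040d5dc58187a820d83897a1185a6ec7b030d586a14e57dc38b9b98fceb68a817ea2d47a117c36247b040dcb187e6b9c9277c37a8312e9b37a1180d82a7b040d11060817b911b7a2b08a837dfa357a123bcf7c7b040d65862a2904c56561140171140173311401733 = true := by decide +kernel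

theorem cA23_18_3_55 : chunkOkM (LA23_18.ctx true true 304 98079 32768 6031 4096 8177 4097 357 4097) muQ true true 64 RtA23_18.Cx RtA23_18.CX RtA23_18.Ctp.right.right.right RtA23_18.Ce.right.right.right.right RtA23_18.CTp.right.right.right RtA23_18.CEr.right.right.right 0x212121010101012222221e7876aad93b2ce4577179a9bdd4edfe8a81b8a8737b2122e6847b050d11705c5666171c73cc8a8238833e7b71041e707b2127659f7b040d1d695e5183b6cf02707a817320087b2bde51d6b040d228da07e4f73b103e75e28a824324167b29f96136b040d4a5228645a3f02b51683ca774b157d88e28a821943e07b2a828366b040de1f4e947a8faa8f667a7ef1fd56b211d17c47b040d36317de7a8139aa337a1183bb627b030d5115b5a37b91516428a8a81df05af7b2f0e7486b040d6821a04c56563333493217421721742174 = true := by decide +kernel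

theorem cA23_18_2_0 : chunkOkM (LA23_18.ctx false true 79 1 1 1 1 1 1 1 1) muQ false true 64 RtA23_18.Cx RtA23_18.CX RtA23_18.Ctn RtA23_18.Ce RtA23_18.CTp RtA23_18.CEr 0x49 = true := by decide +kernel

theorem cA23_18_1_0 : chunkOkM (LA23_18.ctx true false 79 1 1 1 1 1 1 1 1) muQ true false 64 RtA23_18.Cx RtA23_18.CX RtA23_18.Ctp RtA23_18.Ce RtA23_18.CTn RtA23_18.CEr 0x4a = true := by decide +kernel

theorem cA23_18_0_0 : chunkOkM (LA23_18.ctx false false 79 1 1 1 1 1 1 1 1) muQ false false 64 RtA23_18.Cx RtA23_18.CX RtA23_18.Ctn RtA23_18.Ce RtA23_18.CTn RtA23_18.CEr 0x49 = true := by decide +kernel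

end Vale.Agent.helper4.Q4
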