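import Vale.Agent.helper4.Q4TreeM
import Vale.Agent.helper4.Q4G.PB13_10

/-!
Checks for pairs of intervals of second moments.
-/

set_option maxRecDepth 100000
set_option linter.unusedVariables false

namespace Vale.Agent.helper4.Q4

theorem cB13_10_3_0 : chunkOkM (LB13_10.ctx true true 103 1 1 1 1 1 1 1 1) muQ true true 64 RtB13_10.Cx RtB13_10.CX RtB13_10.Ctp RtB13_10.Ce RtB13_10.CTp.left RtB13_10.CEr 0x42 = true := by decide +kernel

theorem cB13_10_3_1 : chunkOkM (LB13_10.ctx true true 271 289 256 13 16 2048 256 32 16) muQ true true 64 RtB13_10.Cx RtB13_10.CX RtB13_10.Ctp.left.left RtB13_10.Ce.left RtB13_10.CTp.right RtB13_10.CEr 0x414141415151513948840e8fd175048c586c9651de598f819fd7d4a99f63c358b7019f53f433d6d8f460dc941f26b8f01c64446947749374937493413413 = true := by decide +kernel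

theorem cB13_10_3_2 : chunkOkM (LB13_10.ctx true true 103 1 1 1 1 1 1 1 1) muQ true true 64 RtB13_10.Cx RtB13_10.CX RtB13_10.Ctp.left.right RtB13_10.Ce.left.left RtB13_10.CTp.right RtB13_10.CEr 0x69 = true := by decide +kernel

theorem cB13_10_3_3 : chunkOkM (LB13_10.ctx true true 219 19 16 13 16 64 32 32 16) muQ true true 64 RtB13_10.Cx RtB13_10.CX RtB13_10.Ctp.left.right RtB13_10.Ce.left.right RtB13_10.CTp.right RtB13_10.CEr.left 0x118bb100a99ba9f7a6cff9f81aa27a6919f63d1c328ae9f540d = true := by decide +kernel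

theorem cB13_10_3_4 : chunkOkM (LB13_10.ctx true true 241 19 16 13 16 256 128 128 16) muQ true true 64 RtB13_10.Cx RtB13_10.CX RtB13_10.Ctp.left.right RtB13_10.Ce.left.right.left RtB13_10.CTp.right RtB13_10.CEr.right 0x691edb2c0c8fd2e304357f8880bba97f789dd1d7d8f61c446f3c99f55f9258f58f460d204a48ff8fd519c6237f88aa866c7f7e8f68ecc8f63219efcc09f580e3584f8f460d321ca9c808fdde8f0a07f814bc6bd48f7e9fbdfcc8f6272253a669f575029de98f460d4252677038fd8d763e66c219b7fc79b20660f2dc9f64d567f84a9f5a1c8a87f8f460d4a553 = true := by decide +kernel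

theorem cB13_10_3_5 : chunkOkM (LB13_10.ctx true true 245 19 16 13 16 256 128 128 35) muQ true true 64 RtB13_10.Cx RtB13_10.CX RtB13_10.Ctp.left.right RtB13_10.Ce.left.right.right RtB13_10.CTp.right RtB13_10.CEr.right 0xbff110d7f06c257c12508fdc786286f9d1e321c7f720ad3d058f614a91a70c9f550d3191aa9b98f06c4565120ef296c17a0e8b1199b4d6cce448f530d52a9646ef8fd1aba31af8f8913b340f8f61d6f11f479f540d1e884fdd8fd13df06179b8be4124c8f61c7cc05879f540d4a556591f35c30c8fd25597497f810958f578f7a32394ff8f627fa5946b9f53cdf6c37f460d4331dc328fd77fd4fc76c156b468669f530d545933 = true := by decide +kernel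

theorem cB13_10_3_6 : chunkOkM (LB13_10.ctx true true 236 19 16 13 16 256 128 64 16) muQ true true 64 RtB13_10.Cx RtB13_10.CX RtB13_10.Ctp.left RtB13_10.Ce.right RtB13_10.CTp.right RtB13_10.CEr 0x51595919e103748fd83681c6f9452275f7f84296a2278f615d58723c9f550d42850d8b8fd884694976c10cb8f138f6fa2d57148f540d58d60908489b573dabaf59f8e32ef2f58f530d6459345934513 = true := by decide +kernel

theorem cB13_10_3_7 : chunkOkM (LB13_10.ctx true true 103 1 1 1 1 1 1 1 1) muQ true true 64 RtB13_10.Cx RtB13_10.CX RtB13_10.Ctp.right RtB13_10.Ce.left RtB13_10.CTp.right RtB13_10.CEr 0x69 = true := by decide +kernel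

theorem cB13_10_3_8 : chunkOkM (LB13_10.ctx true true 219 19 16 13 16 64 35 32 16) muQ true true 64 RtB13_10.Cx RtB13_10.CX RtB13_10.Ctp.right.left RtB13_10.Ce.right.left RtB13_10.CTp.right RtB13_10.CEr.left 0x122fa6e7999baead5f3399f8455c33be8f130d = true := by decide +kernel

theorem cB13_10_3_9 : chunkOkM (LB13_10.ctx true true 244 19 16 13 16 256 133 128 35) muQ true true 64 RtB13_10.Cx RtB13_10.CX RtB13_10.Ctp.right.left RtB13_10.Ce.right.left.left RtB13_10.CTp.right RtB13_10.CEr.right 0x69157dfc808f06c418e66888fd17cf27176cbd37763a8f530d3e1de7177f06c45b11ee518fdc82f1de7f840247f008f6ca8090f78f540d627ba7ee1596ca74cbdd089b20d186a4dbc8fd45952566c177c3dc79b4c1aa3518f6df9f50318f550d64a553 = true := by decide +kernel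

theorem cB13_10_3_10 : chunkOkM (LB13_10.ctx true true 237 19 16 13 16 256 147 64 16) muQ true true 64 RtB13_10.Cx RtB13_10.CX RtB13_10.Ctp.right.left.left RtB13_10.Ce.right.left.right RtB13_10.CTp.right RtB13_10.CEr.right 0x59195f4b408fd8b909fc7f94bf4b5f81310d937f6936646578f550d412c01d18fd95bc47476c8ee5f7a48f530d54593 = true := by decide +kernel

theorem cB13_10_3_11 : chunkOkM (LB13_10.ctx true true 245 19 16 13 16 256 161 128 35) muQ true true 64 RtB13_10.Cx RtB13_10.CX RtB13_10.Ctp.right.left.right RtB13_10.Ce.right.left.right RtB13_10.CTp.right RtB13_10.CEr.right 0x2f90743f8f06c22a217cb8fd86ede266c7e140b618f530d31e8cfb4a8f06c42a23dbdc8fd94ae6a27f82901fcef8f65bf3861f8f540d62f60c9cc996cce37226b89b48f81ab7f630d982860c7f05b5fe702768f05b30464a55 = true := by decide +kernel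

theorem cB13_10_3_12 : chunkOkM (LB13_10.ctx true true 249 19 16 13 16 256 357 128 35) muQ true true 64 RtB13_10.Cx RtB13_10.CX RtB13_10.Ctp.right.left RtB13_10.Ce.right.right RtB13_10.CTp.right RtB13_10.CEr 0x59183de9f18fd74a1b566cde9cd4128f530d20bad4eb8fd1ce890376c6f8b297b8f530d1fd485a38fd15b653976c1187faa48f938cae11c8f540d441866eda48fd8cadb247f849a03a0c8f66a107bde8f540d63ff360f5296c1185f704799bb8506b6a8f530d1800d7c18fd1da39b076c11c721279b36112d168f669f3679d8f550d64a557ad1828689b4b15c953c9f8421137b68f6745dfb388f540d65934593 = true := by decide +kernel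

theorem cB13_10_3_13 : chunkOkM (LB13_10.ctx true true 218 19 16 13 16 77 21 32 16) muQ true true 64 RtB13_10.Cx RtB13_10.CX RtB13_10.Ctp.right.right RtB13_10.Ce.right RtB13_10.CTp.right RtB13_10.CEr.left 0x165112a48abd908dd6e19f850ec3a578f6461140298f040d = true := by decide +kernel

theorem cB13_10_3_14 : chunkOkM (LB13_10.ctx true true 292 289 256 13 16 4235 5369 64 16) muQ true true 64 RtB13_10.Cx RtB13_10.CX RtB13_10.Ctp.right.right RtB13_10.Ce.right.left RtB13_10.CTp.right RtB13_10.CEr.right 0x111111696969696969691b6cfd9a8f06c410fe2568fda1c6a1576c20d57777694694694694114333114331143 = true := by decide +kernel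

theorem cB13_10_3_15 : chunkOkM (LB13_10.ctx true true 247 19 16 13 16 297 189 128 35) muQ true true 64 RtB13_10.Cx RtB13_10.CX RtB13_10.Ctp.right.right.left RtB13_10.Ce.right.right.left RtB13_10.CTp.right.left RtB13_10.CEr.right 0x3acc4ad4296c105f4ed9499b171d45a18f630d18eed1938fd2a9c9ee76cf619c469b2a6c2fdd8f640d1b09b51f8fd24427d776c117d4c579b4ddad4228f631fae8d48f550d31416a7338fd13d52bf76c127bcba79b33829fa78f640d464a5 = true := by decide +kernel

theorem cB13_10_3_16 : chunkOkM (LB13_10.ctx true true 261 19 16 27 32 297 385 135 145) muQ true true 64 RtB13_10.Cx RtB13_10.CX RtB13_10.Ctp.right.right.left RtB13_10.Ce.right.right.left RtB13_10.CTp.right.right RtB13_10.CEr.right 0x222e159c3b8fd992dffb7f94026e857f760883edf8f6ca9f8827f550d22865a532e392b58fd1a3829076c1cca02f88f630d3f912b498fda3579a66c460f52068f64078a57d8f540d37c7495f8fdbc2a5a66cc6442cd7f625c566a78f540d4361b1bbd248fd181ccc476c4784a097f94e8208cd8f640d41233ed678d8fd12d03466c67c099468f6108fe3cb8f540d198255af8f06b46a612656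 = true := by decide +kernel

theorem cB13_10_3_17 : chunkOkM (LB13_10.ctx true true 251 19 16 13 16 297 203 128 75) muQ true true 64 RtB13_10.Cx RtB13_10.CX RtB13_10.Ctp.right.right.left RtB13_10.Ce.right.right.right RtB13_10.CTp.right RtB13_10.CEr.right 0x692da708708fd22531fe76c7f3642b68f630d36bb2f838fddd2f2466c5b750a958f630d61c0ff54f8fdbc17e466c116463788f97720277a8f663b5e4e58f550d37aad76c9296c2255987e299b18058a988f630d52a9a5ffc8fdde31530d8f623fedac7f530d19ebb3078fd236b29c76cfeb68169b61e1e03d8f640d15e3a4d78fd1d68ce876cc21c6b69b3d5cc9cd8f63b7472938f550d34a5564 = true := by decide +kernel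

theorem cB13_10_3_18 : chunkOkM (LB13_10.ctx true true 103 1 1 1 1 1 1 1 1) muQ true true 64 RtB13_10.Cx RtB13_10.CX RtB13_10.Ctp.right.right.right RtB13_10.Ce.right.right RtB13_10.CTp.right.left.left RtB13_10.CEr.right 0x4a = true := by decide +kernel

end Vale.Agent.helper4.Q4
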