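import Vale.Agent.helper4.Q4TreeM
import Vale.Agent.helper4.Q4G.PB13_10

/-!
Checks for pairs of intervals of second moments.
-/

set_option maxRecDepth 100000
set_option linter.unusedVariables false

namespace Vale.Agent.helper4.Q4

theorem cB13_10_3_19 : chunkOkM (LB13_10.ctx true true 315 639 512 13 16 10571 3409 128 128) muQ true true 64 RtB13_10.Cx RtB13_10.CX RtB13_10.Ctp.right.right.right RtB13_10.Ce.right.right RtB13_10.CTp.right.left.right RtB13_10.CEr.right.left 0x0101012121010136aa95e28fd4fd786bd85c37bf4b278b4b3928fa8f6c07dccb7f21628830b8f060d331b1137f01c611411430170173401741140173017333a9781c68fd522d1a576c4e9e4c69b2dd5cf7c8f61bdac3b78f26a7bf637f060d3e603c368fd69b8dcc76c438b73d78b34556c528f6ff1d5b17f2e224a557f060d2b5e19238fd320257c76c902583c78b2fe1c6e78f6ec1995b7f2cdca5127f060d642e78464d8fd33f7ad3485c21b7682d8f616bee84c8f28c3b1a67f050d6311693dccba158fd5d7f67d76c5cbccbe78b50e2532c8f61b3cf8c7f1135e7e398f060d120328e28fd19600bf685c544ec2b98f64656f537f112f6b28d8f050d6769411434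 = true := by decide +kernel

theorem cB13_10_3_20 : chunkOkM (LB13_10.ctx true true 238 19 16 13 16 165 49 128 35) muQ true true 64 RtB13_10.Cx RtB13_10.CX RtB13_10.Ctp.right.right.right RtB13_10.Ce.right.right RtB13_10.CTp.right.left.right RtB13_10.CEr.right.right 0x47c6b502196c1446e887b99b1711fa8a8f616c78a6f11064a82d8f050d = true := by decide +kernel

theorem cB13_10_3_21 : chunkOkM (LB13_10.ctx true true 250 19 16 13 16 341 105 128 128) muQ true true 64 RtB13_10.Cx RtB13_10.CX RtB13_10.Ctp.right.right.right RtB13_10.Ce.right.right RtB13_10.CTp.right.right RtB13_10.CEr.right.left 0x123ffb64fa8fd1d17eaa76c187d86b68f66045d4498f21831958b8f150d458279178fd148af3576c1feb59b28f6203e1abd8f2aba239b7f050d34086d8258fd16fb99d76c1ea9dd648f6358b43ee8f211ce554a8f150d46a61265 = true := by decide +kernel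

theorem cB13_10_3_22 : chunkOkM (LB13_10.ctx true true 259 37 32 13 16 319 385 135 75) muQ true true 64 RtB13_10.Cx RtB13_10.CX RtB13_10.Ctp.right.right.right RtB13_10.Ce.right.right.left RtB13_10.CTp.right.right RtB13_10.CEr.right.right 0x11693e43db348fd1d7f00076c42a20b998f63fde3ac7f1ed7b11b7f050d2ceac3dd8fd9bd1c6a48f615801f358f130d23cfd6b78fd2f756a576c4f1db50e8f641462827f1fd527e27f050d5676941143 = true := by decide +kernel

theorem cB13_10_3_23 : chunkOkM (LB13_10.ctx true true 313 639 512 13 16 10571 3409 135 75) muQ true true 64 RtB13_10.Cx RtB13_10.CX RtB13_10.Ctp.right.right.right RtB13_10.Ce.right.right.right RtB13_10.CTp.right.right RtB13_10.CEr.right.right 0x010101010121215b55122c8f06c2a88bf7d8fd149b4a7085cc012c7048f688cc40b7f2131159f68f050d611411444114301730173017017301732262fe6b8fd2ae85766c612abc67f923e596948f6f2fb2047f297165187f060d5a5212ddc0f598fd149c3c6385c4ad0c9ae8f61fb431a28f28623cc97f050d21741683c21e8fd52fb65b7f829eed21d8f6aa252917f040d2dda6b298fd2b37cd076c2ea7e69a8f6dd816157f2b86eefa7f050d5463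 = true := by decide +kernel

theorem cB13_10_2_0 : chunkOkM (LB13_10.ctx false true 103 1 1 1 1 1 1 1 1) muQ false true 64 RtB13_10.Cx RtB13_10.CX RtB13_10.Ctn RtB13_10.Ce RtB13_10.CTp RtB13_10.CEr 0x49 = true := by decide +kernel

theorem cB13_10_1_0 : chunkOkM (LB13_10.ctx true false 103 1 1 1 1 1 1 1 1) muQ true false 64 RtB13_10.Cx RtB13_10.CX RtB13_10.Ctp RtB13_10.Ce RtB13_10.CTn RtB13_10.CEr 0x4a = true := by decide +kernel

theorem cB13_10_0_0 : chunkOkM (LB13_10.ctx false false 103 1 1 1 1 1 1 1 1) muQ false false 64 RtB13_10.Cx RtB13_10.CX RtB13_10.Ctn RtB13_10.Ce RtB13_10.CTn RtB13_10.CEr 0x49 = true := by decide +kernel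

end Vale.Agent.helper4.Q4
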