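import Vale.Agent.helper4.Q4TreeM
import Vale.Agent.helper4.Q4G.PB13_6

/-!
Checks for pairs of intervals of second moments.
-/

set_option maxRecDepth 100000
set_option linter.unusedVariables false

namespace Vale.Agent.helper4.Q4

theorem cB13_6_1_7 : chunkOkM (LB13_6.ctx true false 205 37 32 5 16 319 385 8 128) muQ true false 64 RtB13_6.Cx RtB13_6.CX RtB13_6.Ctp.right.right.right RtB13_6.Ce.right.right.left.right RtB13_6.CTn RtB13_6.CEr.left 0x116910d51580291cf3de83d58b8153ef8a58b230db14c41b71c16b44c2e8b6881d7a87b230d576943 = true := by decide +kernel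

theorem cB13_6_1_8 : chunkOkM (LB13_6.ctx true false 228 79 64 5 16 2277 1575 8 128) muQ true false 64 RtB13_6.Cx RtB13_6.CX RtB13_6.Ctp.right.right.left RtB13_6.Ce.right.right.right.left RtB13_6.CTn RtB13_6.CEr.left 0x8f98be971c56e03537b841747a998b630d693217968c93d71c6062e1c7b85128f4238b630d75b31cf71c452a7767b8536ccc9c8b630d69739f358a671c7b41ed67b836c3abd7c630d187b4cc081c2e52522b8b620d5f8876871c2f02f0c7c620d6835ae071c1f7720cd8b6ba5eb8a7b530d37163a8c71c5d056ea28b620d7534aed029a71c5cbe61d7b85c3324798b630d74595959baf5a0f381ca98015aa8b829e0bfd7c630d557b55171c1ab4f7248b6edb53b27b530d55934593597459759343 = true := by decide +kernel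

theorem cB13_6_1_9 : chunkOkM (LB13_6.ctx true false 220 79 64 5 16 649 833 8 256) muQ true false 64 RtB13_6.Cx RtB13_6.CX RtB13_6.Ctp.right.right.right RtB13_6.Ce.right.right.right.left RtB13_6.CTn RtB13_6.CEr.left 0x13658cac091cfb918b568b838b031c98b630da41c86c71c664fd787b143320f6e8b030d9b0938471c2fa89177c66ecedc37b230d8d5c84d71c53f9a1d08b620d3a11138171c395e7faf8b6bae02017b230d6937995aace71c3051d8be8b620da04bd8771c24f7d857c6d0419587b230d9b8ed0271c584f6d208b620d3743511e6cc1d1a81cd0691dfb8b827e15ceb8b630d9f182ec71c1fe61b128b61b8773a7b230d5342101164ee45bf91c143129a269b820de82578b66cd6e36c240dac920c471c1bb367d88b6e6dd5937b230d890b6bb71c94370d6c8203cbbfb8b6d75a6e57b240d6217adc271671c26deb2b88b6896822a7b230da7b152071c2bdf0c6d8b6100c7cca8b230d745347 = true := by decide +kernel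

theorem cB13_6_1_10 : chunkOkM (LB13_6.ctx true false 218 79 64 5 16 649 847 8 128) muQ true false 64 RtB13_6.Cx RtB13_6.CX RtB13_6.Ctp.right.right RtB13_6.Ce.right.right.right.right RtB13_6.CTn RtB13_6.CEr.left 0x2121a99825b71c656290a7b8c1099a47b6184d53f7c240d10f88390c91cfc3829778b82b55ea57c61205bf67c240d9afc0c171c3f71fd058b680d22c77b230d5693342174217693 = true := by decide +kernel

theorem cB13_6_1_11 : chunkOkM (LB13_6.ctx true false 83 1 1 1 1 1 1 1 1) muQ true false 64 RtB13_6.Cx RtB13_6.CX RtB13_6.Ctp RtB13_6.Ce RtB13_6.CTn RtB13_6.CEr.right 0x5a = true := by decide +kernel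

theorem cB13_6_0_0 : chunkOkM (LB13_6.ctx false false 83 1 1 1 1 1 1 1 1) muQ false false 64 RtB13_6.Cx RtB13_6.CX RtB13_6.Ctn RtB13_6.Ce RtB13_6.CTn RtB13_6.CEr 0x49 = true := by decide +kernel

end Vale.Agent.helper4.Q4
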