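import Vale.Agent.helper4.Q4TreeM
import Vale.Agent.helper4.Q4G.PB13_7

/-!
Checks for pairs of intervals of second moments.
-/

set_option maxRecDepth 100000
set_option linter.unusedVariables false

namespace Vale.Agent.helper4.Q4

theorem cB13_7_3_30 : chunkOkM (LB13_7.ctx true true 265 639 512 7 16 10571 3409 128 128) muQ true true 64 RtB13_7.Cx RtB13_7.CX RtB13_7.Ctp.right.right.right RtB13_7.Ce.right.right.right.right RtB13_7.CTp.left RtB13_7.CEr 0x21215a1ae5bb1480c24dc406d8a6384fc8d7b230d2217274580c59ea12b7b638be176b230d365a5010101010190ff65370c6738456c62fcd3307b230d31705c1a6bd63980c98a0876c63839b037b230d6511411433330170173017e32b87270c7eecee77b624a46f37b230d6a62942a93c80c56ddb0b7b625575ab7b230df59b06970c7955a8b7b6307b2a97b230d1d3a161880ca23f9047b6256c1c07b230d5656933642174217 = true := by decide +kernel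

theorem cB13_7_3_31 : chunkOkM (LB13_7.ctx true true 220 39 32 7 16 649 833 64 128) muQ true true 64 RtB13_7.Cx RtB13_7.CX RtB13_7.Ctp.right.right.right RtB13_7.Ce.right.right.right.left RtB13_7.CTp.right RtB13_7.CEr 0xf921b56a8a772b9068a114d7413359a030d34ba9157a84e1f213d8a6f23a2e6b230d3575f587a84ef43e87b6f0173e6b230d41031be6780c6a4b2007b61b5a44b7b230d651c55570c1c787797b620416767b230d6cdcf1a670ca238c5f78a620d31167a77d80c3eb5e8e7b615924177b230d3edc0ed70c583da187b61655a857b230d6452174a840697a846c6cfd98a620d376a2167a83e2819618a61ce1efa7b230d7ca940a61c3d6ccc008a6c3a7856b230d1468945380c26e93f7d8a61f6fbdc7b230d4b65b1b70c13f2790e8a6294566c7b230d67543127ef478d7a82fee13268a6244dcb17b230d12656 = true := by decide +kernel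

theorem cB13_7_3_32 : chunkOkM (LB13_7.ctx true true 248 639 512 7 16 2651 847 64 128) muQ true true 64 RtB13_7.Cx RtB13_7.CX RtB13_7.Ctp.right.right.right RtB13_7.Ce.right.right.right.right RtB13_7.CTp.right RtB13_7.CEr 0x2121010101342f01cacbe74170c1c9a4107b62165bc17b230d533017017017336fb99d7a85d257937b6170b37a7b230df184a1470c5b8ced57b619d13977b230d4cc5b2870c8a9f5237b620d656933deb8ce87a846d5a397b6120f8a27b230d621742174 = true := by decide +kernel

theorem cB13_7_2_0 : chunkOkM (LB13_7.ctx false true 81 1 1 1 1 1 1 1 1) muQ false true 64 RtB13_7.Cx RtB13_7.CX RtB13_7.Ctn RtB13_7.Ce RtB13_7.CTp RtB13_7.CEr 0x49 = true := by decide +kernel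

theorem cB13_7_1_0 : chunkOkM (LB13_7.ctx true false 189 19 16 7 16 64 32 32 512) muQ true false 64 RtB13_7.Cx RtB13_7.CX RtB13_7.Ctp.left RtB13_7.Ce RtB13_7.CTn.left.left.left RtB13_7.CEr.left.left.left.left 0x1e8343c8c5bd5a7b61ed97bf88b530d64e5f52c53ea1c678a61410ad998b530d17804f05b383cf5f948a6595535778b420d44 = true := by decide +kernel

theorem cB13_7_1_1 : chunkOkM (LB13_7.ctx true false 222 79 64 7 16 341 847 32 512) muQ true false 64 RtB13_7.Cx RtB13_7.CX RtB13_7.Ctp.right RtB13_7.Ce RtB13_7.CTn.left.left.left RtB13_7.CEr.left.left.left.left 0x21212aac5a071c3a04ab6c85128fa058a63a4f1c47b240d421742173313f00b33bb4ba71c17a67a6c866d6f757b61b8dd9d7b240d242605c43212a0608271c88f3c66c8348ba6a98a6268b0517b278a19ad7a050d474691efc53271c4aa4f66c86aeecc948a63db0156b540d9d33f05b343291d27671c4c5b6e6c81d381e118a615404db08a29ef640f7a050d2ed456671c346ee16c82a41c8838a630d1c4ec7e71c3caacc048a62940d927b530d37e2f05b4342336ba62c238ad5d81a6ed8bc8a66a81bca7b540d593316c3f01b2f33f05b91b3f05b31f63f05b434694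 = true := by decide +kernel

theorem cB13_7_1_2 : chunkOkM (LB13_7.ctx true false 81 1 1 1 1 1 1 1 1) muQ true false 64 RtB13_7.Cx RtB13_7.CX RtB13_7.Ctp RtB13_7.Ce RtB13_7.CTn.left.left.left RtB13_7.CEr.left.left.left.right 0x5a = true := by decide +kernel

theorem cB13_7_1_3 : chunkOkM (LB13_7.ctx true false 81 1 1 1 1 1 1 1 1) muQ true false 64 RtB13_7.Cx RtB13_7.CX RtB13_7.Ctp RtB13_7.Ce RtB13_7.CTn.left.left.left RtB13_7.CEr.left.left.right 0x5a = true := by decide +kernel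

theorem cB13_7_1_4 : chunkOkM (LB13_7.ctx true false 81 1 1 1 1 1 1 1 1) muQ true false 64 RtB13_7.Cx RtB13_7.CX RtB13_7.Ctp RtB13_7.Ce RtB13_7.CTn.left.left.right RtB13_7.CEr.left.left 0x5a = true := by decide +kernel

theorem cB13_7_1_5 : chunkOkM (LB13_7.ctx true false 81 1 1 1 1 1 1 1 1) muQ true false 64 RtB13_7.Cx RtB13_7.CX RtB13_7.Ctp RtB13_7.Ce RtB13_7.CTn.left.left RtB13_7.CEr.left.right 0x5a = true := by decide +kernel

theorem cB13_7_1_6 : chunkOkM (LB13_7.ctx true false 81 1 1 1 1 1 1 1 1) muQ true false 64 RtB13_7.Cx RtB13_7.CX RtB13_7.Ctp RtB13_7.Ce RtB13_7.CTn.left.right RtB13_7.CEr.left 0x5a = true := by decide +kernel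

theorem cB13_7_1_7 : chunkOkM (LB13_7.ctx true false 81 1 1 1 1 1 1 1 1) muQ true false 64 RtB13_7.Cx RtB13_7.CX RtB13_7.Ctp RtB13_7.Ce RtB13_7.CTn.left RtB13_7.CEr.right 0x52 = true := by decide +kernel

theorem cB13_7_1_8 : chunkOkM (LB13_7.ctx true false 81 1 1 1 1 1 1 1 1) muQ true false 64 RtB13_7.Cx RtB13_7.CX RtB13_7.Ctp RtB13_7.Ce RtB13_7.CTn.right RtB13_7.CEr 0x5a = true := by decide +kernel

theorem cB13_7_0_0 : chunkOkM (LB13_7.ctx false false 81 1 1 1 1 1 1 1 1) muQ false false 64 RtB13_7.Cx RtB13_7.CX RtB13_7.Ctn RtB13_7.Ce RtB13_7.CTn RtB13_7.CEr 0x49 = true := by decide +kernel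

end Vale.Agent.helper4.Q4
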