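import Vale.Agent.helper4.Q4TreeM
import Vale.Agent.helper4.Q4G.PB13_9

/-!
Checks for pairs of intervals of second moments.
-/

set_option maxRecDepth 100000
set_option linter.unusedVariables false

namespace Vale.Agent.helper4.Q4

theorem cB13_9_3_0 : chunkOkM (LB13_9.ctx true true 265 289 256 11 16 2048 256 64 32) muQ true true 64 RtB13_9.Cx RtB13_9.CX RtB13_9.Ctp.left.left RtB13_9.Ce.left RtB13_9.CTp RtB13_9.CEr 0x41414141515151712512f7cd27e977f72c638cf587c81c61d9be8d634b32f058d59d6635e460dd6dd7e57cd1571c93e82c155abb276ba6ee2357d615be87c7e521694e460d54446947749374937493413413 = true := by decide +kernel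

theorem cB13_9_3_1 : chunkOkM (LB13_9.ctx true true 89 1 1 1 1 1 1 1 1) muQ true true 64 RtB13_9.Cx RtB13_9.CX RtB13_9.Ctp.left.right RtB13_9.Ce.left.left RtB13_9.CTp RtB13_9.CEr 0x69 = true := by decide +kernel

theorem cB13_9_3_2 : chunkOkM (LB13_9.ctx true true 237 19 16 21 32 128 128 256 64) muQ true true 64 RtB13_9.Cx RtB13_9.CX RtB13_9.Ctp.left.right RtB13_9.Ce.left.right RtB13_9.CTp.left RtB13_9.CEr 0x4a18e1529d8cdf28160272c2d99264b8c68053b8c7d540d1848a73f8cd1978957182c1fbe64878c668297487d540d662864f06c4603329b7cd960f653c3d258d66b4bdc2d97d6e7708037d550d3695fb40e27cd2a393f62c493cdb66b5fb720f98c6f1c00017d522e71c37d460d3484a5425 = true := by decide +kernel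

theorem cB13_9_3_3 : chunkOkM (LB13_9.ctx true true 273 19 16 41 64 128 64 4096 4096) muQ true true 64 RtB13_9.Cx RtB13_9.CX RtB13_9.Ctp.left.right RtB13_9.Ce.left.right RtB13_9.CTp.right RtB13_9.CEr.left 0x1212126a6a6a4a6a1fe4e5f05b612575f05b3a6c3d5ed801ef0c48c61299e121e9c512731377d440d4886a66a66a6551265512651265 = true := by decide +kernel

theorem cB13_9_3_4 : chunkOkM (LB13_9.ctx true true 228 19 16 11 16 256 128 64 64) muQ true true 64 RtB13_9.Cx RtB13_9.CX RtB13_9.Ctp.left.right RtB13_9.Ce.left.right RtB13_9.CTp.right RtB13_9.CEr.right 0x64cc4f06c671fcb27cd17738b572c37e4acf7c926fb0e9d8c68670af27d550d361fcc267cd373c37272c3b6ca777c76025b4d7c61f1841978c550d471c99277cda9ac1063c3dcc7c17c828b9b26d73dbf0977d6cc52de57d560d369648ca087cd12fe85172c101c8277c927eaa187c76a5ec407c62e0a8ca7d516d7fc37d470d75399097cdbf99d46c82470dd77c74b7d55c7d5144481e7d450d3704c5e77cd229f5e472c33827877c73d496e278c6942c36d7d533e399c7d460d434 = true := by decide +kernel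

theorem cB13_9_3_5 : chunkOkM (LB13_9.ctx true true 236 19 16 11 16 256 128 256 64) muQ true true 64 RtB13_9.Cx RtB13_9.CX RtB13_9.Ctp.left RtB13_9.Ce.right RtB13_9.CTp RtB13_9.CEr 0x5159596d23b747cdab516cf72c305e20f7c945dc67b7c868ff18c7c63dde7bd7d560dc747b937cdaa2a79c72c3293d7e7d530d6755d3637cd86e2a0772c594f19475b32098357d540d4a54255459345934513 = true := by decide +kernel

theorem cB13_9_3_6 : chunkOkM (LB13_9.ctx true true 89 1 1 1 1 1 1 1 1) muQ true true 64 RtB13_9.Cx RtB13_9.CX RtB13_9.Ctp.right RtB13_9.Ce.left RtB13_9.CTp RtB13_9.CEr 0x69 = true := by decide +kernel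

theorem cB13_9_3_7 : chunkOkM (LB13_9.ctx true true 241 19 16 21 32 256 147 256 64) muQ true true 64 RtB13_9.Cx RtB13_9.CX RtB13_9.Ctp.right.left RtB13_9.Ce.right.left RtB13_9.CTp.left RtB13_9.CEr 0x4ac85f0217cd11c64edc82c93ed4f27c6153e83d88c540d104c99d98cd10def88d82c33dfd1975b8fa53f77c615f3911a8c550d65957a06c37cd6b2bede72c4c6f0466b21062b77d540d4593369a3218477cd100f5a2f82ccb2b0997c62badff3a8c540d1152f11b8cd12a87b2a82cb2b3e977c62a52f0558c540d63484a5425 = true := by decide +kernel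

theorem cB13_9_3_8 : chunkOkM (LB13_9.ctx true true 273 19 16 41 64 128 77 4096 4096) muQ true true 64 RtB13_9.Cx RtB13_9.CX RtB13_9.Ctp.right.left RtB13_9.Ce.right.left RtB13_9.CTp.right RtB13_9.CEr.left 0x1212126a6a6a4a6aa3a64f05b380d25f05b369107ca5f05b34886a66a66a6126555512651265 = true := by decide +kernel

theorem cB13_9_3_9 : chunkOkM (LB13_9.ctx true true 228 19 16 11 16 256 133 64 64) muQ true true 64 RtB13_9.Cx RtB13_9.CX RtB13_9.Ctp.right.left RtB13_9.Ce.right.left.left RtB13_9.CTp.right RtB13_9.CEr.right 0x695e264d97cd517f42d72c14f94e27c9fa5c32c7c540d69cc72f7cdc61d87072c27d270e7c9418fdcf7c82a663b17c62d6d61448c560d3787f4f06c43 = true := by decide +kernel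

theorem cB13_9_3_10 : chunkOkM (LB13_9.ctx true true 232 19 16 11 16 256 147 128 64) muQ true true 64 RtB13_9.Cx RtB13_9.CX RtB13_9.Ctp.right.left.left RtB13_9.Ce.right.left.right RtB13_9.CTp.right RtB13_9.CEr.right 0x594fe17f07cd279753d7c929ee8417c72f2fe287c623f0375e8c550d88f62c17cde090cd872c23a0db738c530d54593 = true := by decide +kernel

theorem cB13_9_3_11 : chunkOkM (LB13_9.ctx true true 235 19 16 11 16 256 161 128 128) muQ true true 64 RtB13_9.Cx RtB13_9.CX RtB13_9.Ctp.right.left.right RtB13_9.Ce.right.left.right RtB13_9.CTp.right RtB13_9.CEr.right 0x1caa4f05b49ce3b37cd11cb2a67c816d78f67c7186e3f158c540d3641df037cd1279004d82c2b5d88d7c610ab861c8c540d581f45aa7cd6ad85dd72c4299fd77c9875365c640d455016c27cd646ff9672c47d79ee7c69b83a277c540d69187797cd65c46ed72c1b555f548c530d3382f4f06c46 = true := by decide +kernel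

theorem cB13_9_3_12 : chunkOkM (LB13_9.ctx true true 261 39 32 21 32 517 735 256 128) muQ true true 64 RtB13_9.Cx RtB13_9.CX RtB13_9.Ctp.right.left RtB13_9.Ce.right.right RtB13_9.CTp RtB13_9.CEr 0x59595956080dc7cdd119f4172c24ae7df7c811231477c756444ce7d550d59745934475b0307cd8d65b52c13c493b7c914c530858c540d513feb97cd148d5fa582c25b2036d6c676096d540d550222047cd16a1be5e8c520d8adb1807cdd1a142172c14c8e68e8c530d56499237a37cdbf725137c61f362837d530d64a7bec2f47cd19644eec82ccafa956b933a5757c61d9a1b27d550db31c8817cde2318f772c235e46875bd1073587c618bfe40e8c550d684a542555934593 = true := by decide +kernel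

theorem cB13_9_3_13 : chunkOkM (LB13_9.ctx true true 297 289 256 21 32 4235 5369 256 64) muQ true true 64 RtB13_9.Cx RtB13_9.CX RtB13_9.Ctp.right.right RtB13_9.Ce.right.left RtB13_9.CTp RtB13_9.CEr 0x1111116969696969696964316d67cd14e06dba82c4782b327c8b98d0e6c740d125605f01c64a539beeb7cda56219c72c4c9b1ec75b30d84a542557777694694694694114114333331143 = true := by decide +kernel

theorem cB13_9_3_14 : chunkOkM (LB13_9.ctx true true 89 1 1 1 1 1 1 1 1) muQ true true 64 RtB13_9.Cx RtB13_9.CX RtB13_9.Ctp.right.right RtB13_9.Ce.right.right RtB13_9.CTp.left.left RtB13_9.CEr 0x42 = true := by decide +kernel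

theorem cB13_9_3_15 : chunkOkM (LB13_9.ctx true true 89 1 1 1 1 1 1 1 1) muQ true true 64 RtB13_9.Cx RtB13_9.CX RtB13_9.Ctp.right.right RtB13_9.Ce.right.right RtB13_9.CTp.left.right.left RtB13_9.CEr 0x4a = true := by decide +kernel

theorem cB13_9_3_16 : chunkOkM (LB13_9.ctx true true 251 19 16 21 32 341 217 256 256) muQ true true 64 RtB13_9.Cx RtB13_9.CX.left RtB13_9.Ctp.right.right RtB13_9.Ce.right.right RtB13_9.CTp.left.right.right RtB13_9.CEr.left 0xe07a3667cd14d36a9d82c1aec56375b1202a6668c61202c7888c21a746077c060db1828197cd14418acc82cae778f65ba915a0be8c260421dde8c150df6d1a057cd175fb5da82c1c2951d75bb7ed21f7c680eb81c7c21c90c917c060d346920dac1008cd2a79aeb73c3314460e8c630d43f848c3e7cd1cc386973ce9f068e7c6e26f156c13dcc4327c050dfe2eb1c7cd1b36d83082c38168577c66a1c5ef7c240dc7c752b7cd123525ca82c7eeb0d17c6a9d2f337c540d324e94f06b4346a6126 = true := by decide +kernel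

end Vale.Agent.helper4.Q4
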