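import Vale.Agent.helper4.Q4TreeM
import Vale.Agent.helper4.Q4G.PB13_9

/-!
Checks for pairs of intervals of second moments.
-/

set_option maxRecDepth 100000
set_option linter.unusedVariables false

namespace Vale.Agent.helper4.Q4

theorem cB13_9_3_17 : chunkOkM (LB13_9.ctx true true 260 19 16 21 32 165 217 1024 1024) muQ true true 64 RtB13_9.Cx RtB13_9.CX.left RtB13_9.Ctp.right.right RtB13_9.Ce.right.right RtB13_9.CTp.left.right.right RtB13_9.CEr.right 0x525a5a5a79172063ce4570a47c613aa03a88c21836cd17c040d249c2c17dd2f815fd73c115499838c62eaf0fd7c2436044e7c050d479fbfd63c1158e9908c692e133b7c530d3cbcc486dd14d15a873c1f336166b7393ab47c61d11786c149991587c060d8fe27263c18c6ecca8c644fcb787c530d043465a565a566 = true := by decide +kernel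

theorem cB13_9_3_18 : chunkOkM (LB13_9.ctx true true 89 1 1 1 1 1 1 1 1) muQ true true 64 RtB13_9.Cx RtB13_9.CX.right RtB13_9.Ctp.right.right RtB13_9.Ce.right.right RtB13_9.CTp.left.right.right RtB13_9.CEr 0x4a = true := by decide +kernel

theorem cB13_9_3_19 : chunkOkM (LB13_9.ctx true true 279 19 16 41 64 165 217 4096 4096) muQ true true 64 RtB13_9.Cx RtB13_9.CX RtB13_9.Ctp.right.right RtB13_9.Ce.right.right RtB13_9.CTp.right RtB13_9.CEr.left 0x1212126a6a6a4a6a363a0063c151623bb8c6da084297c22252ac07c040d8748d463cf03a12a7c661de49f7c2311b3287c040d45cca8363c10e87adc8c69930ac97c530d366b3cd63c1095f6958c627323407c130d37fca53c186a79098c64c93f217c530d0434886a66a66a6126555512651265 = true := by decide +kernel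

theorem cB13_9_3_20 : chunkOkM (LB13_9.ctx true true 254 19 16 11 16 297 385 512 512) muQ true true 64 RtB13_9.Cx RtB13_9.CX RtB13_9.Ctp.right.right.left RtB13_9.Ce.right.right.left RtB13_9.CTp.right RtB13_9.CEr.right.left 0x126a249a4f02b108b65f05b3e4b3f01b46a651265915b9947cd103bc4a782cb079d747c630d832c1727cdcf7983672cf5ce6187c6f3ee9447c540da1c64577cdea0f97e72c4c71bb77c6a9aadcb7c540d438a86b2f7cdc5b408f72c11706b2d8c630d45 = true := by decide +kernel

theorem cB13_9_3_21 : chunkOkM (LB13_9.ctx true true 251 19 16 11 16 297 189 512 512) muQ true true 64 RtB13_9.Cx RtB13_9.CX RtB13_9.Ctp.right.right.left RtB13_9.Ce.right.right.left RtB13_9.CTp.right RtB13_9.CEr.right.right 0x50499017cd2a2bdaf72c17f73a67c9778ead67c6776da5c250d45b31887cd1730a9672c17704347c9100790cc8c6ca82dab7c550d337fff0c7cd3ba8ad6c82364867a8c630d45a5a103cd0378cdf9704a672c171483708c649b16db7c540d4b23f01b45a5665a55 = true := by decide +kernel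

theorem cB13_9_3_22 : chunkOkM (LB13_9.ctx true true 250 37 32 11 16 319 385 256 128) muQ true true 64 RtB13_9.Cx RtB13_9.CX RtB13_9.Ctp.right.right.right RtB13_9.Ce.right.right.left RtB13_9.CTp.right RtB13_9.CEr.right 0x11694ecbecb7cd1ed1d1c72c12892d37c9e59277c7c641797957c050d7c9a0107cd282ec862c1ca5faeb8c610eb8867c2481f4107c050d6126ce9658cd1641dd1682c1857401b8c620523077c1274a8587c050d5d66164d8bd71b9c4372c70871307c6e4b5c5c14d428a77c050df85890b7cd19b1fcee82c16666aef8c6115f4e47c1387edd57c050d56576941143 = true := by decide +kernel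

theorem cB13_9_3_23 : chunkOkM (LB13_9.ctx true true 241 19 16 11 16 297 413 128 128) muQ true true 64 RtB13_9.Cx RtB13_9.CX RtB13_9.Ctp.right.right.left RtB13_9.Ce.right.right.right RtB13_9.CTp.right RtB13_9.CEr.right 0x6963d9b647cd20c185f7c988ed786c711df909f8c640d3dd3b737cd2f8873b7c9cf0e0cc7c6fd1519f7c540d3d66215d7cd12fb5ca082c26bd03c68c62f26cd77c540d54b80ade7cdd60c656c835cab7328c630d6c0f40a7cdaacb39472c36ce9e5e8c630dc3ae5f67cdf09480f72c1fe069db8c630d481af7047cda684cbb72c15775ac88c6f9325297c540d3564 = true := by decide +kernel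

theorem cB13_9_3_24 : chunkOkM (LB13_9.ctx true true 267 79 64 11 16 649 847 256 256) muQ true true 64 RtB13_9.Cx RtB13_9.CX RtB13_9.Ctp.right.right.right.left RtB13_9.Ce.right.right.right RtB13_9.CTp.right.left RtB13_9.CEr.right.left 0x2121ac6bf1b7cdff70ed572c10f68f8f8c669f61877c21745df37c050d9bb5f0e48bddda3c5f72c13c23b7b8c6a15cfef7c2f3636b6c050d669321742174917af877cda776b3072ca2c05e37c65c71b847c215ea7827c050d15663f378cd1f8b4ab382cae3f5eb7c66a7f1787c21dda0af7c050d549a58da7cd3d268b872c7c8d9b77c66bc1bf47c2127e7267c050dd20378a7cd1494298f82c4ff80b65bc38ead97c66ee61687c2139cd7b7c060dd9eff727cd15e4f54482c4c5e0465bee780447c62a314c07c22dfe23a7c060d4564 = true := by decide +kernel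

theorem cB13_9_3_25 : chunkOkM (LB13_9.ctx true true 305 639 512 11 16 10571 3409 256 128) muQ true true 64 RtB13_9.Cx RtB13_9.CX RtB13_9.Ctp.right.right.right.right RtB13_9.Ce.right.right.right RtB13_9.CTp.right.left RtB13_9.CEr.right.left 0x01010101012121a4a3f06c90b11717cd12ca495f82c14d1de77e6658e926d240d51141144411433017017301701730173 = true := by decide +kernel

theorem cB13_9_3_26 : chunkOkM (LB13_9.ctx true true 249 19 16 11 16 341 105 512 512) muQ true true 64 RtB13_9.Cx RtB13_9.CX RtB13_9.Ctp.right.right.right RtB13_9.Ce.right.right.right RtB13_9.CTp.right.right RtB13_9.CEr.right.left 0x126a50869597cd55f02cf7c613f511fe8c24333efe7c140d5b8d24c7cd75a61f07c6a40dc387c23515036c040d36a655126 = true := by decide +kernel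

theorem cB13_9_3_27 : chunkOkM (LB13_9.ctx true true 255 19 16 11 16 341 427 512 512) muQ true true 64 RtB13_9.Cx RtB13_9.CX RtB13_9.Ctp.right.right.right RtB13_9.Ce.right.right.right RtB13_9.CTp.right RtB13_9.CEr.right.right 0x2147d740c7cd187462a72c122c055e8c6d6524437c21e6b26b7c050d46fd01a97cd5c15d3472cf78bfd978c28f69fff18c140d6812b767cd250346372c8913c1f7c63db37517c221c16c97c050d820da917cd1d4803072c7e8bc527c6311864b7c216a476d7c050d6345a5a142b31238cdf6cd75572cf7847107c6e7831337c217b723c7c050d63d7f947cd84bfcaa72cb45eb007c663f43da7c232fd9897c050d465a565a55 = true := by decide +kernel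

theorem cB13_9_2_0 : chunkOkM (LB13_9.ctx false true 89 1 1 1 1 1 1 1 1) muQ false true 64 RtB13_9.Cx RtB13_9.CX RtB13_9.Ctn RtB13_9.Ce RtB13_9.CTp RtB13_9.CEr 0x49 = true := by decide +kernel

theorem cB13_9_1_0 : chunkOkM (LB13_9.ctx true false 89 1 1 1 1 1 1 1 1) muQ true false 64 RtB13_9.Cx RtB13_9.CX RtB13_9.Ctp RtB13_9.Ce RtB13_9.CTn RtB13_9.CEr 0x4a = true := by decide +kernel

theorem cB13_9_0_0 : chunkOkM (LB13_9.ctx false false 89 1 1 1 1 1 1 1 1) muQ false false 64 RtB13_9.Cx RtB13_9.CX RtB13_9.Ctn RtB13_9.Ce RtB13_9.CTn RtB13_9.CEr 0x49 = true := by decide +kernel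

end Vale.Agent.helper4.Q4
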