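import Vale.Agent.helper4.Q4TreeM
import Vale.Agent.helper4.Q4G.PB14_6

/-!
Checks for pairs of intervals of second moments.
-/

set_option maxRecDepth 100000
set_option linter.unusedVariables false

namespace Vale.Agent.helper4.Q4

theorem cB14_6_3_0 : chunkOkM (LB14_6.ctx true true 208 21 16 5 16 64 32 8 64) muQ true true 64 RtB14_6.Cx RtB14_6.CX RtB14_6.Ctp.left RtB14_6.Ce RtB14_6.CTp RtB14_6.CEr 0x51592362f4d7ed386b356f8ef59bc6e79873c337e6390a260e8e554fe026f460d5934422327e87ed381242e7e8100aa717e79c6ae807e62a1924a58e5e0c57c6f460d206c79b7ed3a4612a7e824ab16d7e71a7d8f558e656a3902c8e5245a3627f460d322d7bfd7ed38737f77e815f4cb97e71c3319488e64f13adb68e520a94ee7f460d46941144493413 = true := by decide +kernel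

theorem cB14_6_3_1 : chunkOkM (LB14_6.ctx true true 95 1 1 1 1 1 1 1 1) muQ true true 64 RtB14_6.Cx RtB14_6.CX RtB14_6.Ctp.right RtB14_6.Ce.left RtB14_6.CTp RtB14_6.CEr 0x69 = true := by decide +kernel

theorem cB14_6_3_2 : chunkOkM (LB14_6.ctx true true 213 21 16 5 16 69 94 8 64) muQ true true 64 RtB14_6.Cx RtB14_6.CX RtB14_6.Ctp.right.left RtB14_6.Ce.right.left RtB14_6.CTp RtB14_6.CEr 0xd0263a6ed541a056e82e6ee277e6d88933b7e540d1d295d6f05b4113c9c37ed1349c6a7e8401ebc6e731ef5f37e61a75e2358e550d3d8d4466ed1683fb27e84cd7fa6e74365e397e6ec4f94c7e550d414529b97ed1bbf9a37e88e797b6e7592d6397e6241773e58e550d59336917cc5c07ed480cbf17e86e3c15b7e61c22ea938e540d1711dc67ed2a82b5f7e8a22a046e794e52ec7e631345be18e550d32135daf7ed3aa36c57e8108096c7e74815a567e61807b1ad8e5222cce6f460d434 = true := by decide +kernel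

theorem cB14_6_3_3 : chunkOkM (LB14_6.ctx true true 196 21 16 5 16 21 10 8 64) muQ true true 64 RtB14_6.Cx RtB14_6.CX RtB14_6.Ctp.right.right RtB14_6.Ce.right.left RtB14_6.CTp RtB14_6.CEr 0x25b64d6f06b = true := by decide +kernel

theorem cB14_6_3_4 : chunkOkM (LB14_6.ctx true true 217 21 16 5 16 141 102 8 64) muQ true true 64 RtB14_6.Cx RtB14_6.CX RtB14_6.Ctp.right.left RtB14_6.Ce.right.right RtB14_6.CTp RtB14_6.CEr 0x595927377f87edb3f6fb6e83bc826e7e618f51fe38e540d12bfcdf7ed5b12156e917b19f17e6e5f43be7e540d12de1487ed1ecd666e87c3b3247e618fe13bf8e540d3445934593 = true := by decide +kernel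

theorem cB14_6_3_5 : chunkOkM (LB14_6.ctx true true 213 21 16 5 16 75 98 8 64) muQ true true 64 RtB14_6.Cx RtB14_6.CX RtB14_6.Ctp.right.right.left.left RtB14_6.Ce.right.right.left.left.left RtB14_6.CTp RtB14_6.CEr 0x1000f637ed91b37864c3854b36e98372b8d7e679ca82a7e550d = true := by decide +kernel

theorem cB14_6_3_6 : chunkOkM (LB14_6.ctx true true 233 43 32 5 16 297 406 8 64) muQ true true 64 RtB14_6.Cx RtB14_6.CX RtB14_6.Ctp.right.right.left.left.left RtB14_6.Ce.right.right.left.left.right.left RtB14_6.CTp RtB14_6.CEr 0xd80b376ed3a02286e8b2563d37e530d12d571158dd69ff0264c4c9da06e91485fcd7f630979e87e550d133a6b138ddc20cff64c41faa327d9868794a7e6cc909b97e550d12c669668ddc2ea5864c42d2c647d980822e6f6b968f8d7e550d437 = true := by decide +kernel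

theorem cB14_6_3_7 : chunkOkM (LB14_6.ctx true true 240 83 64 5 16 297 414 8 64) muQ true true 64 RtB14_6.Cx RtB14_6.CX RtB14_6.Ctp.right.right.left.left.left RtB14_6.Ce.right.right.left.left.right.right RtB14_6.CTp RtB14_6.CEr 0x146cf7b7ed603b946e917023b87e6ee5963c7e540d1280b32d8ddc11e40373c38098197d977c608b7e6b7bbfeb7e550d195dad308dd6a8ef464c7c69bd67d92458fe238e640d711f8c71d8dd69464964c453c11b7d993a08f6f684d1a6a7e550d13190b078dd49079eb73c5f512e57d92040f0898e63465b4d7e550d7415c6ce4b8dd41198964c7b1b69f7d995df2f87e61124e1ad8e550d37 = true := by decide +kernel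

theorem cB14_6_3_8 : chunkOkM (LB14_6.ctx true true 227 43 32 5 16 153 206 8 64) muQ true true 64 RtB14_6.Cx RtB14_6.CX RtB14_6.Ctp.right.right.left.left.right RtB14_6.Ce.right.right.left.left.right RtB14_6.CTp RtB14_6.CEr 0x01172f307edacd2be64c36924b6e9199855548e640d7113bb8e7ed144b11c74c3c45856e910bb0ab18e640d4 = true := by decide +kernel

theorem cB14_6_3_9 : chunkOkM (LB14_6.ctx true true 211 21 16 5 16 81 50 8 64) muQ true true 64 RtB14_6.Cx RtB14_6.CX RtB14_6.Ctp.right.right.left.right RtB14_6.Ce.right.right.left.left RtB14_6.CTp RtB14_6.CEr 0x1bf1a4d7ed1388d8074cfa23fa6e91da148988e640d = true := by decide +kernel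

theorem cB14_6_3_10 : chunkOkM (LB14_6.ctx true true 227 43 32 5 16 147 214 8 64) muQ true true 64 RtB14_6.Cx RtB14_6.CX RtB14_6.Ctp.right.right.left.left.left RtB14_6.Ce.right.right.left.right.left RtB14_6.CTp RtB14_6.CEr 0xa8e1d66ed6b06236e81af8f2f7e61e2813138e540d1fd7cf328dd7752f5d919a08807e61105893e8e540d12ddead7ed7b9aa364c42ef656e914016acc8e6b570e067e550d74 = true := by decide +kernel

theorem cB14_6_3_11 : chunkOkM (LB14_6.ctx true true 231 43 32 5 16 309 214 8 64) muQ true true 64 RtB14_6.Cx RtB14_6.CX RtB14_6.Ctp.right.right.left.left.right RtB14_6.Ce.right.right.left.right.left RtB14_6.CTp RtB14_6.CEr 0x1185d747ed5bac9064c32a8f66e918b61b07f63dac1f67e550d10e7ce508ddbd019664c1d1cc617d98bf81f67e6d3a3a9e7e550d3a1dbec6ed88533f64c31ddf6af8e630d710d27257ed81b35664c1d32ad6e9794ed117e68a476b37e550dde7be927ddfe4c4964c15c71077d91d68cc2b8e640d11e988568dd5afd4c64c3d8c1bb7d9235deaea8e625020257e550d374 = true := by decide +kernel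

theorem cB14_6_3_12 : chunkOkM (LB14_6.ctx true true 240 87 64 5 16 309 438 8 64) muQ true true 64 RtB14_6.Cx RtB14_6.CX RtB14_6.Ctp.right.right.left.left RtB14_6.Ce.right.right.left.right.right RtB14_6.CTp RtB14_6.CEr 0x126425e7ed63a83764c2cdaf86e91265eee18e6c93d23f7e550d10191fa38ddc61fb6673c13e558b7d99c7a7297e6c2b80407e550d697f3ad7957dda1def064cccb13c6f6a4ba53c7e540d10a99a508dd567e4bf73c2be2a777d92c306b488e63ef6c0a7e550d74f4b82437dd82fbd177e617d607d28e530d34697593 = true := by decide +kernel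

theorem cB14_6_3_13 : chunkOkM (LB14_6.ctx true true 223 43 32 5 16 81 214 8 64) muQ true true 64 RtB14_6.Cx RtB14_6.CX RtB14_6.Ctp.right.right.left.right RtB14_6.Ce.right.right.left.right.left RtB14_6.CTp RtB14_6.CEr 0xe6a5ad6ed1200b6074c46256b6e91e50efb08e640d1341fac38dd28720be74c188975348e625ea85e240d71410ea37ed1d7fd6074c4113596e911bb71bf8e640d4 = true := by decide +kernel

theorem cB14_6_3_14 : chunkOkM (LB14_6.ctx true true 231 43 32 5 16 321 222 8 64) muQ true true 64 RtB14_6.Cx RtB14_6.CX RtB14_6.Ctp.right.right.left.right RtB14_6.Ce.right.right.left.right.right RtB14_6.CTp RtB14_6.CEr 0x112ce107ed268719674c5f06616e81601fa678e640d16d0bf0f8dd22dc89f74c1c741bf38e666d10877e240d196aa3c78dd23ac36074ce2859187e65f0d9767e240d47dad0f6f7dd10dbe6f74c23dcf4e08e630d1031042b8dd64acca64c1e48c667d9264428fa8e61fedc8c7e550d3d4e4356eda32d9864c1ec9390c8e630d4167dca67ed212e35074c273653788e630d73 = true := by decide +kernel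

theorem cB14_6_3_15 : chunkOkM (LB14_6.ctx true true 204 21 16 5 16 45 26 8 64) muQ true true 64 RtB14_6.Cx RtB14_6.CX RtB14_6.Ctp.right.right.right RtB14_6.Ce.right.right.left RtB14_6.CTp RtB14_6.CEr 0x16f88ec7ed255c01a74c39d5c3838d67fed3be7e258ab676e050d = true := by decide +kernel

theorem cB14_6_3_16 : chunkOkM (LB14_6.ctx true true 228 43 32 5 16 171 230 8 64) muQ true true 64 RtB14_6.Cx RtB14_6.CX RtB14_6.Ctp.right.right RtB14_6.Ce.right.right.right RtB14_6.CTp RtB14_6.CEr 0x2101011a4b0ab7ed287f6ec74c14cb17f98e664ed9977e240d2171c3bf0958dd282b50a74c12f5618c8e65b6818d7e240d1582c5f68dd24e9bc174c1bb15d57d91425f30f8e64e4fbc17e250d42174336918bad7998dd239650e74c2b3376098e630d109b918c8dd262d8ce74c6a9b936e8275238768e640d4f13c846ed109eabb74c361f45878e630d3217459334 = true := by decide +kernel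

theorem cB14_6_2_0 : chunkOkM (LB14_6.ctx false true 95 1 1 1 1 1 1 1 1) muQ false true 64 RtB14_6.Cx RtB14_6.CX RtB14_6.Ctn RtB14_6.Ce RtB14_6.CTp RtB14_6.CEr 0x49 = true := by decide +kernel

theorem cB14_6_1_0 : chunkOkM (LB14_6.ctx true false 195 21 16 5 16 32 6 4 128) muQ true false 64 RtB14_6.Cx RtB14_6.CX RtB14_6.Ctp.left RtB14_6.Ce RtB14_6.CTn RtB14_6.CEr.left 0x1206a7378e6507b5677f58b7665f430db63e9b97e62e49776e8e5258b2d87f430d4493413 = true := by decide +kernel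

theorem cB14_6_1_1 : chunkOkM (LB14_6.ctx true false 95 1 1 1 1 1 1 1 1) muQ true false 64 RtB14_6.Cx RtB14_6.CX RtB14_6.Ctp.right RtB14_6.Ce.left RtB14_6.CTn RtB14_6.CEr.left 0x69 = true := by decide +kernel

theorem cB14_6_1_2 : chunkOkM (LB14_6.ctx true false 209 21 16 5 16 69 46 4 128) muQ true false 64 RtB14_6.Cx RtB14_6.CX RtB14_6.Ctp.right RtB14_6.Ce.right.left RtB14_6.CTn RtB14_6.CEr.left 0x2a568a6f06b62b99107ed3b6420574c5dd900a7e6117dca748e540d15d47b57f05b38fb3ea6f05b4d894ec27e63599a7268e520d3693c98d707ed18d525f810d23c8f8e6344dbb2b8e540d04343 = true := by decide +kernel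

end Vale.Agent.helper4.Q4
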