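import Vale.Agent.helper4.Q4TreeM
import Vale.Agent.helper4.Q4G.PB14_6

/-!
Checks for pairs of intervals of second moments.
-/

set_option maxRecDepth 100000
set_option linter.unusedVariables false

namespace Vale.Agent.helper4.Q4

theorem cB14_6_1_3 : chunkOkM (LB14_6.ctx true false 212 21 16 5 16 69 102 4 128) muQ true false 64 RtB14_6.Cx RtB14_6.CX RtB14_6.Ctp.right.left RtB14_6.Ce.right.right RtB14_6.CTn RtB14_6.CEr.left 0x59599ae5e457ed32ed21e74cd6c5826e61c957e828e540d7f5e6ec7ed33b372774c1a076b27e61191440d8e540d459344593 = true := by decide +kernel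

theorem cB14_6_1_4 : chunkOkM (LB14_6.ctx true false 226 43 32 5 16 153 206 4 128) muQ true false 64 RtB14_6.Cx RtB14_6.CX RtB14_6.Ctp.right.right.left RtB14_6.Ce.right.right.left.left RtB14_6.CTn RtB14_6.CEr.left 0x61a05c573ab3a7ed39e6dc074c2f51d617e812b1875d8e640d56c777d7ed3181ea474c66634de7e6f7e52777e540d99241e47ed3dad49874c139b354c8e6aec70417e540d731a05c96b2b9f7ed3f438db74cd43853f7e697cdff77e540d7433a266ca37ed3369c0074cd1085e6e8dff47fa7e67564e857e550d4 = true := by decide +kernel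

theorem cB14_6_1_5 : chunkOkM (LB14_6.ctx true false 230 43 32 5 16 309 214 4 128) muQ true false 64 RtB14_6.Cx RtB14_6.CX RtB14_6.Ctp.right.right.left.left RtB14_6.Ce.right.right.left.right.left RtB14_6.CTn RtB14_6.CEr.left 0x847158c7ed390b7d474c12aa3857f685efab67e540d8b9350e7ed327f16774cf0e32627e6bd8b95e7e540d365009057ed3c64f4574cfaf65477e6b28d2647e540d4b0087407ed3cde37f74c2ecf0fb18e630d47766b47ed337afb874c3323dbc7e83138f1ae8e640d479b853137ed358358474cc1486ef7e6f6b17717e540d3 = true := by decide +kernel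

theorem cB14_6_1_6 : chunkOkM (LB14_6.ctx true false 230 43 32 5 16 309 222 4 128) muQ true false 64 RtB14_6.Cx RtB14_6.CX RtB14_6.Ctp.right.right.left.left RtB14_6.Ce.right.right.left.right.right RtB14_6.CTn RtB14_6.CEr.left 0x8894a1c7ed2ca7ab274c17d69af98e6bf5dedb7e540d8feb5e37ed34d4e1c74c18a12c738e6a09a15b7e540d10f18f928ed231798a74c58e54c6e61ad01ab38e540d34697593 = true := by decide +kernel

theorem cB14_6_1_7 : chunkOkM (LB14_6.ctx true false 219 43 32 5 16 81 106 4 128) muQ true false 64 RtB14_6.Cx RtB14_6.CX RtB14_6.Ctp.right.right.left.right RtB14_6.Ce.right.right.left.right.left RtB14_6.CTn RtB14_6.CEr.left 0xa9564b57ed3683b3974c27c9e8f88e630d996dd777ed5cb40f474c15f9ef0c8e630d7 = true := by decide +kernel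

theorem cB14_6_1_8 : chunkOkM (LB14_6.ctx true false 237 87 64 5 16 321 222 4 128) muQ true false 64 RtB14_6.Cx RtB14_6.CX RtB14_6.Ctp.right.right.left.right RtB14_6.Ce.right.right.left.right.right RtB14_6.CTn RtB14_6.CEr.left 0x8a6ae167ed4efbbb074cdc6f7d6e829a8145a8e640db6065447ed2e240a974c2c898597f630d84a902e7ed356f91374c1d7a321d8e687a72af7e540d3b4358377ed396491674c2ad865068e630d733ee0a4c7ed3d935c874c353a6bb7e821ea369c8e640d4a0acc197ed587682074c1ea867668e61b3e0b27e240da1a1b737ed5c8c3f274c1dd5a7ae8e614f889d7e240d47 = true := by decide +kernel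

theorem cB14_6_1_9 : chunkOkM (LB14_6.ctx true false 203 21 16 5 16 45 26 4 128) muQ true false 64 RtB14_6.Cx RtB14_6.CX RtB14_6.Ctp.right.right.right RtB14_6.Ce.right.right.left RtB14_6.CTn RtB14_6.CEr.left 0xc5d4efe7ed4f94bca74c3ed2e8eb8d6b17a7607e29e796c6e050d = true := by decide +kernel

theorem cB14_6_1_10 : chunkOkM (LB14_6.ctx true false 227 43 32 5 16 171 230 4 128) muQ true false 64 RtB14_6.Cx RtB14_6.CX RtB14_6.Ctp.right.right RtB14_6.Ce.right.right.right RtB14_6.CTn RtB14_6.CEr.left 0x21010188d4ea17ed4893aa774c1f12922d8e6a9975d47e240d217a0034237ed4a5d2ac74cf9d4f247e686a9cd57e240d217433698221a8c7ed4d316ee74c311156b18e630da5c84fd7ed478ef4f74c3ce66b488e630d485e24ce7ed322435774c3a63ebd18e630d3217459334 = true := by decide +kernel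

theorem cB14_6_1_11 : chunkOkM (LB14_6.ctx true false 95 1 1 1 1 1 1 1 1) muQ true false 64 RtB14_6.Cx RtB14_6.CX RtB14_6.Ctp RtB14_6.Ce RtB14_6.CTn RtB14_6.CEr.right 0x5a = true := by decide +kernel

theorem cB14_6_0_0 : chunkOkM (LB14_6.ctx false false 95 1 1 1 1 1 1 1 1) muQ false false 64 RtB14_6.Cx RtB14_6.CX RtB14_6.Ctn RtB14_6.Ce RtB14_6.CTn RtB14_6.CEr 0x49 = true := by decide +kernel

end Vale.Agent.helper4.Q4
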