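import Vale.Agent.helper4.Q4TreeM
import Vale.Agent.helper4.Q4G.PB14_9

/-!
Checks for pairs of intervals of second moments.
-/

set_option maxRecDepth 100000
set_option linter.unusedVariables false

namespace Vale.Agent.helper4.Q4

theorem cB14_9_3_0 : chunkOkM (LB14_9.ctx true true 92 1 1 1 1 1 1 1 1) muQ true true 64 RtB14_9.Cx RtB14_9.CX RtB14_9.Ctp.left.left RtB14_9.Ce RtB14_9.CTp RtB14_9.CEr 0x41 = true := by decide +kernel

theorem cB14_9_3_1 : chunkOkM (LB14_9.ctx true true 92 1 1 1 1 1 1 1 1) muQ true true 64 RtB14_9.Cx RtB14_9.CX RtB14_9.Ctp.left.right.left RtB14_9.Ce RtB14_9.CTp RtB14_9.CEr 0x49 = true := by decide +kernel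

theorem cB14_9_3_2 : chunkOkM (LB14_9.ctx true true 230 21 16 21 32 64 32 256 64) muQ true true 64 RtB14_9.Cx RtB14_9.CX RtB14_9.Ctp.left.right.right RtB14_9.Ce.left RtB14_9.CTp RtB14_9.CEr 0x2d6de167ddab1f9b6d9b56e5e6d7dbba80f7d6303e03468d5fa6f8a6e460d35643fd7dd33677a63c29d7a607d9185f3987d82ae40d6e8d67c9a5f298d52b188f47e470d34cae2c27dd1294119a83c9963b0e7d83534485a8d686aefdae8d52b2685a7e460d4ca866cb7ddc89e0dd7d63242b3d98d52ea7ca77e440d64a2bb53057dd22495167bf1a9b797d63431fc738d512b818f7e450d3b7ddf67dd2861a267bcbf2976d8e9ca71c7d652cfe2598d5ef0efa6e460d32d48af37dd44dd457b29b747278d667897e718d52eb99037e450d484a54255694114 = true := by decide +kernel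

theorem cB14_9_3_3 : chunkOkM (LB14_9.ctx true true 233 21 16 11 16 128 70 256 64) muQ true true 64 RtB14_9.Cx RtB14_9.CX RtB14_9.Ctp.left.right.right RtB14_9.Ce.right RtB14_9.CTp RtB14_9.CEr 0x51595925f18507ddea5c0f6d8174386568d65974e2558d5bcc25d6e450d31999347ddd2c29d6d9add7106d77f0fa277d62f8d266c8d550d49d9ea77dd440fb097d91f02f707d826ca6d698d67c2c6abc8d510113f37e460d34a19e6447dd22a6ad618d66d5bf177e530d63b9cbef7dd29c63c873c25e8dfd76b1033b11c8d64ce0926f8d550d4a54255459344 = true := by decide +kernel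

theorem cB14_9_3_4 : chunkOkM (LB14_9.ctx true true 92 1 1 1 1 1 1 1 1) muQ true true 64 RtB14_9.Cx RtB14_9.CX RtB14_9.Ctp.right RtB14_9.Ce.left RtB14_9.CTp RtB14_9.CEr 0x69 = true := by decide +kernel

theorem cB14_9_3_5 : chunkOkM (LB14_9.ctx true true 228 21 16 21 32 64 38 256 32) muQ true true 64 RtB14_9.Cx RtB14_9.CX RtB14_9.Ctp.right.left.left RtB14_9.Ce.right.left.left RtB14_9.CTp.left RtB14_9.CEr 0x4a2ab4f097dd291bfa873c1ceafe876bb7568617d620f5386d8d550d2dbe8207dd26ef40473cc6c06a87d6384ba9a28d540d32afb6bc7ddc0aebb63c18881067b18dd4d858d638d760a58d550d484a5425 = true := by decide +kernel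

theorem cB14_9_3_6 : chunkOkM (LB14_9.ctx true true 273 21 16 41 64 64 78 4096 4096) muQ true true 64 RtB14_9.Cx RtB14_9.CX RtB14_9.Ctp.right.left.left RtB14_9.Ce.right.left.left RtB14_9.CTp.right RtB14_9.CEr 0x3016b5c7dd5dd8f763c32067047d96856b407d616892cc48d550d34706a07dd83d58763ca0b6d36d93af638eb8d68f9e97cf8d550d34e8f807dd22eb0ff73ccd5ab56d9fe208e6d89417d2c7d632c4f88f8d560d4330282967dd14c620a73c1a5897a7d717518a858d6342e46558d550d41212126a6a6a4a6a59b6906ed158c2f008d63cb67a9e8d530d04886a66a66a65512655126512656 = true := by decide +kernel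

theorem cB14_9_3_7 : chunkOkM (LB14_9.ctx true true 92 1 1 1 1 1 1 1 1) muQ true true 64 RtB14_9.Cx RtB14_9.CX RtB14_9.Ctp.right.left.right RtB14_9.Ce.right.left.left RtB14_9.CTp RtB14_9.CEr 0x69 = true := by decide +kernel

theorem cB14_9_3_8 : chunkOkM (LB14_9.ctx true true 238 21 16 21 32 128 86 256 64) muQ true true 64 RtB14_9.Cx RtB14_9.CX RtB14_9.Ctp.right.left.left RtB14_9.Ce.right.left.right RtB14_9.CTp RtB14_9.CEr 0x5936529e97ddb3979bf73c384f3477d8112fe6e7d7b463cf77d62ee4ccda8d560d2dbdea67dd67bbaa773c1a461107d879fb886d71352a4858d550d2711397e8cd273057573c10f9cb47d8bce6c407d631cf4b6e8d550d3453eb2dfc8cd356442973c237ecc87d621fa69d7e540d64a2a55e2f7dd28127f973c28cadb67b3af42607d6236430858d550d84a542554593 = true := by decide +kernel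

theorem cB14_9_3_9 : chunkOkM (LB14_9.ctx true true 252 21 16 21 32 69 46 1024 1024) muQ true true 64 RtB14_9.Cx RtB14_9.CX RtB14_9.Ctp.right.left.right RtB14_9.Ce.right.left.right RtB14_9.CTp.left RtB14_9.CEr 0x4a525a5a5a284455f05b15e5476f05b35a565a5666505135f05b1617466f05b36a6126611a05c1c80a5f06c6484a5425 = true := by decide +kernel

theorem cB14_9_3_10 : chunkOkM (LB14_9.ctx true true 271 21 16 41 64 69 46 4096 4096) muQ true true 64 RtB14_9.Cx RtB14_9.CX RtB14_9.Ctp.right.left.right RtB14_9.Ce.right.left.right RtB14_9.CTp.right RtB14_9.CEr.left 0x1212126a6a6a4a6af1a24f05b15f6c16f05b304886a66a66a6126555126551265 = true := by decide +kernel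

theorem cB14_9_3_11 : chunkOkM (LB14_9.ctx true true 222 21 16 11 16 64 42 128 64) muQ true true 64 RtB14_9.Cx RtB14_9.CX RtB14_9.Ctp.right.left.right RtB14_9.Ce.right.left.right.left RtB14_9.CTp.right RtB14_9.CEr.right 0x691c7d0297dd500eb5d9191d4cc7d74ef45b67d6eec71347d550d37193cf7dd530a91773ca4c18c67d6146b1aa88d540d53 = true := by decide +kernel

theorem cB14_9_3_12 : chunkOkM (LB14_9.ctx true true 233 21 16 11 16 129 94 128 128) muQ true true 64 RtB14_9.Cx RtB14_9.CX RtB14_9.Ctp.right.left.right RtB14_9.Ce.right.left.right.right RtB14_9.CTp.right RtB14_9.CEr.right 0x432f8297ddc50ea16d878da6b77d69b33eab7d540da3562ad7dd6e7edb573c856c3727d6af3416a7d540d565dcbbb68cd48dacf63c9f6a3907d6decc29c7d540d3d3fd4c7dd66539a273c4983fb67d6b3ca9557d540d5637cf45d7ddb3f63c273c1747ddd7d9402bdd67d85ee2e46e62024eb238d560d307d26908cd8161ddd73c101141d7d9224259d7d8eecb5447d550d2e7ef5f7dd3b5d2e673c72b6376d97b91a56d75e3fca37d61f9a97b28d560d343 = true := by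 decide +kernel

theorem cB14_9_3_13 : chunkOkM (LB14_9.ctx true true 92 1 1 1 1 1 1 1 1) muQ true true 64 RtB14_9.Cx RtB14_9.CX RtB14_9.Ctp.right.left.left RtB14_9.Ce.right.right RtB14_9.CTp RtB14_9.CEr 0x59 = true := by decide +kernel

theorem cB14_9_3_14 : chunkOkM (LB14_9.ctx true true 92 1 1 1 1 1 1 1 1) muQ true true 64 RtB14_9.Cx RtB14_9.CX RtB14_9.Ctp.right.left.right.left RtB14_9.Ce.right.right.left RtB14_9.CTp RtB14_9.CEr 0x59 = true := by decide +kernel

theorem cB14_9_3_15 : chunkOkM (LB14_9.ctx true true 233 21 16 21 32 69 50 256 64) muQ true true 64 RtB14_9.Cx RtB14_9.CX RtB14_9.Ctp.right.left.right.right RtB14_9.Ce.right.right.left.left RtB14_9.CTp.left RtB14_9.CEr 0x4a21157ad383cc0c02bf7d614073f6c8d530d5539c667dd5c2685573c142e6a5b8d530d684a5425 = true := by decide +kernel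

theorem cB14_9_3_16 : chunkOkM (LB14_9.ctx true true 234 21 16 11 16 141 102 128 128) muQ true true 64 RtB14_9.Cx RtB14_9.CX RtB14_9.Ctp.right.left.right.right RtB14_9.Ce.right.right.left.left RtB14_9.CTp.right RtB14_9.CEr 0x784e2e07dd41effee73c12b8ec4b8d530d31a6ca598cd3555f8e73c12dee35c8d530d65933d6436c7dd5e83bc6d8107690758d530d13406b8e8ddb326ba573c27eef66d6f4cb1be7d540d537d44d1d8cd4390c0d73c18c32aa7d6beae88b7d540d37864f068cd1f7035f73c8f8bd387d61a482b3d8d540d364532673608cd33f0d7b7d6162d33638d530d6 = true := by decide +kernel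

theorem cB14_9_3_17 : chunkOkM (LB14_9.ctx true true 92 1 1 1 1 1 1 1 1) muQ true true 64 RtB14_9.Cx RtB14_9.CX RtB14_9.Ctp.right.left.right.right RtB14_9.Ce.right.right.left.right RtB14_9.CTp RtB14_9.CEr 0x59 = true := by decide +kernel

theorem cB14_9_3_18 : chunkOkM (LB14_9.ctx true true 92 1 1 1 1 1 1 1 1) muQ true true 64 RtB14_9.Cx RtB14_9.CX RtB14_9.Ctp.right.left.right RtB14_9.Ce.right.right.right RtB14_9.CTp RtB14_9.CEr 0x59 = true := by decide +kernel

theorem cB14_9_3_19 : chunkOkM (LB14_9.ctx true true 286 321 256 11 16 2307 1534 256 64) muQ true true 64 RtB14_9.Cx RtB14_9.CX RtB14_9.Ctp.right.right RtB14_9.Ce.right.left RtB14_9.CTp RtB14_9.CEr 0x11111169696969696969692ff7db878cdadcbbe373c264868728c85c10946d740d870b15f01c635005b47dd740a64f73c26f925176b30d4a5425577776946946946941141143333331143 = true := by decide +kernel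

theorem cB14_9_3_20 : chunkOkM (LB14_9.ctx true true 92 1 1 1 1 1 1 1 1) muQ true true 64 RtB14_9.Cx RtB14_9.CX RtB14_9.Ctp.right.right RtB14_9.Ce.right.right RtB14_9.CTp.left.left RtB14_9.CEr 0x42 = true := by decide +kernel

theorem cB14_9_3_21 : chunkOkM (LB14_9.ctx true true 92 1 1 1 1 1 1 1 1) muQ true true 64 RtB14_9.Cx RtB14_9.CX RtB14_9.Ctp.right.right RtB14_9.Ce.right.right RtB14_9.CTp.left.right.left RtB14_9.CEr 0x4a = true := by decide +kernel

theorem cB14_9_3_22 : chunkOkM (LB14_9.ctx true true 257 21 16 21 32 81 110 1024 1024) muQ true true 64 RtB14_9.Cx RtB14_9.CX.left RtB14_9.Ctp.right.right.left RtB14_9.Ce.right.right.left RtB14_9.CTp.left.right.right RtB14_9.CEr 0x525a5a5adbb805ed6bcb08f73c11ab7a66b8f1813e7d6190dd197d250d22e7c064c10bf7f508d6a03c3237d530d33c914017ed38a71cb74cb5ea24178c630d465a565a56681b76917ddd2bcbda73cc72f3a66bc6dfbd57d61446aaf7d250d6f5fa1e7ddc3804a473cdcaced66b7dd34897d6270b92d7d25fd3ca6d060d47c2e5c77ddc4dd2d773c5ce7eb66bf214c1c7d6a5a75577d550d3834720f7ddc4fa17e73ce452e0f7d61af07877d540d46a61266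 = true := by decide +kernel

end Vale.Agent.helper4.Q4
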