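import Vale.Agent.helper4.Q4TreeM
import Vale.Agent.helper4.Q4G.PB14_9

/-!
Checks for pairs of intervals of second moments.
-/

set_option maxRecDepth 100000
set_option linter.unusedVariables false

namespace Vale.Agent.helper4.Q4

theorem cB14_9_3_23 : chunkOkM (LB14_9.ctx true true 241 21 16 21 32 171 110 256 64) muQ true true 64 RtB14_9.Cx RtB14_9.CX.left RtB14_9.Ctp.right.right.right RtB14_9.Ce.right.right.left RtB14_9.CTp.left.right.right RtB14_9.CEr 0x0101c2ad6957dd107f768b83c6852d966b3803a537d61ed35d47d227ff1c47d060d6971280b8cd7dc58e073c223e3aa76b2bb10ab7d63abc5f37d23217dfd7d060d611411433 = true := by decide +kernel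

theorem cB14_9_3_24 : chunkOkM (LB14_9.ctx true true 247 43 32 21 32 171 114 256 64) muQ true true 64 RtB14_9.Cx RtB14_9.CX.left RtB14_9.Ctp.right.right RtB14_9.Ce.right.right.right RtB14_9.CTp.left.right.right RtB14_9.CEr 0x2101011025a3118dd16617c9083c807270f7d6962ad4a7d2ccfdfe6d050d4fa396488cd664cd2973c24c335e76b6e571467d67cf77877d22aca566d060d63369b40ac1e7ddf2c057073c14229f8a8d630d5b48ab1a8cd781111373c19ebced76b167def3f8d610a416e7d250d6217459334 = true := by decide +kernel

theorem cB14_9_3_25 : chunkOkM (LB14_9.ctx true true 92 1 1 1 1 1 1 1 1) muQ true true 64 RtB14_9.Cx RtB14_9.CX.right RtB14_9.Ctp.right.right RtB14_9.Ce.right.right RtB14_9.CTp.left.right.right RtB14_9.CEr 0x4a = true := by decide +kernel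

theorem cB14_9_3_26 : chunkOkM (LB14_9.ctx true true 273 21 16 41 64 81 54 4096 4096) muQ true true 64 RtB14_9.Cx RtB14_9.CX RtB14_9.Ctp.right.right.left RtB14_9.Ce.right.right.left RtB14_9.CTp.right RtB14_9.CEr.left 0x1212126a6a6a4a6a78e425f06b13dd8064c94405c27d6c84582d7d530d3843065f06b4886a66a66a6126555126551265 = true := by decide +kernel

theorem cB14_9_3_27 : chunkOkM (LB14_9.ctx true true 234 21 16 11 16 153 102 128 128) muQ true true 64 RtB14_9.Cx RtB14_9.CX RtB14_9.Ctp.right.right.left RtB14_9.Ce.right.right.left.left RtB14_9.CTp.right RtB14_9.CEr.right 0x1e13c7e48cd24006163c12940a37d910c4153c8d640d25ad0597dd10041d77d9a15935d76dd207b7d647bd1927d550d1ef8639a8cd262d9f63c6eca7287d6604dbd67d540d637d3cc7e7ddb662ec573cb01a5377d624705ea7d540d462bbc67dd7d9b01373c13450edac9c630d52e30147dd746fc5173c143e26008d630d4eb49817dd738389773c4e932c27d694d477c7d540d348dd41d7dd654ddd273caf6a9fe7d628071577d540d4365 = true := by decide +kernel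

theorem cB14_9_3_28 : chunkOkM (LB14_9.ctx true true 237 21 16 11 16 153 106 128 256) muQ true true 64 RtB14_9.Cx RtB14_9.CX RtB14_9.Ctp.right.right.left.left RtB14_9.Ce.right.right.left.right.left RtB14_9.CTp.right RtB14_9.CEr.right 0x26a323d7dd689a4663c256ebac7d99a014ac7d650d41107d550d3a665cf7dd1de31ec7d61164a7018d530d38a170da7dda074c9473c10ea9c058d68a6bfdc7d540d5408dd26c8cd4ce6fa6d8dd3e21a7d6a404fc37d540d76c0d927dd9227c8073c11e5e5fa8d660c30df7d540d16c71ae7dd1a0223f73cc5d5bd37d62e4c9d17d540d632adcc87dd64ecd0973c4876bc17d6111473888d540d356 = true := by decide +kernel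

theorem cB14_9_3_29 : chunkOkM (LB14_9.ctx true true 241 43 32 11 16 153 110 128 128) muQ true true 64 RtB14_9.Cx RtB14_9.CX RtB14_9.Ctp.right.right.left.left RtB14_9.Ce.right.right.left.right.right RtB14_9.CTp.right RtB14_9.CEr.right 0x22a287a7dd13e21337d9536a296d7f033c5b7d6a24df667d550d893e02f7dd915d2e473ccb5cf4f7d678bd4db7d540d536fa1d608cdc432ce07d6aa021df7d530d44f32fa7dd59c10ad73caef179d7d69fcca477d540d56697593 = true := by decide +kernel

theorem cB14_9_3_30 : chunkOkM (LB14_9.ctx true true 238 21 16 11 16 81 106 256 256) muQ true true 64 RtB14_9.Cx RtB14_9.CX RtB14_9.Ctp.right.right.left.right RtB14_9.Ce.right.right.left.right.left RtB14_9.CTp.right.left RtB14_9.CEr.right.left 0x2ea21927dd59bb2d673c885ab287d62954e3a7d236694d050d7cf65c97dddd276da73ccd08fb66bcaac4997d631235b6d214718827d060d52a5b72a7dd1d343da73c52c186e7d666270877d240d7d4a5287ddcfa411b73ca22b82c7d610d3e7e7d29052056d050d56 = true := by decide +kernel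

theorem cB14_9_3_31 : chunkOkM (LB14_9.ctx true true 242 21 16 11 16 165 110 256 256) muQ true true 64 RtB14_9.Cx RtB14_9.CX RtB14_9.Ctp.right.right.left.right RtB14_9.Ce.right.right.left.right.right RtB14_9.CTp.right.left RtB14_9.CEr.right.left 0x4d995037dd5d0068273ced232a87d630daba67047dd1012a12883c699bcc66bbed10be7d640d54002e5f06b73018ae7ddbe2333473ca11032e7d647f059d7d240d5e57465f06b36 = true := by decide +kernel

theorem cB14_9_3_32 : chunkOkM (LB14_9.ctx true true 228 21 16 11 16 81 54 128 128) muQ true true 64 RtB14_9.Cx RtB14_9.CX RtB14_9.Ctp.right.right.left.right RtB14_9.Ce.right.right.left.right RtB14_9.CTp.right.left RtB14_9.CEr.right.right 0x7a162b17ddc1b596673c8ad776c7d6a46f616d240d = true := by decide +kernel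

theorem cB14_9_3_33 : chunkOkM (LB14_9.ctx true true 235 21 16 11 16 165 110 128 128) muQ true true 64 RtB14_9.Cx RtB14_9.CX RtB14_9.Ctp.right.right.left.right RtB14_9.Ce.right.right.left.right RtB14_9.CTp.right.right RtB14_9.CEr.right 0x23f4aca28cd1c0bb8973c60005f67d62eaa7e47d240d3003c357dd190c40073ca85f476d91e42c1de8d640d328713667dd1dd997e73c5aeccd77d6219995d1836a2c6d050d42183b8738cdad7bf5b7d620d6 = true := by decide +kernel

theorem cB14_9_3_34 : chunkOkM (LB14_9.ctx true true 239 21 16 11 16 171 110 256 128) muQ true true 64 RtB14_9.Cx RtB14_9.CX RtB14_9.Ctp.right.right.right RtB14_9.Ce.right.right.left RtB14_9.CTp.right RtB14_9.CEr 0x01012582dbd88cd189bf4573c6c9fc957d6283089e7d21cc52f07d050d41d9a3508cdae630363c2bbd8237d6682b6207d2100c08f7d150d6c81ec527ddb32164473c2787c3a7d61f531c17d230f4f617d050d238ba3e58cd347d6aa73c7b238f57d6435b1357d226a4c7b7d050d6f443147ddbc23c8173c339526e7d633c2fb87d2340cc147d050d565311720ce8cd24acf9e73c822d2487d69878306e2b8f1b26d050d611431143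 = true := by decide +kernel

theorem cB14_9_3_35 : chunkOkM (LB14_9.ctx true true 244 43 32 11 16 165 114 128 256) muQ true true 64 RtB14_9.Cx RtB14_9.CX RtB14_9.Ctp.right.right.left RtB14_9.Ce.right.right.right.left RtB14_9.CTp.right RtB14_9.CEr 0x692c867cb7ddb593a563c1aec60b48d630d81a1e397dd82bb93373cd41c3487d630d56e4d60e38cd18f3b0f28d620d48302f47dd7b0bc6373c137ed5608d61482aed7d240d901ecb168cdab4f3c973c12e83a888d610974cf7d240d642fc4567dd59b6e7673c1ec0e2308d630d3562cb2ee5c8cd1f46f4e73c2f4d8c7e8d630d62174593 = true := by decide +kernel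

theorem cB14_9_3_36 : chunkOkM (LB14_9.ctx true true 225 21 16 11 16 171 58 64 64) muQ true true 64 RtB14_9.Cx RtB14_9.CX RtB14_9.Ctp.right.right.right.left.left RtB14_9.Ce.right.right.right.left RtB14_9.CTp.right RtB14_9.CEr.left 0x32cfec1d8cd283d8d573c4084db27d670113667d240d = true := by decide +kernel

theorem cB14_9_3_37 : chunkOkM (LB14_9.ctx true true 258 87 64 11 16 171 234 256 256) muQ true true 64 RtB14_9.Cx RtB14_9.CX RtB14_9.Ctp.right.right.right.left.left RtB14_9.Ce.right.right.right.left RtB14_9.CTp.right RtB14_9.CEr.right 0x27aeedf7dd118a58073c604a09f7d648833a37d2cb78576d050d3f3ea6a48cd15c9e2373c5b5eba07d68c258ec7d240d6be21f207ddbd2fc2173c62e80fc7d640b4c9e7d28ac2426d050d211ee478fa8cd243ce2fb82cecacede7d63ad30587d240d3b88e367dd7f3b29173c12d5b3948d67021ce87d22030c46d050d52174217272c48488cd353cc6f73c420e0d27d66ccc3467d210e06507d050d9d5ef5b7dde3e5e0573cf2730566b6d009897d63f47b317d21318bf37d060d683c5847dda7d948473c8f69bb57d649f6e917d214732a37d050d21765465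 = true := by decide +kernel

theorem cB14_9_3_38 : chunkOkM (LB14_9.ctx true true 92 1 1 1 1 1 1 1 1) muQ true true 64 RtB14_9.Cx RtB14_9.CX RtB14_9.Ctp.right.right.right.left.right RtB14_9.Ce.right.right.right.left RtB14_9.CTp.right RtB14_9.CEr 0x01 = true := by decide +kernel

theorem cB14_9_3_39 : chunkOkM (LB14_9.ctx true true 92 1 1 1 1 1 1 1 1) muQ true true 64 RtB14_9.Cx RtB14_9.CX RtB14_9.Ctp.right.right.right.right RtB14_9.Ce.right.right.right.left RtB14_9.CTp.right RtB14_9.CEr 0x01 = true := by decide +kernel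

theorem cB14_9_3_40 : chunkOkM (LB14_9.ctx true true 92 1 1 1 1 1 1 1 1) muQ true true 64 RtB14_9.Cx RtB14_9.CX RtB14_9.Ctp.right.right RtB14_9.Ce.right.right.right.right RtB14_9.CTp.right RtB14_9.CEr 0x21 = true := by decide +kernel

theorem cB14_9_2_0 : chunkOkM (LB14_9.ctx false true 92 1 1 1 1 1 1 1 1) muQ false true 64 RtB14_9.Cx RtB14_9.CX RtB14_9.Ctn RtB14_9.Ce RtB14_9.CTp RtB14_9.CEr 0x49 = true := by decide +kernel

theorem cB14_9_1_0 : chunkOkM (LB14_9.ctx true false 92 1 1 1 1 1 1 1 1) muQ true false 64 RtB14_9.Cx RtB14_9.CX RtB14_9.Ctp RtB14_9.Ce RtB14_9.CTn RtB14_9.CEr 0x4a = true := by decide +kernel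

theorem cB14_9_0_0 : chunkOkM (LB14_9.ctx false false 92 1 1 1 1 1 1 1 1) muQ false false 64 RtB14_9.Cx RtB14_9.CX RtB14_9.Ctn RtB14_9.Ce RtB14_9.CTn RtB14_9.CEr 0x49 = true := by decide +kernel

end Vale.Agent.helper4.Q4
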