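import Vale.Agent.helper4.Q4TreeM
import Vale.Agent.helper4.Q4G.PB15_10

/-!
Checks for pairs of intervals of second moments.
-/

set_option maxRecDepth 100000
set_option linter.unusedVariables false

namespace Vale.Agent.helper4.Q4

theorem cB15_10_3_0 : chunkOkM (LB15_10.ctx true true 99 1 1 1 1 1 1 1 1) muQ true true 64 RtB15_10.Cx RtB15_10.CX RtB15_10.Ctp.left RtB15_10.Ce RtB15_10.CTp RtB15_10.CEr 0x49 = true := by decide +kernel

theorem cB15_10_3_1 : chunkOkM (LB15_10.ctx true true 99 1 1 1 1 1 1 1 1) muQ true true 64 RtB15_10.Cx RtB15_10.CX RtB15_10.Ctp.right RtB15_10.Ce.left RtB15_10.CTp RtB15_10.CEr 0x69 = true := by decide +kernel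

theorem cB15_10_3_2 : chunkOkM (LB15_10.ctx true true 99 1 1 1 1 1 1 1 1) muQ true true 64 RtB15_10.Cx RtB15_10.CX RtB15_10.Ctp.right RtB15_10.Ce.right RtB15_10.CTp.left RtB15_10.CEr 0x42 = true := by decide +kernel

theorem cB15_10_3_3 : chunkOkM (LB15_10.ctx true true 255 89 64 13 16 128 629 128 35) muQ true true 64 RtB15_10.Cx RtB15_10.CX RtB15_10.Ctp.right.left RtB15_10.Ce.right.left.left RtB15_10.CTp.right RtB15_10.CEr 0x69245d3577fd94ba226f75cb33c47f6142e0f368f58974b507f450d4255ed8d8ed4c4c1b67f6120dd1b78f5bd6ff387f440d617e84707fd2e94a165c18a6c4378b4880aac7f61286dc348f585d25aa7f460d4a5541594112c7a2048ed84ad036f8218b6d6f71471e2438f634da1c438f550d3009bfd88ed3df0e4d75cb053b597f6200e1de78f5dd5ee827f450d57474933691fe65c2e8ed4c6ac0375c110c75c7f818f4eaf68f6386da93c8f5105fd0b18f460d49334bc9b601088b848bda3f8f8463bf307f61aaa6ace8f540d63 = true := by decide +kernel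

theorem cB15_10_3_4 : chunkOkM (LB15_10.ctx true true 240 23 16 13 16 128 731 64 16) muQ true true 64 RtB15_10.Cx RtB15_10.CX RtB15_10.Ctp.right.left.left RtB15_10.Ce.right.left.right RtB15_10.CTp.right RtB15_10.CEr 0x59205b4507fdfabbd9775c60274c57f8aa7de5f7315524e489f6e8896b5779f5aa3c0a6309f470d14db76ac8ed4675e067e88ae30d6f7f2581b67f540fc4997f450d3194e2e18ed579e1a775cf690d637f537eb0457f440d5179bcbfa8edd7897a65c180d5ec469f51875348889f440d34a64e61dd88b70cc9cee8f8148a0a858f55cf1f637f440d64593 = true := by decide +kernel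

theorem cB15_10_3_5 : chunkOkM (LB15_10.ctx true true 219 23 16 13 16 33 187 32 16) muQ true true 64 RtB15_10.Cx RtB15_10.CX RtB15_10.Ctp.right.left.right RtB15_10.Ce.right.left.right RtB15_10.CTp.right RtB15_10.CEr.left 0xa6cef5da88b65bfa7de8f89ba7b307f530d = true := by decide +kernel

theorem cB15_10_3_6 : chunkOkM (LB15_10.ctx true true 240 23 16 13 16 64 731 128 35) muQ true true 64 RtB15_10.Cx RtB15_10.CX RtB15_10.Ctp.right.left.right RtB15_10.Ce.right.left.right.left RtB15_10.CTp.right RtB15_10.CEr.right 0x691f9354c7fd421a716f8b93c8a6f73e8234d7f6ea2bd937f550d159820c68ed129c6efe8e852d34fb7f6120efdb48f540d6186e93648ed31e42865c14c8bb478ba49585d7f540d125050428ed2513f2975cc6cee5d7f6182f4f6e8f540d44a553 = true := by decide +kernel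

theorem cB15_10_3_7 : chunkOkM (LB15_10.ctx true true 263 95 64 13 16 525 3145 64 16) muQ true true 64 RtB15_10.Cx RtB15_10.CX RtB15_10.Ctp.right.left.right.left RtB15_10.Ce.right.left.right.right RtB15_10.CTp.right RtB15_10.CEr.right 0x595912370a7a8ed7b3739e7e8185e134b8f6307b0bfc8f540d1ac9b9dd8ed32098ec75c1eca2e068f63371f5698f540d559759345975934593140d04088edf72efb6f990ddbbc7e83248cbd7f610c404378f550d32256bfb8ed5daa5e075c1f2bb0a7f6103c47c88f540d559119d48978ed9f855167e8302609e48f65e1714a78f569e3d537f450d2b8aec548ed43bf5f575cd0d01917f624a21e928f5f709b36f450d5597593434 = true := by decide +kernel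

theorem cB15_10_3_8 : chunkOkM (LB15_10.ctx true true 241 23 16 13 16 69 799 128 35) muQ true true 64 RtB15_10.Cx RtB15_10.CX RtB15_10.Ctp.right.left.right.right RtB15_10.Ce.right.left.right.right RtB15_10.CTp.right RtB15_10.CEr.right 0x1cec4ff38ed5dd66e6f92a47856f7bc85866f69279bd27f550d2417f987fd2ab5d26f81111406f748093ed7f693e076c7f550d43ed08f4e8ed37b1fe57f6a81c1d47f530d626dcac5ad95ca524e3a588b20d124d8c668ed8888e55cfbb7af68b17c65587f6a0d836e7f550d616ed29f58edd6d17965c1a33e4b78b26b01557f6816df387f550d44a55 = true := by decide +kernel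

theorem cB15_10_3_9 : chunkOkM (LB15_10.ctx true true 281 191 128 13 16 1149 6817 128 16) muQ true true 64 RtB15_10.Cx RtB15_10.CX RtB15_10.Ctp.right.left RtB15_10.Ce.right.right RtB15_10.CTp.right RtB15_10.CEr 0x5959595959115dbc128ed51dd6c47e811fcad118f530d1e0cbd1e8ed23683ae75c1375ee778b9d02fd77f540d55934597593597459759345931336fa418ed78317b6f947f9bf17e813f551b7f6b1802197f550df829bab7ed7f08f86f869176467f613cfe58d8f540d3185f945f8ed122b41d75c1681e5378b3e22ee57f6103ab0488f550d4a554a18c39cb88b6da59be58f821645cb08f530d645934593 = true := by decide +kernel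

theorem cB15_10_3_10 : chunkOkM (LB15_10.ctx true true 264 89 64 13 16 579 3247 64 16) muQ true true 64 RtB15_10.Cx RtB15_10.CX RtB15_10.Ctp.right.right RtB15_10.Ce.right.left RtB15_10.CTp.right RtB15_10.CEr 0x1111696969696910fee637f06c30ee47248ed6760f4575c20d566f15fb7f01c67769469469433311431143 = true := by decide +kernel

theorem cB15_10_3_11 : chunkOkM (LB15_10.ctx true true 215 23 16 13 16 21 119 32 16) muQ true true 64 RtB15_10.Cx RtB15_10.CX RtB15_10.Ctp.right.right RtB15_10.Ce.right.right RtB15_10.CTp.right RtB15_10.CEr.left 0x11a3c8aff98bd0b49f448f835303777f67016f287f540d = true := by decide +kernel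

theorem cB15_10_3_12 : chunkOkM (LB15_10.ctx true true 246 23 16 13 16 153 867 128 35) muQ true true 64 RtB15_10.Cx RtB15_10.CX RtB15_10.Ctp.right.right.left RtB15_10.Ce.right.right.left.left RtB15_10.CTp.right.left RtB15_10.CEr.right 0x2d842c9b495cc5447edc88b2d1e36708e630d14d61ad18ed126c9ac75ca2edad68ba3a15637e640d138409cb8edd887bb65cd2f9be68b2de02407f659458a17f550d1ea0359e8ed1beaa7575c8aa41a07f530d313a1509c8eda2505765ce8d06568b2ddaccb7f659411717f550d4364a5 = true := by decide +kernel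

theorem cB15_10_3_13 : chunkOkM (LB15_10.ctx true true 251 23 16 13 16 153 867 128 128) muQ true true 64 RtB15_10.Cx RtB15_10.CX RtB15_10.Ctp.right.right.left RtB15_10.Ce.right.right.left.left RtB15_10.CTp.right.right RtB15_10.CEr.right 0x18f07a418edeca13c65c14ceeb5f8e630d18a67e748ed89e99e65c2164d3d7f6555e1107f540d16f8d61d8ed5da3f065c1b258357f69357c787f540d31d2c95f78ed2aa41767f653538987f530d431211e5b2b7f06b48b45a47fd364f2eb7f676a87997f530d36a612656 = true := by decide +kernel

theorem cB15_10_3_14 : chunkOkM (LB15_10.ctx true true 247 23 16 13 16 153 901 128 35) muQ true true 64 RtB15_10.Cx RtB15_10.CX RtB15_10.Ctp.right.right.left.left RtB15_10.Ce.right.right.left.right RtB15_10.CTp.right RtB15_10.CEr.right 0x591d8bcac48ed50efb165c7d62966f68270a507f540d19fe0b07fd45725d6f8c5cbd927f530d31bcc79d58ed4cd7cb27e81ef810b7f6b51e41a7f540d63d85ab21295c1179d09f298b1c4fdd97f6bdfa1377f540d13ec20fa8ed7eee6265cc76d1a68b1a9bbf47f6b2fabe27f550d64a554 = true := by decide +kernel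

theorem cB15_10_3_15 : chunkOkM (LB15_10.ctx true true 99 1 1 1 1 1 1 1 1) muQ true true 64 RtB15_10.Cx RtB15_10.CX RtB15_10.Ctp.right.right.left.right RtB15_10.Ce.right.right.left.right RtB15_10.CTp.right.left.left RtB15_10.CEr.right 0x4a = true := by decide +kernel

end Vale.Agent.helper4.Q4
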