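import Vale.Agent.helper4.Q4TreeM
import Vale.Agent.helper4.Q4G.PB15_10

/-!
Checks for pairs of intervals of second moments.
-/

set_option maxRecDepth 100000
set_option linter.unusedVariables false

namespace Vale.Agent.helper4.Q4

theorem cB15_10_3_16 : chunkOkM (LB15_10.ctx true true 258 47 32 13 16 165 1887 128 64) muQ true true 64 RtB15_10.Cx RtB15_10.CX RtB15_10.Ctp.right.right.left.right RtB15_10.Ce.right.right.left.right RtB15_10.CTp.right.left.right RtB15_10.CEr.right.left 0x2ce735198ed3e512b675c5a742877f639c43527f540d3e1e51ef8ed42b4de175cd28d5137f630d72f118bd7fd38538d675c90c845f7f630d41d78aa408ed1630d12584c7a5fe1d7f6201b88c7f540d61794106c8ed163183975c9f475068b16e35617f6713dcc77f550d3162b42228ed1718dbd75c9c3d9d68b63fac0598e640d160979238ed136c1a175cc2efde68b3b18fbf7f6420bb857f550d159f657d8ed147443e75cc51bf068b30560cd7f635695287f550d434 = true := by decide +kernel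

theorem cB15_10_3_17 : chunkOkM (LB15_10.ctx true true 240 23 16 13 16 81 459 128 35) muQ true true 64 RtB15_10.Cx RtB15_10.CX RtB15_10.Ctp.right.right.left.right RtB15_10.Ce.right.right.left.right RtB15_10.CTp.right.left.right RtB15_10.CEr.right.right 0x32727252795ce189920688b1bc67d27f65025eb07f540d = true := by decide +kernel

theorem cB15_10_3_18 : chunkOkM (LB15_10.ctx true true 252 23 16 13 16 165 935 128 128) muQ true true 64 RtB15_10.Cx RtB15_10.CX RtB15_10.Ctp.right.right.left.right RtB15_10.Ce.right.right.left.right RtB15_10.CTp.right.right RtB15_10.CEr.right.left 0x12396d3e278ed78309bf7f61e098c57f530d24efc9cc8eda32fcd65c10dd3027f67933bd77f540d31c3da8f38ed4be256de8e6256540b7f530d46a61265 = true := by decide +kernel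

theorem cB15_10_3_19 : chunkOkM (LB15_10.ctx true true 250 23 16 13 16 165 901 135 75) muQ true true 64 RtB15_10.Cx RtB15_10.CX RtB15_10.Ctp.right.right.left.right RtB15_10.Ce.right.right.left.right.left RtB15_10.CTp.right.right RtB15_10.CEr.right.right 0x22e549cd8edbd46356f91ef0bf6f7305c5837f622b908f7f550d5a5153814288ed803ed165ce7b8d387f630d2691e33f8ed6d8b1465c31c86557f642b5a1c7f540d36 = true := by decide +kernel

theorem cB15_10_3_20 : chunkOkM (LB15_10.ctx true true 263 47 32 13 16 321 1887 135 75) muQ true true 64 RtB15_10.Cx RtB15_10.CX RtB15_10.Ctp.right.right.left.right RtB15_10.Ce.right.right.left.right.right RtB15_10.CTp.right.right RtB15_10.CEr.right.right 0x20b0a6aa8ed42d1bf6f934b3d06f77e8acc17f61feb6be7f550d5a5103b05568ed6b723f6f976667317e85d43ece7f6288f8107f550d2ef8d3978ed15f513775c984c9eb7f62306f8d7f540d28616487fd10be7a675c7edc7437f630d45620ade52f8ed51dc4a65c12efaff7f67dfb9fb7f540d161997da8ed5da4ed65c1dcd81b7f65f3ed177f540d38c104fa8ed15800a975c20ce82a7f64d049e37f540d2a6e3b138ed79231064c42c3a817f64aa2ee67f540d6593743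 = true := by decide +kernel

theorem cB15_10_3_21 : chunkOkM (LB15_10.ctx true true 99 1 1 1 1 1 1 1 1) muQ true true 64 RtB15_10.Cx RtB15_10.CX RtB15_10.Ctp.right.right.right.left RtB15_10.Ce.right.right.left.left RtB15_10.CTp.right RtB15_10.CEr.right 0x11 = true := by decide +kernel

theorem cB15_10_3_22 : chunkOkM (LB15_10.ctx true true 260 23 16 13 16 351 1887 128 128) muQ true true 64 RtB15_10.Cx RtB15_10.CX RtB15_10.Ctp.right.right.right.left RtB15_10.Ce.right.right.left.right RtB15_10.CTp.right.left RtB15_10.CEr.right 0x25ac1c96e95ca8b9e2a888b24b27df88e6e5e0646e140d112fbd33168ed3ebd72a75c362c0f277b14f5759b8e61702a857f21373c207f060d315aa6ce8ed33dc78ff84c47264eb77b4e3553dd8e61fa3f707f2b7d2846f060d611411432bbdc087fd51cf82c75c335a48058e6212a676f240d2e9cb227fd231262e75c88ad9f68b34fa05c68e612aa5247f250d6259440688ed281c825a84c3ff4694a8e6123b6f47f240d6364a5 = true := by decide +kernel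

theorem cB15_10_3_23 : chunkOkM (LB15_10.ctx true true 273 89 64 13 16 699 1887 135 75) muQ true true 64 RtB15_10.Cx RtB15_10.CX RtB15_10.Ctp.right.right.right.left RtB15_10.Ce.right.right.left.right RtB15_10.CTp.right.right RtB15_10.CEr.right 0x111111011411c9a7f06c1d96fed08ed1d8f2e4f84c12cf27a7f6183cf7c7f2eeef8d6f050d537711411432c86202d8ed13f2c6d75c35ff42318e62e3d956f240d12cc30218ed48a9aa508e620d1a427207fd19407cb75c44b4e7478e630d5631cfd22d68edbbf1955c56e52cf7f612cebfb7f25f86026f050d6 = true := by decide +kernel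

theorem cB15_10_3_24 : chunkOkM (LB15_10.ctx true true 99 1 1 1 1 1 1 1 1) muQ true true 64 RtB15_10.Cx RtB15_10.CX RtB15_10.Ctp.right.right.right.right RtB15_10.Ce.right.right.left RtB15_10.CTp.right RtB15_10.CEr.right 0x11 = true := by decide +kernel

theorem cB15_10_3_25 : chunkOkM (LB15_10.ctx true true 99 1 1 1 1 1 1 1 1) muQ true true 64 RtB15_10.Cx RtB15_10.CX RtB15_10.Ctp.right.right.left.left RtB15_10.Ce.right.right.right RtB15_10.CTp.right RtB15_10.CEr.right 0x59 = true := by decide +kernel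

theorem cB15_10_3_26 : chunkOkM (LB15_10.ctx true true 99 1 1 1 1 1 1 1 1) muQ true true 64 RtB15_10.Cx RtB15_10.CX RtB15_10.Ctp.right.right.left.right.left RtB15_10.Ce.right.right.right.left.left RtB15_10.CTp.right RtB15_10.CEr.right 0x59 = true := by decide +kernel

theorem cB15_10_3_27 : chunkOkM (LB15_10.ctx true true 99 1 1 1 1 1 1 1 1) muQ true true 64 RtB15_10.Cx.left RtB15_10.CX RtB15_10.Ctp.right.right.left.right.right RtB15_10.Ce.right.right.right.left.left RtB15_10.CTp.right RtB15_10.CEr.right 0x69 = true := by decide +kernel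

theorem cB15_10_3_28 : chunkOkM (LB15_10.ctx true true 259 47 32 13 16 165 1955 128 64) muQ true true 64 RtB15_10.Cx.right RtB15_10.CX RtB15_10.Ctp.right.right.left.right.right RtB15_10.Ce.right.right.right.left.left RtB15_10.CTp.right.left RtB15_10.CEr.right 0x2d0f1841d95ccada52bc88b6b6cc357f631fdc447f540d14b034da8ede13b5565ca6a84d68b8b851d57f642e32c77f550d30112a688ed35a1dd775c2e91df077bc967e7e7f63e538607f550d2680d1b28ed203bd68e84c8db2b8e7f63b4fb7f7f540d6464a5 = true := by decide +kernel

theorem cB15_10_3_29 : chunkOkM (LB15_10.ctx true true 269 95 64 13 16 333 1955 135 75) muQ true true 64 RtB15_10.Cx.right RtB15_10.CX RtB15_10.Ctp.right.right.left.right.right RtB15_10.Ce.right.right.right.left.left RtB15_10.CTp.right.right RtB15_10.CEr.right 0x30687a6d8eddb357165c390da337f64d5d6377f540d222a66718ed4db16c674c7372d437f64a05c027f540d669759326b38d0e8ed4f46f165c5cf2e4a7f636cc0917f540d1c1f2e478ed111cf077e942afbae7f647708077f540d21e4390c8ed142023a75ca83560e7f6496cb8b7f540d56418c3233a8ed1e6979d7e855fe89d7f64e898067f540d6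 = true := by decide +kernel

theorem cB15_10_3_30 : chunkOkM (LB15_10.ctx true true 99 1 1 1 1 1 1 1 1) muQ true true 64 RtB15_10.Cx RtB15_10.CX RtB15_10.Ctp.right.right.left.right RtB15_10.Ce.right.right.right.left.right RtB15_10.CTp.right RtB15_10.CEr.right 0x59 = true := by decide +kernel

theorem cB15_10_3_31 : chunkOkM (LB15_10.ctx true true 99 1 1 1 1 1 1 1 1) muQ true true 64 RtB15_10.Cx RtB15_10.CX RtB15_10.Ctp.right.right.left.right RtB15_10.Ce.right.right.right.right RtB15_10.CTp.right RtB15_10.CEr.right 0x59 = true := by decide +kernel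

theorem cB15_10_3_32 : chunkOkM (LB15_10.ctx true true 99 1 1 1 1 1 1 1 1) muQ true true 64 RtB15_10.Cx RtB15_10.CX RtB15_10.Ctp.right.right.right RtB15_10.Ce.right.right.right RtB15_10.CTp.right.left.left RtB15_10.CEr.right.left 0x4a = true := by decide +kernel

theorem cB15_10_3_33 : chunkOkM (LB15_10.ctx true true 267 47 32 25 32 87 969 256 256) muQ true true 64 RtB15_10.Cx RtB15_10.CX RtB15_10.Ctp.right.right.right.left RtB15_10.Ce.right.right.right.left.left RtB15_10.CTp.right.left.right RtB15_10.CEr.right.left.left 0x6a4a69b173d7f06b4ccdace7fd449e2aa75c7f1bc7a78e634b23ac7f240d786a61265 = true := by decide +kernel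

theorem cB15_10_3_34 : chunkOkM (LB15_10.ctx true true 272 91 64 13 16 177 1955 256 128) muQ true true 64 RtB15_10.Cx.left RtB15_10.CX RtB15_10.Ctp.right.right.right.left RtB15_10.Ce.right.right.right.left.left RtB15_10.CTp.right.left.right RtB15_10.CEr.right.left.right 0x2df9ab97fd43191b3984c4c6384f77b7b9a5487f63fe49497f218a985f060d1ce850ed8ed18cc27cb84c62890b477b686d5327f63f905867f2437f2f97e060d6260281f98ed2262b4075c94dbcc377b10f8a4ac8f640d32175e30da6fd2134eb175c2d19f5677b8a5f28b7f62f113ae7f21c6296d7e060d3886455d8fd357ac2c585c6136664787b5afa0177f640d523c1b87f8ed210ca9ac84c586197f77b65f218f7f62b9afa87f2a0ad5dc7e060d217418008ed1d31d80a84c6cb0e2a77bd24f1847f625e9ed67f250d364 = true := by decide +kernel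

theorem cB15_10_3_35 : chunkOkM (LB15_10.ctx true true 262 47 32 13 16 177 1955 128 128) muQ true true 64 RtB15_10.Cx.right RtB15_10.CX RtB15_10.Ctp.right.right.right.left RtB15_10.Ce.right.right.right.left.left RtB15_10.CTp.right.left.right RtB15_10.CEr.right.left.right 0x24220f27fd412d06c75c39a4aef77b39a005158e627cbf9f7f22296436e160d1bd4836e8ed1ccbe5375c646b85477b5a49da278e629ec0277f250d6315f56988ed2f36a6975c63d1f0b77be8264827f640d2ed07fb58ed34f38f675c2295fe177bf2ef2b17f640d43 = true := by decide +kernel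

end Vale.Agent.helper4.Q4
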