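import Vale.Agent.helper4.Q4TreeM
import Vale.Agent.helper4.Q4G.PB15_10

/-!
Checks for pairs of intervals of second moments.
-/

set_option maxRecDepth 100000
set_option linter.unusedVariables false

namespace Vale.Agent.helper4.Q4

theorem cB15_10_3_36 : chunkOkM (LB15_10.ctx true true 268 95 64 13 16 177 2023 128 128) muQ true true 64 RtB15_10.Cx RtB15_10.CX RtB15_10.Ctp.right.right.right.left RtB15_10.Ce.right.right.right.left.right RtB15_10.CTp.right.left.right RtB15_10.CEr.right.left 0x2504ef37fd3e1dbf075c20c1cd777bc75d8857f620107c07f250d296cd80b8ed24288d4784c53ccb7577bdb9abae7f61d7a2467f250d621725178b47fd3dcb35e75c4667d0d77b6f531377f61dc063e7f250d294aa0258ed2478dba284c5f46a7b77b712d1097f61d0e4117f250d642162dedb8ed2359abae84c6335d397f61a3e08b7f240d66914bf26fc8ed115a75e284cb489a568b180735968f640d43217 = true := by decide +kernel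

theorem cB15_10_3_37 : chunkOkM (LB15_10.ctx true true 270 95 64 13 16 723 1003 128 64) muQ true true 64 RtB15_10.Cx RtB15_10.CX RtB15_10.Ctp.right.right.right.right RtB15_10.Ce.right.right.right.left RtB15_10.CTp.right.left.right RtB15_10.CEr.right.left 0x0101012beffb168ed358faaf884c2f5cf7877b2283ddf7f62ce72c97f2bc7ad16f060d28468d058ed1dc93e7284c3402e4277b23d5a2c7f63b906ca7f24941bc6f060d6114301701733 = true := by decide +kernel

theorem cB15_10_3_38 : chunkOkM (LB15_10.ctx true true 292 383 256 13 16 723 8177 128 64) muQ true true 64 RtB15_10.Cx RtB15_10.CX RtB15_10.Ctp.right.right.right RtB15_10.Ce.right.right.right.right RtB15_10.CTp.right.left.right RtB15_10.CEr.right.left 0x212121210101012b3eb5428ed329a178c84c3f5224077b42f2ac57f641a4b1c7f250d9cf31a6f06c633313de6b608ed10c037e984cc3b9d3177b618074998f640d69359332174217421721744 = true := by decide +kernel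

theorem cB15_10_3_39 : chunkOkM (LB15_10.ctx true true 259 47 32 13 16 177 1037 128 128) muQ true true 64 RtB15_10.Cx RtB15_10.CX RtB15_10.Ctp.right.right.right RtB15_10.Ce.right.right.right RtB15_10.CTp.right.right RtB15_10.CEr.right.left 0x1221126c50d7fd2fb71865c868ad5048e67b581f97f240d41b5bf837fd1759c3d75c2fd6bb698e61ebdc287f2152cbaf7f050d1735d43f8ed253824674c638c4557f6224a5417f240d13b3ded18eddc49cef7f619b5e36f530d32171a1f6d998ed3ae10b4a8e62a348e47f27d52ad6f040d3b5fb9958ed8d40e7808e620d34346a61265 = true := by decide +kernel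

theorem cB15_10_3_40 : chunkOkM (LB15_10.ctx true true 230 23 16 13 16 45 255 64 35) muQ true true 64 RtB15_10.Cx RtB15_10.CX RtB15_10.Ctp.right.right.right RtB15_10.Ce.right.right.right RtB15_10.CTp.right.left RtB15_10.CEr.right.right 0x7e184ce7995c23943af8a98b326dfde7f6c960ae6f21c5fb4b7f050d = true := by decide +kernel

theorem cB15_10_3_41 : chunkOkM (LB15_10.ctx true true 268 47 32 27 32 177 1955 135 145) muQ true true 64 RtB15_10.Cx RtB15_10.CX RtB15_10.Ctp.right.right.right.left RtB15_10.Ce.right.right.right.left.left RtB15_10.CTp.right.right RtB15_10.CEr.right.right 0x222f135b17fdc69ab26e82929aa4a8e62696c367f28d6f906f050d2b776297fd5ce32465c87eb47ac8e630d322865a51cad6bb68ed34d0b5e7e81ab01847f61fbf1147f217a8096f050d1d868c078ed52da10f7e9e495006e7860a37718e640d32c3805a18ed173fc9875c96df220d8e630d2d1a8e67fd1ea30fc75c916582d7f635d27b07f240d1a19c9b48ed1a9e6b5884c63767517f628449b27f28b662ea7e050d32f578208ed18f785c75c81d8cf87f630d34756 = true := by decide +kernel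

theorem cB15_10_3_42 : chunkOkM (LB15_10.ctx true true 268 47 32 27 32 177 2023 135 145) muQ true true 64 RtB15_10.Cx RtB15_10.CX RtB15_10.Ctp.right.right.right.left RtB15_10.Ce.right.right.right.left.right RtB15_10.CTp.right.right RtB15_10.CEr.right.right 0x222bff9b27fd1e49016e853a0fac7f619c34347f240d19f5ef17fd33b6616e8ac4c05f7db5eb647f640d322865a5eac909c7ed23250287e962e84557e870c39fc7f6240bfa27f250d27c82b478ed1a7b6de75c916333e7f619d3a927f240d252fda008ed1b58602984c96521b67f61efb4fb7f240d45691fde33578ed811ed365c1315b82c8f630d436217 = true := by decide +kernel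

theorem cB15_10_3_43 : chunkOkM (LB15_10.ctx true true 270 95 64 13 16 723 2023 64 75) muQ true true 64 RtB15_10.Cx RtB15_10.CX RtB15_10.Ctp.right.right.right.right RtB15_10.Ce.right.right.right.left RtB15_10.CTp.right.right RtB15_10.CEr.right.right 0x010101436fb12b8ed2fa85437f6398d47c7f230d2bc189c88ede41158074c253fd5f7f62f5e9337f239e7046f050d6114114301730173 = true := by decide +kernel

theorem cB15_10_3_44 : chunkOkM (LB15_10.ctx true true 331 3071 2048 13 16 11517 65297 64 75) muQ true true 64 RtB15_10.Cx RtB15_10.CX RtB15_10.Ctp.right.right.right RtB15_10.Ce.right.right.right.right RtB15_10.CTp.right.right RtB15_10.CEr.right.right 0x21212121010101319fe3ff8ed751de9e74c4219fff7f212f05d6f040d2b73d7f18eddbc56fb74c3147cd47f63ada6bb7f240d633369696932f535b7f06c22ea6bd38ed7479fc974c20d669369369346974697693469769369359332174217421742174 = true := by decide +kernel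

theorem cB15_10_2_0 : chunkOkM (LB15_10.ctx false true 99 1 1 1 1 1 1 1 1) muQ false true 64 RtB15_10.Cx RtB15_10.CX RtB15_10.Ctn RtB15_10.Ce RtB15_10.CTp RtB15_10.CEr 0x49 = true := by decide +kernel

theorem cB15_10_1_0 : chunkOkM (LB15_10.ctx true false 99 1 1 1 1 1 1 1 1) muQ true false 64 RtB15_10.Cx RtB15_10.CX RtB15_10.Ctp RtB15_10.Ce RtB15_10.CTn RtB15_10.CEr 0x4a = true := by decide +kernel

theorem cB15_10_0_0 : chunkOkM (LB15_10.ctx false false 99 1 1 1 1 1 1 1 1) muQ false false 64 RtB15_10.Cx RtB15_10.CX RtB15_10.Ctn RtB15_10.Ce RtB15_10.CTn RtB15_10.CEr 0x49 = true := by decide +kernel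

end Vale.Agent.helper4.Q4
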