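import Vale.Agent.helper4.Q4TreeM
import Vale.Agent.helper4.Q4G.PB15_11

/-!
Checks for pairs of intervals of second moments.
-/

set_option maxRecDepth 100000
set_option linter.unusedVariables false

namespace Vale.Agent.helper4.Q4

theorem cB15_11_3_0 : chunkOkM (LB15_11.ctx true true 94 1 1 1 1 1 1 1 1) muQ true true 64 RtB15_11.Cx RtB15_11.CX RtB15_11.Ctp.left RtB15_11.Ce RtB15_11.CTp RtB15_11.CEr 0x49 = true := by decide +kernel

theorem cB15_11_3_1 : chunkOkM (LB15_11.ctx true true 94 1 1 1 1 1 1 1 1) muQ true true 64 RtB15_11.Cx RtB15_11.CX RtB15_11.Ctp.right RtB15_11.Ce.left RtB15_11.CTp RtB15_11.CEr 0x69 = true := by decide +kernel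

theorem cB15_11_3_2 : chunkOkM (LB15_11.ctx true true 94 1 1 1 1 1 1 1 1) muQ true true 64 RtB15_11.Cx RtB15_11.CX RtB15_11.Ctp.right RtB15_11.Ce.right RtB15_11.CTp.left RtB15_11.CEr 0x42 = true := by decide +kernel

theorem cB15_11_3_3 : chunkOkM (LB15_11.ctx true true 94 1 1 1 1 1 1 1 1) muQ true true 64 RtB15_11.Cx RtB15_11.CX RtB15_11.Ctp.right RtB15_11.Ce.right RtB15_11.CTp.right RtB15_11.CEr.left 0x6a = true := by decide +kernel

theorem cB15_11_3_4 : chunkOkM (LB15_11.ctx true true 300 1409 1024 15 16 2048 9775 35 77) muQ true true 64 RtB15_11.Cx RtB15_11.CX RtB15_11.Ctp.right.left RtB15_11.Ce.right.left.left RtB15_11.CTp.right RtB15_11.CEr.right 0x69124141548dd1d3786374c8e1dcb07d82d37db6e73c0685c78d6ae57adc7e557a6d4a7e470d6a6114555d68dd17a3fe274c1baa85c77b1d7a56788d68695c907e53bc36467e460d5415941ab1ca657dd8624a064ca421f277d88d521377e618dc54258e5339b666f460d1254636b8dd191e47374c13e7e3477bbf74f807e61c26350f8e55c1bfb6f460d574749336969414141414149c16ce5f06c139497278dd1fba7d574cf293c667b10b911f58f61f858cfe8f550d56946946946946947777774934934933493343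 = true := by decide +kernel

theorem cB15_11_3_5 : chunkOkM (LB15_11.ctx true true 228 23 16 15 16 64 357 35 77) muQ true true 64 RtB15_11.Cx RtB15_11.CX RtB15_11.Ctp.right.left.left RtB15_11.Ce.right.left.right RtB15_11.CTp.right RtB15_11.CEr.right 0x59f894ee47dd296782874c102612578d835014a77e6f4935677e514944487e460d6a611f8d67a8dd1bbfc5774c196974777b316d0c07e6ef6067a7e518eaf76f460d54593 = true := by decide +kernel

theorem cB15_11_3_6 : chunkOkM (LB15_11.ctx true true 253 23 16 57 64 69 799 256 77) muQ true true 64 RtB15_11.Cx RtB15_11.CX RtB15_11.Ctp.right.left.right RtB15_11.Ce.right.left.right RtB15_11.CTp.right RtB15_11.CEr.right 0xde2bfe77dd1d138fdc83c850c6527d83ea02827e540de87aa0a7dd4e8e15a683c179c89988d812865577d71df14d1b8d63e5d5047e560d4e50f3687dd29cb3e174ce4242787d82c341937e6b6f6fdf7e550d369fd5892e7dd154df377d83c837b6e720c9ba9a8d671d18cd7e550d346a64a4a8f104237dd9613c464c7099df67b2597f39e8d65284fb87e550d847ab477dd5d5e854c5289a987e6f2a8ec17e540d38fb6c237dd262d1964c2002e8de8d65bedebe7e540d4884a54a54255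 = true := by decide +kernel

theorem cB15_11_3_7 : chunkOkM (LB15_11.ctx true true 229 23 16 15 16 69 425 35 77) muQ true true 64 RtB15_11.Cx RtB15_11.CX RtB15_11.Ctp.right.left RtB15_11.Ce.right.right RtB15_11.CTp.right RtB15_11.CEr.right 0x5959cd57ba97dd30c72ab74ce3f9d137d822e658c7e6829d4c37e550d6a6e1a81437dd1bb579374c26d4f7b77b234eafb7e6832fddb7e550d545934593 = true := by decide +kernel

theorem cB15_11_3_8 : chunkOkM (LB15_11.ctx true true 258 89 64 15 16 579 3247 35 33) muQ true true 64 RtB15_11.Cx RtB15_11.CX RtB15_11.Ctp.right.right RtB15_11.Ce.right.left RtB15_11.CTp.right RtB15_11.CEr.right 0x11116969696969a76de5f06c10ad24d88dd27237ad74c18a626c77b30d57769469469433114331143 = true := by decide +kernel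

theorem cB15_11_3_9 : chunkOkM (LB15_11.ctx true true 94 1 1 1 1 1 1 1 1) muQ true true 64 RtB15_11.Cx RtB15_11.CX RtB15_11.Ctp.right.right.left RtB15_11.Ce.right.right.left RtB15_11.CTp.right.left.left RtB15_11.CEr.right 0x42 = true := by decide +kernel

theorem cB15_11_3_10 : chunkOkM (LB15_11.ctx true true 94 1 1 1 1 1 1 1 1) muQ true true 64 RtB15_11.Cx RtB15_11.CX RtB15_11.Ctp.right.right.left RtB15_11.Ce.right.right.left RtB15_11.CTp.right.left.right.left RtB15_11.CEr.right 0x4a = true := by decide +kernel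

theorem cB15_11_3_11 : chunkOkM (LB15_11.ctx true true 94 1 1 1 1 1 1 1 1) muQ true true 64 RtB15_11.Cx RtB15_11.CX RtB15_11.Ctp.right.right.left RtB15_11.Ce.right.right.left RtB15_11.CTp.right.left.right.right.left RtB15_11.CEr.right 0x4a = true := by decide +kernel

theorem cB15_11_3_12 : chunkOkM (LB15_11.ctx true true 260 23 16 57 64 81 425 256 539) muQ true true 64 RtB15_11.Cx RtB15_11.CX.left.left RtB15_11.Ctp.right.right.left RtB15_11.Ce.right.right.left.left RtB15_11.CTp.right.left.right.right.right RtB15_11.CEr.right 0x525a5a167345f01b12f05d87ed143047874c1a2816858d636538e748d540d366671ee4f01b376e8637ed207b9a874c1954d167b1db4a7788d62d905db78d550d36a61261266 = true := by decide +kernel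

theorem cB15_11_3_13 : chunkOkM (LB15_11.ctx true true 263 23 16 57 64 81 935 256 539) muQ true true 64 RtB15_11.Cx RtB15_11.CX.left.left RtB15_11.Ctp.right.right.left RtB15_11.Ce.right.right.left.right RtB15_11.CTp.right.left.right.right.right RtB15_11.CEr.right 0x525a5af37c2c6ed10c5cd574c3a6125c78d61c4304a28d540d6984e1a7ed3f2084474c3252cc6e8d6fd92e517d540d46661168bdb7ed126666b74c2b5616628d61f64abe18d540d23f5a16f06b46a6126126680865af7ddd2816864c1d14c9c7e658d656d7e540d3 = true := by decide +kernel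

theorem cB15_11_3_14 : chunkOkM (LB15_11.ctx true true 94 1 1 1 1 1 1 1 1) muQ true true 64 RtB15_11.Cx RtB15_11.CX.left.right RtB15_11.Ctp.right.right.left RtB15_11.Ce.right.right.left RtB15_11.CTp.right.left.right.right.right RtB15_11.CEr.right 0x4a = true := by decide +kernel

theorem cB15_11_3_15 : chunkOkM (LB15_11.ctx true true 94 1 1 1 1 1 1 1 1) muQ true true 64 RtB15_11.Cx RtB15_11.CX.right RtB15_11.Ctp.right.right.left RtB15_11.Ce.right.right.left RtB15_11.CTp.right.left.right.right.right RtB15_11.CEr.right 0x4a = true := by decide +kernel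

theorem cB15_11_3_16 : chunkOkM (LB15_11.ctx true true 94 1 1 1 1 1 1 1 1) muQ true true 64 RtB15_11.Cx RtB15_11.CX RtB15_11.Ctp.right.right.left RtB15_11.Ce.right.right.left RtB15_11.CTp.right.right RtB15_11.CEr.right.left 0x6a = true := by decide +kernel

theorem cB15_11_3_17 : chunkOkM (LB15_11.ctx true true 237 23 16 15 16 153 867 35 77) muQ true true 64 RtB15_11.Cx RtB15_11.CX RtB15_11.Ctp.right.right.left RtB15_11.Ce.right.right.left.left RtB15_11.CTp.right.right RtB15_11.CEr.right.right 0xcf5d7857dd1b9dab5783c4b39e167d89894586d7ada13b17d650ddf9a4ad7dd1d74af7783c67115407d812a7cf638d624863157e550dd5cf4067dd1b008c3d83c659e4687d84453e9c7e540d3dd85f867dd2112fcae83c80a9e827d8107271518d62293ca2c8d550d43 = true := by decide +kernel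

theorem cB15_11_3_18 : chunkOkM (LB15_11.ctx true true 237 23 16 15 16 153 901 35 77) muQ true true 64 RtB15_11.Cx RtB15_11.CX RtB15_11.Ctp.right.right.left.left RtB15_11.Ce.right.right.left.right RtB15_11.CTp.right.right RtB15_11.CEr.right.right 0x59dcac3957dd1e8913bc83c6d1ca007d83ec7eb6e63c447177e550db0452527dd53336b64c1223c16e9617a04d7e540d34 = true := by decide +kernel

theorem cB15_11_3_19 : chunkOkM (LB15_11.ctx true true 241 23 16 15 16 81 901 75 165) muQ true true 64 RtB15_11.Cx RtB15_11.CX RtB15_11.Ctp.right.right.left.right RtB15_11.Ce.right.right.left.right.left RtB15_11.CTp.right.right RtB15_11.CEr.right.right 0xd082d227dd653fff63c2ce4edcf8d6aa8e4967d540d12ca44318dd1201694c83c3561ff018d6108792118d540d55efd1a07dde8f8da97d95c58af17d82cdb10678d6f5a5cb87d550df851bb87dd80aa9be73c295d19718d69e475537d540d56 = true := by decide +kernel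

theorem cB15_11_3_20 : chunkOkM (LB15_11.ctx true true 245 23 16 15 16 165 935 75 165) muQ true true 64 RtB15_11.Cx RtB15_11.CX RtB15_11.Ctp.right.right.left.right RtB15_11.Ce.right.right.left.right.right RtB15_11.CTp.right.right RtB15_11.CEr.right.right 0xad5d2257dd17891b373c7acd66d7d91b83b1ea8d69a0a2207d550dd7d917d7dd1ecf46d583c4742ccb7e6f4e4086e540d516cf33888dda72bf364cdf43296e6314850c7e540d362c4cad7dda65b56d7d9479b11a7d83c44525a8d61e425b57e550d1116c0848dda46186573c408b283a8d679b00707d540dee88b097ddc4e2f4973c136e37cd8d62fd58977e540d356 = true := by decide +kernel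

theorem cB15_11_3_21 : chunkOkM (LB15_11.ctx true true 285 89 64 57 64 699 1887 256 165) muQ true true 64 RtB15_11.Cx RtB15_11.CX RtB15_11.Ctp.right.right.right RtB15_11.Ce.right.right.left RtB15_11.CTp.right RtB15_11.CEr.right 0x119bf60d87dd504eae6e91ba4d477d7373ced468d613116067d13c03476e060d1111110117de00b68dd1bc76b2283c8c820ac7e69b2ab597d15168c5e050d16dcba148ddf5e5a1773c12009737e6616b726e27345086e050d63771143114163c09578dd1982ac8a83c1e19bc768d630ddd7c8467ddb5100f773c1f6c8b208d630d6356a64a4a83921957dd146ec15683c2be9f2db8d6334a3777d1369bb4e7d050d12ce7acd8dd137bb6d083c2dcac667b26c35ffc8d61a53f887d26549fc67d060d6884a54a542551143 = true := by decide +kernel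

theorem cB15_11_3_22 : chunkOkM (LB15_11.ctx true true 259 47 32 15 16 165 969 256 165) muQ true true 64 RtB15_11.Cx RtB15_11.CX RtB15_11.Ctp.right.right.left RtB15_11.Ce.right.right.right RtB15_11.CTp.right RtB15_11.CEr.right 0x595915d360978dd1119b79083c20b6eb77d734f5c7a7e61db56aa7e550d108e80ad8dd50a9cd373c45bf1fd7e61c5714f7e540d66a6a11a72a7dd15ab55f883c2881cb67b38e1f767e620563f77e550d4a54a5425569759344593 = true := by decide +kernel

end Vale.Agent.helper4.Q4
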