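import Vale.Agent.helper4.Q4TreeM
import Vale.Agent.helper4.Q4G.PB15_11

/-!
Checks for pairs of intervals of second moments.
-/

set_option maxRecDepth 100000
set_option linter.unusedVariables false

namespace Vale.Agent.helper4.Q4

theorem cB15_11_3_23 : chunkOkM (LB15_11.ctx true true 264 23 16 57 64 93 1003 256 539) muQ true true 64 RtB15_11.Cx RtB15_11.CX RtB15_11.Ctp.right.right.right RtB15_11.Ce.right.right.right RtB15_11.CTp.right.left RtB15_11.CEr.right 0x4a4a525a5a3d17c26fd158cfc874c3def29288d64ffa5107e240d13605ea7ed122dae474c1c55caae8d61224c067e2918fbff7d050dd4a28a6ed12279ce74c3b43479c8d6a78f3c6e240d2f6cee47ed227c79b74c4462d9b08d61470cac68d240d434666ea83606ed1104b4b74c8b28b57b3d1cf78a8d644cc5277e250d440dd057ed2b28aca74c426aae67b11dbf1ec8d675beba6e2d1e18ff7d060d11397cb7ed108985474c3ad4632c8d6aa859d97d240d16154997ed13a4da774c27934ebb8d610abf0178d240d4346a61261266884a54a5425 = true := by decide +kernel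

theorem cB15_11_3_24 : chunkOkM (LB15_11.ctx true true 94 1 1 1 1 1 1 1 1) muQ true true 64 RtB15_11.Cx RtB15_11.CX RtB15_11.Ctp.right.right.right RtB15_11.Ce.right.right.right RtB15_11.CTp.right.right RtB15_11.CEr.right.left 0x6a = true := by decide +kernel

theorem cB15_11_3_25 : chunkOkM (LB15_11.ctx true true 258 47 32 15 16 177 1003 135 319) muQ true true 64 RtB15_11.Cx RtB15_11.CX RtB15_11.Ctp.right.right.right.left RtB15_11.Ce.right.right.right.left RtB15_11.CTp.right.right.left RtB15_11.CEr.right.right 0x5ab92e8057dd155dcc0983c3d6226288d630d21712a6d1538dd8b3041573c30000a678d68e8ff707d210d87527d050d1ce661f1a93cbde1aa177b259713518d614d1ff97e23874baa7d050d546f1404e27ddc68057573c29c198968d6ff39af6e240d191b87a98dd10beb5c983c5f3999738d630d3217ed5859a7ddbd896d073c186a7e728d6b2c67677d25f1a98e7d050d11bcad848ddb47b40773c368d325b8d630d346 = true := by decide +kernel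

theorem cB15_11_3_26 : chunkOkM (LB15_11.ctx true true 252 47 32 15 16 87 1003 145 165) muQ true true 64 RtB15_11.Cx RtB15_11.CX RtB15_11.Ctp.right.right.right.left RtB15_11.Ce.right.right.right.left RtB15_11.CTp.right.right.right RtB15_11.CEr.right.right 0x0286a36657dd65df6907d9138aee77d743adceb68d648304c6e250d2179e65b6d7dd596eb7f7d965557a6d7284298588d67680a047d2d7212f6d060d70aec6f7ddf8aa0d6d938de0a27d739c26f7e8d6f9cd2f47d250d645 = true := by decide +kernel

theorem cB15_11_3_27 : chunkOkM (LB15_11.ctx true true 269 95 64 15 16 723 2023 75 165) muQ true true 64 RtB15_11.Cx RtB15_11.CX RtB15_11.Ctp.right.right.right.right RtB15_11.Ce.right.right.right.left RtB15_11.CTp.right.right RtB15_11.CEr.right.right 0x01010165ed1d27ddd082f96d836ba88f7e699682a6e2235e026e050d19c329778dd11ab226883c168c7e07e614411097e240d13d0743e8dd7eb1f6e73c1a03bad76b2587c737e6c77e196e24fefdb6e060d65114301711401733 = true := by decide +kernel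

theorem cB15_11_3_28 : chunkOkM (LB15_11.ctx true true 328 3071 2048 15 16 11517 65297 75 77) muQ true true 64 RtB15_11.Cx RtB15_11.CX RtB15_11.Ctp.right.right.right RtB15_11.Ce.right.right.right.right RtB15_11.CTp.right.right RtB15_11.CEr.right.right 0x2121212101010170a6e5f06cb96811c7ddfc5867373c2520506f61640b7c7e21d44416e050d53336969696407d5f06cb8ca3687ddfa3397173cb0670947f630d569369369346936974697469769369359332174217421721744 = true := by decide +kernel

theorem cB15_11_2_0 : chunkOkM (LB15_11.ctx false true 94 1 1 1 1 1 1 1 1) muQ false true 64 RtB15_11.Cx RtB15_11.CX RtB15_11.Ctn RtB15_11.Ce RtB15_11.CTp RtB15_11.CEr 0x49 = true := by decide +kernel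

theorem cB15_11_1_0 : chunkOkM (LB15_11.ctx true false 94 1 1 1 1 1 1 1 1) muQ true false 64 RtB15_11.Cx RtB15_11.CX RtB15_11.Ctp RtB15_11.Ce RtB15_11.CTn RtB15_11.CEr 0x4a = true := by decide +kernel

theorem cB15_11_0_0 : chunkOkM (LB15_11.ctx false false 94 1 1 1 1 1 1 1 1) muQ false false 64 RtB15_11.Cx RtB15_11.CX RtB15_11.Ctn RtB15_11.Ce RtB15_11.CTn RtB15_11.CEr 0x49 = true := by decide +kernel

end Vale.Agent.helper4.Q4
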