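import Vale.Agent.helper4.Q4TreeM
import Vale.Agent.helper4.Q4G.PB15_5

/-!
Checks for pairs of intervals of second moments.
-/

set_option maxRecDepth 100000
set_option linter.unusedVariables false

namespace Vale.Agent.helper4.Q4

theorem cB15_5_3_0 : chunkOkM (LB15_5.ctx true true 100 1 1 1 1 1 1 1 1) muQ true true 64 RtB15_5.Cx RtB15_5.CX RtB15_5.Ctp.left RtB15_5.Ce RtB15_5.CTp RtB15_5.CEr 0x49 = true := by decide +kernel

theorem cB15_5_3_1 : chunkOkM (LB15_5.ctx true true 100 1 1 1 1 1 1 1 1) muQ true true 64 RtB15_5.Cx RtB15_5.CX RtB15_5.Ctp.right RtB15_5.Ce.left RtB15_5.CTp RtB15_5.CEr 0x69 = true := by decide +kernel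

theorem cB15_5_3_2 : chunkOkM (LB15_5.ctx true true 239 23 16 7 32 128 663 16 64) muQ true true 64 RtB15_5.Cx RtB15_5.CX RtB15_5.Ctp.right.left RtB15_5.Ce.right.left.left RtB15_5.CTp RtB15_5.CEr 0x692ea97897fd8b653b37f820587097f7150b767e8f6496a1f4e8f550d29d229b7fd531e90b7f81e7bbcc7f72d5ae7088f517def2a58f450d348cbc0a7fdbe093927f813a68617f718b5ad618f64e3d6bfe8f51518df438f460d465860467f82411fcb7f716b026fc8f65e29afbd8f534e6d0ee8f450d34c193e37fd3b4e3057f7279881668f66a7e36b28f53feba6458f450d43 = true := by decide +kernel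

theorem cB15_5_3_3 : chunkOkM (LB15_5.ctx true true 244 23 16 7 32 128 731 16 64) muQ true true 64 RtB15_5.Cx RtB15_5.CX RtB15_5.Ctp.right.left.left RtB15_5.Ce.right.left.right RtB15_5.CTp RtB15_5.CEr 0x59a6c1a06fdb56de1d7f85c9531d529f61b18a233deaf513b795d527af450d3b7c3907fd5724ad17f8199ba427f730d76bf18f5dd33a837f450db89dae77fd6eede0f7f836743fd7f723dc2cf339f522f7ea6019f450d344593 = true := by decide +kernel

theorem cB15_5_3_4 : chunkOkM (LB15_5.ctx true true 239 23 16 7 32 129 799 16 64) muQ true true 64 RtB15_5.Cx RtB15_5.CX RtB15_5.Ctp.right.left.right RtB15_5.Ce.right.left.right RtB15_5.CTp RtB15_5.CEr 0x3ee12377fd2a97ca07f8793bd86f7e983596f623b6b55e8f550d17bee8f08f05b428711ae7fd391a25f7f8164ebf828f65398bf438f540d3691a2d4f5b8f05b3ffbea07fd5fabe977f818996197f79e66a617f640d6106b8f54df29207f460d31cf4130d8f05b434 = true := by decide +kernel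

theorem cB15_5_3_5 : chunkOkM (LB15_5.ctx true true 218 23 16 7 32 21 85 16 64) muQ true true 64 RtB15_5.Cx RtB15_5.CX RtB15_5.Ctp.right.right RtB15_5.Ce.right.left RtB15_5.CTp RtB15_5.CEr 0x2668d077f06b = true := by decide +kernel

theorem cB15_5_3_6 : chunkOkM (LB15_5.ctx true true 230 23 16 7 32 69 221 16 64) muQ true true 64 RtB15_5.Cx RtB15_5.CX RtB15_5.Ctp.right.left RtB15_5.Ce.right.right RtB15_5.CTp RtB15_5.CEr 0x593062a447fd1e3f5a07f8d36f42f7f63653241b8f540d5934593 = true := by decide +kernel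

theorem cB15_5_3_7 : chunkOkM (LB15_5.ctx true true 240 23 16 7 32 153 867 16 64) muQ true true 64 RtB15_5.Cx RtB15_5.CX RtB15_5.Ctp.right.right.left RtB15_5.Ce.right.right.left.left RtB15_5.CTp RtB15_5.CEr 0x016fbc7728f05b200cf6dd8f05b31393b267fd1e6bd617f82505386f7ded89597f61d3d354e8f550d43 = true := by decide +kernel

theorem cB15_5_3_8 : chunkOkM (LB15_5.ctx true true 250 47 32 7 32 165 1887 16 64) muQ true true 64 RtB15_5.Cx RtB15_5.CX RtB15_5.Ctp.right.right.left RtB15_5.Ce.right.right.left.right RtB15_5.CTp RtB15_5.CEr 0x1bb39ca7fd1b4b3057f81325db4d8f612e1df998f540d3b9815b68f06b7a055f56fd3393966f8217a0fb18f6b09356d7f540d42c394d67fdcdc784f7f61b94e2878f530d3a88eb5d7f06b6f9f8d6fdf95345f8999cea17f614242ff18f540d34128155c7fd3c8224d7f886a63ff7f627a8f21f8f540d3 = true := by decide +kernel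

theorem cB15_5_3_9 : chunkOkM (LB15_5.ctx true true 227 23 16 7 32 45 221 16 64) muQ true true 64 RtB15_5.Cx RtB15_5.CX RtB15_5.Ctp.right.right.right RtB15_5.Ce.right.right.left RtB15_5.CTp RtB15_5.CEr 0x13701da28f06b = true := by decide +kernel

theorem cB15_5_3_10 : chunkOkM (LB15_5.ctx true true 247 47 32 7 32 165 969 16 64) muQ true true 64 RtB15_5.Cx RtB15_5.CX RtB15_5.Ctp.right.right.left RtB15_5.Ce.right.right.right RtB15_5.CTp RtB15_5.CEr 0x5959239e376fdd42bb547f6168e1dc48f530d69759344593 = true := by decide +kernel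

theorem cB15_5_3_11 : chunkOkM (LB15_5.ctx true true 275 383 256 7 32 177 8177 16 64) muQ true true 64 RtB15_5.Cx RtB15_5.CX RtB15_5.Ctp.right.right.right RtB15_5.Ce.right.right.right RtB15_5.CTp RtB15_5.CEr 0x21212121028ab4a018f06b32174217421742174140f20ac8f00b22b9e6888f06b352683778f678b19b97f520d32171381d17e8f02b11181927fd219ce4588f67d9f0557f530d23b0bbb58f06b73434 = true := by decide +kernel

theorem cB15_5_2_0 : chunkOkM (LB15_5.ctx false true 100 1 1 1 1 1 1 1 1) muQ false true 64 RtB15_5.Cx RtB15_5.CX RtB15_5.Ctn RtB15_5.Ce RtB15_5.CTp RtB15_5.CEr 0x49 = true := by decide +kernel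

theorem cB15_5_1_0 : chunkOkM (LB15_5.ctx true false 100 1 1 1 1 1 1 1 1) muQ true false 64 RtB15_5.Cx RtB15_5.CX RtB15_5.Ctp.left RtB15_5.Ce RtB15_5.CTn RtB15_5.CEr 0x49 = true := by decide +kernel

theorem cB15_5_1_1 : chunkOkM (LB15_5.ctx true false 100 1 1 1 1 1 1 1 1) muQ true false 64 RtB15_5.Cx RtB15_5.CX RtB15_5.Ctp.right RtB15_5.Ce.left RtB15_5.CTn RtB15_5.CEr 0x69 = true := by decide +kernel

theorem cB15_5_1_2 : chunkOkM (LB15_5.ctx true false 226 23 16 7 32 69 391 4 64) muQ true false 64 RtB15_5.Cx RtB15_5.CX RtB15_5.Ctp.right RtB15_5.Ce.right.left RtB15_5.CTn RtB15_5.CEr 0x5cb79d67f01b1c8e10898f05b350c0b938f05b31c27eefa8f64615be328f520d41bdb23f78f6772960428f59bb846c7f430d36924d2fca28f05b9af551a78f6165bef3059f55f80400d8f430d38e48fac08f04b4343 = true := by decide +kernel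

theorem cB15_5_1_3 : chunkOkM (LB15_5.ctx true false 215 23 16 7 32 33 119 4 64) muQ true false 64 RtB15_5.Cx RtB15_5.CX RtB15_5.Ctp.right.left RtB15_5.Ce.right.right RtB15_5.CTn RtB15_5.CEr 0xf2407bf7f63fdf0fa98f520d593 = true := by decide +kernel

theorem cB15_5_1_4 : chunkOkM (LB15_5.ctx true false 225 23 16 7 32 81 425 4 64) muQ true false 64 RtB15_5.Cx RtB15_5.CX RtB15_5.Ctp.right.right.left RtB15_5.Ce.right.right.left.left RtB15_5.CTn RtB15_5.CEr 0x059ede517f61d73a7978f520d3 = true := by decide +kernel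

theorem cB15_5_1_5 : chunkOkM (LB15_5.ctx true false 225 23 16 7 32 75 459 4 64) muQ true false 64 RtB15_5.Cx RtB15_5.CX RtB15_5.Ctp.right.right.left.left RtB15_5.Ce.right.right.left.right RtB15_5.CTn RtB15_5.CEr 0x29ae5b658f05b = true := by decide +kernel

theorem cB15_5_1_6 : chunkOkM (LB15_5.ctx true false 243 47 32 7 32 165 1887 4 64) muQ true false 64 RtB15_5.Cx RtB15_5.CX RtB15_5.Ctp.right.right.left.right RtB15_5.Ce.right.right.left.right RtB15_5.CTn RtB15_5.CEr 0x443f3227fdbe679865c1af2ec458f6fd615a67f540d4c794c8f8f06b40d364b98f06b47468b4727fd136b76775c16f4f2ac8f61abf72528f540d32c4cc4678f06b106208a38f05b44d5ebb7fd19f7aff75c1e3662a68f612e7d1738f540d73bf33ad7fd1a75af375c1c7c44848f6ffa14007f540d434 = true := by decide +kernel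

theorem cB15_5_1_7 : chunkOkM (LB15_5.ctx true false 237 23 16 7 32 177 1887 4 64) muQ true false 64 RtB15_5.Cx RtB15_5.CX RtB15_5.Ctp.right.right.right RtB15_5.Ce.right.right.left RtB15_5.CTn RtB15_5.CEr 0x11161fb2418f02b45928957fd2af1ea775c401c93c08f630d32d9bb2675cb41e056f834a318ef8f630d4304114 = true := by decide +kernel

theorem cB15_5_1_8 : chunkOkM (LB15_5.ctx true false 243 47 32 7 32 165 1955 4 64) muQ true false 64 RtB15_5.Cx RtB15_5.CX RtB15_5.Ctp.right.right.left RtB15_5.Ce.right.right.right RtB15_5.CTn RtB15_5.CEr 0x59591e6ef5a75c2911869c8f619a5d9778f530d34c0f527fd1c240af75c20da11728f613d0e4fd8f540d469759345934 = true := by decide +kernel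

end Vale.Agent.helper4.Q4
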