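import Vale.Agent.helper4.Q4TreeM
import Vale.Agent.helper4.Q4G.PB15_6

/-!
Checks for pairs of intervals of second moments.
-/

set_option maxRecDepth 100000
set_option linter.unusedVariables false

namespace Vale.Agent.helper4.Q4

theorem cB15_6_3_0 : chunkOkM (LB15_6.ctx true true 93 1 1 1 1 1 1 1 1) muQ true true 64 RtB15_6.Cx RtB15_6.CX RtB15_6.Ctp.left RtB15_6.Ce RtB15_6.CTp RtB15_6.CEr 0x49 = true := by decide +kernel

theorem cB15_6_3_1 : chunkOkM (LB15_6.ctx true true 93 1 1 1 1 1 1 1 1) muQ true true 64 RtB15_6.Cx RtB15_6.CX RtB15_6.Ctp.right RtB15_6.Ce.left RtB15_6.CTp RtB15_6.CEr 0x69 = true := by decide +kernel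

theorem cB15_6_3_2 : chunkOkM (LB15_6.ctx true true 223 23 16 5 16 128 663 8 64) muQ true true 64 RtB15_6.Cx RtB15_6.CX RtB15_6.Ctp.right.left RtB15_6.Ce.right.left.left RtB15_6.CTp RtB15_6.CEr 0x692fe93207dd6bf1626e8574aeeb7d71da6de958d67b48d7f7e550d3d934f37dd6942e06e843ee6847d73a51936e65aa66a37e52b6a1677e460d326c0566edef54db6e81014c16e718fe5b6f8d66a8c7447e5103e2857e460d44e41536edaa28986e8308de26e76f547097e555f225d7e450d35c95086ed91ac366e82f84fa6e7622b09338d6e8661537e580826587e460d43 = true := by decide +kernel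

theorem cB15_6_3_3 : chunkOkM (LB15_6.ctx true true 223 23 16 5 16 129 799 8 64) muQ true true 64 RtB15_6.Cx RtB15_6.CX RtB15_6.Ctp.right.left RtB15_6.Ce.right.left.right RtB15_6.CTp RtB15_6.CEr 0x30c46397dd609dcc6e857d0fc6d729b33a17d63e9d06e7e550d3c5f47e7dd99b4fc6e83e338d1a8d668cc6db7e540d453fe1eb7dd6f3cd06e81b450097d727eb1c97e694c3a217e550d3693e63c627dd9c6cbd6e8150be827d73e5f3cda8d67aef9ae7e550d23205cd7dd603faf6e82fb51817d71fd159f7e6837e17f7e5b848786e460d3369ff637ddc6a2266e879a2ba6d726a1c02b8d6713d32e7e550d43459553845d7dd960e646e81e393b6e716420b37e68bb11477e51b799287e460d45933 = true := by decide +kernel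

theorem cB15_6_3_4 : chunkOkM (LB15_6.ctx true true 203 23 16 5 16 21 85 8 64) muQ true true 64 RtB15_6.Cx RtB15_6.CX RtB15_6.Ctp.right.right RtB15_6.Ce.right.left RtB15_6.CTp RtB15_6.CEr 0x59fc45f06b = true := by decide +kernel

theorem cB15_6_3_5 : chunkOkM (LB15_6.ctx true true 214 23 16 5 16 69 221 8 64) muQ true true 64 RtB15_6.Cx RtB15_6.CX RtB15_6.Ctp.right.left RtB15_6.Ce.right.right RtB15_6.CTp RtB15_6.CEr 0x59315bd96ed4814ec6e81b504f838d666256187e540d5934593 = true := by decide +kernel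

theorem cB15_6_3_6 : chunkOkM (LB15_6.ctx true true 224 23 16 5 16 153 867 8 64) muQ true true 64 RtB15_6.Cx RtB15_6.CX RtB15_6.Ctp.right.right.left RtB15_6.Ce.right.right.left.left RtB15_6.CTp RtB15_6.CEr 0xcf724f06c29843a17dd2f66ed6d8171681048d628c31467e540d5b31fd47dd3aa398d7d891aad36e643415e97e540d327af97f7dd1b822b6e8e3622767d62afa3667e540d43 = true := by decide +kernel

theorem cB15_6_3_7 : chunkOkM (LB15_6.ctx true true 224 23 16 5 16 153 901 8 64) muQ true true 64 RtB15_6.Cx RtB15_6.CX RtB15_6.Ctp.right.right.left.left RtB15_6.Ce.right.right.left.right RtB15_6.CTp RtB15_6.CEr 0x595576f137ddc5ea116d8781f92d7d6398179ca8d540d1d578397dd785c5d6d94f8731b7d826f3856d74b575707e550d34 = true := by decide +kernel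

theorem cB15_6_3_8 : chunkOkM (LB15_6.ctx true true 247 91 64 5 16 321 3655 8 64) muQ true true 64 RtB15_6.Cx RtB15_6.CX RtB15_6.Ctp.right.right.left.right.left RtB15_6.Ce.right.right.left.right.left RtB15_6.CTp RtB15_6.CEr 0x29a51f77dd1acd4b37e62cd9f157e530d27db9fb7dd205c36873c2ee98437e619a45847e540d2c734db7dd197892d73c8cea2617e6a203a76e540d72db37237dd17ee8f873c250a396d953b259b7e6b34e496e550d432012e37dd216d4cb73c25890687e62a484ab08d540d37213e25f00c2f6a9597dd2dce3af73c63a89727e630d31da5bc7dd21f883673c1e488107e622ae1c07e540d374 = true := by decide +kernel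

theorem cB15_6_3_9 : chunkOkM (LB15_6.ctx true true 225 23 16 5 16 165 901 8 64) muQ true true 64 RtB15_6.Cx RtB15_6.CX RtB15_6.Ctp.right.right.left.right.right RtB15_6.Ce.right.right.left.right.left RtB15_6.CTp RtB15_6.CEr 0x3e3f89a7dd2ef5d3d73c4dcb911d8d630d = true := by decide +kernel

theorem cB15_6_3_10 : chunkOkM (LB15_6.ctx true true 247 91 64 5 16 321 3723 8 64) muQ true true 64 RtB15_6.Cx RtB15_6.CX RtB15_6.Ctp.right.right.left.right.left RtB15_6.Ce.right.right.left.right.right RtB15_6.CTp RtB15_6.CEr 0x4a3f2487dd478dac63c12143f728d636a1c0828d540d3129e137dd38ced5d8ac213b6e62c975b97e540d2f235517dd189d4af73c566238c08d62249bc708d540d2c8c2d67dd20bf90473c3fd75ab7e61ff8e867e540d34d4fc67dd274499a73c93dc1f07e630d7459374 = true := by decide +kernel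

theorem cB15_6_3_11 : chunkOkM (LB15_6.ctx true true 239 47 32 5 16 333 1887 8 64) muQ true true 64 RtB15_6.Cx RtB15_6.CX RtB15_6.Ctp.right.right.left.right.right RtB15_6.Ce.right.right.left.right.right RtB15_6.CTp RtB15_6.CEr 0x3d302007dd1d547b673c7b31d387e630d2959aac7dd21173a873c2901e5d7e620db93d7e540d32b0992d7dd2239c4b73c8f791af18d630d72a6be217dd17cb9ec73c53ea39e7e61be46e5d8d540d2ff940e7dd261409773c646f78b7e623d04197d540d74 = true := by decide +kernel

theorem cB15_6_3_12 : chunkOkM (LB15_6.ctx true true 235 47 32 5 16 177 1887 8 64) muQ true true 64 RtB15_6.Cx RtB15_6.CX RtB15_6.Ctp.right.right.right RtB15_6.Ce.right.right.left RtB15_6.CTp RtB15_6.CEr 0x1131c2bf27dd46d297d73c179c19308d621ba21388d240d5942086f06b4f555cf7dd75ccbdf73c68907c77e630d73528b50f7dd713140673c3cbaa1f08d630d4041143 = true := by decide +kernel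

theorem cB15_6_3_13 : chunkOkM (LB15_6.ctx true true 248 95 64 5 16 333 3859 8 64) muQ true true 64 RtB15_6.Cx RtB15_6.CX RtB15_6.Ctp.right.right.left RtB15_6.Ce.right.right.right RtB15_6.CTp RtB15_6.CEr 0x5959274963e7dd1c5a0aa73c44757047e61ecf2bdf8d540d69759326a9f0e7dd1bcd60673c3f85ec07e6178ae027e540d36e51497dd265556773c14a77f7a8e630d72db33bd7dd1c47d3173c5873edc7e6e36a126e540d42c63c437dd1f1f52b73c25defe97e6272f27818d540d3469759344593 = true := by decide +kernel

theorem cB15_6_3_14 : chunkOkM (LB15_6.ctx true true 242 47 32 5 16 345 3927 8 64) muQ true true 64 RtB15_6.Cx RtB15_6.CX RtB15_6.Ctp.right.right.right.left.left RtB15_6.Ce.right.right.right.left.left RtB15_6.CTp RtB15_6.CEr 0x49822e57dd55164ef73c829371f7e630d34d580b7dd280d5a473cb431eb47e630d2820f2f7dd267af7d73ca74b36f7e630d4347576407dd444f88d73c797310d7e630d43910fb37dd6fbe3a073ceaa6d9b48d630d4deacfa7dd7ad5bd073c633d00348d6230a3b6e240d3f1c4ab7dd5a0562873c58eb81b78d630d347 = true := by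 decide +kernel

theorem cB15_6_3_15 : chunkOkM (LB15_6.ctx true true 235 47 32 5 16 177 1955 8 64) muQ true true 64 RtB15_6.Cx RtB15_6.CX RtB15_6.Ctp.right.right.right.left.right RtB15_6.Ce.right.right.right.left.left RtB15_6.CTp RtB15_6.CEr 0x44a3d507dd641f36f73c4ece72398d630d4e24c277dd718327973c4e1ab6768d61447f4788d240d45772297dd683b50b73c24a01d07e61d4d7727e240d47 = true := by decide +kernel

theorem cB15_6_3_16 : chunkOkM (LB15_6.ctx true true 241 95 64 5 16 177 2023 8 64) muQ true true 64 RtB15_6.Cx RtB15_6.CX RtB15_6.Ctp.right.right.right.left RtB15_6.Ce.right.right.right.left.right RtB15_6.CTp RtB15_6.CEr 0x453e6e97dd696d68773c7a71f797e65dcd45e240d2173858f077dd5b904e673c69f87187e630d45ef9877dd5fcfc2273c655d06d7e6f3a0fc6e240d7469331f6657dd2e7fd9b73c9c2fce27e630d69743217 = true := by decide +kernel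

theorem cB15_6_3_17 : chunkOkM (LB15_6.ctx true true 219 23 16 5 16 93 493 8 64) muQ true true 64 RtB15_6.Cx RtB15_6.CX RtB15_6.Ctp.right.right.right.right RtB15_6.Ce.right.right.right.left RtB15_6.CTp RtB15_6.CEr 0x2afc4887dd53204c673ccce57807d6250e25f58d240d = true := by decide +kernel

theorem cB15_6_3_18 : chunkOkM (LB15_6.ctx true true 260 383 256 5 16 177 8177 8 64) muQ true true 64 RtB15_6.Cx RtB15_6.CX RtB15_6.Ctp.right.right.right RtB15_6.Ce.right.right.right.right RtB15_6.CTp RtB15_6.CEr 0x212121212b1b68d7dd4f548cb73c8ead65a68d6268fc9d7e240d258bea07dd5252fb073cf36e2997e630d59332174217421742174 = true := by decide +kernel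

theorem cB15_6_2_0 : chunkOkM (LB15_6.ctx false true 93 1 1 1 1 1 1 1 1) muQ false true 64 RtB15_6.Cx RtB15_6.CX RtB15_6.Ctn RtB15_6.Ce RtB15_6.CTp RtB15_6.CEr 0x49 = true := by decide +kernel

theorem cB15_6_1_0 : chunkOkM (LB15_6.ctx true false 93 1 1 1 1 1 1 1 1) muQ true false 64 RtB15_6.Cx RtB15_6.CX RtB15_6.Ctp.left RtB15_6.Ce RtB15_6.CTn RtB15_6.CEr 0x49 = true := by decide +kernel

theorem cB15_6_1_1 : chunkOkM (LB15_6.ctx true false 93 1 1 1 1 1 1 1 1) muQ true false 64 RtB15_6.Cx RtB15_6.CX RtB15_6.Ctp.right RtB15_6.Ce.left RtB15_6.CTn RtB15_6.CEr 0x69 = true := by decide +kernel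

end Vale.Agent.helper4.Q4
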