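import Vale.Agent.helper4.Q4TreeM
import Vale.Agent.helper4.Q4G.PB15_6

/-!
Checks for pairs of intervals of second moments.
-/

set_option maxRecDepth 100000
set_option linter.unusedVariables false

namespace Vale.Agent.helper4.Q4

theorem cB15_6_1_2 : chunkOkM (LB15_6.ctx true false 217 23 16 5 16 69 391 4 128) muQ true false 64 RtB15_6.Cx RtB15_6.CX RtB15_6.Ctp.right RtB15_6.Ce.right.left RtB15_6.CTn RtB15_6.CEr.left 0x3df2e5f06b30c7346f05b5f0ea06f05b337889e718d681467197e520d424c22e57e6b1695a67e545578747e430d36933bd376f05b105098b78e6263c5eb38e5a8258667e430d3e3764a6f04b4343 = true := by decide +kernel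

theorem cB15_6_1_3 : chunkOkM (LB15_6.ctx true false 206 23 16 5 16 33 119 4 128) muQ true false 64 RtB15_6.Cx RtB15_6.CX RtB15_6.Ctp.right.left RtB15_6.Ce.right.right RtB15_6.CTn RtB15_6.CEr.left 0x1c82a7298d674a1b327e520d593 = true := by decide +kernel

theorem cB15_6_1_4 : chunkOkM (LB15_6.ctx true false 217 23 16 5 16 81 425 4 128) muQ true false 64 RtB15_6.Cx RtB15_6.CX RtB15_6.Ctp.right.right.left RtB15_6.Ce.right.right.left.left RtB15_6.CTn RtB15_6.CEr.left 0x11a05c157d1097ed6a3f8f64cc9816dc7d634433127e540d3 = true := by decide +kernel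

theorem cB15_6_1_5 : chunkOkM (LB15_6.ctx true false 217 23 16 5 16 75 459 4 128) muQ true false 64 RtB15_6.Cx RtB15_6.CX RtB15_6.Ctp.right.right.left.left RtB15_6.Ce.right.right.left.right RtB15_6.CTn RtB15_6.CEr.left 0x170964c7ed7edc5d64c1325c9498d644eab1c7e540d = true := by decide +kernel

theorem cB15_6_1_6 : chunkOkM (LB15_6.ctx true false 246 91 64 5 16 321 3655 4 128) muQ true false 64 RtB15_6.Cx RtB15_6.CX RtB15_6.Ctp.right.right.left.right RtB15_6.Ce.right.right.left.right.left RtB15_6.CTn RtB15_6.CEr.left 0x19e84b07ed91ceeb673c4d6264708d630d9c1ba717dd6d7881a73c8d19986e62e68d417e540d1617aa588dd8646c0373c2fb1f367e620b19147e540dcf17eaa7dd7e99bc373c5e3c7f37d8ba60b997e640d196be3f08dd7918d0173c8163ee87e63bc1c96e540d4718cade028dd834dd0d73c41a8de17e627362de7e540d37767d15f01c16cb1bbb8dda0bd3b873c343e8fa7e61e35c3758d540d743 = true := by decide +kernel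

theorem cB15_6_1_7 : chunkOkM (LB15_6.ctx true false 240 47 32 5 16 321 3723 4 128) muQ true false 64 RtB15_6.Cx RtB15_6.CX RtB15_6.Ctp.right.right.left.right.left RtB15_6.Ce.right.right.left.right.right RtB15_6.CTn RtB15_6.CEr.left 0x1e3f58018dd710113773c88bf3af7d64cf79bf7e540d151c1f758dd71119c573cfc16b16e6306a84f7e540d165164b98dd7c4c02d73c682895d7e61f9ba6c7e540d1892bde28dd8d0f09573c49d9e317e61d096227e540d459374 = true := by decide +kernel

theorem cB15_6_1_8 : chunkOkM (LB15_6.ctx true false 245 91 64 5 16 333 1887 4 128) muQ true false 64 RtB15_6.Cx RtB15_6.CX RtB15_6.Ctp.right.right.left.right.right RtB15_6.Ce.right.right.left.right.right RtB15_6.CTn RtB15_6.CEr.left 0x193787a98dd7238ee073c7ce8fc27e630d15800ff28dd7ffa65673c421bce27e622b1e6d7e540d31589d9338dd6a7c39e73c1e6ed4e7e61d2575be8d540d4152cf7148dd966b19c73cfbaa7907e630dd77ffb77dd76c3e3173c70e3b607d8af903997e65829866e550d317bd26958ddafba16473c2dd87a468e630d717d0385e8dd819db2773c6d8c7f47e64c16ada7d540d1f1d8b0f8dda13855473cd3217b67e630d747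 = true := by decide +kernel

theorem cB15_6_1_9 : chunkOkM (LB15_6.ctx true false 234 47 32 5 16 177 1887 4 128) muQ true false 64 RtB15_6.Cx RtB15_6.CX RtB15_6.Ctp.right.right.right RtB15_6.Ce.right.right.left RtB15_6.CTn RtB15_6.CEr.left 0x1111a05c20549a8e8dddd981ba73c7157cdc7d621edf6c7e240d191ce4cb8dde0c2eba73c3bd8fd27d84ffd0fa7e640d3236217b48ddc3bf6cd73c593a3f428d630d4711a05c41143 = true := by decide +kernel

theorem cB15_6_1_10 : chunkOkM (LB15_6.ctx true false 247 95 64 5 16 333 3859 4 128) muQ true false 64 RtB15_6.Cx RtB15_6.CX RtB15_6.Ctp.right.right.left RtB15_6.Ce.right.right.right RtB15_6.CTn RtB15_6.CEr.left 0x5959147570478dd75c91fe73c57dbeeb7e6218dfef7e540d6975931372e7cc8dd7999e9b73c4f6171d7e61e3e7227e540d15ecf1a88dd89fb28073c101b37a98e630d16e6b1158dd6cc8c7173ca0a845c7e62346e56e540d471689bac48dd76f37ba73c390f56c7e628099477e540d3469759345934 = true := by decide +kernel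

theorem cB15_6_1_11 : chunkOkM (LB15_6.ctx true false 240 91 64 5 16 177 1955 4 128) muQ true false 64 RtB15_6.Cx.left RtB15_6.CX RtB15_6.Ctp.right.right.right.left RtB15_6.Ce.right.right.right.left.left RtB15_6.CTn RtB15_6.CEr.left 0x132034c38ddcfcbc9d73c68067457e616f89907e240d1564286a8ddc4e399673ccbc3e047e630d32171eddf5998ddc472fb573c334224e7e61f390a17e240d1896d9f78ddddda54173c6ec5ab27e630d34 = true := by decide +kernel

theorem cB15_6_1_12 : chunkOkM (LB15_6.ctx true false 248 95 64 5 16 345 3927 4 128) muQ true false 64 RtB15_6.Cx.right RtB15_6.CX RtB15_6.Ctp.right.right.right.left RtB15_6.Ce.right.right.right.left.left RtB15_6.CTn RtB15_6.CEr.left 0x136079c28ddc3ef3a473c6092c2f7d870c6ac728d640de2e92ea7dd98ba32673c4bde4277d8f70f6927e640d13f22b228dd6ecaab173c10e09ebe8e6549a6b6e540d1692e3bb8dd7094b7873c5b93846d8ef763137e640d431c3b16998dd9d1fe7273caf4c1aa7e630d73160078398dda3cd21d73c7a06e6ca8d630d4 = true := by decide +kernel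

theorem cB15_6_1_13 : chunkOkM (LB15_6.ctx true false 221 23 16 5 16 93 969 4 128) muQ true false 64 RtB15_6.Cx RtB15_6.CX RtB15_6.Ctp.right.right.right.right RtB15_6.Ce.right.right.right.left.left RtB15_6.CTn RtB15_6.CEr.left 0x3776f76f00b = true := by decide +kernel

theorem cB15_6_1_14 : chunkOkM (LB15_6.ctx true false 245 95 64 5 16 345 2023 4 128) muQ true false 64 RtB15_6.Cx RtB15_6.CX RtB15_6.Ctp.right.right.right RtB15_6.Ce.right.right.right.left.right RtB15_6.CTn RtB15_6.CEr.left 0x14ee2aaa8ddbba810073c3c134957d8122f2d978d62c4dd9f7e250d10e09a958ddca449b873c928608c7e630d217ce2098e7ddbb9ca2473c54be6577d89985d837e640d1689ddc58ddd71991b73c7f3e8e37e6813b0d6e240d74691237c4bf8dd8e861d473cdc3ed727e630d12dd2c038dd7d6c7dc73ccef64eb7e630d3697433217 = true := by decide +kernel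

theorem cB15_6_1_15 : chunkOkM (LB15_6.ctx true false 259 383 256 5 16 177 8177 4 128) muQ true false 64 RtB15_6.Cx RtB15_6.CX RtB15_6.Ctp.right.right.right RtB15_6.Ce.right.right.right.right RtB15_6.CTn RtB15_6.CEr.left 0x21212121115d6e3f8ddbf9dc0f73ca37a3bcf8d61dbc2aa7e240d11cfc8598ddb0c976973c10fd3e87d8ea7b7d17e640d59332174217421742174 = true := by decide +kernel

theorem cB15_6_1_16 : chunkOkM (LB15_6.ctx true false 93 1 1 1 1 1 1 1 1) muQ true false 64 RtB15_6.Cx RtB15_6.CX RtB15_6.Ctp.right RtB15_6.Ce.right RtB15_6.CTn RtB15_6.CEr.right 0x5a = true := by decide +kernel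

theorem cB15_6_0_0 : chunkOkM (LB15_6.ctx false false 93 1 1 1 1 1 1 1 1) muQ false false 64 RtB15_6.Cx RtB15_6.CX RtB15_6.Ctn RtB15_6.Ce RtB15_6.CTn RtB15_6.CEr 0x49 = true := by decide +kernel

end Vale.Agent.helper4.Q4
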