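import Vale.Agent.helper4.Q4TreeM
import Vale.Agent.helper4.Q4G.PB16_13

/-!
Checks for pairs of intervals of second moments.
-/

set_option maxRecDepth 100000
set_option linter.unusedVariables false

namespace Vale.Agent.helper4.Q4

theorem cB16_13_3_36 : chunkOkM (LB16_13.ctx true true 298 111 64 639 512 3107 1195 10571 3409) muQ true true 64 RtB16_13.Cx.right RtB16_13.CX.right.right RtB16_13.Ctp.right.right.right.left RtB16_13.Ce.right.right.right.left RtB16_13.CTp.right.right.right RtB16_13.CEr.right.right.right.right.left.left 0x0202020202140c67b73c58bff76d9d49e0be78c62c51f527c240d69316d3a8f73c90f4a43e8c620d4349c426f06b35555512612602802802817ae27e382cc5064da7d64220aa6d230d69315e7ed0a82c87ce3537d620d415cdc3573c64fe1ae229c620d34a552170202020202136753773c4aba6d8e8c620d162dc8c73ccaaa201a8c620d6971379fe173c288fb4358c6131c46ab8c530d43555551261260280280281587263182c4dd94277d610b2bbc7c230d1594da2882cc1ed2467d620d697157a4d0982c1c0c96375b41bf2d448c6ab879c87c540d434a55415229b473cd060d667c623b4d6158c530d3217810b7163c121172d7d9c07b31c7c610e1d1a18c58dd6f86d250d14d399573c5464686b8c620d167e6f4c82ca4b9dc028c619f333868c230d715b5c2173c21f05e328c220d44a55164675073c54a54e47c623fd960f8c530d22f892e73c3536bdd7c8ec95e257c618a27a118c540d434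 = true := by decide +kernel

theorem cB16_13_3_37 : chunkOkM (LB16_13.ctx true true 232 27 16 79 64 403 145 165 847) muQ true true 64 RtB16_13.Cx.right RtB16_13.CX.right.right RtB16_13.Ctp.right.right.right.right RtB16_13.Ce.right.right.right.left RtB16_13.CTp.right.right.right RtB16_13.CEr.right.right.right.right.left.left 0x14d018973c8624be17c62f3af2618c230d = true := by decide +kernel

theorem cB16_13_3_38 : chunkOkM (LB16_13.ctx true true 89 1 1 1 1 1 1 1 1) muQ true true 64 RtB16_13.Cx.right RtB16_13.CX.right RtB16_13.Ctp.right.right.right RtB16_13.Ce.right.right.right.left RtB16_13.CTp.right.right.right RtB16_13.CEr.right.right.right.right.left.right 0x22 = true := by decide +kernel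

theorem cB16_13_3_39 : chunkOkM (LB16_13.ctx true true 89 1 1 1 1 1 1 1 1) muQ true true 64 RtB16_13.Cx.right RtB16_13.CX.right RtB16_13.Ctp.right.right.right RtB16_13.Ce.right.right.right.left RtB16_13.CTp.right.right.right RtB16_13.CEr.right.right.right.right.right 0x22 = true := by decide +kernel

theorem cB16_13_3_40 : chunkOkM (LB16_13.ctx true true 89 1 1 1 1 1 1 1 1) muQ true true 64 RtB16_13.Cx RtB16_13.CX RtB16_13.Ctp.right.right RtB16_13.Ce.right.right.right.right RtB16_13.CTp.right.right RtB16_13.CEr.right 0x21 = true := by decide +kernel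

theorem cB16_13_2_0 : chunkOkM (LB16_13.ctx false true 89 1 1 1 1 1 1 1 1) muQ false true 64 RtB16_13.Cx RtB16_13.CX RtB16_13.Ctn RtB16_13.Ce RtB16_13.CTp RtB16_13.CEr 0x49 = true := by decide +kernel

theorem cB16_13_1_0 : chunkOkM (LB16_13.ctx true false 89 1 1 1 1 1 1 1 1) muQ true false 64 RtB16_13.Cx RtB16_13.CX RtB16_13.Ctp RtB16_13.Ce RtB16_13.CTn RtB16_13.CEr 0x4a = true := by decide +kernel

theorem cB16_13_0_0 : chunkOkM (LB16_13.ctx false false 89 1 1 1 1 1 1 1 1) muQ false false 64 RtB16_13.Cx RtB16_13.CX RtB16_13.Ctn RtB16_13.Ce RtB16_13.CTn RtB16_13.CEr 0x49 = true := by decide +kernel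

end Vale.Agent.helper4.Q4
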