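import Vale.Agent.helper4.Q4TreeM
import Vale.Agent.helper4.Q4G.PB16_6

/-!
Checks for pairs of intervals of second moments.
-/

set_option maxRecDepth 100000
set_option linter.unusedVariables false

namespace Vale.Agent.helper4.Q4

theorem cB16_6_3_0 : chunkOkM (LB16_6.ctx true true 97 1 1 1 1 1 1 1 1) muQ true true 64 RtB16_6.Cx RtB16_6.CX RtB16_6.Ctp.left RtB16_6.Ce RtB16_6.CTp RtB16_6.CEr 0x41 = true := by decide +kernel

theorem cB16_6_3_1 : chunkOkM (LB16_6.ctx true true 197 13 8 5 16 39 8 8 64) muQ true true 64 RtB16_6.Cx RtB16_6.CX RtB16_6.Ctp.right RtB16_6.Ce.left RtB16_6.CTp RtB16_6.CEr 0x1bf16417f8336af98229f455dfef498f130d = true := by decide +kernel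

theorem cB16_6_3_2 : chunkOkM (LB16_6.ctx true true 214 13 8 5 16 256 45 8 64) muQ true true 64 RtB16_6.Cx RtB16_6.CX RtB16_6.Ctp.right.left RtB16_6.Ce.right.left.left RtB16_6.CTp RtB16_6.CEr 0x4e7a676fd9894176f824bbdb6f75427941e8e6c4971137f5405a3d27f460d45a6a66fda82ba36f829e6846f717805f2e8e69056c8f7f5d7b31b27f460d4933 = true := by decide +kernel

theorem cB16_6_3_3 : chunkOkM (LB16_6.ctx true true 212 13 8 5 16 128 55 8 64) muQ true true 64 RtB16_6.Cx RtB16_6.CX RtB16_6.Ctp.right.left.left RtB16_6.Ce.right.left.right RtB16_6.CTp RtB16_6.CEr 0x2506906fd873ed46f8112ef86f76cfc96398f5101a99de39f450d = true := by decide +kernel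

theorem cB16_6_3_4 : chunkOkM (LB16_6.ctx true true 241 49 32 5 16 559 435 8 64) muQ true true 64 RtB16_6.Cx RtB16_6.CX RtB16_6.Ctp.right.left.right RtB16_6.Ce.right.left.right.left RtB16_6.CTp RtB16_6.CEr 0x35a66c6fd7d0c506f817960f6f7192a79598e66507a837f550d494fc09fc7ed8b00836f82e6e1ba7e71f7471c7f6affffd77f532652077f460d46f30d17ed8cda706f81c0e7837e7cfbb15f673c9db87f5241ff747f460d43d3dc56fd41fec56f837b4196f7552b29c58f57028ea7d8f450d360ebe76fd9a54f26f834226a6f713dfb70d8e6775097c7f5d2a7bf6f460d493455c0f7ed77c84a6f81f73f7c7e74349f547f6e4bc9107f51428abd7f460d73473 = true := by decide +kernel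

theorem cB16_6_3_5 : chunkOkM (LB16_6.ctx true true 222 13 8 5 16 273 115 8 64) muQ true true 64 RtB16_6.Cx RtB16_6.CX RtB16_6.Ctp.right.left.right.left RtB16_6.Ce.right.left.right.right RtB16_6.CTp RtB16_6.CEr 0x74d1056fd33f4b46f7518abf158f621f32187d9f52acef4ff19f450d = true := by decide +kernel

theorem cB16_6_3_6 : chunkOkM (LB16_6.ctx true true 245 53 32 5 16 1235 475 8 64) muQ true true 64 RtB16_6.Cx RtB16_6.CX RtB16_6.Ctp.right.left.right.right RtB16_6.Ce.right.left.right.right RtB16_6.CTp RtB16_6.CEr 0x494f1643a7ed62a21b6f823841c27e7f743db6f678e3cf17f550d2f05a5a7ed799009b7e81cd0c4c7e715301807f695aa5877f52edf10d7f460d336981ab7ed74145a6f81b1af8d7e741b448b7f6a78809e7f525e4cc57f460d4713227e77ed67fa8d6f84f561c6e71ee0cbf7f688a26ae7f550d75a83ef6fd899eda6f8189c036f76bd4bd6f69e5cec17f55d0fda97f460d33566546fd859c606f8be49c5f77d72e167e656e52d77f550d37aa146fd832fcc6f81b06586f7384a3757f6b19416f7f5586b3147f460d39960f27ed7a989e6f816a2e3c7e731629167f6b3a771c7f550d734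 = true := by decide +kernel

theorem cB16_6_3_7 : chunkOkM (LB16_6.ctx true true 226 13 8 5 16 663 235 8 64) muQ true true 64 RtB16_6.Cx RtB16_6.CX RtB16_6.Ctp.right.right RtB16_6.Ce.right.left RtB16_6.CTp RtB16_6.CEr 0x11692d16e46fd41ace96f816e890168e63ebb6547f540d2b2e096fd5322926f8b3a58a67e64f7c4337f540d30431141143 = true := by decide +kernel

theorem cB16_6_3_8 : chunkOkM (LB16_6.ctx true true 234 53 32 5 16 299 245 8 64) muQ true true 64 RtB16_6.Cx RtB16_6.CX RtB16_6.Ctp.right.left RtB16_6.Ce.right.right RtB16_6.CTp RtB16_6.CEr 0x595959493930846fd8414f66f81586416f73d9ab0e7f6ca9838d7f53656e107f460d7597445934593 = true := by decide +kernel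

theorem cB16_6_3_9 : chunkOkM (LB16_6.ctx true true 240 27 16 5 16 1287 495 8 64) muQ true true 64 RtB16_6.Cx RtB16_6.CX RtB16_6.Ctp.right.right.left.left RtB16_6.Ce.right.right.left.left.left RtB16_6.CTp RtB16_6.CEr 0x35513a6fd74bcfb6f825e4ae978e666b91ae7f540d3dda7047ed1d012fe7e883a8b86f64afeb0a7f540d2e12c7c7ed1debe46f820170777f63e067dc7f540d4785f9e76f8191bce97e71ca84107f671fa1f87f540d1fae4677ed6fb2066f816034d37e7a02e2f6f67ef06257f52a361d97f460d37e1d956f821107267f683102ea7f530d417648ee7ed3dddb36f81f5aeba7f6748342c7f540d73 = true := by decide +kernel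

theorem cB16_6_3_10 : chunkOkM (LB16_6.ctx true true 245 27 16 5 16 1339 515 8 64) muQ true true 64 RtB16_6.Cx RtB16_6.CX RtB16_6.Ctp.right.right.left.left RtB16_6.Ce.right.right.left.left.right RtB16_6.CTp RtB16_6.CEr 0xb3ad396ed5c34f16f887e1d26f65fac2217f540d27a9eef7ed6cb8b247e810149b47e7265dc887f695affce7f550d3251e95c7ed6592336f8e0ccc86f65cf51a37f540d42ec7e1a7ed25e6396f824ef6567f663ab69d7f540d722f5dd77ed6b942c6f811339f6f71bcc1bd7f69e4bb417f534426e07f460d2ff757f7ed6f28066f8fa65e96e7162ca3c7f68894fc77f51eb27f27f460d5f2a2ef7ed98372f6f8108df99459f6839c6563f9f5deb01cd849f450d345973 = true := by decide +kernel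

theorem cB16_6_3_11 : chunkOkM (LB16_6.ctx true true 240 25 16 5 16 1391 495 8 64) muQ true true 64 RtB16_6.Cx RtB16_6.CX RtB16_6.Ctp.right.right.left.right RtB16_6.Ce.right.right.left.left.left RtB16_6.CTp RtB16_6.CEr 0x69693f1e3107f06b370c89e7ed4369a607f628e95c27f530d30473 = true := by decide +kernel

theorem cB16_6_3_12 : chunkOkM (LB16_6.ctx true true 249 51 32 5 16 1391 1015 8 64) muQ true true 64 RtB16_6.Cx.left RtB16_6.CX RtB16_6.Ctp.right.right.left.right.left RtB16_6.Ce.right.right.left.left.right.left RtB16_6.CTp RtB16_6.CEr 0x3c8a6c97ed2601ebe7e8598eb557f63999dd77f540d37dde3d7ed74106e6e8af205497f6f304a96f540d2f170067ed1ea19c6e8aea88d47f630d43fbfa017ed2b6ad9c7f63f3b67a7f530d3aaa9b87ed20c1b66e86d39ea87f62a3b5a77f540d437 = true := by decide +kernel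

theorem cB16_6_3_13 : chunkOkM (LB16_6.ctx true true 250 51 32 5 16 1391 1035 8 64) muQ true true 64 RtB16_6.Cx.left RtB16_6.CX RtB16_6.Ctp.right.right.left.right.left RtB16_6.Ce.right.right.left.left.right.right RtB16_6.CTp RtB16_6.CEr 0x45b65967ed30afe997f63696fbf7f530d257e8237ed24913287e813ea7b57f64dc3c397f540d33a1c5cd7edce2e366e817f759fe8f69292fe6f540d407f2587ed9de63fc7f6139e0167f530d44154f107ed1c6735a7e81c1e4dc7f644fec397f540d37 = true := by decide +kernel

theorem cB16_6_3_14 : chunkOkM (LB16_6.ctx true true 246 51 32 5 16 1443 515 8 64) muQ true true 64 RtB16_6.Cx.left RtB16_6.CX RtB16_6.Ctp.right.right.left.right.right RtB16_6.Ce.right.right.left.left.right RtB16_6.CTp RtB16_6.CEr 0x3cd42c6f06c2f4fc5f7ed213213a74c88d62e37f659ec276f240d2ef1ca07ed8eb21064cb5c9f3e7f630d373580cf77edc89ff55c663459368e630d4 = true := by decide +kernel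

theorem cB16_6_3_15 : chunkOkM (LB16_6.ctx true true 229 27 16 5 16 351 255 8 64) muQ true true 64 RtB16_6.Cx.right RtB16_6.CX RtB16_6.Ctp.right.right.left.right RtB16_6.Ce.right.right.left.left.right RtB16_6.CTp RtB16_6.CEr 0x361f096fd5dbadf6f84354929a8e656c87fb7f540d = true := by decide +kernel

theorem cB16_6_3_16 : chunkOkM (LB16_6.ctx true true 233 27 16 5 16 663 265 8 64) muQ true true 64 RtB16_6.Cx RtB16_6.CX RtB16_6.Ctp.right.right.left.left RtB16_6.Ce.right.right.left.right RtB16_6.CTp RtB16_6.CEr 0x592bf3ddb7ed68a8496f874c895f73e2064d7f6a4bee987f550d5975934 = true := by decide +kernel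

theorem cB16_6_3_17 : chunkOkM (LB16_6.ctx true true 242 51 32 5 16 689 525 8 64) muQ true true 64 RtB16_6.Cx.left RtB16_6.CX RtB16_6.Ctp.right.right.left.right.left RtB16_6.Ce.right.right.left.right.left RtB16_6.CTp RtB16_6.CEr 0x593d7cf077ed1b2a23f7e827486f77f64a0fe4e7f540d5974 = true := by decide +kernel

theorem cB16_6_3_18 : chunkOkM (LB16_6.ctx true true 256 103 64 5 16 1443 1055 8 64) muQ true true 64 RtB16_6.Cx.left RtB16_6.CX RtB16_6.Ctp.right.right.left.right.right RtB16_6.Ce.right.right.left.right.left.left RtB16_6.CTp RtB16_6.CEr 0x42ecd8c7ed2898726e8ac8e8c47f630d4f1d8a97ed1ba3a997e8537b8147f62c096f47f540d3e006bd7ed10c2bde7e817fed9438f6a81c626f540d742ff8be7ed13ed6467e88965a967f615346be7f540d432858ca57ed261440274cd30d6437f630d41e049d7ed27f956374cff71da37f630d42a61cf17ed1c9f1b474c106ae64fd9e630d37 = true := by decide +kernel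

end Vale.Agent.helper4.Q4
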