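import Vale.Agent.helper4.Q4TreeM
import Vale.Agent.helper4.Q4G.PB16_6

/-!
Checks for pairs of intervals of second moments.
-/

set_option maxRecDepth 100000
set_option linter.unusedVariables false

namespace Vale.Agent.helper4.Q4

theorem cB16_6_3_19 : chunkOkM (LB16_6.ctx true true 256 103 64 5 16 1443 1075 8 64) muQ true true 64 RtB16_6.Cx.left RtB16_6.CX RtB16_6.Ctp.right.right.left.right.right RtB16_6.Ce.right.right.left.right.left.right RtB16_6.CTp RtB16_6.CEr 0x37202887ed55a5846e8f6276727f630d36ff4a77edaff7a66e811f52c2d8f630d4388cd8d7ed4d933a57f6367e7397f530d32a8e1e7ed2e105564c5ac6d177f62cb83267f540d170d863a8f06b743697 = true := by decide +kernel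

theorem cB16_6_3_20 : chunkOkM (LB16_6.ctx true true 241 27 16 5 16 1443 535 8 64) muQ true true 64 RtB16_6.Cx.right RtB16_6.CX RtB16_6.Ctp.right.right.left.right RtB16_6.Ce.right.right.left.right.left RtB16_6.CTp RtB16_6.CEr 0x52281db7ed2534416f82c63faf7f63115ca57f540d2c26c927edcdd4c5f8235b42f7f645b38cb7f540d3125ea137f05b422ee0bf7ed58d2166f853a9a66e711cbe187f663776247f550d2eaf1d47ed4a6db66f81eba3af7f656316867f540d43 = true := by decide +kernel

theorem cB16_6_3_21 : chunkOkM (LB16_6.ctx true true 256 103 64 5 16 1443 1095 8 64) muQ true true 64 RtB16_6.Cx RtB16_6.CX RtB16_6.Ctp.right.right.left.right RtB16_6.Ce.right.right.left.right.right RtB16_6.CTp RtB16_6.CEr 0x340ff847ed42f4b177e8361d4d67f65a1128f7f540d43d6ddc7ed743e45f82dc60007f649c4f087f540d728164a6f84c72c677f653ef34d7f530d3df3c1a7ed61f7b7b7f62f6069c7f530d350e1c87ed44f1e4e7f62ad9c667f530d44c0738f7ed3d5ad177e810459b17f653ada1c7f540d374bd163c6ed54defa6f835b9a937f681179367f540d3596942202757ede76e6064c1552917c8f630d469759321745937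 = true := by decide +kernel

theorem cB16_6_3_22 : chunkOkM (LB16_6.ctx true true 220 13 8 5 16 377 125 8 64) muQ true true 64 RtB16_6.Cx RtB16_6.CX RtB16_6.Ctp.right.right.right.left RtB16_6.Ce.right.right.left.left RtB16_6.CTp RtB16_6.CEr 0x35cad16fd13642b65c99e13a87e6358f15d7f240d = true := by decide +kernel

theorem cB16_6_3_23 : chunkOkM (LB16_6.ctx true true 247 51 32 5 16 1495 535 8 64) muQ true true 64 RtB16_6.Cx RtB16_6.CX RtB16_6.Ctp.right.right.right.left RtB16_6.Ce.right.right.left.right.left RtB16_6.CTp RtB16_6.CEr 0x69013532a057f02b27bcbea7ed153760174c88ccaf97f630d32aac3be7ed159dfcf74c78c5625a8e621553877f240d701fc08607ed1ccfe7974c5c12cca7f61daebb37f240d7437 = true := by decide +kernel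

theorem cB16_6_3_24 : chunkOkM (LB16_6.ctx true true 250 51 32 5 16 1495 1095 8 64) muQ true true 64 RtB16_6.Cx.left RtB16_6.CX RtB16_6.Ctp.right.right.right.left RtB16_6.Ce.right.right.left.right.right RtB16_6.CTp RtB16_6.CEr 0x01285617a7edae8db264cb6f703a18e6271727b7f240d693262d0de7ed139cf4f74c5c016fc7f62a5fb1f7f240d2634f887ed246605e74c1661dd398f630d2630a327ed148331a74cd0e67697f630d4343217 = true := by decide +kernel

theorem cB16_6_3_25 : chunkOkM (LB16_6.ctx true true 257 107 64 5 16 1495 1115 8 64) muQ true true 64 RtB16_6.Cx.right RtB16_6.CX RtB16_6.Ctp.right.right.right.left.left RtB16_6.Ce.right.right.left.right.right RtB16_6.CTp RtB16_6.CEr 0x3ff052c7ed32cfd36f86bf1d5d7f637547317f540d1fe8dd17ede3569c07f620da6291657f06b44a2a91e7ede59601d7f61c894167f530d10d1fb268f06b740451a37ed25c97ef7e8c0b3d717f6d325cc6f540d36be6497ed4378466e817f0ae838f630d74376938b2ecf7edc97380b7f620d74 = true := by decide +kernel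

theorem cB16_6_3_26 : chunkOkM (LB16_6.ctx true true 234 27 16 5 16 767 275 8 64) muQ true true 64 RtB16_6.Cx.right RtB16_6.CX RtB16_6.Ctp.right.right.right.left.right RtB16_6.Ce.right.right.left.right.right RtB16_6.CTp RtB16_6.CEr 0x3327a2a7f02b = true := by decide +kernel

theorem cB16_6_3_27 : chunkOkM (LB16_6.ctx true true 218 13 8 5 16 403 65 8 64) muQ true true 64 RtB16_6.Cx RtB16_6.CX RtB16_6.Ctp.right.right.right.right RtB16_6.Ce.right.right.left RtB16_6.CTp RtB16_6.CEr 0x620aa997f00b = true := by decide +kernel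

theorem cB16_6_3_28 : chunkOkM (LB16_6.ctx true true 97 1 1 1 1 1 1 1 1) muQ true true 64 RtB16_6.Cx.left RtB16_6.CX RtB16_6.Ctp.right.right RtB16_6.Ce.right.right.right.left RtB16_6.CTp RtB16_6.CEr 0x21 = true := by decide +kernel

theorem cB16_6_3_29 : chunkOkM (LB16_6.ctx true true 227 27 16 5 16 351 145 8 64) muQ true true 64 RtB16_6.Cx.right RtB16_6.CX RtB16_6.Ctp.right.right.left RtB16_6.Ce.right.right.right.left RtB16_6.CTp RtB16_6.CEr 0x37a0a76fd46b0a66f83b4985f742024daf8e66ed58cf7f550d593 = true := by decide +kernel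

theorem cB16_6_3_30 : chunkOkM (LB16_6.ctx true true 257 107 64 5 16 1495 1135 8 64) muQ true true 64 RtB16_6.Cx.right RtB16_6.CX RtB16_6.Ctp.right.right.right.left.left RtB16_6.Ce.right.right.right.left.left.left RtB16_6.CTp RtB16_6.CEr 0x3b69aa07ed73b659a7f621a2c907f530d374d5c97ed61af9e6e822e2e1e7f641db6767f540d31f0e9247ed1e53d864c16102b878f630d21e02b37ed23c9c564cee007e37f630d469434975b7edcca41757f61a608937f530d469737 = true := by decide +kernel

theorem cB16_6_3_31 : chunkOkM (LB16_6.ctx true true 257 111 64 5 16 1495 1155 8 64) muQ true true 64 RtB16_6.Cx.right RtB16_6.CX RtB16_6.Ctp.right.right.right.left.left RtB16_6.Ce.right.right.right.left.left.right RtB16_6.CTp RtB16_6.CEr 0x37ffcfe7ed6cd46ea7f62aa15ec7f530d42688d37ed158e07488f620d753f04ac7ed1cd08297e8693fecc7f6324b2c07f540d2dd28c97edf8940467f61dec9c17f530d7440edb5b7ed293d3027e82a75ae27f64e316017f540d3697 = true := by decide +kernel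

theorem cB16_6_3_32 : chunkOkM (LB16_6.ctx true true 250 55 32 5 16 1547 1135 8 64) muQ true true 64 RtB16_6.Cx.right RtB16_6.CX RtB16_6.Ctp.right.right.right.left.right RtB16_6.Ce.right.right.right.left.left.left RtB16_6.CTp RtB16_6.CEr 0x028ffd427f00b1f178997ed193366974c8f1dd647f6d0efea6f240d454e7cb7ed24574f774c75e99977f6e8f3ea6f240d437 = true := by decide +kernel

theorem cB16_6_3_33 : chunkOkM (LB16_6.ctx true true 257 111 64 5 16 1547 1155 8 64) muQ true true 64 RtB16_6.Cx.right RtB16_6.CX RtB16_6.Ctp.right.right.right.left.right RtB16_6.Ce.right.right.right.left.left.right RtB16_6.CTp RtB16_6.CEr 0x334d2527f02ba02face7f06bdcee9e87f06b7a8ad26c7f06b434be8c377f02b1eb67e77edf5d3f364cd3cbb457f676ea706f240d32177 = true := by decide +kernel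

theorem cB16_6_3_34 : chunkOkM (LB16_6.ctx true true 97 1 1 1 1 1 1 1 1) muQ true true 64 RtB16_6.Cx.right.left RtB16_6.CX RtB16_6.Ctp.right.right.right.left RtB16_6.Ce.right.right.right.left.right RtB16_6.CTp RtB16_6.CEr 0x21 = true := by decide +kernel

theorem cB16_6_3_35 : chunkOkM (LB16_6.ctx true true 247 55 32 5 16 1495 585 8 64) muQ true true 64 RtB16_6.Cx.right.right RtB16_6.CX RtB16_6.Ctp.right.right.right.left.left RtB16_6.Ce.right.right.right.left.right RtB16_6.CTp RtB16_6.CEr 0x592fa4bd07ed53fe39b7f63ba7b967f530d5934 = true := by decide +kernel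

end Vale.Agent.helper4.Q4
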