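import Vale.Agent.helper4.Q4TreeM
import Vale.Agent.helper4.Q4G.PB16_6

/-!
Checks for pairs of intervals of second moments.
-/

set_option maxRecDepth 100000
set_option linter.unusedVariables false

namespace Vale.Agent.helper4.Q4

theorem cB16_6_3_36 : chunkOkM (LB16_6.ctx true true 257 111 64 5 16 1547 1175 8 64) muQ true true 64 RtB16_6.Cx.right.right RtB16_6.CX RtB16_6.Ctp.right.right.right.left.right RtB16_6.Ce.right.right.right.left.right.left RtB16_6.CTp RtB16_6.CEr 0xc1260727f06b17f36c87ed5aaa5764c144644c08f619346c37f240d714bfc677ed188fcfc74cef51a107f657e77b6f240d435b4f857ed2609fdba8f620d697366d4877ed14dadb198f620de43491d7f06b743 = true := by decide +kernel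

theorem cB16_6_3_37 : chunkOkM (LB16_6.ctx true true 257 111 64 5 16 1547 1195 8 64) muQ true true 64 RtB16_6.Cx.right.right RtB16_6.CX RtB16_6.Ctp.right.right.right.left.right RtB16_6.Ce.right.right.right.left.right.right RtB16_6.CTp RtB16_6.CEr 0x1048808d8f06b11a1beeb8f06b41d8af5b98f06b3217 = true := by decide +kernel

theorem cB16_6_3_38 : chunkOkM (LB16_6.ctx true true 227 27 16 5 16 403 145 8 64) muQ true true 64 RtB16_6.Cx.right RtB16_6.CX RtB16_6.Ctp.right.right.right.right RtB16_6.Ce.right.right.right.left RtB16_6.CTp RtB16_6.CEr 0x5ce1ba6edbce1b55c901895f8131593598e662f2bc47f250d = true := by decide +kernel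

theorem cB16_6_3_39 : chunkOkM (LB16_6.ctx true true 97 1 1 1 1 1 1 1 1) muQ true true 64 RtB16_6.Cx RtB16_6.CX RtB16_6.Ctp.right.right RtB16_6.Ce.right.right.right.right RtB16_6.CTp RtB16_6.CEr 0x21 = true := by decide +kernel

theorem cB16_6_2_0 : chunkOkM (LB16_6.ctx false true 97 1 1 1 1 1 1 1 1) muQ false true 64 RtB16_6.Cx RtB16_6.CX RtB16_6.Ctn RtB16_6.Ce RtB16_6.CTp RtB16_6.CEr 0x49 = true := by decide +kernel

theorem cB16_6_1_0 : chunkOkM (LB16_6.ctx true false 97 1 1 1 1 1 1 1 1) muQ true false 64 RtB16_6.Cx RtB16_6.CX RtB16_6.Ctp.left RtB16_6.Ce RtB16_6.CTn RtB16_6.CEr 0x41 = true := by decide +kernel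

theorem cB16_6_1_1 : chunkOkM (LB16_6.ctx true false 194 13 8 5 16 39 8 4 128) muQ true false 64 RtB16_6.Cx RtB16_6.CX RtB16_6.Ctp.right RtB16_6.Ce.left RtB16_6.CTn RtB16_6.CEr.left 0x125feb17f06b = true := by decide +kernel

theorem cB16_6_1_2 : chunkOkM (LB16_6.ctx true false 209 13 8 5 16 143 45 4 128) muQ true false 64 RtB16_6.Cx RtB16_6.CX RtB16_6.Ctp.right.left RtB16_6.Ce.right.left.left RtB16_6.CTn RtB16_6.CEr.left 0x1dc4fe47f05b18cdfbce8e69c7de367f514df0d198f430d3 = true := by decide +kernel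

theorem cB16_6_1_3 : chunkOkM (LB16_6.ctx true false 211 13 8 5 16 128 55 4 128) muQ true false 64 RtB16_6.Cx RtB16_6.CX RtB16_6.Ctp.right.left.left RtB16_6.Ce.right.left.right RtB16_6.CTn RtB16_6.CEr.left 0x6b152fa48f5fa423ce98f420d = true := by decide +kernel

theorem cB16_6_1_4 : chunkOkM (LB16_6.ctx true false 234 25 16 5 16 611 235 4 128) muQ true false 64 RtB16_6.Cx RtB16_6.CX RtB16_6.Ctp.right.left.right RtB16_6.Ce.right.left.right RtB16_6.CTn RtB16_6.CEr.left 0x68bae277f05b1726b16f6a14cb5f7f54de355d7f430d3474023d7f05b762af957f05b3449b26d348f61f47fb48f9f52773a7c389f430d33ae6e967f05b4937b36627f6ec660167f514056747f430d490db0e7f6b3cb54e7f559632d77f430d4734 = true := by decide +kernel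

theorem cB16_6_1_5 : chunkOkM (LB16_6.ctx true false 225 13 8 5 16 663 235 4 128) muQ true false 64 RtB16_6.Cx RtB16_6.CX RtB16_6.Ctp.right.right RtB16_6.Ce.right.left RtB16_6.CTn RtB16_6.CEr.left 0x116921805f27fd3393e365c2be18fe7e634e6fa57f540d4ac73227f05b30431141143 = true := by decide +kernel

theorem cB16_6_1_6 : chunkOkM (LB16_6.ctx true false 208 13 8 5 16 143 35 4 128) muQ true false 64 RtB16_6.Cx RtB16_6.CX RtB16_6.Ctp.right.left RtB16_6.Ce.right.right RtB16_6.CTn RtB16_6.CEr.left 0x276a18168e6ee8a1e27f56d8bcfd7f430d593 = true := by decide +kernel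

theorem cB16_6_1_7 : chunkOkM (LB16_6.ctx true false 232 27 16 5 16 663 255 4 128) muQ true false 64 RtB16_6.Cx RtB16_6.CX RtB16_6.Ctp.right.right.left.left RtB16_6.Ce.right.right.left.left RtB16_6.CTn RtB16_6.CEr.left 0x6088d727f05b8f787097f05b31492f447fd2833ba65c6a1fa76f8451d72e7f67f362787f550d72519ea268e67c5b02a7f520d137f9d97fd6e1d5a65c4a7bac6f8208cd6d7f64af2e5a7f550d6717fa37f05b374 = true := by decide +kernel

theorem cB16_6_1_8 : chunkOkM (LB16_6.ctx true false 248 51 32 5 16 1391 995 4 128) muQ true false 64 RtB16_6.Cx RtB16_6.CX RtB16_6.Ctp.right.right.left.right RtB16_6.Ce.right.right.left.left.left RtB16_6.CTn RtB16_6.CEr.left 0x69690c1a05c1f0e56b48ed808d35c74c1562766f861a81807f62d26eac7f550d321181d07fd5b329e174c3286c86f87764f257f61c29fc77f550d47313748b57f01c47 = true := by decide +kernel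

theorem cB16_6_1_9 : chunkOkM (LB16_6.ctx true false 254 99 64 5 16 1391 1015 4 128) muQ true false 64 RtB16_6.Cx.left RtB16_6.CX RtB16_6.Ctp.right.right.left.right.left RtB16_6.Ce.right.right.left.left.right.left RtB16_6.CTn RtB16_6.CEr.left 0xf0c7156fd61a8a365c4b000b6f85dd6c4e7f6410d5247f550d220f7df08ed428fe7a74c40f7466f81236e22e8f62387a86f550d279972418ed733e57474c14b64db58f630d713f272158ed802525e74c7538806f8fc682b77f640d414b521258ed69c076574c7e2af56f866594197f634d9c4b7f550d2455541a8ed5e60f3674c428ab8c7f530d20f5b6358ed76c6be174cae75036e89cc42cf7f62a27e9b7f550d7437 = true := by decide +kernel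

theorem cB16_6_1_10 : chunkOkM (LB16_6.ctx true false 255 99 64 5 16 1391 1035 4 128) muQ true false 64 RtB16_6.Cx.left RtB16_6.CX RtB16_6.Ctp.right.right.left.right.left RtB16_6.Ce.right.right.left.left.right.right RtB16_6.CTn RtB16_6.CEr.left 0x11c10567fd6c1b81b74c4ec4d56f82bfee717f6449818c7f550d164d688a8ed60870b774c3ebf276f8180705a08f640d18b7098c8ed80c8f7c74c49d2c707e8ac8f7427f627ff2057f550d1f84d1b78ed830d7b774c2eea691a8f630d74296cacc7fd40ed98574c13f77937f6646ee257f540d37 = true := by decide +kernel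

theorem cB16_6_1_11 : chunkOkM (LB16_6.ctx true false 247 99 64 5 16 715 515 4 128) muQ true false 64 RtB16_6.Cx.left RtB16_6.CX RtB16_6.Ctp.right.right.left.right.right RtB16_6.Ce.right.right.left.left.right RtB16_6.CTn RtB16_6.CEr.left 0x1e5bafb7fd5c484165cd9fc9437f630d11b888e48ed9c4de8574c6d251a6f8e1301a27f640d1f5dbe8c8edc8d30a074c338b236f8bd043257f6399135f250d771c3d6717fd97051b65c7b09986f87193137b8e640d4 = true := by decide +kernel

theorem cB16_6_1_12 : chunkOkM (LB16_6.ctx true false 228 27 16 5 16 351 255 4 128) muQ true false 64 RtB16_6.Cx.right RtB16_6.CX RtB16_6.Ctp.right.right.left.right RtB16_6.Ce.right.right.left.left.right RtB16_6.CTn RtB16_6.CEr.left 0x2e1e0977f05b = true := by decide +kernel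

theorem cB16_6_1_13 : chunkOkM (LB16_6.ctx true false 219 13 8 5 16 325 135 4 128) muQ true false 64 RtB16_6.Cx RtB16_6.CX RtB16_6.Ctp.right.right.left.left RtB16_6.Ce.right.right.left.right RtB16_6.CTn RtB16_6.CEr.left 0x3cae51e28e6b96c4cb7f520d = true := by decide +kernel

theorem cB16_6_1_14 : chunkOkM (LB16_6.ctx true false 241 51 32 5 16 689 525 4 128) muQ true false 64 RtB16_6.Cx.left RtB16_6.CX RtB16_6.Ctp.right.right.left.right.left RtB16_6.Ce.right.right.left.right.left RtB16_6.CTn RtB16_6.CEr.left 0x591e5bafb7fd5c4840974c3a4c80e7f6495d7e87f540d5974 = true := by decide +kernel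

theorem cB16_6_1_15 : chunkOkM (LB16_6.ctx true false 252 99 64 5 16 1443 525 4 128) muQ true false 64 RtB16_6.Cx.left.left RtB16_6.CX RtB16_6.Ctp.right.right.left.right.right RtB16_6.Ce.right.right.left.right.left RtB16_6.CTn RtB16_6.CEr.left 0x6924e43a278edb90602374c1432341a8f630d20ab6c1a8edbdf44d474c116135928f63f700d97f240d71a7197b7fd8d313bf74c304bda6f8114d65548f640d34 = true := by decide +kernel

theorem cB16_6_1_16 : chunkOkM (LB16_6.ctx true false 255 103 64 5 16 1443 1055 4 128) muQ true false 64 RtB16_6.Cx.left.right RtB16_6.CX RtB16_6.Ctp.right.right.left.right.right RtB16_6.Ce.right.right.left.right.left.left RtB16_6.CTn RtB16_6.CEr.left 0xca358407ed85242e674cc24b846f81049495b8f640d1a925a078ed6ead6a374c5ee98e77f63b105f67f540d1e9823478ed4e86cc174c173f99848f630d771a05c1ba1ec928ed4d619b174c10e2be7a8f63f6f95f540d743 = true := by decide +kernel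

end Vale.Agent.helper4.Q4
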