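import Vale.Agent.helper4.Q4TreeM
import Vale.Agent.helper4.Q4G.PB16_6

/-!
Checks for pairs of intervals of second moments.
-/

set_option maxRecDepth 100000
set_option linter.unusedVariables false

namespace Vale.Agent.helper4.Q4

theorem cB16_6_1_17 : chunkOkM (LB16_6.ctx true false 256 103 64 5 16 1443 1075 4 128) muQ true false 64 RtB16_6.Cx.left.right RtB16_6.CX RtB16_6.Ctp.right.right.left.right.right RtB16_6.Ce.right.right.left.right.left.right RtB16_6.CTn RtB16_6.CEr.left 0x22125d918ed4b0a99274c1817a8348f630d8b17ec87ed5e0256174cdbd4056f81d69cce08f640d41da740dc8ed841730974c11aec16f8124eb5268f640d71bea46d98ed5463dee74cba1b6637f63d6839d7f540d146aaee78ed63db49674c49721397e89ea18907f6345cbd87f550d1b2176208ed64be5f874c545e57978f630d743 = true := by decide +kernel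

theorem cB16_6_1_18 : chunkOkM (LB16_6.ctx true false 242 55 32 5 16 715 535 4 128) muQ true false 64 RtB16_6.Cx.right RtB16_6.CX RtB16_6.Ctp.right.right.left.right RtB16_6.Ce.right.right.left.right.left RtB16_6.CTn RtB16_6.CEr.left 0x0f724306fd62258f65c4a10ce6f8557c1d17f63d31fb47f550d76487ed6f01c46a633a65cda36b26f65eab22e7f530d3 = true := by decide +kernel

theorem cB16_6_1_19 : chunkOkM (LB16_6.ctx true false 255 103 64 5 16 1443 1095 4 128) muQ true false 64 RtB16_6.Cx RtB16_6.CX RtB16_6.Ctp.right.right.left.right RtB16_6.Ce.right.right.left.right.right RtB16_6.CTn RtB16_6.CEr.left 0x1336a367fd5fb33a65c5b89596f887b74b6f65c822627f550d45616747f05b12dd84758ed63c1ca874c4afda56f8745e9977f637fd1797f550de3b9a297ed6d0711174c6a19286f866028797f635d3f517f550d41941557c8ed56e7e1174c10287e77f65503f997f540d37478c7a047f05b359691d37349c8ed77c091a74c153789858f630d469759342175937 = true := by decide +kernel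

theorem cB16_6_1_20 : chunkOkM (LB16_6.ctx true false 215 13 8 5 16 195 125 4 128) muQ true false 64 RtB16_6.Cx RtB16_6.CX RtB16_6.Ctp.right.right.right RtB16_6.Ce.right.right.left.left RtB16_6.CTn RtB16_6.CEr.left 0x1c0a1677fddd5d9265c6d8a726f8da5e5eb7e62e7929c7f250d = true := by decide +kernel

theorem cB16_6_1_21 : chunkOkM (LB16_6.ctx true false 252 103 64 5 16 1469 535 4 128) muQ true false 64 RtB16_6.Cx.left RtB16_6.CX RtB16_6.Ctp.right.right.right.left.left RtB16_6.Ce.right.right.left.right.left RtB16_6.CTn RtB16_6.CEr.left 0x24eaa13d8ed825d75674ce4ef37f7f630d14cc5d188edbd41d0d74c773dd96f8a7c95f67f667dccf6f250d711b05c401262d51108ed93027fb74cc2e77a87f635cdaec7f240d1cf12e5b8edb5dd86c74c3dd18f6f864fea7a7f6336df4e7f250d437 = true := by decide +kernel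

theorem cB16_6_1_22 : chunkOkM (LB16_6.ctx true false 255 103 64 5 16 1495 1095 4 128) muQ true false 64 RtB16_6.Cx.left RtB16_6.CX RtB16_6.Ctp.right.right.right.left.left RtB16_6.Ce.right.right.left.right.right RtB16_6.CTn RtB16_6.CEr.left 0x1c5cd7948eda4d0cdd74c11e56edb8f623469447f240d69321717dcf0548edacb299d74c2cccc16f8f26d4d87f640d84cf8ec7edb3952ec74c823a626f8ee196007f640d4211ff8c2818edd3d8a1574cdc659987f696defc6f240d474217 = true := by decide +kernel

theorem cB16_6_1_23 : chunkOkM (LB16_6.ctx true false 97 1 1 1 1 1 1 1 1) muQ true false 64 RtB16_6.Cx.left RtB16_6.CX RtB16_6.Ctp.right.right.right.left.right RtB16_6.Ce.right.right.left.right RtB16_6.CTn RtB16_6.CEr.left 0x01 = true := by decide +kernel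

theorem cB16_6_1_24 : chunkOkM (LB16_6.ctx true false 97 1 1 1 1 1 1 1 1) muQ true false 64 RtB16_6.Cx.left RtB16_6.CX RtB16_6.Ctp.right.right.right.right RtB16_6.Ce.right.right.left.right RtB16_6.CTn RtB16_6.CEr.left 0x01 = true := by decide +kernel

theorem cB16_6_1_25 : chunkOkM (LB16_6.ctx true false 97 1 1 1 1 1 1 1 1) muQ true false 64 RtB16_6.Cx.right RtB16_6.CX RtB16_6.Ctp.right.right.right.left RtB16_6.Ce.right.right.left.right.left RtB16_6.CTn RtB16_6.CEr.left 0x69 = true := by decide +kernel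

theorem cB16_6_1_26 : chunkOkM (LB16_6.ctx true false 256 107 64 5 16 1495 1115 4 128) muQ true false 64 RtB16_6.Cx.right RtB16_6.CX RtB16_6.Ctp.right.right.right.left.left RtB16_6.Ce.right.right.left.right.right RtB16_6.CTn RtB16_6.CEr.left 0x11c41e6fd4de63a65cc4f4c66f86ba46547f63f20ce67f550d14d821528ed9ca971f74c44c2986f8eff05767f640d13acaff28ed87f765d74c7435ab6f8102ebc598f640d4d86916d7ed6fb98ff74c6993a7f7e8a95e9e07f62d5f5ff7f550d678eff874ce5bb576f82f84b3308f630d718bca6ec8ed7deee6874c15ad546d8f66a0b75f540d1f8e9fe38ed5c6bb6674c1951e2c48f630d743769151a52a7fd5eee79d74c61b6336f8c8a08257f640d74 = true := by decide +kernel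

theorem cB16_6_1_27 : chunkOkM (LB16_6.ctx true false 233 27 16 5 16 767 275 4 128) muQ true false 64 RtB16_6.Cx.right RtB16_6.CX RtB16_6.Ctp.right.right.right.left.right RtB16_6.Ce.right.right.left.right.right RtB16_6.CTn RtB16_6.CEr.left 0x1c2eeac7fdaee6a665c45d1e997f230d = true := by decide +kernel

theorem cB16_6_1_28 : chunkOkM (LB16_6.ctx true false 97 1 1 1 1 1 1 1 1) muQ true false 64 RtB16_6.Cx.right RtB16_6.CX RtB16_6.Ctp.right.right.right.right RtB16_6.Ce.right.right.left.right RtB16_6.CTn RtB16_6.CEr.left 0x11 = true := by decide +kernel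

theorem cB16_6_1_29 : chunkOkM (LB16_6.ctx true false 97 1 1 1 1 1 1 1 1) muQ true false 64 RtB16_6.Cx.left RtB16_6.CX RtB16_6.Ctp.right.right RtB16_6.Ce.right.right.right.left RtB16_6.CTn RtB16_6.CEr.left 0x21 = true := by decide +kernel

theorem cB16_6_1_30 : chunkOkM (LB16_6.ctx true false 222 27 16 5 16 169 145 4 128) muQ true false 64 RtB16_6.Cx.right RtB16_6.CX RtB16_6.Ctp.right.right.left RtB16_6.Ce.right.right.right.left RtB16_6.CTn RtB16_6.CEr.left 0xe00dd16fd18456865c50edb76f845b0fd7c8e681ae8287f550d = true := by decide +kernel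

theorem cB16_6_1_31 : chunkOkM (LB16_6.ctx true false 256 107 64 5 16 1495 1135 4 128) muQ true false 64 RtB16_6.Cx.right RtB16_6.CX RtB16_6.Ctp.right.right.right.left.left RtB16_6.Ce.right.right.right.left.left.left RtB16_6.CTn RtB16_6.CEr.left 0x1085fa97fd57de81274c45be2a6f8a76211d7f623310ef7f550dd8159657ed510737774c435ecc6f8284cf617f64920ce97f550d31a86b4008ed74c6b8174c1feb6cef8f630d1b9d24f48ed671262074c18c97b8d8f630d411cec2908ed9d7e72974c7e90f36f8de8d42e7f640d76913fe0fa08ed5de43d474c17d785e18f629074c27f540d469737 = true := by decide +kernel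

theorem cB16_6_1_32 : chunkOkM (LB16_6.ctx true false 256 111 64 5 16 1495 1155 4 128) muQ true false 64 RtB16_6.Cx.right RtB16_6.CX RtB16_6.Ctp.right.right.right.left.left RtB16_6.Ce.right.right.right.left.left.right RtB16_6.CTn RtB16_6.CEr.left 0x17d8530e8ed4b8873674ca59ff6e7f6366dc797f540d691de4674c627bfe6f8179467b38f630d77c491497ed3d9a9e574c78fba86f8b04af127f62d1ce637f550d10ef97af8ed5664d1474c486ab737e81325185a8f617e158f7f550d7414a19157fd515be8474c36e639f7f65db84fd7f540d3697 = true := by decide +kernel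

theorem cB16_6_1_33 : chunkOkM (LB16_6.ctx true false 256 107 64 5 16 1547 1155 4 128) muQ true false 64 RtB16_6.Cx.right RtB16_6.CX RtB16_6.Ctp.right.right.right.left.right RtB16_6.Ce.right.right.right.left.left RtB16_6.CTn RtB16_6.CEr.left 0x25cdd817fd75c1ca574cac9863b7f63e2ab0b7f240deaccb2b7ed6cc3f0a74c4def676f8137a77c38f640daf2bbc47ed76577d774c6e3a726f813ec72228f640d4361a05c413d5df5a8ed9fce0a174c156ca787f66fb0bf87f240dfd97f5e7ed93abd3174c66f5066f810db5b1d8f6dae6bf6f250d3217119298508ed91e98ac74c58d2286f87919b3d7f62562d537f250d47 = true := by decide +kernel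

theorem cB16_6_1_34 : chunkOkM (LB16_6.ctx true false 97 1 1 1 1 1 1 1 1) muQ true false 64 RtB16_6.Cx.right.left RtB16_6.CX RtB16_6.Ctp.right.right.right.left RtB16_6.Ce.right.right.right.left.right RtB16_6.CTn RtB16_6.CEr.left 0x21 = true := by decide +kernel

theorem cB16_6_1_35 : chunkOkM (LB16_6.ctx true false 239 55 32 5 16 741 295 4 128) muQ true false 64 RtB16_6.Cx.right.right RtB16_6.CX RtB16_6.Ctp.right.right.right.left.left RtB16_6.Ce.right.right.right.left.right RtB16_6.CTn RtB16_6.CEr.left 0xd9115e6fd56666265c49cd776f841f7b737f650da6957f550d = true := by decide +kernel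

end Vale.Agent.helper4.Q4
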