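import Vale.Agent.helper4.Q4TreeM
import Vale.Agent.helper4.Q4G.PB16_7

/-!
Checks for pairs of intervals of second moments.
-/

set_option maxRecDepth 100000
set_option linter.unusedVariables false

namespace Vale.Agent.helper4.Q4

theorem cB16_7_3_121 : chunkOkM (LB16_7.ctx true true 336 3487 2048 7 16 23699 18165 32 64) muQ true true 64 RtB16_7.Cx.right.right.left RtB16_7.CX RtB16_7.Ctp.right.right.right.left.left.left.right RtB16_7.Ce.right.right.right.left.left.left.right RtB16_7.CTp RtB16_7.CEr 0x93554c5e8fd7d38dce76ca1fed95169f64b29b374c9f540d8897dadd8fd535cde576c1f214167f87a9bcbfe19f65a9cbcf0c9f550d659696963797d9d8fd853765976c2d7839f9e9af630da00f6fa08fd6c50e8876c43828bec19af630d669746976934697593459759372f5196a08fd12b7fbb78f8577b6c18e9f65abd3a4429f540d462ad7498fdc3fba3976c14d5940d67af61233f7c1a9f540d5b24eff828fd748731976c10b376c68baf646a7a1fe09f540d64 = true := by decide +kernel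

theorem cB16_7_3_122 : chunkOkM (LB16_7.ctx true true 277 111 64 7 16 2951 1135 16 64) muQ true true 64 RtB16_7.Cx.right.right.right RtB16_7.CX RtB16_7.Ctp.right.right.right.left.left.left RtB16_7.Ce.right.right.right.left.left.left.right RtB16_7.CTp RtB16_7.CEr 0x65a5c2298fd6170dc076c63dc8417e9f662905285c9f540d7701cccb8fd418a8e876c24ac1bfb8f8bf606f7f59f655b9c13849f550d665800ef48fd7bc307c76c516646448f81977a2a059f6719051c5a9f550d3 = true := by decide +kernel

theorem cB16_7_3_123 : chunkOkM (LB16_7.ctx true true 268 55 32 7 16 1495 1125 16 64) muQ true true 64 RtB16_7.Cx.right.right RtB16_7.CX RtB16_7.Ctp.right.right.right.left.left.right RtB16_7.Ce.right.right.right.left.left.left.left RtB16_7.CTp RtB16_7.CEr 0x980b01138fd92b8eeb76c1cb3096c75af630dc0c973ae8fd8261cb376c20d6239d7caf630d6 = true := by decide +kernel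

theorem cB16_7_3_124 : chunkOkM (LB16_7.ctx true true 282 111 64 7 16 3003 1135 32 64) muQ true true 64 RtB16_7.Cx.right.right RtB16_7.CX RtB16_7.Ctp.right.right.right.left.left.right RtB16_7.Ce.right.right.right.left.left.left.right RtB16_7.CTp RtB16_7.CEr 0x6e1805908fda6b565f76c66ad32df8f830db2639b438fd24a233c18f819f81251f1af630d117df7bf79fd11b30fb286c184d39add1af630d5c0441eb78fd9fda02776c2ec88dda43af630d3369edb339fd16c66b7083af620d11678dbd99fdb13e7fc76c248409a0e7af630d5367 = true := by decide +kernel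

theorem cB16_7_3_125 : chunkOkM (LB16_7.ctx true true 107 1 1 1 1 1 1 1 1) muQ true true 64 RtB16_7.Cx.right.left RtB16_7.CX RtB16_7.Ctp.right.right.right.left.left RtB16_7.Ce.right.right.right.left.left.right RtB16_7.CTp RtB16_7.CEr 0x69 = true := by decide +kernel

theorem cB16_7_3_126 : chunkOkM (LB16_7.ctx true true 303 439 256 7 16 11843 4565 16 64) muQ true true 64 RtB16_7.Cx.right.right.left RtB16_7.CX RtB16_7.Ctp.right.right.right.left.left.left RtB16_7.Ce.right.right.right.left.left.right.left RtB16_7.CTp RtB16_7.CEr 0x59596e2a65188fd68ae7f976c6c3e889909f530dae2131208fd55642dc76cdaf5f7d339f64bd1cdfa89f540d659345975934597593 = true := by decide +kernel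

theorem cB16_7_3_127 : chunkOkM (LB16_7.ctx true true 299 443 256 7 16 5915 4585 16 64) muQ true true 64 RtB16_7.Cx.right.right.right RtB16_7.CX RtB16_7.Ctp.right.right.right.left.left.left RtB16_7.Ce.right.right.right.left.left.right.left RtB16_7.CTp RtB16_7.CEr 0x653673a38fd81deffe76c557fb3618f87402bb8bb9f540d5954ac5e4a8fd565ef4476c70368532f9f530d789cc7e98fdb143f3876caadd2ad88f8757b24a0a9f540d64597593769b389b18fd58f921276ca76f3ba459f65620d5fbc9f540d5ad5f69d8fdeae3e666c3a1c24b2b9f6712d5add89f540d64572c04278fd213504276c77a5d93269f67bd40fcd79f540d3 = true := by decide +kernel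

theorem cB16_7_3_128 : chunkOkM (LB16_7.ctx true true 264 55 32 7 16 1469 1155 16 32) muQ true true 64 RtB16_7.Cx.right.right RtB16_7.CX RtB16_7.Ctp.right.right.right.left.left.left RtB16_7.Ce.right.right.right.left.left.right.right RtB16_7.CTp RtB16_7.CEr 0x5f4ab5168fd42e8a0f76c172a766a8f8154685fd79f68f5f01d379f550d = true := by decide +kernel

theorem cB16_7_3_129 : chunkOkM (LB16_7.ctx true true 298 439 256 7 16 2977 2295 32 64) muQ true true 64 RtB16_7.Cx.right.right.left RtB16_7.CX RtB16_7.Ctp.right.right.right.left.left.right.left RtB16_7.Ce.right.right.right.left.left.right.left RtB16_7.CTp RtB16_7.CEr 0x9137f0a48fd746aa2476c3d5d358f9eaf63a20b4898f540dccaac1c48fd5e2a4a176c462cd2a987af630d66976973f51c2b58fdac1a5d47f868df5dc359f530d1dc5d59486c299c570b7daf620d5db8ff2308fdaaeff1476cbfb8e147f83769b96e6caf640d79ec94d768fd5a1a8f876c27f4c42ff3af61069291c29f540dc65a73628fd85e107b76c71e5c102f3af630d764 = true := by decide +kernel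

theorem cB16_7_3_130 : chunkOkM (LB16_7.ctx true true 292 219 128 7 16 3003 2295 32 64) muQ true true 64 RtB16_7.Cx.right.right.left RtB16_7.CX RtB16_7.Ctp.right.right.right.left.left.right.right RtB16_7.Ce.right.right.right.left.left.right.left RtB16_7.CTp RtB16_7.CEr 0x457bd1218fd6c9b72d7f818b85c5ddeaf630d1d905bad86c302d900812af620da5e253fd8fd958d57576c2bf45d30b6af630d6baceb4998fd106c977386c6a55e23d5faf630d72366e0e686c2c6c17809daf620d86a2e1a48fd8d0e39176c190c3b547daf630d645 = true := by decide +kernel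

end Vale.Agent.helper4.Q4
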