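import Vale.Agent.helper4.Q4TreeM
import Vale.Agent.helper4.Q4G.PB16_8

/-!
Checks for pairs of intervals of second moments.
-/

set_option maxRecDepth 100000
set_option linter.unusedVariables false

namespace Vale.Agent.helper4.Q4

theorem cB16_8_1_18 : chunkOkM (LB16_8.ctx true false 371 107 64 513 1024 767 1155 16384 65536) muQ true false 64 RtB16_8.Cx.right.left RtB16_8.CX.left.left.left.left.left.left RtB16_8.Ctp.right.right.right.left.right RtB16_8.Ce.right.right.right.left.left RtB16_8.CTn.left.left.left.left.left.left.left.left.left.left.left.left RtB16_8.CEr.left.left.left.left.left.left.left.left.left.left.left.left 0x952bce728fdb7b547c615f459b34f79d3c8f68894c077f250d4c3d931e59fd27fcf57c407a959b40d702238f67da9a7d7f250d421763265f1e29fd253fb57c22d6233c8f6e252dfc7f240d1f8f335a8f02b74 = true := by decide +kernel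

theorem cB16_8_1_19 : chunkOkM (LB16_8.ctx true false 368 55 32 513 1024 1547 1155 16384 65536) muQ true false 64 RtB16_8.Cx.right.right RtB16_8.CX.left.left.left.left.left.left RtB16_8.Ctp.right.right.right.left.right RtB16_8.Ce.right.right.right.left.left RtB16_8.CTn.left.left.left.left.left.left.left.left.left.left.left.left RtB16_8.CEr.left.left.left.left.left.left.left.left.left.left.left.left 0xdda00e87f02b3fac69988f06b32a00f86a8f06b404 = true := by decide +kernel

theorem cB16_8_1_20 : chunkOkM (LB16_8.ctx true false 101 1 1 1 1 1 1 1 1) muQ true false 64 RtB16_8.Cx.right.left RtB16_8.CX.left.left.left.left.left.left RtB16_8.Ctp.right.right.right.left RtB16_8.Ce.right.right.right.left.right RtB16_8.CTn.left.left.left.left.left.left.left.left.left.left.left.left RtB16_8.CEr.left.left.left.left.left.left.left.left.left.left.left.left 0x21 = true := by decide +kernel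

theorem cB16_8_1_21 : chunkOkM (LB16_8.ctx true false 358 55 32 513 1024 741 295 16384 65536) muQ true false 64 RtB16_8.Cx.right.right RtB16_8.CX.left.left.left.left.left.left RtB16_8.Ctp.right.right.right.left.left RtB16_8.Ce.right.right.right.left.right RtB16_8.CTn.left.left.left.left.left.left.left.left.left.left.left.left RtB16_8.CEr.left.left.left.left.left.left.left.left.left.left.left.left 0x204180c18f05b = true := by decide +kernel

theorem cB16_8_1_22 : chunkOkM (LB16_8.ctx true false 375 111 64 513 1024 1547 1175 16384 65536) muQ true false 64 RtB16_8.Cx.right.right RtB16_8.CX.left.left.left.left.left.left RtB16_8.Ctp.right.right.right.left.right RtB16_8.Ce.right.right.right.left.right.left RtB16_8.CTn.left.left.left.left.left.left.left.left.left.left.left.left RtB16_8.CEr.left.left.left.left.left.left.left.left.left.left.left.left 0x38fe83958f06b044955b5aa8f06b3d4d57568f06b431430774a29fdfb7f47c633e659b5c9222198f6ccf5e3a7f250d6935b4ad25969fd231ac57c362a7d468f6f9504677f240d3cf1ca7c8f06b347 = true := by decide +kernel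

theorem cB16_8_1_23 : chunkOkM (LB16_8.ctx true false 374 111 64 513 1024 1547 1195 16384 65536) muQ true false 64 RtB16_8.Cx.right.right RtB16_8.CX.left.left.left.left.left.left RtB16_8.Ctp.right.right.right.left.right RtB16_8.Ce.right.right.right.left.right.right RtB16_8.CTn.left.left.left.left.left.left.left.left.left.left.left.left RtB16_8.CEr.left.left.left.left.left.left.left.left.left.left.left.left 0x5713c2138f06b586491c18f06b4651962cd8f06b3217 = true := by decide +kernel

theorem cB16_8_1_24 : chunkOkM (LB16_8.ctx true false 345 27 16 513 1024 403 145 16384 65536) muQ true false 64 RtB16_8.Cx.right RtB16_8.CX.left.left.left.left.left.left RtB16_8.Ctp.right.right.right.right RtB16_8.Ce.right.right.right.left RtB16_8.CTn.left.left.left.left.left.left.left.left.left.left.left.left RtB16_8.CEr.left.left.left.left.left.left.left.left.left.left.left.left 0xa3112547f61da1175b8f220d = true := by decide +kernel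

theorem cB16_8_1_25 : chunkOkM (LB16_8.ctx true false 101 1 1 1 1 1 1 1 1) muQ true false 64 RtB16_8.Cx RtB16_8.CX.left.left.left.left.left.left RtB16_8.Ctp.right.right RtB16_8.Ce.right.right.right.right RtB16_8.CTn.left.left.left.left.left.left.left.left.left.left.left.left RtB16_8.CEr.left.left.left.left.left.left.left.left.left.left.left.left 0x21 = true := by decide +kernel

theorem cB16_8_1_26 : chunkOkM (LB16_8.ctx true false 101 1 1 1 1 1 1 1 1) muQ true false 64 RtB16_8.Cx RtB16_8.CX.left.left.left.left.left.left RtB16_8.Ctp.right RtB16_8.Ce RtB16_8.CTn.left.left.left.left.left.left.left.left.left.left.left.left RtB16_8.CEr.left.left.left.left.left.left.left.left.left.left.left.right 0x5a = true := by decide +kernel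

theorem cB16_8_1_27 : chunkOkM (LB16_8.ctx true false 101 1 1 1 1 1 1 1 1) muQ true false 64 RtB16_8.Cx RtB16_8.CX.left.left.left.left.left.left RtB16_8.Ctp.right RtB16_8.Ce RtB16_8.CTn.left.left.left.left.left.left.left.left.left.left.left.left RtB16_8.CEr.left.left.left.left.left.left.left.left.left.left.right 0x5a = true := by decide +kernel

theorem cB16_8_1_28 : chunkOkM (LB16_8.ctx true false 101 1 1 1 1 1 1 1 1) muQ true false 64 RtB16_8.Cx RtB16_8.CX.left.left.left.left.left.left RtB16_8.Ctp.right RtB16_8.Ce RtB16_8.CTn.left.left.left.left.left.left.left.left.left.left.left.left RtB16_8.CEr.left.left.left.left.left.left.left.left.left.right 0x5a = true := by decide +kernel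

theorem cB16_8_1_29 : chunkOkM (LB16_8.ctx true false 101 1 1 1 1 1 1 1 1) muQ true false 64 RtB16_8.Cx RtB16_8.CX.left.left.left.left.left.left RtB16_8.Ctp.right RtB16_8.Ce RtB16_8.CTn.left.left.left.left.left.left.left.left.left.left.left.left RtB16_8.CEr.left.left.left.left.left.left.left.left.right 0x5a = true := by decide +kernel

theorem cB16_8_1_30 : chunkOkM (LB16_8.ctx true false 101 1 1 1 1 1 1 1 1) muQ true false 64 RtB16_8.Cx RtB16_8.CX.left.left.left.left.left.left RtB16_8.Ctp.right RtB16_8.Ce RtB16_8.CTn.left.left.left.left.left.left.left.left.left.left.left.left RtB16_8.CEr.left.left.left.left.left.left.left.right 0x5a = true := by decide +kernel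

theorem cB16_8_1_31 : chunkOkM (LB16_8.ctx true false 101 1 1 1 1 1 1 1 1) muQ true false 64 RtB16_8.Cx RtB16_8.CX.left.left.left.left.left.left RtB16_8.Ctp.right RtB16_8.Ce RtB16_8.CTn.left.left.left.left.left.left.left.left.left.left.left.left RtB16_8.CEr.left.left.left.left.left.left.right 0x52 = true := by decide +kernel

theorem cB16_8_1_32 : chunkOkM (LB16_8.ctx true false 101 1 1 1 1 1 1 1 1) muQ true false 64 RtB16_8.Cx RtB16_8.CX.left.left.left.left.left.left RtB16_8.Ctp.right RtB16_8.Ce RtB16_8.CTn.left.left.left.left.left.left.left.left.left.left.left.left RtB16_8.CEr.left.left.left.left.left.right 0x52 = true := by decide +kernel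

theorem cB16_8_1_33 : chunkOkM (LB16_8.ctx true false 101 1 1 1 1 1 1 1 1) muQ true false 64 RtB16_8.Cx RtB16_8.CX.left.left.left.left.left.left RtB16_8.Ctp.right RtB16_8.Ce RtB16_8.CTn.left.left.left.left.left.left.left.left.left.left.left.left RtB16_8.CEr.left.left.left.left.right 0x52 = true := by decide +kernel

theorem cB16_8_1_34 : chunkOkM (LB16_8.ctx true false 101 1 1 1 1 1 1 1 1) muQ true false 64 RtB16_8.Cx RtB16_8.CX.left.left.left.left.left.left RtB16_8.Ctp.right RtB16_8.Ce RtB16_8.CTn.left.left.left.left.left.left.left.left.left.left.left.left RtB16_8.CEr.left.left.left.right 0x52 = true := by decide +kernel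

theorem cB16_8_1_35 : chunkOkM (LB16_8.ctx true false 101 1 1 1 1 1 1 1 1) muQ true false 64 RtB16_8.Cx RtB16_8.CX.left.left.left.left.left.left RtB16_8.Ctp.right RtB16_8.Ce RtB16_8.CTn.left.left.left.left.left.left.left.left.left.left.left.left RtB16_8.CEr.left.left.right 0x52 = true := by decide +kernel

theorem cB16_8_1_36 : chunkOkM (LB16_8.ctx true false 101 1 1 1 1 1 1 1 1) muQ true false 64 RtB16_8.Cx RtB16_8.CX.left.left.left.left.left.left RtB16_8.Ctp.right RtB16_8.Ce RtB16_8.CTn.left.left.left.left.left.left.left.left.left.left.left.left RtB16_8.CEr.left.right 0x52 = true := by decide +kernel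

theorem cB16_8_1_37 : chunkOkM (LB16_8.ctx true false 101 1 1 1 1 1 1 1 1) muQ true false 64 RtB16_8.Cx RtB16_8.CX.left.left.left.left.left.left RtB16_8.Ctp.right RtB16_8.Ce RtB16_8.CTn.left.left.left.left.left.left.left.left.left.left.left.left RtB16_8.CEr.right 0x52 = true := by decide +kernel

theorem cB16_8_1_38 : chunkOkM (LB16_8.ctx true false 101 1 1 1 1 1 1 1 1) muQ true false 64 RtB16_8.Cx RtB16_8.CX.left.left.left.left.left.right RtB16_8.Ctp.right RtB16_8.Ce RtB16_8.CTn.left.left.left.left.left.left.left.left.left.left.left.left RtB16_8.CEr 0x42 = true := by decide +kernel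

theorem cB16_8_1_39 : chunkOkM (LB16_8.ctx true false 101 1 1 1 1 1 1 1 1) muQ true false 64 RtB16_8.Cx RtB16_8.CX.left.left.left.left.right RtB16_8.Ctp.right RtB16_8.Ce RtB16_8.CTn.left.left.left.left.left.left.left.left.left.left.left.left RtB16_8.CEr 0x42 = true := by decide +kernel

theorem cB16_8_1_40 : chunkOkM (LB16_8.ctx true false 101 1 1 1 1 1 1 1 1) muQ true false 64 RtB16_8.Cx RtB16_8.CX.left.left.left.left RtB16_8.Ctp.right RtB16_8.Ce RtB16_8.CTn.left.left.left.left.left.left.left.left.left.left.left.right RtB16_8.CEr 0x5a = true := by decide +kernel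

theorem cB16_8_1_41 : chunkOkM (LB16_8.ctx true false 101 1 1 1 1 1 1 1 1) muQ true false 64 RtB16_8.Cx RtB16_8.CX.left.left.left.left RtB16_8.Ctp.right RtB16_8.Ce RtB16_8.CTn.left.left.left.left.left.left.left.left.left.left.right RtB16_8.CEr 0x5a = true := by decide +kernel

theorem cB16_8_1_42 : chunkOkM (LB16_8.ctx true false 101 1 1 1 1 1 1 1 1) muQ true false 64 RtB16_8.Cx RtB16_8.CX.left.left.left.right RtB16_8.Ctp.right RtB16_8.Ce RtB16_8.CTn.left.left.left.left.left.left.left.left.left.left RtB16_8.CEr 0x42 = true := by decide +kernel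

theorem cB16_8_1_43 : chunkOkM (LB16_8.ctx true false 101 1 1 1 1 1 1 1 1) muQ true false 64 RtB16_8.Cx RtB16_8.CX.left.left.left RtB16_8.Ctp.right RtB16_8.Ce RtB16_8.CTn.left.left.left.left.left.left.left.left.left.right RtB16_8.CEr 0x5a = true := by decide +kernel

theorem cB16_8_1_44 : chunkOkM (LB16_8.ctx true false 101 1 1 1 1 1 1 1 1) muQ true false 64 RtB16_8.Cx RtB16_8.CX.left.left.left RtB16_8.Ctp.right RtB16_8.Ce RtB16_8.CTn.left.left.left.left.left.left.left.left.right RtB16_8.CEr 0x5a = true := by decide +kernel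

theorem cB16_8_1_45 : chunkOkM (LB16_8.ctx true false 101 1 1 1 1 1 1 1 1) muQ true false 64 RtB16_8.Cx RtB16_8.CX.left.left.right RtB16_8.Ctp.right RtB16_8.Ce RtB16_8.CTn.left.left.left.left.left.left.left.left RtB16_8.CEr 0x42 = true := by decide +kernel

theorem cB16_8_1_46 : chunkOkM (LB16_8.ctx true false 101 1 1 1 1 1 1 1 1) muQ true false 64 RtB16_8.Cx RtB16_8.CX.left.left RtB16_8.Ctp.right RtB16_8.Ce RtB16_8.CTn.left.left.left.left.left.left.left.right RtB16_8.CEr 0x5a = true := by decide +kernel

theorem cB16_8_1_47 : chunkOkM (LB16_8.ctx true false 101 1 1 1 1 1 1 1 1) muQ true false 64 RtB16_8.Cx RtB16_8.CX.left.left RtB16_8.Ctp.right RtB16_8.Ce RtB16_8.CTn.left.left.left.left.left.left.right RtB16_8.CEr 0x5a = true := by decide +kernel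

theorem cB16_8_1_48 : chunkOkM (LB16_8.ctx true false 101 1 1 1 1 1 1 1 1) muQ true false 64 RtB16_8.Cx RtB16_8.CX.left.right RtB16_8.Ctp.right RtB16_8.Ce RtB16_8.CTn.left.left.left.left.left.left RtB16_8.CEr 0x42 = true := by decide +kernel

theorem cB16_8_1_49 : chunkOkM (LB16_8.ctx true false 101 1 1 1 1 1 1 1 1) muQ true false 64 RtB16_8.Cx RtB16_8.CX.right RtB16_8.Ctp.right RtB16_8.Ce RtB16_8.CTn.left.left.left.left.left.left RtB16_8.CEr 0x42 = true := by decide +kernel

theorem cB16_8_1_50 : chunkOkM (LB16_8.ctx true false 101 1 1 1 1 1 1 1 1) muQ true false 64 RtB16_8.Cx RtB16_8.CX RtB16_8.Ctp.right RtB16_8.Ce RtB16_8.CTn.left.left.left.left.left.right RtB16_8.CEr 0x42 = true := by decide +kernel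

theorem cB16_8_1_51 : chunkOkM (LB16_8.ctx true false 101 1 1 1 1 1 1 1 1) muQ true false 64 RtB16_8.Cx RtB16_8.CX RtB16_8.Ctp.right RtB16_8.Ce RtB16_8.CTn.left.left.left.left.right RtB16_8.CEr 0x42 = true := by decide +kernel

theorem cB16_8_1_52 : chunkOkM (LB16_8.ctx true false 101 1 1 1 1 1 1 1 1) muQ true false 64 RtB16_8.Cx RtB16_8.CX RtB16_8.Ctp.right RtB16_8.Ce RtB16_8.CTn.left.left.left.right RtB16_8.CEr 0x42 = true := by decide +kernel

theorem cB16_8_1_53 : chunkOkM (LB16_8.ctx true false 101 1 1 1 1 1 1 1 1) muQ true false 64 RtB16_8.Cx RtB16_8.CX RtB16_8.Ctp.right RtB16_8.Ce RtB16_8.CTn.left.left.right RtB16_8.CEr 0x42 = true := by decide +kernel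

theorem cB16_8_1_54 : chunkOkM (LB16_8.ctx true false 101 1 1 1 1 1 1 1 1) muQ true false 64 RtB16_8.Cx RtB16_8.CX RtB16_8.Ctp.right RtB16_8.Ce RtB16_8.CTn.left.right RtB16_8.CEr 0x42 = true := by decide +kernel

theorem cB16_8_1_55 : chunkOkM (LB16_8.ctx true false 101 1 1 1 1 1 1 1 1) muQ true false 64 RtB16_8.Cx RtB16_8.CX RtB16_8.Ctp.right RtB16_8.Ce RtB16_8.CTn.right RtB16_8.CEr 0x42 = true := by decide +kernel

theorem cB16_8_0_0 : chunkOkM (LB16_8.ctx false false 101 1 1 1 1 1 1 1 1) muQ false false 64 RtB16_8.Cx RtB16_8.CX RtB16_8.Ctn RtB16_8.Ce RtB16_8.CTn RtB16_8.CEr 0x49 = true := by decide +kernel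

end Vale.Agent.helper4.Q4
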