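import Vale.Agent.helper4.Q4TreeM
import Vale.Agent.helper4.Q4G.PB16_8

/-!
Checks for pairs of intervals of second moments.
-/

set_option maxRecDepth 100000
set_option linter.unusedVariables false

namespace Vale.Agent.helper4.Q4

theorem cB16_8_3_113 : chunkOkM (LB16_8.ctx true true 277 195 128 9 16 2925 1035 16 64) muQ true true 64 RtB16_8.Cx RtB16_8.CX RtB16_8.Ctp.right.right.right.left RtB16_8.Ce.right.right.left.left RtB16_8.CTp RtB16_8.CEr 0x1111111fb730e7fd1bb7fab75c8be24f67f6bc9b9717f240d76a611111101cd319227fd11d6f75f85c1ff4d07f8f6d9cba9f7f240d550007e7fd8a5141475cbba142a7f6101e537d8f240d6a6fc5e5a77fd128b692e85c71d7a068b58f0e507f6cc735b47f250d76034867fd49e4e0675c165223978b11ffb2598f611c6666e8f250d134774e75c2e5cf4c087b1c94d9868f613c9efb28f240d56561143017777511411433 = true := by decide +kernel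

theorem cB16_8_3_114 : chunkOkM (LB16_8.ctx true true 283 199 128 17 32 2925 1055 16 64) muQ true true 64 RtB16_8.Cx.left.left RtB16_8.CX RtB16_8.Ctp.right.right.right.left.left.left RtB16_8.Ce.right.right.left.right.left.left RtB16_8.CTp.left.left RtB16_8.CEr.left 0xa29a9247fd108e20a085c13b23a68bd0c0aac7f6f5542517f250d5bd4edd7fd38166b275c10f7ff078b1c2945f38f6b9663da7f250d423d9e9d375cce674768b415b8d1d8f69ec6a397f240d480f25275c95b30468b43c9f4b48f6c58007a7f240d746f747575c7f188968b33d851b28f6b77d59a7f240d485210133a3a087fd18eeeae75c1543407387bb12e6b87f6f13040f7f250d1ecbab475c29e9e9c78b1a8be4a58f6f4a0d8e7f240d53017476 = true := by decide +kernel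

theorem cB16_8_3_115 : chunkOkM (LB16_8.ctx true true 254 49 32 9 16 1469 525 8 64) muQ true true 64 RtB16_8.Cx.left.left RtB16_8.CX RtB16_8.Ctp.right.right.right.left.left.left RtB16_8.Ce.right.right.left.right.left.left RtB16_8.CTp.left.right RtB16_8.CEr.left 0x66801707fd891ef1c75c167614af8f6cfb18077f240d6a6 = true := by decide +kernel

theorem cB16_8_3_116 : chunkOkM (LB16_8.ctx true true 279 199 128 17 32 1469 1065 16 64) muQ true true 64 RtB16_8.Cx.left.left RtB16_8.CX RtB16_8.Ctp.right.right.right.left.left.left RtB16_8.Ce.right.right.left.right.left.right RtB16_8.CTp.left RtB16_8.CEr.left 0x218296849f8eda31171975c474f20108f6d77baf07f240d6a6cc28afb7fd1145994985c3df11f68b1fd125b58f645ec03d7f250d16cb3b97fd1444068587b3dc5a8a58f6af9fdee7f240d4245759b175c500afd68b3ac561108f69975e357f240d85652174217 = true := by decide +kernel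

theorem cB16_8_3_117 : chunkOkM (LB16_8.ctx true true 101 1 1 1 1 1 1 1 1) muQ true true 64 RtB16_8.Cx.left.left RtB16_8.CX RtB16_8.Ctp.right.right.right.left.left.right RtB16_8.Ce.right.right.left.right.left RtB16_8.CTp.left RtB16_8.CEr.left 0x01 = true := by decide +kernel

theorem cB16_8_3_118 : chunkOkM (LB16_8.ctx true true 250 51 32 9 16 741 525 8 64) muQ true true 64 RtB16_8.Cx.left.right RtB16_8.CX RtB16_8.Ctp.right.right.right.left.left RtB16_8.Ce.right.right.left.right.left.left RtB16_8.CTp.left.left RtB16_8.CEr.left.left 0x758fbd57fd41721e875c2952e1778b66a99d698f640d = true := by decide +kernel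

theorem cB16_8_3_119 : chunkOkM (LB16_8.ctx true true 278 203 128 17 32 741 1065 16 128) muQ true true 64 RtB16_8.Cx.left.right.left RtB16_8.CX RtB16_8.Ctp.right.right.right.left.left RtB16_8.Ce.right.right.left.right.left.right.left RtB16_8.CTp.left.left RtB16_8.CEr.left.left 0x6d973817fd3e7839575c14ea7b178b30031bce8f662f2e337f250d4241b05c4abccfe75cc2eb2868b3b2572bb8f61008f7678f240d751a2f57fd52e3a1275c54b37568b2e0a8f7f8f692fe786f250d6785 = true := by decide +kernel

theorem cB16_8_3_120 : chunkOkM (LB16_8.ctx true true 282 203 128 17 32 1495 1075 16 128) muQ true true 64 RtB16_8.Cx.left.right.left RtB16_8.CX RtB16_8.Ctp.right.right.right.left.left RtB16_8.Ce.right.right.left.right.left.right.right RtB16_8.CTp.left.left RtB16_8.CEr.left.left 0x73f68b57fd5dbcdbd75c1912c5178b167e25b7f6120737f98f250da9b1636fd130948378b4335a27e8f64bb7adc7f240d36a64247981a675c3aa7da68b1db139f48f6ef1de887f240d40f5f7c75c253ee968b4aab5d728f630d3f5133375c503f5c68b46f7ad808f6936cb687f240d7385 = true := by decide +kernel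

theorem cB16_8_3_121 : chunkOkM (LB16_8.ctx true true 256 103 64 9 16 741 535 8 64) muQ true true 64 RtB16_8.Cx.left.right.right RtB16_8.CX RtB16_8.Ctp.right.right.right.left.left RtB16_8.Ce.right.right.left.right.left.right RtB16_8.CTp.left.left RtB16_8.CEr.left.left 0x6bab66c7fd373816775c229fe8778b3c5cbf518f640d = true := by decide +kernel

theorem cB16_8_3_122 : chunkOkM (LB16_8.ctx true true 264 51 32 9 16 741 535 32 256) muQ true true 64 RtB16_8.Cx.left.right RtB16_8.CX RtB16_8.Ctp.right.right.right.left.left RtB16_8.Ce.right.right.left.right.left RtB16_8.CTp.left.left RtB16_8.CEr.left.right 0x5a5a467d5c975c1f348d68b1f40906c8f65b396827f240d0465a565a5 = true := by decide +kernel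

theorem cB16_8_3_123 : chunkOkM (LB16_8.ctx true true 264 103 64 9 16 1495 1075 8 64) muQ true true 64 RtB16_8.Cx.left.right RtB16_8.CX RtB16_8.Ctp.right.right.right.left.left RtB16_8.Ce.right.right.left.right.left RtB16_8.CTp.left.right RtB16_8.CEr.left 0x56a22db7fd7630e0075c3f42c49b8f630d5b15c437fd8c02e0f75c42bf9e0d8f6e0d30b87f240d62b8dfd7fd89ca9b675c4d5100978f61a0bcf27f240d376206ac87fd8d9e67075c3513b0078f61bb0b057f240d44c455b77fd73dd29d75c366ffa318f630d46a6 = true := by decide +kernel

theorem cB16_8_3_124 : chunkOkM (LB16_8.ctx true true 258 51 32 9 16 741 265 32 128) muQ true true 64 RtB16_8.Cx.left RtB16_8.CX RtB16_8.Ctp.right.right.right.left.left RtB16_8.Ce.right.right.left.right.left RtB16_8.CTp.left RtB16_8.CEr.right 0x5a5a28040b67fd3ddd1bf75c16b767db8f634e12687f240d2091cfd75c14d459b98f6afe9cc67f230d75a565a565a5 = true := by decide +kernel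

theorem cB16_8_3_125 : chunkOkM (LB16_8.ctx true true 101 1 1 1 1 1 1 1 1) muQ true true 64 RtB16_8.Cx.left.left RtB16_8.CX RtB16_8.Ctp.right.right.right.left.left RtB16_8.Ce.right.right.left.right.right RtB16_8.CTp.left RtB16_8.CEr 0x21 = true := by decide +kernel

theorem cB16_8_3_126 : chunkOkM (LB16_8.ctx true true 281 203 128 9 16 2977 2165 16 64) muQ true true 64 RtB16_8.Cx.left.right.left RtB16_8.CX RtB16_8.Ctp.right.right.right.left.left RtB16_8.Ce.right.right.left.right.right.left RtB16_8.CTp.left.left RtB16_8.CEr.left 0x21e0dd6be7fd118111fd85c33ce8968b30ad54138f684e75787f250d01147598d7fd12d7b51587b17164bc28f6fafc3b67f240d150293575c25b04bd987b4fadf36d8f6c4e34637f240d536967dec2e7fd38f451275c25eb820387b111799db59f640d6934362174 = true := by decide +kernel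

end Vale.Agent.helper4.Q4
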