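import Vale.Agent.helper4.Q4TreeM
import Vale.Agent.helper4.Q4G.PB16_9

/-!
Checks for pairs of intervals of second moments.
-/

set_option maxRecDepth 100000
set_option linter.unusedVariables false

namespace Vale.Agent.helper4.Q4

theorem cB16_9_3_207 : chunkOkM (LB16_9.ctx true true 285 111 64 11 16 3055 1155 128 256) muQ true true 64 RtB16_9.Cx.right.right RtB16_9.CX RtB16_9.Ctp.right.right.right.left.right RtB16_9.Ce.right.right.right.left.left RtB16_9.CTp.right RtB16_9.CEr.right.left 0x939aafb7ed44259217e81b9d1ec38f630d166e1d638ed22bbf2775c2d925a838f630d1a5a87408ed28845f3c84c11fb0b658f66c4d3cc7f240d27c6385e8ed341a20275c2bc1965f8f630d2864a0bb8ed33a11b9f84c2de405fe8f630d617c236828ed229beccf84c30231c628f630d33711691819f1678ed240297775c24c241048f630d73451cb5cc9e8ed1a3a2ae75c502b45378f630d4 = true := by decide +kernel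

theorem cB16_9_3_208 : chunkOkM (LB16_9.ctx true true 286 55 32 11 16 1547 1155 512 512) muQ true true 64 RtB16_9.Cx.right.right RtB16_9.CX RtB16_9.Ctp.right.right.right.left.right RtB16_9.Ce.right.right.right.left.left RtB16_9.CTp.right RtB16_9.CEr.right.right 0xdf5e9927ed614ab565c10dc165f8f63d4965e7f240df3763fa7ed295bbc65c24c37b098f630d31327e8148edcd3bc55c2abb00368f630d442dfe36f06c45a5aa209da6fd1088f8b75c1735d0b48f649cfe96f240d0465a565a55 = true := by decide +kernel

theorem cB16_9_3_209 : chunkOkM (LB16_9.ctx true true 99 1 1 1 1 1 1 1 1) muQ true true 64 RtB16_9.Cx.right.left RtB16_9.CX RtB16_9.Ctp.right.right.right.left RtB16_9.Ce.right.right.right.left.right RtB16_9.CTp.right RtB16_9.CEr.right 0x21 = true := by decide +kernel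

theorem cB16_9_3_210 : chunkOkM (LB16_9.ctx true true 278 111 64 11 16 1495 1165 128 128) muQ true true 64 RtB16_9.Cx.right.right RtB16_9.CX RtB16_9.Ctp.right.right.right.left.left RtB16_9.Ce.right.right.right.left.right RtB16_9.CTp.right RtB16_9.CEr.right 0x5959c40c7a57ed2f153d65cf010fd37f66d6357e7f540d1bb5eaf28ed24f89ce75c4c4f7f5c8f630d587802307ed314d43f7e8114830628f67a6f3847f540d1885097d8ed1c6e32775c181c5bc78f6635b67e7f540d5645975934 = true := by decide +kernel

theorem cB16_9_3_211 : chunkOkM (LB16_9.ctx true true 301 439 256 11 16 3055 2345 256 128) muQ true true 64 RtB16_9.Cx.right.right.left RtB16_9.CX RtB16_9.Ctp.right.right.right.left.right RtB16_9.Ce.right.right.right.left.right.left RtB16_9.CTp.right.left RtB16_9.CEr.right.left 0x211317d7c18ed15ffdf7584c25f6bf3b8f648df5ff7f240d18734c7a8ed29e5af7484cf48a5d67b2ec819a48f69aea45e7f250d521742171397a2e98ed105ddf3884c1087abbf8f6538f8737f240d21d027598ed350700275c1bf587958f65722e5b7f240d5469168602098ed2397ea1d84c3cc4be3d8f630d69369743 = true := by decide +kernel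

theorem cB16_9_3_212 : chunkOkM (LB16_9.ctx true true 282 111 64 11 16 3055 1175 128 128) muQ true true 64 RtB16_9.Cx.right.right.right RtB16_9.CX RtB16_9.Ctp.right.right.right.left.right.left RtB16_9.Ce.right.right.right.left.right.left RtB16_9.CTp.right.left RtB16_9.CEr.right.left 0x168e229a8ed1f792f4284c302e1af18f630d173096e08ed1bf3bae75c4a82e59c8f630d317a750118ed21b564275c3561ad738f630d18491af58ed1c74bbaa84c38743a0b8f630d34 = true := by decide +kernel

theorem cB16_9_3_213 : chunkOkM (LB16_9.ctx true true 295 223 128 11 16 1547 2355 256 256) muQ true true 64 RtB16_9.Cx.right.right.right RtB16_9.CX RtB16_9.Ctp.right.right.right.left.right.right RtB16_9.Ce.right.right.right.left.right.left RtB16_9.CTp.right.left RtB16_9.CEr.right.left 0x18909497fd1bd87a275c1acbbba88f630d33342577fd33df2f075c80a01568b1a5cdc878f640d5b4d20b67ed74c9eaa74c39ad43777b2ff8f66f8f640d227e90078ed2d1edae684c27a2ee368f628ae37c7f240d724628d5a8ed320fd86684c260b2ac98f686c9736f240d46165c559c8ed256630c75c35ac9a4b8f630d4 = true := by decide +kernel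

theorem cB16_9_3_214 : chunkOkM (LB16_9.ctx true true 286 55 32 11 16 1547 1175 512 512) muQ true true 64 RtB16_9.Cx.right.right RtB16_9.CX RtB16_9.Ctp.right.right.right.left.right RtB16_9.Ce.right.right.right.left.right.left RtB16_9.CTp.right.right RtB16_9.CEr.right.left 0x126a926aa06fd13e632698f632ae3ca7f230dae20396fd2098c80f8f620d814f516fd1f87b8b28f620d4356a65126 = true := by decide +kernel

theorem cB16_9_3_215 : chunkOkM (LB16_9.ctx true true 292 111 64 11 16 1547 1175 512 512) muQ true true 64 RtB16_9.Cx.right.right RtB16_9.CX RtB16_9.Ctp.right.right.right.left.right RtB16_9.Ce.right.right.right.left.right.left RtB16_9.CTp.right RtB16_9.CEr.right.right 0xcea4a967ed3e49be65c160492498f630dd0e29cc7ed3def7e65c159e29e58f63ba7a877f240d7f560dfa7ed5fd4216e82785d29d8f630d697bdbefb47ed41aaf165c165c6e6f91900ba478f640d10b10c1e8edfe4d4f6e8237a46df8f630d7435a5af19d776fdf6693b65cd85fbdf7f6362787d7f240da273096fdd930dd65c181104f08f613990237f540dce8bd165c1baa08468f6d1785c6f230d7365a565a55 = true := by decide +kernel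

theorem cB16_9_3_216 : chunkOkM (LB16_9.ctx true true 99 1 1 1 1 1 1 1 1) muQ true true 64 RtB16_9.Cx.right.right.left RtB16_9.CX RtB16_9.Ctp.right.right.right.left.right RtB16_9.Ce.right.right.right.left.right.right RtB16_9.CTp.right RtB16_9.CEr.right 0x21 = true := by decide +kernel

theorem cB16_9_3_217 : chunkOkM (LB16_9.ctx true true 327 1791 1024 11 16 24531 18885 64 128) muQ true true 64 RtB16_9.Cx.right.right.right RtB16_9.CX RtB16_9.Ctp.right.right.right.left.right.left RtB16_9.Ce.right.right.right.left.right.right RtB16_9.CTp.right RtB16_9.CEr.right 0x596969696912f4cc898ed18ce59ac84cd92835128f630d1a16220b8ed170f577884cd92842808f630d646936974693697469369746975934 = true := by decide +kernel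

end Vale.Agent.helper4.Q4
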