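import Vale.Agent.helper4.Q4TreeM
import Vale.Agent.helper4.Q4G.PB17_10

/-!
Checks for pairs of intervals of second moments.
-/

set_option maxRecDepth 100000
set_option linter.unusedVariables false

namespace Vale.Agent.helper4.Q4

theorem cB17_10_3_155 : chunkOkM (LB17_10.ctx true true 271 127 64 13 16 1589 2585 64 32) muQ true true 64 RtB17_10.Cx.right.right RtB17_10.CX RtB17_10.Ctp.right.right.right.left.left.left RtB17_10.Ce.right.right.right.left.right.left RtB17_10.CTp.right RtB17_10.CEr.right.left 0x47917577ed605c55874c71416aa7f64aacba67f540d334150818dd184f40874c1a8aa527f633ce1fb7f540d4645c947ed8fcdaba74c55175537f633958d37f540d548db400a8dd5d4c28f74cfe57356f63e2b44c7f540d3769468b8dea8dd5c7eb5474c1d0c971d8e530d3512163b8dd122e5b274c21db93e7f6381713c7f540d48dd1c87ed72f9b1a74cebd55367b2cd710d7f63a106337f550d5374 = true := by decide +kernel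

theorem cB17_10_3_156 : chunkOkM (LB17_10.ctx true true 261 63 32 13 16 805 2585 64 32) muQ true true 64 RtB17_10.Cx.right.right RtB17_10.CX RtB17_10.Ctp.right.right.right.left.left.right RtB17_10.Ce.right.right.right.left.right.left RtB17_10.CTp.right RtB17_10.CEr.right.left 0x1623676f06c515b9ef7ed7bf2aba74c69634767b33c647d48e61e1dff848e550d5694 = true := by decide +kernel

theorem cB17_10_3_157 : chunkOkM (LB17_10.ctx true true 259 63 32 13 16 805 1287 64 35) muQ true true 64 RtB17_10.Cx.right.right RtB17_10.CX RtB17_10.Ctp.right.right.right.left.left RtB17_10.Ce.right.right.right.left.right.left RtB17_10.CTp.right RtB17_10.CEr.right.right 0x2d9b7e57ed2370ec074c8dbfd9748e63118baff8e540d1c548bc7ed242bd3974c214c0d6e92ba17987f6311468268e550d392109c53b94c2937c7dbc97b43f464608e6312638b28e540d5 = true := by decide +kernel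

theorem cB17_10_3_158 : chunkOkM (LB17_10.ctx true true 97 1 1 1 1 1 1 1 1) muQ true true 64 RtB17_10.Cx.right.left RtB17_10.CX RtB17_10.Ctp.right.right.right.left.left.left RtB17_10.Ce.right.right.right.left.right.right RtB17_10.CTp.right RtB17_10.CEr.right 0x59 = true := by decide +kernel

theorem cB17_10_3_159 : chunkOkM (LB17_10.ctx true true 97 1 1 1 1 1 1 1 1) muQ true true 64 RtB17_10.Cx.right.left.left RtB17_10.CX RtB17_10.Ctp.right.right.right.left.left.right RtB17_10.Ce.right.right.right.left.right.right RtB17_10.CTp.right RtB17_10.CEr.right 0x69 = true := by decide +kernel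

theorem cB17_10_3_160 : chunkOkM (LB17_10.ctx true true 291 247 128 13 16 1617 5225 128 128) muQ true true 64 RtB17_10.Cx.right.left.right RtB17_10.CX RtB17_10.Ctp.right.right.right.left.left.right RtB17_10.Ce.right.right.right.left.right.right.left RtB17_10.CTp.right RtB17_10.CEr.right.left 0x12c8e81b6ed109988158f6d9636187e530d340b3977ed1d0f1fa74cf2ba6fe7f630d429b5b9f7ed1ed75de7f62798ea6b8e530d36a6512629755c788dd2680c2674c19aeb6577b21887efd8f640d1a3ec077ed1f27abf74c11fccd177b3493063c8f640d72d390037ed311da0374c13b97cb77bf81138b7f675e29287e550d42d4416b7ed2a1c19974c1555dc277b21dbe747f62d9d77c68e550d34a55 = true := by decide +kernel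

theorem cB17_10_3_161 : chunkOkM (LB17_10.ctx true true 294 495 256 13 16 3241 10483 64 32) muQ true true 64 RtB17_10.Cx.right.left.right RtB17_10.CX RtB17_10.Ctp.right.right.right.left.left.right RtB17_10.Ce.right.right.right.left.right.right.right RtB17_10.CTp.right RtB17_10.CEr.right.left 0x69698f7155df8dd51db0d574c1955f8c58f630d4c6f5df7ed866414674c118c19c77b2a1511ff8f640d546976934697593 = true := by decide +kernel

theorem cB17_10_3_162 : chunkOkM (LB17_10.ctx true true 294 495 256 13 16 3241 10483 64 35) muQ true true 64 RtB17_10.Cx.right.left.right RtB17_10.CX RtB17_10.Ctp.right.right.right.left.left.right RtB17_10.Ce.right.right.right.left.right.right RtB17_10.CTp.right RtB17_10.CEr.right.right 0x696934613f968dd209f88574c329bf9288f630d7f041d0c594c23d01569697b1ee4398b8f630d5469769346975932f5dc687ed27d07f574c191549358f630d2d561297ed2be385174c3f116ec48f630d72ffe7e818dd269907c74c1e621a0f8f630d36e3edc7ed29bd0a474c155022b38f630d7432b55937ed257b47774c378382f7f62631a837f540d6973b91cf2dbf94c3445305b697b65dff2c7f6891bd86f540d54 = true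 := by decide +kernel

theorem cB17_10_3_163 : chunkOkM (LB17_10.ctx true true 275 125 64 13 16 1589 5225 64 35) muQ true true 64 RtB17_10.Cx.right.right.left RtB17_10.CX RtB17_10.Ctp.right.right.right.left.left.left RtB17_10.Ce.right.right.right.left.right.right.left RtB17_10.CTp.right RtB17_10.CEr.right 0x1d6c3327ed211d55a74c43592e17f62f4af537f540d972b3feeb94c2a8635b0997b3d6289d7f530d5331a26c7ed64278bc74c1f4b6f6f65325f577f540d3422ac73e8dd5ae169b74c7fe7e86f63d36b9b7f540d2f4efed88dd15059d374c3c6ec687f530d4139f6a7ed5f28f7174c16e435377b19b9ea77f63992eeb7f550d5432207da7ed56a3a7174cfec4cb6f6441bd357f540d36 = true := by decide +kernel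

theorem cB17_10_3_164 : chunkOkM (LB17_10.ctx true true 268 127 64 13 16 1589 2607 32 35) muQ true true 64 RtB17_10.Cx.right.right.right RtB17_10.CX RtB17_10.Ctp.right.right.right.left.left.left RtB17_10.Ce.right.right.right.left.right.right.left RtB17_10.CTp.right RtB17_10.CEr.right 0x45aa1dc7ed5ffbb9b74c493404e7f642453107f540d39c8d6868dd5c7a18374c30ef5017f63d8832a7f540d465aad018dd58b263774c29897787f648638857f540d36 = true := by decide +kernel

theorem cB17_10_3_165 : chunkOkM (LB17_10.ctx true true 268 127 64 13 16 1589 2629 32 35) muQ true true 64 RtB17_10.Cx.right.right RtB17_10.CX RtB17_10.Ctp.right.right.right.left.left.left RtB17_10.Ce.right.right.right.left.right.right.right RtB17_10.CTp.right RtB17_10.CEr.right 0x4180cff7ed5e7f53274c8c3a6647f647107db7f540d4269b1308dd5803e4d74c1ce58707f63f00f7a7f540d62c31c1a7ed925887174c1f9349e7e84de9c347f6537177a7f550d3597 = true := by decide +kernel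

theorem cB17_10_3_166 : chunkOkM (LB17_10.ctx true true 275 127 64 13 16 1617 2607 128 32) muQ true true 64 RtB17_10.Cx.right.right RtB17_10.CX RtB17_10.Ctp.right.right.right.left.left.right RtB17_10.Ce.right.right.right.left.right.right.left RtB17_10.CTp.right RtB17_10.CEr.right.left 0x3dba2377ed518828374c37b1d007f628054ca18e540d3514b83e8dd27baa4174c301c2437f62966784b8e540d280ab457ed28d130674c116a21077b9ac5ec47f618edb0208e550d4a551f388f498ddabacdc64c53295607f62b194df18e540d224eca77ed1bf851674c1620b0e77b3071a3e7f62cfb569e8e550d4a5537 = true := by decide +kernel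

theorem cB17_10_3_167 : chunkOkM (LB17_10.ctx true true 294 503 256 13 16 3213 5269 128 32) muQ true true 64 RtB17_10.Cx.right.right.left RtB17_10.CX RtB17_10.Ctp.right.right.right.left.left.right RtB17_10.Ce.right.right.right.left.right.right.right RtB17_10.CTp.right RtB17_10.CEr.right.left 0x3ed51dec8dd264865074c1049d667f62da750b7f540d293ad557ed2d1bb4274c1451e9177b6289be47f620c919a08e550d4a55244858598dd1467baf74c9dead3a7f632ca36a7f540d424ad7c7ed87f10ab74c38126c67f530d5597593597301d7bfc8dd1b9670d74c3afb2f37f530d428817b7ed7e5db1374c8681ab67b16d45067f636eb7417f550d543 = true := by decide +kernel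

end Vale.Agent.helper4.Q4
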