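import Vale.Agent.helper4.Q4TreeM
import Vale.Agent.helper4.Q4G.PB17_11

/-!
Checks for pairs of intervals of second moments.
-/

set_option maxRecDepth 100000
set_option linter.unusedVariables false

namespace Vale.Agent.helper4.Q4

theorem cB17_11_3_0 : chunkOkM (LB17_11.ctx true true 93 1 1 1 1 1 1 1 1) muQ true true 64 RtB17_11.Cx RtB17_11.CX RtB17_11.Ctp.left RtB17_11.Ce RtB17_11.CTp RtB17_11.CEr 0x41 = true := by decide +kernel

theorem cB17_11_3_1 : chunkOkM (LB17_11.ctx true true 93 1 1 1 1 1 1 1 1) muQ true true 64 RtB17_11.Cx RtB17_11.CX RtB17_11.Ctp.right RtB17_11.Ce.left RtB17_11.CTp RtB17_11.CEr 0x69 = true := by decide +kernel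

theorem cB17_11_3_2 : chunkOkM (LB17_11.ctx true true 93 1 1 1 1 1 1 1 1) muQ true true 64 RtB17_11.Cx RtB17_11.CX RtB17_11.Ctp.right RtB17_11.Ce.right RtB17_11.CTp.left RtB17_11.CEr 0x42 = true := by decide +kernel

theorem cB17_11_3_3 : chunkOkM (LB17_11.ctx true true 93 1 1 1 1 1 1 1 1) muQ true true 64 RtB17_11.Cx RtB17_11.CX RtB17_11.Ctp.right RtB17_11.Ce.right RtB17_11.CTp.right RtB17_11.CEr.left 0x6a = true := by decide +kernel

theorem cB17_11_3_4 : chunkOkM (LB17_11.ctx true true 253 113 64 15 16 665 1067 16 77) muQ true true 64 RtB17_11.Cx RtB17_11.CX RtB17_11.Ctp.right.left RtB17_11.Ce.right RtB17_11.CTp.right RtB17_11.CEr.right 0x4949492151595959c4a007dda17270073c36b40166b173abc07e651c331e7e576e9126e460d73ae91a28cd9f93eae76b532eb047d82fd77527e6664eee27e510b8aff7e460d644446182d0f7dda1d805273c147a56e38d644290ab7e5e449a36e450d58a2628a8cd4f5121776bd7c7b717d64077d817e59ca1c56e450d66941141144777493493493413 = true := by decide +kernel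

theorem cB17_11_3_5 : chunkOkM (LB17_11.ctx true true 93 1 1 1 1 1 1 1 1) muQ true true 64 RtB17_11.Cx RtB17_11.CX RtB17_11.Ctp.right.right RtB17_11.Ce.right.left RtB17_11.CTp.right RtB17_11.CEr.right 0x69 = true := by decide +kernel

theorem cB17_11_3_6 : chunkOkM (LB17_11.ctx true true 260 29 16 15 16 2807 4389 35 77) muQ true true 64 RtB17_11.Cx RtB17_11.CX RtB17_11.Ctp.right.right.left.left RtB17_11.Ce.right.right.left.left.left RtB17_11.CTp.right RtB17_11.CEr.right 0x696969695cdc18d7ddd557d9a73c6ae4156d8270fd457e540d8933ae898cd97b5f0776b4379b367d82c7eabb7e540d669469469433338cdaf97dd25f887073c22878c538d647f5439d8d540d78a00d57ddc67472f73c367cd5176b2afbfe07d638a21af7e550d58b4d0597ddb683cba76b5be40667d84f1cb887d63b2f3987e516cd1d6e460d669575c7a07dda82227873c4c947766b18dc96ce8d644e34037e550dae4ceb87dd99bf18776b60dfb7f7d8250b2fa08d64b3b19a7e550d63437 = true := by decide +kernel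

theorem cB17_11_3_7 : chunkOkM (LB17_11.ctx true true 263 117 64 15 16 1393 2255 16 77) muQ true true 64 RtB17_11.Cx RtB17_11.CX RtB17_11.Ctp.right.right.left.left.left RtB17_11.Ce.right.right.left.left.right RtB17_11.CTp.right RtB17_11.CEr.right 0x4949593e61a547dd734d34e73cbafa7b66b364a9387e664f16547e550d513347588cd6942fcd76b3aadccb7d83bb05147e6687f9c07e550d6593474935974975df07dd88f802873c19ad16048d6491b21c7e5123ec637e450d5093d5f7dda6aa51073cb8a35066b1d4eb857e64c6380c7e550d7824163dd8cd902ea4476b4b540d97d83c121ee7e520bc4a6e450d637cf4217dd8eeaac373c3dbf35438e623fddb1349e54b15944da9e450d347 = true := by decide +kernel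

theorem cB17_11_3_8 : chunkOkM (LB17_11.ctx true true 243 31 16 15 16 357 1133 35 77) muQ true true 64 RtB17_11.Cx RtB17_11.CX RtB17_11.Ctp.right.right.left.left.right RtB17_11.Ce.right.right.left.left.right RtB17_11.CTp.right RtB17_11.CEr.right 0x272eb4b7dd9c9afd673c16a094e159d66a91f95c8e440d2e824877dd430898073c2257c227d918459f498d63548ffcb8d550d7e2e5dd7ddee4991e73c36a850e76be8920f6e633a8c637e550d56af7542b6dd1a8d2f273c5f1ca3e76b61c5fc27d63391e8438d550d5620493237dd478018073c21312e6d7244090f98d634d3c1148d550d65607f97dde73b23273c404604976b19c12e6e8d63352bf8a8d550d597040afa8cdbe20d3676b514ed3d7d81702922c8d63094da158d550d647 = true := by decide +kernel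

theorem cB17_11_3_9 : chunkOkM (LB17_11.ctx true true 241 15 8 15 16 735 1133 35 77) muQ true true 64 RtB17_11.Cx RtB17_11.CX RtB17_11.Ctp.right.right.left.right RtB17_11.Ce.right.right.left.left RtB17_11.CTp.right RtB17_11.CEr.right 0x1169200351c7dd566a87c73c2727256e8d6274e1ba28d540d56f6a787dd1014da4c83c27ad9f776b29eb873a8d6240798e48d550d598f99a27ddaf6fa7b76b408638f7d824970fc48d62545cc0a8d550d669411433 = true := by decide +kernel

theorem cB17_11_3_10 : chunkOkM (LB17_11.ctx true true 226 15 8 15 16 343 583 16 33) muQ true true 64 RtB17_11.Cx RtB17_11.CX RtB17_11.Ctp.right.right.left.left.left RtB17_11.Ce.right.right.left.right.left RtB17_11.CTp.right RtB17_11.CEr.right 0x4aefd817dd884775373c7683557b462de2288e5a3b3fead8e450d = true := by decide +kernel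

theorem cB17_11_3_11 : chunkOkM (LB17_11.ctx true true 253 59 32 15 16 721 1155 35 77) muQ true true 64 RtB17_11.Cx.left RtB17_11.CX RtB17_11.Ctp.right.right.left.left.right RtB17_11.Ce.right.right.left.right.left.left RtB17_11.CTp.right RtB17_11.CEr.right 0x23497727dd2cb484673c22347447d935470f6e62ff485d7e550d41459d77dda59ea0073c5d24d7676b148bebb7e64549b907e550d555397abf8cd73e6b6c76b2edc0747d88c24f16e637539af7e550d61e56b197dd4242bc773c15e07177e62f0fc7b98d540d55e88f37ddabd7aa073c38fec4076b27819de7e6405e6a67e550d5723d1f578cd8100a8776b2c1fb867d84070f5e6382d3dc7e550d673b46feb7dd7494a8f73cb4325266b2a170827e65a9169f7e550d4cdeae5b8cd5a79c4c76b2dcc3e17d82469e1a7e65682b5b7e550d65973 = true := by decide +kernel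

theorem cB17_11_3_12 : chunkOkM (LB17_11.ctx true true 284 479 256 15 16 2905 9427 16 77) muQ true true 64 RtB17_11.Cx.left RtB17_11.CX RtB17_11.Ctp.right.right.left.left.right RtB17_11.Ce.right.right.left.right.left.right RtB17_11.CTp.right RtB17_11.CEr.right 0x595930ec07f7dd6ee339673c34c8d166b8fe33157e67d2e6d37e550dbffebbd76b5bc9e94c8c83dbc9b17e530d645975935974597593383246e7dd838170e73cbc098966b2f06fe27e650be7fd7e550d5523c2bc8cd5345e8a76b23178917d81e01e687e64bbf2a47e550d64597593 = true := by decide +kernel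

theorem cB17_11_3_13 : chunkOkM (LB17_11.ctx true true 258 121 64 15 16 721 2365 16 77) muQ true true 64 RtB17_11.Cx.right RtB17_11.CX RtB17_11.Ctp.right.right.left.left.right RtB17_11.Ce.right.right.left.right.left RtB17_11.CTp.right RtB17_11.CEr.right 0x494936d7b437dd6bdb6e473cccecb56b3537d5f7e65c4c70e7e5a4e8ab6e460d2162b2c38cd535dd1976b2edeae77d82c9519e7e651fc5d77e550d638730a27dd70a12b773c29afe627e64d64f917e5119f2827e450d5b2b61978cd31ccaa076bc347206d829140d57e65499f5e7e517162457e460d647742116ec7dd6c6554073c747d8b6d86d493cab8d66bd72d47e51e6efe07e460d244411a7ddc9052a63c14ea8cd76baf4079558d6a6082447e51f0d9607e460d64493 = true := by decide +kernel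

theorem cB17_11_3_14 : chunkOkM (LB17_11.ctx true true 275 243 128 15 16 2905 4763 16 77) muQ true true 64 RtB17_11.Cx RtB17_11.CX RtB17_11.Ctp.right.right.left.left RtB17_11.Ce.right.right.left.right.right RtB17_11.CTp.right RtB17_11.CEr.right 0x49594959593008e187dd55cec1973c26c7dc97e64f81aad7e540d2195766c8cd36c33ce76b26fe083f8c8178b67ea8e6e0673217e550d659359745934747493493597 = true := by decide +kernel

theorem cB17_11_3_15 : chunkOkM (LB17_11.ctx true true 271 59 32 57 64 385 1177 256 77) muQ true true 64 RtB17_11.Cx.left RtB17_11.CX RtB17_11.Ctp.right.right.left.right RtB17_11.Ce.right.right.left.right.left RtB17_11.CTp.right.left RtB17_11.CEr.right 0x4a4a2d472447dd78dffc373c2a0e9c308d610b80a868d540d1da414e7dd51d30a873c8abf157b27fb029f8d6105dd2e18d550d61a620c07dd4a2e77d73c11aefa67b30a8a7f88d633e2be898d550d1acd51e7dd583c64b73c1e2e6d47e62939f2078d540d71cc43597dd4985cc173ce1c0757b11be74298d61f909e2b8d550d43884a54a5425 = true := by decide +kernel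

theorem cB17_11_3_16 : chunkOkM (LB17_11.ctx true true 93 1 1 1 1 1 1 1 1) muQ true true 64 RtB17_11.Cx.left RtB17_11.CX RtB17_11.Ctp.right.right.left.right RtB17_11.Ce.right.right.left.right.left RtB17_11.CTp.right.right RtB17_11.CEr.right.left 0x6a = true := by decide +kernel

theorem cB17_11_3_17 : chunkOkM (LB17_11.ctx true true 253 59 32 15 16 749 1155 35 77) muQ true true 64 RtB17_11.Cx.left RtB17_11.CX RtB17_11.Ctp.right.right.left.right.left RtB17_11.Ce.right.right.left.right.left.left RtB17_11.CTp.right.right RtB17_11.CEr.right.right 0x1c8e7f97dd406cf2273c1ef6366d96a187fe98d64947fa988d550d25b8fc27dd6caf6cf73cb896e06d728f2893a8d61b18fafa8d550d265a2827dd5a3130173c89a5d06d710d35b37e6252020308d550d37 = true := by decide +kernel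

end Vale.Agent.helper4.Q4
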