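import Vale.Agent.helper4.Q4TreeM
import Vale.Agent.helper4.Q4G.PB17_11

/-!
Checks for pairs of intervals of second moments.
-/

set_option maxRecDepth 100000
set_option linter.unusedVariables false

namespace Vale.Agent.helper4.Q4

theorem cB17_11_3_18 : chunkOkM (LB17_11.ctx true true 269 115 64 15 16 1505 2365 35 165) muQ true true 64 RtB17_11.Cx.left RtB17_11.CX RtB17_11.Ctp.right.right.left.right.left RtB17_11.Ce.right.right.left.right.left.right RtB17_11.CTp.right.right RtB17_11.CEr.right.right 0x19cb22d7dd51abab473c1d68f85e8d62e1f418c8d540d2b982227dd573e69173c7e69796d75c2c746e624a7e7538d550d247db5a7dd39277ca73c269a2897d93eb59317e6248e5c3b8d550d33187627dd6cd047773cd6e44e6d74d0153c7e612cce55f8d550d40e77f928cd326917d73c18663497e6216869388d540d61d4055368cd602b9ea73c85e3826d74fc19b57e6292b7f1c8d550d37420e337e7ddcef129e73c302417b7d82de2f9b7e62d8af96d8d550d37 = true := by decide +kernel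

theorem cB17_11_3_19 : chunkOkM (LB17_11.ctx true true 243 29 16 15 16 385 1155 35 77) muQ true true 64 RtB17_11.Cx.left RtB17_11.CX RtB17_11.Ctp.right.right.left.right.right RtB17_11.Ce.right.right.left.right.left.left RtB17_11.CTp.right.right RtB17_11.CEr.right.right 0x446155f06c = true := by decide +kernel

theorem cB17_11_3_20 : chunkOkM (LB17_11.ctx true true 265 115 64 15 16 777 2365 35 143) muQ true true 64 RtB17_11.Cx.left.left RtB17_11.CX RtB17_11.Ctp.right.right.left.right.right RtB17_11.Ce.right.right.left.right.left.right RtB17_11.CTp.right.right RtB17_11.CEr.right.right.left 0x40735567dd4a7510973c61f483c38d630d2c2a0dc7dd39c6e1b73c1d0808a7e61ad7208d8d540d250784d18cd3abdd1973c56822c87e6b226c457d540d74171c057dd445837d73c58f2067b8d660e62a77d540d43 = true := by decide +kernel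

theorem cB17_11_3_21 : chunkOkM (LB17_11.ctx true true 270 115 64 15 16 777 2365 75 165) muQ true true 64 RtB17_11.Cx.left.left RtB17_11.CX RtB17_11.Ctp.right.right.left.right.right RtB17_11.Ce.right.right.left.right.left.right RtB17_11.CTp.right.right RtB17_11.CEr.right.right.right 0x29f645d7dd5d436f573c13872e67d97ece4db88d640d22cdfbe7dd582a44a73cf137926d93a277ff7e6197950d08d550d14b783f7dd248d57673c1eaaef57d92d3a3f37e6d964e6e7d550d927054b7dd744613b73c1086e477d973bb94f7e640d573332c77b7dd5dc99b873c8add3e6d74bfbd5c58d682d30c57d550d4 = true := by decide +kernel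

theorem cB17_11_3_22 : chunkOkM (LB17_11.ctx true true 93 1 1 1 1 1 1 1 1) muQ true true 64 RtB17_11.Cx.left.right RtB17_11.CX RtB17_11.Ctp.right.right.left.right.right RtB17_11.Ce.right.right.left.right.left.right RtB17_11.CTp.right.right RtB17_11.CEr.right.right 0x69 = true := by decide +kernel

theorem cB17_11_3_23 : chunkOkM (LB17_11.ctx true true 236 31 16 15 16 371 583 16 77) muQ true true 64 RtB17_11.Cx.right RtB17_11.CX RtB17_11.Ctp.right.right.left.right RtB17_11.Ce.right.right.left.right.left RtB17_11.CTp.right RtB17_11.CEr.right 0x1132bd55b7dd6901bde73c38b9488d8d6405160d28d540d3ea1c137dd4312c8076b20507da7d82aa2ac3c8d63f401a6d8d550d63 = true := by decide +kernel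

theorem cB17_11_3_24 : chunkOkM (LB17_11.ctx true true 266 119 64 15 16 1505 2387 35 77) muQ true true 64 RtB17_11.Cx.left RtB17_11.CX RtB17_11.Ctp.right.right.left.right.left RtB17_11.Ce.right.right.left.right.right.left RtB17_11.CTp.right RtB17_11.CEr.right 0x26c5bda7dd2f9636473c1984b717d9bdd4b76e62c9623d38d550ddc39bf27dd13c6cbb183c78c30b476b148494c7e6379c7af7e550d57538bfd98cd894deb176b30694eb7d812e1b237e62f08f417e550d6591f2dbf37dd572eabe73c5fcc4b6d7ebf5666e627b5980e8d550d5fa66b07dd11e541f483c1a20fd66b31732147e620e65497e550d56a16a4e8d086b2d275187e520d565935974759350162a7dd87af38173ce8f6a266b216d84b7e643561f77e550d559b98b08cd6760ff676b2d0ad977d8c118986e63bbcb6c7e550d659745973 = true := by decide +kernel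

theorem cB17_11_3_25 : chunkOkM (LB17_11.ctx true true 266 119 64 15 16 1505 2431 35 77) muQ true true 64 RtB17_11.Cx.left RtB17_11.CX RtB17_11.Ctp.right.right.left.right.left RtB17_11.Ce.right.right.left.right.right.right RtB17_11.CTp.right RtB17_11.CEr.right 0x5918378427dd4649fd273c41c5a26d743d915c7e63f1753468d550d4b5410f7ddb4679aa73c181cf3676b2e97dc07e540d541708bb68cd6b4d01676b2b7e01848c810f88b57e63366022a8d550d65935974597593 = true := by decide +kernel

theorem cB17_11_3_26 : chunkOkM (LB17_11.ctx true true 93 1 1 1 1 1 1 1 1) muQ true true 64 RtB17_11.Cx.left RtB17_11.CX RtB17_11.Ctp.right.right.left.right.right RtB17_11.Ce.right.right.left.right.right.left RtB17_11.CTp.right.left.left RtB17_11.CEr.right 0x42 = true := by decide +kernel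

theorem cB17_11_3_27 : chunkOkM (LB17_11.ctx true true 93 1 1 1 1 1 1 1 1) muQ true true 64 RtB17_11.Cx.left RtB17_11.CX RtB17_11.Ctp.right.right.left.right.right RtB17_11.Ce.right.right.left.right.right.left RtB17_11.CTp.right.left.right.left RtB17_11.CEr.right 0x4a = true := by decide +kernel

theorem cB17_11_3_28 : chunkOkM (LB17_11.ctx true true 93 1 1 1 1 1 1 1 1) muQ true true 64 RtB17_11.Cx.left RtB17_11.CX RtB17_11.Ctp.right.right.left.right.right RtB17_11.Ce.right.right.left.right.right.left RtB17_11.CTp.right.left.right.right.left RtB17_11.CEr.right 0x4a = true := by decide +kernel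

theorem cB17_11_3_29 : chunkOkM (LB17_11.ctx true true 292 115 64 57 64 777 2409 256 539) muQ true true 64 RtB17_11.Cx.left.left RtB17_11.CX.left.left RtB17_11.Ctp.right.right.left.right.right RtB17_11.Ce.right.right.left.right.right.left RtB17_11.CTp.right.left.right.right.right RtB17_11.CEr.right 0x525a5acb84e96ed89a093b73c7c30bcb7e630d386765ed5f9d9f673c8fa20a698d621a94c6e240d74984346ed3e76d964c4e02a1dc8d630d429276c6ed5ae26764c16e61ee58d618a6e3798d540d36665b1ffa6f06b6a44a56f06b755537b6f06b41a64ac6ed474cbd64c457cd57b1f61c6228d6186dc8828d550d36a61261266 = true := by decide +kernel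

theorem cB17_11_3_30 : chunkOkM (LB17_11.ctx true true 267 59 32 57 64 385 1199 256 33) muQ true true 64 RtB17_11.Cx.left.right RtB17_11.CX.left.left RtB17_11.Ctp.right.right.left.right.right RtB17_11.Ce.right.right.left.right.right.left RtB17_11.CTp.right.left.right.right.right RtB17_11.CEr.right 0x170e97d7dd41fc6a173c302c1ce88d61e35cf7c8d540d = true := by decide +kernel

theorem cB17_11_3_31 : chunkOkM (LB17_11.ctx true true 93 1 1 1 1 1 1 1 1) muQ true true 64 RtB17_11.Cx.left RtB17_11.CX.left.right RtB17_11.Ctp.right.right.left.right.right RtB17_11.Ce.right.right.left.right.right.left RtB17_11.CTp.right.left.right.right.right RtB17_11.CEr.right 0x4a = true := by decide +kernel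

theorem cB17_11_3_32 : chunkOkM (LB17_11.ctx true true 93 1 1 1 1 1 1 1 1) muQ true true 64 RtB17_11.Cx.left RtB17_11.CX.right RtB17_11.Ctp.right.right.left.right.right RtB17_11.Ce.right.right.left.right.right.left RtB17_11.CTp.right.left.right.right.right RtB17_11.CEr.right 0x4a = true := by decide +kernel

theorem cB17_11_3_33 : chunkOkM (LB17_11.ctx true true 93 1 1 1 1 1 1 1 1) muQ true true 64 RtB17_11.Cx.left RtB17_11.CX RtB17_11.Ctp.right.right.left.right.right RtB17_11.Ce.right.right.left.right.right.left RtB17_11.CTp.right.right RtB17_11.CEr.right.left 0x6a = true := by decide +kernel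

theorem cB17_11_3_34 : chunkOkM (LB17_11.ctx true true 278 227 128 15 16 1533 4763 35 165) muQ true true 64 RtB17_11.Cx.left.left RtB17_11.CX RtB17_11.Ctp.right.right.left.right.right.left RtB17_11.Ce.right.right.left.right.right.left RtB17_11.CTp.right.right RtB17_11.CEr.right.right 0x27b50827dd5192c5073c1c4ca3a7d95a4292a7e610623b77e550d43c00fdd8cd24b213573c9d93e157e61011c2908d540d61ffb1d87dd543928673c1e48256d7748a76e7e62383004b8d550d369733dd39d7dd6db400c73c9b66976d743ff8b17e6149fedef8d550d1c2f6b708cd373913173c33dcc847e61526756d8d540d62cef88c7dd4f9d32f73c181ea267d99cf51c97e640d28c914b08cd332b78c73cfd6a25d9b7852b27e640d6592bc58d848cd4dab25b73c64bee96d7a10969e7e6e305416e550d4597374 = true := by decide +kernel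

theorem cB17_11_3_35 : chunkOkM (LB17_11.ctx true true 273 115 64 15 16 777 4785 75 165) muQ true true 64 RtB17_11.Cx.left.left RtB17_11.CX RtB17_11.Ctp.right.right.left.right.right.right RtB17_11.Ce.right.right.left.right.right.left.left RtB17_11.CTp.right.right RtB17_11.CEr.right.right 0x14d823a7dd225531573c24fcf377d95f173edc8d640d4a8c66e7dd5f9eee473c50b95bd48d630d52ed255f06c298c7a5a8cd3aeb46a73ca00cc0d7e6561425e240d4cd35f238cd3848e8e73c76593197e630d476 = true := by decide +kernel

end Vale.Agent.helper4.Q4
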