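import Vale.Agent.helper4.Q4TreeM
import Vale.Agent.helper4.Q4G.PB17_11

/-!
Checks for pairs of intervals of second moments.
-/

set_option maxRecDepth 100000
set_option linter.unusedVariables false

namespace Vale.Agent.helper4.Q4

theorem cB17_11_3_181 : chunkOkM (LB17_11.ctx true true 280 251 128 15 16 1645 5357 35 165) muQ true true 64 RtB17_11.Cx.right.right.left RtB17_11.CX RtB17_11.Ctp.right.right.right.left.right.left RtB17_11.Ce.right.right.right.right.left.left.right RtB17_11.CTp.right.right RtB17_11.CEr.right.right 0x7cec8c6dd4e4f70973c1058db47d914f14e128e63462a76e250d4151266cd5360c4173ce9ec956d9152ca2198e640d112ad1f7dd487e32c73c184b4b57d91f103d178e640d741cfe26b7cd456629873c77181a6d914f14e128e63462a76e250ddcdfc627cd3f58fc173cd34c5657e630d502b8f173c138bffea8e6487efe6e230d746595db4ad57cd471e72573cad94546d91f9e37118e640d45973 = true := by decide +kernel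

theorem cB17_11_3_182 : chunkOkM (LB17_11.ctx true true 274 127 64 15 16 1645 5357 35 165) muQ true true 64 RtB17_11.Cx.right.right.right RtB17_11.CX RtB17_11.Ctp.right.right.right.left.right.left RtB17_11.Ce.right.right.right.right.left.left.right RtB17_11.CTp.right.right RtB17_11.CEr.right.right 0x64ad866dd492e4b773c147b0807d9a7199ae7e6b29d4d97d550d3f3f266dd512db1573c187c2ca7d912bf24918e640d45cdcf26dd3edf8aa73c7bd09d6d96256eab7e613bd0fb38d550d64dcef267cd45df03d73cb207586d964bcee27e61caa57a7e550d687be26dd4725aca73cb37fee6d966a76077e61a80e3a7e550d43 = true := by decide +kernel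

theorem cB17_11_3_183 : chunkOkM (LB17_11.ctx true true 264 127 64 15 16 833 2673 35 77) muQ true true 64 RtB17_11.Cx.right.right RtB17_11.CX RtB17_11.Ctp.right.right.right.left.right.right RtB17_11.Ce.right.right.right.right.left.left RtB17_11.CTp.right.right RtB17_11.CEr.right.right 0x51905c67fc466dd4cea5e373cb61e896d94218f707e628915287e250d73957b86dd5dc4fd873c3dc5f16d71d24ccfbb9d14ea95c248e050d4 = true := by decide +kernel

theorem cB17_11_3_184 : chunkOkM (LB17_11.ctx true true 93 1 1 1 1 1 1 1 1) muQ true true 64 RtB17_11.Cx.right.left RtB17_11.CX RtB17_11.Ctp.right.right.right.left.right RtB17_11.Ce.right.right.right.right.left.right RtB17_11.CTp.right RtB17_11.CEr.right 0x21 = true := by decide +kernel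

theorem cB17_11_3_185 : chunkOkM (LB17_11.ctx true true 93 1 1 1 1 1 1 1 1) muQ true true 64 RtB17_11.Cx.right.right.left RtB17_11.CX RtB17_11.Ctp.right.right.right.left.right.left RtB17_11.Ce.right.right.right.right.left.right RtB17_11.CTp.right RtB17_11.CEr.right 0x69 = true := by decide +kernel

theorem cB17_11_3_186 : chunkOkM (LB17_11.ctx true true 300 127 64 57 64 1645 5401 256 539) muQ true true 64 RtB17_11.Cx.right.right.right RtB17_11.CX RtB17_11.Ctp.right.right.right.left.right.left RtB17_11.Ce.right.right.right.right.left.right.left RtB17_11.CTp.right.left RtB17_11.CEr.right 0x4a4a525a5a4c13c4273c10842f578e6a6340067d530d4c530de73c7a813a47e615b407888d530d437598f6ed2da8a464c3b39057b2410aad7e627986a5a8d550d366647b08d27dd57b99b673cb27fe5e7e6110ee8918d540d47b9d867dd61bc1a773c4c9beb66bccac9aa7e61011ba0a8d550d42f0c036f05b36a61261266884a54a5425 = true := by decide +kernel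

theorem cB17_11_3_187 : chunkOkM (LB17_11.ctx true true 93 1 1 1 1 1 1 1 1) muQ true true 64 RtB17_11.Cx.right.right.right RtB17_11.CX RtB17_11.Ctp.right.right.right.left.right.left RtB17_11.Ce.right.right.right.right.left.right.left RtB17_11.CTp.right.right RtB17_11.CEr.right.left 0x6a = true := by decide +kernel

theorem cB17_11_3_188 : chunkOkM (LB17_11.ctx true true 267 127 64 15 16 1631 2695 35 77) muQ true true 64 RtB17_11.Cx.right.right.right RtB17_11.CX RtB17_11.Ctp.right.right.right.left.right.left.left RtB17_11.Ce.right.right.right.right.left.right.left RtB17_11.CTp.right.right RtB17_11.CEr.right.right 0x6332866dd46b6b1773c8d50f66d91d7c6d6e62f2323968d550d = true := by decide +kernel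

theorem cB17_11_3_189 : chunkOkM (LB17_11.ctx true true 282 255 128 15 16 1645 5401 35 165) muQ true true 64 RtB17_11.Cx.right.right.right RtB17_11.CX RtB17_11.Ctp.right.right.right.left.right.left.right RtB17_11.Ce.right.right.right.right.left.right.left RtB17_11.CTp.right.right RtB17_11.CEr.right.right 0x96e6b16dd51ba86473cf2457a6d9ce6dfb27e6121e8087e550d10e0966dd4f64e5c73cd19e0a7c8e630d7d6d2d087cd418db8273ccd880b27e614c81017e540d47f166a73c12d4fe0df9e620d76dbacdb6dd5082d3073cd4c7ac6d9468e5bf7e61e82849d8d550d6fa44e6dd49738a273c131669a7d91284364b8e640d7469260573c7478c4a7e61793fde7e530d40790da73c203fda6d91f2ea6138e630d764 = true := by decide +kernel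

theorem cB17_11_3_190 : chunkOkM (LB17_11.ctx true true 290 511 256 15 16 3297 10835 35 77) muQ true true 64 RtB17_11.Cx.right.right.right RtB17_11.CX RtB17_11.Ctp.right.right.right.left.right.left RtB17_11.Ce.right.right.right.right.left.right.right RtB17_11.CTp.right RtB17_11.CEr.right 0x596912a4f907cd491824273c5beb1f6d9234219dc8e640d25213d17dd95c456b73c29954c66b14797497f640d5195734928cdecd27663c2d76d4b76b4d2df697f640d646975934597593 = true := by decide +kernel

theorem cB17_11_3_191 : chunkOkM (LB17_11.ctx true true 93 1 1 1 1 1 1 1 1) muQ true true 64 RtB17_11.Cx.right.right RtB17_11.CX RtB17_11.Ctp.right.right.right.left.right.right RtB17_11.Ce.right.right.right.right.left.right RtB17_11.CTp.right.left.left RtB17_11.CEr.right 0x42 = true := by decide +kernel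

theorem cB17_11_3_192 : chunkOkM (LB17_11.ctx true true 93 1 1 1 1 1 1 1 1) muQ true true 64 RtB17_11.Cx.right.right RtB17_11.CX RtB17_11.Ctp.right.right.right.left.right.right RtB17_11.Ce.right.right.right.right.left.right RtB17_11.CTp.right.left.right.left RtB17_11.CEr.right 0x4a = true := by decide +kernel

theorem cB17_11_3_193 : chunkOkM (LB17_11.ctx true true 93 1 1 1 1 1 1 1 1) muQ true true 64 RtB17_11.Cx.right.right RtB17_11.CX RtB17_11.Ctp.right.right.right.left.right.right RtB17_11.Ce.right.right.right.right.left.right RtB17_11.CTp.right.left.right.right.left RtB17_11.CEr.right 0x4a = true := by decide +kernel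

theorem cB17_11_3_194 : chunkOkM (LB17_11.ctx true true 301 127 64 57 64 1673 5401 256 539) muQ true true 64 RtB17_11.Cx.right.right RtB17_11.CX.left.left RtB17_11.Ctp.right.right.right.left.right.right RtB17_11.Ce.right.right.right.right.left.right.left RtB17_11.CTp.right.left.right.right.right RtB17_11.CEr.right 0x525a5a18b0036f00b31063c6ed621497173ce2bd8677e630d39c355e7ed2470e51683c16e829248e630d431455676ed4c5c5d073c808bac66bf1be7857e625a740828d250d7666fa7875f00b5d692d07dd7decd1b73c7b624b66b11daa8758e640dc435eb6f06b4345ac3c87dd65aa9ad73c8a848766b10c912478e6288758f88d250d76a61261266 = true := by decide +kernel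

theorem cB17_11_3_195 : chunkOkM (LB17_11.ctx true true 307 255 128 57 64 1673 5445 256 539) muQ true true 64 RtB17_11.Cx.right.right RtB17_11.CX.left.left RtB17_11.Ctp.right.right.right.left.right.right RtB17_11.Ce.right.right.right.right.left.right.right RtB17_11.CTp.right.left.right.right.right RtB17_11.CEr.right 0x525a5a35286617ed1eecc68483c2a9b4bc7e633308dd7e240d124139c7eddb61ee373c588f356b1381909d8e640d403655ed50b721e73cb798d56b185d011c8e640d4c80b46ed5773b7473c96d07466b1137bfbd8e618e1ac57e250d74366633c8a26f02b46b1d8f73c5bc29666b152960dd8e63a925d6e240dfdcd746f06bf8e4826f06b7436a61261266217 = true := by decide +kernel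

theorem cB17_11_3_196 : chunkOkM (LB17_11.ctx true true 93 1 1 1 1 1 1 1 1) muQ true true 64 RtB17_11.Cx.right.right RtB17_11.CX.left.right RtB17_11.Ctp.right.right.right.left.right.right RtB17_11.Ce.right.right.right.right.left.right RtB17_11.CTp.right.left.right.right.right RtB17_11.CEr.right 0x4a = true := by decide +kernel

theorem cB17_11_3_197 : chunkOkM (LB17_11.ctx true true 93 1 1 1 1 1 1 1 1) muQ true true 64 RtB17_11.Cx.right.right RtB17_11.CX.right RtB17_11.Ctp.right.right.right.left.right.right RtB17_11.Ce.right.right.right.right.left.right RtB17_11.CTp.right.left.right.right.right RtB17_11.CEr.right 0x4a = true := by decide +kernel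

theorem cB17_11_3_198 : chunkOkM (LB17_11.ctx true true 93 1 1 1 1 1 1 1 1) muQ true true 64 RtB17_11.Cx.right.right RtB17_11.CX RtB17_11.Ctp.right.right.right.left.right.right RtB17_11.Ce.right.right.right.right.left.right RtB17_11.CTp.right.right RtB17_11.CEr.right.left 0x6a = true := by decide +kernel

theorem cB17_11_3_199 : chunkOkM (LB17_11.ctx true true 264 125 64 15 16 833 2695 35 77) muQ true true 64 RtB17_11.Cx.right.right.left RtB17_11.CX RtB17_11.Ctp.right.right.right.left.right.right RtB17_11.Ce.right.right.right.right.left.right.left RtB17_11.CTp.right.right RtB17_11.CEr.right.right 0xc61f396dd524569973c29d55b6d962ccd36d7aefab197e6318b6207e260d = true := by decide +kernel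

end Vale.Agent.helper4.Q4
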