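import Vale.Agent.helper4.Q4TreeM
import Vale.Agent.helper4.Q4G.PB17_11

/-!
Checks for pairs of intervals of second moments.
-/

set_option maxRecDepth 100000
set_option linter.unusedVariables false

namespace Vale.Agent.helper4.Q4

theorem cB17_11_3_36 : chunkOkM (LB17_11.ctx true true 277 115 64 15 16 1561 4829 75 165) muQ true true 64 RtB17_11.Cx.left.left RtB17_11.CX RtB17_11.Ctp.right.right.left.right.right.right RtB17_11.Ce.right.right.left.right.right.left.right RtB17_11.CTp.right.right RtB17_11.CEr.right.right 0x1b403f97dd22983f173c23c902e7d96a58f1f7e640d2c6f6d17dd5d4ff4b73c773e1057e630d515ca34ed8cd39628ce73c4c57bc6d98649da87e640d613a099a7dd13d695a73c24c3aa77d97d7f1c07e6569df76e250d2b08c157dd66d926a73c3bf75b6d982ea4047e64e0e7d6e250d52a1081938cd3b0e21773c9f9dee47e63970826e240d2d9ed1278cd3ab925573c822cb7d7e630d42034efb78cd38da11c73ca916dbd7e630d367 = true := by decide +kernel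

theorem cB17_11_3_37 : chunkOkM (LB17_11.ctx true true 249 59 32 15 16 385 1199 35 77) muQ true true 64 RtB17_11.Cx.left.right RtB17_11.CX RtB17_11.Ctp.right.right.left.right.right RtB17_11.Ce.right.right.left.right.right.left RtB17_11.CTp.right.right RtB17_11.CEr.right.right 0x21847647dd5671c4c73c5ce1616d73689278b8d61ca09b158d550d = true := by decide +kernel

theorem cB17_11_3_38 : chunkOkM (LB17_11.ctx true true 292 115 64 57 64 777 2453 256 539) muQ true true 64 RtB17_11.Cx.left.left RtB17_11.CX RtB17_11.Ctp.right.right.left.right.right RtB17_11.Ce.right.right.left.right.right.right RtB17_11.CTp.right.left RtB17_11.CEr.right 0x4a4a525a5a46f8fd64cb6a896808d620d5a985d673ca1aa0217e633e0edd7d530d2b393747ed1ec424974c9ada0d0a8d630d742cf8b66f05b36665f31d66ed5acda964cd3f3dd2e8d630d7fe1876f06b670ccd6f06b742e4f6a6f05b36a61261266884a54a5425 = true := by decide +kernel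

theorem cB17_11_3_39 : chunkOkM (LB17_11.ctx true true 289 455 256 15 16 1561 4895 75 165) muQ true true 64 RtB17_11.Cx.left.left RtB17_11.CX RtB17_11.Ctp.right.right.left.right.right RtB17_11.Ce.right.right.left.right.right.right RtB17_11.CTp.right.right RtB17_11.CEr.right 0x6921c12f928cd56b866b73c7af95d6d71209ab628e640d4697693217d9ca8f6dd26c2d7873c24189a67d99c083c67e640d288f59a7dd637210c73c9c12e56b886a3e37e6fb91c56d550d51979f9998cd393601b73ca7fa7cf7e630d181046208cd37b900c73c2084386d98dca4977e664c40107d550d366923e681738cd602e10673c8ca9176d720a9eb2f8e640d697421769374240372a7dd4fa2af273c6a4ef96d720dba317d629e2e5ba8d550d36a6 = true := by decide +kernel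

theorem cB17_11_3_40 : chunkOkM (LB17_11.ctx true true 283 59 32 57 64 777 1221 256 517) muQ true true 64 RtB17_11.Cx.left.right RtB17_11.CX RtB17_11.Ctp.right.right.left.right.right RtB17_11.Ce.right.right.left.right.right.right RtB17_11.CTp.right RtB17_11.CEr.right.left 0x6a4a4a3989dc64c14af757b1f9bb71e8d6185c9fe18d540d29cd176f05b3886a61264a51264a54255 = true := by decide +kernel

theorem cB17_11_3_41 : chunkOkM (LB17_11.ctx true true 283 59 32 57 64 777 1221 256 539) muQ true true 64 RtB17_11.Cx.left.right RtB17_11.CX RtB17_11.Ctp.right.right.left.right.right RtB17_11.Ce.right.right.left.right.right.right RtB17_11.CTp.right.left RtB17_11.CEr.right.right 0x5a4a5a4a5a390fe56ed562df764c357577838d613f2418c8d540d2ab34c6f05b368684a54a56425 = true := by decide +kernel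

theorem cB17_11_3_42 : chunkOkM (LB17_11.ctx true true 253 59 32 15 16 763 1221 35 77) muQ true true 64 RtB17_11.Cx.left.right RtB17_11.CX RtB17_11.Ctp.right.right.left.right.right.left RtB17_11.Ce.right.right.left.right.right.right RtB17_11.CTp.right.right RtB17_11.CEr.right.right 0x2291c0b7dd52a6da873c7433776d71bc2a747e6243d48788d550d = true := by decide +kernel

theorem cB17_11_3_43 : chunkOkM (LB17_11.ctx true true 274 119 64 15 16 1561 2453 75 165) muQ true true 64 RtB17_11.Cx.left.right RtB17_11.CX RtB17_11.Ctp.right.right.left.right.right.right RtB17_11.Ce.right.right.left.right.right.right RtB17_11.CTp.right.right RtB17_11.CEr.right.right 0x1973a677dd60f4ce573c7510026d7513f5c97e62119ecab8d550dcd93e66dd1b0b72973c2d552567d975607947e640d3924a087dd670203c73c16feaac7d957cd4d97e6dad28087d550d522d0d567dd69fd5cc73cb695f36d757dec827e6146f1f37e550d3da0a4e07cd38c701873c81ed5897e69c50ed17d540d1dd26cfc8cd379baf073c3892f987e61a43a4be8d540d3671a977437dd54bca3973c1f2ad927d93366a9ba8d613f988058d550d118cccb7dd43254d173c4ca5625e8d6162f53a08d540d64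 = true := by decide +kernel

theorem cB17_11_3_44 : chunkOkM (LB17_11.ctx true true 257 63 32 15 16 749 2409 35 77) muQ true true 64 RtB17_11.Cx.right RtB17_11.CX RtB17_11.Ctp.right.right.left.right.left RtB17_11.Ce.right.right.left.right.right.left RtB17_11.CTp.right RtB17_11.CEr.right 0x329c1387dd88ab63273c19ce9b9fd9d65ea9f32e8e440d17b4f1f7dd363b89b73c60e2806d920500f808d6381646668d550d2fec93e7dd553576973c5e3d3f376b3bb2977d8d648d058e38d550d53eae48508cd6928f6776b2e050bc7d831ad42ec8d63d24a827e550d6312602a7dd6758d6373c7e9d9066b36abeda7e65aa909c7e516dbb56e460d223083038cd3c458aa76b21cabc57d81c0692c7e64c9a6be7e550d63502d6c7dd755c5bb73c8188ac66b10aff117e63fc42d37e550d4dc837d88cd5ba193776b27343f57d8291ddb6e63c3d8897e550d6437 = true := by decide +kernel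

theorem cB17_11_3_45 : chunkOkM (LB17_11.ctx true true 264 123 64 15 16 1477 2453 16 77) muQ true true 64 RtB17_11.Cx.right RtB17_11.CX RtB17_11.Ctp.right.right.left.right.left.left RtB17_11.Ce.right.right.left.right.right.right RtB17_11.CTp.right RtB17_11.CEr.right 0x491c6346ae8cd35a46ca73c1fe262376b1e5312d9d9e55103abe459e450d2c35e9b7dd5b7863373c29fe1df7e65416bf27e540d1a958c338cd2e215b276b191dab478c83e882d27e65e4c7947e550d62f3443cb8cd598404f73c28317a9c8e55feac79b8e440d345977 = true := by decide +kernel

end Vale.Agent.helper4.Q4
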