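import Vale.Agent.helper4.Q4TreeM
import Vale.Agent.helper4.Q4G.PB17_11

/-!
Checks for pairs of intervals of second moments.
-/

set_option maxRecDepth 100000
set_option linter.unusedVariables false

namespace Vale.Agent.helper4.Q4

theorem cB17_11_3_46 : chunkOkM (LB17_11.ctx true true 257 63 32 15 16 749 2453 35 77) muQ true true 64 RtB17_11.Cx.right RtB17_11.CX RtB17_11.Ctp.right.right.left.right.left.right RtB17_11.Ce.right.right.left.right.right.right RtB17_11.CTp.right RtB17_11.CEr.right 0x2ab20db7dd42573b873c1af995c7e63d81ec77e540d236194ca8cd4022e2e76b1db10a17d832dd0f57e64db40f67e51813f327e460d6694114bfcb7dd24a00967d92514fb07e6446b944c8d540d5a3c6267dd831353f73c1952cdf76be79e25e63808f5a7e550d5374f334e8cd52c28ac76b20ba99d7d81bec60e7e643db62e7e550d6132c2d57dd3020b4473c14937f77d919e934f7e631f1fe77e550d3652b587dd7f44e1f73c2eeac8676bad41f16e6391cd467e550d539cc07348cd6af664176b2c9a09f7d812d44837e63b41e2f7e550d647 = true := by decide +kernel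

theorem cB17_11_3_47 : chunkOkM (LB17_11.ctx true true 248 31 16 15 16 763 1221 35 77) muQ true true 64 RtB17_11.Cx.right RtB17_11.CX RtB17_11.Ctp.right.right.left.right.right RtB17_11.Ce.right.right.left.right.right RtB17_11.CTp.right RtB17_11.CEr.right 0x69d2ddc56dd398e3f173c2f38656a8d63554729b8d540d2e82c907dd9da4d2173c1f9c8ba76b3e3622738d6319f85408d550d54bc3c117dd76284f876b2d012617d811e082fa8d62d63afe7e550d66943 = true := by decide +kernel

theorem cB17_11_3_48 : chunkOkM (LB17_11.ctx true true 93 1 1 1 1 1 1 1 1) muQ true true 64 RtB17_11.Cx RtB17_11.CX RtB17_11.Ctp.right.right.left.left RtB17_11.Ce.right.right.right RtB17_11.CTp.right RtB17_11.CEr.right 0x59 = true := by decide +kernel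

theorem cB17_11_3_49 : chunkOkM (LB17_11.ctx true true 93 1 1 1 1 1 1 1 1) muQ true true 64 RtB17_11.Cx.left RtB17_11.CX RtB17_11.Ctp.right.right.left.right.left RtB17_11.Ce.right.right.right.left.left RtB17_11.CTp.right RtB17_11.CEr.right 0x59 = true := by decide +kernel

theorem cB17_11_3_50 : chunkOkM (LB17_11.ctx true true 239 31 16 15 16 735 1243 16 33) muQ true true 64 RtB17_11.Cx.right RtB17_11.CX RtB17_11.Ctp.right.right.left.right.left.left RtB17_11.Ce.right.right.right.left.left.left RtB17_11.CTp.right RtB17_11.CEr.right 0x307c5ce7dd803d45873cff076466b2a4554ac8e56b3a5a398e450d = true := by decide +kernel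

theorem cB17_11_3_51 : chunkOkM (LB17_11.ctx true true 262 123 64 15 16 1505 2475 16 77) muQ true true 64 RtB17_11.Cx.right.left RtB17_11.CX RtB17_11.Ctp.right.right.left.right.left.right RtB17_11.Ce.right.right.right.left.left.left RtB17_11.CTp.right RtB17_11.CEr.right 0x592a5b0e57dd61c3da373cd1a0dc66b30700477e64b11ea97e550d1f1b9c558cd3c074ab76b1afb84db8c823c00d47e646844497e550d65935974 = true := by decide +kernel

theorem cB17_11_3_52 : chunkOkM (LB17_11.ctx true true 271 249 128 15 16 1505 4939 16 77) muQ true true 64 RtB17_11.Cx.right.right RtB17_11.CX RtB17_11.Ctp.right.right.left.right.left.right RtB17_11.Ce.right.right.right.left.left.left RtB17_11.CTp.right RtB17_11.CEr.right 0x1baed3298cd3bb1b1f73c33211637e651657f07e524c39257e450d23adf237dd497546b73c43fbdea7e530dc28f1127cd2ca590b76b13b118a7d83486d307e65b0032d7e550d675befbfb76b2638014b8e56293d0938e430d32865e7c7dd586860573c20870266b2b87e6d7e64c0f8e67e550d3ef311d88cd28e151d76b234dba87d866b64427e65c279d57e550d64949592353ee07dd49240f573c48a6b087e65586f847e540d23af6e488cd35d1fd773c3fe92466b126e5b838e6acf08ea7e561f0e157e460d647734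 = true := by decide +kernel

theorem cB17_11_3_53 : chunkOkM (LB17_11.ctx true true 237 31 16 15 16 371 1265 16 33) muQ true true 64 RtB17_11.Cx.right RtB17_11.CX RtB17_11.Ctp.right.right.left.right.left RtB17_11.Ce.right.right.right.left.left.right RtB17_11.CTp.right RtB17_11.CEr.right 0x11f98287dd26b594e73c2d46d1376b1b1d70578e613a85a2a99e535f229b979e460d = true := by decide +kernel

theorem cB17_11_3_54 : chunkOkM (LB17_11.ctx true true 93 1 1 1 1 1 1 1 1) muQ true true 64 RtB17_11.Cx.left.left RtB17_11.CX RtB17_11.Ctp.right.right.left.right.right RtB17_11.Ce.right.right.right.left.left RtB17_11.CTp.right RtB17_11.CEr.right 0x59 = true := by decide +kernel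

theorem cB17_11_3_55 : chunkOkM (LB17_11.ctx true true 280 239 128 15 16 3073 4939 35 77) muQ true true 64 RtB17_11.Cx.left.right RtB17_11.CX RtB17_11.Ctp.right.right.left.right.right.left RtB17_11.Ce.right.right.right.left.left.left RtB17_11.CTp.right RtB17_11.CEr.right 0x59591cd78a3e8cd3ecd9a273c16ba59f7d9ddb96497e636c86597e550d4334ec27ddb39477d73c177b82676b2cdca0f7e540d5587074288cd66e317376b22019b468c817f95787e62db2af57e550d659345975935974 = true := by decide +kernel

theorem cB17_11_3_56 : chunkOkM (LB17_11.ctx true true 281 119 64 15 16 1561 4961 128 165) muQ true true 64 RtB17_11.Cx.left.right RtB17_11.CX RtB17_11.Ctp.right.right.left.right.right.right RtB17_11.Ce.right.right.right.left.left.left RtB17_11.CTp.right RtB17_11.CEr.right 0x1d5182e7dd510dc0a73c7ad4686d738ac8e97e6204e061c8d550d6971e74e3058cd4fa83e773c67dabf6d743809967e619a346318d550d1f70a0778cd4fb044873c7013ae6d718e4fc718e640d1d354517dd4e9dea373c1c02d777d9bc90c937e647ab7e6e550d1f90b7ea8cd2f1840973cb2f17597e683c01437d540d6419771cd7dd60d2dd973ca627506d72ef684b68d540d3745a364bd6e7dd8d4952b73cb618956b1c365f608d61cde12858d550d4a5642556a30c28517dd5a8adbe73c139648076b1f3b50888d61effc8678d550d42556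 = true := by decide +kernel

theorem cB17_11_3_57 : chunkOkM (LB17_11.ctx true true 319 1919 1024 15 16 25081 40139 35 77) muQ true true 64 RtB17_11.Cx.left.right RtB17_11.CX RtB17_11.Ctp.right.right.left.right.right RtB17_11.Ce.right.right.right.left.left.right RtB17_11.CTp.right RtB17_11.CEr.right 0x59595959591963a3058cd4f7037373cac8135d928bf80a7c7513d7087e550d28d7bee7ddbc5115773c1761c0e76b30d56a71c04c5659345935974597593459759345975935974593 = true := by decide +kernel

theorem cB17_11_3_58 : chunkOkM (LB17_11.ctx true true 257 61 32 15 16 763 2497 35 77) muQ true true 64 RtB17_11.Cx.right.left RtB17_11.CX RtB17_11.Ctp.right.right.left.right.right.left RtB17_11.Ce.right.right.right.left.left.left RtB17_11.CTp.right RtB17_11.CEr.right 0xc592cf6dd1a28bdd73c15571827d917e8a827e634db3eb98d550d3e9462e7dd9c9be4e73c126d4d576b16e4e7a7e635f364b7e550d542d4c7ae8cd4a692bc76b14ad8f47d88838d46e6387ba0fa8d550d626aca867dd261a8b173c26490e87d9142186b7e6299b5ec7e550d3d446cd7dda8fc72573c194d08976b1170bab7e631343847e550d5547180488cd5e8216c76b1c809747d811ef6d17e633414237e550d64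 = true := by decide +kernel

theorem cB17_11_3_59 : chunkOkM (LB17_11.ctx true true 254 61 32 15 16 777 1243 35 77) muQ true true 64 RtB17_11.Cx.right.left RtB17_11.CX RtB17_11.Ctp.right.right.left.right.right.right RtB17_11.Ce.right.right.right.left.left.left RtB17_11.CTp.right RtB17_11.CEr.right 0x21deebc7dd382ae2973c194feab7d9274f66008d623751ec18d550d40932e67ddac286a873c263ef7776b210d73c7e6264eb137e550d56ae526876dd32f535973c47cdd7f76b23aa7b1e8d627d6ce5e8d550d56 = true := by decide +kernel

theorem cB17_11_3_60 : chunkOkM (LB17_11.ctx true true 249 63 32 15 16 763 1243 16 77) muQ true true 64 RtB17_11.Cx.right.right RtB17_11.CX RtB17_11.Ctp.right.right.left.right.right RtB17_11.Ce.right.right.right.left.left.left RtB17_11.CTp.right RtB17_11.CEr.right 0x69269a13f7dd640d9b973c670b4366b24ccc70b8d641fc2c97e550d344a8fa7dd4e9390d76b25438707d83f75fee7e64bae9677e550d63 = true := by decide +kernel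

theorem cB17_11_3_61 : chunkOkM (LB17_11.ctx true true 271 247 128 15 16 1533 5027 16 77) muQ true true 64 RtB17_11.Cx.right.left RtB17_11.CX RtB17_11.Ctp.right.right.left.right.right.left RtB17_11.Ce.right.right.right.left.left.right RtB17_11.CTp.right RtB17_11.CEr.right 0x595929b113f7dd73e3ee273c2fea7e6f63fa99267e540d221914178cd42b6d6c76b178bf5028c828721cd7e63ddf30d7e550d645975935974 = true := by decide +kernel

theorem cB17_11_3_62 : chunkOkM (LB17_11.ctx true true 257 61 32 15 16 777 2519 35 77) muQ true true 64 RtB17_11.Cx.right.left RtB17_11.CX RtB17_11.Ctp.right.right.left.right.right.right RtB17_11.Ce.right.right.right.left.left.right.left RtB17_11.CTp.right RtB17_11.CEr.right 0x1c1742c7dd3322eb273c15927dc7d9a0e0956e62a7e44e28d550d311d4087dd92c063473c3066e6576b3a03076e62da90c17e550d56a1192eba7dd37eb97a73c3b8613976b1bcdbe17e6294d50438d550d56 = true := by decide +kernel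

end Vale.Agent.helper4.Q4
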