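import Vale.Agent.helper4.Q4TreeM
import Vale.Agent.helper4.Q4G.PB17_11

/-!
Checks for pairs of intervals of second moments.
-/

set_option maxRecDepth 100000
set_option linter.unusedVariables false

namespace Vale.Agent.helper4.Q4

theorem cB17_11_3_63 : chunkOkM (LB17_11.ctx true true 306 975 512 15 16 12537 20251 35 77) muQ true true 64 RtB17_11.Cx.right.left RtB17_11.CX RtB17_11.Ctp.right.right.left.right.right.right RtB17_11.Ce.right.right.right.left.left.right.right RtB17_11.CTp.right RtB17_11.CEr.right 0xcfc96d6dd519080173c3b40c657e638b05f368d540d33d605a7dd9bac96873c147c6a176b14c03517e6304bd647e550d545a01fdb8cd52a9bf876b12c8bbe7d82bc13bc7e63463ef468d550d65959591379fab48cd3b3bf8773c18134b67d92c87c6e7e540d38ed7bd7dd9490b8073c1eaedca76b10b281d7e540d5468f3a6f8cd52789f076b14e8aa688c83164bb37e540d65934597593459759345975937 = true := by decide +kernel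

theorem cB17_11_3_64 : chunkOkM (LB17_11.ctx true true 262 127 64 15 16 1533 2519 16 77) muQ true true 64 RtB17_11.Cx.right.right RtB17_11.CX RtB17_11.Ctp.right.right.left.right.right.left RtB17_11.Ce.right.right.right.left.left.right.left RtB17_11.CTp.right RtB17_11.CEr.right 0x23328e27dd4ac5a2c73c736c9847e66b668ee7e51f02466e450d408474368cd4eaa7c076b306c63c7d8cbdaba07e68a9927a7e550d6279efe07dd6a81c9173c37f3e807e648a2f1b7e540d22cdd1ba8cd3807b8576b10fec587d8a641c16e63a68b2a7e550d626b67a17dd4df5f3a73c9b3ead66b2064fee7e643c48c37e550d12544efb8cd24199d976baca15f6d83a5a1467e655766f67e550d637 = true := by decide +kernel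

theorem cB17_11_3_65 : chunkOkM (LB17_11.ctx true true 273 251 128 15 16 1533 2541 35 77) muQ true true 64 RtB17_11.Cx.right.right RtB17_11.CX RtB17_11.Ctp.right.right.left.right.right.left RtB17_11.Ce.right.right.right.left.left.right.right RtB17_11.CTp.right RtB17_11.CEr.right 0x23333737dd42a2da773c5dab3066b13d28e17e640c8f0f7e550dcb3345b7cd24dceeb76b9f884d6d81e0fb287e649e0a057e550d626e52567dd537818173c2f465166b6c23ab6f65b056b97e550d57e6f29f8cd55f07f676b2da036f08c82d180387e649fff757e550d659771504341b8cd18d2f5673cb0c86637e69412f417e555d8496e450da203466dd279ca2173c6f61f6c76b1e499dc7e64803d687e5770c5f6e460d55973 = true := by decide +kernel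

theorem cB17_11_3_66 : chunkOkM (LB17_11.ctx true true 254 63 32 15 16 777 1265 35 77) muQ true true 64 RtB17_11.Cx.right.right RtB17_11.CX RtB17_11.Ctp.right.right.left.right.right.right RtB17_11.Ce.right.right.right.left.left.right RtB17_11.CTp.right RtB17_11.CEr.right 0x8586e36dd2baccee73c25c7aef7d91fc15c778d6321579f7e550d25fe7747dd89303d573c19f297c76b1b358f4b8d635ad4bb68d550d5289e8be48cd55f6bc076b1ec3afc7d8f5a5d86e62f06af77e550d6 = true := by decide +kernel

theorem cB17_11_3_67 : chunkOkM (LB17_11.ctx true true 93 1 1 1 1 1 1 1 1) muQ true true 64 RtB17_11.Cx RtB17_11.CX RtB17_11.Ctp.right.right.left.right.left RtB17_11.Ce.right.right.right.left.right RtB17_11.CTp.right RtB17_11.CEr.right 0x59 = true := by decide +kernel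

theorem cB17_11_3_68 : chunkOkM (LB17_11.ctx true true 93 1 1 1 1 1 1 1 1) muQ true true 64 RtB17_11.Cx.left RtB17_11.CX RtB17_11.Ctp.right.right.left.right.right RtB17_11.Ce.right.right.right.left.right RtB17_11.CTp.right RtB17_11.CEr.right 0x59 = true := by decide +kernel

theorem cB17_11_3_69 : chunkOkM (LB17_11.ctx true true 263 127 64 15 16 1533 2563 35 33) muQ true true 64 RtB17_11.Cx.right RtB17_11.CX RtB17_11.Ctp.right.right.left.right.right.left RtB17_11.Ce.right.right.right.left.right.left RtB17_11.CTp.right RtB17_11.CEr.right 0x594015186f05b1370ff473c834b9cf76ba2f1b26e6409abba7e540d55935974597 = true := by decide +kernel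

theorem cB17_11_3_70 : chunkOkM (LB17_11.ctx true true 293 495 256 15 16 6265 10219 35 77) muQ true true 64 RtB17_11.Cx.right.left RtB17_11.CX RtB17_11.Ctp.right.right.left.right.right.right RtB17_11.Ce.right.right.right.left.right.left RtB17_11.CTp.right RtB17_11.CEr.right 0x59595935e073188cd8b49bc873c2c33d6d7e530d8de04257ddd57bf2a73c750b5366b1c2b4e97e540d531d1c5068cd407a4db76becdb1517c832821fa7e540d6593459759345975935974 = true := by decide +kernel

theorem cB17_11_3_71 : chunkOkM (LB17_11.ctx true true 280 251 128 15 16 3101 5115 35 77) muQ true true 64 RtB17_11.Cx.right.right RtB17_11.CX RtB17_11.Ctp.right.right.left.right.right.right RtB17_11.Ce.right.right.right.left.right.left.left RtB17_11.CTp.right RtB17_11.CEr.right 0x1fb02637dd5bb3ff773c2b4beb66b44e3c067e647a49ab7e550d17916f5d8cd329633d76b8219b36d827cc8927e6427f76d7e550d67bd47e6dd360f51773c20932c07d99bae5e6e630845f77e550d317c04c7dd65f2d8773c15a53c576b1363b817e6384e2f27e550d52842e98f8cd25e993b76b30f22937e63ae4b9e7e540d65922d43747dd5881f0973c3bc79447e530d150296b78cd303adec76bd71723d7c811dd1e6f63c2305d7e550d6593459737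 = true := by decide +kernel

theorem cB17_11_3_72 : chunkOkM (LB17_11.ctx true true 289 503 256 15 16 3129 10307 35 77) muQ true true 64 RtB17_11.Cx.right.right RtB17_11.CX RtB17_11.Ctp.right.right.left.right.right.right RtB17_11.Ce.right.right.right.left.right.left.right RtB17_11.CTp.right RtB17_11.CEr.right 0x1fd453f7dd5a3a38a73c3c557447e646b87047e540da33a2477cd55f2e1b76b2a5b19e7d82095ae47e6419d2157e550d6593d0bc76f05b18037b973c6ff338976b26ebd497e6467e7427e540d55974359592242819e8cd5b22da173cf19365f636558937e540d1d50619f8cd2eb2cf276b9395ca37c8351af817e540d6459759345975937 = true := by decide +kernel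

theorem cB17_11_3_73 : chunkOkM (LB17_11.ctx true true 276 255 128 15 16 3129 5203 16 77) muQ true true 64 RtB17_11.Cx.right RtB17_11.CX RtB17_11.Ctp.right.right.left.right.right RtB17_11.Ce.right.right.right.left.right.right RtB17_11.CTp.right RtB17_11.CEr.right 0x59591a3aab648cd51f292173c80d8d36f65c2b1c57e540d355f5b6f05b659345975935974597593 = true := by decide +kernel

theorem cB17_11_3_74 : chunkOkM (LB17_11.ctx true true 93 1 1 1 1 1 1 1 1) muQ true true 64 RtB17_11.Cx RtB17_11.CX RtB17_11.Ctp.right.right.left.right RtB17_11.Ce.right.right.right.right RtB17_11.CTp.right RtB17_11.CEr.right 0x59 = true := by decide +kernel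

theorem cB17_11_3_75 : chunkOkM (LB17_11.ctx true true 93 1 1 1 1 1 1 1 1) muQ true true 64 RtB17_11.Cx RtB17_11.CX RtB17_11.Ctp.right.right.right.left RtB17_11.Ce.right.right.left.left RtB17_11.CTp.right RtB17_11.CEr.right 0x11 = true := by decide +kernel

theorem cB17_11_3_76 : chunkOkM (LB17_11.ctx true true 93 1 1 1 1 1 1 1 1) muQ true true 64 RtB17_11.Cx RtB17_11.CX RtB17_11.Ctp.right.right.right.left.left RtB17_11.Ce.right.right.left.right.left RtB17_11.CTp.right RtB17_11.CEr.right 0x11 = true := by decide +kernel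

theorem cB17_11_3_77 : chunkOkM (LB17_11.ctx true true 93 1 1 1 1 1 1 1 1) muQ true true 64 RtB17_11.Cx.left RtB17_11.CX RtB17_11.Ctp.right.right.right.left.left RtB17_11.Ce.right.right.left.right.right RtB17_11.CTp.right.left.left RtB17_11.CEr.right 0x42 = true := by decide +kernel

theorem cB17_11_3_78 : chunkOkM (LB17_11.ctx true true 93 1 1 1 1 1 1 1 1) muQ true true 64 RtB17_11.Cx.left RtB17_11.CX RtB17_11.Ctp.right.right.right.left.left RtB17_11.Ce.right.right.left.right.right RtB17_11.CTp.right.left.right.left RtB17_11.CEr.right 0x4a = true := by decide +kernel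

theorem cB17_11_3_79 : chunkOkM (LB17_11.ctx true true 93 1 1 1 1 1 1 1 1) muQ true true 64 RtB17_11.Cx.left RtB17_11.CX RtB17_11.Ctp.right.right.right.left.left RtB17_11.Ce.right.right.left.right.right RtB17_11.CTp.right.left.right.right.left RtB17_11.CEr.right 0x4a = true := by decide +kernel

theorem cB17_11_3_80 : chunkOkM (LB17_11.ctx true true 292 115 64 57 64 791 2453 256 517) muQ true true 64 RtB17_11.Cx.left RtB17_11.CX.left.left RtB17_11.Ctp.right.right.right.left.left RtB17_11.Ce.right.right.left.right.right RtB17_11.CTp.right.left.right.right.right RtB17_11.CEr.right.left 0x35344c6f06b0172df5777dd7fed25973c650c4b66b720aedf7e683938f6e250d509a956f06b419bc40238dde834a7173c17fddab76b317868298d6148324178d250d73722224a6ed607e2064c2248357b6404b8f7d620dba30f8d250d46a6126126 = true := by decide +kernel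

theorem cB17_11_3_81 : chunkOkM (LB17_11.ctx true true 292 115 64 57 64 791 2453 256 539) muQ true true 64 RtB17_11.Cx.left RtB17_11.CX.left.left RtB17_11.Ctp.right.right.right.left.left RtB17_11.Ce.right.right.left.right.right RtB17_11.CTp.right.left.right.right.right RtB17_11.CEr.right.right 0x525a5a7799b56f06b012452d16ed5b236ff73c54df8227e69b93e26e240da1ee366ed7ce7b1373c226f6866b5cc542838d61568a4068d250d429a1446ed6a4b0fe73c78607227d62eebf6478d240d737ee3f356ed59b74a64c1c9d2067b1b65bc9b8d61f5b4d128d250d4666 = true := by decide +kernel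

theorem cB17_11_3_82 : chunkOkM (LB17_11.ctx true true 93 1 1 1 1 1 1 1 1) muQ true true 64 RtB17_11.Cx.left RtB17_11.CX.left.right RtB17_11.Ctp.right.right.right.left.left RtB17_11.Ce.right.right.left.right.right RtB17_11.CTp.right.left.right.right.right RtB17_11.CEr.right 0x4a = true := by decide +kernel

theorem cB17_11_3_83 : chunkOkM (LB17_11.ctx true true 93 1 1 1 1 1 1 1 1) muQ true true 64 RtB17_11.Cx.left RtB17_11.CX.right RtB17_11.Ctp.right.right.right.left.left RtB17_11.Ce.right.right.left.right.right RtB17_11.CTp.right.left.right.right.right RtB17_11.CEr.right 0x4a = true := by decide +kernel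

theorem cB17_11_3_84 : chunkOkM (LB17_11.ctx true true 93 1 1 1 1 1 1 1 1) muQ true true 64 RtB17_11.Cx.left RtB17_11.CX RtB17_11.Ctp.right.right.right.left.left RtB17_11.Ce.right.right.left.right.right RtB17_11.CTp.right.right RtB17_11.CEr.right.left 0x6a = true := by decide +kernel

theorem cB17_11_3_85 : chunkOkM (LB17_11.ctx true true 257 57 32 15 16 791 1199 35 165) muQ true true 64 RtB17_11.Cx.left.left RtB17_11.CX RtB17_11.Ctp.right.right.right.left.left.left RtB17_11.Ce.right.right.left.right.right.left RtB17_11.CTp.right.right RtB17_11.CEr.right.right 0x3b7f60b7dd6d736fd73cb442236d73cabe0b7d61e0a66698d250d290221ee8cd392c0c773c376faeb7d61e7279c18d240d6 = true := by decide +kernel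

end Vale.Agent.helper4.Q4
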