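import Vale.Agent.helper4.Q4TreeM
import Vale.Agent.helper4.Q4G.PB17_11

/-!
Checks for pairs of intervals of second moments.
-/

set_option maxRecDepth 100000
set_option linter.unusedVariables false

namespace Vale.Agent.helper4.Q4

theorem cB17_11_3_86 : chunkOkM (LB17_11.ctx true true 280 227 128 15 16 1575 2431 75 165) muQ true true 64 RtB17_11.Cx.left.left.left RtB17_11.CX RtB17_11.Ctp.right.right.right.left.left.left RtB17_11.Ce.right.right.left.right.right.right RtB17_11.CTp.right.right RtB17_11.CEr.right.right 0x2101193afc57dd38117b973c1f499a87d98747f937e6dc55ce97d250d6a9207d7dd804735f73c9af51a6e62988ea77e240d5254fba178cd3aa2bdd73c763b34c7e6e6259d6e240d632174 = true := by decide +kernel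

theorem cB17_11_3_87 : chunkOkM (LB17_11.ctx true true 272 115 64 15 16 1589 4917 35 143) muQ true true 64 RtB17_11.Cx.left.left.right RtB17_11.CX RtB17_11.Ctp.right.right.right.left.left.left RtB17_11.Ce.right.right.left.right.right.right RtB17_11.CTp.right.right RtB17_11.CEr.right.right.left 0x19a02f868cd3c5a4fc73c54758117e61aafff87e240d39f5933a8cd38af69d73cc714caf7e63e1a5b6e240d32c32888e8cd41e312273c32f119c7e619b9f627e240d20b1dc858cd3ee851773cac64d9e7e6804a4b6e240d341fbbd71f8cd39a1e7773c5fb15b4e8d67e82c3e7d240d4 = true := by decide +kernel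

theorem cB17_11_3_88 : chunkOkM (LB17_11.ctx true true 270 115 64 15 16 791 2453 75 165) muQ true true 64 RtB17_11.Cx.left.left.right RtB17_11.CX RtB17_11.Ctp.right.right.right.left.left.left RtB17_11.Ce.right.right.left.right.right.right RtB17_11.CTp.right.right RtB17_11.CEr.right.right.right 0x16d179e7dd19b186c73c2dd327e7d97838f4c7e6c4fdfc6e250d2ed55707dd73daae873c66986627e6b588ff6e240d511923fe7dd2a17d2c73c1dd798a7d95634dfcf8d6744dba37d250d43fe69318cd69b0d5673c5ff72ecf8d6621d7c97d240d54 = true := by decide +kernel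

theorem cB17_11_3_89 : chunkOkM (LB17_11.ctx true true 93 1 1 1 1 1 1 1 1) muQ true true 64 RtB17_11.Cx.left.left RtB17_11.CX RtB17_11.Ctp.right.right.right.left.left.right RtB17_11.Ce.right.right.left.right.right RtB17_11.CTp.right.right RtB17_11.CEr.right.right 0x01 = true := by decide +kernel

theorem cB17_11_3_90 : chunkOkM (LB17_11.ctx true true 257 59 32 15 16 791 1221 35 165) muQ true true 64 RtB17_11.Cx.left.right RtB17_11.CX RtB17_11.Ctp.right.right.right.left.left RtB17_11.Ce.right.right.left.right.right RtB17_11.CTp.right.right RtB17_11.CEr.right.right 0x112b108fe7dd67e9a8473c9ba1ad6d778c22be48d640d16ba7297dd3afc24173c847ec63a8d630d61143 = true := by decide +kernel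

theorem cB17_11_3_91 : chunkOkM (LB17_11.ctx true true 93 1 1 1 1 1 1 1 1) muQ true true 64 RtB17_11.Cx.right RtB17_11.CX RtB17_11.Ctp.right.right.right.left.left RtB17_11.Ce.right.right.left.right.right RtB17_11.CTp.right RtB17_11.CEr.right 0x11 = true := by decide +kernel

theorem cB17_11_3_92 : chunkOkM (LB17_11.ctx true true 93 1 1 1 1 1 1 1 1) muQ true true 64 RtB17_11.Cx RtB17_11.CX RtB17_11.Ctp.right.right.right.left.right RtB17_11.Ce.right.right.left.right RtB17_11.CTp.right RtB17_11.CEr.right 0x11 = true := by decide +kernel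

theorem cB17_11_3_93 : chunkOkM (LB17_11.ctx true true 93 1 1 1 1 1 1 1 1) muQ true true 64 RtB17_11.Cx.left RtB17_11.CX RtB17_11.Ctp.right.right.right.left.left RtB17_11.Ce.right.right.right.left.left RtB17_11.CTp.right.left.left RtB17_11.CEr.right 0x42 = true := by decide +kernel

theorem cB17_11_3_94 : chunkOkM (LB17_11.ctx true true 93 1 1 1 1 1 1 1 1) muQ true true 64 RtB17_11.Cx.left RtB17_11.CX RtB17_11.Ctp.right.right.right.left.left RtB17_11.Ce.right.right.right.left.left RtB17_11.CTp.right.left.right.left RtB17_11.CEr.right 0x4a = true := by decide +kernel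

theorem cB17_11_3_95 : chunkOkM (LB17_11.ctx true true 93 1 1 1 1 1 1 1 1) muQ true true 64 RtB17_11.Cx.left RtB17_11.CX RtB17_11.Ctp.right.right.right.left.left RtB17_11.Ce.right.right.right.left.left RtB17_11.CTp.right.left.right.right.left RtB17_11.CEr.right 0x4a = true := by decide +kernel

theorem cB17_11_3_96 : chunkOkM (LB17_11.ctx true true 289 231 128 57 64 791 4939 256 33) muQ true true 64 RtB17_11.Cx.left.left RtB17_11.CX.left.left RtB17_11.Ctp.right.right.right.left.left RtB17_11.Ce.right.right.right.left.left.left RtB17_11.CTp.right.left.right.right.right RtB17_11.CEr.right 0x212101144e6bd7dd583f88e73cb2c147b873a9b27e6bcbced6e250d342174217 = true := by decide +kernel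

theorem cB17_11_3_97 : chunkOkM (LB17_11.ctx true true 292 119 64 57 64 805 2497 256 517) muQ true true 64 RtB17_11.Cx.left.right RtB17_11.CX.left.left RtB17_11.Ctp.right.right.right.left.left RtB17_11.Ce.right.right.right.left.left.left RtB17_11.CTp.right.left.right.right.right RtB17_11.CEr.right.left 0x21c3806f02b3dc710b73c46e59207e6d9276567d530d3c08e757dd628fea873c9968f1038d65a3345e240d70de58d4d7ddc14f9ab73c3cc97a66b82c46a17e640d7436a6126126 = true := by decide +kernel

theorem cB17_11_3_98 : chunkOkM (LB17_11.ctx true true 293 119 64 57 64 805 2497 256 539) muQ true true 64 RtB17_11.Cx.left.right RtB17_11.CX.left.left RtB17_11.Ctp.right.right.right.left.left RtB17_11.Ce.right.right.right.left.left.left RtB17_11.CTp.right.left.right.right.right RtB17_11.CEr.right.right 0x525a5aead5336ed85dfe764c3c46f5a98d6e0814d07d240d27091c47ed17c32ae983c3d689057e6118423a28d540d1b8aa36ed4e0324973c8c6b0ef88d630d7ac2735f06baa9db5ed7811a5573c8066b9b7e630d743666 = true := by decide +kernel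

theorem cB17_11_3_99 : chunkOkM (LB17_11.ctx true true 93 1 1 1 1 1 1 1 1) muQ true true 64 RtB17_11.Cx.left.left RtB17_11.CX.left.left RtB17_11.Ctp.right.right.right.left.left RtB17_11.Ce.right.right.right.left.left.right RtB17_11.CTp.right.left.right.right.right RtB17_11.CEr.right 0x21 = true := by decide +kernel

theorem cB17_11_3_100 : chunkOkM (LB17_11.ctx true true 297 119 64 57 64 1617 2541 256 517) muQ true true 64 RtB17_11.Cx.left.right RtB17_11.CX.left.left RtB17_11.Ctp.right.right.right.left.left RtB17_11.Ce.right.right.right.left.left.right RtB17_11.CTp.right.left.right.right.right RtB17_11.CEr.right.left 0x26b69f6f02b218e4737dd5a95da773cadf9ff57e621be6b6e240d321773885b6f06b2dae15578dd1733cbd683c242babd76b85b697de8d610160c2a8d250d74305d546ed58f1a664ca214c3668d6258b26c7d540d5fc37927dd6bae7dc73c7e0e4367e6b0b28477d540d469736a6126126 = true := by decide +kernel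

theorem cB17_11_3_101 : chunkOkM (LB17_11.ctx true true 297 119 64 57 64 1617 2541 256 539) muQ true true 64 RtB17_11.Cx.left.right RtB17_11.CX.left.left RtB17_11.Ctp.right.right.right.left.left RtB17_11.Ce.right.right.right.left.left.right RtB17_11.CTp.right.left.right.right.right RtB17_11.CEr.right.right 0x525a5a45af5ff7ed2403f7c183c27b639b7e625df57c7e240d5cf54cf73caf7ccaa7e61af5456e230d345898e6ed6aba4dd73c49d6c56b71aa67cf8d6859038e7d250d43e7ac66ed643ab964c74441f148d634b841f78d240d7bf0af46ed6d479a64cf4ada2388d630d540a8d6ed6320de773c88a44be7e6a5c067c7d540d46973666 = true := by decide +kernel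

theorem cB17_11_3_102 : chunkOkM (LB17_11.ctx true true 93 1 1 1 1 1 1 1 1) muQ true true 64 RtB17_11.Cx.left RtB17_11.CX.left.right RtB17_11.Ctp.right.right.right.left.left RtB17_11.Ce.right.right.right.left.left RtB17_11.CTp.right.left.right.right.right RtB17_11.CEr.right 0x4a = true := by decide +kernel

theorem cB17_11_3_103 : chunkOkM (LB17_11.ctx true true 93 1 1 1 1 1 1 1 1) muQ true true 64 RtB17_11.Cx.left RtB17_11.CX.right RtB17_11.Ctp.right.right.right.left.left RtB17_11.Ce.right.right.right.left.left RtB17_11.CTp.right.left.right.right.right RtB17_11.CEr.right 0x4a = true := by decide +kernel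

theorem cB17_11_3_104 : chunkOkM (LB17_11.ctx true true 93 1 1 1 1 1 1 1 1) muQ true true 64 RtB17_11.Cx.left RtB17_11.CX RtB17_11.Ctp.right.right.right.left.left RtB17_11.Ce.right.right.right.left.left RtB17_11.CTp.right.right RtB17_11.CEr.right.left 0x6a = true := by decide +kernel

theorem cB17_11_3_105 : chunkOkM (LB17_11.ctx true true 279 231 128 15 16 791 4939 75 165) muQ true true 64 RtB17_11.Cx.left.left RtB17_11.CX RtB17_11.Ctp.right.right.right.left.left RtB17_11.Ce.right.right.right.left.left.left RtB17_11.CTp.right.right RtB17_11.CEr.right.right 0x2121011484b667ddf5453663c2bd44a17d9863dcfa7e640d33a7be27dd6b3795573c6f09f087e6309aaf6e240d51b576ffe8cd3abc88073c861f3247e6863b7f6e240d6342174217 = true := by decide +kernel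

theorem cB17_11_3_106 : chunkOkM (LB17_11.ctx true true 278 119 64 15 16 1589 4961 75 165) muQ true true 64 RtB17_11.Cx.left.right RtB17_11.CX RtB17_11.Ctp.right.right.right.left.left.left RtB17_11.Ce.right.right.right.left.left.left.left RtB17_11.CTp.right.right RtB17_11.CEr.right.right 0x23548e77dd51e186473c9efbe86d71111ce6c8e640d1ae20107dd1feac0373c22bf08e7d9864e5ca7e640d5fd794f7dd4d1db0b73c6c0f96f7e630d519dc748b8cd3be036c73c8ebfa937e646f625e240d361a26378cd2b1e1c873ccf44fe37e630d1dc7b5d68cd31fb84c73ca91fc097e630d4367 = true := by decide +kernel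

theorem cB17_11_3_107 : chunkOkM (LB17_11.ctx true true 284 235 128 15 16 1589 5005 75 165) muQ true true 64 RtB17_11.Cx.left.right.left RtB17_11.CX RtB17_11.Ctp.right.right.right.left.left.left RtB17_11.Ce.right.right.right.left.left.left.right RtB17_11.CTp.right.right RtB17_11.CEr.right.right 0xe5335b6dd212017173c2a4a5677d96860c1c7e670f5426e250d1ca0cec7dd611ff3673c75f5fc6d9b0b4ee07e69520fa6e250d51409746a8cd3c5573c73ccb39a957e6347c1c6e240d160669968cd39be80e73c9cc85277e64f00796e240d46691d6e93a38cd58913ad73c9356116d71560e2c98e640d46973 = true := by decide +kernel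

end Vale.Agent.helper4.Q4
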