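import Vale.Agent.helper4.Q4TreeM
import Vale.Agent.helper4.Q4G.PB17_11

/-!
Checks for pairs of intervals of second moments.
-/

set_option maxRecDepth 100000
set_option linter.unusedVariables false

namespace Vale.Agent.helper4.Q4

theorem cB17_11_3_108 : chunkOkM (LB17_11.ctx true true 274 119 64 15 16 1589 2497 75 165) muQ true true 64 RtB17_11.Cx.left.right.right RtB17_11.CX RtB17_11.Ctp.right.right.right.left.left.left RtB17_11.Ce.right.right.right.left.left.left.right RtB17_11.CTp.right.right RtB17_11.CEr.right.right 0x9ee80b6dd308c1e073c1f184ec7d98a874a67e6674820d7d550d1f21ee27dd5c7576b73ca00daf17e662a34387d540d51fc8b2bf8cd41ee5e273c91c16da7e630df996f1b7cd398f55973c5a0c836d972d47527e6c91b4f07d550d36 = true := by decide +kernel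

theorem cB17_11_3_109 : chunkOkM (LB17_11.ctx true true 257 59 32 15 16 805 1243 35 165) muQ true true 64 RtB17_11.Cx.left.right RtB17_11.CX RtB17_11.Ctp.right.right.right.left.left.right RtB17_11.Ce.right.right.right.left.left.left RtB17_11.CTp.right.right RtB17_11.CEr.right.right 0x1f6c9f97dd65a1bb273c948e776d72b6bf7a7d623bb546b8d250d169039f7dd3a51e8673c232f9df7d62369dbe28d240d6 = true := by decide +kernel

theorem cB17_11_3_110 : chunkOkM (LB17_11.ctx true true 93 1 1 1 1 1 1 1 1) muQ true true 64 RtB17_11.Cx.left.left RtB17_11.CX RtB17_11.Ctp.right.right.right.left.left RtB17_11.Ce.right.right.right.left.left.right RtB17_11.CTp.right.right RtB17_11.CEr.right.right 0x21 = true := by decide +kernel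

theorem cB17_11_3_111 : chunkOkM (LB17_11.ctx true true 284 239 128 15 16 1589 5071 75 165) muQ true true 64 RtB17_11.Cx.left.right RtB17_11.CX RtB17_11.Ctp.right.right.right.left.left.left RtB17_11.Ce.right.right.right.left.left.right RtB17_11.CTp.right.right RtB17_11.CEr.right.right 0x6919fc9c808cd41d976f73c19a40077d9103ae0e08e640d469759333fd9ea7dd2f32d1473c2dea89f7d9a8547417e640d35db6387dd6bcbc3f73cc2950c37e630d52a08c7ed8cd2b41c2973cc3760137e630d134c28a18cd34fb16773ca502b837e630d4619f24487dd51b88a573c8b2ebc6d7150e03af8e684d6fe6d550d1bb05a07dd4d7b6b073c194bb387d981883b97e6d065b86e550de59b2947cd3896a7873cbb5845d97a626a47e6124ac1b88d550d6434697 = true := by decide +kernel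

theorem cB17_11_3_112 : chunkOkM (LB17_11.ctx true true 285 471 256 15 16 1603 5027 35 165) muQ true true 64 RtB17_11.Cx.left.right.left RtB17_11.CX RtB17_11.Ctp.right.right.right.left.left.right RtB17_11.Ce.right.right.right.left.left.right RtB17_11.CTp.right.right RtB17_11.CEr.right.right 0x2121011534ce828cd6854e8773c85ac6e6d7a6f62cd7e6fcff926e250d17812d6d8cd31dfd5b73ce77b0567e6221cf76e240d6321742174 = true := by decide +kernel

theorem cB17_11_3_113 : chunkOkM (LB17_11.ctx true true 274 119 64 15 16 805 5049 75 165) muQ true true 64 RtB17_11.Cx.left.right.right RtB17_11.CX RtB17_11.Ctp.right.right.right.left.left.right RtB17_11.Ce.right.right.right.left.left.right.left RtB17_11.CTp.right.right RtB17_11.CEr.right.right 0x2cac6bd7dd26182fc73c29b0cdc7d952800927e6143b3eb7e250d6adaec87dd7255ff273c69b585038d630d51112092d8cd3d5390573c8d2535d9906001a7e66aa4396e250d2e23771e8cd44dbe5d73c938efc47e683a2566e240d46 = true := by decide +kernel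

theorem cB17_11_3_114 : chunkOkM (LB17_11.ctx true true 290 239 128 15 16 1617 5093 145 319) muQ true true 64 RtB17_11.Cx.left.right.right RtB17_11.CX RtB17_11.Ctp.right.right.right.left.left.right RtB17_11.Ce.right.right.right.left.left.right.right RtB17_11.CTp.right.right RtB17_11.CEr.right.right 0x0223130307dd1c95c3a73c1a513967d99c86566e626050317e250d16b5fde7dd337133773c1a9cce67d9bb108387e640d355a39a2feb7dd4a0cfee73c78c47237e64c0d996e240d71fea26dd691a0da73c999bc137e6e6e8d66e240d765e7276b97cd3da64dd73cacf5cb6d9507ae0b7e61b89a9b7e250dcfad1eb7cd3cf237673c5234dc6d9c8bc5cc7e67551d86e250def810ad7cd3dcb0a473c3ffafc6d9c5588d57e613ea926e250d436 = true := by decide +kernel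

theorem cB17_11_3_115 : chunkOkM (LB17_11.ctx true true 282 479 256 15 16 1617 5115 35 77) muQ true true 64 RtB17_11.Cx.left RtB17_11.CX RtB17_11.Ctp.right.right.right.left.left RtB17_11.Ce.right.right.right.left.right RtB17_11.CTp.right RtB17_11.CEr.right 0x212121185711e58cd575dd9173c816ffb6d7dee2ddf7e6103f4da7e250d329a01b7ddcdc128f73c1de0e1f76b10b7fd47f6b0ec496e250d56a15da4ebb8cd52664ba73c42215ca76bfb7dca87e634cbec6e250d56217421769342175932174 = true := by decide +kernel

theorem cB17_11_3_116 : chunkOkM (LB17_11.ctx true true 93 1 1 1 1 1 1 1 1) muQ true true 64 RtB17_11.Cx.left RtB17_11.CX RtB17_11.Ctp.right.right.right.left.right RtB17_11.Ce.right.right.right.left RtB17_11.CTp.right RtB17_11.CEr.right 0x01 = true := by decide +kernel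

theorem cB17_11_3_117 : chunkOkM (LB17_11.ctx true true 275 61 32 57 64 805 1265 256 77) muQ true true 64 RtB17_11.Cx.right.left RtB17_11.CX RtB17_11.Ctp.right.right.right.left.left RtB17_11.Ce.right.right.right.left.left RtB17_11.CTp.right.left RtB17_11.CEr.right 0x4a4aecc2a36dd4d70d1f73c7f807a048d630d20a43f97dd537979873c1b0b30c58d61d7155e58d540d1368a697dd3a7689073c14df3ab7e61e019e338d540d63fbec616dd47d32f773c20d4884a54a5425 = true := by decide +kernel

theorem cB17_11_3_118 : chunkOkM (LB17_11.ctx true true 93 1 1 1 1 1 1 1 1) muQ true true 64 RtB17_11.Cx.right.left RtB17_11.CX RtB17_11.Ctp.right.right.right.left.left RtB17_11.Ce.right.right.right.left.left RtB17_11.CTp.right.right RtB17_11.CEr.right.left 0x6a = true := by decide +kernel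

theorem cB17_11_3_119 : chunkOkM (LB17_11.ctx true true 250 61 32 15 16 399 1243 35 77) muQ true true 64 RtB17_11.Cx.right.left RtB17_11.CX RtB17_11.Ctp.right.right.right.left.left RtB17_11.Ce.right.right.right.left.left.left RtB17_11.CTp.right.right RtB17_11.CEr.right.right 0x1b0bc677dd4a538ca73c6696a06d730d = true := by decide +kernel

theorem cB17_11_3_120 : chunkOkM (LB17_11.ctx true true 273 123 64 15 16 1589 5093 35 165) muQ true true 64 RtB17_11.Cx.right.left RtB17_11.CX RtB17_11.Ctp.right.right.right.left.left.left RtB17_11.Ce.right.right.right.left.left.right RtB17_11.CTp.right.right RtB17_11.CEr.right.right 0xb1efa46dd452dd1273c640986e7e625d1a0c98d540d155bb467dd47f809273c1a586ca7d98061a8e7e6101d6f428d550d186ea5e7dd464ec8873cb924ea6d962bc0457e610e81e798d550d423c13ed88cd2e1094d73c50efcc07e612162d27e540d24d390c58cd306139d73c79ca6327e6105a66228d540d461a8ecd698cd4ca842f73c6b27856d737aca2b7e61d74c7498d550d3741905c18c2cd87dd52c62da73c7dfbf76d73fe5b167e61758df968d550d74 = true := by decide +kernel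

theorem cB17_11_3_121 : chunkOkM (LB17_11.ctx true true 260 61 32 15 16 805 2541 35 165) muQ true true 64 RtB17_11.Cx.right.left RtB17_11.CX RtB17_11.Ctp.right.right.right.left.left.right RtB17_11.Ce.right.right.right.left.left.right RtB17_11.CTp.right.right RtB17_11.CEr.right.right 0x15a96987dd47ed3c573c15ef4ae7d978f1a0608d640dfa74546dd3b776c473cc783da6d9768749f88d640d6694 = true := by decide +kernel

theorem cB17_11_3_122 : chunkOkM (LB17_11.ctx true true 93 1 1 1 1 1 1 1 1) muQ true true 64 RtB17_11.Cx.right.right RtB17_11.CX RtB17_11.Ctp.right.right.right.left.left RtB17_11.Ce.right.right.right.left.left RtB17_11.CTp.right RtB17_11.CEr.right 0x69 = true := by decide +kernel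

theorem cB17_11_3_123 : chunkOkM (LB17_11.ctx true true 93 1 1 1 1 1 1 1 1) muQ true true 64 RtB17_11.Cx.right RtB17_11.CX RtB17_11.Ctp.right.right.right.left.right RtB17_11.Ce.right.right.right.left.left RtB17_11.CTp.right RtB17_11.CEr.right 0x11 = true := by decide +kernel

theorem cB17_11_3_124 : chunkOkM (LB17_11.ctx true true 277 123 64 15 16 1589 5137 64 165) muQ true true 64 RtB17_11.Cx.right.left RtB17_11.CX RtB17_11.Ctp.right.right.right.left.left.left RtB17_11.Ce.right.right.right.left.right.left.left RtB17_11.CTp.right RtB17_11.CEr.right 0x120c2127dd46728a373c1395f117d945149527e61fe65527e550d12bde5d7dd44339c573c177f8ad7d9175ffed78e6cd7754f7d550d1078fc37dd4c075a173c19013b97d9b3100497e6c09cd36e550d31b6f277cd3981ab173c7f6084c7e613dcaf1c8d540d64593726fea5a7dd772295873c13e670e76b44c2256e62a049467e550d42556a31f2c0b7dd4c51f6473c17d37a476b24dc5e6e62a6fa3588d550d42556 = true := by decide +kernel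

theorem cB17_11_3_125 : chunkOkM (LB17_11.ctx true true 267 123 64 15 16 1589 2585 35 77) muQ true true 64 RtB17_11.Cx.right.left RtB17_11.CX RtB17_11.Ctp.right.right.right.left.left.left RtB17_11.Ce.right.right.right.left.right.left.right RtB17_11.CTp.right RtB17_11.CEr.right 0xbc672b6dd4d5977b73cc2f2786d934177897e62628d38e8d550d2ee9c377dd9cc797f73c1a25aca76bc4027397e62620f737e550d56a983a2ef7cd40bb3b173c2e1a23e76b2eca4dd08d540d56593597 = true := by decide +kernel

theorem cB17_11_3_126 : chunkOkM (LB17_11.ctx true true 93 1 1 1 1 1 1 1 1) muQ true true 64 RtB17_11.Cx.right.left RtB17_11.CX RtB17_11.Ctp.right.right.right.left.left.right RtB17_11.Ce.right.right.right.left.right.left RtB17_11.CTp.right.left.left RtB17_11.CEr.right 0x42 = true := by decide +kernel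

theorem cB17_11_3_127 : chunkOkM (LB17_11.ctx true true 93 1 1 1 1 1 1 1 1) muQ true true 64 RtB17_11.Cx.right.left RtB17_11.CX RtB17_11.Ctp.right.right.right.left.left.right RtB17_11.Ce.right.right.right.left.right.left RtB17_11.CTp.right.left.right.left RtB17_11.CEr.right 0x4a = true := by decide +kernel

theorem cB17_11_3_128 : chunkOkM (LB17_11.ctx true true 93 1 1 1 1 1 1 1 1) muQ true true 64 RtB17_11.Cx.right.left RtB17_11.CX RtB17_11.Ctp.right.right.right.left.left.right RtB17_11.Ce.right.right.right.left.right.left RtB17_11.CTp.right.left.right.right.left RtB17_11.CEr.right 0x4a = true := by decide +kernel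

end Vale.Agent.helper4.Q4
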