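import Vale.Agent.helper4.Q4TreeM
import Vale.Agent.helper4.Q4G.PB17_11

/-!
Checks for pairs of intervals of second moments.
-/

set_option maxRecDepth 100000
set_option linter.unusedVariables false

namespace Vale.Agent.helper4.Q4

theorem cB17_11_3_129 : chunkOkM (LB17_11.ctx true true 300 123 64 57 64 1617 5181 256 517) muQ true true 64 RtB17_11.Cx.right.left RtB17_11.CX.left.left RtB17_11.Ctp.right.right.right.left.left.right RtB17_11.Ce.right.right.right.left.right.left RtB17_11.CTp.right.left.right.right.right RtB17_11.CEr.right.left 0x6360c8f7dd6b650a373c777d4666b554f5187e6140406d58d550dca55616f06bcecd386f06b449831d17dd5c62a2b73c608f2766bf549afa7e640d37ff99f5f05bdb57706dd4b9e6c773cbeff67f7e630d1f9754e7dd50ae44d73c15d20866b9ae2ac27e655d3b337d550d3746a6126126 = true := by decide +kernel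

theorem cB17_11_3_130 : chunkOkM (LB17_11.ctx true true 300 123 64 57 64 1617 5181 256 539) muQ true true 64 RtB17_11.Cx.right.left RtB17_11.CX.left.left RtB17_11.Ctp.right.right.right.left.left.right RtB17_11.Ce.right.right.right.left.right.left RtB17_11.CTp.right.left.right.right.right RtB17_11.CEr.right.right 0x525a5a28142d6ed6134b464c6c359ad7e6fe4db837d540dedb6286edd799a3d73cc62f1067e630dc2e04ed51cf44e73cfcae0f87e610b6a86e240d484a66d6ed4712a464cfbdc8e37e630d37d500fa6f06b662fea6ed720902773c9f499367e67a285d07d240dd70b75ed52b7d4d73c71e046b82577dd7e6a598d3c7d550d374666 = true := by decide +kernel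

theorem cB17_11_3_131 : chunkOkM (LB17_11.ctx true true 93 1 1 1 1 1 1 1 1) muQ true true 64 RtB17_11.Cx.right.left RtB17_11.CX.left.right RtB17_11.Ctp.right.right.right.left.left.right RtB17_11.Ce.right.right.right.left.right.left RtB17_11.CTp.right.left.right.right.right RtB17_11.CEr.right 0x4a = true := by decide +kernel

theorem cB17_11_3_132 : chunkOkM (LB17_11.ctx true true 93 1 1 1 1 1 1 1 1) muQ true true 64 RtB17_11.Cx.right.left RtB17_11.CX.right RtB17_11.Ctp.right.right.right.left.left.right RtB17_11.Ce.right.right.right.left.right.left RtB17_11.CTp.right.left.right.right.right RtB17_11.CEr.right 0x4a = true := by decide +kernel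

theorem cB17_11_3_133 : chunkOkM (LB17_11.ctx true true 93 1 1 1 1 1 1 1 1) muQ true true 64 RtB17_11.Cx.right.left RtB17_11.CX RtB17_11.Ctp.right.right.right.left.left.right RtB17_11.Ce.right.right.right.left.right.left RtB17_11.CTp.right.right RtB17_11.CEr.right.left 0x6a = true := by decide +kernel

theorem cB17_11_3_134 : chunkOkM (LB17_11.ctx true true 273 121 64 15 16 1617 5137 35 143) muQ true true 64 RtB17_11.Cx.right.left.left RtB17_11.CX RtB17_11.Ctp.right.right.right.left.left.right RtB17_11.Ce.right.right.right.left.right.left.left RtB17_11.CTp.right.right RtB17_11.CEr.right.right.left 0x86654927cd42d023a73c5efa546d9b826bef7e640d231dece88cd48b374973cc4a72a87e630d4865230d7cd3e84ce073ca980df6d9fcf00b37e640dc0dda117cd402a1e573ce421f267e630d43 = true := by decide +kernel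

theorem cB17_11_3_135 : chunkOkM (LB17_11.ctx true true 284 243 128 15 16 1617 5137 75 165) muQ true true 64 RtB17_11.Cx.right.left.left RtB17_11.CX RtB17_11.Ctp.right.right.right.left.left.right RtB17_11.Ce.right.right.right.left.right.left.left RtB17_11.CTp.right.right RtB17_11.CEr.right.right.right 0x263563d7dd133d4b973c3949cad7d9935e4727e640de637666dd5fc7cb073c142a4867d99e8043c7e640d5c2bea347cd6617c6573c846c626d710bc604f8e640d10e2c687dd57a879173c8e3cbf6d914bac5368e640d713c83df7dd4a8ff7e73c1595e577d9ec0dc5a7e640d43 = true := by decide +kernel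

theorem cB17_11_3_136 : chunkOkM (LB17_11.ctx true true 263 123 64 15 16 805 2563 35 77) muQ true true 64 RtB17_11.Cx.right.left.right RtB17_11.CX RtB17_11.Ctp.right.right.right.left.left.right RtB17_11.Ce.right.right.right.left.right.left.left RtB17_11.CTp.right.right RtB17_11.CEr.right.right 0x183a5cd7dd39ef3a273c16c283e7d9c3fca027e664d5d8f7d550d = true := by decide +kernel

theorem cB17_11_3_137 : chunkOkM (LB17_11.ctx true true 284 243 128 15 16 1617 5181 75 165) muQ true true 64 RtB17_11.Cx.right.left.left RtB17_11.CX RtB17_11.Ctp.right.right.right.left.left.right RtB17_11.Ce.right.right.right.left.right.left.right RtB17_11.CTp.right.right RtB17_11.CEr.right.right 0xe41a9e6dd6289e5673c7831c66d71179735a8e640d2176c61ca6dd38ca35e73c139d9587d9dc541247e611a9716e250d8ee3b06dd7168f2d73c11b6a5628e630d5488b009a7cd3f7a94873c74bf2c6d912f702d88e66b712c6e250d251892c28cd32c794973cbccb6567e630d21172f228cd37623d973cc0132317e630d74669fe6e19e7cd58f554873c821e3b6d725794b6a8e640d46973 = true := by decide +kernel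

theorem cB17_11_3_138 : chunkOkM (LB17_11.ctx true true 274 123 64 15 16 1617 5181 35 165) muQ true true 64 RtB17_11.Cx.right.left.right RtB17_11.CX RtB17_11.Ctp.right.right.right.left.left.right RtB17_11.Ce.right.right.right.left.right.left.right RtB17_11.CTp.right.right RtB17_11.CEr.right.right 0x184604c7dd42b573073c10756287d9cf89c0c7e640d6731c86dd3df119d73ca6641b6d9cf89c0c7e640d6129c5f27dd64330b173c9a2fbd6d78249b2e7e615b55b57e550df9f6ec6dd4ee394773c112a9607d9a68efbd7e6133160178d550d464eb9e07cd3e2956f73c8f023a6d96ad7feb7e6140198f7e550d63 = true := by decide +kernel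

theorem cB17_11_3_139 : chunkOkM (LB17_11.ctx true true 254 63 32 15 16 399 1287 64 77) muQ true true 64 RtB17_11.Cx.right.right RtB17_11.CX RtB17_11.Ctp.right.right.right.left.left RtB17_11.Ce.right.right.right.left.right.left RtB17_11.CTp.right RtB17_11.CEr.right 0xefca326dd4c4f22973c8356546d93a8cc75d8d6285903508d550d6a611144c67dd4dfd42973c32b3d8176b33798e378d626210c278d550d4255 = true := by decide +kernel

theorem cB17_11_3_140 : chunkOkM (LB17_11.ctx true true 93 1 1 1 1 1 1 1 1) muQ true true 64 RtB17_11.Cx.right.left RtB17_11.CX RtB17_11.Ctp.right.right.right.left.left.left RtB17_11.Ce.right.right.right.left.right.right RtB17_11.CTp.right RtB17_11.CEr.right 0x59 = true := by decide +kernel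

theorem cB17_11_3_141 : chunkOkM (LB17_11.ctx true true 93 1 1 1 1 1 1 1 1) muQ true true 64 RtB17_11.Cx.right.left.left RtB17_11.CX RtB17_11.Ctp.right.right.right.left.left.right RtB17_11.Ce.right.right.right.left.right.right RtB17_11.CTp.right RtB17_11.CEr.right 0x69 = true := by decide +kernel

theorem cB17_11_3_142 : chunkOkM (LB17_11.ctx true true 300 123 64 57 64 1617 5225 256 517) muQ true true 64 RtB17_11.Cx.right.left.right RtB17_11.CX RtB17_11.Ctp.right.right.right.left.left.right RtB17_11.Ce.right.right.right.left.right.right.left RtB17_11.CTp.right RtB17_11.CEr.right.left 0x6a4a4a3566a2173c68f09966bb5cd8a07e630ddc788b6f06b42ad2926f05b3886a61261264a54a54255 = true := by decide +kernel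

theorem cB17_11_3_143 : chunkOkM (LB17_11.ctx true true 300 123 64 57 64 1617 5225 256 539) muQ true true 64 RtB17_11.Cx.right.left.right RtB17_11.CX RtB17_11.Ctp.right.right.right.left.left.right RtB17_11.Ce.right.right.right.left.right.right.left RtB17_11.CTp.right.left RtB17_11.CEr.right.right 0x5a4a5a4a5ab1f6f36ed9cbf75973ce72334f7e630d9b1245ed4b130e673cd4031767e630d47961766ed55ecc264c257437a7e620dffdd78d540d368684a54a56425 = true := by decide +kernel

theorem cB17_11_3_144 : chunkOkM (LB17_11.ctx true true 280 247 128 15 16 1617 5225 35 165) muQ true true 64 RtB17_11.Cx.right.left.right RtB17_11.CX RtB17_11.Ctp.right.right.right.left.left.right RtB17_11.Ce.right.right.right.left.right.right.left RtB17_11.CTp.right.right RtB17_11.CEr.right.right 0x4522eee7cd5df502a73c3b42ef6d961aca16d712a65f7e8e650d561fcd6dd4e640cc73c16dc8467d91aeebddd8e640d7f9ee5e6dd4c730e873c10ee8037d9178b865d8e640d9dd17f6dd542881473cab1aaf6d916723c5f8e640d741136b9b48cd423a99c73c18ad4d8e8e630d1e99f377cd4049e8f73c2c63fffb8e630d76543a9d7cd3faa51973c9fef286d9df667987e61b7a1a6e550d461118e9798cd41746a273c134c0217d940844f07e6244a60c38d550d6973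 = true := by decide +kernel

end Vale.Agent.helper4.Q4
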