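import Vale.Agent.helper4.Q4TreeM
import Vale.Agent.helper4.Q4G.PB17_11

/-!
Checks for pairs of intervals of second moments.
-/

set_option maxRecDepth 100000
set_option linter.unusedVariables false

namespace Vale.Agent.helper4.Q4

theorem cB17_11_3_145 : chunkOkM (LB17_11.ctx true true 290 495 256 15 16 3241 10483 35 77) muQ true true 64 RtB17_11.Cx.right.left.right RtB17_11.CX RtB17_11.Ctp.right.right.right.left.left.right RtB17_11.Ce.right.right.right.left.right.right.right RtB17_11.CTp.right RtB17_11.CEr.right 0x6969ac3ec877cd4f836c373c6fcd70418e630d2ed2cb87dd9e5db6473c16a12cd76bda4e876f640d56a90c4fc076b1d9ef18f8e620d5646976934697593 = true := by decide +kernel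

theorem cB17_11_3_146 : chunkOkM (LB17_11.ctx true true 312 2015 1024 15 16 12649 20779 35 77) muQ true true 64 RtB17_11.Cx.right.right RtB17_11.CX RtB17_11.Ctp.right.right.right.left.left.left RtB17_11.Ce.right.right.right.left.right.right.left RtB17_11.CTp.right RtB17_11.CEr.right 0x5134aa6dd2cf7a9773cd086036d925864007e630d0c7f7e550d397b3317dda20a0ae73c40ece5376b118829d7e636dc8ac7e550d524a45b7e8cd376bfd276b5d4ab46d8105dcd97e6325bdca7e550d610fa93ef8cd5db9f1473c1015ac17d819ccf6c7e62a92bd67e550d1c625c07dd795422273c29f2f2d76b1f631617e62d5be4e7e550d55959591e15f5d28cd68c5a9a73c2f897c07e530d262b04c659759345975934597593459737 = true := by decide +kernel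

theorem cB17_11_3_147 : chunkOkM (LB17_11.ctx true true 293 511 256 15 16 6321 10483 35 77) muQ true true 64 RtB17_11.Cx.right.right RtB17_11.CX RtB17_11.Ctp.right.right.right.left.left.left RtB17_11.Ce.right.right.right.left.right.right.right RtB17_11.CTp.right RtB17_11.CEr.right 0x9948c2d7cd26f0f3e73c16d4fb27e6318bc387e540d6610e06dd3fb900a73c5d3862076b3c19196e633d641d7e550d559591aa004228cd5a6af3273c3ce47c6f651c8b867e540dade0b417cd1d475e176b3874e327e530d6593459759345973597 = true := by decide +kernel

theorem cB17_11_3_148 : chunkOkM (LB17_11.ctx true true 292 127 64 57 64 1617 5269 256 77) muQ true true 64 RtB17_11.Cx.right.right RtB17_11.CX RtB17_11.Ctp.right.right.right.left.left.right RtB17_11.Ce.right.right.right.left.right.right RtB17_11.CTp.right RtB17_11.CEr.right 0xd98f126dd30ddd5473c1182ac07d927687e77e625d7e077e550da0870797cd46eb7a273ce5779c6d9668ccd47e618c54957e550de3915b6dd43397c173c118b78b7d978abcab7e6176400b7e550d4534c776dd51cf84f73c56ea79c7e62584ab808d540d37d0a3e56dd486ba1373cda247d6d92d275e67e61dfc8ba18d550d46a64a4a9454546dd494160f73c2ad1e9e7e62574e5648d540dacf3946dd425b43e73c411a9297e61cd5d5f08d540d4884a54a54255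 = true := by decide +kernel

theorem cB17_11_3_149 : chunkOkM (LB17_11.ctx true true 93 1 1 1 1 1 1 1 1) muQ true true 64 RtB17_11.Cx.right RtB17_11.CX RtB17_11.Ctp.right.right.right.left.right RtB17_11.Ce.right.right.right.left.right RtB17_11.CTp.right.left.left RtB17_11.CEr.right 0x42 = true := by decide +kernel

theorem cB17_11_3_150 : chunkOkM (LB17_11.ctx true true 93 1 1 1 1 1 1 1 1) muQ true true 64 RtB17_11.Cx.right RtB17_11.CX RtB17_11.Ctp.right.right.right.left.right RtB17_11.Ce.right.right.right.left.right RtB17_11.CTp.right.left.right.left RtB17_11.CEr.right 0x4a = true := by decide +kernel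

theorem cB17_11_3_151 : chunkOkM (LB17_11.ctx true true 93 1 1 1 1 1 1 1 1) muQ true true 64 RtB17_11.Cx.right RtB17_11.CX RtB17_11.Ctp.right.right.right.left.right RtB17_11.Ce.right.right.right.left.right RtB17_11.CTp.right.left.right.right.left RtB17_11.CEr.right 0x4a = true := by decide +kernel

theorem cB17_11_3_152 : chunkOkM (LB17_11.ctx true true 272 61 32 57 64 819 1287 256 33) muQ true true 64 RtB17_11.Cx.right.left RtB17_11.CX.left.left RtB17_11.Ctp.right.right.right.left.right.left RtB17_11.Ce.right.right.right.left.right.left RtB17_11.CTp.right.left.right.right.right RtB17_11.CEr.right 0xdcbe636dd4e3775e73c9a7b94d7d62a48ae27e240d = true := by decide +kernel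

theorem cB17_11_3_153 : chunkOkM (LB17_11.ctx true true 300 123 64 57 64 1645 5269 256 517) muQ true true 64 RtB17_11.Cx.right.left RtB17_11.CX.left.left RtB17_11.Ctp.right.right.right.left.right.left RtB17_11.Ce.right.right.right.left.right.right RtB17_11.CTp.right.left.right.right.right RtB17_11.CEr.right.left 0x2ce3506f02b13250aa7f06bd181a26dd4de3f8b73c2354b566bf66fd467e61b2be5e250d4321710677ba7dd4d3c39273c2b196c66b9ac1e157e66188146e250d6cee5967dd7646fcf73c7baff466b72eb7c478d61118878c8d250d746a6126126 = true := by decide +kernel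

theorem cB17_11_3_154 : chunkOkM (LB17_11.ctx true true 300 123 64 57 64 1645 5269 256 539) muQ true true 64 RtB17_11.Cx.right.left RtB17_11.CX.left.left RtB17_11.Ctp.right.right.right.left.right.left RtB17_11.Ce.right.right.right.left.right.right RtB17_11.CTp.right.left.right.right.right RtB17_11.CEr.right.right 0x525a5a464c70a7ed22a36a2d83c30e2ea47e62c30c9c7e240d1726826ed4c618fc73cd00fae07e630d514580473cf4437947e68934f5e230d43177a466ed538fc9173ca04535b7e64bb25b6e240d4b0c305ed5153ef64c320a257b7877c6f38d636cde5c28d250d7666 = true := by decide +kernel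

theorem cB17_11_3_155 : chunkOkM (LB17_11.ctx true true 93 1 1 1 1 1 1 1 1) muQ true true 64 RtB17_11.Cx.right.left RtB17_11.CX.left.left RtB17_11.Ctp.right.right.right.left.right.right RtB17_11.Ce.right.right.right.left.right RtB17_11.CTp.right.left.right.right.right RtB17_11.CEr.right 0x01 = true := by decide +kernel

theorem cB17_11_3_156 : chunkOkM (LB17_11.ctx true true 275 63 32 57 64 413 2629 256 77) muQ true true 64 RtB17_11.Cx.right.right RtB17_11.CX.left.left RtB17_11.Ctp.right.right.right.left.right RtB17_11.Ce.right.right.right.left.right RtB17_11.CTp.right.left.right.right.right RtB17_11.CEr.right 0xc67a666dd4cf10bd73c493658c88d6fee5f737d540d9401a26dd459e69473c24e0057b5725dfa28d6cf2180a7d550d6694114 = true := by decide +kernel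

theorem cB17_11_3_157 : chunkOkM (LB17_11.ctx true true 93 1 1 1 1 1 1 1 1) muQ true true 64 RtB17_11.Cx.right RtB17_11.CX.left.right RtB17_11.Ctp.right.right.right.left.right RtB17_11.Ce.right.right.right.left.right RtB17_11.CTp.right.left.right.right.right RtB17_11.CEr.right 0x4a = true := by decide +kernel

theorem cB17_11_3_158 : chunkOkM (LB17_11.ctx true true 93 1 1 1 1 1 1 1 1) muQ true true 64 RtB17_11.Cx.right RtB17_11.CX.right RtB17_11.Ctp.right.right.right.left.right RtB17_11.Ce.right.right.right.left.right RtB17_11.CTp.right.left.right.right.right RtB17_11.CEr.right 0x4a = true := by decide +kernel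

theorem cB17_11_3_159 : chunkOkM (LB17_11.ctx true true 93 1 1 1 1 1 1 1 1) muQ true true 64 RtB17_11.Cx.right RtB17_11.CX RtB17_11.Ctp.right.right.right.left.right RtB17_11.Ce.right.right.right.left.right RtB17_11.CTp.right.right RtB17_11.CEr.right.left 0x6a = true := by decide +kernel

theorem cB17_11_3_160 : chunkOkM (LB17_11.ctx true true 271 123 64 15 16 1631 2585 35 165) muQ true true 64 RtB17_11.Cx.right RtB17_11.CX RtB17_11.Ctp.right.right.right.left.right RtB17_11.Ce.right.right.right.left.right.left RtB17_11.CTp.right.right RtB17_11.CEr.right.right 0x111112da3347dd57ae58a73c7a27ca6d7240c775819d640d01b1808d6dd539e71d73cff24ea6d94c053617e6226cfd87e250db044eae7cd3b6eb9b73c52c08f87e61ee51a57e240d61f9b63078cd52dc38273ca157c56d7194982c7e62300403469d15a6ee9f88e060d43773 = true := by decide +kernel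

theorem cB17_11_3_161 : chunkOkM (LB17_11.ctx true true 284 243 128 15 16 1645 5225 75 165) muQ true true 64 RtB17_11.Cx.right.left RtB17_11.CX RtB17_11.Ctp.right.right.right.left.right.left RtB17_11.Ce.right.right.right.left.right.right.left RtB17_11.CTp.right.right RtB17_11.CEr.right.right 0xb386ad6dd2cd98bf73c1bf91f67d9b21d2927e62191f06e250d11aa4887dd53ff47573c9b16216d996beaa77e65691e66e250d53707ac6dd4c7919a73c1aa4bebed9d146aeaed78e040d50d4fed7cd42a437373c8ff2c46d9d1c90f27e640d91f99e6dd4541cc173ce60e5f67e630d4362113fb8c1f8cd558c4c373c75e2c06d7ab6dc107e615cdcb27e250d42177 = true := by decide +kernel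

theorem cB17_11_3_162 : chunkOkM (LB17_11.ctx true true 280 247 128 15 16 1645 5269 35 165) muQ true true 64 RtB17_11.Cx.right.left RtB17_11.CX RtB17_11.Ctp.right.right.right.left.right.left RtB17_11.Ce.right.right.right.left.right.right.right RtB17_11.CTp.right.right RtB17_11.CEr.right.right 0x9575816dd574716073c116a4967d95a7fbac7e624eaaf27e250dfb9cf36dd4aba04d73cfcfad26d9154c3d728e64823036e250d90a15b27cd560c72673c116b01b7d91144d4538e640db7440d6dd59f438d73c59d5ac6d7129ffddc8e654ca0e6e250d7434488c3b73c2e81e897e628c640d7e230d43808357cd44d866b73c86f1fc6d9158c6da08e646e6416e250d17d5e1b88cd3c06d6d73cc9d5ae67e630de3d3c4d7cd43b595c73c98e6fc6d9ca89ab77e640d7436217 = true := by decide +kernel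

theorem cB17_11_3_163 : chunkOkM (LB17_11.ctx true true 93 1 1 1 1 1 1 1 1) muQ true true 64 RtB17_11.Cx.right.left RtB17_11.CX RtB17_11.Ctp.right.right.right.left.right.right RtB17_11.Ce.right.right.right.left.right.right RtB17_11.CTp.right.right RtB17_11.CEr.right.right 0x01 = true := by decide +kernel

end Vale.Agent.helper4.Q4
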