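import Vale.Agent.helper4.Q4TreeM
import Vale.Agent.helper4.Q4G.PB17_11

/-!
Checks for pairs of intervals of second moments.
-/

set_option maxRecDepth 100000
set_option linter.unusedVariables false

namespace Vale.Agent.helper4.Q4

theorem cB17_11_3_164 : chunkOkM (LB17_11.ctx true true 274 125 64 15 16 1645 5269 35 165) muQ true true 64 RtB17_11.Cx.right.right RtB17_11.CX RtB17_11.Ctp.right.right.right.left.right RtB17_11.Ce.right.right.right.left.right.right RtB17_11.CTp.right.right RtB17_11.CEr.right.right 0x116961905cd2d6446dd490b43373c14684707d9114c03118e633c396e7d550d6aac026dd54b77a973c104a4b17d91405ad968e640d434e0ab66dd3f2e7c573c9b6a486d9c3327327e613563417d550d673694 = true := by decide +kernel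

theorem cB17_11_3_165 : chunkOkM (LB17_11.ctx true true 93 1 1 1 1 1 1 1 1) muQ true true 64 RtB17_11.Cx.left RtB17_11.CX RtB17_11.Ctp.right.right.right.left RtB17_11.Ce.right.right.right.right RtB17_11.CTp.right RtB17_11.CEr.right 0x21 = true := by decide +kernel

theorem cB17_11_3_166 : chunkOkM (LB17_11.ctx true true 360 65535 32768 15 16 51065 84491 64 77) muQ true true 64 RtB17_11.Cx.right RtB17_11.CX RtB17_11.Ctp.right.right.right.left.left RtB17_11.Ce.right.right.right.right.left RtB17_11.CTp.right RtB17_11.CEr.right 0x599c6b6087cd3b6bb9b73ccca1b26e62c5c6ad7e540d3b17496dd41e01e573c720e6c776bec3b146e6320912c7e550d5593597a26e16c7cd3a798f173c26ce8d07e62972e8a7e540d4faa1a6dd452323273c75109b576b27444f07e62c4fc657e550d5eb8accc7cd40a2d1973c12f779a7d9182e2e77e62718b5308d550d6a68e92146dd4eb387673c314851576b406cc1e7e626785d47e550d4255697593745959595959591c5906448cd5a3156b73ccaf3c56b492a7c6f540d11c04c659759759759759345975934597593459759345975934597593597435974 = true := by decide +kernel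

theorem cB17_11_3_167 : chunkOkM (LB17_11.ctx true true 286 495 256 15 16 1645 10571 35 77) muQ true true 64 RtB17_11.Cx.right.left RtB17_11.CX RtB17_11.Ctp.right.right.right.left.right RtB17_11.Ce.right.right.right.right.left.left RtB17_11.CTp.right RtB17_11.CEr.right 0x21212101104c34c58cd55143e173c7b17376d7148d593c8e6db83156e250d2b924e27dd983855573c1ba038276b13f4da07f633324d07e250d56a37351d27cd449bf4d73c2fa02e176b16a24aed8e6e67d176e250d566933421742174217 = true := by decide +kernel

theorem cB17_11_3_168 : chunkOkM (LB17_11.ctx true true 93 1 1 1 1 1 1 1 1) muQ true true 64 RtB17_11.Cx.right.right RtB17_11.CX RtB17_11.Ctp.right.right.right.left.right RtB17_11.Ce.right.right.right.right.left.left RtB17_11.CTp.right.left.left RtB17_11.CEr.right 0x42 = true := by decide +kernel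

theorem cB17_11_3_169 : chunkOkM (LB17_11.ctx true true 93 1 1 1 1 1 1 1 1) muQ true true 64 RtB17_11.Cx.right.right RtB17_11.CX RtB17_11.Ctp.right.right.right.left.right RtB17_11.Ce.right.right.right.right.left.left RtB17_11.CTp.right.left.right.left RtB17_11.CEr.right 0x4a = true := by decide +kernel

theorem cB17_11_3_170 : chunkOkM (LB17_11.ctx true true 93 1 1 1 1 1 1 1 1) muQ true true 64 RtB17_11.Cx.right.right RtB17_11.CX RtB17_11.Ctp.right.right.right.left.right RtB17_11.Ce.right.right.right.right.left.left RtB17_11.CTp.right.left.right.right.left RtB17_11.CEr.right 0x4a = true := by decide +kernel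

theorem cB17_11_3_171 : chunkOkM (LB17_11.ctx true true 300 125 64 57 64 1645 5313 256 539) muQ true true 64 RtB17_11.Cx.right.right.left RtB17_11.CX.left.left RtB17_11.Ctp.right.right.right.left.right.left RtB17_11.Ce.right.right.right.right.left.left.left RtB17_11.CTp.right.left.right.right.right RtB17_11.CEr.right 0x525a5a3747626ed63d175573cbcdeaf77e630d12024d47edd2e44ca73c1173257c8e630d448ffd9a73c70eacf67e612fc9f2e8d530d4f117d673c85123c67e613a360a38d530d43666b252f46dd4ab8c6973c70dd0e66bbe7b51c7e640d9d63e06f06b43dc65fb7dd4485ff873ccdbf2b17e6d42bf897d540d8a0574e7dd835511d73cb1cccd66b9e60f5a7e610f248dd8d550d436a61261266 = true := by decide +kernel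

theorem cB17_11_3_172 : chunkOkM (LB17_11.ctx true true 281 127 64 57 64 819 2651 256 33) muQ true true 64 RtB17_11.Cx.right.right.right RtB17_11.CX.left.left RtB17_11.Ctp.right.right.right.left.right.left RtB17_11.Ce.right.right.right.right.left.left.left RtB17_11.CTp.right.left.right.right.right RtB17_11.CEr.right 0x5e0fca6dd436679273c545e3d57e6212cd3d78d540d = true := by decide +kernel

theorem cB17_11_3_173 : chunkOkM (LB17_11.ctx true true 301 127 64 57 64 1645 5357 256 539) muQ true true 64 RtB17_11.Cx.right.right RtB17_11.CX.left.left RtB17_11.Ctp.right.right.right.left.right.left RtB17_11.Ce.right.right.right.right.left.left.right RtB17_11.CTp.right.left.right.right.right RtB17_11.CEr.right 0x64cba06dd4a9c19873c58636437e6175184368d540d165c9c77dd43fe36173c44dcb827e61881faa98d540d6525a5a1582726ed4c507c573cd4b58077e630d4faa88b73cf49bc56b129eb4bd8e630d44d24b864cba489c97e61e5ed43f8d530d36662bf851f7dd5d690a873c1360f966b148416188e6495fc66e250d95d3256dd4ee1a6673c6ea4756be41c4327e63e8ab06e250d41f090a6ed501fdc64c4345857b35479cc7e621fedc5e8d550d36a612612667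 = true := by decide +kernel

theorem cB17_11_3_174 : chunkOkM (LB17_11.ctx true true 272 63 32 57 64 833 1331 256 33) muQ true true 64 RtB17_11.Cx.right.right RtB17_11.CX.left.left RtB17_11.Ctp.right.right.right.left.right.right RtB17_11.Ce.right.right.right.right.left.left RtB17_11.CTp.right.left.right.right.right RtB17_11.CEr.right 0x670d506dd4a8e31973c101a357b2fff38f7e240d = true := by decide +kernel

theorem cB17_11_3_175 : chunkOkM (LB17_11.ctx true true 93 1 1 1 1 1 1 1 1) muQ true true 64 RtB17_11.Cx.right.right RtB17_11.CX.left.right RtB17_11.Ctp.right.right.right.left.right RtB17_11.Ce.right.right.right.right.left.left RtB17_11.CTp.right.left.right.right.right RtB17_11.CEr.right 0x4a = true := by decide +kernel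

theorem cB17_11_3_176 : chunkOkM (LB17_11.ctx true true 93 1 1 1 1 1 1 1 1) muQ true true 64 RtB17_11.Cx.right.right RtB17_11.CX.right RtB17_11.Ctp.right.right.right.left.right RtB17_11.Ce.right.right.right.right.left.left RtB17_11.CTp.right.left.right.right.right RtB17_11.CEr.right 0x4a = true := by decide +kernel

theorem cB17_11_3_177 : chunkOkM (LB17_11.ctx true true 93 1 1 1 1 1 1 1 1) muQ true true 64 RtB17_11.Cx.right.right RtB17_11.CX RtB17_11.Ctp.right.right.right.left.right RtB17_11.Ce.right.right.right.right.left.left RtB17_11.CTp.right.right RtB17_11.CEr.right.left 0x6a = true := by decide +kernel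

theorem cB17_11_3_178 : chunkOkM (LB17_11.ctx true true 280 251 128 15 16 1631 5313 35 165) muQ true true 64 RtB17_11.Cx.right.right.left RtB17_11.CX RtB17_11.Ctp.right.right.right.left.right.left.left RtB17_11.Ce.right.right.right.right.left.left.left RtB17_11.CTp.right.right RtB17_11.CEr.right.right 0x7ee5ef87cd4b1b58473c12537067d9107bc9c48e6abf2166e550d1e09206dd6b53a2b73cb623026d7237e794d8e640d7155baabb8cd3b8f38673c111048278e6b55dc96e540d3ad35e373c253f4a858e620d76c375db6dd4cc3bf173c19a454c7d92191d7608e640d9d7ff46dd4d2f84173c11174d17d91461a4368e640d7d0791b6cd3f19eef73c17a0edda8e630d100c9257cd4780d4073c12777af28e630d764 = true := by decide +kernel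

theorem cB17_11_3_179 : chunkOkM (LB17_11.ctx true true 280 251 128 15 16 1645 5313 35 165) muQ true true 64 RtB17_11.Cx.right.right.left RtB17_11.CX RtB17_11.Ctp.right.right.right.left.right.left.right RtB17_11.Ce.right.right.right.right.left.left.left RtB17_11.CTp.right.right RtB17_11.CEr.right.right 0x6e81846dd541da8a73c5503b86d91636aa2f8e640dda7ce0a7cd508df8e73c109483f7d915edc6a38e612055587e250d7dc3ea16dd4beb2bb73c149f5037d9c02d7c77e640d4d1bdf3d7cd4a6bc5d73c191996cc8e630d2572df97cd48ef78e73c13305a6e8e67edb676e240d741725b6dd405569673cb0525b6d9f455d2d7e640d46 = true := by decide +kernel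

theorem cB17_11_3_180 : chunkOkM (LB17_11.ctx true true 263 127 64 15 16 819 2651 35 77) muQ true true 64 RtB17_11.Cx.right.right.right RtB17_11.CX RtB17_11.Ctp.right.right.right.left.right.left RtB17_11.Ce.right.right.right.right.left.left.left RtB17_11.CTp.right.right RtB17_11.CEr.right.right 0x82d0a66dd43e7ba373cd0dc416d9332591a7e61b8be6e18d550d = true := by decide +kernel

end Vale.Agent.helper4.Q4
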