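import Vale.Agent.helper4.Q4TreeM
import Vale.Agent.helper4.Q4G.PB17_13

/-!
Checks for pairs of intervals of second moments.
-/

set_option maxRecDepth 100000
set_option linter.unusedVariables false

namespace Vale.Agent.helper4.Q4

theorem cB17_13_3_0 : chunkOkM (LB17_13.ctx true true 103 1 1 1 1 1 1 1 1) muQ true true 64 RtB17_13.Cx RtB17_13.CX RtB17_13.Ctp.left RtB17_13.Ce RtB17_13.CTp RtB17_13.CEr 0x41 = true := by decide +kernel

theorem cB17_13_3_1 : chunkOkM (LB17_13.ctx true true 103 1 1 1 1 1 1 1 1) muQ true true 64 RtB17_13.Cx RtB17_13.CX RtB17_13.Ctp.right RtB17_13.Ce.left RtB17_13.CTp RtB17_13.CEr 0x69 = true := by decide +kernel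

theorem cB17_13_3_2 : chunkOkM (LB17_13.ctx true true 103 1 1 1 1 1 1 1 1) muQ true true 64 RtB17_13.Cx RtB17_13.CX RtB17_13.Ctp.right RtB17_13.Ce.right RtB17_13.CTp.left RtB17_13.CEr 0x42 = true := by decide +kernel

theorem cB17_13_3_3 : chunkOkM (LB17_13.ctx true true 103 1 1 1 1 1 1 1 1) muQ true true 64 RtB17_13.Cx RtB17_13.CX RtB17_13.Ctp.right RtB17_13.Ce.right RtB17_13.CTp.right RtB17_13.CEr.left 0x6a = true := by decide +kernel

theorem cB17_13_3_4 : chunkOkM (LB17_13.ctx true true 103 1 1 1 1 1 1 1 1) muQ true true 64 RtB17_13.Cx RtB17_13.CX RtB17_13.Ctp.right RtB17_13.Ce.right RtB17_13.CTp.right.left RtB17_13.CEr.right 0x42 = true := by decide +kernel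

theorem cB17_13_3_5 : chunkOkM (LB17_13.ctx true true 279 113 64 19 16 665 1067 77 105) muQ true true 64 RtB17_13.Cx RtB17_13.CX RtB17_13.Ctp.right.left RtB17_13.Ce.right RtB17_13.CTp.right.right RtB17_13.CEr.right 0x49494921515959900c3f66c8893206f837a74f468f68dc7e7178f52adf9b3f8f450d5f92b66a8f05b64444122650276c151975d7f76ab1cb788f6a792a0028f540d3373c166c584cc369b3a58f1898f681d376c38f540d611411f04c61144774937493493413 = true := by decide +kernel

theorem cB17_13_3_6 : chunkOkM (LB17_13.ctx true true 103 1 1 1 1 1 1 1 1) muQ true true 64 RtB17_13.Cx RtB17_13.CX RtB17_13.Ctp.right.right RtB17_13.Ce.right.left RtB17_13.CTp.right.right RtB17_13.CEr.right 0x69 = true := by decide +kernel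

theorem cB17_13_3_7 : chunkOkM (LB17_13.ctx true true 239 15 8 19 16 91 275 77 35) muQ true true 64 RtB17_13.Cx RtB17_13.CX RtB17_13.Ctp.right.right.left RtB17_13.Ce.right.right.left.left RtB17_13.CTp.right.right RtB17_13.CEr.right.left 0x890478ec89b3a08160319f820d = true := by decide +kernel

theorem cB17_13_3_8 : chunkOkM (LB17_13.ctx true true 267 29 16 19 16 693 1089 77 105) muQ true true 64 RtB17_13.Cx RtB17_13.CX RtB17_13.Ctp.right.right.left.left RtB17_13.Ce.right.right.left.left.left RtB17_13.CTp.right.right RtB17_13.CEr.right.right 0x1636bca76c159e5e69b426575d7f885b9f47c8f663d9f6398f550d49b90bb166c1ff85b17f722325f318f660cd55608f540d109fa3976c18024c27f797ae1537f66801e5918f526aac8148f450d3211f8e66c370a8869b21f8c18e8f66e220a2b8f540d61a048de76c65c70707f87512d14a8f6956511d08f540d1d93d56c300a0069b81c3667f8f69e0d1ae68f540d6473 = true := by decide +kernel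

theorem cB17_13_3_9 : chunkOkM (LB17_13.ctx true true 268 29 16 19 16 693 1133 77 105) muQ true true 64 RtB17_13.Cx RtB17_13.CX RtB17_13.Ctp.right.right.left.left.left RtB17_13.Ce.right.right.left.left.right RtB17_13.CTp.right.right RtB17_13.CEr.right.right 0x49e0878266c6b91c96f7128ccd218f68b6796668f56b1a3b038f450d11cd08476c1abf7387f765dfc0c7f65e2fb06b8f5220d52608f450d1b9328276c24e80b37f749c81c17c9f62d3343dd4daf55ea4a43bfcaf450d342d4d9066c48e17369b419c340b8f6b046c6f98f52d325c6f8f450d457dd369b1970e5f8181ebeb48f67cf7dca88f52284118d8f450d467 = true := by decide +kernel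

theorem cB17_13_3_10 : chunkOkM (LB17_13.ctx true true 274 59 32 19 16 721 1133 77 105) muQ true true 64 RtB17_13.Cx RtB17_13.CX RtB17_13.Ctp.right.right.left.left.right RtB17_13.Ce.right.right.left.left.right RtB17_13.CTp.right.right RtB17_13.CEr.right.right 0xa403a67d8f04b97cc0d675c5f95b46f74c931ea18f67c4c487c8f568390587f450d6a8279675cdc3ed96f74caedf3d8f66494a93c8f540d7110ee447fd59ecbb66c4ff6559b18a032548f643b359f68f550d98a32166c1eedfb69b23c0a6a98f66d37cb098f540d3672238f66c9c1f696f73b8020db8f64d2cc2b38f540d5e110a27fd427f1366cb08c059b3b7a89cf8f6515fc9418f550d647 = true := by decide +kernel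

theorem cB17_13_3_11 : chunkOkM (LB17_13.ctx true true 268 29 16 19 16 735 1133 77 105) muQ true true 64 RtB17_13.Cx RtB17_13.CX RtB17_13.Ctp.right.right.left.right RtB17_13.Ce.right.right.left.left RtB17_13.CTp.right.right RtB17_13.CEr.right.right 0x1169115e5bf1d7fdaffdf3475cef4e2a6f750ce4eba8f62fd155b18f550da331a477fd9aac8266c11dc2469b5d3be32a8f633f290958f550d6694731143 = true := by decide +kernel

theorem cB17_13_3_12 : chunkOkM (LB17_13.ctx true true 243 15 8 19 16 175 297 77 35) muQ true true 64 RtB17_13.Cx RtB17_13.CX RtB17_13.Ctp.right.right.left.left RtB17_13.Ce.right.right.left.right RtB17_13.CTp.right.right RtB17_13.CEr.right.left 0x304de63f89b2130375b79f8148b3812a9f6925328ff8f540d = true := by decide +kernel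

theorem cB17_13_3_13 : chunkOkM (LB17_13.ctx true true 252 15 8 19 16 343 583 77 49) muQ true true 64 RtB17_13.Cx RtB17_13.CX RtB17_13.Ctp.right.right.left.left.left RtB17_13.Ce.right.right.left.right.left RtB17_13.CTp.right.right RtB17_13.CEr.right.right 0x183fda179b3be22d438f991e8cdf819f515fe2d91bcaf440d = true := by decide +kernel

theorem cB17_13_3_14 : chunkOkM (LB17_13.ctx true true 274 59 32 19 16 721 1177 77 105) muQ true true 64 RtB17_13.Cx.left RtB17_13.CX RtB17_13.Ctp.right.right.left.left.right RtB17_13.Ce.right.right.left.right.left RtB17_13.CTp.right.right RtB17_13.CEr.right.right 0x8cde4f66cc653436f7521c2d868f699c927d68f540d7f2883c75c53b6076f73fbdb0838f67bbe97fd8f540ddcc963a75cd7e5c16f715685aff8f67499608c8f53b449f068f450d3e4c78a575c29aef947f7494020168f668a526c08f540d743d01a466c93ef350d8f6aedc3a318f530d3ba33366cd90da59b38693fc08f67b2d42268f540d46 = true := by decide +kernel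

theorem cB17_13_3_15 : chunkOkM (LB17_13.ctx true true 268 31 16 19 16 721 1177 77 105) muQ true true 64 RtB17_13.Cx.right RtB17_13.CX RtB17_13.Ctp.right.right.left.left.right RtB17_13.Ce.right.right.left.right.left RtB17_13.CTp.right.right RtB17_13.CEr.right.right 0xc24ed966c9729596f72d6fe5c98f675f2936d8f54b505beb8f450d98700d66c10dac56f7a8b0f7108f6b63ac8b78f5441239f98f450d434028d69b3999ff208f678ad587f8f54189e8f58f440d6493 = true := by decide +kernel

theorem cB17_13_3_16 : chunkOkM (LB17_13.ctx true true 300 243 128 19 16 2905 4763 77 105) muQ true true 64 RtB17_13.Cx RtB17_13.CX RtB17_13.Ctp.right.right.left.left RtB17_13.Ce.right.right.left.right.right RtB17_13.CTp.right.right RtB17_13.CEr.right.right 0x495949595969d7c87f8f05b4d9dc66b8f05b659759345934747493493597 = true := by decide +kernel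

theorem cB17_13_3_17 : chunkOkM (LB17_13.ctx true true 244 15 8 19 16 189 297 77 35) muQ true true 64 RtB17_13.Cx RtB17_13.CX RtB17_13.Ctp.right.right.left.right RtB17_13.Ce.right.right.left.right RtB17_13.CTp.right.right RtB17_13.CEr.right.left 0x829de54089b3341ef4719f820d = true := by decide +kernel

end Vale.Agent.helper4.Q4
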