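import Vale.Agent.helper4.Q4TreeM
import Vale.Agent.helper4.Q4G.PB17_13

/-!
Checks for pairs of intervals of second moments.
-/

set_option maxRecDepth 100000
set_option linter.unusedVariables false

namespace Vale.Agent.helper4.Q4

theorem cB17_13_3_18 : chunkOkM (LB17_13.ctx true true 279 59 32 19 16 749 1155 165 105) muQ true true 64 RtB17_13.Cx.left RtB17_13.CX RtB17_13.Ctp.right.right.left.right.left RtB17_13.Ce.right.right.left.right.left.left RtB17_13.CTp.right.right RtB17_13.CEr.right.right 0x997c6db75ca2f5f66f78dee246e8f662b823be8f540d19381d37fd95961a66c8a4d20c58f656cf4aa18f540d684e199f7fd7defb3875c76bdc5f76e8186088f61dc1209a8f550d45e4c407fd71018b675cace4f26f7430530928f643fd6f1e8f550d3ff2c8827fd23951bc7f829d87a748f6359e29758f540d140f346fd81131466c4e435d278b57f665298f6271f03008f550d5256bd7b7fd58b24a66c3081a9478f635180a5c8f540d367 = true := by decide +kernel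

theorem cB17_13_3_19 : chunkOkM (LB17_13.ctx true true 282 59 32 19 16 749 2365 165 105) muQ true true 64 RtB17_13.Cx.left RtB17_13.CX RtB17_13.Ctp.right.right.left.right.left RtB17_13.Ce.right.right.left.right.left.right RtB17_13.CTp.right.right RtB17_13.CEr.right.right 0x14381807fd8a6fc3775c49468568ba1b9d2808f63de8f6898f550d5ee55b975c13a0be6f7568fee868f66d686d158f540d3563d4517fd877ab7e75c10380607f7233b79a48f63cba76c08f550d81858a17fd723ddc375cb95a206f73812e9d48f632ba7adc8f550d42ea444f7fd7e41e9775c8dbfe76f75adafbd48f65b08c2dc8f550d3746521aa7fd39b63977f8197526f08f6486100548f540d12766e47fd8eed7b66c30a4d369b11c7997e8f640b19ea38f550d56 = true := by decide +kernel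

theorem cB17_13_3_20 : chunkOkM (LB17_13.ctx true true 261 31 16 19 16 371 583 77 105) muQ true true 64 RtB17_13.Cx.right RtB17_13.CX RtB17_13.Ctp.right.right.left.right.left RtB17_13.Ce.right.right.left.right.left RtB17_13.CTp.right.right RtB17_13.CEr.right.right 0x5b06d266c1245f59b671d41078f67cfd1fd18f540d4bba4466c305d8069b80611d148f67aec46f18f540d6 = true := by decide +kernel

theorem cB17_13_3_21 : chunkOkM (LB17_13.ctx true true 291 57 32 73 64 385 583 605 105) muQ true true 64 RtB17_13.Cx RtB17_13.CX RtB17_13.Ctp.right.right.left.right.right RtB17_13.Ce.right.right.left.right.left RtB17_13.CTp.right.right RtB17_13.CEr.right.right 0x11692d3f7ab98f9bf7417e7f83b53df318f61213471c8f540d2e9a5d37fd81e4e766c23917f27f76080eda98f6f8d092e7f550d577159fd9578fd4ff9f1c7f8355b18b68f617cd7db68f540d64a4a5a5e89e087fd63241a66c35ca8269b311a6d8e8f6129b69168f550d6884a54a55 = true := by decide +kernel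

theorem cB17_13_3_22 : chunkOkM (LB17_13.ctx true true 279 59 32 19 16 749 1221 165 105) muQ true true 64 RtB17_13.Cx.left RtB17_13.CX RtB17_13.Ctp.right.right.left.right.left RtB17_13.Ce.right.right.left.right.right RtB17_13.CTp.right.right RtB17_13.CEr.right.right 0x98ec3e66cd62f4d6f755b6ded78f666bbbaf08f540d2c02f867fd4786e7775c43ad344f8f6577b6c4d8f540d9b4f52c75cc2e8b36f7df7c43398f6ac359cd38f540d343b1d227fd8a14e666cdffd416f7604447318f6472b25bc8f550d742c466a77fddea3e36f91283ee57f7336d2a448f6607e802e8f550d69738666c32ec3469b325ca4e38f65f5ec5148f540d56 = true := by decide +kernel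

theorem cB17_13_3_23 : chunkOkM (LB17_13.ctx true true 279 57 32 19 16 777 1199 165 105) muQ true true 64 RtB17_13.Cx.left.left RtB17_13.CX RtB17_13.Ctp.right.right.left.right.right RtB17_13.Ce.right.right.left.right.right.left RtB17_13.CTp.right.right RtB17_13.CEr.right.right 0xfceaefd7fd122b7d0785c4ace4f27f885b4abe18f640d1e40c602f95c1746c815998b858f8d838f630d58e450937fd456419a75c273111b7f7677770fe8f624a3bb2d8f550d253700f0b95c1ce6b103e98b3065268e8f530d531067b9b38fd17781f97f871877fc08f6f864fb37f540d49a33497fd4c9d58375c52ba61778b6cccac678f6121b59918f550d56 = true := by decide +kernel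

theorem cB17_13_3_24 : chunkOkM (LB17_13.ctx true true 282 59 32 19 16 777 2409 165 105) muQ true true 64 RtB17_13.Cx.left.right RtB17_13.CX RtB17_13.Ctp.right.right.left.right.right RtB17_13.Ce.right.right.left.right.right.left RtB17_13.CTp.right.right RtB17_13.CEr.right.right 0xe4de1657f06b82039fc75c4c9ab357f7b06497278f62b273b0b8f540d270b5e10f95c1e0fef43b98b65f358d28f6424795048f540d571b05c43119988c78fd1cce2f57f864198ff78f62a5f81d78f540d849a596fd47448466c1c777069b651dc99a8f6307bf6e28f550d56 = true := by decide +kernel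

theorem cB17_13_3_25 : chunkOkM (LB17_13.ctx true true 294 29 16 73 64 385 1221 605 385) muQ true true 64 RtB17_13.Cx.left RtB17_13.CX RtB17_13.Ctp.right.right.left.right.right RtB17_13.Ce.right.right.left.right.right.right RtB17_13.CTp.right.right RtB17_13.CEr.right.right.left 0x1a8014aa8fd531e3e6f91659d3e7f7393d1a908f62dba3f548f550d6a61264a4a6c189f87fd48a86966c347a32f98f62bc0dba68f540d6a6884a54a55 = true := by decide +kernel

theorem cB17_13_3_26 : chunkOkM (LB17_13.ctx true true 279 57 32 19 16 777 1221 165 105) muQ true true 64 RtB17_13.Cx.left.left RtB17_13.CX RtB17_13.Ctp.right.right.left.right.right RtB17_13.Ce.right.right.left.right.right.right RtB17_13.CTp.right.right RtB17_13.CEr.right.right.right 0x65f40507fd5917a5a75c295625f83ab0cff7f789d5048a8f6bb9a67f7f560d2e5fe80d595c25eafef1898b267bb6ba8f630d58c315217fdaf18db375cf8aea26f75c2c7ea18f630c361ae8f550d3 = true := by decide +kernel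

end Vale.Agent.helper4.Q4
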