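import Vale.Agent.helper4.Q4TreeM
import Vale.Agent.helper4.Q4G.PB17_13

/-!
Checks for pairs of intervals of second moments.
-/

set_option maxRecDepth 100000
set_option linter.unusedVariables false

namespace Vale.Agent.helper4.Q4

theorem cB17_13_3_27 : chunkOkM (LB17_13.ctx true true 282 59 32 19 16 777 2453 165 105) muQ true true 64 RtB17_13.Cx.left.right RtB17_13.CX RtB17_13.Ctp.right.right.left.right.right RtB17_13.Ce.right.right.left.right.right.right RtB17_13.CTp.right.right RtB17_13.CEr.right.right.right 0x5f3b4c97fd59a75f075ccdef636f838e1a457f7793fedeb8f62b66906d8f560d1d691a3f295c16a68858a98b23397b3599f630d512dd0cef89f06b11c05c5434aaf147fd5ffec1a75c6c748d6f744300bfc8f64ba26f798f550d54d0c387fdbffe47975c4e20fe47f75465c3928f655fa0b488f550d2087eec7095c1ae768fb998b524b53138f630d543 = true := by decide +kernel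

theorem cB17_13_3_28 : chunkOkM (LB17_13.ctx true true 272 31 16 19 16 749 1221 165 91) muQ true true 64 RtB17_13.Cx.right RtB17_13.CX RtB17_13.Ctp.right.right.left.right.left RtB17_13.Ce.right.right.left.right.right RtB17_13.CTp.right.right RtB17_13.CEr.right.right.left 0x627e84c7f932b831a7f721bf306e8f677a011368f51252e0948f450d2d05a466c9cecf569b2164dc208f677a9b7298f514718fb58f450d53a48d966ca29de59b31c80ca28f65a0efe6c8f540d2d734f69b189194f18f666f00f378f5ceada357f440d34 = true := by decide +kernel

theorem cB17_13_3_29 : chunkOkM (LB17_13.ctx true true 279 61 32 19 16 749 1199 165 105) muQ true true 64 RtB17_13.Cx.right RtB17_13.CX RtB17_13.Ctp.right.right.left.right.left RtB17_13.Ce.right.right.left.right.right.left RtB17_13.CTp.right.right RtB17_13.CEr.right.right.right 0x6bcb2766ca6a965f73f4b76dd8f66563a4178f540d4917c3c5f76c3ee35f57f723278d878f661f0db5b8f540d4447080c695c358fb3d389bd480f317f6672c37c48f540d573 = true := by decide +kernel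

theorem cB17_13_3_30 : chunkOkM (LB17_13.ctx true true 279 63 32 19 16 749 1221 165 105) muQ true true 64 RtB17_13.Cx.right RtB17_13.CX RtB17_13.Ctp.right.right.left.right.left RtB17_13.Ce.right.right.left.right.right.right RtB17_13.CTp.right.right RtB17_13.CEr.right.right.right 0x85736166c46625c67f71398d904e9f6d8013e488f540d386e8c768f05b53fa116c7fde95e8666c3c1deed7f72e428c238f6582f76208f550d3a64dd24495c2d8fdfaa89b28b7923a8f672d0f11f8f540d5749a6d666f75c6a0385f73bde49da8f68bf61d878f52160d07a8f450d73 = true := by decide +kernel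

theorem cB17_13_3_31 : chunkOkM (LB17_13.ctx true true 273 31 16 19 16 763 1221 165 105) muQ true true 64 RtB17_13.Cx.right RtB17_13.CX RtB17_13.Ctp.right.right.left.right.right RtB17_13.Ce.right.right.left.right.right RtB17_13.CTp.right.right RtB17_13.CEr.right.right 0x6967864a66c311aa1188f643f9ff4a8f530d3694eac4fcd7fd8927f047f9237510e7f84ff2e6098f64a4228d08f550d95bbfd66c28992169b4b5acd9d8f6538ee3058f540d56946 = true := by decide +kernel

theorem cB17_13_3_32 : chunkOkM (LB17_13.ctx true true 103 1 1 1 1 1 1 1 1) muQ true true 64 RtB17_13.Cx RtB17_13.CX RtB17_13.Ctp.right.right.left.left RtB17_13.Ce.right.right.right RtB17_13.CTp.right.right RtB17_13.CEr.right 0x59 = true := by decide +kernel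

theorem cB17_13_3_33 : chunkOkM (LB17_13.ctx true true 244 15 8 19 16 189 319 77 35) muQ true true 64 RtB17_13.Cx RtB17_13.CX RtB17_13.Ctp.right.right.left.right RtB17_13.Ce.right.right.right.left RtB17_13.CTp.right.right RtB17_13.CEr.right.left 0x6781e1ce89b2933748de9f8dcd8796f68f519d8e8f5387de89d8f450d = true := by decide +kernel

theorem cB17_13_3_34 : chunkOkM (LB17_13.ctx true true 274 31 16 19 16 749 1265 165 105) muQ true true 64 RtB17_13.Cx RtB17_13.CX RtB17_13.Ctp.right.right.left.right.left RtB17_13.Ce.right.right.right.left.left RtB17_13.CTp.right.right RtB17_13.CEr.right.right 0xf280cf66c1c99e6008f935a41e649eaf5928a46b575af440d1435b4d76c411f9617f71237107b8f66a36f5a68f531dc002f8f450d78066066ce39c2ff7f940cdc23599f5a04813b3a9f440d347b4157c086c6116168f89b89530637f67c42916f8f5434220298f450d511b97d77fd2ed1edf7f914862a6f71c0ab9488f68adc60888f54c13c6c38f460d31622966c7d4ef669b3d43da448f69bc133748f51eb6091e8f450d56597 = true := by decide +kernel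

theorem cB17_13_3_35 : chunkOkM (LB17_13.ctx true true 279 59 32 19 16 777 1265 165 105) muQ true true 64 RtB17_13.Cx.left RtB17_13.CX RtB17_13.Ctp.right.right.left.right.right RtB17_13.Ce.right.right.right.left.left RtB17_13.CTp.right.right RtB17_13.CEr.right.right 0x504c0197fdb6e7cc66c14605617f85f3901858f63b84b4da8f550d71d9d787fd2c8f26475c2af13087f762c9d2ca8f631f5681e8f550d25d43b5bd95c1d2813b9e98bd9801197f641dadf1a8f540d523e1ae67fd916787c75ccdf8996f767dcd3dd8f64e599a4e8f550d34e90c5dc7fd3efdcca7f821bb1d968f649aedc538f540d608e2066ca723459b3823c5f28f6405baed18f540d56597 = true := by decide +kernel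

theorem cB17_13_3_36 : chunkOkM (LB17_13.ctx true true 273 31 16 19 16 777 1243 165 91) muQ true true 64 RtB17_13.Cx.right RtB17_13.CX RtB17_13.Ctp.right.right.left.right.right RtB17_13.Ce.right.right.right.left.left.left RtB17_13.CTp.right.right RtB17_13.CEr.right.right.left 0xec39c977fd958d8357f9913d9e6f7550585868f648cf68a18f550d48bf3866c2f15cee28f64444e1a18f530d5e5ea159b4d61a56f8302cd00b8f65e45466f8f540d3 = true := by decide +kernel

theorem cB17_13_3_37 : chunkOkM (LB17_13.ctx true true 279 63 32 19 16 777 1243 165 105) muQ true true 64 RtB17_13.Cx.right RtB17_13.CX RtB17_13.Ctp.right.right.left.right.right RtB17_13.Ce.right.right.right.left.left.left RtB17_13.CTp.right.right RtB17_13.CEr.right.right.right 0x6971a37f66c2eaffb07f73b2f08058f668f16b468f540d3d65c80a8f05b532d594b66c58e4d357f7383b2eb78f6448c7d098f540d327a44a3195c298afc0ab98bad44079b8f630d5190428b7fd103f685785c3822ecf7f71df6e9208f64daa844b8f550d3331079a495c27fc2538298b84748bf7f658c6e5918f540d537 = true := by decide +kernel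

end Vale.Agent.helper4.Q4
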