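import Vale.Agent.helper4.Q4TreeM
import Vale.Agent.helper4.Q4G.PB17_13

/-!
Checks for pairs of intervals of second moments.
-/

set_option maxRecDepth 100000
set_option linter.unusedVariables false

namespace Vale.Agent.helper4.Q4

theorem cB17_13_3_38 : chunkOkM (LB17_13.ctx true true 269 31 16 19 16 385 1265 165 91) muQ true true 64 RtB17_13.Cx.right RtB17_13.CX RtB17_13.Ctp.right.right.left.right.right RtB17_13.Ce.right.right.right.left.left.right RtB17_13.CTp.right.right RtB17_13.CEr.right.right.left 0x6a5b1077fd32842517f836fe563d8f6673ac1dd8f540da9931b66c32a86169b28d54dea8f65cb62f7a8f540d5 = true := by decide +kernel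

theorem cB17_13_3_39 : chunkOkM (LB17_13.ctx true true 280 63 32 19 16 777 1265 165 105) muQ true true 64 RtB17_13.Cx.right RtB17_13.CX RtB17_13.Ctp.right.right.left.right.right RtB17_13.Ce.right.right.right.left.left.right RtB17_13.CTp.right.right RtB17_13.CEr.right.right.right 0x306b0437fdd8896566c283c55a7f7a38730068f6568ff3548f550d4912f5a786c395664ee89b3e09a2228f6586052528f540d5e962ec66c3db7e907f7509867968f683021ccc8f540d46d78a7486c374ad22d89bd21a7e27f66a26c67e8f51b060d4c8f450d53db0ca966c3de4b7f7f820dec177f7631b02a18f6602dfbfd8f550d3b6900a1a95c2e7e5a0089be9910e57f656f4b7c48f540d57 = true := by decide +kernel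

theorem cB17_13_3_40 : chunkOkM (LB17_13.ctx true true 306 255 128 19 16 3129 5203 165 105) muQ true true 64 RtB17_13.Cx RtB17_13.CX RtB17_13.Ctp.right.right.left.right RtB17_13.Ce.right.right.right.left.right RtB17_13.CTp.right.right RtB17_13.CEr.right.right 0x59595d092f688f05b460c30d38f05b55935974593597459759399fe1066c374f49d7f7196272e38f6614aae398f540d9bdc5e66cf4b71587f956df4dc48f6910e87218f540d35e07444b86c556272aa89b1bfcd6c48f630d54c0bd7ea7fd2d8a676f8433779c78f67df72afd8f540da5666b69b4d195ee08f6789922968f530d56597593 = true := by decide +kernel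

theorem cB17_13_3_41 : chunkOkM (LB17_13.ctx true true 103 1 1 1 1 1 1 1 1) muQ true true 64 RtB17_13.Cx RtB17_13.CX RtB17_13.Ctp.right.right.left.right RtB17_13.Ce.right.right.right.right RtB17_13.CTp.right.right RtB17_13.CEr.right 0x59 = true := by decide +kernel

theorem cB17_13_3_42 : chunkOkM (LB17_13.ctx true true 294 29 16 73 64 399 1221 605 385) muQ true true 64 RtB17_13.Cx RtB17_13.CX RtB17_13.Ctp.right.right.right.left RtB17_13.Ce.right.right.left RtB17_13.CTp.right.right RtB17_13.CEr.right 0x1111935c6b97fd4188eebe8f91352ca508f846a0a7a68f61bcbf9078f250d5e50ecb7fd4d867166c3b6740938f62d79a2f48f240d22f568d7fdf52cf566c2f8d9d87f854af10788f6ca9f006f1ef7fa137f060d45121d3569c58fd1d928e47f82ebf96358f63179af488f240d6a6126564a4a5a973b9987fd65fb9366c1bb50769b254eda598f61361dfe28f250d6a66884a54a5529bd18c689b11463ec3d9f820d671141143 = true := by decide +kernel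

theorem cB17_13_3_43 : chunkOkM (LB17_13.ctx true true 244 15 8 19 16 203 319 77 35) muQ true true 64 RtB17_13.Cx RtB17_13.CX RtB17_13.Ctp.right.right.right.left RtB17_13.Ce.right.right.right.left RtB17_13.CTp.right.right RtB17_13.CEr.right.left 0x4e4bbed489b223756e529f820d = true := by decide +kernel

theorem cB17_13_3_44 : chunkOkM (LB17_13.ctx true true 297 59 32 73 64 399 1265 605 189) muQ true true 64 RtB17_13.Cx RtB17_13.CX RtB17_13.Ctp.right.right.right.left RtB17_13.Ce.right.right.right.left.left RtB17_13.CTp.right.right.left RtB17_13.CEr.right.right 0x4a4a5a73e87fe7fd79736c66c689896fe8f61d9d9a188f540d0182d8ea97fd35b31666c8a24ec6a8f6f96ba987f5106cf9278f250d2175ecd1867fd7eb76c66cb69f459b80f95bbf8f62a7e4ca7f550d105944cc8fd40f69366c84af01518f61ac5d9e68f240d74376a66884a54a5 = true := by decide +kernel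

theorem cB17_13_3_45 : chunkOkM (LB17_13.ctx true true 291 59 32 37 32 413 1265 319 385) muQ true true 64 RtB17_13.Cx RtB17_13.CX RtB17_13.Ctp.right.right.right.left RtB17_13.Ce.right.right.right.left.left RtB17_13.CTp.right.right.right RtB17_13.CEr.right.right.left 0x126a525e7167fd318b1e17f89921ea57f77357d4d18f115f154f3e9f050d5a5154f78fd377ebf5a8f62761cf458f530d198dacdc8fd5e959ca7f9887c276f87dfe40968f6d36056c7f5875ea5b7f260d217126f747b8fd264f4f77f85b0fa2838f6c8490d37f540d14d88d2f8fd18469b175c5ba71dd7f910f876c869f64b5fa20c8f250d747386a61265 = true := by decide +kernel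

theorem cB17_13_3_46 : chunkOkM (LB17_13.ctx true true 288 119 64 19 16 805 2497 165 105) muQ true true 64 RtB17_13.Cx.left RtB17_13.CX RtB17_13.Ctp.right.right.right.left.left RtB17_13.Ce.right.right.right.left.left.left RtB17_13.CTp.right.right.right RtB17_13.CEr.right.right.right 0xb69c8337fd619ab366c43319f07f86a3d2d5a8f62b77fea88f2a66db547f060d6b7660e7fd35d387c75c14431357f8f7e4ff8d8f640daea3f9e7fd65810465c1ca18c77f7b691dc348f640d7c99249a7fd161f9e1785c68b3b747f8e90fc8428f640d4321d9131757fd935b6c275c42a1c887f8dcf4526e8f63ea2603e8f250d42177 = true := by decide +kernel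

theorem cB17_13_3_47 : chunkOkM (LB17_13.ctx true true 293 119 64 19 16 805 2541 341 105) muQ true true 64 RtB17_13.Cx.left RtB17_13.CX RtB17_13.Ctp.right.right.right.left.left RtB17_13.Ce.right.right.right.left.left.right RtB17_13.CTp.right.right.right RtB17_13.CEr.right.right.right 0x89375877fd14779f2185c89f06147f81114e9ea89f640d21766834e475c429e32268f7102bce28f9f6cb42dd77f240d38a470f7fd3ab28f975c95db3bab8f6468dc0ed8f240d5449201d67fd25ca19bc85cc0218917f873bd72db8f61f0d75898f550d6973217 = true := by decide +kernel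

end Vale.Agent.helper4.Q4
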