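import Vale.Agent.helper4.Q4TreeM
import Vale.Agent.helper4.Q4G.PB17_13

/-!
Checks for pairs of intervals of second moments.
-/

set_option maxRecDepth 100000
set_option linter.unusedVariables false

namespace Vale.Agent.helper4.Q4

theorem cB17_13_3_48 : chunkOkM (LB17_13.ctx true true 280 61 32 19 16 805 1265 165 105) muQ true true 64 RtB17_13.Cx.right RtB17_13.CX RtB17_13.Ctp.right.right.right.left.left RtB17_13.Ce.right.right.right.left.left RtB17_13.CTp.right.right.right RtB17_13.CEr.right.right.right 0x59238407fd1621d3176c7c185b27f8c6c67f898f640d694ac722f7fd162968576c6c6d1867f81f31a487f7629b84958f630bf8d7f8f560d7165aedf7f01b43 = true := by decide +kernel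

theorem cB17_13_3_49 : chunkOkM (LB17_13.ctx true true 261 15 8 19 16 413 627 165 105) muQ true true 64 RtB17_13.Cx RtB17_13.CX RtB17_13.Ctp.right.right.right.left.right RtB17_13.Ce.right.right.right.left.left RtB17_13.CTp.right.right.right RtB17_13.CEr.right.right.right 0x11ec6b6e8fd6bc896c7f9452e1b57f71753084409f13ce7d60b59f050d = true := by decide +kernel

theorem cB17_13_3_50 : chunkOkM (LB17_13.ctx true true 309 479 256 19 16 1617 5115 341 49) muQ true true 64 RtB17_13.Cx.left RtB17_13.CX RtB17_13.Ctp.right.right.right.left RtB17_13.Ce.right.right.right.left.right RtB17_13.CTp.right.right RtB17_13.CEr.right.right 0x2121012119fc49918f00caf20a26fd2560a057f82584505959f630d520772d575c48ac79278bb21be14b8f620b5d9378f240d52174693593321742172174 = true := by decide +kernel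

theorem cB17_13_3_51 : chunkOkM (LB17_13.ctx true true 301 63 32 73 64 399 1287 605 385) muQ true true 64 RtB17_13.Cx.right RtB17_13.CX RtB17_13.Ctp.right.right.right.left.left RtB17_13.Ce.right.right.right.left.right.left RtB17_13.CTp.right.right RtB17_13.CEr.right.right.left 0x126a60cf4566c8108d5108f634f259d38f530d2197539b8fd33778e66c5ee974d08f62426d79b8f540d76a6126854a4a10545f476c1547759b483290b58f63d7c76988f540d8b2b1df58f62abcba138f520d76a6884a54a55 = true := by decide +kernel

theorem cB17_13_3_52 : chunkOkM (LB17_13.ctx true true 289 123 64 19 16 805 2585 165 105) muQ true true 64 RtB17_13.Cx.right.left RtB17_13.CX RtB17_13.Ctp.right.right.right.left.left RtB17_13.Ce.right.right.right.left.right.left RtB17_13.CTp.right.right RtB17_13.CEr.right.right.right 0x26154e97fd319e98675c3fcfe6c7f7b8e2856e8f614b1907c8f550d36ed3d37fd1aa4a2d785c960561d7f811d4c49099f640d7640d77c98f06b9698d367fdd5d5fa6f8162b1917f712d1a74259f640d7427ce9b79595c1edeb5c6698b231f83108f631300b108f540d52b66c86fd409a03075c4bf38f57f7415800738f64040fbe78f550d226ae987d95c1cfa7986898b20d53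 = true := by decide +kernel

theorem cB17_13_3_53 : chunkOkM (LB17_13.ctx true true 280 63 32 19 16 805 1287 165 105) muQ true true 64 RtB17_13.Cx.right.right RtB17_13.CX RtB17_13.Ctp.right.right.right.left.left RtB17_13.Ce.right.right.right.left.right.left RtB17_13.CTp.right.right RtB17_13.CEr.right.right.right 0x18afe547fd51127766c71e9059b6facfe268f61249c7138f550d4e7b4466c43fa90c7f76eaebd818f64d21a5008f540d3df2b12c095c2f4b497289b130bba818f530d53 = true := by decide +kernel

theorem cB17_13_3_54 : chunkOkM (LB17_13.ctx true true 301 63 32 73 64 399 1309 605 385) muQ true true 64 RtB17_13.Cx.right RtB17_13.CX RtB17_13.Ctp.right.right.right.left.left RtB17_13.Ce.right.right.right.left.right.right RtB17_13.CTp.right.right RtB17_13.CEr.right.right.left 0x6a0216538b0e8fdd42e996f75e9156ae8f6452ac1488f540d103e55648fd21193e66c1e1d68f7f952f6fba48f63723f9b08f550d7586a61264a4a921f99a28f6534693848f520d1735d87b8fd198dd769b2c894b228f63d5e62148f540d76a6884a54a55 = true := by decide +kernel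

theorem cB17_13_3_55 : chunkOkM (LB17_13.ctx true true 289 123 64 19 16 805 2629 165 105) muQ true true 64 RtB17_13.Cx.right.left RtB17_13.CX RtB17_13.Ctp.right.right.right.left.left RtB17_13.Ce.right.right.right.left.right.right RtB17_13.CTp.right.right RtB17_13.CEr.right.right.right 0x575367a7fdc4895f6f8bc00fd6f7ca7cd3758f6206938698f550d2a40e827fd16fa34075c41838b27f7c30f21f88f626e357088f550d41bda5ff5895c16af9920898b20d5697593 = true := by decide +kernel

theorem cB17_13_3_56 : chunkOkM (LB17_13.ctx true true 289 127 64 19 16 805 2629 165 105) muQ true true 64 RtB17_13.Cx.right.right RtB17_13.CX RtB17_13.Ctp.right.right.right.left.left RtB17_13.Ce.right.right.right.left.right.right RtB17_13.CTp.right.right RtB17_13.CEr.right.right.right 0x5848c7075c4d056797f796b23bf28f647c70a0a8f540d3bf88a575c4b6c4b57f7d238e6d28f63a1fdc958f540d754d074f7fd5ed89c66c4250f037f761d628d98f63044e64b8f550d4395c428c295c2d10f6a1c98b3b8b64f08f530d5dc828e66c59cacb37f738312d2c8f657f29e518f540d35fac539595c2a4c9ffbb98b4dc9256f656c45d7e8f540d53 = true := by decide +kernel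

theorem cB17_13_3_57 : chunkOkM (LB17_13.ctx true true 298 63 32 73 64 413 1309 605 189) muQ true true 64 RtB17_13.Cx.right RtB17_13.CX RtB17_13.Ctp.right.right.right.left.right RtB17_13.Ce.right.right.right.left.right RtB17_13.CTp.right.right.left RtB17_13.CEr.right.right 0x4a4a5a46a5ae1e8f06b43608c66c554ff3968f6981f3a47f525d2c3268f240d75e610c5a8f06b46a66884a54a5 = true := by decide +kernel

end Vale.Agent.helper4.Q4
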