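import Vale.Agent.helper4.Q4TreeM
import Vale.Agent.helper4.Q4G.PB17_13

/-!
Checks for pairs of intervals of second moments.
-/

set_option maxRecDepth 100000
set_option linter.unusedVariables false

namespace Vale.Agent.helper4.Q4

theorem cB17_13_3_58 : chunkOkM (LB17_13.ctx true true 318 63 32 79 64 413 1309 10571 385) muQ true true 64 RtB17_13.Cx.right RtB17_13.CX RtB17_13.Ctp.right.right.right.left.right RtB17_13.Ce.right.right.right.left.right RtB17_13.CTp.right.right.right RtB17_13.CEr.right.right 0x0202020202b9d83f66c64004d07f920098d838f6c285db07f5204fd78d8f250d126028502855555735ff588f06b11aa8c97fd871ba466c1522b087f85385c5e78f6351ee4c48f250d7129bb057fd1be04f66c4d3b05f94d2ce6648f62570211f8f227a2a287f060d45126a1fc7920d8f06b17d7cb768fd694c276f8811a92d38f64755ef17f523441b5a8f250d729024aae8fd39079a07f81db1ffcd8f6333254aa8f240d486a612656 = true := by decide +kernel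

theorem cB17_13_3_59 : chunkOkM (LB17_13.ctx true true 103 1 1 1 1 1 1 1 1) muQ true true 64 RtB17_13.Cx.left RtB17_13.CX RtB17_13.Ctp.right.right.right.left RtB17_13.Ce.right.right.right.right RtB17_13.CTp.right.right RtB17_13.CEr.right 0x21 = true := by decide +kernel

theorem cB17_13_3_60 : chunkOkM (LB17_13.ctx true true 251 31 16 19 16 203 341 77 35) muQ true true 64 RtB17_13.Cx.right RtB17_13.CX RtB17_13.Ctp.right.right.right.left RtB17_13.Ce.right.right.right.right RtB17_13.CTp.right.right RtB17_13.CEr.right.left 0x3e8ccf5789b1a12812f99f820d = true := by decide +kernel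

theorem cB17_13_3_61 : chunkOkM (LB17_13.ctx true true 280 63 32 19 16 805 1331 165 105) muQ true true 64 RtB17_13.Cx.right RtB17_13.CX RtB17_13.Ctp.right.right.right.left.left RtB17_13.Ce.right.right.right.right.left RtB17_13.CTp.right.right RtB17_13.CEr.right.right 0x59f38c356c3af5f687f75163cbcc8f6511df6638f540d9ce9297e8f05b34756268d86c3b484ab089b764a13238f630d543b81b87fd1c48bff7f8560050798f64d6ab4348f540d30ac1b66c26ef10e78b75ea0b1b8f64daac5c68f540d565974 = true := by decide +kernel

theorem cB17_13_3_62 : chunkOkM (LB17_13.ctx true true 302 63 32 73 64 833 1353 605 189) muQ true true 64 RtB17_13.Cx.right RtB17_13.CX RtB17_13.Ctp.right.right.right.left.right RtB17_13.Ce.right.right.right.right.left RtB17_13.CTp.right.right.left RtB17_13.CEr.right.right 0x4a4a5a720fa6a7fd4de976728f61d904bf08f51b56a2478f240d75b8226f83712a7078f6429b8c818f530d3217d01cf9b7fd2a677b66c626493f58f6195a93f78f55606a547f250d65173e66c8ec90b418f6133170fd8f5476702a68f240d746a66884a54a5 = true := by decide +kernel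

theorem cB17_13_3_63 : chunkOkM (LB17_13.ctx true true 296 63 32 37 32 833 1353 319 385) muQ true true 64 RtB17_13.Cx.right RtB17_13.CX RtB17_13.Ctp.right.right.right.left.right RtB17_13.Ce.right.right.right.right.left RtB17_13.CTp.right.right.right RtB17_13.CEr.right.right.left 0x126a2939376b8fd1bb696775c790a3b288f618bd53168f51d2c9a1e8f250d14165e2b8fd6573eb6f84406fd988f633f99ca68f540d321727da525e8fd1f661bf7f889e1f76f7630b00248f6195ce7ad8f550d19151cab8fdc2e45e6f8db8ab4fd8f62949e50d8f240d7486a61265 = true := by decide +kernel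

theorem cB17_13_3_64 : chunkOkM (LB17_13.ctx true true 304 495 256 19 16 819 5291 165 105) muQ true true 64 RtB17_13.Cx.right.left RtB17_13.CX RtB17_13.Ctp.right.right.right.left.right RtB17_13.Ce.right.right.right.right.left.left RtB17_13.CTp.right.right.right RtB17_13.CEr.right.right.right 0x2121019b91ae87fd1d5ac327f81a657bdbd9f630d321742174217 = true := by decide +kernel

theorem cB17_13_3_65 : chunkOkM (LB17_13.ctx true true 293 127 64 19 16 1645 2673 165 105) muQ true true 64 RtB17_13.Cx.right.right RtB17_13.CX RtB17_13.Ctp.right.right.right.left.right.left RtB17_13.Ce.right.right.right.right.left.left RtB17_13.CTp.right.right.right RtB17_13.CEr.right.right.right 0x7996616fd245c1e275c34882837f710223c9ba9f640de702036fd4c73d4175c41727da7f7b641b12c8f637d579b98f550d328d78d37fd178dfe6f83a238997f718e3a26ce9f640d326e336fd163644d75c31be78d7f755ea405b8f638da599d8f550d379deecf688f06b5e71c8b7fdc785e865c39c83057f711c7658629f640d233cc827fd99ce0f65c39e0f5b7f7d98f2cc28f624d8eed48f550d374 = true := by decide +kernel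

theorem cB17_13_3_66 : chunkOkM (LB17_13.ctx true true 284 63 32 19 16 833 1331 341 105) muQ true true 64 RtB17_13.Cx.right.right RtB17_13.CX RtB17_13.Ctp.right.right.right.left.right.right RtB17_13.Ce.right.right.right.right.left.left RtB17_13.CTp.right.right.right RtB17_13.CEr.right.right.right 0x7105302d8f91ed50f828f8292ebb608f650d710378f23f602a37f150da8e8c8ef8f06b5 = true := by decide +kernel

theorem cB17_13_3_67 : chunkOkM (LB17_13.ctx true true 103 1 1 1 1 1 1 1 1) muQ true true 64 RtB17_13.Cx.right.left RtB17_13.CX RtB17_13.Ctp.right.right.right.left.right RtB17_13.Ce.right.right.right.right.left.right RtB17_13.CTp.right.right.right RtB17_13.CEr.right.right.right 0x21 = true := by decide +kernel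

theorem cB17_13_3_68 : chunkOkM (LB17_13.ctx true true 296 127 64 19 16 1645 5401 165 105) muQ true true 64 RtB17_13.Cx.right.right RtB17_13.CX RtB17_13.Ctp.right.right.right.left.right.left RtB17_13.Ce.right.right.right.right.left.right RtB17_13.CTp.right.right.right RtB17_13.CEr.right.right.right 0x294d63975c370fa7a7f710707f90c9f636f6c4848f540d9cc92d65c35719a77f713187290c9f626f578d88f540d2f9a73f7fd488cb5a75c391ea1d7f714698a2ce9f6138bb3628f550d4260a2087fd36961f6f810e7f5b7f7d417e7a58f63da3d0dd8f550d34697 = true := by decide +kernel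

end Vale.Agent.helper4.Q4
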