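import Vale.Agent.helper4.Q4TreeM
import Vale.Agent.helper4.Q4G.PB17_15

/-!
Checks for pairs of intervals of second moments.
-/

set_option maxRecDepth 100000
set_option linter.unusedVariables false

namespace Vale.Agent.helper4.Q4

theorem cB17_15_3_0 : chunkOkM (LB17_15.ctx true true 98 1 1 1 1 1 1 1 1) muQ true true 64 RtB17_15.Cx RtB17_15.CX RtB17_15.Ctp.left RtB17_15.Ce RtB17_15.CTp RtB17_15.CEr 0x41 = true := by decide +kernel

theorem cB17_15_3_1 : chunkOkM (LB17_15.ctx true true 98 1 1 1 1 1 1 1 1) muQ true true 64 RtB17_15.Cx RtB17_15.CX RtB17_15.Ctp.right RtB17_15.Ce.left RtB17_15.CTp RtB17_15.CEr 0x69 = true := by decide +kernel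

theorem cB17_15_3_2 : chunkOkM (LB17_15.ctx true true 98 1 1 1 1 1 1 1 1) muQ true true 64 RtB17_15.Cx RtB17_15.CX RtB17_15.Ctp.right RtB17_15.Ce.right RtB17_15.CTp.left RtB17_15.CEr 0x42 = true := by decide +kernel

theorem cB17_15_3_3 : chunkOkM (LB17_15.ctx true true 98 1 1 1 1 1 1 1 1) muQ true true 64 RtB17_15.Cx RtB17_15.CX RtB17_15.Ctp.right RtB17_15.Ce.right RtB17_15.CTp.right RtB17_15.CEr.left 0x6a = true := by decide +kernel

theorem cB17_15_3_4 : chunkOkM (LB17_15.ctx true true 98 1 1 1 1 1 1 1 1) muQ true true 64 RtB17_15.Cx RtB17_15.CX RtB17_15.Ctp.right RtB17_15.Ce.right RtB17_15.CTp.right.left RtB17_15.CEr.right 0x42 = true := by decide +kernel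

theorem cB17_15_3_5 : chunkOkM (LB17_15.ctx true true 98 1 1 1 1 1 1 1 1) muQ true true 64 RtB17_15.Cx RtB17_15.CX RtB17_15.Ctp.right RtB17_15.Ce.right RtB17_15.CTp.right.right.left RtB17_15.CEr.right 0x4a = true := by decide +kernel

theorem cB17_15_3_6 : chunkOkM (LB17_15.ctx true true 98 1 1 1 1 1 1 1 1) muQ true true 64 RtB17_15.Cx RtB17_15.CX RtB17_15.Ctp.right RtB17_15.Ce.right RtB17_15.CTp.right.right.right RtB17_15.CEr.right.left 0x12 = true := by decide +kernel

theorem cB17_15_3_7 : chunkOkM (LB17_15.ctx true true 291 113 64 2949 2048 665 77 45 119) muQ true true 64 RtB17_15.Cx RtB17_15.CX RtB17_15.Ctp.right.left RtB17_15.Ce.right RtB17_15.CTp.right.right.right RtB17_15.CEr.right.right 0x494949d220656fd549c5569b78b41c17f919965847f83d1a6f298e6e6994d27f5950118a7f470db54dc4c7edc5c84f68b9bd72d6f932c8bb678e66cfe0cb7f550d4777493493493413 = true := by decide +kernel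

theorem cB17_15_3_8 : chunkOkM (LB17_15.ctx true true 98 1 1 1 1 1 1 1 1) muQ true true 64 RtB17_15.Cx RtB17_15.CX RtB17_15.Ctp.right.right RtB17_15.Ce.right.left RtB17_15.CTp.right.right.right RtB17_15.CEr.right.right 0x69 = true := by decide +kernel

theorem cB17_15_3_9 : chunkOkM (LB17_15.ctx true true 291 29 16 2949 2048 357 1133 45 255) muQ true true 64 RtB17_15.Cx RtB17_15.CX RtB17_15.Ctp.right.right.left RtB17_15.Ce.right.right.left.left RtB17_15.CTp.right.right.right RtB17_15.CEr.right.right 0x887ab687ed657855775c390b8b178b1e84417e8e810ddbf77f754cb64cc8e6393d6be7f570db39276d7ed5408a1478b6cc3e587f918e476448e817a20de7f6475935d7f560d499e0c0df7ed1eb955578b8c20c96f9bc89236f71cd77887f6ca9423e7f5d6aaf7b7f470d17cac2fd8ed6e2d74e78b99641ee7f922eff5958e8498265f7605234d7f6c380c837f54a865797f480db6f97717ed19c532078b6695fea7e841715347f6ac0ccb07f550d6473995da937ed847961f75c2d0980178b2a62092b8e8419e90ed8e641aa5d07f560d12e267da8ed577a52178b7b3122a7f9199df9728e822f2f7ab8e67309eb27f542bd26e7f470dc5c4e607edd130a968b159cd6b7e817531ee7f669fab9e7f51cbaa227f460d6343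 = true := by decide +kernel

theorem cB17_15_3_10 : chunkOkM (LB17_15.ctx true true 292 31 16 2949 2048 721 1177 45 119) muQ true true 64 RtB17_15.Cx RtB17_15.CX RtB17_15.Ctp.right.right.left.left RtB17_15.Ce.right.right.left.right RtB17_15.CTp.right.right.right RtB17_15.CEr.right.right 0x962c0fc7ed3028e7c78b37ff146f91b65cb37f79e1ba66f6e0868b97f51579376b8f470d84c6f427edb61b3c68b5bff15f91a14a347f65aae4df7f5323ab017f460d493a56c6db7ed8fefd868b178f7047f9df4a7f47f611fc70de8f550da55d2947ed23381b078b2d2059e7f978cc0dc7e810afc797f646c1e047f560dbcace587edbebd5568bb8ff036f9632734a7f6ab7481d7f550d3471967f0588ed84ea2f68b847fb197e823361a128f63ddde2068f547ae3b118f460d34 = true := by decide +kernel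

theorem cB17_15_3_11 : chunkOkM (LB17_15.ctx true true 296 31 16 2949 2048 749 1221 45 255) muQ true true 64 RtB17_15.Cx RtB17_15.CX RtB17_15.Ctp.right.right.left.right RtB17_15.Ce.right.right.left.right RtB17_15.CTp.right.right.right RtB17_15.CEr.right.right 0x727fb0f7ed101d9d278b1bce3977f927b6d347f63030f827f550d66449d67ed100d15f98dc225f71e98ac97f650659267f550d64c68d57ed9d8a9f68bad08ad6f97822066f69dd1e867f5d615b577f460d3757f8a77edccbdaa68b44b2686f93606d577f65e29bf47f5cd81da6f460d4a17b1397ede102de68b197ab297f9562f68d7f67bdb3f17f550d73db528977ed940632878bd57cedc7f92f6cf9c68e831d60daa8e642fdcc37f560d83872067ed2a694b65c13e161178b18eff047f632c57a57f550d64 = true := by decide +kernel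

theorem cB17_15_3_12 : chunkOkM (LB17_15.ctx true true 266 15 8 2949 2048 105 143 45 119) muQ true true 64 RtB17_15.Cx RtB17_15.CX RtB17_15.Ctp.right.right.right RtB17_15.Ce.right.right.left RtB17_15.CTp.right.right.right RtB17_15.CEr.right.right 0x4c15526fd171709475c3ac3716f718fc005a8e636540c17f22f9cbc27e160d = true := by decide +kernel

theorem cB17_15_3_13 : chunkOkM (LB17_15.ctx true true 98 1 1 1 1 1 1 1 1) muQ true true 64 RtB17_15.Cx RtB17_15.CX RtB17_15.Ctp.right.right.left.left RtB17_15.Ce.right.right.right RtB17_15.CTp.right.right.right RtB17_15.CEr.right.right 0x59 = true := by decide +kernel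

theorem cB17_15_3_14 : chunkOkM (LB17_15.ctx true true 303 63 32 2949 2048 749 1265 45 255) muQ true true 64 RtB17_15.Cx RtB17_15.CX RtB17_15.Ctp.right.right.left.right.left RtB17_15.Ce.right.right.right.left.left RtB17_15.CTp.right.right.right RtB17_15.CEr.right.right 0x63455a67ed6486c468b460a4c6f946f866cdf9f5c2026385f9f450df3389ad7ed4a273a378b19f438c7f926bea007f7f9d8b16f682572687f567977387f470d221f34c08ed1b1570078b78cbb337e81c9adc27f660d9f897f59604a66f460d66d3abcc7ed83160868bc995406f9a11062c7f540d74c9ee1b7ed127a0b278b1ffbdd6f957b772c38f5e051a49d8f450d34597 = true := by decide +kernel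

theorem cB17_15_3_15 : chunkOkM (LB17_15.ctx true true 293 31 16 2949 2048 777 1265 45 119) muQ true true 64 RtB17_15.Cx RtB17_15.CX RtB17_15.Ctp.right.right.left.right.right RtB17_15.Ce.right.right.right.left.left RtB17_15.CTp.right.right.right RtB17_15.CEr.right.right 0x46bf1c17ed177954e78b17b7a5b7f9346e3317f64c78b657f550d63889817edbaa3e468b2fdd696f92ebedb67f669621647f550d359836127ed11fb78678bfbdcdf6f92a156147f649a045e7f550d48a1fee67ede981c968b224ca2d7f953da70d7f658599ec7f550d7 = true := by decide +kernel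

theorem cB17_15_3_16 : chunkOkM (LB17_15.ctx true true 293 31 16 2949 2048 777 1309 45 119) muQ true true 64 RtB17_15.Cx RtB17_15.CX RtB17_15.Ctp.right.right.left.right RtB17_15.Ce.right.right.right.left.right RtB17_15.CTp.right.right.right RtB17_15.CEr.right.right 0x5b8c7ab7eded56c168bf04b956f913c745a38f6c570b587f550d4e46a827ed80ad1468b32a0da6f9c9442e6f64e759db7f550d44843427ed89d25068b620fa16f916ae522d8f612a105c78f550d34597593 = true := by decide +kernel

theorem cB17_15_3_17 : chunkOkM (LB17_15.ctx true true 98 1 1 1 1 1 1 1 1) muQ true true 64 RtB17_15.Cx RtB17_15.CX RtB17_15.Ctp.right.right.left.right RtB17_15.Ce.right.right.right.right RtB17_15.CTp.right.right.right RtB17_15.CEr.right.right 0x59 = true := by decide +kernel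

theorem cB17_15_3_18 : chunkOkM (LB17_15.ctx true true 292 31 16 2949 2048 413 1309 45 255) muQ true true 64 RtB17_15.Cx RtB17_15.CX RtB17_15.Ctp.right.right.right.left RtB17_15.Ce.right.right.right.left RtB17_15.CTp.right.right.right RtB17_15.CEr.right.right 0x2119c717ed13bba9375c3e2595f932820c67f6f67c936f520dc3de7f260d3df0a1e7edab2fd268ba35a026f935ba6757f63b8bc907f550d384f1fa7edadf65268befb7286f950450457f628ddd617f550d43f88d607ed104449775c86bcca6e8795d48e08e614b6ed17f52b9c26f7f260d73d23dc0f7ed3ed16ba78b22978577f923a965f7f7336ebe788e6247e3db7f51e649ae7f270d3e20cfe7ede6315b65c1e509b68b24f28097f622eacc07f51d9d3a37f260d64 = true := by decide +kernel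

theorem cB17_15_3_19 : chunkOkM (LB17_15.ctx true true 286 31 16 2949 2048 413 693 45 119) muQ true true 64 RtB17_15.Cx RtB17_15.CX RtB17_15.Ctp.right.right.right.left RtB17_15.Ce.right.right.right.right RtB17_15.CTp.right.right.right RtB17_15.CEr.right.right 0xf272e365c5b3fdb978b42e61bd7f78325c9078e6555bc747f550d2b8898a7edad75cb68b13e7ba07f93a4da097f622cbc4e7f5161adee7f260d27c04987edcfcebf68bf9f5076f96b364887f667148917f550d34217 = true := by decide +kernel

theorem cB17_15_3_20 : chunkOkM (LB17_15.ctx true true 98 1 1 1 1 1 1 1 1) muQ true true 64 RtB17_15.Cx RtB17_15.CX RtB17_15.Ctp.right.right.right.right RtB17_15.Ce.right.right.right RtB17_15.CTp.right.right.right RtB17_15.CEr.right.right 0x01 = true := by decide +kernel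

theorem cB17_15_2_0 : chunkOkM (LB17_15.ctx false true 98 1 1 1 1 1 1 1 1) muQ false true 64 RtB17_15.Cx RtB17_15.CX RtB17_15.Ctn RtB17_15.Ce RtB17_15.CTp RtB17_15.CEr 0x49 = true := by decide +kernel

theorem cB17_15_1_0 : chunkOkM (LB17_15.ctx true false 98 1 1 1 1 1 1 1 1) muQ true false 64 RtB17_15.Cx RtB17_15.CX RtB17_15.Ctp RtB17_15.Ce RtB17_15.CTn RtB17_15.CEr 0x4a = true := by decide +kernel

theorem cB17_15_0_0 : chunkOkM (LB17_15.ctx false false 98 1 1 1 1 1 1 1 1) muQ false false 64 RtB17_15.Cx RtB17_15.CX RtB17_15.Ctn RtB17_15.Ce RtB17_15.CTn RtB17_15.CEr 0x49 = true := by decide +kernel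

end Vale.Agent.helper4.Q4
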