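import Vale.Agent.helper4.Q4TreeM
import Vale.Agent.helper4.Q4G.PB17_3

/-!
Checks for pairs of intervals of second moments.
-/

set_option maxRecDepth 100000
set_option linter.unusedVariables false

namespace Vale.Agent.helper4.Q4

theorem cB17_3_3_0 : chunkOkM (LB17_3.ctx true true 82 1 1 1 1 1 1 1 1) muQ true true 64 RtB17_3.Cx RtB17_3.CX RtB17_3.Ctp.left RtB17_3.Ce RtB17_3.CTp RtB17_3.CEr 0x41 = true := by decide +kernel

theorem cB17_3_3_1 : chunkOkM (LB17_3.ctx true true 82 1 1 1 1 1 1 1 1) muQ true true 64 RtB17_3.Cx RtB17_3.CX RtB17_3.Ctp.right RtB17_3.Ce.left RtB17_3.CTp RtB17_3.CEr 0x69 = true := by decide +kernel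

theorem cB17_3_3_2 : chunkOkM (LB17_3.ctx true true 197 15 8 3 32 329 55 32 128) muQ true true 64 RtB17_3.Cx RtB17_3.CX RtB17_3.Ctp.right RtB17_3.Ce.right.left RtB17_3.CTp RtB17_3.CEr 0x69462c35d8a387d5c749aeaf67b621049bd38b51dc3a8b7c450d4934934133 = true := by decide +kernel

theorem cB17_3_3_3 : chunkOkM (LB17_3.ctx true true 210 29 16 3 32 665 143 32 128) muQ true true 64 RtB17_3.Cx RtB17_3.CX RtB17_3.Ctp.right.left RtB17_3.Ce.right.right RtB17_3.CTp RtB17_3.CEr 0x5949462c346c8a387d5c72ecdd487b626eaecd48b515ded917c450d74934934934413 = true := by decide +kernel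

theorem cB17_3_3_4 : chunkOkM (LB17_3.ctx true true 224 31 16 3 32 693 1133 32 128) muQ true true 64 RtB17_3.Cx RtB17_3.CX RtB17_3.Ctp.right.right.left RtB17_3.Ce.right.right.left.left RtB17_3.CTp RtB17_3.CEr 0x98a3f05b12a94f04b20ea916c880dda76b741127da7b6200a9dea8b552b3c36c450d749295b536c837b8726b760c4a767b627650d658b512f026f7c450d47bf946c85c655d6b7388426b7b6243717b68b5b252d86c450d5769c16c8ed20cd6b711412a3c8c6a4e0bf84f9b5156ed9be69c450d347304919074f05b4eda3d6c88117046b7158a6ac7b6225dee2d8b5ed71fa6c450d349d7786c8ad70c5c73d3398a7b621118f438b57ccc926c450d47343 = true := by decide +kernel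

theorem cB17_3_3_5 : chunkOkM (LB17_3.ctx true true 222 31 16 3 32 749 1221 32 128) muQ true true 64 RtB17_3.Cx RtB17_3.CX RtB17_3.Ctp.right.right.left RtB17_3.Ce.right.right.left.right RtB17_3.CTp RtB17_3.CEr 0x16294f05b71df096b986b8a147b62249642a8b588c0606c440d7b214c8f80305b730e5cb97b6232535d08b510ce9327c450d310ad8a6c815be15c74520ac37b621251fdc8b589fd996c450d43435d8e6b9cc2ee9e7b61878cffb8b5960ae56b240d2a7fe86b910433fc98b6158680c68b530d4216c4f05b3716ac4f05bee284c92657c7f7b61dc6d1548b530d34b20065c836a36d97b628df840b8b51bfb97e7c440d2b39826c84ca275c7506f8327b62215e87e8b51774d817c450d297e206c84a87286b78fad3d57b62860f4528b53c628d6c450d7576d366c8c67fa5c7202ef3c48b6148d09c339b52b1b68c48c450d343 = true := by decide +kernel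

theorem cB17_3_3_6 : chunkOkM (LB17_3.ctx true true 194 15 8 3 32 105 143 32 128) muQ true true 64 RtB17_3.Cx RtB17_3.CX RtB17_3.Ctp.right.right.right RtB17_3.Ce.right.right.left RtB17_3.CTp RtB17_3.CEr 0x1d05d5c93304d9c48a6128746978b59cb90dd7b240d = true := by decide +kernel

theorem cB17_3_3_7 : chunkOkM (LB17_3.ctx true true 225 31 16 3 32 749 1265 32 128) muQ true true 64 RtB17_3.Cx RtB17_3.CX RtB17_3.Ctp.right.right RtB17_3.Ce.right.right.right RtB17_3.CTp RtB17_3.CEr 0x01240a4f05b5a31e46b97c92d86b61c6573228b54186b697b240d22684f05b342176da9d5c92a82f397b6185024058b5853a726c240d6730b66b9194a0547b61e0c075b8b530d3814fd5c96ef49b47b619b149578b5ba141c57b240d718234f05b015b0f7f6b93660b6e7b617e109b88b57922dbf7b240d3744359b6c1e107b62955b3428b520d34c615c851741ab7b6222e8afd8b52eb8fe6c440d20154f05b7a87313ad8b677a6abdd29b5147b991029c430dd89435c85b5c0e67b62333aa438b5d721356c440d218cdb6b910c7422e49b52896f27e8c430d345973445933 = true := by decide +kernel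

theorem cB17_3_2_0 : chunkOkM (LB17_3.ctx false true 82 1 1 1 1 1 1 1 1) muQ false true 64 RtB17_3.Cx RtB17_3.CX RtB17_3.Ctn RtB17_3.Ce RtB17_3.CTp RtB17_3.CEr 0x49 = true := by decide +kernel

theorem cB17_3_1_0 : chunkOkM (LB17_3.ctx true false 82 1 1 1 1 1 1 1 1) muQ true false 64 RtB17_3.Cx RtB17_3.CX RtB17_3.Ctp.left RtB17_3.Ce RtB17_3.CTn RtB17_3.CEr 0x41 = true := by decide +kernel

theorem cB17_3_1_1 : chunkOkM (LB17_3.ctx true false 82 1 1 1 1 1 1 1 1) muQ true false 64 RtB17_3.Cx RtB17_3.CX RtB17_3.Ctp.right RtB17_3.Ce.left RtB17_3.CTn RtB17_3.CEr 0x69 = true := by decide +kernel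

theorem cB17_3_1_2 : chunkOkM (LB17_3.ctx true false 193 15 8 3 32 161 55 32 128) muQ true false 64 RtB17_3.Cx RtB17_3.CX RtB17_3.Ctp.right RtB17_3.Ce.right.left RtB17_3.CTn RtB17_3.CEr 0x6936df1b07b623646bab8b51c17d6e7c430d4934133 = true := by decide +kernel

theorem cB17_3_1_3 : chunkOkM (LB17_3.ctx true false 197 15 8 3 32 161 143 32 128) muQ true false 64 RtB17_3.Cx RtB17_3.CX RtB17_3.Ctp.right.left RtB17_3.Ce.right.right RtB17_3.CTn RtB17_3.CEr 0x59294658f7b62f6735608b51e670e57c430d4934413 = true := by decide +kernel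

end Vale.Agent.helper4.Q4
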