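import Vale.Agent.helper4.Q4TreeM
import Vale.Agent.helper4.Q4G.PB17_3

/-!
Checks for pairs of intervals of second moments.
-/

set_option maxRecDepth 100000
set_option linter.unusedVariables false

namespace Vale.Agent.helper4.Q4

theorem cB17_3_1_17 : chunkOkM (LB17_3.ctx true false 82 1 1 1 1 1 1 1 1) muQ true false 64 RtB17_3.Cx.left RtB17_3.CX RtB17_3.Ctp.right.right.right.left.right RtB17_3.Ce.right.right.right.left.left RtB17_3.CTn RtB17_3.CEr 0x01 = true := by decide +kernel

theorem cB17_3_1_18 : chunkOkM (LB17_3.ctx true false 248 243 128 3 32 1589 5093 32 128) muQ true false 64 RtB17_3.Cx.right RtB17_3.CX RtB17_3.Ctp.right.right.right.left RtB17_3.Ce.right.right.right.left.left RtB17_3.CTn RtB17_3.CEr 0x116969205b776c8d90d5f6b7ad6803b7c630d76941cbb4f05b2761526c8aad0e26b74d231647c615ee8cf78b540d21b24f27b8e095fc6b785420e17c612f2866b8b540d7227f2c6c8dcee496b74277cb77c61725ec328b540d42a942a6c87fb2bc6b756d2db6c61f190ded8b540d3721debb6c8de090b6b774ee9257b61ba227ab8b540d437043 = true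 := by decide +kernel

theorem cB17_3_1_19 : chunkOkM (LB17_3.ctx true false 248 479 256 3 32 805 5115 32 128) muQ true false 64 RtB17_3.Cx.left RtB17_3.CX RtB17_3.Ctp.right.right.right.left RtB17_3.Ce.right.right.right.left.right RtB17_3.CTn RtB17_3.CEr 0x2121210119ac226c874569f6b786b2bb57c630d5933217421742174217 = true := by decide +kernel

theorem cB17_3_1_20 : chunkOkM (LB17_3.ctx true false 249 247 128 3 32 1617 5181 32 128) muQ true false 64 RtB17_3.Cx.right RtB17_3.CX RtB17_3.Ctp.right.right.right.left.left RtB17_3.Ce.right.right.right.left.right.left RtB17_3.CTn RtB17_3.CEr 0x32b4296c83c36876b79f9211f7b61f6c37158b540d2107656c8fae6956b7a0850d27c630d2a37b26c8d4c37c6b71f1a5f47c61b8675588b540d4e0c5897b89456d6a7c612ff91e88b530d726ab4e6c8d9f8356b738998cb7c61596132e8b540d43d2294f06b1c2bbb6c813564fd7b7ac586e07c630d4691bcec5f06b4697372549526c8e547496b732428597c619364c428b540d2addc06c8f4f9d76b7965abb17c630d3676956c8506ba96b7e1443707c630dbc274f06b7caf14f06bc6714f06b7437423774f05b3002eb6c813635617b72e47ae6c61fa9c21e8b540d231ef76c8dda2f06b72ce9faab8b61a0e7e518b540d2ac20537b8b787b66b7592d2107c614628d658b540d118d75f06b745937437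 = true := by decide +kernel

theorem cB17_3_1_21 : chunkOkM (LB17_3.ctx true false 249 247 128 3 32 1617 5247 32 128) muQ true false 64 RtB17_3.Cx.right RtB17_3.CX RtB17_3.Ctp.right.right.right.left.left RtB17_3.Ce.right.right.right.left.right.right RtB17_3.CTn RtB17_3.CEr 0x1e294f05b21a5bc6c8105a05c7b722399897c61c32f0bc8b540d72f8d696c8419e596b7e8586ed7b61e95904d8b540d422284f05b3694ac02557b81d0630698c620d4697593493b576c8a78728e7c6910b7997b530dd6644f06b73b44cb6c841730f6b7ddcdafb7c630df6864f06b7424b7c16c8d8de316b72123eac28b61ca712368b540d346975937 = true := by decide +kernel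

theorem cB17_3_1_22 : chunkOkM (LB17_3.ctx true false 244 125 64 3 32 1645 5269 32 128) muQ true false 64 RtB17_3.Cx.right RtB17_3.CX RtB17_3.Ctp.right.right.right.left.right RtB17_3.Ce.right.right.right.left.right RtB17_3.CTn RtB17_3.CEr 0x11690223bf76c8106e4227b7684cd087c61126ef338b540d44934f06b43769430125684f02b571e4b6c81a3c2cd78c620d1cee966c8133659f7b7c878d927c630d432171d66596c8128c59c7b7aaadbca7c630d1c38e66c812b2cec7b78ea380f7c6c693e2c7b240d7437222d4f02b4 = true := by decide +kernel

theorem cB17_3_1_23 : chunkOkM (LB17_3.ctx true false 82 1 1 1 1 1 1 1 1) muQ true false 64 RtB17_3.Cx.left RtB17_3.CX RtB17_3.Ctp.right.right.right.left RtB17_3.Ce.right.right.right.right RtB17_3.CTn RtB17_3.CEr 0x21 = true := by decide +kernel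

theorem cB17_3_1_24 : chunkOkM (LB17_3.ctx true false 214 31 16 3 32 399 671 32 128) muQ true false 64 RtB17_3.Cx.right RtB17_3.CX RtB17_3.Ctp.right.right.right.left.left RtB17_3.Ce.right.right.right.right.left RtB17_3.CTn RtB17_3.CEr 0x22d0b06c813bec06c72415a9a7b622b11dc38b540d = true := by decide +kernel

theorem cB17_3_1_25 : chunkOkM (LB17_3.ctx true false 257 495 256 3 32 1645 10571 32 128) muQ true false 64 RtB17_3.Cx.right RtB17_3.CX RtB17_3.Ctp.right.right.right.left.right RtB17_3.Ce.right.right.right.right.left.left RtB17_3.CTn RtB17_3.CEr 0x245e4f02b1e8cea6c810e47497b753ea5f27c61658810b8b540d8be44f06b431eca16c85fefb66c620049d2b8b530d35ca9666c81885f9928c620d1da5086c813dd6037b7bc626ce7c630d41f3c036c8124ace47b725b1cf17c61dc680968b540d597372656936c813de7c27b727777667c61d6c6c808b540d2178c66c81205f8d7b710ae2d748c630d7cc24f06b431cdd06c8edbde96b7a0620197c6103b8c458b540deb954f06b74a4c096c8ac7e7987c692617137b530d2128ed6c81105ec57b7139b694f8c630d743743212121011c8a3d6c8112ff617b7be1ec147c630d34217421742177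 = true := by decide +kernel

theorem cB17_3_1_26 : chunkOkM (LB17_3.ctx true false 249 255 128 3 32 1673 5445 32 128) muQ true false 64 RtB17_3.Cx.right RtB17_3.CX RtB17_3.Ctp.right.right.right.left.right RtB17_3.Ce.right.right.right.right.left.right RtB17_3.CTn RtB17_3.CEr 0x27f84f02b61a6886c8175f3daa8c620df57a4f06bafc14f06b7432173df3f00b1ddcf16c814943387b7c43f2907c630d969e4f06b431d89646c81c44bb27b796a0d567c612bd75328b240d7424251a6c81062f857b72c9da5988b61f6d0a558b540d5453c66c83a5b1607c619a218868b530df88c4f06b7302c086c8e067946b72e41ff77c619b9880b8b540d57e1a06c818d463b68c620d7425a5706c8efeb326b7fe5d15c6210c0c178b540d346973217 = true := by decide +kernel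

theorem cB17_3_1_27 : chunkOkM (LB17_3.ctx true false 238 127 64 3 32 1673 2739 32 128) muQ true false 64 RtB17_3.Cx.right RtB17_3.CX RtB17_3.Ctp.right.right.right.left RtB17_3.Ce.right.right.right.right.right RtB17_3.CTn RtB17_3.CEr 0x212140bb4f02b69342175934217593 = true := by decide +kernel

theorem cB17_3_1_28 : chunkOkM (LB17_3.ctx true false 82 1 1 1 1 1 1 1 1) muQ true false 64 RtB17_3.Cx RtB17_3.CX RtB17_3.Ctp.right.right.right.right RtB17_3.Ce.right.right.right RtB17_3.CTn RtB17_3.CEr 0x01 = true := by decide +kernel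

theorem cB17_3_0_0 : chunkOkM (LB17_3.ctx false false 82 1 1 1 1 1 1 1 1) muQ false false 64 RtB17_3.Cx RtB17_3.CX RtB17_3.Ctn RtB17_3.Ce RtB17_3.CTn RtB17_3.CEr 0x49 = true := by decide +kernel

end Vale.Agent.helper4.Q4
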