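import Vale.Agent.helper4.Q4TreeM
import Vale.Agent.helper4.Q4G.PB17_5

/-!
Checks for pairs of intervals of second moments.
-/

set_option maxRecDepth 100000
set_option linter.unusedVariables false

namespace Vale.Agent.helper4.Q4

theorem cB17_5_3_0 : chunkOkM (LB17_5.ctx true true 99 1 1 1 1 1 1 1 1) muQ true true 64 RtB17_5.Cx RtB17_5.CX RtB17_5.Ctp.left RtB17_5.Ce RtB17_5.CTp RtB17_5.CEr 0x41 = true := by decide +kernel

theorem cB17_5_3_1 : chunkOkM (LB17_5.ctx true true 99 1 1 1 1 1 1 1 1) muQ true true 64 RtB17_5.Cx RtB17_5.CX RtB17_5.Ctp.right RtB17_5.Ce.left RtB17_5.CTp RtB17_5.CEr 0x69 = true := by decide +kernel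

theorem cB17_5_3_2 : chunkOkM (LB17_5.ctx true true 226 15 8 7 32 329 55 16 64) muQ true true 64 RtB17_5.Cx RtB17_5.CX RtB17_5.Ctp.right RtB17_5.Ce.right.left RtB17_5.CTp RtB17_5.CEr 0x691682e597fd18235977f82c72f16f7404feba88e612c37a9e8f5e418f937f460d4934934133 = true := by decide +kernel

theorem cB17_5_3_3 : chunkOkM (LB17_5.ctx true true 240 29 16 7 32 665 143 16 64) muQ true true 64 RtB17_5.Cx RtB17_5.CX RtB17_5.Ctp.right.left RtB17_5.Ce.right.right RtB17_5.CTp RtB17_5.CEr 0x5949bce5d16fd1358a4c7f8316bce6f72a81b577f616eac5fa8f5b3a12477f460d74934934934413 = true := by decide +kernel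

theorem cB17_5_3_4 : chunkOkM (LB17_5.ctx true true 249 29 16 7 32 693 1089 16 64) muQ true true 64 RtB17_5.Cx RtB17_5.CX RtB17_5.Ctp.right.right.left.left RtB17_5.Ce.right.right.left.left.left RtB17_5.CTp RtB17_5.CEr 0x049d91cdb37f05b11fb9c37fdec826e6f82e8a6a6f7755f0c6f6121710b18f56f83b6f7f460d327074f47f8279f98a7f611672db68f5471c936f440d473 = true := by decide +kernel

theorem cB17_5_3_5 : chunkOkM (LB17_5.ctx true true 253 31 16 7 32 693 1133 16 64) muQ true true 64 RtB17_5.Cx RtB17_5.CX RtB17_5.Ctp.right.right.left.left RtB17_5.Ce.right.right.left.left.right RtB17_5.CTp RtB17_5.CEr 0xa09bfcf7f04bc0a3db6fdf0e5836f8141f206f7516b80a7f612d14da88f550d7496567146fdc1c27f6f83a077fc7f61635b93d8f59ac31477f450dd2e31f6fdf274556f813ac696f77e6ecc6f611878a778f559c70377f460d44b2f627fd5dcfb26f78ee9ccce8f654dbe9d4a9f5b0606ecb69f450d3473 = true := by decide +kernel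

theorem cB17_5_3_6 : chunkOkM (LB17_5.ctx true true 230 15 8 7 32 189 275 16 64) muQ true true 64 RtB17_5.Cx RtB17_5.CX RtB17_5.Ctp.right.right.left.right RtB17_5.Ce.right.right.left.left RtB17_5.CTp RtB17_5.CEr 0x4c474477f05b = true := by decide +kernel

theorem cB17_5_3_7 : chunkOkM (LB17_5.ctx true true 244 31 16 7 32 357 605 16 64) muQ true true 64 RtB17_5.Cx RtB17_5.CX RtB17_5.Ctp.right.right.left.left RtB17_5.Ce.right.right.left.right RtB17_5.CTp RtB17_5.CEr 0xa6ba966fdc5f82b6f830880127f618d3b9fb8f51098bd5c8f450dc799676fdd3f5216f8303105f733518bf7f6125916fe8f5e8f9aec7f460d16434b27fd17a99af7f86ca97757f616db0abc8f540d7af68296fd34bd63098f64c8f6e058f545e2c0c78f440d34 = true := by decide +kernel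

theorem cB17_5_3_8 : chunkOkM (LB17_5.ctx true true 237 15 8 7 32 385 583 16 64) muQ true true 64 RtB17_5.Cx RtB17_5.CX RtB17_5.Ctp.right.right.left.right RtB17_5.Ce.right.right.left.right.left RtB17_5.CTp RtB17_5.CEr 0x70a85ad7f69df481d7f520d2909ed6f81b747937f6ec483837f530d3 = true := by decide +kernel

theorem cB17_5_3_9 : chunkOkM (LB17_5.ctx true true 250 31 16 7 32 749 1221 16 64) muQ true true 64 RtB17_5.Cx RtB17_5.CX RtB17_5.Ctp.right.right.left.right.left RtB17_5.Ce.right.right.left.right.right RtB17_5.CTp RtB17_5.CEr 0x61338a6f815d91d67f61174c8548f5233756d7f440d21e1d427f8204d79c7f61403cfb78f58802f097f440d38a257f6fdc7c1466f8422ebfd7f611fd1cf78f540dbfd87f450d4c4a0dd6fd780e5167f613a6fce68f530d7 = true := by decide +kernel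

theorem cB17_5_3_10 : chunkOkM (LB17_5.ctx true true 256 59 32 7 32 777 1221 16 64) muQ true true 64 RtB17_5.Cx RtB17_5.CX RtB17_5.Ctp.right.right.left.right.right RtB17_5.Ce.right.right.left.right.right RtB17_5.CTp RtB17_5.CEr 0xb25ed4c7f05b9ba43307f6ce7e06f7f520d6ec392b7f6a07026d7f52b7c6a87f230d111209808f05b37aee51e67f05bd8026787f67772ead7f516c839c7f230de3e75157f05b3747 = true := by decide +kernel

theorem cB17_5_3_11 : chunkOkM (LB17_5.ctx true true 252 59 32 7 32 399 1221 16 64) muQ true true 64 RtB17_5.Cx RtB17_5.CX RtB17_5.Ctp.right.right.right RtB17_5.Ce.right.right.left RtB17_5.CTp RtB17_5.CEr 0x0111010a30615fd42ceeb37f68ca0d0a7f55c6229f7f240d7cc3c3bc7f00b4371143114 = true := by decide +kernel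

theorem cB17_5_3_12 : chunkOkM (LB17_5.ctx true true 250 31 16 7 32 385 1265 16 64) muQ true true 64 RtB17_5.Cx RtB17_5.CX RtB17_5.Ctp.right.right.left RtB17_5.Ce.right.right.right RtB17_5.CTp RtB17_5.CEr 0x59149f5507fdafd2046f8439736a7f61403bf1d8f540d5933ce0156fdae591e6f87459eed7f6142885008f540d63704d6f81290a6c7f6ffd577c7f530d410de95548f05b711971257fdad99ac6f85c517f158f642742c5669f5b61b1a1cf9f450d10127a97fdd6f1a86f81d7dd3c7f613999ed68f59fdff057f450d4597344593 = true := by decide +kernel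

theorem cB17_5_3_13 : chunkOkM (LB17_5.ctx true true 257 59 32 7 32 805 1265 16 64) muQ true true 64 RtB17_5.Cx RtB17_5.CX RtB17_5.Ctp.right.right.right.left RtB17_5.Ce.right.right.right.left.left RtB17_5.CTp RtB17_5.CEr 0x66d146e7f6c41bab37f520d0138da376f6ad669f47f553193697f230d133e94598f6870c6967f520d32178343f3e7f6909aab67f5267fb567f230d5000a5f81fa78da68f6aaa05ab7f230d7437 = true := by decide +kernel

theorem cB17_5_3_14 : chunkOkM (LB17_5.ctx true true 247 31 16 7 32 413 1309 16 64) muQ true true 64 RtB17_5.Cx RtB17_5.CX RtB17_5.Ctp.right.right.right.left RtB17_5.Ce.right.right.right.left.right RtB17_5.CTp RtB17_5.CEr 0xe905bf6f691fe9d37f578184947f230d3a472f77f6f55d2427f520d45949b17f6cea4de97f520d4319e1ce6fd80239817f6adcc0c87f591d48667f240d7 = true := by decide +kernel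

theorem cB17_5_3_15 : chunkOkM (LB17_5.ctx true true 247 31 16 7 32 413 1353 16 64) muQ true true 64 RtB17_5.Cx RtB17_5.CX RtB17_5.Ctp.right.right.right.left RtB17_5.Ce.right.right.right.right RtB17_5.CTp RtB17_5.CEr 0x7db56207f6d20f79c7f537afe507f230d1d66666fd8c6a7977f6c36ea387f542d55127f240d1c3df36fd36411c47f6b7e26177f549f3cd57f240d412c120e58f05b34217 = true := by decide +kernel

theorem cB17_5_3_16 : chunkOkM (LB17_5.ctx true true 99 1 1 1 1 1 1 1 1) muQ true true 64 RtB17_5.Cx RtB17_5.CX RtB17_5.Ctp.right.right.right.right RtB17_5.Ce.right.right.right RtB17_5.CTp RtB17_5.CEr 0x01 = true := by decide +kernel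

theorem cB17_5_2_0 : chunkOkM (LB17_5.ctx false true 99 1 1 1 1 1 1 1 1) muQ false true 64 RtB17_5.Cx RtB17_5.CX RtB17_5.Ctn RtB17_5.Ce RtB17_5.CTp RtB17_5.CEr 0x49 = true := by decide +kernel

theorem cB17_5_1_0 : chunkOkM (LB17_5.ctx true false 99 1 1 1 1 1 1 1 1) muQ true false 64 RtB17_5.Cx RtB17_5.CX RtB17_5.Ctp.left RtB17_5.Ce RtB17_5.CTn RtB17_5.CEr 0x41 = true := by decide +kernel

theorem cB17_5_1_1 : chunkOkM (LB17_5.ctx true false 99 1 1 1 1 1 1 1 1) muQ true false 64 RtB17_5.Cx RtB17_5.CX RtB17_5.Ctp.right RtB17_5.Ce.left RtB17_5.CTn RtB17_5.CEr 0x69 = true := by decide +kernel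

theorem cB17_5_1_2 : chunkOkM (LB17_5.ctx true false 214 15 8 7 32 161 55 4 64) muQ true false 64 RtB17_5.Cx RtB17_5.CX RtB17_5.Ctp.right RtB17_5.Ce.right.left RtB17_5.CTn RtB17_5.CEr 0x693201a1c78e6139b510d8f511cece7e8f430d4934133 = true := by decide +kernel

theorem cB17_5_1_3 : chunkOkM (LB17_5.ctx true false 218 15 8 7 32 161 143 4 64) muQ true false 64 RtB17_5.Cx RtB17_5.CX RtB17_5.Ctp.right.left RtB17_5.Ce.right.right RtB17_5.CTn RtB17_5.CEr 0x5929d88a27f61d8a48b58f5149f3aa88f430d4934413 = true := by decide +kernel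

theorem cB17_5_1_4 : chunkOkM (LB17_5.ctx true false 228 15 8 7 32 357 561 4 64) muQ true false 64 RtB17_5.Cx RtB17_5.CX RtB17_5.Ctp.right.right.left RtB17_5.Ce.right.right.left.left RtB17_5.CTn RtB17_5.CEr 0x6797ce87f05bfe688897f05b1492b85f8f582e2b9c7f420d32b91d897f6115487958f51e12b987f430d43 = true := by decide +kernel

theorem cB17_5_1_5 : chunkOkM (LB17_5.ctx true false 236 31 16 7 32 357 605 4 64) muQ true false 64 RtB17_5.Cx RtB17_5.CX RtB17_5.Ctp.right.right.left.left RtB17_5.Ce.right.right.left.right RtB17_5.CTn RtB17_5.CEr 0x2ddd2997f61a229cad8f5dd49e897f430d31899be7f614111e918f58412b657f430d4a7fc0a7f616559d848f520d715670297fd34e7df4d8f64e4eb40a8f5440490498f440d34 = true := by decide +kernel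

end Vale.Agent.helper4.Q4
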