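import Vale.Agent.helper4.Q4TreeM
import Vale.Agent.helper4.Q4G.PB17_5

/-!
Checks for pairs of intervals of second moments.
-/

set_option maxRecDepth 100000
set_option linter.unusedVariables false

namespace Vale.Agent.helper4.Q4

theorem cB17_5_1_6 : chunkOkM (LB17_5.ctx true false 258 115 64 7 32 777 2365 4 64) muQ true false 64 RtB17_5.Cx RtB17_5.CX RtB17_5.Ctp.right.right.left.right RtB17_5.Ce.right.right.left.right.left RtB17_5.CTn RtB17_5.CEr 0x79206257f05b6933f425078f06ba256c7c7f05b10b15aa7fd13c70d375cff3c536f81db348418f6870d8107f550d7d535a16fd74b4f665c7c70286f843ba96048f640d43704d044cb6fd743aaf65c80cd336f82e61e3b7f6ed1beef7f550d37 = true := by decide +kernel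

theorem cB17_5_1_7 : chunkOkM (LB17_5.ctx true false 235 29 16 7 32 371 605 4 64) muQ true false 64 RtB17_5.Cx.left RtB17_5.CX RtB17_5.Ctp.right.right.left.right.left RtB17_5.Ce.right.right.left.right.right RtB17_5.CTn RtB17_5.CEr 0x129fda8b8f05b = true := by decide +kernel

theorem cB17_5_1_8 : chunkOkM (LB17_5.ctx true false 258 115 64 7 32 777 2409 4 64) muQ true false 64 RtB17_5.Cx.left RtB17_5.CX RtB17_5.Ctp.right.right.left.right.right RtB17_5.Ce.right.right.left.right.right.left RtB17_5.CTn RtB17_5.CEr 0xfe6dc36fdc0b47a65cfc3e6d6f8a98e6337f6e409b417f550dc08f806fde7b98b65ca761cf6f846db9ef78f640d16669317fd18402ac75cf3b9986f8448ee3538f640d713590a97fd1477ea575c147c5d27f83c54239f8f640d410795007fd12fd21a75c168a5f27f812556fdb8f6d2386997f550d17adbc97fd1009cef75cdff16917f6bfc13197f540dea0b446fd131933e75c1076dd17f8299369b98f67f614a27f550d7437 = true := by decide +kernel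

theorem cB17_5_1_9 : chunkOkM (LB17_5.ctx true false 259 115 64 7 32 777 2453 4 64) muQ true false 64 RtB17_5.Cx.left RtB17_5.CX RtB17_5.Ctp.right.right.left.right.right RtB17_5.Ce.right.right.left.right.right.right RtB17_5.CTn RtB17_5.CEr 0xc23ab96fd125156b75c119f1427f810beda688f6b3bf5d67f550d10ccd4298f05b3cf37ee6fd153b25175c15aea557f86539a9c88f640d10790fe7fd13b917975c1603d937f833e7c7028f63dc5c9c7f550d3edefb6fd17868ca75ca98df36f8494495b78f640d7413bc39d78f05b37 = true := by decide +kernel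

theorem cB17_5_1_10 : chunkOkM (LB17_5.ctx true false 238 31 16 7 32 385 1221 4 64) muQ true false 64 RtB17_5.Cx.right RtB17_5.CX RtB17_5.Ctp.right.right.left.right RtB17_5.Ce.right.right.left.right.right RtB17_5.CTn RtB17_5.CEr 0xc91181f7f05b14784787fd1377e4b7f82149716f612bd36dd8f5454b3a47f450d1047d9088f05b43 = true := by decide +kernel

theorem cB17_5_1_11 : chunkOkM (LB17_5.ctx true false 258 115 64 7 32 791 2453 4 64) muQ true false 64 RtB17_5.Cx RtB17_5.CX RtB17_5.Ctp.right.right.right RtB17_5.Ce.right.right.left RtB17_5.CTn RtB17_5.CEr 0x0111013cb7bba08f06b01178d9c97fd1c2545c75c10ad4c07f83f7ed4778f61537b367f250d2171090d967fd1aa7d7675c198e02b7f81e62a2b78f679fe3357f250d4379a85476fd1c642c775c166c5c07f83f3bf987f6f776de67f250d4371143114 = true := by decide +kernel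

theorem cB17_5_1_12 : chunkOkM (LB17_5.ctx true false 245 59 32 7 32 385 1265 4 64) muQ true false 64 RtB17_5.Cx RtB17_5.CX RtB17_5.Ctp.right.right.left RtB17_5.Ce.right.right.right RtB17_5.CTn RtB17_5.CEr 0x591ba36d27fd53534717f6172d08d28f530d7656ff6f866468bd7f612c4ddee8f530d3e8e6d27fd2d5ee737f6161f6a978f5867b9e97f440d314e900578f05bc8029a6fd142354375c14228c87f8a7615967f6ef08a2d7f550d4597593744593 = true := by decide +kernel

theorem cB17_5_1_13 : chunkOkM (LB17_5.ctx true false 268 231 128 7 32 805 4939 4 64) muQ true false 64 RtB17_5.Cx.left RtB17_5.CX RtB17_5.Ctp.right.right.right.left.left RtB17_5.Ce.right.right.right.left.left.left RtB17_5.CTn RtB17_5.CEr 0xb1205a6fd1c54f7f75c10882fc7f8251fb317f613184a088f250d177cbe27fd15eb90775c108a8247f8185a83288f6af4d7337f550dd951186fd1606d6775c162c93a7f84d53fbeb8f640d71443c42b8f06b10f4a167fd16b6f7c75ce1d7376f84aafc1508f640d7432121b40ff66fd1a1258c75c16b05167f82d307c6c8f66aa96807f250d421742177 = true := by decide +kernel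

theorem cB17_5_1_14 : chunkOkM (LB17_5.ctx true false 259 119 64 7 32 805 2541 4 64) muQ true false 64 RtB17_5.Cx.left RtB17_5.CX RtB17_5.Ctp.right.right.right.left.left RtB17_5.Ce.right.right.right.left.left.right RtB17_5.CTn RtB17_5.CEr 0xba79e26fd1cdf62475c1b5ae207f83ee6f37b8f692d6e96f250d2171b81a5775c101ea897f84b52be478f610225047f240dfe8265fd113983275c8bb5356f82536b7f48f6b9f0fe77f250d74f645846fd16671b475c1508c837f8256712c28f6a7e2f0f7f550d9df7c76fd156f9ec75c14c99747f822aac89d8f688c387f7f550d46973217 = true := by decide +kernel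

theorem cB17_5_1_15 : chunkOkM (LB17_5.ctx true false 99 1 1 1 1 1 1 1 1) muQ true false 64 RtB17_5.Cx.left RtB17_5.CX RtB17_5.Ctp.right.right.right.left.right RtB17_5.Ce.right.right.right.left.left RtB17_5.CTn RtB17_5.CEr 0x01 = true := by decide +kernel

theorem cB17_5_1_16 : chunkOkM (LB17_5.ctx true false 239 31 16 7 32 399 1265 4 64) muQ true false 64 RtB17_5.Cx.right RtB17_5.CX RtB17_5.Ctp.right.right.right.left RtB17_5.Ce.right.right.right.left.left RtB17_5.CTn RtB17_5.CEr 0x11d3cb716fd152fe3775cd6cbda6f8a95d4587f6c7506847f550d043 = true := by decide +kernel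

theorem cB17_5_1_17 : chunkOkM (LB17_5.ctx true false 274 479 256 7 32 805 5115 4 64) muQ true false 64 RtB17_5.Cx.left RtB17_5.CX RtB17_5.Ctp.right.right.right.left RtB17_5.Ce.right.right.right.left.right RtB17_5.CTn RtB17_5.CEr 0x212121011c30b8d75cca8f276f8716bdd718f630d5933217421742174217 = true := by decide +kernel

theorem cB17_5_1_18 : chunkOkM (LB17_5.ctx true false 264 123 64 7 32 1617 2585 4 64) muQ true false 64 RtB17_5.Cx.right RtB17_5.CX RtB17_5.Ctp.right.right.right.left.left RtB17_5.Ce.right.right.right.left.right.left RtB17_5.CTn RtB17_5.CEr 0x9d9cbd6fd48b0955c78c4fe6f8a5fc7167f6fa3c7cd7f550da2f13d6fd18d74e475ccaa8e46f81554b7008f6cccd1237f550d16ac7da7fd19ccb1f75c11801cf7f855bac5778f640d658add6fd1cee6d575c12233777f8a26d2a0f8f640d37c4689087f05bb44d0c6fd175078b75c1664c797f83b1619b68f6328eb727f550d7411012d17fd16ea80c75c12c50f77f811c999b88f6d4699197f550d37 = true := by decide +kernel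

theorem cB17_5_1_19 : chunkOkM (LB17_5.ctx true false 259 123 64 7 32 805 2629 4 64) muQ true false 64 RtB17_5.Cx.right RtB17_5.CX RtB17_5.Ctp.right.right.right.left.left RtB17_5.Ce.right.right.right.left.right.right RtB17_5.CTn RtB17_5.CEr 0x12cbb2b7fd13c1d9e75cd23fc56f8ab53f907f61090462e8f550d1b71c137fd15bae6b75cd750e16f83e90b9c68f6ca32e887f550d149ff6a7fd150bca475c13919737f82ce72fff8f67ffe6d37f550d46975937 = true := by decide +kernel

end Vale.Agent.helper4.Q4
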