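import Vale.Agent.helper4.Q4TreeM
import Vale.Agent.helper4.Q4G.PB17_5

/-!
Checks for pairs of intervals of second moments.
-/

set_option maxRecDepth 100000
set_option linter.unusedVariables false

namespace Vale.Agent.helper4.Q4

theorem cB17_5_1_20 : chunkOkM (LB17_5.ctx true false 259 123 64 7 32 819 2629 4 64) muQ true false 64 RtB17_5.Cx.right RtB17_5.CX RtB17_5.Ctp.right.right.right.left.right RtB17_5.Ce.right.right.right.left.right RtB17_5.CTn RtB17_5.CEr 0xb2e5146fd17fafb875c111f39e7f822063b5d8f673977507f550d01a80ae16fd1b7693d75c16f53e77f81d50d5238f685b32607f5381018e7f260d21718debdb7fd18a3bb875c1375ba07f837b833528f640a410d7f250d6d84506fd1642c6375cdc55266f865f46cdd8f6d6402367f250d743770d64a6fd1a265af75c1348dff7f8343fe887f6125a4c458f250d4 = true := by decide +kernel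

theorem cB17_5_1_21 : chunkOkM (LB17_5.ctx true false 253 63 32 7 32 833 2673 4 64) muQ true false 64 RtB17_5.Cx RtB17_5.CX RtB17_5.Ctp.right.right.right.left RtB17_5.Ce.right.right.right.right RtB17_5.CTn RtB17_5.CEr 0x1280b7b7fd1d566466c13e93387f87bba5a77f6de3a38c7f556b58997f260daef4d36fd1f1169f75c1679fdd7f871a7c387f6bfb91457f5596f05a7f260d8fa2076fd1d4658a75c157debf7f87e190fe7f6ec5aab57f51ee7f777f260d32171248b147fd15fbd6375c18624b528f611fb9def8f240d89ab9c6fd1a65d2675c14169647f8aec41137f6d8669e87f528f70d97f260d87f95c6fd1b0497375c15d49c37f8131d6b358f6b01aaac7f579880d6f260d43adab686fd19dd5ba75c13e549e7f8f8996e37f6b1107b17f593dffaf7f260d746e66bf6fdea570465cf77d446f8371dfc67f611b617a48f550d34217 = true := by decide +kernel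

theorem cB17_5_1_22 : chunkOkM (LB17_5.ctx true false 99 1 1 1 1 1 1 1 1) muQ true false 64 RtB17_5.Cx RtB17_5.CX RtB17_5.Ctp.right.right.right.right RtB17_5.Ce.right.right.right RtB17_5.CTn RtB17_5.CEr 0x01 = true := by decide +kernel

theorem cB17_5_0_0 : chunkOkM (LB17_5.ctx false false 99 1 1 1 1 1 1 1 1) muQ false false 64 RtB17_5.Cx RtB17_5.CX RtB17_5.Ctn RtB17_5.Ce RtB17_5.CTn RtB17_5.CEr 0x49 = true := by decide +kernel

end Vale.Agent.helper4.Q4
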