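import Vale.Agent.helper4.Q4TreeM
import Vale.Agent.helper4.Q4G.PB17_7

/-!
Checks for pairs of intervals of second moments.
-/

set_option maxRecDepth 100000
set_option linter.unusedVariables false

namespace Vale.Agent.helper4.Q4

theorem cB17_7_3_92 : chunkOkM (LB17_7.ctx true true 272 235 128 7 16 1561 4895 32 64) muQ true true 64 RtB17_7.Cx.left.right.left RtB17_7.CX RtB17_7.Ctp.right.right.left.right.right.right.right RtB17_7.Ce.right.right.left.right.right.right.right.left RtB17_7.CTp RtB17_7.CEr 0x6ff6e057cd8d14cd6d888e44187e630d359bc507dd29af4fb73c982bdad7e630d1e414f01c4baf1937dd1e9ba7673c9c0f6a67e630d765 = true := by decide +kernel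

theorem cB17_7_3_93 : chunkOkM (LB17_7.ctx true true 283 467 256 7 16 3129 4917 32 64) muQ true true 64 RtB17_7.Cx.left.right.left RtB17_7.CX RtB17_7.Ctp.right.right.left.right.right.right.right RtB17_7.Ce.right.right.left.right.right.right.right.right RtB17_7.CTp RtB17_7.CEr 0x5f31a057cd931d806d8b8ffa187e630d3d72f4b7dd26dbc6f73ca9750367e630d455b68e7dd1b61cc773c794c5c77e6790b5a67d540d65b691e3c7cdc7bfca07c8e97eb337e630d3817406e8cd2759e9973cdb1b3e17e630d5657c9a7dd2483c6473cb2591217e630d68d01d5788cd4b6735173cbbba8047e630d34cbc7988cd1adefac73cdee592d7e630d6697357 = true := by decide +kernel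

theorem cB17_7_3_94 : chunkOkM (LB17_7.ctx true true 276 239 128 7 16 3101 4917 32 64) muQ true true 64 RtB17_7.Cx.left.right.right RtB17_7.CX RtB17_7.Ctp.right.right.left.right.right.right.left RtB17_7.Ce.right.right.left.right.right.right.right RtB17_7.CTp RtB17_7.CEr 0x685715d7cd13ac9ee7d82747e807e6153e8fc68d540d1132c0c7dd6e87dc63c15d3ccd58d530d29456eb7dd16d2a9b73c362d9187e614628cb38d540d52b2dee7dd1a2306673c16ff4eca8d530d6127f17a48cdb5263763c192bd16c8d530d375672149e7cdd4b9986d81474b9118d530d1292c917dd97e22a63c11c8db948d530d54 = true := by decide +kernel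

theorem cB17_7_3_95 : chunkOkM (LB17_7.ctx true true 260 119 64 7 16 1561 2453 32 32) muQ true true 64 RtB17_7.Cx.left.right.right RtB17_7.CX RtB17_7.Ctp.right.right.left.right.right.right.right RtB17_7.Ce.right.right.left.right.right.right.right RtB17_7.CTp RtB17_7.CEr 0x015fa84d7dd14f5c3d73c20d5 = true := by decide +kernel

theorem cB17_7_3_96 : chunkOkM (LB17_7.ctx true true 250 61 32 7 16 1477 2409 16 32) muQ true true 64 RtB17_7.Cx.right RtB17_7.CX RtB17_7.Ctp.right.right.left.right.left RtB17_7.Ce.right.right.left.right.right.left RtB17_7.CTp RtB17_7.CEr 0x3dd1756ddb024e46d8f5015b77d621cbff758d540d4943476247cd17915847d88a08736e625559b4b8d540d34bc47c7cd13c457b7d83469ea6e62852e4fc8d5d083d76e450d312aa0ae7d8ff404487d628f8cf0c8d530d639b486dd17e83d37d86b9dbd6e62774ba388d59406396e450d3473 = true := by decide +kernel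

theorem cB17_7_3_97 : chunkOkM (LB17_7.ctx true true 250 63 32 7 16 1505 2453 16 32) muQ true true 64 RtB17_7.Cx.right RtB17_7.CX RtB17_7.Ctp.right.right.left.right.left RtB17_7.Ce.right.right.left.right.right.right RtB17_7.CTp RtB17_7.CEr 0xee374f01c32e6846dd11ad7597d816103dcb8d62cfeb1d18d510a8f3d7e450d369459864297cd10b0e9e7d810be63f7e62a9e78988d540d5ad7f06ddbe562d6d86d7bc3d7d6227811148d540d4749597c306dd16af5587d8114ecd37e6306e73bf8d5a163906e450d73 = true := by decide +kernel

theorem cB17_7_3_98 : chunkOkM (LB17_7.ctx true true 250 61 32 7 16 1533 2453 16 32) muQ true true 64 RtB17_7.Cx.right RtB17_7.CX RtB17_7.Ctp.right.right.left.right.right RtB17_7.Ce.right.right.left.right.right RtB17_7.CTp RtB17_7.CEr 0x6969a7ccd76dd2c728a6d813b2c31f8d61b92c8a98d540d929ff16dd6e5bcc6d86d11c56e61e6ef2ea8d540d3b122726dd80bf1a6d82e88d4638d623614c9a8d540d473694 = true := by decide +kernel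

theorem cB17_7_3_99 : chunkOkM (LB17_7.ctx true true 92 1 1 1 1 1 1 1 1) muQ true true 64 RtB17_7.Cx RtB17_7.CX RtB17_7.Ctp.right.right.right.left RtB17_7.Ce.right.right.left.left RtB17_7.CTp RtB17_7.CEr 0x11 = true := by decide +kernel

theorem cB17_7_3_100 : chunkOkM (LB17_7.ctx true true 92 1 1 1 1 1 1 1 1) muQ true true 64 RtB17_7.Cx RtB17_7.CX RtB17_7.Ctp.right.right.right.left RtB17_7.Ce.right.right.left.right.left RtB17_7.CTp RtB17_7.CEr 0x11 = true := by decide +kernel

theorem cB17_7_3_101 : chunkOkM (LB17_7.ctx true true 263 113 64 7 16 1575 2409 32 64) muQ true true 64 RtB17_7.Cx.left RtB17_7.CX RtB17_7.Ctp.right.right.right.left.left RtB17_7.Ce.right.right.left.right.right.left RtB17_7.CTp RtB17_7.CEr 0x1101cd984367cde0c4066d8157d29718d230d69017d1fe837dd4d6a3e273c23fd64e7e6cc2a026e240d5c968cb7dd314f37073c2b8c9127e6119baf508d240d62b2a72b7dd3d439b573cc592e4118d11e3fed3ea9d040d437537 = true := by decide +kernel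

theorem cB17_7_3_102 : chunkOkM (LB17_7.ctx true true 318 3647 2048 7 16 12621 38907 32 64) muQ true true 64 RtB17_7.Cx.left.left.left RtB17_7.CX RtB17_7.Ctp.right.right.right.left.left.left RtB17_7.Ce.right.right.left.right.right.right.left RtB17_7.CTp RtB17_7.CEr 0x019566a8b7cd9d1aaa17c85e36d557e6f07433c7d240d21212101146756228cd1f649e4d82c2bba8487f69e62ce6e240d69332174217421746932177884d757dd545966973cc40ff5f7e630d5c304ca7dd31adc9b73c83db17f7e67dc26017d240d6453217 = true := by decide +kernel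

theorem cB17_7_3_103 : chunkOkM (LB17_7.ctx true true 272 231 128 7 16 1589 4873 32 64) muQ true true 64 RtB17_7.Cx.left.left.right RtB17_7.CX RtB17_7.Ctp.right.right.right.left.left.left RtB17_7.Ce.right.right.left.right.right.right.left RtB17_7.CTp RtB17_7.CEr 0xbe0f56d7cd9c5ac06d852b828378d6f042976d240d3683e7c7dd3a6eb9373c5760a7f78d6542f4d6d240d15a6da6f00b6c8a1b17dd331f98473c9ded10a7e630d5a11a837dd306aa8073c854444a7e6146f526e240d73585a7687dd2fa44e473c6e3218088d630d465 = true := by decide +kernel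

theorem cB17_7_3_104 : chunkOkM (LB17_7.ctx true true 92 1 1 1 1 1 1 1 1) muQ true true 64 RtB17_7.Cx.left.left.left RtB17_7.CX RtB17_7.Ctp.right.right.right.left.left.left RtB17_7.Ce.right.right.left.right.right.right.right RtB17_7.CTp RtB17_7.CEr 0x21 = true := by decide +kernel

theorem cB17_7_3_105 : chunkOkM (LB17_7.ctx true true 273 231 128 7 16 1575 4917 32 64) muQ true true 64 RtB17_7.Cx.left.left.right RtB17_7.CX RtB17_7.Ctp.right.right.right.left.left.left.left RtB17_7.Ce.right.right.left.right.right.right.right RtB17_7.CTp RtB17_7.CEr 0x836154e7cdfe367547c8d81d0cd7e630d410e6777dd329ecb873cd2bec6e7e630d63c12047dd30780fe73ca5a1a5c7e630d65697c5c1a6d7cd9a9039d7c8d4b39307e630d7eb653a7dd4cd976073c80f43547e630d5b528797dd303bd6c73c85273477e630d63f3bcfe7dd3b4846a73c7b103087e6d11aa5e240d5f5671958cd327eb7e73c92a5eaa7e6123abce7d240d6754 = true := by decide +kernel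

end Vale.Agent.helper4.Q4
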