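import Vale.Agent.helper4.Q4TreeM
import Vale.Agent.helper4.Q4G.PB17_8

/-!
Checks for pairs of intervals of second moments.
-/

set_option maxRecDepth 100000
set_option linter.unusedVariables false

namespace Vale.Agent.helper4.Q4

theorem cB17_8_3_123 : chunkOkM (LB17_8.ctx true true 293 231 128 9 16 1589 4873 16 64) muQ true true 64 RtB17_8.Cx.left.left.right RtB17_8.CX RtB17_8.Ctp.right.right.right.left.left.left RtB17_8.Ce.right.right.left.right.right.right.left RtB17_8.CTp.left RtB17_8.CEr.left 0x53744ebab1afd6630ca978c5ea2d217e82bf6f64ff2d499f240d6a6a1755a57e1afdbc9f78478c5c99066bb5ef06749a10bf67a0d804f09af250d4aae1035e1afdf1cc3568c20eb9087bbe6701656421bf640de254701be9afd836c3aa78c180bc247bb8271fad0465bf11516dce0c95ccf050d35d1280ad3afd10dc1487bb947483ee5d2bf650b2ff5338af240d9c320c1549fd1d9ccf8a8abb84886a6214bf629aa40cce0af240d5374d1eb3756aafd11dc01078c21703f17bb8dfc683f0e1bf640d465 = true := by decide +kernel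

theorem cB17_8_3_124 : chunkOkM (LB17_8.ctx true true 300 459 256 9 16 3157 4895 8 64) muQ true true 64 RtB17_8.Cx.left.left.right RtB17_8.CX RtB17_8.Ctp.right.right.right.left.left.left RtB17_8.Ce.right.right.left.right.right.right.right.left RtB17_8.CTp.left.left RtB17_8.CEr.left.left 0x4a71523db0afd12c712a78c221d3667bb1b9fd8c48186cf640d58a272456bafd167f23178c1e163be7bbc1440bb602dbf640d344451144efafdcf2d0768c1f5bb36c8ab2e4dc9851debf61a380b98bcbbf250d5141997ca5afd167ce4278c2080e51d8ab107cf8cceb9ecf64c1eb54bdfaf250d5c59b1fa07afd152eff578c229480df8ab14c5027f34a7cf61c0be547c62bf250d75d9af9fe94afd1204e0e78c200a5e528ab10417b87de94cf640d337 = true := by decide +kernel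

theorem cB17_8_3_125 : chunkOkM (LB17_8.ctx true true 293 231 128 9 16 3157 4917 8 64) muQ true true 64 RtB17_8.Cx.left.left.right RtB17_8.CX RtB17_8.Ctp.right.right.right.left.left.left RtB17_8.Ce.right.right.left.right.right.right.right.right RtB17_8.CTp.left.left RtB17_8.CEr.left.left 0x51c65848d5afd134bddd78c1ec1fd37bb7296b636238bf6e16c96c27daf250d518bd528caafd12b243978c1e9253468abf6bdfb3cad4bf640d553a6f5969afd11ff54578c1e7367048ab1545e6fd6acecf640d3345e4c83208afddda37d68c20d6c7cb8abc74acdf9799bf618dc371cce6bf250d6937 = true := by decide +kernel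

theorem cB17_8_3_126 : chunkOkM (LB17_8.ctx true true 283 115 64 9 16 791 2453 16 128) muQ true true 64 RtB17_8.Cx.left.left.right RtB17_8.CX RtB17_8.Ctp.right.right.right.left.left.left RtB17_8.Ce.right.right.left.right.right.right.right RtB17_8.CTp.left.left RtB17_8.CEr.left.right 0x5a7e3cb97a2cafd8f3e9c678c39a8026bb583a0c7f6b5bf6673da201c7af250d65a5 = true := by decide +kernel

theorem cB17_8_3_127 : chunkOkM (LB17_8.ctx true true 283 115 64 9 16 1589 4917 8 64) muQ true true 64 RtB17_8.Cx.left.left.right RtB17_8.CX RtB17_8.Ctp.right.right.right.left.left.left RtB17_8.Ce.right.right.left.right.right.right.right RtB17_8.CTp.left.right RtB17_8.CEr.left 0x42abea64c4afd4b6f03e78cc0bd92721daf618301dc75c6bf240d4f73405bcbafd5a5408078c828bf9fa1d6bf630d49baef751fafd589449678c9a8db86f350bf630d436a6 = true := by decide +kernel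

theorem cB17_8_3_128 : chunkOkM (LB17_8.ctx true true 287 115 64 9 16 791 2453 32 128) muQ true true 64 RtB17_8.Cx.left.left RtB17_8.CX RtB17_8.Ctp.right.right.right.left.left.left RtB17_8.Ce.right.right.left.right.right.right RtB17_8.CTp.left RtB17_8.CEr.right 0x5a5a437750580cafd3765a7f78c53280c2f81bbf65de42c4a21af240d2177020f77962afd5fa04f778c2c443577378bf6a841130976af240d465a55a565a5 = true := by decide +kernel

theorem cB17_8_3_129 : chunkOkM (LB17_8.ctx true true 113 1 1 1 1 1 1 1 1) muQ true true 64 RtB17_8.Cx.left.left RtB17_8.CX RtB17_8.Ctp.right.right.right.left.left.right RtB17_8.Ce.right.right.left.right.right RtB17_8.CTp.left RtB17_8.CEr 0x01 = true := by decide +kernel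

theorem cB17_8_3_130 : chunkOkM (LB17_8.ctx true true 283 117 64 9 16 1589 4917 8 64) muQ true true 64 RtB17_8.Cx.left.right RtB17_8.CX RtB17_8.Ctp.right.right.right.left.left RtB17_8.Ce.right.right.left.right.right RtB17_8.CTp.left RtB17_8.CEr 0x11693e91cceef2afd8e8fbc678c74257ff03a2bf630d4841674743afd510626d78c84a65ea805fbf630d6a6e0551043ddafdcbb9a3478c73213d5f815bf630dec2f04c5816103e86afd17762c978c1962b577bba486eed84c0bf640d3bd2f04c465676941143 = true := by decide +kernel

theorem cB17_8_3_131 : chunkOkM (LB17_8.ctx true true 276 115 64 9 16 1589 4917 4 32) muQ true true 64 RtB17_8.Cx.left RtB17_8.CX RtB17_8.Ctp.right.right.right.left.left RtB17_8.Ce.right.right.left.right.right RtB17_8.CTp.right RtB17_8.CEr 0x16654fb3baafd17bd22f009f85ea75116b50bf630d01162ef10cb0afda8e4da858f821f8938c961bf610d5a9bfd7bbf240d175e6128a1afd7e0e3a68c668077782d2bf630d1672dcf985afd821ff58c5dd6872136ebf613a39708fbaf240d4321717186bb420afd3bf1d868c45ea87fe5e8bf639ab387cecaf240d151181d6f8afd4677c58c614633c242dbf61016339dfbcbf240d74371956fd416aafd57f03968cee2bd516a9f6135b518cc90bf240d46a6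 = true := by decide +kernel

theorem cB17_8_3_132 : chunkOkM (LB17_8.ctx true true 113 1 1 1 1 1 1 1 1) muQ true true 64 RtB17_8.Cx.right RtB17_8.CX RtB17_8.Ctp.right.right.right.left.left RtB17_8.Ce.right.right.left.right.right RtB17_8.CTp RtB17_8.CEr 0x11 = true := by decide +kernel

theorem cB17_8_3_133 : chunkOkM (LB17_8.ctx true true 113 1 1 1 1 1 1 1 1) muQ true true 64 RtB17_8.Cx RtB17_8.CX RtB17_8.Ctp.right.right.right.left.right RtB17_8.Ce.right.right.left.right RtB17_8.CTp RtB17_8.CEr 0x11 = true := by decide +kernel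

theorem cB17_8_3_134 : chunkOkM (LB17_8.ctx true true 113 1 1 1 1 1 1 1 1) muQ true true 64 RtB17_8.Cx RtB17_8.CX RtB17_8.Ctp.right.right.right.right RtB17_8.Ce.right.right.left RtB17_8.CTp RtB17_8.CEr 0x01 = true := by decide +kernel

theorem cB17_8_3_135 : chunkOkM (LB17_8.ctx true true 113 1 1 1 1 1 1 1 1) muQ true true 64 RtB17_8.Cx RtB17_8.CX RtB17_8.Ctp.right.right.left.left RtB17_8.Ce.right.right.right RtB17_8.CTp RtB17_8.CEr 0x59 = true := by decide +kernel

theorem cB17_8_3_136 : chunkOkM (LB17_8.ctx true true 113 1 1 1 1 1 1 1 1) muQ true true 64 RtB17_8.Cx.left RtB17_8.CX RtB17_8.Ctp.right.right.left.right.left RtB17_8.Ce.right.right.right.left.left RtB17_8.CTp RtB17_8.CEr 0x59 = true := by decide +kernel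

theorem cB17_8_3_137 : chunkOkM (LB17_8.ctx true true 113 1 1 1 1 1 1 1 1) muQ true true 64 RtB17_8.Cx.left.left RtB17_8.CX RtB17_8.Ctp.right.right.left.right.right RtB17_8.Ce.right.right.right.left.left RtB17_8.CTp RtB17_8.CEr 0x59 = true := by decide +kernel

theorem cB17_8_3_138 : chunkOkM (LB17_8.ctx true true 286 239 128 9 16 3073 4939 4 32) muQ true true 64 RtB17_8.Cx.left.right RtB17_8.CX RtB17_8.Ctp.right.right.left.right.right.left RtB17_8.Ce.right.right.right.left.left.left RtB17_8.CTp RtB17_8.CEr 0x595912e1c568f5afd10626c03afaf81f7ee5fa530bf530dae42f695c6afd7eed2b978c4f1b2033e38bf61f60e042995bf540d7def2ffe34afd56a37d478c5024f5bb385ca27bc8af622a0638eb93bf550d6559345975935974 = true := by decide +kernel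

theorem cB17_8_3_139 : chunkOkM (LB17_8.ctx true true 306 471 256 9 16 6209 9867 8 64) muQ true true 64 RtB17_8.Cx.left.right.left RtB17_8.CX RtB17_8.Ctp.right.right.left.right.right.right.left RtB17_8.Ce.right.right.right.left.left.left.left RtB17_8.CTp.left RtB17_8.CEr.left 0x595958e61f94a5afd35f1e4b78c2fa3d61bcb5bf61848d15130dbf540d92ed0df012afd8e9519878ca49535219a2bf65f4a06dc84af540d5eae98a110afd16a8a5378c13a7d52d8ab2214c40c96fbf540d6559345975934597 = true := by decide +kernel

end Vale.Agent.helper4.Q4
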