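import Vale.Agent.helper4.Q4TreeM
import Vale.Agent.helper4.Q4G.PB17_8

/-!
Checks for pairs of intervals of second moments.
-/

set_option maxRecDepth 100000
set_option linter.unusedVariables false

namespace Vale.Agent.helper4.Q4

theorem cB17_8_3_140 : chunkOkM (LB17_8.ctx true true 316 935 512 9 16 6265 19723 8 64) muQ true true 64 RtB17_8.Cx.left.right.left RtB17_8.CX RtB17_8.Ctp.right.right.left.right.right.right.right RtB17_8.Ce.right.right.right.left.left.left.left.left RtB17_8.CTp.left RtB17_8.CEr.left 0x6647e43ebaafd5bdf2a878cd1516ca5b69bf66872513db4af540d6a6a17a3eb3a5afda1494ca78c9abd25aeca2bf6ae83e72329af540d416c167944afd179f05828abfb5efc08180bf630d3c5e1e190bafd14d87e438abdd052c5111dbf67882f9f86caf540d36569692ac7c17d1dafd1393db3e87cacac3517ab1729707f3d62cf640d9e032225ecafd9c6e55c78c76bc5f6bb33e562087e9bcf640dd00b1fcb16afd6f2c2fc087c10aefbf08ab1fa375bbab6acf640d65469769346976937 = true := by decide +kernel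

theorem cB17_8_3_141 : chunkOkM (LB17_8.ctx true true 295 471 256 9 16 1561 4961 8 64) muQ true true 64 RtB17_8.Cx.left.right.left RtB17_8.CX RtB17_8.Ctp.right.right.left.right.right.right.right RtB17_8.Ce.right.right.right.left.left.left.left.right RtB17_8.CTp.left RtB17_8.CEr.left 0x5dcb3d8c66afd373cfff78c9edb0258c3ebf67b769599ccaf540daf8f89e738afda54a62778c90fc7a0c736bf630d49d4d1aaf9afd6d011768c15764abb8abf4392690727bf646555128daaf550d65697597 = true := by decide +kernel

theorem cB17_8_3_142 : chunkOkM (LB17_8.ctx true true 293 239 128 9 16 3101 4939 8 64) muQ true true 64 RtB17_8.Cx.left.right.right RtB17_8.CX RtB17_8.Ctp.right.right.left.right.right.right.left RtB17_8.Ce.right.right.right.left.left.left.left.left RtB17_8.CTp.left RtB17_8.CEr.left 0x3b24685199afd24a32f678c2371d59040fbf61a00f65667ebf540d72ac6c2e27afd6dcd1dd78c59969a6bb282357774a9bf61cbe65770cdbf550d18532a380a2bf05b6526f48a30d6afdb342a58c44b4a1e57babf6f906f3133daf540d8d20572902afd88712bd78c3d48ad57092bf618922ddf264bf540d625aad0108afd1be3e5fe8ab1d944f7484af61cd5b9dd7d1bf540d6a036d6fef8afd6cdbecd78c56e1d06bb229c18ef38ebf540d357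 = true := by decide +kernel

theorem cB17_8_3_143 : chunkOkM (LB17_8.ctx true true 306 475 256 9 16 6209 9911 8 64) muQ true true 64 RtB17_8.Cx.left.right.right RtB17_8.CX RtB17_8.Ctp.right.right.left.right.right.right.left RtB17_8.Ce.right.right.right.left.left.left.left.right RtB17_8.CTp.left RtB17_8.CEr.left 0x3537dc85f3afd1947d5078c391ad16bbe1e4c2f70eaf61ed422b674ebf550d7a522ab20bafd77a546578c22a711978debf61a840f1de22bf540d1b60131aa78bf05b694982e774fafd6d4c43578c22146773da7bf530d355950e82c8998afd2edef4578c2bf9d1a892fbf61c7807f19f9bf540d6cd9fac1f9afd782b95378c1eb5b42b1a9bf530d1c3ece4a565bf05b6559345975937 = true := by decide +kernel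

theorem cB17_8_3_144 : chunkOkM (LB17_8.ctx true true 283 119 64 9 16 1561 4939 8 64) muQ true true 64 RtB17_8.Cx.left.right.right RtB17_8.CX RtB17_8.Ctp.right.right.left.right.right.right.right RtB17_8.Ce.right.right.right.left.left.left.left.left RtB17_8.CTp.left RtB17_8.CEr.left 0x508608af9bafd26e272578c64be46e3daebf69f85a7e865af540d8874fb002eafd93ccd1878c54181160b90bf61258a0e268bbf540d59f3552868afd15827e778c14601bd7bb6cb6069d8bebf610a3852caacbf550d65 = true := by decide +kernel

theorem cB17_8_3_145 : chunkOkM (LB17_8.ctx true true 289 239 128 9 16 1561 4961 8 64) muQ true true 64 RtB17_8.Cx.left.right.right RtB17_8.CX RtB17_8.Ctp.right.right.left.right.right.right.right RtB17_8.Ce.right.right.right.left.left.left.left.right RtB17_8.CTp.left RtB17_8.CEr.left 0x394d8a8b28afd341a75b78c419353b336ebf6ffc99b4504af540d6a683c9b45f81afd878afc178c32463c3335cbf616047cc6d1cbf540d412f5bc876afd10fc73d7bb81c6bf50794bf61103d642188bf540d67c71ff49e7afd86b0f4478c4a0d6781145bf6124da7682b6bf540d41d83b9472afd142cc968c1680b9f7bb5fb083b0400bf6fa9670fe92af550d675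 = true := by decide +kernel

theorem cB17_8_3_146 : chunkOkM (LB17_8.ctx true true 267 59 32 9 16 777 2475 8 32) muQ true true 64 RtB17_8.Cx.left.right RtB17_8.CX RtB17_8.Ctp.right.right.left.right.right.right RtB17_8.Ce.right.right.right.left.left.left.left RtB17_8.CTp.left RtB17_8.CEr.right 0x4e0ee0a923afd52a1ac778c1e9f27a90e5bf613090c479b9bf540d5a5 = true := by decide +kernel

theorem cB17_8_3_147 : chunkOkM (LB17_8.ctx true true 113 1 1 1 1 1 1 1 1) muQ true true 64 RtB17_8.Cx.left.right.left RtB17_8.CX RtB17_8.Ctp.right.right.left.right.right.right RtB17_8.Ce.right.right.right.left.left.left.right RtB17_8.CTp.left RtB17_8.CEr 0x69 = true := by decide +kernel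

theorem cB17_8_3_148 : chunkOkM (LB17_8.ctx true true 303 479 256 9 16 6209 9955 8 32) muQ true true 64 RtB17_8.Cx.left.right.right RtB17_8.CX RtB17_8.Ctp.right.right.left.right.right.right.left RtB17_8.Ce.right.right.right.left.left.left.right RtB17_8.CTp.left RtB17_8.CEr.left 0x59594b22e746b4afd299a86778c2172cce5081bf530d9b19526f6cafd6ed4a7a78c1d74656eebcbf530d559345975934597 = true := by decide +kernel

theorem cB17_8_3_149 : chunkOkM (LB17_8.ctx true true 319 951 512 9 16 12481 19899 8 64) muQ true true 64 RtB17_8.Cx.left.right.right.left RtB17_8.CX RtB17_8.Ctp.right.right.left.right.right.right.right RtB17_8.Ce.right.right.right.left.left.left.right.left RtB17_8.CTp.left RtB17_8.CEr.left 0x5d755dca5bafd37d89d278c53028c62c8fbf61041992d549bf540d34d22a4633afd6dc430678cae78607ff55bf630d42c76639d3afd5caac768c142cf3f48ab56a5a4aa71cbf613515a87edcbf550d659596cd1cc97caafd7a8c7d878c1ea088b3049bf530d3f5c8f35c0afd20cee7777c13667b3e8ab1ff667ca76dbf540d65934597593459735 = true := by decide +kernel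

end Vale.Agent.helper4.Q4
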