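import Vale.Agent.helper4.Q4TreeM
import Vale.Agent.helper4.Q4G.PB17_8

/-!
Checks for pairs of intervals of second moments.
-/

set_option maxRecDepth 100000
set_option linter.unusedVariables false

namespace Vale.Agent.helper4.Q4

theorem cB17_8_3_150 : chunkOkM (LB17_8.ctx true true 289 239 128 9 16 1561 4983 8 64) muQ true true 64 RtB17_8.Cx.left.right.right.right RtB17_8.CX RtB17_8.Ctp.right.right.left.right.right.right.right RtB17_8.Ce.right.right.right.left.left.left.right.left RtB17_8.CTp.left RtB17_8.CEr.left 0x57c1a9d9b8afd2ed5c7878c4e522f8b149bf6133f8e0903ebf540d93276badebafd8ab4c2778c3e04d1e3de6bf615003c2cc46bf540d49cc01b213afd1c472d87bb218c4c0031fbf619b3dbb005abf540d65 = true := by decide +kernel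

theorem cB17_8_3_151 : chunkOkM (LB17_8.ctx true true 293 239 128 9 16 3129 5005 8 64) muQ true true 64 RtB17_8.Cx.left.right.right RtB17_8.CX RtB17_8.Ctp.right.right.left.right.right.right.right RtB17_8.Ce.right.right.right.left.left.left.right.right RtB17_8.CTp.left RtB17_8.CEr.left 0x56455aaaccafd2f4a9ba78c4bb824218eebf6141edd3c2a2bf540d7a8342a77aafd75ae9a478c517bae6bb50022cb9242bf614e32617706bf550d2c3df36b0dafd123988048ab3027d93c7e5bf619df543787cbf540d69cbdece179afd698de0a78c4fe7236bb240682a09bebf540d35697 = true := by decide +kernel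

theorem cB17_8_3_152 : chunkOkM (LB17_8.ctx true true 269 119 64 9 16 777 2497 4 32) muQ true true 64 RtB17_8.Cx.left.right.right RtB17_8.CX RtB17_8.Ctp.right.right.left.right.right.right RtB17_8.Ce.right.right.right.left.left.left.right RtB17_8.CTp.left RtB17_8.CEr.right 0x703b7a9768afd874478e78cd82c7a8a3baf619ced2dccedbf540d = true := by decide +kernel

theorem cB17_8_3_153 : chunkOkM (LB17_8.ctx true true 276 119 64 9 16 1561 4961 4 32) muQ true true 64 RtB17_8.Cx.left.right RtB17_8.CX RtB17_8.Ctp.right.right.left.right.right.right RtB17_8.Ce.right.right.right.left.left.left RtB17_8.CTp.right RtB17_8.CEr 0x11e677e734afd3dc0325e89f8ec2947f524af617b997b08eabf540d11edef1f99afd2c4e3eb6f9f8257ab617bbebf6134f74fc888bf540d179aab318aafd1baeeafaf9f89dd3cb6cf2fbf630d1253cd8531afd2304fd7909f87f5cbaac613bf64200f138f2af540d41348cc1b94afd2ae1849a59f8167da54c97af61b932bdb08dbf540d3746a6 = true := by decide +kernel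

theorem cB17_8_3_154 : chunkOkM (LB17_8.ctx true true 332 1919 1024 9 16 25081 40139 8 64) muQ true true 64 RtB17_8.Cx.left.right RtB17_8.CX RtB17_8.Ctp.right.right.left.right.right RtB17_8.Ce.right.right.right.left.left.right RtB17_8.CTp RtB17_8.CEr 0x5959595959118bf2e1faaf06c6a6781c55c690afd7dacc8678c20d48626f143eafd26f11f1287c5896916ab18e66eec732bf540d51e05c19f8e5c6edcbf05b656559345975934597593459759345975935974593 = true := by decide +kernel

theorem cB17_8_3_155 : chunkOkM (LB17_8.ctx true true 247 31 16 9 16 735 1243 2 16) muQ true true 64 RtB17_8.Cx.right RtB17_8.CX RtB17_8.Ctp.right.right.left.right.left.left RtB17_8.Ce.right.right.right.left.left.left RtB17_8.CTp RtB17_8.CEr 0x12e489d92bafd1a7ab8514baf81a6705fc4e04cf5408553046021cf440d = true := by decide +kernel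

theorem cB17_8_3_156 : chunkOkM (LB17_8.ctx true true 270 123 64 9 16 1505 2475 4 16) muQ true true 64 RtB17_8.Cx.right.left RtB17_8.CX RtB17_8.Ctp.right.right.left.right.left.right RtB17_8.Ce.right.right.right.left.left.left RtB17_8.CTp RtB17_8.CEr 0x5977a82ce579fd10111ddfd1af8e77ffea567af62e1c1092e2cbf540d225d85724dafd2071c8c78c4f97b8f436abf643a932a6b55bf540d55935974 = true := by decide +kernel

theorem cB17_8_3_157 : chunkOkM (LB17_8.ctx true true 279 249 128 9 16 1505 4939 4 16) muQ true true 64 RtB17_8.Cx.right.right RtB17_8.CX RtB17_8.Ctp.right.right.left.right.left.right RtB17_8.Ce.right.right.right.left.left.left.left RtB17_8.CTp RtB17_8.CEr 0x2a5b0f72885bf04b2f9649df59fd1313747071af83b115fc2b9bbf63ccc0dd0caabf540d19eb6b0d9dafd155899c78c1250ef889bdbf631d8b9d04f9bf540d574949596a05eeaa09fd17da7a84c8af8de2f6c54b02bf68ff2eaecb58bf59796ebb0e4af450d1576f4d180afda4dba568c5b92b85658fbf656c78b34b67bf55735a9b2c2af450d54773 = true := by decide +kernel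

theorem cB17_8_3_158 : chunkOkM (LB17_8.ctx true true 270 127 64 9 16 1505 2497 4 16) muQ true true 64 RtB17_8.Cx.right.right RtB17_8.CX RtB17_8.Ctp.right.right.left.right.left.right RtB17_8.Ce.right.right.right.left.left.left.right RtB17_8.CTp RtB17_8.CEr 0x89e84736c9fd13c67868c435c9290462bf64113d14618cbf51d690ad8bfbbf450d3603b11029fd1764145391af845060530b7cbf647a3a01b6e9bf5436d5b79c9f450d1aa11666acafd133cfa678c226a61389a2bf63e17bda97f1bf540d576556538b99fd3ada68e489f83d19886042dbf614b9a89431d5cf52e6174328056cf450d3 = true := by decide +kernel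

theorem cB17_8_3_159 : chunkOkM (LB17_8.ctx true true 245 31 16 9 16 371 1265 2 16) muQ true true 64 RtB17_8.Cx.right RtB17_8.CX RtB17_8.Ctp.right.right.left.right.left RtB17_8.Ce.right.right.right.left.left.right RtB17_8.CTp RtB17_8.CEr 0x2c7a604179fd1421a5678c948dbd2cd9f81305ad63fb7bcf6cb314e91d47bcf522dbfa94c422cdf460d = true := by decide +kernel

theorem cB17_8_3_160 : chunkOkM (LB17_8.ctx true true 273 123 64 9 16 1533 2475 4 32) muQ true true 64 RtB17_8.Cx.right.left RtB17_8.CX RtB17_8.Ctp.right.right.left.right.right.left RtB17_8.Ce.right.right.right.left.left.left.left RtB17_8.CTp RtB17_8.CEr 0xd1fbb54c39fdba28ddd489f821c6035ffa4bf62a191504e4fbf540d9e167f771bafd67af86178c1fcfa9c4ca7bf6299a574f96fbf540d68af139075afd44f31ce78c1e3dab49782bf62694fe9f1bcbf540d6511a374f8c5afdcf742ede19f81433053125abf6254c4b8c60abf540d2ce2d2a7c5afd574815378c15ae80e6201bf62453e5f25a4bf540d6ba1b7adb4afd489921278c20a4c4635aaf6207d134983cbf540d6219029b9beafd2cd0c8a78c540e196bb4d0e56a6f1af628319b18f9abf550d357 =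 true := by decide +kernel

theorem cB17_8_3_161 : chunkOkM (LB17_8.ctx true true 286 243 128 9 16 3073 4983 4 32) muQ true true 64 RtB17_8.Cx.right.left.left RtB17_8.CX RtB17_8.Ctp.right.right.left.right.right.left RtB17_8.Ce.right.right.right.left.left.left.right RtB17_8.CTp RtB17_8.CEr 0x5910e6299d61afd11ceac6ab3af82a3b0d2096fbf623d4ef7920ebf540d6465239f1cafd3f2ab7b78c17a0d9a0406bf6259c95b115dbf540d518608f209afd4a91fca78c237723b0a9abf530d655934597593 = true := by decide +kernel

end Vale.Agent.helper4.Q4
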