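import Vale.Agent.helper4.Q4TreeM
import Vale.Agent.helper4.Q4G.PB17_8

/-!
Checks for pairs of intervals of second moments.
-/

set_option maxRecDepth 100000
set_option linter.unusedVariables false

namespace Vale.Agent.helper4.Q4

theorem cB17_8_3_162 : chunkOkM (LB17_8.ctx true true 273 123 64 9 16 1533 2497 4 32) muQ true true 64 RtB17_8.Cx.right.left.right RtB17_8.CX RtB17_8.Ctp.right.right.left.right.right.left RtB17_8.Ce.right.right.right.left.left.left.right RtB17_8.CTp RtB17_8.CEr 0xe4d21a1f69fdf7dcfda469f8131fadab72dbf626582b6831fbf540d9c5a8a2996afd5c763b478c260ba1e97b5bf62833957bb8dbf540d2eef97a105afd2ef4a5778c22b6c737643bf62b4fcde0a63bf540d658b73feeba9fd10a2fefe61af819522dfc86cbf62bec3efb2bfbf540d196e910b25afd1f467f778c9f103bbc24af62cf93e94885bf540d53 = true := by decide +kernel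

theorem cB17_8_3_163 : chunkOkM (LB17_8.ctx true true 280 121 64 9 16 1561 4961 8 32) muQ true true 64 RtB17_8.Cx.right.left RtB17_8.CX RtB17_8.Ctp.right.right.left.right.right.right RtB17_8.Ce.right.right.right.left.left.left.left RtB17_8.CTp.left RtB17_8.CEr.left 0x699a053c3603afd7e659cf78c20d246d25ac3eafd469acce4576bf61c64389cbdabf530d77eec9d938afd4b05f0178ce525f86bb2e22755d876bf6217f9d63cf6bf550d57be3930081afd4e6a0d778c109ba4b7965bf530d437 = true := by decide +kernel

theorem cB17_8_3_164 : chunkOkM (LB17_8.ctx true true 286 243 128 9 16 1547 5005 8 32) muQ true true 64 RtB17_8.Cx.right.left.left RtB17_8.CX RtB17_8.Ctp.right.right.left.right.right.right.left RtB17_8.Ce.right.right.right.left.left.left.right RtB17_8.CTp.left RtB17_8.CEr.left 0x883828a317afd56ac6ee78c10d09a6bb2218da9a718bf540d8167a8aa7bafd58a417b78c1fe5351c3cdbf6214c36da914bf540d55c4195153afd348e3a078c39ee0e75c9af61b7ff5bfe28bf540da521c44940afd70912e678c2c362a3dddebf61e72cbc4ee1bf540d574 = true := by decide +kernel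

theorem cB17_8_3_165 : chunkOkM (LB17_8.ctx true true 289 243 128 9 16 1561 5005 8 64) muQ true true 64 RtB17_8.Cx.right.left.left RtB17_8.CX RtB17_8.Ctp.right.right.left.right.right.right.right RtB17_8.Ce.right.right.right.left.left.left.right RtB17_8.CTp.left RtB17_8.CEr.left 0x9fa9c2d88dafd82b6d4078cde45f6d954af61dc19125500bf540d2456fcd694afd95a7ff6bb3afe1d210a5bf61dd41c25c57bf540d63fa495dc1fafd2c924d878c37afd39baa5bf61deb89372bdbf540d67c1c0c600afd70fd23a78c333d686e35abf61960cfdccd7bf540d848ed88500afd3b1ea3478c93e2986bb35e4775c5a2bf61d85b1b8421bf550d65786ccd52826afd7f73ffa78c1c4bd3a7d79bf61ceed077813bf540d6515cb6d9bafd164c8c77bb1433503d8ecbf530d64 = true := by decide +kernel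

theorem cB17_8_3_166 : chunkOkM (LB17_8.ctx true true 269 123 64 9 16 777 2497 4 32) muQ true true 64 RtB17_8.Cx.right.left.right RtB17_8.CX RtB17_8.Ctp.right.right.left.right.right.right RtB17_8.Ce.right.right.right.left.left.left.right RtB17_8.CTp.left RtB17_8.CEr.left 0x5b20d26488afd4ca2d1278c4aeb9d3ae38bf62873829f9acbf540d = true := by decide +kernel

theorem cB17_8_3_167 : chunkOkM (LB17_8.ctx true true 260 61 32 9 16 777 1243 4 32) muQ true true 64 RtB17_8.Cx.right.left RtB17_8.CX RtB17_8.Ctp.right.right.left.right.right.right RtB17_8.Ce.right.right.right.left.left.left RtB17_8.CTp.left RtB17_8.CEr.right 0x514f7d5c87afd7227b1d78c1f3e26e09e9bf61b6408722ffbf540d = true := by decide +kernel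

theorem cB17_8_3_168 : chunkOkM (LB17_8.ctx true true 260 61 32 9 16 777 1243 4 32) muQ true true 64 RtB17_8.Cx.right.left RtB17_8.CX RtB17_8.Ctp.right.right.left.right.right.right RtB17_8.Ce.right.right.right.left.left.left RtB17_8.CTp.right RtB17_8.CEr 0xe4c8426779fd289a74ac99f81743181341bbf6192bfa476d0bf540d6a6 = true := by decide +kernel

theorem cB17_8_3_169 : chunkOkM (LB17_8.ctx true true 270 127 64 9 16 1533 2497 4 16) muQ true true 64 RtB17_8.Cx.right.right RtB17_8.CX RtB17_8.Ctp.right.right.left.right.right RtB17_8.Ce.right.right.right.left.left.left RtB17_8.CTp RtB17_8.CEr 0x699b76dd07c9fdb0ac058c50fcea70b2bbf641662d9bddabf540d85a7810529fd166de3cffbaf822be6396b96bf62ef29efba4dbf540d1f99716af9afd236039078c5ba51e03c99bf63899b1c8becbf540d572a0113f59fd1053d2d46faf814e0e6a2ce4bf62ec0319fa3fbf540d19d6d02281afd139e60d78cdf6a58b685af62dcd1058062bf540d53773fc21f149fd16983c8171af83747b694680bf6329d86baf4fbf540d191777b309afd143f0e378c9209feb7c8dbf6515c8fe1859bf540d543 = true := by decide +kernel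

theorem cB17_8_3_170 : chunkOkM (LB17_8.ctx true true 279 247 128 9 16 1533 5027 4 16) muQ true true 64 RtB17_8.Cx.right.left RtB17_8.CX RtB17_8.Ctp.right.right.left.right.right.left RtB17_8.Ce.right.right.right.left.left.right RtB17_8.CTp RtB17_8.CEr 0x595996ef219cc9fd106431be24af82b37f575201bf62f21b4add5cbf540d1cd1f59a7aafd226920878c540fdf6bb13b1791ec9abf62c8e7482748bf550d545975935974 = true := by decide +kernel

theorem cB17_8_3_171 : chunkOkM (LB17_8.ctx true true 273 121 64 9 16 1547 2519 4 32) muQ true true 64 RtB17_8.Cx.right.left.left RtB17_8.CX RtB17_8.Ctp.right.right.left.right.right.right.left RtB17_8.Ce.right.right.right.left.left.right.left RtB17_8.CTp.left RtB17_8.CEr.left 0x7432d91d16afd4b1b55778c249ef540ff6bf530d = true := by decide +kernel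

theorem cB17_8_3_172 : chunkOkM (LB17_8.ctx true true 293 243 128 9 16 3129 5027 8 64) muQ true true 64 RtB17_8.Cx.right.left.left RtB17_8.CX RtB17_8.Ctp.right.right.left.right.right.right.right RtB17_8.Ce.right.right.right.left.left.right.left.left RtB17_8.CTp.left RtB17_8.CEr.left 0x3a262bc59fafd25c1b2c78c275a02dadf0bf61ccb5b1578fbf540d849407a176afd62195cf78c846cc36bb5636cfcac1af62031ad99f75bf550d522906fa985afd4b7c584f111bf613fa2a9f62fbf530d40e680fa8eafd6c6ea1378c2312950bf95bf530d1d626a048d5bf05b6582153dff20afd58f926978c24ae5dc1ccebf530d37 = true := by decide +kernel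

end Vale.Agent.helper4.Q4
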