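import Vale.Agent.helper4.Q4TreeM
import Vale.Agent.helper4.Q4G.PB17_8

/-!
Checks for pairs of intervals of second moments.
-/

set_option maxRecDepth 100000
set_option linter.unusedVariables false

namespace Vale.Agent.helper4.Q4

theorem cB17_8_3_173 : chunkOkM (LB17_8.ctx true true 325 1935 1024 9 16 12537 40315 8 32) muQ true true 64 RtB17_8.Cx.right.left.left RtB17_8.CX RtB17_8.Ctp.right.right.left.right.right.right.right RtB17_8.Ce.right.right.right.left.left.right.left.right RtB17_8.CTp.left RtB17_8.CEr.left 0x2791bde75cafd11ee00078c348de5bb5e7d48fb1c2bf61bab9b35fc0bf550d8e3ef04c6cafd64555d478c24f143ef1f0bf61cc08c84269bf540d595c37a3c9aafd5c66f7478c259be67405fbf530d35959591cf38d0e54af06c96a9d8ca8dafd647b783087c3491c837ab2053f3d278abf540d54597593459759345975937 = true := by decide +kernel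

theorem cB17_8_3_174 : chunkOkM (LB17_8.ctx true true 269 121 64 9 16 777 2519 4 32) muQ true true 64 RtB17_8.Cx.right.left.left RtB17_8.CX RtB17_8.Ctp.right.right.left.right.right.right RtB17_8.Ce.right.right.right.left.left.right.left RtB17_8.CTp.left RtB17_8.CEr.right 0x4083273949afd6d0f69578c15f4e8bbbbebf61c84c611b92bf540d = true := by decide +kernel

theorem cB17_8_3_175 : chunkOkM (LB17_8.ctx true true 269 121 64 9 16 777 2519 4 32) muQ true true 64 RtB17_8.Cx.right.left.left RtB17_8.CX RtB17_8.Ctp.right.right.left.right.right.right RtB17_8.Ce.right.right.right.left.left.right.left RtB17_8.CTp.right RtB17_8.CEr 0xf4b23fd7b9fd4a28c8c3c9f8a52b68b19daf61c1c492f353bf540d6a6 = true := by decide +kernel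

theorem cB17_8_3_176 : chunkOkM (LB17_8.ctx true true 269 123 64 9 16 777 2519 4 32) muQ true true 64 RtB17_8.Cx.right.left.right RtB17_8.CX RtB17_8.Ctp.right.right.left.right.right.right RtB17_8.Ce.right.right.right.left.left.right.left RtB17_8.CTp RtB17_8.CEr 0x120478ec2cafd739eb3d399f82e6ff6c0df3bf6244527ad453bf540d6abfc4b431afd596b19278c1cbf61e1f2ebf62029d95bfdfbf540d7d7be7ffcdafd57d338878c1613e76bb257190bc2b4bf622e14dad95dbf550d65 = true := by decide +kernel

theorem cB17_8_3_177 : chunkOkM (LB17_8.ctx true true 312 975 512 9 16 12537 20251 4 32) muQ true true 64 RtB17_8.Cx.right.left RtB17_8.CX RtB17_8.Ctp.right.right.left.right.right.right RtB17_8.Ce.right.right.right.left.left.right.right RtB17_8.CTp RtB17_8.CEr 0x100447f629afdc8a94c2649f816554b24388bf622a4287eec7bf540d3cba0f94c5afd549455c78c1bb2a3e8649bf622c3db5ba68bf540d770f0056a1afd4c286aa78c3e3b3f6bb4eddf73ce2af622ef5836be5bf550d61e30ea442fafd27b2c3878c4f6d926bb6252f760a8af62904f590aa8bf550d3559595911c74af384afde85dc8ecb9f81f1570b8a03bf530d69f1e5be5eafd621fea378c1f9ceae7a64bf530d826990d058afd55cb06ac87c22a8ef936c3bf530d655934597593459759345975937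 = true := by decide +kernel

theorem cB17_8_3_178 : chunkOkM (LB17_8.ctx true true 270 125 64 9 16 1533 2519 4 16) muQ true true 64 RtB17_8.Cx.right.right.left RtB17_8.CX RtB17_8.Ctp.right.right.left.right.right.left RtB17_8.Ce.right.right.right.left.left.right.left RtB17_8.CTp RtB17_8.CEr 0x7054985cc9fd11e9fd09ceaf81dfa3534629bf62ecccbef7b4bf540d1aaade516fafd1abdcbf78c2913c257064bf62d2d01a7c3cbf540d51eda6eea69fd12b12a5e39af84669224e2b9bf63ef31d51ba1bf540d189e560798afd137b1a078c43acef15b70bf64327189732fbf540d53 = true := by decide +kernel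

theorem cB17_8_3_179 : chunkOkM (LB17_8.ctx true true 271 127 64 9 16 1533 2519 4 16) muQ true true 64 RtB17_8.Cx.right.right.right RtB17_8.CX RtB17_8.Ctp.right.right.left.right.right.left RtB17_8.Ce.right.right.right.left.left.right.left RtB17_8.CTp RtB17_8.CEr 0x4ccdc26079fd14e13531abaf86145f5e6c6fbf64cb347a72a9bf540d15085464f6afd11854e978ce52024536d9bf678ce4bacb73bf540d548c23f3129fdd72be5af69f82fdd9837b9f720f3d2c16f7bf63954e4840c7bf5b0da15cef0af460d1589410610afdedcf5468c19e53a5a639bf6379417349e8bf5b74e332559af450d53 = true := by decide +kernel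

theorem cB17_8_3_180 : chunkOkM (LB17_8.ctx true true 276 251 128 9 16 1533 2541 4 16) muQ true true 64 RtB17_8.Cx.right.right RtB17_8.CX RtB17_8.Ctp.right.right.left.right.right.left RtB17_8.Ce.right.right.right.left.left.right.right RtB17_8.CTp RtB17_8.CEr 0x3854fbe2e9fd103cb49476af82bd09c81023bf6358cea83829bf540d14d8b694f7afd11e7e4b78c2cd163f9807bf6370baa96d40bf540d529f2ca3069fd12a9648162af841c27daaebebf647cb58a7a52bf510f1e1e9a19bf450d1156cb2029afd78381668c1df393706a7bf63ba218ad3dbbf5885db6245baf450d5361bb52a389fd10da8ff1e0af827d427687e1bf6348dcd6ae3abf540d164e5c5e7cafd182eb1878c27b37a7b2eabf631b4fb976ffbf540d55975937 = true := by decide +kernel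

theorem cB17_8_3_181 : chunkOkM (LB17_8.ctx true true 263 63 32 9 16 777 2519 4 32) muQ true true 64 RtB17_8.Cx.right.right RtB17_8.CX RtB17_8.Ctp.right.right.left.right.right.right RtB17_8.Ce.right.right.right.left.left.right.left RtB17_8.CTp RtB17_8.CEr 0xaf45824339fd15f4b2e6d9af82cc10f9d246bf62359f1494d3bf540d17b89d9913afd3fdeaff78c1e7b0398874bf625f9674ad12bf540d221e41cb9eafd17276ed78c85ee9dedad3bf63dc458b519fbf540d65 = true := by decide +kernel

theorem cB17_8_3_182 : chunkOkM (LB17_8.ctx true true 273 127 64 9 16 1561 2541 4 32) muQ true true 64 RtB17_8.Cx.right.right RtB17_8.CX RtB17_8.Ctp.right.right.left.right.right.right RtB17_8.Ce.right.right.right.left.left.right.right RtB17_8.CTp RtB17_8.CEr 0x69632be91429fd13b6ec2b1caf848c684e28b8bf640cb4b89f66bf540d175552f9adafd18aa4ea78c3955211a8b5bf6397f0204787bf540d53deacc82ad9fdbeb0411fc9f81f23245ae63bf625751c88583bf540d98c296f423afd6bf2d2b78c156f73301debf624bf4d64ebfbf540d4940a2ef56afd285d33d78c2ef5e6e07a4bf620ed37b5b90bf540d658b42848a09fd91c4c1cb89f821a9daed1bfbf62eef2e7801fbf540d1ba8094ed7afd2327afc78c6d784d6bb1608da9d684bf62bea2367185bf550d537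 = true := by decide +kernel

theorem cB17_8_3_183 : chunkOkM (LB17_8.ctx true true 113 1 1 1 1 1 1 1 1) muQ true true 64 RtB17_8.Cx RtB17_8.CX RtB17_8.Ctp.right.right.left.right.left RtB17_8.Ce.right.right.right.left.right RtB17_8.CTp RtB17_8.CEr 0x59 = true := by decide +kernel

theorem cB17_8_3_184 : chunkOkM (LB17_8.ctx true true 113 1 1 1 1 1 1 1 1) muQ true true 64 RtB17_8.Cx.left RtB17_8.CX RtB17_8.Ctp.right.right.left.right.right RtB17_8.Ce.right.right.right.left.right RtB17_8.CTp RtB17_8.CEr 0x59 = true := by decide +kernel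

end Vale.Agent.helper4.Q4
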