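import Vale.Agent.helper4.Q4TreeM
import Vale.Agent.helper4.Q4G.PB17_8

/-!
Checks for pairs of intervals of second moments.
-/

set_option maxRecDepth 100000
set_option linter.unusedVariables false

namespace Vale.Agent.helper4.Q4

theorem cB17_8_3_185 : chunkOkM (LB17_8.ctx true true 299 495 256 9 16 6265 10219 4 32) muQ true true 64 RtB17_8.Cx.right.left RtB17_8.CX RtB17_8.Ctp.right.right.left.right.right RtB17_8.Ce.right.right.right.left.right.left RtB17_8.CTp RtB17_8.CEr 0x595959cc6271d519fdc4e6985089f820baaf8f58fbf530d6ba95b6a11afd397c5cc78c227c7f2f89ebf530d4717aa080cafd43d78df187c23d57b0ee4abf530d65593459759345975935974593 = true := by decide +kernel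

theorem cB17_8_3_186 : chunkOkM (LB17_8.ctx true true 270 127 64 9 16 1533 2563 4 16) muQ true true 64 RtB17_8.Cx.right.right RtB17_8.CX RtB17_8.Ctp.right.right.left.right.right.left RtB17_8.Ce.right.right.right.left.right.left RtB17_8.CTp RtB17_8.CEr 0x59114029c2cdaf85fe929a0ac2bf64e09e64345abf530d11d511cb3eafd5285b668cf4be038225af631354465598bf540d55935974 = true := by decide +kernel

theorem cB17_8_3_187 : chunkOkM (LB17_8.ctx true true 286 251 128 9 16 3101 5115 4 32) muQ true true 64 RtB17_8.Cx.right.right.left RtB17_8.CX RtB17_8.Ctp.right.right.left.right.right.right RtB17_8.Ce.right.right.right.left.right.left.left RtB17_8.CTp RtB17_8.CEr 0xa3f9409139fdc2e0c108f9f82772288d0b3bf6282636844c2bf540d219bef4f23afd32e0ae878c21268515120bf530d25965d8552afd105769078c63288a6bb28b87aa86ccbf62a6954829babf550d6559889ef44c39fd107e2f3b60af83bf10fe4c8abf634b901bc65ebf540d17997a2a0bafd1b52da878c3a8996f1d65bf634e9aac51efbf540d559345973 = true := by decide +kernel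

theorem cB17_8_3_188 : chunkOkM (LB17_8.ctx true true 270 127 64 9 16 1561 2563 4 16) muQ true true 64 RtB17_8.Cx.right.right.right RtB17_8.CX RtB17_8.Ctp.right.right.left.right.right.right RtB17_8.Ce.right.right.right.left.right.left.left RtB17_8.CTp RtB17_8.CEr 0x8ed900ee49fd16334ea387af82e363db7e0dbf62e9eaff919fbf540d207f047541afd2e7ffc778c31c7e33706fbf62eae3dd5644bf540d55e75a044b9fdd8a9fb6a09f81a68ac45436bf62f8298741a7bf540d16bcd5c903afd190754578c26f71f95acbbf63219b3cb7e1bf540d53 = true := by decide +kernel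

theorem cB17_8_3_189 : chunkOkM (LB17_8.ctx true true 293 503 256 9 16 3129 10307 4 16) muQ true true 64 RtB17_8.Cx.right.right RtB17_8.CX RtB17_8.Ctp.right.right.left.right.right.right RtB17_8.Ce.right.right.right.left.right.left.right RtB17_8.CTp RtB17_8.CEr 0x6ed425a339fdacbcba6be9f82095ff5accabf62e75fa76bdbbf540d1a0880c356afd1e007c778c11eaca581f0bf62c176c16d66bf540d5591ab0286f09fd12313f8debaf89b1c952c8b6bf653353f4356fbf540d13d076d388afdc8901f68c65c38dff447bf649596c01532bf540d5459735959c7986a7aa9fde731a43d29f822f91c20374bf530d1ab84cb915afd233d55f78c13d3f47391ebf62ab3d546c11bf540d5459759345975937 = true := by decide +kernel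

theorem cB17_8_3_190 : chunkOkM (LB17_8.ctx true true 284 255 128 9 16 3129 5203 4 16) muQ true true 64 RtB17_8.Cx.right RtB17_8.CX RtB17_8.Ctp.right.right.left.right.right RtB17_8.Ce.right.right.right.left.right.right RtB17_8.CTp RtB17_8.CEr 0x595930b013d3d9fdde33277f39f89d585546286bf6470ebdc5122bf540d1472e14e92afd106611878c20d6189e656bf62ecb1f79686bf540d559345975935974597593 = true := by decide +kernel

theorem cB17_8_3_191 : chunkOkM (LB17_8.ctx true true 113 1 1 1 1 1 1 1 1) muQ true true 64 RtB17_8.Cx RtB17_8.CX RtB17_8.Ctp.right.right.left.right RtB17_8.Ce.right.right.right.right RtB17_8.CTp RtB17_8.CEr 0x59 = true := by decide +kernel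

theorem cB17_8_3_192 : chunkOkM (LB17_8.ctx true true 113 1 1 1 1 1 1 1 1) muQ true true 64 RtB17_8.Cx.left.left.left RtB17_8.CX RtB17_8.Ctp.right.right.right.left.left RtB17_8.Ce.right.right.right.left.left.left RtB17_8.CTp RtB17_8.CEr 0x21 = true := by decide +kernel

theorem cB17_8_3_193 : chunkOkM (LB17_8.ctx true true 113 1 1 1 1 1 1 1 1) muQ true true 64 RtB17_8.Cx.left.left.right.left RtB17_8.CX RtB17_8.Ctp.right.right.right.left.left RtB17_8.Ce.right.right.right.left.left.left.left RtB17_8.CTp RtB17_8.CEr 0x21 = true := by decide +kernel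

theorem cB17_8_3_194 : chunkOkM (LB17_8.ctx true true 336 3711 2048 9 16 12649 39435 8 64) muQ true true 64 RtB17_8.Cx.left.left.right.right RtB17_8.CX RtB17_8.Ctp.right.right.right.left.left.left RtB17_8.Ce.right.right.right.left.left.left.left.left RtB17_8.CTp.left RtB17_8.CEr 0xa787caad07afdc8e9c3978c69120941e17bf630d4696222b43afd519226378c70b4fc2dda8bf6460760b163af240d6a68749410097afd8ed7dd778c16b039c7bb1006f4aa5b11cf6ee9eff81b3af250d534348137bafd162f18e78c1e1d9bb68abb9bf6fa344fbf6ca83102ae7af250d46dc415d70afdf3264368c1f9bb44e8abbeaa01ce69fbf6aa4940edd8af250d4669696971e05ce36602275cafd7f74f2f587c162acf6a8ab56272ec83a8ccf640d6697693469746936974693217356 = true := by decide +kernel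

theorem cB17_8_3_195 : chunkOkM (LB17_8.ctx true true 278 231 128 9 16 791 4939 4 32) muQ true true 64 RtB17_8.Cx.left.left.right.right RtB17_8.CX RtB17_8.Ctp.right.right.right.left.left.left RtB17_8.Ce.right.right.right.left.left.left.left.left RtB17_8.CTp.right RtB17_8.CEr 0x16f20c1040afd4b634068c62b3939d74fbf630767869a6af240d6a6 = true := by decide +kernel

theorem cB17_8_3_196 : chunkOkM (LB17_8.ctx true true 113 1 1 1 1 1 1 1 1) muQ true true 64 RtB17_8.Cx.left.left.right.right RtB17_8.CX RtB17_8.Ctp.right.right.right.left.left.right RtB17_8.Ce.right.right.right.left.left.left.left.left RtB17_8.CTp RtB17_8.CEr 0x01 = true := by decide +kernel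

theorem cB17_8_3_197 : chunkOkM (LB17_8.ctx true true 113 1 1 1 1 1 1 1 1) muQ true true 64 RtB17_8.Cx.left.left.right.right RtB17_8.CX RtB17_8.Ctp.right.right.right.left.left RtB17_8.Ce.right.right.right.left.left.left.left.right RtB17_8.CTp RtB17_8.CEr 0x21 = true := by decide +kernel

theorem cB17_8_3_198 : chunkOkM (LB17_8.ctx true true 113 1 1 1 1 1 1 1 1) muQ true true 64 RtB17_8.Cx.left.left.right RtB17_8.CX RtB17_8.Ctp.right.right.right.left.left RtB17_8.Ce.right.right.right.left.left.left.right RtB17_8.CTp RtB17_8.CEr 0x21 = true := by decide +kernel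

theorem cB17_8_3_199 : chunkOkM (LB17_8.ctx true true 290 235 128 9 16 1575 4961 8 64) muQ true true 64 RtB17_8.Cx.left.right.left RtB17_8.CX RtB17_8.Ctp.right.right.right.left.left.left.left RtB17_8.Ce.right.right.right.left.left.left.left RtB17_8.CTp.left.left RtB17_8.CEr.left.left 0x4acda5b87eafdc1961568c1946dafe8abd5926499a07bf640d3ecd7310e4afd6c524c68c1b611527bb17e8465d56f8cf640d73c60475325afd1c141a68c19c24917bbc8ec8114299bf640d5871834030afd1122ac078c1c6e64038abebb6490e87dbf640d74 = true := by decide +kernel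

theorem cB17_8_3_200 : chunkOkM (LB17_8.ctx true true 297 235 128 9 16 3185 9933 8 64) muQ true true 64 RtB17_8.Cx.left.right.left RtB17_8.CX RtB17_8.Ctp.right.right.right.left.left.left.right RtB17_8.Ce.right.right.right.left.left.left.left RtB17_8.CTp.left.left RtB17_8.CEr.left.left 0x3ff4d26118afd91a5d868c1c441477bbd526ea2e949bf640d56ecb967bfafd18b469178c1ea6beb48abd8bb6d4816dbf66ecb7e6a1aaf250d55fe1a45dbafd16ea44b78c1e7adf568ab17246f8d5426cf640d34531f40c97afdec35f668c1e963ac18ab1148b42edfe1cf62be146c180af250d474a608559acafdefc84168c1eebac27bbec600d63b17bf640d4 = true := by decide +kernel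

theorem cB17_8_3_201 : chunkOkM (LB17_8.ctx true true 287 117 64 9 16 791 2475 32 128) muQ true true 64 RtB17_8.Cx.left.right.left RtB17_8.CX RtB17_8.Ctp.right.right.right.left.left.left RtB17_8.Ce.right.right.right.left.left.left.left RtB17_8.CTp.left.left RtB17_8.CEr.left.right 0x5a29185e8e38afd3c30fc578c2b75646bb5dfd64c821abf640d5a565a5 = true := by decide +kernel

end Vale.Agent.helper4.Q4
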