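import Vale.Agent.helper4.Q4TreeM
import Vale.Agent.helper4.Q4G.PB17_8

/-!
Checks for pairs of intervals of second moments.
-/

set_option maxRecDepth 100000
set_option linter.unusedVariables false

namespace Vale.Agent.helper4.Q4

theorem cB17_8_3_202 : chunkOkM (LB17_8.ctx true true 280 117 64 9 16 1589 2475 8 64) muQ true true 64 RtB17_8.Cx.left.right.left RtB17_8.CX RtB17_8.Ctp.right.right.right.left.left.left RtB17_8.Ce.right.right.right.left.left.left.left RtB17_8.CTp.left.right RtB17_8.CEr.left 0x429e55b425afd4b22c0c78c6e52a0fe60cbf630d4d6b3746baafd490951d78c785381d1198bf630d36a6 = true := by decide +kernel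

theorem cB17_8_3_203 : chunkOkM (LB17_8.ctx true true 276 119 64 9 16 791 2475 8 64) muQ true true 64 RtB17_8.Cx.left.right.right RtB17_8.CX RtB17_8.Ctp.right.right.right.left.left.left RtB17_8.Ce.right.right.right.left.left.left.left RtB17_8.CTp.left RtB17_8.CEr.left 0x4e1a8f5bcfafd36b6a4578caa70dd9b8b0bf630d61e05c3e303f8f4bafd30a44468c19591117bbe31a1f4f953bf640d65 = true := by decide +kernel

theorem cB17_8_3_204 : chunkOkM (LB17_8.ctx true true 289 235 128 9 16 1575 4983 8 64) muQ true true 64 RtB17_8.Cx.left.right.left RtB17_8.CX RtB17_8.Ctp.right.right.right.left.left.left.left RtB17_8.Ce.right.right.right.left.left.left.right RtB17_8.CTp.left RtB17_8.CEr.left 0x69501eda6cb2afd304c27478c58abc66bb1069165415f3cf640d72c8589e74afda2c678878cbe49b8cd219bf630d3a7e7ea3ccafd1ca5f868c1897ce87bbdc23f6af909bf640d654697 = true := by decide +kernel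

theorem cB17_8_3_205 : chunkOkM (LB17_8.ctx true true 300 467 256 9 16 3185 5005 8 64) muQ true true 64 RtB17_8.Cx.left.right.left RtB17_8.CX RtB17_8.Ctp.right.right.right.left.left.left.right RtB17_8.Ce.right.right.right.left.left.left.right RtB17_8.CTp.left.left RtB17_8.CEr.left 0x6fd0802038afda17c34678c113fe1de2fcacf630d530809ca18afd15bb69c78c1d38e8e48ab10744fb87ea6cf640d3af51495c1afd13bdf768c1d06c2e38ab134544eca092cf640d362178e441147f2afdafb418578c920e308c74bbf630d4a40061b14afdd678d368c1ccfe757bbc493eb2d7e9bf640d67844cc13e4afdaf872fa78c1b2b5ac4b394cf630d51fcadc559afd136aa2778c1e1304848ab115fb6ff3339cf640d621774 = true := by decide +kernel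

theorem cB17_8_3_206 : chunkOkM (LB17_8.ctx true true 283 117 64 9 16 1589 5005 8 64) muQ true true 64 RtB17_8.Cx.left.right.left RtB17_8.CX RtB17_8.Ctp.right.right.right.left.left.left.right RtB17_8.Ce.right.right.right.left.left.left.right RtB17_8.CTp.left.right RtB17_8.CEr.left 0x68953c72daafd6b55c2778cdce4eb50ea5bf630d463386f3f8afd52dd7fb78c91d1dfcdf7dbf630d46a6 = true := by decide +kernel

theorem cB17_8_3_207 : chunkOkM (LB17_8.ctx true true 289 239 128 9 16 1575 4983 8 64) muQ true true 64 RtB17_8.Cx.left.right.right RtB17_8.CX RtB17_8.Ctp.right.right.right.left.left.left.left RtB17_8.Ce.right.right.right.left.left.left.right.left RtB17_8.CTp.left RtB17_8.CEr.left 0x397584e322afd39eeb7978c5f94390a817bf6e16a75301caf540d6a69dd312c88bafd9915b8d78c37456c6bbb16893decb6bf640d4086f1fc88afd143ec027bbf93a3466ac8bf630d3c2e972f45afd17773397bbfdefee1accdbf630d765 = true := by decide +kernel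

theorem cB17_8_3_208 : chunkOkM (LB17_8.ctx true true 289 239 128 9 16 1575 5005 8 64) muQ true true 64 RtB17_8.Cx.left.right.right RtB17_8.CX RtB17_8.Ctp.right.right.right.left.left.left.left RtB17_8.Ce.right.right.right.left.left.left.right.right RtB17_8.CTp.left RtB17_8.CEr.left 0x5e9ff1bf68afd399a30978c74e695ed675bf6bb52f35996af540d8855735291afd90433fa78c9fe6580395fbf68f96ae12cbaf540d3ef2c9ad93afd12ce7a68c14d76927bb7f49bd7d925bf6945545b796af550d655fd52a88f2afd3b2331778cd143f632e79bf630d8b6a7a29e4afd8a42f5d78c7e160a6bbddabfadfed2bf640d4510001d82afd4327fc68c1640755c8abe7e64bc5457bf640d657 = true := by decide +kernel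

theorem cB17_8_3_209 : chunkOkM (LB17_8.ctx true true 284 119 64 9 16 1589 5005 8 64) muQ true true 64 RtB17_8.Cx.left.right.right RtB17_8.CX RtB17_8.Ctp.right.right.right.left.left.left.right RtB17_8.Ce.right.right.right.left.left.left.right RtB17_8.CTp.left RtB17_8.CEr.left 0x418d7d02a7afd46c2ffd78c82788e9fad4bf630d6a6868861587cafd9c64e7678c8988224569dbf630d451cab1545afd7961c368c196fa4b7bbc3c76b018a9bf640d93174fc160afd56652e878c11abf937bb156ea126634acf640d465 = true := by decide +kernel

theorem cB17_8_3_210 : chunkOkM (LB17_8.ctx true true 289 235 128 9 16 1603 5005 8 64) muQ true true 64 RtB17_8.Cx.left.right.left RtB17_8.CX RtB17_8.Ctp.right.right.right.left.left.right RtB17_8.Ce.right.right.right.left.left.left RtB17_8.CTp.left RtB17_8.CEr.left 0x01471c637777afd4d5c13578c22f6faec89ebf6102ed45ab72bf240d6a695cc7be24fafda9d0c0178c3eb5a16bbb12bbd6dd5af615e8c236840bf250d50558f542fafd1334b7478c1cd76727bb86327155aaabf6e2011dee2daf250d2174bfdec20adafd118d6d378c205db447bb193970f0c3abf61b0be90ebd2bf250d46590e9aa575dafdb93e66f78c1284bb400d1dcf12eb1095f693bcf040d43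 = true := by decide +kernel

theorem cB17_8_3_211 : chunkOkM (LB17_8.ctx true true 289 119 64 9 16 12775 1243 8 64) muQ true true 64 RtB17_8.Cx.left.right.right RtB17_8.CX RtB17_8.Ctp.right.right.right.left.left.right RtB17_8.Ce.right.right.right.left.left.left RtB17_8.CTp.left RtB17_8.CEr.left 0x111169691748f7d4dcaf06c61e05cdc2f04c653333 = true := by decide +kernel

end Vale.Agent.helper4.Q4
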