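import Vale.Agent.helper4.Q4TreeM
import Vale.Agent.helper4.Q4G.PB17_8

/-!
Checks for pairs of intervals of second moments.
-/

set_option maxRecDepth 100000
set_option linter.unusedVariables false

namespace Vale.Agent.helper4.Q4

theorem cB17_8_3_212 : chunkOkM (LB17_8.ctx true true 287 119 64 9 16 805 2497 32 128) muQ true true 64 RtB17_8.Cx.left.right RtB17_8.CX RtB17_8.Ctp.right.right.right.left.left RtB17_8.Ce.right.right.right.left.left.left RtB17_8.CTp.left RtB17_8.CEr.right 0x5a5a139ed28859dbf02b5eb7bc4f756bf06b573abcf052bbf06b7045c06ff707ebf06b74365a55a565a5 = true := by decide +kernel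

theorem cB17_8_3_213 : chunkOkM (LB17_8.ctx true true 113 1 1 1 1 1 1 1 1) muQ true true 64 RtB17_8.Cx.left.right RtB17_8.CX RtB17_8.Ctp.right.right.right.left.left RtB17_8.Ce.right.right.right.left.left.left RtB17_8.CTp.right RtB17_8.CEr.left 0x6a = true := by decide +kernel

theorem cB17_8_3_214 : chunkOkM (LB17_8.ctx true true 276 119 64 9 16 1589 4961 4 32) muQ true true 64 RtB17_8.Cx.left.right RtB17_8.CX RtB17_8.Ctp.right.right.right.left.left.left RtB17_8.Ce.right.right.right.left.left.left.left RtB17_8.CTp.right RtB17_8.CEr.right 0x12fc319f5caf06c1617fd1e67afd36f22a68c5eb199d677fbf61020d3723daf240d138e285456afd17167f11d9f88c14fbf8a90bf630d14481ddd10afd7a03a58ca077353da22bf630d437 = true := by decide +kernel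

theorem cB17_8_3_215 : chunkOkM (LB17_8.ctx true true 276 119 64 9 16 1589 5005 4 32) muQ true true 64 RtB17_8.Cx.left.right RtB17_8.CX RtB17_8.Ctp.right.right.right.left.left.left RtB17_8.Ce.right.right.right.left.left.left.right RtB17_8.CTp.right RtB17_8.CEr.right 0x16f93238faafd7bfa60bc979bf620d138fcbc46bafd99f240f88f83838d6de0cfbf6b14586c333af540d314d3099941afd1263e868cab75c233e2fbf630d151197913fafd1d0513848f86c329134074bf630d4141d0c5ba6afd2d8148c860e4c85cbabf630d37 = true := by decide +kernel

theorem cB17_8_3_216 : chunkOkM (LB17_8.ctx true true 260 59 32 9 16 805 1243 4 32) muQ true true 64 RtB17_8.Cx.left.right RtB17_8.CX RtB17_8.Ctp.right.right.right.left.left.right RtB17_8.Ce.right.right.right.left.left.left RtB17_8.CTp.right RtB17_8.CEr.right 0x1633ab695aafd3e219a68c315509cb27af616f01295348bf240d = true := by decide +kernel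

theorem cB17_8_3_217 : chunkOkM (LB17_8.ctx true true 113 1 1 1 1 1 1 1 1) muQ true true 64 RtB17_8.Cx.left.left RtB17_8.CX RtB17_8.Ctp.right.right.right.left.left RtB17_8.Ce.right.right.right.left.left.right RtB17_8.CTp RtB17_8.CEr 0x21 = true := by decide +kernel

theorem cB17_8_3_218 : chunkOkM (LB17_8.ctx true true 113 1 1 1 1 1 1 1 1) muQ true true 64 RtB17_8.Cx.left.right.left RtB17_8.CX RtB17_8.Ctp.right.right.right.left.left.left RtB17_8.Ce.right.right.right.left.left.right RtB17_8.CTp.left RtB17_8.CEr.left 0x69 = true := by decide +kernel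

theorem cB17_8_3_219 : chunkOkM (LB17_8.ctx true true 329 1903 1024 9 16 12649 40139 8 64) muQ true true 64 RtB17_8.Cx.left.right.right RtB17_8.CX RtB17_8.Ctp.right.right.right.left.left.left.left RtB17_8.Ce.right.right.right.left.left.right.left.left RtB17_8.CTp.left RtB17_8.CEr.left 0x4d678e2633afd491170578c15ae44ec02cbf618229ef7cb8bf540d6a68dfe795687afd8ddcea378cb6f058f441dbf62c7875bf4caf540d3f92a1c73fafd38ffcc68c149d2a9f8ab1158ecf1ee01cf640d5f62104f36afdea99cb68c15a264048ab81bbb8cdd84bf611ff689fa1bbf550d36569696983b9b6ca8dafd64a74d0587c274c313a4e9bcf630d61e05c4dd8921861afd11a06fa487c16a123e78ab28697c856bcdcf640d654697693469769346975937 = true := by decide +kernel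

theorem cB17_8_3_220 : chunkOkM (LB17_8.ctx true true 303 479 256 9 16 3157 10087 8 64) muQ true true 64 RtB17_8.Cx.left.right.right RtB17_8.CX RtB17_8.Ctp.right.right.right.left.left.left.left RtB17_8.Ce.right.right.right.left.left.right.left.right RtB17_8.CTp.left RtB17_8.CEr.left 0x69515ad62c01afd3246c4d78c15d2d4538089cf630d757f3046c6afd87b39d078c250d3a55dce7cf630d3e83fa3cf7afd13827b7e8ab1b6db8000bc9cf630d654697593597 = true := by decide +kernel

theorem cB17_8_3_221 : chunkOkM (LB17_8.ctx true true 290 239 128 9 16 1589 5027 8 64) muQ true true 64 RtB17_8.Cx.left.right.right RtB17_8.CX RtB17_8.Ctp.right.right.right.left.left.left.right RtB17_8.Ce.right.right.right.left.left.right.left.left RtB17_8.CTp.left RtB17_8.CEr.left 0x55ab357a5fafd5b8301e78ccecf42e4394bf630d6a68f67240c8dafd9130ab478c7008f36bb13cc36b4cac6cf640d3ada4342a6afd1841ae67bb1154ccdd20facf630d698a87f282bafd9c60dde78c6e4c536bb10f4a6e342afcf640d494b0f922dafdb835f968c19cbf6bb8abe1344e2ec96bf640d675 = true := by decide +kernel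

theorem cB17_8_3_222 : chunkOkM (LB17_8.ctx true true 309 951 512 9 16 3185 10087 8 64) muQ true true 64 RtB17_8.Cx.left.right.right RtB17_8.CX RtB17_8.Ctp.right.right.right.left.left.left.right RtB17_8.Ce.right.right.right.left.left.right.left.right RtB17_8.CTp.left RtB17_8.CEr.left 0x63a6536965afd4177e4d78c6e9db5bbd570bac6ea9bf640da0d5c0572eafd9f3a57e78cce5a4105deabf630d53340cbef6afdd6971c68c171726d68abcfb0aac5b96bf640d65692a2646dce4afd135bdf178cc8df036bb31f67a1b2130cf640d810fe143e2afd9b8f65578c1941bc398482cf630d4bd301cfbeafde6ce6968c1ad29ff78ab1a4921d99a64cf640d6569746976937 = true := by decide +kernel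

end Vale.Agent.helper4.Q4
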