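import Vale.Agent.helper4.Q4TreeM
import Vale.Agent.helper4.Q4G.PB17_8

/-!
Checks for pairs of intervals of second moments.
-/

set_option maxRecDepth 100000
set_option linter.unusedVariables false

namespace Vale.Agent.helper4.Q4

theorem cB17_8_3_223 : chunkOkM (LB17_8.ctx true true 342 3839 2048 9 16 25417 80971 8 64) muQ true true 64 RtB17_8.Cx.left.right.right RtB17_8.CX RtB17_8.Ctp.right.right.right.left.left.left RtB17_8.Ce.right.right.right.left.left.right.right RtB17_8.CTp.left RtB17_8.CEr.left 0x695e166e68f6afd3c994c478ccd2fa5bbf4de7a30de9bf640d7d17dcab2aafd937de2778c142b8e3d6284cf630d48b7818d84afdc98ec268c17ad33b58ab1460c38baa15cf640d66969696951e05c712f04c64693697469369746976934356974697593 = true := by decide +kernel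

theorem cB17_8_3_224 : chunkOkM (LB17_8.ctx true true 295 471 256 9 16 1603 5027 8 64) muQ true true 64 RtB17_8.Cx.left.right.left RtB17_8.CX RtB17_8.Ctp.right.right.right.left.left.right RtB17_8.Ce.right.right.right.left.left.right RtB17_8.CTp.left RtB17_8.CEr.left 0x2121015e2973c746afd40f403778c7613676bbb6ea40d21d1bf6a7b51f12baaf250d4f9ab95e32afd920d4e378c95baf2b9a27bf611f6d911173bf240d445ebc69a1afdc5a07868c1d98498d8abb3b29d66024bf6a525c372ccaf250d65321742174 = true := by decide +kernel

theorem cB17_8_3_225 : chunkOkM (LB17_8.ctx true true 294 239 128 9 16 3213 5049 8 64) muQ true true 64 RtB17_8.Cx.left.right.right RtB17_8.CX RtB17_8.Ctp.right.right.right.left.left.right RtB17_8.Ce.right.right.right.left.left.right.left RtB17_8.CTp.left RtB17_8.CEr.left 0x5884e6e3feafd5c53db078c554d690d3dfbf673c37eb9afaf240d6a68478cbecf3afd9f45faf78c42dc216bb636d292a336bf635b93b34c9af250db3796614c8afd62022d278c170a4827bb12eb764498aecf1309c974a89f9cf050d3b0185a309afd52d8ec68c1ba28d77bbfb6b4d251d9bf640d4a2ed4cd6cafdfff48968c1cb9d0138ababc40ba9ae0bf69ba312591eaf250d50ec408c8fafd152449778c1c567a8f8ab10718f58950ecf640d373114752f505a5afde2b00168c1cd4c5f7bbda451752222bf640d3465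 = true := by decide +kernel

theorem cB17_8_3_226 : chunkOkM (LB17_8.ctx true true 300 475 256 9 16 3213 5071 8 64) muQ true true 64 RtB17_8.Cx.left.right.right RtB17_8.CX RtB17_8.Ctp.right.right.right.left.left.right.left RtB17_8.Ce.right.right.right.left.left.right.right.left RtB17_8.CTp.left RtB17_8.CEr.left 0x62b259f943afd43da3b278c45f4346bbd825409fa6dbf640d7c00a4a5c7afda16d90b78c965e9495b36bf630d5346d75d86afd1248a1978c1b2da3d7bbe91c45ebb3bbf640d6556dadfcb6cafd3cbe66778c8117716bb10fbad96fbf0cf6871d8f0576af250dc0de9ebc56afdc153cc978cada54d16449bf630d48004db366afd10841f978c1e1e37028ab1406afe52c1dcf62e0b1c656aaf250d656932177 = true := by decide +kernel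

theorem cB17_8_3_227 : chunkOkM (LB17_8.ctx true true 290 239 128 9 16 1603 5093 8 64) muQ true true 64 RtB17_8.Cx.left.right.right RtB17_8.CX RtB17_8.Ctp.right.right.right.left.left.right.left RtB17_8.Ce.right.right.right.left.left.right.right.right RtB17_8.CTp.left RtB17_8.CEr.left 0x41db7746ddafd4a5edc578cec60872cbc1bf630d6a67b682641cdafd9c2f23478cf3606de1201bf630d4fdcfd8744afd110c0a878c1a2d33c98abd2fa8ce1cffbf640d65217 = true := by decide +kernel

theorem cB17_8_3_228 : chunkOkM (LB17_8.ctx true true 304 475 256 9 16 6447 5093 8 64) muQ true true 64 RtB17_8.Cx.left.right.right RtB17_8.CX RtB17_8.Ctp.right.right.right.left.left.right.right RtB17_8.Ce.right.right.right.left.left.right.right RtB17_8.CTp.left RtB17_8.CEr.left 0x422983c95bafd4e9fdf678c295c894ba7cbf610bb8221b38bf240d6a69408348e32afda79a97278c2dec056bb680d855aea6bf66ff59491b3af250d65488b0098afd1b982f978c1bab9087bb89e59ebdfbcbf6d6e2735997af250d3c9d90785dafd9326f568c1e9089c7bbe8de255b8dbbf6a93080f8dcaf250d4621010148607e45d6afd8cdcb8a78c3ce98263f10bf61d9510d6c4fbf240d4b06de4f4aafdb19e8568c2220834d8ab34bf8e9a103bf623bdd268f01bf250d633017475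 = true := by decide +kernel

theorem cB17_8_3_229 : chunkOkM (LB17_8.ctx true true 287 119 64 9 16 805 2541 32 128) muQ true true 64 RtB17_8.Cx.left.right RtB17_8.CX RtB17_8.Ctp.right.right.right.left.left RtB17_8.Ce.right.right.right.left.left.right RtB17_8.CTp.left RtB17_8.CEr.right 0x5a5a3186394abdafd303ecbb78c4ed8df6a06bbf64695650b76af240d2173906fd9411dbf06b224ba473ceabf02b7478dbc495c04bf06b2a6cdbee46afd1b738de78c521b050fe82bf6724171b7ddaf540d4697365a55a565a5 = true := by decide +kernel

theorem cB17_8_3_230 : chunkOkM (LB17_8.ctx true true 113 1 1 1 1 1 1 1 1) muQ true true 64 RtB17_8.Cx.left.right RtB17_8.CX RtB17_8.Ctp.right.right.right.left.left RtB17_8.Ce.right.right.right.left.left.right RtB17_8.CTp.right RtB17_8.CEr.left 0x6a = true := by decide +kernel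

theorem cB17_8_3_231 : chunkOkM (LB17_8.ctx true true 276 119 64 9 16 1589 5049 4 32) muQ true true 64 RtB17_8.Cx.left.right RtB17_8.CX RtB17_8.Ctp.right.right.right.left.left.left RtB17_8.Ce.right.right.right.left.left.right RtB17_8.CTp.right RtB17_8.CEr.right 0x130c809739afd1393e2d949f8a99e914f1f7bf630d5931275a7b539afd1f6a366df9f88867ec62e9bbf630d13273658a0afd42bf05208f89391dbbeab2bf630d412f8f23bf7afd182a67e509f82bdd0262ffcbf6fd9068608aaf540d34697 = true := by decide +kernel

end Vale.Agent.helper4.Q4
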