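import Vale.Agent.helper4.Q4TreeM
import Vale.Agent.helper4.Q4G.PB17_8

/-!
Checks for pairs of intervals of second moments.
-/

set_option maxRecDepth 100000
set_option linter.unusedVariables false

namespace Vale.Agent.helper4.Q4

theorem cB17_8_3_25 : chunkOkM (LB17_8.ctx true true 259 57 32 9 16 749 1155 4 32) muQ true true 64 RtB17_8.Cx.left.left RtB17_8.CX RtB17_8.Ctp.right.right.left.right.left RtB17_8.Ce.right.right.left.right.left.left RtB17_8.CTp.right RtB17_8.CEr 0x1b01041a0eafd4474a23d39f8f07215d3d0af6129beaec364bf540d110aec0fa6afd549dd18d09f810da3f955adbf61b034e6921abf540d36a6 = true := by decide +kernel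

theorem cB17_8_3_26 : chunkOkM (LB17_8.ctx true true 255 59 32 9 16 371 1155 4 32) muQ true true 64 RtB17_8.Cx.left.right RtB17_8.CX RtB17_8.Ctp.right.right.left.right.left RtB17_8.Ce.right.right.left.right.left.left RtB17_8.CTp RtB17_8.CEr 0xf58ebc1629fd115d05c77aaf82780766d680bf6261048003f4bf540d36c50e5f4bafd6a81b5d78c2867729c942bf62842cd1fdc4bf540d63246f6031afd5b45f0d78c44ccfad41c4bf6324335412e3bf540d65 = true := by decide +kernel

theorem cB17_8_3_27 : chunkOkM (LB17_8.ctx true true 268 115 64 9 16 735 2343 4 32) muQ true true 64 RtB17_8.Cx.left.left RtB17_8.CX RtB17_8.Ctp.right.right.left.right.left.left RtB17_8.Ce.right.right.left.right.left.right RtB17_8.CTp RtB17_8.CEr 0x5913fd586e2aafd119573dd4faf8622857998faf62072d5e78b1bf540d302fc757cdafd6f5dfdf78c22cb839c653bf624a3f266733bf540d719457ab89afd628bf1278c777ad2f1abaf622eb94c7b47bf540d655974 = true := by decide +kernel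

theorem cB17_8_3_28 : chunkOkM (LB17_8.ctx true true 301 455 256 9 16 2989 9383 8 64) muQ true true 64 RtB17_8.Cx.left.left.left RtB17_8.CX RtB17_8.Ctp.right.right.left.right.left.right.left RtB17_8.Ce.right.right.left.right.left.right.left RtB17_8.CTp.left RtB17_8.CEr.left 0x594efcfe4f4eafd2b54e3278c1e678fc079dbf530dc2df9ea6abafd899885178c3da9a46bb2051529e9aebf540d545975935977ba27dc142afd5b3d5de78c239ef62fb7abf620df9b1aeecbf540de99c3ab8ccafdb7fb57b78c1270d09bd69bf619148af18f9bf540d1983428c97abf05b6591354441820dbfde0a998678c1c3caa53625bf530d1868cb41112bf05b64597593754 = true := by decide +kernel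

theorem cB17_8_3_29 : chunkOkM (LB17_8.ctx true true 282 113 64 9 16 1505 4697 8 64) muQ true true 64 RtB17_8.Cx.left.left.left RtB17_8.CX RtB17_8.Ctp.right.right.left.right.left.right.right RtB17_8.Ce.right.right.left.right.left.right.left RtB17_8.CTp.left RtB17_8.CEr.left 0x4362d94c6cafd48cfd7978c182ab847efabf61687b8fbd25bf540d6a633c8391cc8afd81e60d978c158138d9163bf6175e917e56ebf540d46c85fc457afd2d6b0d68c1876b2c7bb3c9dae1e177bf6128f01ca08cbf550d6d39638d356afdc8d966278c2bfe4919f98bf612c64848d58bf540d4ef3ad0721afd597d8e68c1942d127bb41341ba2a1fbf6e89d9cbe14af550d645 = true := by decide +kernel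

theorem cB17_8_3_30 : chunkOkM (LB17_8.ctx true true 279 115 64 9 16 1505 2343 8 64) muQ true true 64 RtB17_8.Cx.left.left.right RtB17_8.CX RtB17_8.Ctp.right.right.left.right.left.right RtB17_8.Ce.right.right.left.right.left.right.left RtB17_8.CTp.left RtB17_8.CEr.left 0xe9cbb0dc21afdaf45a2a78c332928a6c2af6142f5acd546bf540d5bc16a8dc9afd1231a417bb106e9da3151bf530d64589241dd7afd2cbe66578c17dc4ed8593bf61c6810e89cebf540dc28ebc0e10afd867be4178c9db0cc6bb55c44010f9f61cdc6da87c2bf550d53 = true := by decide +kernel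

theorem cB17_8_3_31 : chunkOkM (LB17_8.ctx true true 113 1 1 1 1 1 1 1 1) muQ true true 64 RtB17_8.Cx.left.left.left RtB17_8.CX RtB17_8.Ctp.right.right.left.right.left.right.left RtB17_8.Ce.right.right.left.right.left.right.right RtB17_8.CTp.left RtB17_8.CEr.left 0x59 = true := by decide +kernel

theorem cB17_8_3_32 : chunkOkM (LB17_8.ctx true true 319 903 512 9 16 12089 18843 8 64) muQ true true 64 RtB17_8.Cx.left.left.left RtB17_8.CX RtB17_8.Ctp.right.right.left.right.left.right.right RtB17_8.Ce.right.right.left.right.left.right.right.left RtB17_8.CTp.left RtB17_8.CEr.left 0x5c86421d37afd380db3478c1df3a938ba0bf61aa80803e0dbf540dd29665f210afdb7b1a7a78c238f1b9c8eebf61542828eb7abf540d889cf12993afd19e40b778c1704e5318ab76e94596762bf614265b3b2abbf550d6595993bb652359afda20b7aa78c5c5e6235619bf6f348b8bc0eaf540d53e6f3c40fafdf496bc677c14eb8a888ab62011b6053ebf61022adcf407bf550d65934597593459759375 = true := by decide +kernel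

theorem cB17_8_3_33 : chunkOkM (LB17_8.ctx true true 318 911 512 9 16 12089 18931 8 64) muQ true true 64 RtB17_8.Cx.left.left.left RtB17_8.CX RtB17_8.Ctp.right.right.left.right.left.right.right RtB17_8.Ce.right.right.left.right.left.right.right.right RtB17_8.CTp.left RtB17_8.CEr.left 0x5959407268a5cdafd210691f78c1714264bbedbf530d61e05ce39bbd5b30afd748633d78cc1f41e27ab1e45e06cd49bf540d6559345975934597593597 = true := by decide +kernel

theorem cB17_8_3_34 : chunkOkM (LB17_8.ctx true true 288 231 128 9 16 1505 4741 8 64) muQ true true 64 RtB17_8.Cx.left.left.right RtB17_8.CX RtB17_8.Ctp.right.right.left.right.left.right RtB17_8.Ce.right.right.left.right.left.right.right RtB17_8.CTp.left RtB17_8.CEr.left 0x506214c9cdafd370e35d78cd64c5f4276af61a4f196a226bf540dbcbf046f1bafd82c9baf78c875cb36bb1baca216c83bf540d1060d3b88a8bfdbd2011678c1b88fb3bd83bf530d1b3fa5c13b1bf05b67bcefb735e6afda39554e78ca828f76bb3a6de9675fbbf61dd9dc2ba35bf550d546079d8edafd4bf32e68c1a2d55b7bb2142da6ce83bf6192b0dbe84ebf550d6459d34191709afd6fcc22c78c219dca9ad1dbf530d3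 = true := by decide +kernel

theorem cB17_8_3_35 : chunkOkM (LB17_8.ctx true true 259 57 32 9 16 749 1177 4 32) muQ true true 64 RtB17_8.Cx.left.left RtB17_8.CX RtB17_8.Ctp.right.right.left.right.left.right RtB17_8.Ce.right.right.left.right.left.right RtB17_8.CTp.left RtB17_8.CEr.right 0x943cbb0190afdaa17c7a78c1b527994d7ebf616a184901b2bf540d = true := by decide +kernel

theorem cB17_8_3_36 : chunkOkM (LB17_8.ctx true true 259 57 32 9 16 749 1177 4 32) muQ true true 64 RtB17_8.Cx.left.left RtB17_8.CX RtB17_8.Ctp.right.right.left.right.left.right RtB17_8.Ce.right.right.left.right.left.right RtB17_8.CTp.right RtB17_8.CEr 0x137c57bbdaafd2d6e93e3e9f81476bb0def0bf615ce1e32ec5bf540d6a6 = true := by decide +kernel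

end Vale.Agent.helper4.Q4
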