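import Vale.Agent.helper4.Q4TreeM
import Vale.Agent.helper4.Q4G.PB17_8

/-!
Checks for pairs of intervals of second moments.
-/

set_option maxRecDepth 100000
set_option linter.unusedVariables false

namespace Vale.Agent.helper4.Q4

theorem cB17_8_3_232 : chunkOkM (LB17_8.ctx true true 277 119 64 9 16 1617 5093 4 32) muQ true true 64 RtB17_8.Cx.left.right RtB17_8.CX RtB17_8.Ctp.right.right.right.left.left.right RtB17_8.Ce.right.right.right.left.left.right RtB17_8.CTp.right RtB17_8.CEr.right 0x1233959127afd448ef58c106b2b9642ebf617bdd38c123bf240d13a6740fdeafd487e9868c7813d378a36bf630d13b52b7e5bafda4df794f8f891dd570097fbf630d432171559c1f7a8afd336c4068c55783f8aa18bf64fca55d424af240d158d626a5fafd488452c98f857de06883d2bf6114ce090b4dbf240d74 = true := by decide +kernel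

theorem cB17_8_3_233 : chunkOkM (LB17_8.ctx true true 296 479 256 9 16 1617 5115 8 64) muQ true true 64 RtB17_8.Cx.left RtB17_8.CX RtB17_8.Ctp.right.right.right.left.left RtB17_8.Ce.right.right.right.left.right RtB17_8.CTp RtB17_8.CEr 0x2121211450cea0c6afd14be3568c6ec0e23b101bf6f49747f44eaf240d6a67c0d86ebbbafd94621b778c66250dd796dbf61613d169ea1bf240d5a855d50abafd4028f3578c5100ff6bbbcf96d6b77cbf6f418d4003faf250d4321d3062cafd86c00c278c7149a6843eabf611fc91f79a9bf240d52f6c63ab3afd148017878c1de2178e8abe66cbf15497bf666f90c0671af250d6565217421769342175932174 = true := by decide +kernel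

theorem cB17_8_3_234 : chunkOkM (LB17_8.ctx true true 113 1 1 1 1 1 1 1 1) muQ true true 64 RtB17_8.Cx.left RtB17_8.CX RtB17_8.Ctp.right.right.right.left.right RtB17_8.Ce.right.right.right.left RtB17_8.CTp RtB17_8.CEr 0x01 = true := by decide +kernel

theorem cB17_8_3_235 : chunkOkM (LB17_8.ctx true true 277 61 32 9 16 3143 5005 4 64) muQ true true 64 RtB17_8.Cx.right RtB17_8.CX RtB17_8.Ctp.right.right.right.left.left RtB17_8.Ce.right.right.right.left.left.left RtB17_8.CTp RtB17_8.CEr 0x11696913fe94b2fcafdd8ada00b29f820d81e05c11b08afcbdbbafda85218d78c2c619be1c0af830d4a924efbbdafd12ba0567bb20d6766946945333 = true := by decide +kernel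

theorem cB17_8_3_236 : chunkOkM (LB17_8.ctx true true 283 121 64 9 16 1575 5027 8 64) muQ true true 64 RtB17_8.Cx.right.left.left RtB17_8.CX RtB17_8.Ctp.right.right.right.left.left.left.left RtB17_8.Ce.right.right.right.left.left.right.left.left RtB17_8.CTp.left RtB17_8.CEr.left 0x501df2ce17afd2d1e1ef78c3bd2caeb259bf610ff2fc60a1bf540d7771465d99afd84a42da78c4505217c479bf6140c810f3c5bf540d3f89ed86abafd17fdc2b7bb374534b5f54bf615d578efce1bf540d65 = true := by decide +kernel

theorem cB17_8_3_237 : chunkOkM (LB17_8.ctx true true 293 241 128 9 16 3157 5049 8 64) muQ true true 64 RtB17_8.Cx.right.left.left.left RtB17_8.CX RtB17_8.Ctp.right.right.right.left.left.left.left RtB17_8.Ce.right.right.right.left.left.right.left.right RtB17_8.CTp.left RtB17_8.CEr.left 0x5ecb810d42afd3ae36c478c4952fb64d08bf6142ff3b92c5bf540d69e5bd6ba8afd7a7ea0578c470081f44e6bf615900b92443bf540d4589666ef0afd40bf7168c14ce3487bb745c322bfa5bf6fcfe95290caf550d6762e166a45afd705169c78c47739e6bb4bd0db138f4bf61523d769815bf550d3d13772800afd147c0b198ab3e3e8ac67acbf61bb3f4ffb0bbf540d635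 = true := by decide +kernel

theorem cB17_8_3_238 : chunkOkM (LB17_8.ctx true true 289 243 128 9 16 1575 5049 8 64) muQ true true 64 RtB17_8.Cx.right.left.left.right RtB17_8.CX RtB17_8.Ctp.right.right.right.left.left.left.left RtB17_8.Ce.right.right.right.left.left.right.left.right RtB17_8.CTp.left RtB17_8.CEr.left 0x215e729099afd9245b42675dbf6124906dfd22bf530d661e1af362afd75a5e3a78c8f21a2b142bbf618f5749277cbf540d73397252faafd37a4ba978c9d03116bba0f762e8cbbbf6197d70fc968bf550d65 = true := by decide +kernel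

theorem cB17_8_3_239 : chunkOkM (LB17_8.ctx true true 280 121 64 9 16 1589 2519 8 64) muQ true true 64 RtB17_8.Cx.right.left.left RtB17_8.CX RtB17_8.Ctp.right.right.right.left.left.left.right RtB17_8.Ce.right.right.right.left.left.right.left RtB17_8.CTp.left RtB17_8.CEr.left 0x5d65089f31afd3b03e9778cb2fa9c78a0bbf630d6e471ebd5cafd7ed627578cab3cc5ddae5bf630d3d45b0bc38afd148870d7bbb27a7855151bf630d65 = true := by decide +kernel

theorem cB17_8_3_240 : chunkOkM (LB17_8.ctx true true 269 123 64 9 16 791 2519 4 32) muQ true true 64 RtB17_8.Cx.right.left.right RtB17_8.CX RtB17_8.Ctp.right.right.right.left.left.left RtB17_8.Ce.right.right.right.left.left.right.left RtB17_8.CTp.left RtB17_8.CEr.left 0x98c8b477b9afd74321e278c20d = true := by decide +kernel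

theorem cB17_8_3_241 : chunkOkM (LB17_8.ctx true true 293 241 128 9 16 3157 5071 8 64) muQ true true 64 RtB17_8.Cx.right.left.left.left RtB17_8.CX RtB17_8.Ctp.right.right.right.left.left.left.left RtB17_8.Ce.right.right.right.left.left.right.right.left RtB17_8.CTp.left RtB17_8.CEr.left 0x61837e6094afd3ffa69178c28b0a5bb3ed47614aa3bf619603040c5bbf550d2cc90a2caeafd5ea550478ca26ce4410efbf630d39b5d53edeafd13aff8308ab85c745dc99bbf6120f960258bbf540d65593 = true := by decide +kernel

theorem cB17_8_3_242 : chunkOkM (LB17_8.ctx true true 296 243 128 9 16 3157 10153 8 64) muQ true true 64 RtB17_8.Cx.right.left.left.right RtB17_8.CX RtB17_8.Ctp.right.right.right.left.left.left.left RtB17_8.Ce.right.right.right.left.left.right.right.left RtB17_8.CTp.left RtB17_8.CEr.left 0x5527a0ccb0afd38ba0ec78c230ccbbd909bf61920760ac85bf540d817992ecddafd7e3f24578c1e2c14133c8bf61af47673721bf540d4b99966f7eafd15479e57bb4ca89e7b3cabf61373c1d8302bf540d68bb9031c0fafd5d05db878c64d1116bb246ca7ee81fbf540d4a74c535bfafd5b275a078c22c1b5f6a70bf530d1c6177cb07ebf05b6435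 = true := by decide +kernel

end Vale.Agent.helper4.Q4
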