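import Vale.Agent.helper4.Q4TreeM
import Vale.Agent.helper4.Q4G.PB17_8

/-!
Checks for pairs of intervals of second moments.
-/

set_option maxRecDepth 100000
set_option linter.unusedVariables false

namespace Vale.Agent.helper4.Q4

theorem cB17_8_3_243 : chunkOkM (LB17_8.ctx true true 306 487 256 9 16 6321 10197 8 64) muQ true true 64 RtB17_8.Cx.right.left.left RtB17_8.CX RtB17_8.Ctp.right.right.right.left.left.left.left RtB17_8.Ce.right.right.right.left.left.right.right.right RtB17_8.CTp.left RtB17_8.CEr.left 0x6de7557738afd46642ac78c437ab36e19af61cf4e4f1b44bf540d5f18fe6124afd69fbb1c78c1fd2dd2381fbf61c51228808fbf540d1d2d7ffb39ebf05b6593597b011d910e0afd8ceccde78c208f6e1fe05bf6193f8c9ea25bf540d20536e0131afd10e6f1eb8ab3eb140fd7acbf61d3c2e05bc6bf540d64580e092166aafd56e493978c25277db5bf9bf530d3597 = true := by decide +kernel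

theorem cB17_8_3_244 : chunkOkM (LB17_8.ctx true true 290 243 128 9 16 1589 5071 8 64) muQ true true 64 RtB17_8.Cx.right.left.left RtB17_8.CX RtB17_8.Ctp.right.right.right.left.left.left.right RtB17_8.Ce.right.right.right.left.left.right.right.left RtB17_8.CTp.left RtB17_8.CEr.left 0x396f04ea7fafd34a546478c6ca0c13fd6bbf64d9eddb8acaf540d6a651e05c407f4ff2dfafd14a4d6e7bbafbfb3ef922bf6c21e6a1018af540d688f6e52788afd8e3d79078ca2631a0412fbf68ba9833929af540d411eac16d8afd3379e668c14c6e6e7bbd662ab091bdbf625ffc2aba2af550d675 = true := by decide +kernel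

theorem cB17_8_3_245 : chunkOkM (LB17_8.ctx true true 303 483 256 9 16 3185 10175 8 64) muQ true true 64 RtB17_8.Cx.right.left.left.left RtB17_8.CX RtB17_8.Ctp.right.right.right.left.left.left.right RtB17_8.Ce.right.right.right.left.left.right.right.right RtB17_8.CTp.left RtB17_8.CEr.left 0x43779773a9afd463231378cea7c3bd69cbbf6240718761aaf540d6a689300fc185afd8d01efd78c114380061a87cf630d4300e1e843afd6a4a1668c161a26618ab124305465e7fcf640d66978d23e0e99afd81972d578c1d356727bd4fcf630d5cd9745b6fafd176ae6b68ab12f628f029fecf630d6469735 = true := by decide +kernel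

theorem cB17_8_3_246 : chunkOkM (LB17_8.ctx true true 289 243 128 9 16 1589 5093 8 64) muQ true true 64 RtB17_8.Cx.right.left.left.right RtB17_8.CX RtB17_8.Ctp.right.right.right.left.left.left.right RtB17_8.Ce.right.right.right.left.left.right.right.right RtB17_8.CTp.left RtB17_8.CEr.left 0x5e78d29225afd3c4832778c68008a8563cbf6106f39aa19fbf540d5c6fde132fafd7712d4878c54babd33fcbbf611e88a57664bf540d4c01a9b1cfafd56cb2e68c15daf417bb7b1b5a0bacebf6e7365da9aaaf550d65 = true := by decide +kernel

theorem cB17_8_3_247 : chunkOkM (LB17_8.ctx true true 293 247 128 9 16 3157 5093 8 64) muQ true true 64 RtB17_8.Cx.right.left.right RtB17_8.CX RtB17_8.Ctp.right.right.right.left.left.left.left RtB17_8.Ce.right.right.right.left.left.right.right RtB17_8.CTp.left RtB17_8.CEr.left 0x7a534680f8afd55242e178c17ab866bb372ddbbb4d2bf62159a341346bf550d299b3f8e0bafd1d8a05578c2fce93b656abf62065cb56ef3bf540d6fdc40d0ccafd6df3afa78c2f0b72d0a81bf61a2f83dc99fbf540d1914c78b65cbf05b6855f3100ebafd5ca89f678c43869d6bb172651660c8bf61ff530a9c01bf550d35789d886bcbeafd73fd5d378c373ff0eaba3bf61f1e7f05611bf540d3016965e9bafd1302a168c99f2556bb74801a79bdaf612c76d01ebabf550d64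 = true := by decide +kernel

theorem cB17_8_3_248 : chunkOkM (LB17_8.ctx true true 276 123 64 9 16 1589 2541 4 64) muQ true true 64 RtB17_8.Cx.right.left.right RtB17_8.CX RtB17_8.Ctp.right.right.right.left.left.left.right RtB17_8.Ce.right.right.right.left.left.right.right RtB17_8.CTp.left RtB17_8.CEr.left 0xa14aff1780afd95e886c78c2778a59d50af8d4910805b2af540d2e8e02b8c0afd87559b68ca127eb6bbfceda297c5af540d6 = true := by decide +kernel

theorem cB17_8_3_249 : chunkOkM (LB17_8.ctx true true 284 121 64 9 16 1617 5093 8 64) muQ true true 64 RtB17_8.Cx.right.left RtB17_8.CX RtB17_8.Ctp.right.right.right.left.left.right RtB17_8.Ce.right.right.right.left.left.right RtB17_8.CTp.left RtB17_8.CEr.left 0x693dd3ef4ad1afd4214c5978c80e9864db8fbf630d6a692607cc148afd9d09a2278c74d11f6f863bf630dd02f04c4076aee0efafd52955168c17758ff7bbc4ecfc52715bf640d39dff562b96afd507e3dd78c1407f717bb11c206339434cf640d4657694 = true := by decide +kernel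

theorem cB17_8_3_250 : chunkOkM (LB17_8.ctx true true 278 61 32 9 16 805 1265 32 128) muQ true true 64 RtB17_8.Cx.right.left RtB17_8.CX RtB17_8.Ctp.right.right.right.left.left RtB17_8.Ce.right.right.right.left.left.right RtB17_8.CTp.left RtB17_8.CEr.right 0x5a5a39d58afbb34bf06b1db7040b78afd15106f69c11d496ddd5fbf614b2ee14e08bf540d365a55a565a5 = true := by decide +kernel

theorem cB17_8_3_251 : chunkOkM (LB17_8.ctx true true 269 123 64 9 16 805 2541 4 32) muQ true true 64 RtB17_8.Cx.right.left RtB17_8.CX RtB17_8.Ctp.right.right.right.left.left RtB17_8.Ce.right.right.right.left.left.right RtB17_8.CTp.right RtB17_8.CEr 0x124c6b5758afd1a2a3d2139f84d6eb17daa1bf630d134a3676a8afd5bf6350c79f817366f9858bbf6160bdc95c31bf540d12af0cc508afdd086260b8f82b1b4763a2cbf61030d5c6f09bf540d71240b56d5aafdad446a2a8f81e1337906c1bf611a61da21cabf540d436a6 = true := by decide +kernel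

theorem cB17_8_3_252 : chunkOkM (LB17_8.ctx true true 113 1 1 1 1 1 1 1 1) muQ true true 64 RtB17_8.Cx.right.right RtB17_8.CX RtB17_8.Ctp.right.right.right.left.left RtB17_8.Ce.right.right.right.left.left.right RtB17_8.CTp RtB17_8.CEr 0x69 = true := by decide +kernel

theorem cB17_8_3_253 : chunkOkM (LB17_8.ctx true true 113 1 1 1 1 1 1 1 1) muQ true true 64 RtB17_8.Cx.right RtB17_8.CX RtB17_8.Ctp.right.right.right.left.right RtB17_8.Ce.right.right.right.left.left RtB17_8.CTp RtB17_8.CEr 0x11 = true := by decide +kernel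

theorem cB17_8_3_254 : chunkOkM (LB17_8.ctx true true 113 1 1 1 1 1 1 1 1) muQ true true 64 RtB17_8.Cx.right.left.left RtB17_8.CX RtB17_8.Ctp.right.right.right.left.left.left.left RtB17_8.Ce.right.right.right.left.right.left.left RtB17_8.CTp RtB17_8.CEr 0x59 = true := by decide +kernel

end Vale.Agent.helper4.Q4
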