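import Vale.Agent.helper4.Q4TreeM
import Vale.Agent.helper4.Q4G.PB17_8

/-!
Checks for pairs of intervals of second moments.
-/

set_option maxRecDepth 100000
set_option linter.unusedVariables false

namespace Vale.Agent.helper4.Q4

theorem cB17_8_3_255 : chunkOkM (LB17_8.ctx true true 357 15487 8192 9 16 51065 81675 8 64) muQ true true 64 RtB17_8.Cx.right.left.left.left RtB17_8.CX RtB17_8.Ctp.right.right.right.left.left.left.right RtB17_8.Ce.right.right.right.left.right.left.left.left RtB17_8.CTp.left RtB17_8.CEr.left 0x6969696918f1943c66af06c51e05c5f2f04c656976976934697693469769346976934597593 = true := by decide +kernel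

theorem cB17_8_3_256 : chunkOkM (LB17_8.ctx true true 316 975 512 9 16 6349 20471 8 64) muQ true true 64 RtB17_8.Cx.right.left.left.right RtB17_8.CX RtB17_8.Ctp.right.right.right.left.left.left.right RtB17_8.Ce.right.right.right.left.right.left.left.left RtB17_8.CTp.left RtB17_8.CEr.left 0x48191971efafd4fae76478c14943ed39f6bf61a77f468aafbf540d6a67d0c2de9c5afd8b18ac878c542ddbcbfb9bf61af890fa6c9bf540d43b8065d1eafd77f5f468c144d01968abb520bc5a39dbf6a602a34d32af550d6596535588953afd6da1ea578c168945385dfacf630d3102381181afd11df494e8ab221375eac92bf530d64597593597272e40181aafd4b5ba9778cf513891843ebf630d396c2afb66afd107c76c78ab8cfaa4f597bbf611a6c25a9cbbf540d6435 = true := by decide +kernel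

theorem cB17_8_3_257 : chunkOkM (LB17_8.ctx true true 303 487 256 9 16 3185 10263 8 64) muQ true true 64 RtB17_8.Cx.right.left.left RtB17_8.CX RtB17_8.Ctp.right.right.right.left.left.left.right RtB17_8.Ce.right.right.right.left.right.left.left.right RtB17_8.CTp.left RtB17_8.CEr.left 0x69335598de4bafd1ad6aa378c2bffe06bb17d787671752cf640d7444196f36afd7b1619a78c19d266294e36cf630d45557e0400afd1469e2ab8ab1d406b39f46fcf630d654697593597 = true := by decide +kernel

theorem cB17_8_3_258 : chunkOkM (LB17_8.ctx true true 273 121 64 9 16 1589 2563 4 32) muQ true true 64 RtB17_8.Cx.right.left.left RtB17_8.CX RtB17_8.Ctp.right.right.right.left.left.left.right RtB17_8.Ce.right.right.right.left.right.left.left RtB17_8.CTp.left RtB17_8.CEr.right 0x799611bf21afd8825b4a78cd1c94ce509af6188624e2446bf540d = true := by decide +kernel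

theorem cB17_8_3_259 : chunkOkM (LB17_8.ctx true true 273 121 64 9 16 1589 2563 4 32) muQ true true 64 RtB17_8.Cx.right.left.left RtB17_8.CX RtB17_8.Ctp.right.right.right.left.left.left.right RtB17_8.Ce.right.right.right.left.right.left.left RtB17_8.CTp.right RtB17_8.CEr 0x11e95ea0c6afd14be597179f829227cb8c24bf61303a7a9826bf540d6a6 = true := by decide +kernel

theorem cB17_8_3_260 : chunkOkM (LB17_8.ctx true true 290 247 128 9 16 3157 5137 8 32) muQ true true 64 RtB17_8.Cx.right.left.right RtB17_8.CX RtB17_8.Ctp.right.right.right.left.left.left.left RtB17_8.Ce.right.right.right.left.right.left.left RtB17_8.CTp.left RtB17_8.CEr.left 0x7abdcebf11afd4fb31e678c910885bba57972eeebaf62375e52fa8fbf550d7fc3bf331bafd56d70d878c6e9475bb1c2d64bdd14bf61f1fb59402bbf550d37547985b4afd2ace63978c14ad56d84e4bf620cf73a12d8bf540d8944c53d6fafd5883bef78c6778ef6bb6c5415ae13af620493754bb5bf550d59267b86a3bafd5966b6b78c25a4cf985d2bf530d374 = true := by decide +kernel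

theorem cB17_8_3_261 : chunkOkM (LB17_8.ctx true true 290 247 128 9 16 1589 5115 8 64) muQ true true 64 RtB17_8.Cx.right.left.right RtB17_8.CX RtB17_8.Ctp.right.right.right.left.left.left.right RtB17_8.Ce.right.right.right.left.right.left.left.left RtB17_8.CTp.left RtB17_8.CEr.left 0x562128fee0afd36754fb78c246697f225cbf617a475ccdbbbf540d840844761dafd5ec475278cf0a4263067af530d743b9f7cdbafd779d66c78c674598c9ea5bf613243364c0dbf540d48072c97b3afdb2f7e868c170e6277bb35f1c0e2786bf6196ed5c4b24bf550d675 = true := by decide +kernel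

theorem cB17_8_3_262 : chunkOkM (LB17_8.ctx true true 297 245 128 9 16 3185 10285 8 64) muQ true true 64 RtB17_8.Cx.right.left.right.left RtB17_8.CX RtB17_8.Ctp.right.right.right.left.left.left.right RtB17_8.Ce.right.right.right.left.right.left.left.right RtB17_8.CTp.left RtB17_8.CEr.left 0x5979350e40afd3544c8878c3dff25ce1f9bf6158f44d6191bf540d66878b68a5afd6e54c3d78c5a5a2dd1211bf6156d1aa5fa0bf540d2fcef62f81afd100466d7bb782917a7a13bf6df638f66d5af540d6538c43c6126afd2c3b54078c155a964d999bf61f07c4d3b47bf540d87ea576456afd5a3adb878c5f19bc6bb23579edcf70bf540dacfb5f89f6afd85d056978c1edd277bfc1bf530d1e4c6e462b2bf05b6453 = true := by decide +kernel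

theorem cB17_8_3_263 : chunkOkM (LB17_8.ctx true true 290 247 128 9 16 1589 5137 8 64) muQ true true 64 RtB17_8.Cx.right.left.right.right RtB17_8.CX RtB17_8.Ctp.right.right.right.left.left.left.right RtB17_8.Ce.right.right.right.left.right.left.left.right RtB17_8.CTp.left RtB17_8.CEr.left 0x1fcedab6b3afd848a5529aaabf612d0fe9d8b9bf530d6ac2503a5fafd6cd941a78c65bdb8a3da1bf61896c1e8d37bf540d4afceead70afd18896447bb2bb7bb53537bf61b51f2ac1b9bf540d65 = true := by decide +kernel

theorem cB17_8_3_264 : chunkOkM (LB17_8.ctx true true 269 123 64 9 16 791 2563 4 32) muQ true true 64 RtB17_8.Cx.right.left.right RtB17_8.CX RtB17_8.Ctp.right.right.right.left.left.left RtB17_8.Ce.right.right.right.left.right.left.left RtB17_8.CTp.left RtB17_8.CEr.right 0x6ab1bd05dcafd72d0e2178c2383f8c4d1abf6171082f660dbf540d = true := by decide +kernel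

theorem cB17_8_3_265 : chunkOkM (LB17_8.ctx true true 269 123 64 9 16 791 2563 4 32) muQ true true 64 RtB17_8.Cx.right.left.right RtB17_8.CX RtB17_8.Ctp.right.right.right.left.left.left RtB17_8.Ce.right.right.right.left.right.left.left RtB17_8.CTp.right RtB17_8.CEr 0x104de71098afd2d1b200bb9f8164ae704cd1bf6177939bf9ddbf540d6a6 = true := by decide +kernel

theorem cB17_8_3_266 : chunkOkM (LB17_8.ctx true true 113 1 1 1 1 1 1 1 1) muQ true true 64 RtB17_8.Cx.right.left.left RtB17_8.CX RtB17_8.Ctp.right.right.right.left.left.left RtB17_8.Ce.right.right.right.left.right.left.right RtB17_8.CTp RtB17_8.CEr 0x59 = true := by decide +kernel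

theorem cB17_8_3_267 : chunkOkM (LB17_8.ctx true true 113 1 1 1 1 1 1 1 1) muQ true true 64 RtB17_8.Cx.right.left.right RtB17_8.CX RtB17_8.Ctp.right.right.right.left.left.left.left RtB17_8.Ce.right.right.right.left.right.left.right RtB17_8.CTp RtB17_8.CEr 0x59 = true := by decide +kernel

end Vale.Agent.helper4.Q4
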