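import Vale.Agent.helper4.Q4TreeM
import Vale.Agent.helper4.Q4G.PB17_8

/-!
Checks for pairs of intervals of second moments.
-/

set_option maxRecDepth 100000
set_option linter.unusedVariables false

namespace Vale.Agent.helper4.Q4

theorem cB17_8_3_268 : chunkOkM (LB17_8.ctx true true 342 3919 2048 9 16 25529 82379 8 64) muQ true true 64 RtB17_8.Cx.right.left.right.left RtB17_8.CX RtB17_8.Ctp.right.right.right.left.left.left.right RtB17_8.Ce.right.right.right.left.right.left.right.left RtB17_8.CTp.left RtB17_8.CEr.left 0x6195388cd0afd3c97a8e78c1cbf71ccb4cbf61b86b7fa078bf540d595941e05c1a2d86cfb2cbf05b64597593459759359798da53466dafd7d8b79178c79da0997610bf610bf63c992abf540d4164df8140afd6a3a2668c12e7b98a8ab2be382c3874bf61acf344181abf550d659596941e05c344863b113afd119bf7c98ab1b87319ff599cf630d6469759345975934597593745593 = true := by decide +kernel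

theorem cB17_8_3_269 : chunkOkM (LB17_8.ctx true true 294 247 128 9 16 3185 5159 8 64) muQ true true 64 RtB17_8.Cx.right.left.right.right RtB17_8.CX RtB17_8.Ctp.right.right.right.left.left.left.right RtB17_8.Ce.right.right.right.left.right.left.right.left RtB17_8.CTp.left RtB17_8.CEr.left 0x43e9183451afd3139e0578c46f6599ddbfbf61e3123223fdbf540d5a4021d28fafd65e9d3778c5ba28b2444dbf61807dbf52fcbf540d8a68733474afd41ad4c678cb7e1616bb78315909262bf6182e4b66f76bf550d6537985f8d48afd290493178c1319f7bf633bf6209d0d5eadbbf540d7eee4a8c99afd5148c4378c6bcbac6bb2d0964adb4af621442f5bb64bf550d53 = true := by decide +kernel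

theorem cB17_8_3_270 : chunkOkM (LB17_8.ctx true true 299 495 256 9 16 3185 10373 8 32) muQ true true 64 RtB17_8.Cx.right.left.right RtB17_8.CX RtB17_8.Ctp.right.right.right.left.left.left.right RtB17_8.Ce.right.right.right.left.right.left.right.right RtB17_8.CTp.left RtB17_8.CEr.left 0x38025c8f03afd2b95a2678c12c9e22f651bf62003caa910abf540d7a57336c30afd55ba9da78c473b2a6bb22d0c4abd5fbf540d816fa28563afd538331578c83f4e8e7ab1a5cf1c6c8af6212a3bcc160bf550d866a82913aafd58da9cc78c5d4bb36bb24e3d17ec96bf540d745593597 = true := by decide +kernel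

theorem cB17_8_3_271 : chunkOkM (LB17_8.ctx true true 273 123 64 9 16 1589 2585 4 32) muQ true true 64 RtB17_8.Cx.right.left.right RtB17_8.CX RtB17_8.Ctp.right.right.right.left.left.left.right RtB17_8.Ce.right.right.right.left.right.left.right RtB17_8.CTp.left RtB17_8.CEr.right 0x8f1f116a0aafd850a5f378cf555e3dfcfaf61c55c6ecf97bf540d = true := by decide +kernel

theorem cB17_8_3_272 : chunkOkM (LB17_8.ctx true true 273 123 64 9 16 1589 2585 4 32) muQ true true 64 RtB17_8.Cx.right.left.right RtB17_8.CX RtB17_8.Ctp.right.right.right.left.left.left.right RtB17_8.Ce.right.right.right.left.right.left.right RtB17_8.CTp.right RtB17_8.CEr 0xe38118b719fd359f85e3b9f8129d85cb097bf61a03fab8316bf540d6a6 = true := by decide +kernel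

theorem cB17_8_3_273 : chunkOkM (LB17_8.ctx true true 290 243 128 9 16 1603 5115 8 64) muQ true true 64 RtB17_8.Cx.right.left.left RtB17_8.CX RtB17_8.Ctp.right.right.right.left.left.right.left RtB17_8.Ce.right.right.right.left.right.left.left.left RtB17_8.CTp.left RtB17_8.CEr.left 0x4ac4dfaa5fafd294bc2678c720fb96bbfd85e633a0ebf640d8cf1888587afd8961de178c5a58616bb115b02d35bbbcf640d3b3851c771afd1747e257bbf2c493a4618bf630d655ecfa42ac7afd3ea9cb078c2985f96bbcddd624b72cbf640d8eff78b0f4afd943595678c181ec16bbb60ddfdd7f9bf640d4bae7ad2a1afdbecf9e68c18678fee8abe1b052903a7bf640d657 = true := by decide +kernel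

theorem cB17_8_3_274 : chunkOkM (LB17_8.ctx true true 317 967 512 9 16 6433 20515 8 64) muQ true true 64 RtB17_8.Cx.right.left.left RtB17_8.CX RtB17_8.Ctp.right.right.right.left.left.right.left RtB17_8.Ce.right.right.right.left.right.left.left.right RtB17_8.CTp.left RtB17_8.CEr.left 0x5d29d7ee75afd3b5265c78cce56a5bbeb731d5af31bf640d8594d1c971afd8b2f79878c10545c674f10cf630d439fca3999afd7d6f2c68c157a3a8b8ab112d2422f3e3cf640d6569692bb593dad7afd19d223f087cb6f3a197ab4c87ee00daf3cf640d86fe424dd7afd841fbd478cc4d59257ab73accdca9a27cf640db8bcc1419eafd638a6c878c1230a6c98ab322413e25d21cf640d65469769346976937 = true := by decide +kernel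

theorem cB17_8_3_275 : chunkOkM (LB17_8.ctx true true 294 243 128 9 16 3241 5137 8 64) muQ true true 64 RtB17_8.Cx.right.left.left RtB17_8.CX RtB17_8.Ctp.right.right.right.left.left.right.right RtB17_8.Ce.right.right.right.left.right.left.left RtB17_8.CTp.left.left RtB17_8.CEr.left 0x7c4d6ce3caafd8e716e878c16c43c6bbaf57f8055edbf640d2f6a44b712afd1aec1f87bb1142c1904208cf630d6a0942ba58eafda5f65d278c23feb46bb9c7a01681d7bf67f324ad829f250d37fa3af6a7afd6fe6b868c1b405c078abd4fc1007883bf6cdde13c04caf250d4962a2bbcbafd1145d1178c1abc9b358abf6bf1f570b2bf640d3678ec77b17b8afda02677878c1e06d5bb74986ee0475bf640d3ac86a937fafd755ca268c1b9140b7bbc8da74505c5bf640d64 = true := by decide +kernel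

theorem cB17_8_3_276 : chunkOkM (LB17_8.ctx true true 281 121 64 9 16 1617 2563 8 64) muQ true true 64 RtB17_8.Cx.right.left.left RtB17_8.CX RtB17_8.Ctp.right.right.right.left.left.right.right RtB17_8.Ce.right.right.right.left.right.left.left RtB17_8.CTp.left.right RtB17_8.CEr.left 0x4f9bed3c8aafd56b881d78c5b5135bb7ecc5b8b59fbf640d6a6 = true := by decide +kernel

end Vale.Agent.helper4.Q4
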