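import Vale.Agent.helper4.Q4TreeM
import Vale.Agent.helper4.Q4G.PB17_8

/-!
Checks for pairs of intervals of second moments.
-/

set_option maxRecDepth 100000
set_option linter.unusedVariables false

namespace Vale.Agent.helper4.Q4

theorem cB17_8_3_277 : chunkOkM (LB17_8.ctx true true 281 123 64 9 16 1603 2563 8 64) muQ true true 64 RtB17_8.Cx.right.left.right RtB17_8.CX RtB17_8.Ctp.right.right.right.left.left.right RtB17_8.Ce.right.right.right.left.right.left.left RtB17_8.CTp.left RtB17_8.CEr.left 0x69384443ae54afd1ef01b678cae7f2750ad4bf630d9b08f28a4bafd90963f678c67b5822e59fbf6be70cc86a1af540d39935da27cafd28c78c68c113f6407bba3e3ec62bf1bf632e2f86c04af550d653 = true := by decide +kernel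

theorem cB17_8_3_278 : chunkOkM (LB17_8.ctx true true 300 487 256 9 16 3213 5159 8 64) muQ true true 64 RtB17_8.Cx.right.left.left RtB17_8.CX RtB17_8.Ctp.right.right.right.left.left.right.left RtB17_8.Ce.right.right.right.left.right.left.right RtB17_8.CTp.left RtB17_8.CEr.left 0x693ed579fa08afd220198978c3d78216bb27179db11f34cf640d73a773137fafd866555178c11997c99e3b1cf630d40599fe72bafd6fe71568c170a5f178ab184c8cd4184dcf640d656976934697 = true := by decide +kernel

theorem cB17_8_3_279 : chunkOkM (LB17_8.ctx true true 303 483 256 9 16 3241 10307 8 64) muQ true true 64 RtB17_8.Cx.right.left.left RtB17_8.CX RtB17_8.Ctp.right.right.right.left.left.right.right RtB17_8.Ce.right.right.right.left.right.left.right.left RtB17_8.CTp.left RtB17_8.CEr.left 0x5d88f1a062afd3fe35c678c42b8a96bbd6546c07cbcbf640d8620116a3dafd958914478cce738636a72bf630d4cd8feb596afd1021fe078c1909f9c7bbd8469e30091bf640d656926733333a4afd13e63c678cabd2986bb25ca8002bf5ecf640d9c19875901afdab5bfb078c11a6f5d29898cf630d3a0f60148aafd9e54c968c1d7d25998ab1c32fc551bcacf640d6542176937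 = true := by decide +kernel

theorem cB17_8_3_280 : chunkOkM (LB17_8.ctx true true 317 975 512 9 16 6461 20691 8 64) muQ true true 64 RtB17_8.Cx.right.left.left RtB17_8.CX RtB17_8.Ctp.right.right.right.left.left.right.right RtB17_8.Ce.right.right.right.left.right.left.right.right RtB17_8.CTp.left RtB17_8.CEr.left 0x5b3f4995c1afd3d8344b78c4f69ed6bb113669d4906bcf640d849e48e846afd86aeef078cc1fb586bb146e3aee40ebcf640d46a34201d7afd101c16d78c1a267a968ab12db78313743cf640d66969955a6a0473afd6cf854178cc7e3f527ab3e078e8ae59acf640d4693697469735217 = true := by decide +kernel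

theorem cB17_8_3_281 : chunkOkM (LB17_8.ctx true true 294 247 128 9 16 3213 5159 8 64) muQ true true 64 RtB17_8.Cx.right.left.right RtB17_8.CX RtB17_8.Ctp.right.right.right.left.left.right.left RtB17_8.Ce.right.right.right.left.right.left.right.left RtB17_8.CTp.left RtB17_8.CEr.left 0x8b00b0eb09afd7bb78dd78c4bbcc661784bf6167a00051e5bf540d5469c72ba3afd152528a7bb61988ac7a37bf61213a464c15bf540d630db726f44afd3248fea78c3c425ccfe02bf6121906e7ebcbf540d6a663eca6e937afd7af485078cab336815298bf611590e87d25bf540d45ff092a20afd473d5f68c158d3bd7bb10eb64a2c954cf640d38a6d796f7afdd003458c14989ade8ab6d75a07724ebf610c7e067dfabf550d3657 = true := by decide +kernel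

theorem cB17_8_3_282 : chunkOkM (LB17_8.ctx true true 309 983 512 9 16 3199 10351 8 64) muQ true true 64 RtB17_8.Cx.right.left.right.left RtB17_8.CX RtB17_8.Ctp.right.right.right.left.left.right.left.left RtB17_8.Ce.right.right.right.left.right.left.right.right RtB17_8.CTp.left RtB17_8.CEr.left 0x594c234bdf39afd2d68deb78c202b476bb1a3821725205cf640d6a3eb1d5daafd72c174778c1bdaa3f92f89cf630d576231f5afafd15b168da8ab1602292eb30bcf630d656974597 = true := by decide +kernel

theorem cB17_8_3_283 : chunkOkM (LB17_8.ctx true true 304 491 256 9 16 3213 10373 8 64) muQ true true 64 RtB17_8.Cx.right.left.right.left RtB17_8.CX RtB17_8.Ctp.right.right.right.left.left.right.left.right RtB17_8.Ce.right.right.right.left.right.left.right.right RtB17_8.CTp.left RtB17_8.CEr.left 0x6322e00487afd40bea2d78c1342732b6370cf630d6a6ff22f1bafd7969a3c78c1a886b0ce945cf630d25f0269e9dafd125e193e8ab42179a46589bcf630d669783783bf6aaafd80a664578c10f23f53f20bcf630d3aad67d681afd40d4d368c1420ab478ab146c7ce6b5d0cf640d645 = true := by decide +kernel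

theorem cB17_8_3_284 : chunkOkM (LB17_8.ctx true true 294 247 128 9 16 3213 5181 8 64) muQ true true 64 RtB17_8.Cx.right.left.right.right RtB17_8.CX RtB17_8.Ctp.right.right.right.left.left.right.left RtB17_8.Ce.right.right.right.left.right.left.right.right RtB17_8.CTp.left RtB17_8.CEr.left 0x512ac1d26bafd2c9c69478c7e38a4e74c5bf6dd5eae4525af540d5c1f56eb77afd77a909b78c1ac5b1e76332cf630d4fc1ebe2f9afdcf7b9868c12ed0447bb143b1c049837cf640d66cbd916aa1afd772843878c6b47a835e8dbf62240cced83bbf540d3a4d126589afd1375985b8ab614fc240ab7bf61585198a980bf540d635 = true := by decide +kernel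

end Vale.Agent.helper4.Q4
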