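import Vale.Agent.helper4.Q4TreeM
import Vale.Agent.helper4.Q4G.PB17_8

/-!
Checks for pairs of intervals of second moments.
-/

set_option maxRecDepth 100000
set_option linter.unusedVariables false

namespace Vale.Agent.helper4.Q4

theorem cB17_8_3_285 : chunkOkM (LB17_8.ctx true true 294 247 128 9 16 3227 5181 8 64) muQ true true 64 RtB17_8.Cx.right.left.right RtB17_8.CX RtB17_8.Ctp.right.right.right.left.left.right.right RtB17_8.Ce.right.right.right.left.right.left.right RtB17_8.CTp.left RtB17_8.CEr.left 0x3b69a6c3eaafd3acb36578c701b414dd5fbf630d6a641e05c3d2f04c66e1aba774aafd874549c78cba7b831471bbf630d36c98ccdc5afd185aa0b7bbe7c2aaecdcfbf630d676951e05c8f8a19f0aaafd47ee1d578cf9917d6bbf9d32d39351bf640d6345 = true := by decide +kernel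

theorem cB17_8_3_286 : chunkOkM (LB17_8.ctx true true 292 123 64 9 16 1617 2585 32 128) muQ true true 64 RtB17_8.Cx.right.left RtB17_8.CX RtB17_8.Ctp.right.right.right.left.left.right RtB17_8.Ce.right.right.right.left.right.left RtB17_8.CTp.left RtB17_8.CEr.right 0x5a5a125e4568c2a5d868559fbf6d32a0b19c9af530d5f0ca537997bf06b6acc2f2bfd7bf06b37202107f24faf05b20afb0a845afd1751eab78c67976b1084cbf630d7465a55a565a5 = true := by decide +kernel

theorem cB17_8_3_287 : chunkOkM (LB17_8.ctx true true 113 1 1 1 1 1 1 1 1) muQ true true 64 RtB17_8.Cx.right.left RtB17_8.CX RtB17_8.Ctp.right.right.right.left.left.right RtB17_8.Ce.right.right.right.left.right.left RtB17_8.CTp.right RtB17_8.CEr.left 0x6a = true := by decide +kernel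

theorem cB17_8_3_288 : chunkOkM (LB17_8.ctx true true 277 123 64 9 16 1617 5137 4 32) muQ true true 64 RtB17_8.Cx.right.left RtB17_8.CX RtB17_8.Ctp.right.right.right.left.left.right RtB17_8.Ce.right.right.right.left.right.left.left RtB17_8.CTp.right RtB17_8.CEr.right 0x1134bc5b31afd3e95d553d9f86db2fe29964bf691527b5d31af540d12cf13c9a6afd181b3068c67981fe3e2abf630d11d2b0da55afdf1e247708f8d45aa11cb7abf630d10800eeb51afd156c233b39f8a8228edf9b6bf630d437 = true := by decide +kernel

theorem cB17_8_3_289 : chunkOkM (LB17_8.ctx true true 277 123 64 9 16 1617 5181 4 32) muQ true true 64 RtB17_8.Cx.right.left RtB17_8.CX RtB17_8.Ctp.right.right.right.left.left.right RtB17_8.Ce.right.right.right.left.right.left.right RtB17_8.CTp.right RtB17_8.CEr.right 0x1217c5a781afd515f6b268f8331eee0bf80bf6cb6dcf19e4af540d18b3b7bfd0afd1412158cf0fcfe15293bf630d12e3644be7afdc87ed6cd8f896e06964251bf630d4127941b765afd3ec48737f8bdc9bebce20bf630d37 = true := by decide +kernel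

theorem cB17_8_3_290 : chunkOkM (LB17_8.ctx true true 273 125 64 9 16 1589 2563 4 32) muQ true true 64 RtB17_8.Cx.right.right RtB17_8.CX RtB17_8.Ctp.right.right.right.left.left.left RtB17_8.Ce.right.right.right.left.right.left.left RtB17_8.CTp RtB17_8.CEr 0xf45bbb33f9fda0b8bdf149f82967bfb1dbebf6205fcd014d7bf540d8b27542adaafd80e0b7a78c14987f3b152bf61f444ed0480bf540d69522978375cafd3fc8a2378c10e15eb4488bf530d58e7edfa46afd3f5e3f178c2793026bb21920419a15bf61fe36f488f9bf550d3765 = true := by decide +kernel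

theorem cB17_8_3_291 : chunkOkM (LB17_8.ctx true true 273 125 64 9 16 1575 2585 4 32) muQ true true 64 RtB17_8.Cx.right.right.left RtB17_8.CX RtB17_8.Ctp.right.right.right.left.left.left.left RtB17_8.Ce.right.right.right.left.right.left.right RtB17_8.CTp.left RtB17_8.CEr 0x74edf16b08afd4ec500478c1625d4e5f6cbf6259e50304a5bf540d34cc578080afd2f0d57978c1f0bd0ec388bf624ede1ea773bf540d6 = true := by decide +kernel

theorem cB17_8_3_292 : chunkOkM (LB17_8.ctx true true 294 251 128 9 16 3185 5181 8 64) muQ true true 64 RtB17_8.Cx.right.right.left RtB17_8.CX RtB17_8.Ctp.right.right.right.left.left.left.right RtB17_8.Ce.right.right.right.left.right.left.right RtB17_8.CTp.left RtB17_8.CEr.left 0x75bf1a2c73afd4ef567978c22b5dc6bb3bf447b6c9ebf623f949a3716bf550d355f92cb09afd2245c7878c1ff174f8bf6bf61d63fe41ca8bf540d72ebc6f1e5afd4f8729678c4d59e76bb404d923e901bf61c9f2fad933bf550d55674de8259afd41a2b4378c1b38a0bee7fbf6213a20a5dd5bf540d37316595f0acafd3074aa678c20d5085d8f2deafd4eee6eb78c228e9f87aa0bf61c345cf132fbf540d27bfac994dafd90deb96bb3156e00e369bf61d315d99badbf540d674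 = true := by decide +kernel

theorem cB17_8_3_293 : chunkOkM (LB17_8.ctx true true 274 125 64 9 16 1589 2585 4 32) muQ true true 64 RtB17_8.Cx.right.right.left RtB17_8.CX RtB17_8.Ctp.right.right.right.left.left.left.right RtB17_8.Ce.right.right.right.left.right.left.right RtB17_8.CTp.left RtB17_8.CEr.right 0x522aefaee9afd5b905fb78c32094fd8d89bf61bfc25b079cbf540d = true := by decide +kernel

theorem cB17_8_3_294 : chunkOkM (LB17_8.ctx true true 266 125 64 9 16 791 2585 4 16) muQ true true 64 RtB17_8.Cx.right.right.left RtB17_8.CX RtB17_8.Ctp.right.right.right.left.left.left RtB17_8.Ce.right.right.right.left.right.left.right RtB17_8.CTp.right RtB17_8.CEr 0x10d118ab59afdb488deb059f822b7c53e4e9bf62010c1612cbbf540d = true := by decide +kernel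

theorem cB17_8_3_295 : chunkOkM (LB17_8.ctx true true 270 127 64 9 16 791 2585 4 32) muQ true true 64 RtB17_8.Cx.right.right.right RtB17_8.CX RtB17_8.Ctp.right.right.right.left.left.left RtB17_8.Ce.right.right.right.left.right.left.right RtB17_8.CTp RtB17_8.CEr 0xb3c8798509fda1b10e1b09f83f601bf0f34bf629bac4b77f7bf540d66be364460afd5ce2fce78c2d46f7723e6bf627afea8fcb8bf540d3fd7a577e0afd361a7b778c56c8a531f4bbf62d01ea4cbddbf540d65 = true := by decide +kernel

theorem cB17_8_3_296 : chunkOkM (LB17_8.ctx true true 280 125 64 9 16 1603 5181 4 64) muQ true true 64 RtB17_8.Cx.right.right RtB17_8.CX RtB17_8.Ctp.right.right.right.left.left.right RtB17_8.Ce.right.right.right.left.right.left RtB17_8.CTp RtB17_8.CEr 0x11a73f0349afdd9b8008fd9f814b6b20c660bf6144ca22e775bf540d69159c90524bafd5c7118d78c19867e648abbf61be01432474bf540d69665d7e801aafd6b3152b78cca851b6ecf5bf621e5ad65a69bf540d2a1806a06eafdb1695b68c9aa4316bb704907ea732bf618c3cc794babf550d66947694635 = true := by decide +kernel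

theorem cB17_8_3_297 : chunkOkM (LB17_8.ctx true true 113 1 1 1 1 1 1 1 1) muQ true true 64 RtB17_8.Cx.right.left RtB17_8.CX RtB17_8.Ctp.right.right.right.left.left.left RtB17_8.Ce.right.right.right.left.right.right RtB17_8.CTp RtB17_8.CEr 0x59 = true := by decide +kernel

theorem cB17_8_3_298 : chunkOkM (LB17_8.ctx true true 113 1 1 1 1 1 1 1 1) muQ true true 64 RtB17_8.Cx.right.left.left RtB17_8.CX RtB17_8.Ctp.right.right.right.left.left.right RtB17_8.Ce.right.right.right.left.right.right RtB17_8.CTp RtB17_8.CEr 0x69 = true := by decide +kernel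

theorem cB17_8_3_299 : chunkOkM (LB17_8.ctx true true 113 1 1 1 1 1 1 1 1) muQ true true 64 RtB17_8.Cx.right.left.right.left RtB17_8.CX RtB17_8.Ctp.right.right.right.left.left.right.left RtB17_8.Ce.right.right.right.left.right.right.left RtB17_8.CTp.left RtB17_8.CEr.left 0x69 = true := by decide +kernel

end Vale.Agent.helper4.Q4
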