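import Vale.Agent.helper4.Q4TreeM
import Vale.Agent.helper4.Q4G.PB17_8

/-!
Checks for pairs of intervals of second moments.
-/

set_option maxRecDepth 100000
set_option linter.unusedVariables false

namespace Vale.Agent.helper4.Q4

theorem cB17_8_3_300 : chunkOkM (LB17_8.ctx true true 352 7935 4096 9 16 51289 83259 8 64) muQ true true 64 RtB17_8.Cx.right.left.right.right RtB17_8.CX RtB17_8.Ctp.right.right.right.left.left.right.left.left RtB17_8.Ce.right.right.right.left.right.right.left.left RtB17_8.CTp.left RtB17_8.CEr.left 0x59595918a96bec30af06c41e05cab710e81c0af05b655975934597593459759345975934a961de8ccafd2e4570578c3c2cf4ffbfbbf61b0b9a362efbf540df6c2f8bfa9fd4341b5e78c13fc6174ff7dcf630d320655f75bafd1213693c8ab1a38691a718bf61e3e9ef684cbf540d654597 = true := by decide +kernel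

theorem cB17_8_3_301 : chunkOkM (LB17_8.ctx true true 329 1975 1024 9 16 12873 41635 8 64) muQ true true 64 RtB17_8.Cx.right.left.right.right RtB17_8.CX RtB17_8.Ctp.right.right.right.left.left.right.left.right RtB17_8.Ce.right.right.right.left.right.right.left.left RtB17_8.CTp.left RtB17_8.CEr.left 0x4c69a9e66dafd308b3ce78c71b0d12680fbf6edcd9a60c6af540d4c79bc0b92afd5c8364b78c1a0d9d2d36e8cf630d3633658154afd98d2f58c126e70848aba5c59e61901bf61252c82aa6bbf550d6696941e05c9a11ecfe34afd4d42b71487cbcbf6c97ab1b8f8a8f5f9ccf640d6469769346975937706a829982afd731f5e078c8d0995b3617bf610d0ca49ae0bf540d347fb434eaafd131ffc7f8abafa091d5f64bf6dd5447ef2eaf540d645 = true := by decide +kernel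

theorem cB17_8_3_302 : chunkOkM (LB17_8.ctx true true 313 991 512 9 16 6433 10439 8 64) muQ true true 64 RtB17_8.Cx.right.left.right.right RtB17_8.CX RtB17_8.Ctp.right.right.right.left.left.right.left RtB17_8.Ce.right.right.right.left.right.right.left.right RtB17_8.CTp.left RtB17_8.CEr.left 0x59210536bb46afdb81e3068c4991c86bb1afc0427ac84cf640d423c2efdf6afd4c9c33778c1e6f644872cfcf630d48f5d8d112afd133abdc68ab1974943c2eb2cf630d656975934597593 = true := by decide +kernel

theorem cB17_8_3_303 : chunkOkM (LB17_8.ctx true true 304 491 256 9 16 3241 10417 8 64) muQ true true 64 RtB17_8.Cx.right.left.right.left RtB17_8.CX RtB17_8.Ctp.right.right.right.left.left.right.right RtB17_8.Ce.right.right.right.left.right.right.left.left RtB17_8.CTp.left RtB17_8.CEr.left 0x58a69693e9afd396449e78c3326496bbf08f7821daebf640d728cc5c6b8afd825bab578c14f5bc6bbdbcf148c61ebf640d42c8093c92afdc863d068c17d3e0b18ab12dc79358878cf640d6823046c593afd649f45a78ca34b596bb62067245cf1acf640d7a5ebcb292afd768b37678c8ddefa6bb2a7194875eafcf640dab71eb2d3eafd58ffdb278ced158437ab1d7bf86da6e4cf640d6469735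 = true := by decide +kernel

theorem cB17_8_3_304 : chunkOkM (LB17_8.ctx true true 290 247 128 9 16 1617 5203 8 64) muQ true true 64 RtB17_8.Cx.right.left.right.right RtB17_8.CX RtB17_8.Ctp.right.right.right.left.left.right.right RtB17_8.Ce.right.right.right.left.right.right.left.left RtB17_8.CTp.left RtB17_8.CEr.left 0x5ecdd50ae3afd4281c8d78c1097dbcb047ccf630d7abb610c64afd6c49f0778c11dfe2d7bb172aab3dbacacf640d39fee4e843afd15d63a37bbdb3f9f78b79bf630d65 = true := by decide +kernel

theorem cB17_8_3_305 : chunkOkM (LB17_8.ctx true true 324 1967 1024 9 16 12985 20867 8 32) muQ true true 64 RtB17_8.Cx.right.left.right.left RtB17_8.CX RtB17_8.Ctp.right.right.right.left.left.right.right RtB17_8.Ce.right.right.right.left.right.right.left.right RtB17_8.CTp.left RtB17_8.CEr.left 0x69692c3114c08fafd1d7ba7a387cac5d2cf7ab2709f183ce4bcf640d83bee4e78aafd68b7d4978cb08a3597ab4309563bd0aacf640d569369746976934697693 = true := by decide +kernel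

theorem cB17_8_3_306 : chunkOkM (LB17_8.ctx true true 304 495 256 9 16 3241 10461 8 64) muQ true true 64 RtB17_8.Cx.right.left.right.right RtB17_8.CX RtB17_8.Ctp.right.right.right.left.left.right.right RtB17_8.Ce.right.right.right.left.right.right.left.right RtB17_8.CTp.left RtB17_8.CEr.left 0x312c3a5511afd3230ea678cf41b56af17dbf630d6a66d25e6a771afd791c42978c10abbcf2267bcf630d329d20fd78afd15a343b68ab11b16cf8c353cf630d65fc2ee5303afd712594d78c248e9d22cdcccf630d286d2a9a04afd12542aa68ab358655a69f6fcf630d66974be3566081afd6c6924178c1f634f105b22cf630d39db73192eafd460e5268c13204b9a8ab1436100c9366cf640d6435 = true := by decide +kernel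

theorem cB17_8_3_307 : chunkOkM (LB17_8.ctx true true 274 123 64 9 16 805 2607 8 32) muQ true true 64 RtB17_8.Cx.right.left.right RtB17_8.CX RtB17_8.Ctp.right.right.right.left.left.right RtB17_8.Ce.right.right.right.left.right.right.left RtB17_8.CTp.left RtB17_8.CEr.right 0x519719252dafd575f87478c413f0e96e08bf6d508e6c4e5af540d5a5 = true := by decide +kernel

theorem cB17_8_3_308 : chunkOkM (LB17_8.ctx true true 277 123 64 9 16 1617 5225 4 32) muQ true true 64 RtB17_8.Cx.right.left.right RtB17_8.CX RtB17_8.Ctp.right.right.right.left.left.right RtB17_8.Ce.right.right.right.left.right.right.left RtB17_8.CTp.right RtB17_8.CEr 0x109a06c8fcafd2293ef3eb9f88af71ff8185bf64df6141f07af540d103aaf01adafd206c86c529f87cc8f9b1899bf65b054345daaf540d410d59fbc01afd1641d18fb9f824838f8fd4bbf6153c1ec135fbf540d36a6 = true := by decide +kernel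

end Vale.Agent.helper4.Q4
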