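import Vale.Agent.helper4.Q4TreeM
import Vale.Agent.helper4.Q4G.PB17_8

/-!
Checks for pairs of intervals of second moments.
-/

set_option maxRecDepth 100000
set_option linter.unusedVariables false

namespace Vale.Agent.helper4.Q4

theorem cB17_8_3_317 : chunkOkM (LB17_8.ctx true true 294 251 128 9 16 3213 5225 8 64) muQ true true 64 RtB17_8.Cx.right.right.left.right RtB17_8.CX RtB17_8.Ctp.right.right.right.left.left.right.left RtB17_8.Ce.right.right.right.left.right.right.left.right RtB17_8.CTp.left RtB17_8.CEr.left 0x559ef0419cafd5c1c98878c9452856da27bf620b206d20bcbf540d281357653fafdae664568ca84a006bb2a83f3bf15af61cdab733f03bf550d646c0b1f05bafd281de2e78c1aef9a33b69bf615bb26481afbf540d75b42aaf66afd56e061278c5067ac5fa12bf61bbd12cb964bf540d53 = true := by decide +kernel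

theorem cB17_8_3_318 : chunkOkM (LB17_8.ctx true true 284 125 64 9 16 1617 5225 8 64) muQ true true 64 RtB17_8.Cx.right.right.left RtB17_8.CX RtB17_8.Ctp.right.right.right.left.left.right.right RtB17_8.Ce.right.right.right.left.right.right.left RtB17_8.CTp.left RtB17_8.CEr.left 0x37d6352b84afd174643f78c40db1c6bb60b2b3e95f0bf6b944597e25af550d67d4b80f14afd726d94278c56a99ed70a3bf610152736f94bf540d3c8a949b51afd124a5d67bba6b086a0b6abf66165006b1faf540d657668facac6afd53c8a3078c49a2c26bb30d4 = true := by decide +kernel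

theorem cB17_8_3_319 : chunkOkM (LB17_8.ctx true true 270 127 64 9 16 805 2607 4 32) muQ true true 64 RtB17_8.Cx.right.right.right RtB17_8.CX RtB17_8.Ctp.right.right.right.left.left.right RtB17_8.Ce.right.right.right.left.right.right.left RtB17_8.CTp.left RtB17_8.CEr.left 0x491bd08b6bafd350572378c16e5bd73dd6bf613c31445384bf540d = true := by decide +kernel

theorem cB17_8_3_320 : chunkOkM (LB17_8.ctx true true 264 63 32 9 16 805 2607 4 32) muQ true true 64 RtB17_8.Cx.right.right RtB17_8.CX RtB17_8.Ctp.right.right.right.left.left.right RtB17_8.Ce.right.right.right.left.right.right.left RtB17_8.CTp.left RtB17_8.CEr.right 0x503d49da73afd723762c78c2416ce54591bf617c876e4f67bf540d = true := by decide +kernel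

theorem cB17_8_3_321 : chunkOkM (LB17_8.ctx true true 264 63 32 9 16 805 2607 4 32) muQ true true 64 RtB17_8.Cx.right.right RtB17_8.CX RtB17_8.Ctp.right.right.right.left.left.right RtB17_8.Ce.right.right.right.left.right.right.left RtB17_8.CTp.right RtB17_8.CEr 0xf4f5637299fd2a4252a809f821df6d6bea8bf6139a5feb8f0bf540d6a6 = true := by decide +kernel

theorem cB17_8_3_322 : chunkOkM (LB17_8.ctx true true 303 503 256 9 16 3213 10483 8 64) muQ true true 64 RtB17_8.Cx.right.right.left RtB17_8.CX RtB17_8.Ctp.right.right.right.left.left.right.left RtB17_8.Ce.right.right.right.left.right.right.right RtB17_8.CTp.left RtB17_8.CEr.left 0x71431c1d9aafd4aeb33378c1663ef6bb84c50a0d49af6225142d938cbf550d59759359729764b60e0afd2080bc478c31b20e065b9bf62202aae1651bf540d77bfb9f210afd4eda4a978c8bd4756bbbc19f0d729af620a2385fd46bf550d56c61996d10afd466853d78c1d7e8c6bbe280add9c5af624683ade089bf550d359334087ea5eafd15a167c78c5b0cc06bb41869597eebbf61d39706c2c2bf550d6f73837938afd709f14b78c18339be013dbcf630d1e3575ec2b9bf05b65459759374 = true := by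 decide +kernel

theorem cB17_8_3_323 : chunkOkM (LB17_8.ctx true true 274 125 64 9 16 1603 2629 4 32) muQ true true 64 RtB17_8.Cx.right.right.left RtB17_8.CX RtB17_8.Ctp.right.right.right.left.left.right.left RtB17_8.Ce.right.right.right.left.right.right.right RtB17_8.CTp.left RtB17_8.CEr.right 0x2f4276cbdfafd572f75278c11ae92a39afbf61d8e8d161c9bf540d = true := by decide +kernel

theorem cB17_8_3_324 : chunkOkM (LB17_8.ctx true true 321 995 512 9 16 12929 20999 8 64) muQ true true 64 RtB17_8.Cx.right.right.left.left RtB17_8.CX RtB17_8.Ctp.right.right.right.left.left.right.right.left RtB17_8.Ce.right.right.right.left.right.right.right.left RtB17_8.CTp.left RtB17_8.CEr.left 0x4bd02a159cafd2fe9f4b78c6c2db673b7bbf6126644da43dbf540d930c0670d8afd7c49ca278c14f4d6adf48fcf630d3aef9e2291afd4e883f68c11861f4a8ab70d824db06fbf6163952602edbf550d669832cac4af3afd58ad6f478c7dad7f87ab2cf349ac54b8cf640d693459759376a36a1fa37afd6c4168678c82278dd0bb8bf6111d36f798ebf540d3a887f1389afd1364a4458ab78cc4ee4e93bf613b2a51356ebf540d645 = true := by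 decide +kernel

theorem cB17_8_3_325 : chunkOkM (LB17_8.ctx true true 294 249 128 9 16 3241 5247 8 64) muQ true true 64 RtB17_8.Cx.right.right.left.left RtB17_8.CX RtB17_8.Ctp.right.right.right.left.left.right.right.right RtB17_8.Ce.right.right.right.left.right.right.right.left RtB17_8.CTp.left RtB17_8.CEr.left 0x4f351d7b87afd30d8a4e78cd3e5f0773eabf630d61a6e6bc76afd734ddb478cd6bcd46a641bf630d3fc1df06bbafd139130d7bbd58c2ee7eb7bf630d65 = true := by decide +kernel

theorem cB17_8_3_326 : chunkOkM (LB17_8.ctx true true 286 251 128 9 16 1617 5247 4 64) muQ true true 64 RtB17_8.Cx.right.right.left.right RtB17_8.CX RtB17_8.Ctp.right.right.right.left.left.right.right RtB17_8.Ce.right.right.right.left.right.right.right.left RtB17_8.CTp.left RtB17_8.CEr.left 0x4a8516565bafd5b3d36078c39dd6bcb66abf618f9f92b5d7bf540d49e45fa5a7afd11e19c37bb74f24db977dbf612c60e84aecbf540d6 = true := by decide +kernel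

theorem cB17_8_3_327 : chunkOkM (LB17_8.ctx true true 316 999 512 9 16 6461 21043 8 64) muQ true true 64 RtB17_8.Cx.right.right.left.left RtB17_8.CX RtB17_8.Ctp.right.right.right.left.left.right.right.left RtB17_8.Ce.right.right.right.left.right.right.right.right RtB17_8.CTp.left RtB17_8.CEr.left 0x5969630e06cf3cafd3a6d941187c3091a887ab19ed10790abdcf640d4ab87db0e0afd5d82342b87c192289cc2880cf630d5afcc2716cafd2eaf504687cbf85f337ab1b7ed961adbfcf640d6546975934597 = true := by decide +kernel

theorem cB17_8_3_328 : chunkOkM (LB17_8.ctx true true 308 499 256 9 16 6489 10549 8 64) muQ true true 64 RtB17_8.Cx.right.right.left.left RtB17_8.CX RtB17_8.Ctp.right.right.right.left.left.right.right.right RtB17_8.Ce.right.right.right.left.right.right.right.right RtB17_8.CTp.left RtB17_8.CEr.left 0x316410cdc1afd14b611a78c7557986bb1245e3043408cf62e9d73a39eaf550d51ef70a137afd6e354a378c8ea55608d9bbf630d69669d6d4aafd38c3cb878cb5540167ab36a4c5eba6accf640d66975a4025f027afd6b651d578c207c5ad790d7cf630d3530321f15afd2591a568c124bc4298ab1bfdf939e389cf640d684c0b52955afd5c2ec1878c942ed7a7ab2c6e467db039cf640d693745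 = true := by decide +kernel

end Vale.Agent.helper4.Q4
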