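import Vale.Agent.helper4.Q4TreeM
import Vale.Agent.helper4.Q4G.PB17_8

/-!
Checks for pairs of intervals of second moments.
-/

set_option maxRecDepth 100000
set_option linter.unusedVariables false

namespace Vale.Agent.helper4.Q4

theorem cB17_8_3_329 : chunkOkM (LB17_8.ctx true true 307 503 256 9 16 6461 10549 8 64) muQ true true 64 RtB17_8.Cx.right.right.left.right RtB17_8.CX RtB17_8.Ctp.right.right.right.left.left.right.right.left RtB17_8.Ce.right.right.right.left.right.right.right.right RtB17_8.CTp.left RtB17_8.CEr.left 0x45e4731e06afd2ba8b4278c51eb72ad721bf615f9443900ebf540d15b3f2f655afd4ae287078c1c51c3ddc883cf630d1b8590b115dbf05b67f9607f8e6afd6ef133778c1110a55a4291cf630d389e2fe0caafd96556068c10ecedea8ab24cf21cad1af623ecde65f97bf550d659373eb4fb978c1d96395f25af6216ec8bcf93bf530d677261385bafd35159ce78ca82069f7ab57b153ec1d2bf61f73ab1522bbf550d645 = true := by decide +kernel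

theorem cB17_8_3_330 : chunkOkM (LB17_8.ctx true true 294 251 128 9 16 3241 5269 8 64) muQ true true 64 RtB17_8.Cx.right.right.left.right RtB17_8.CX RtB17_8.Ctp.right.right.right.left.left.right.right.right RtB17_8.Ce.right.right.right.left.right.right.right.right RtB17_8.CTp.left RtB17_8.CEr.left 0x44d49bbff7afd28991e678c2b9a026bb5420311e5b7bf613ef0210b7bbf550d4e9834d6e3afd59d1a4378c898ffd6bba6e7bd15837bf6147717936babf550d42aeaae643afd13324d07bb66fd7c460aebf6fc28061f64af540d65 = true := by decide +kernel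

theorem cB17_8_3_331 : chunkOkM (LB17_8.ctx true true 274 125 64 9 16 1617 2629 4 32) muQ true true 64 RtB17_8.Cx.right.right.left RtB17_8.CX RtB17_8.Ctp.right.right.right.left.left.right.right RtB17_8.Ce.right.right.right.left.right.right.right RtB17_8.CTp.left RtB17_8.CEr.right 0x4e73dc77f6afd6d4f82278c196a2d888a2bf6172758f4339bf540d = true := by decide +kernel

theorem cB17_8_3_332 : chunkOkM (LB17_8.ctx true true 270 125 64 9 16 805 2629 4 32) muQ true true 64 RtB17_8.Cx.right.right.left RtB17_8.CX RtB17_8.Ctp.right.right.right.left.left.right RtB17_8.Ce.right.right.right.left.right.right.right RtB17_8.CTp.right RtB17_8.CEr 0x1068de09c1afd685d7c0e8f8335d7577ff3bf613060d512fdbf540d6a6 = true := by decide +kernel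

theorem cB17_8_3_333 : chunkOkM (LB17_8.ctx true true 280 127 64 9 16 1617 5269 4 64) muQ true true 64 RtB17_8.Cx.right.right.right RtB17_8.CX RtB17_8.Ctp.right.right.right.left.left.right RtB17_8.Ce.right.right.right.left.right.right.right RtB17_8.CTp RtB17_8.CEr 0xfde3f1d059fdae0a4ede39f82e61c5f40cdbf61b9380fd978bf540d47eac58413afd5b6bdcf78c2964662de20bf61bafc3b62b4bf540d51adacd9d3afd5f5641878c14dd6210dbebf61d30d0369a9bf540d25a29fc0e2afd435c9668c9c3a866bb5c571513895bf61a3a636a9bdbf550d66946a8b190df8afd480f28778c2bdb4e6bb2243bbdb825bf620a2806d6cbbf550d365 = true := by decide +kernel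

theorem cB17_8_3_334 : chunkOkM (LB17_8.ctx true true 264 61 32 9 16 819 2563 4 32) muQ true true 64 RtB17_8.Cx.right.left RtB17_8.CX RtB17_8.Ctp.right.right.right.left.right.left RtB17_8.Ce.right.right.right.left.right.left.left RtB17_8.CTp.left RtB17_8.CEr.left 0x676c9de08eafd8d753f878c22006facaa11cf1585a244af9a5cf040d = true := by decide +kernel

theorem cB17_8_3_335 : chunkOkM (LB17_8.ctx true true 304 483 256 9 16 6503 5159 8 64) muQ true true 64 RtB17_8.Cx.right.left.left RtB17_8.CX RtB17_8.Ctp.right.right.right.left.right.left RtB17_8.Ce.right.right.right.left.right.left.right RtB17_8.CTp.left RtB17_8.CEr.left 0x0143c87db10bafd5094bf778c1c41a442050bf617640d5209abf240d6a68b0ea66ee7afd8d766f778ca771a86bb5ee556132dbbf6121eb5e2001bf250d4e7c446331afd12a970778c1a555847bb597f192121dbf6139c85bec31bf250d6210101429eb55ba6afd811850c78c8a1883bd373bf6212a0bfbb6abf240d39254f55f3afd97583168c1eb61fd78ab6c8794e9a38bf62bcdf1d738cbf250d6330174753 = true := by decide +kernel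

theorem cB17_8_3_336 : chunkOkM (LB17_8.ctx true true 288 123 64 9 16 6503 2585 8 64) muQ true true 64 RtB17_8.Cx.right.left.right RtB17_8.CX RtB17_8.Ctp.right.right.right.left.right.left RtB17_8.Ce.right.right.right.left.right.left.right RtB17_8.CTp.left RtB17_8.CEr.left 0x15645461ddaf06c11116951e05cc52f04c63335 = true := by decide +kernel

theorem cB17_8_3_337 : chunkOkM (LB17_8.ctx true true 260 61 32 9 16 819 1287 4 32) muQ true true 64 RtB17_8.Cx.right.left RtB17_8.CX RtB17_8.Ctp.right.right.right.left.right.left RtB17_8.Ce.right.right.right.left.right.left RtB17_8.CTp.left RtB17_8.CEr.right 0x5e86fdaafbafd84d8c6678cf23146f32aaf61a16b7d48c0bf240d = true := by decide +kernel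

theorem cB17_8_3_338 : chunkOkM (LB17_8.ctx true true 260 61 32 9 16 819 1287 4 32) muQ true true 64 RtB17_8.Cx.right.left RtB17_8.CX RtB17_8.Ctp.right.right.right.left.right.left RtB17_8.Ce.right.right.right.left.right.left RtB17_8.CTp.right RtB17_8.CEr 0x15548b56c0afd1954fd9b19f8a3fbd03201af619840f309afbf240d6a6 = true := by decide +kernel

theorem cB17_8_3_339 : chunkOkM (LB17_8.ctx true true 296 487 256 9 16 1631 5203 8 64) muQ true true 64 RtB17_8.Cx.right.left.left RtB17_8.CX RtB17_8.Ctp.right.right.right.left.right.left RtB17_8.Ce.right.right.right.left.right.right.left RtB17_8.CTp.left RtB17_8.CEr.left 0x210161bcba9529afd44b19bd78c61fe6d6bbd0402f3513dbf69c07f49096af250d819f1df10aafd87d3eba78ccb93176bb8f0534454c3bf64a6823cf3faf250d5f36003bdcafd1abb94d78c1c5644498ab11140e99f5dccf6b938603d0baf250d6532174217 = true := by decide +kernel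

theorem cB17_8_3_340 : chunkOkM (LB17_8.ctx true true 284 123 64 9 16 1631 5203 8 64) muQ true true 64 RtB17_8.Cx.right.left.right RtB17_8.CX RtB17_8.Ctp.right.right.right.left.right.left RtB17_8.Ce.right.right.right.left.right.right.left.left RtB17_8.CTp.left.left RtB17_8.CEr.left 0x1187a93978f6afd895ec7378c9894916bbee81453ba0fbf640d4ab1212a3dafd10aa77078c18d2d9e7bbbdeb724e6e9bf640d63 = true := by decide +kernel

theorem cB17_8_3_341 : chunkOkM (LB17_8.ctx true true 294 247 128 9 16 3269 5225 8 64) muQ true true 64 RtB17_8.Cx.right.left.right RtB17_8.CX RtB17_8.Ctp.right.right.right.left.right.left RtB17_8.Ce.right.right.right.left.right.right.left.right RtB17_8.CTp.left.left RtB17_8.CEr.left 0x32b6d81e4fafd460a58c7bbd0f43d443a9bf1253a41aaaff6cf040d7a88681d7aafd860f26a78c140fd06bbaa43153820ebf640d322efdf783afd26b39968c18c37367bbef484ecdc7dbf640d6865199206fafd8bd4aec78c470b8a6bbb35ccb3e17abf610d0ae7055af250d3520c972f6afd6192f968c1a44ff5f8aba1a1722ea31bf69ecf90222baf250d442ecbf5ddafd102903478c18fbc0398ab136608ccba3ecf640d3673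 = true := by decide +kernel

end Vale.Agent.helper4.Q4
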