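import Vale.Agent.helper4.Q4TreeM
import Vale.Agent.helper4.Q4G.PB17_8

/-!
Checks for pairs of intervals of second moments.
-/

set_option maxRecDepth 100000
set_option linter.unusedVariables false

namespace Vale.Agent.helper4.Q4

theorem cB17_8_3_37 : chunkOkM (LB17_8.ctx true true 262 59 32 9 16 735 2343 4 32) muQ true true 64 RtB17_8.Cx.left.right RtB17_8.CX RtB17_8.Ctp.right.right.left.right.left.left RtB17_8.Ce.right.right.left.right.left.right.left RtB17_8.CTp RtB17_8.CEr 0xf15819dd89fdb191423209f8ca18e5f119af62597c187d30bf540dd471196267afd9dc046e78cea831b304caf624970f7fdacbf540d594cdef488afd4a9eb1f78c21f5986bb1c96a2f189abf625f169cbe43bf550d65 = true := by decide +kernel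

theorem cB17_8_3_38 : chunkOkM (LB17_8.ctx true true 269 119 64 9 16 735 2365 4 32) muQ true true 64 RtB17_8.Cx.left.right RtB17_8.CX RtB17_8.Ctp.right.right.left.right.left.left RtB17_8.Ce.right.right.left.right.left.right.right RtB17_8.CTp RtB17_8.CEr 0x1059f5206bafd10f91df70caf85b7800bc11af6260de3d7c38bf540da5306692beafd6e6e63e78c636a2916753bf639ee9ffac28bf540d87e232fa40afd5f40de278c101cc234fe2bf62ec4d4c6529bf540d67e0cca94a6afd6f77b6b78c16dbedf6c7ebf62867295320abf540d4d22aaffc1afd3e9e00478c1c27302517ebf62723fc13b0abf540d675 = true := by decide +kernel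

theorem cB17_8_3_39 : chunkOkM (LB17_8.ctx true true 273 119 64 9 16 1505 2365 4 32) muQ true true 64 RtB17_8.Cx.left.right RtB17_8.CX RtB17_8.Ctp.right.right.left.right.left.right RtB17_8.Ce.right.right.left.right.left.right RtB17_8.CTp RtB17_8.CEr 0x124df53804afdbeaa97cd89f8222f7875006bf620b627dec96bf540d675915d0edafd803e3bd78c18cc74afb88bf61f77a33e8b8bf540da8c79b7fb9f06c8c5be25a92afd5bd702e78c116e0929bd2bf530daaecc435bbafd72dfef178cef88e4da75af62079cebbf50bf540d37672820efddafd4cf18e278cf8bb279060af530d465 = true := by decide +kernel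

theorem cB17_8_3_40 : chunkOkM (LB17_8.ctx true true 255 57 32 9 16 385 1155 4 32) muQ true true 64 RtB17_8.Cx.left.left RtB17_8.CX RtB17_8.Ctp.right.right.left.right.right RtB17_8.Ce.right.right.left.right.left.left RtB17_8.CTp.left RtB17_8.CEr.left 0x684bbb5d56afd566234a78c16b762f7bb30d = true := by decide +kernel

theorem cB17_8_3_41 : chunkOkM (LB17_8.ctx true true 289 227 128 9 16 1533 4697 8 64) muQ true true 64 RtB17_8.Cx.left.left RtB17_8.CX RtB17_8.Ctp.right.right.left.right.right.left RtB17_8.Ce.right.right.left.right.left.right.left RtB17_8.CTp.left RtB17_8.CEr.left 0x361673aca2afd2e73ed778c5a08df3c0bfbf65d9bd34946af540d6a6866dc49225afdae4e21d78c33fc32c2a40bf6ad9c4a9ecbaf540d69ad2f04c352f04c4cf6412567afd1ad9ec07bba7f7a8b72ffbf630d7344ccd59ecbafd1b345268c18afd8b7bb95701bea4cdbf640d4765 = true := by decide +kernel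

theorem cB17_8_3_42 : chunkOkM (LB17_8.ctx true true 293 227 128 9 16 3045 4741 8 64) muQ true true 64 RtB17_8.Cx.left.left.left RtB17_8.CX RtB17_8.Ctp.right.right.left.right.right.left.left RtB17_8.Ce.right.right.left.right.left.right.right RtB17_8.CTp.left.left RtB17_8.CEr.left.left 0x416a1da137afd16f8f7418ab7d90ca75a2fbf667eda866ecaf540d47c54f96f9afd1f8f958c1749e0968ab2b95c5d9efabf6146268dec53bf550d344ca48be4eafd192ed4b7bb1587328a5874cf630d74a882242e9afd19b8a427bb7506eb09817bf6a7ebb5d2e5af540d45d543dd9aafd28ed4a68c181c47be8abc11b96babcfbf640d74 = true := by decide +kernel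

theorem cB17_8_3_43 : chunkOkM (LB17_8.ctx true true 289 227 128 9 16 1533 4741 8 64) muQ true true 64 RtB17_8.Cx.left.left.left RtB17_8.CX RtB17_8.Ctp.right.right.left.right.right.left.right RtB17_8.Ce.right.right.left.right.left.right.right RtB17_8.CTp.left.left RtB17_8.CEr.left.left 0x4034e474b6afd1a4452a7bbb2fb9fec1aebf630d62591e9cc1afd173694d78c1c6e17878abdbc65686a99bf640d7476923ea41afd5b417a68c1bd4af97bb951e39b090fbf640d4 = true := by decide +kernel

theorem cB17_8_3_44 : chunkOkM (LB17_8.ctx true true 275 113 64 9 16 763 2365 8 64) muQ true true 64 RtB17_8.Cx.left.left.left RtB17_8.CX RtB17_8.Ctp.right.right.left.right.right.left RtB17_8.Ce.right.right.left.right.left.right.right RtB17_8.CTp.left.left RtB17_8.CEr.left.right 0xcdf64b74d0afdd95b04e78c44b660463bbbf68b7d67b2ccaf540d = true := by decide +kernel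

theorem cB17_8_3_45 : chunkOkM (LB17_8.ctx true true 280 113 64 9 16 1533 2365 8 64) muQ true true 64 RtB17_8.Cx.left.left.left RtB17_8.CX RtB17_8.Ctp.right.right.left.right.right.left RtB17_8.Ce.right.right.left.right.left.right.right RtB17_8.CTp.left.right RtB17_8.CEr.left 0x487f91345bafd462e06a78c52e5c01a52fbf630d5182a15fc8afd49a6c4b78c2defba29241bf6ed12a5caf1af540d36a6 = true := by decide +kernel

theorem cB17_8_3_46 : chunkOkM (LB17_8.ctx true true 276 115 64 9 16 763 2365 8 64) muQ true true 64 RtB17_8.Cx.left.left.right RtB17_8.CX RtB17_8.Ctp.right.right.left.right.right.left RtB17_8.Ce.right.right.left.right.left.right.right RtB17_8.CTp.left RtB17_8.CEr.left 0x33640ddd88afd1246ca678c5d07e88149ebf6d4874c7161af540da309abf633afdb0f85da78c2ba9aa6722fbf612d8dade355bf540d4d5c7b5317afd68c33368c185e57c7bb450da515af2bf61120091ffa7bf550d65 = true := by decide +kernel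

theorem cB17_8_3_47 : chunkOkM (LB17_8.ctx true true 274 57 32 9 16 1547 2365 8 64) muQ true true 64 RtB17_8.Cx.left.left RtB17_8.CX RtB17_8.Ctp.right.right.left.right.right.right RtB17_8.Ce.right.right.left.right.left.right RtB17_8.CTp.left RtB17_8.CEr.left 0x6978e9155c87afd548059278c2ca0c5bb5ab958413c6bf640dbd1ffdfa5fafdcf8d8e078c78313d3c1d9bf630d4a32431a7bafdb19db068c1ede72d7bb759b4f811dfbf640d669453 = true := by decide +kernel

theorem cB17_8_3_48 : chunkOkM (LB17_8.ctx true true 273 57 32 9 16 385 1177 32 128) muQ true true 64 RtB17_8.Cx.left.left RtB17_8.CX RtB17_8.Ctp.right.right.left.right.right RtB17_8.Ce.right.right.left.right.left RtB17_8.CTp.left RtB17_8.CEr.right 0x5a5a16962a4c70afd156af8f78c280ea397711bf69f2b6ff68baf540d0465a55a565a5 = true := by decide +kernel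

theorem cB17_8_3_49 : chunkOkM (LB17_8.ctx true true 113 1 1 1 1 1 1 1 1) muQ true true 64 RtB17_8.Cx.left.right RtB17_8.CX RtB17_8.Ctp.right.right.left.right.right RtB17_8.Ce.right.right.left.right.left RtB17_8.CTp.left RtB17_8.CEr 0x69 = true := by decide +kernel

end Vale.Agent.helper4.Q4
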