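import Vale.Agent.helper4.Q4TreeM
import Vale.Agent.helper4.Q4G.PB17_8

/-!
Checks for pairs of intervals of second moments.
-/

set_option maxRecDepth 100000
set_option linter.unusedVariables false

namespace Vale.Agent.helper4.Q4

theorem cB17_8_3_342 : chunkOkM (LB17_8.ctx true true 284 123 64 9 16 1645 5225 8 64) muQ true true 64 RtB17_8.Cx.right.left.right RtB17_8.CX RtB17_8.Ctp.right.right.right.left.right.left RtB17_8.Ce.right.right.right.left.right.right.left RtB17_8.CTp.left.right RtB17_8.CEr.left 0x17573fe8683bf00b51ef45660cafd53d5e7b78c841558a7277bf630d4938204d0eafd55f181578cb1a1423f851bf630d436a6 = true := by decide +kernel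

theorem cB17_8_3_343 : chunkOkM (LB17_8.ctx true true 113 1 1 1 1 1 1 1 1) muQ true true 64 RtB17_8.Cx.right.left.left RtB17_8.CX RtB17_8.Ctp.right.right.right.left.right.left RtB17_8.Ce.right.right.right.left.right.right.right RtB17_8.CTp.left RtB17_8.CEr.left 0x21 = true := by decide +kernel

theorem cB17_8_3_344 : chunkOkM (LB17_8.ctx true true 304 491 256 9 16 3269 10483 8 64) muQ true true 64 RtB17_8.Cx.right.left.right RtB17_8.CX RtB17_8.Ctp.right.right.right.left.right.left.left RtB17_8.Ce.right.right.right.left.right.right.right.left RtB17_8.CTp.left RtB17_8.CEr.left 0x550f9227e1afd37f928078c4e18716bbcd433f687dcbf640d66782a6b25afd7e8393278cf5518d8015ebf630d4dca60297eafd104a2e578c17d90ab7bbdcbf766d9d4bf640d6569227e1f2bd9afdc216ad68cd1b1696bb32c14feecbaacf640d7cd0cc8409afd94a04e378c1043a94c61d6cf630d91827fff28afd4dd6ca978c1128fff18ab11f994172d21cf640d6542176937 = true := by decide +kernel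

theorem cB17_8_3_345 : chunkOkM (LB17_8.ctx true true 304 495 256 9 16 3269 10527 8 64) muQ true true 64 RtB17_8.Cx.right.left.right RtB17_8.CX RtB17_8.Ctp.right.right.right.left.right.left.left RtB17_8.Ce.right.right.right.left.right.right.right.right RtB17_8.CTp.left RtB17_8.CEr.left 0x58fca75a30afd3ce758378c4017546bb109192d1dca7cf640d4b1ecb6186afd7b3c48178c138ed5773c47cf630d417974fcd7afdf5d58a68c183a128d8ab12e55dc483fdcf640d669876f2c50f4afd61eda2778cc3f7026bb49aae5830e3fcf640d469735217 = true := by decide +kernel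

theorem cB17_8_3_346 : chunkOkM (LB17_8.ctx true true 314 983 512 9 16 13111 5247 8 64) muQ true true 64 RtB17_8.Cx.right.left.right RtB17_8.CX RtB17_8.Ctp.right.right.right.left.right.left.right RtB17_8.Ce.right.right.right.left.right.right.right.left RtB17_8.CTp.left RtB17_8.CEr.left 0x3951fe3b71afd258dabd78cb253b06bb3cbb173035af620052ee244fbf250d116963d98dc9a5afd823c75578c9195a06bb22df5217c72acf640d3fc940c595afdaa8acd68c1c2abe67bb6654ac7a669bf618c3290f1a4bf250d673010101350f2f7820afd76b64d678c55fb16d31e6bf62286493c360bf240dab61fc9aa4afd657f71478cf3210427abb271afb2cd5bf61d2153fd789bf250d633301701775 = true := by decide +kernel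

theorem cB17_8_3_347 : chunkOkM (LB17_8.ctx true true 290 247 128 9 16 1645 5269 8 64) muQ true true 64 RtB17_8.Cx.right.left.right RtB17_8.CX RtB17_8.Ctp.right.right.right.left.right.left.right RtB17_8.Ce.right.right.right.left.right.right.right.right RtB17_8.CTp.left RtB17_8.CEr.left 0x3e06b6b8b1afd24c349678c677c636bb4cda433e900bf610be21264abbf250d627835ea53afd73ed06078c9987856bb528afe37730bf619c284c9839bf250d2d49b85464afd64a6f068c19173647bbe2857414594bf61265c8a9a41bf250d65217 = true := by decide +kernel

theorem cB17_8_3_348 : chunkOkM (LB17_8.ctx true true 292 123 64 9 16 1645 2629 32 128) muQ true true 64 RtB17_8.Cx.right.left RtB17_8.CX RtB17_8.Ctp.right.right.right.left.right.left RtB17_8.Ce.right.right.right.left.right.right RtB17_8.CTp.left RtB17_8.CEr.right 0x5a5a1a127895f3bbf02bca81eb27b9fd8e0d1b68c643810790c5bf630d32174cb446fd19ebf06b2852adaf568bf02b7465a55a565a5 = true := by decide +kernel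

theorem cB17_8_3_349 : chunkOkM (LB17_8.ctx true true 277 123 64 9 16 1645 5269 4 32) muQ true true 64 RtB17_8.Cx.right.left RtB17_8.CX RtB17_8.Ctp.right.right.right.left.right.left RtB17_8.Ce.right.right.right.left.right.right RtB17_8.CTp.right RtB17_8.CEr 0x1611ee1b34afd5c930768c3660d5aa3f3bf61cf8714b2acbf240d12a733347aafd186cad68cb66dbd4a686bf630d11df7f30f9afdf31ab5c28f895ca534b1fdbf630d4321713405b917dafd2379e268c5999cd1d041bf64b986b6bcfaf240d128cce5659afd3242b3526e7bf6185a18ba025bf230d746a6 = true := by decide +kernel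

theorem cB17_8_3_350 : chunkOkM (LB17_8.ctx true true 113 1 1 1 1 1 1 1 1) muQ true true 64 RtB17_8.Cx.right.left RtB17_8.CX RtB17_8.Ctp.right.right.right.left.right.right RtB17_8.Ce.right.right.right.left.right RtB17_8.CTp RtB17_8.CEr 0x01 = true := by decide +kernel

theorem cB17_8_3_351 : chunkOkM (LB17_8.ctx true true 113 1 1 1 1 1 1 1 1) muQ true true 64 RtB17_8.Cx.right.right RtB17_8.CX RtB17_8.Ctp.right.right.right.left.right.left RtB17_8.Ce.right.right.right.left.right.left RtB17_8.CTp RtB17_8.CEr 0x11 = true := by decide +kernel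

theorem cB17_8_3_352 : chunkOkM (LB17_8.ctx true true 113 1 1 1 1 1 1 1 1) muQ true true 64 RtB17_8.Cx.right.right RtB17_8.CX RtB17_8.Ctp.right.right.right.left.right.left RtB17_8.Ce.right.right.right.left.right.right.left RtB17_8.CTp RtB17_8.CEr 0x69 = true := by decide +kernel

theorem cB17_8_3_353 : chunkOkM (LB17_8.ctx true true 284 125 64 9 16 1631 5247 8 64) muQ true true 64 RtB17_8.Cx.right.right.left RtB17_8.CX RtB17_8.Ctp.right.right.right.left.right.left.left RtB17_8.Ce.right.right.right.left.right.right.right.left RtB17_8.CTp.left RtB17_8.CEr.left 0x4c2c84f91aafd3c2d50278cde089e4b49ebf630d412d05c539cc657d3afd26d09fd78cfd836a6bb139b6f22d067cf640d65 = true := by decide +kernel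

theorem cB17_8_3_354 : chunkOkM (LB17_8.ctx true true 290 251 128 9 16 1631 5269 8 64) muQ true true 64 RtB17_8.Cx.right.right.left RtB17_8.CX RtB17_8.Ctp.right.right.right.left.right.left.left RtB17_8.Ce.right.right.right.left.right.right.right.right RtB17_8.CTp.left RtB17_8.CEr.left 0x164298bb61af06c7ff7849ff2afd586465778c9a8ba96bb1b416276b6a0cf640d549be2021b3afd2a5423478c3bf2c76bbb53e0ca5bd8bf640d44cb29ea58afd6fe38ac78cc371c41b41bbf630d574dfe580bafd11df44a78c15d0a517bbde8c20e3a28bf640d657 = true := by decide +kernel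

theorem cB17_8_3_355 : chunkOkM (LB17_8.ctx true true 278 125 64 9 16 1645 2629 8 32) muQ true true 64 RtB17_8.Cx.right.right.left RtB17_8.CX RtB17_8.Ctp.right.right.right.left.right.left.right RtB17_8.Ce.right.right.right.left.right.right.right RtB17_8.CTp.left RtB17_8.CEr.left 0x14346d4208af06c869537b70fafd637dd7578c105c1ed7bb1df701ea2808cf640d5 = true := by decide +kernel

theorem cB17_8_3_356 : chunkOkM (LB17_8.ctx true true 113 1 1 1 1 1 1 1 1) muQ true true 64 RtB17_8.Cx.right.right.right RtB17_8.CX RtB17_8.Ctp.right.right.right.left.right.left RtB17_8.Ce.right.right.right.left.right.right.right RtB17_8.CTp.left RtB17_8.CEr.left 0x69 = true := by decide +kernel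

theorem cB17_8_3_357 : chunkOkM (LB17_8.ctx true true 264 63 32 9 16 819 2629 4 32) muQ true true 64 RtB17_8.Cx.right.right RtB17_8.CX RtB17_8.Ctp.right.right.right.left.right.left RtB17_8.Ce.right.right.right.left.right.right.right RtB17_8.CTp.left RtB17_8.CEr.right 0x7173b6cea8afd7f4e39578c3ab80eb70b2bf6a7a1a25734af540d = true := by decide +kernel

end Vale.Agent.helper4.Q4
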