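import Vale.Agent.helper4.Q4TreeM
import Vale.Agent.helper4.Q4G.PB17_8

/-!
Checks for pairs of intervals of second moments.
-/

set_option maxRecDepth 100000
set_option linter.unusedVariables false

namespace Vale.Agent.helper4.Q4

theorem cB17_8_3_358 : chunkOkM (LB17_8.ctx true true 264 63 32 9 16 819 2629 4 32) muQ true true 64 RtB17_8.Cx.right.right RtB17_8.CX RtB17_8.Ctp.right.right.right.left.right.left RtB17_8.Ce.right.right.right.left.right.right.right RtB17_8.CTp.right RtB17_8.CEr 0x107da6b6bfafd926cee278f839aa1c602b8bf6a3e782e23eaf540d6a6 = true := by decide +kernel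

theorem cB17_8_3_359 : chunkOkM (LB17_8.ctx true true 113 1 1 1 1 1 1 1 1) muQ true true 64 RtB17_8.Cx.right.right RtB17_8.CX RtB17_8.Ctp.right.right.right.left.right.right RtB17_8.Ce.right.right.right.left.right RtB17_8.CTp RtB17_8.CEr 0x11 = true := by decide +kernel

theorem cB17_8_3_360 : chunkOkM (LB17_8.ctx true true 113 1 1 1 1 1 1 1 1) muQ true true 64 RtB17_8.Cx.left RtB17_8.CX RtB17_8.Ctp.right.right.right.left RtB17_8.Ce.right.right.right.right RtB17_8.CTp RtB17_8.CEr 0x21 = true := by decide +kernel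

theorem cB17_8_3_361 : chunkOkM (LB17_8.ctx true true 113 1 1 1 1 1 1 1 1) muQ true true 64 RtB17_8.Cx.right.left RtB17_8.CX RtB17_8.Ctp.right.right.right.left.left RtB17_8.Ce.right.right.right.right.left.left RtB17_8.CTp RtB17_8.CEr 0x59 = true := by decide +kernel

theorem cB17_8_3_362 : chunkOkM (LB17_8.ctx true true 359 65535 32768 9 16 51065 84491 2 32) muQ true true 64 RtB17_8.Cx.right.right RtB17_8.CX RtB17_8.Ctp.right.right.right.left.left.left RtB17_8.Ce.right.right.right.right.left.left RtB17_8.CTp RtB17_8.CEr 0x5959595959591ec7b6e244afd1728be6b87c3d5e1b35798bf530de9897d0199f06c6597597597597593459759345975934597593459759345975935974 = true := by decide +kernel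

theorem cB17_8_3_363 : chunkOkM (LB17_8.ctx true true 113 1 1 1 1 1 1 1 1) muQ true true 64 RtB17_8.Cx.right.right.left RtB17_8.CX RtB17_8.Ctp.right.right.right.left.left.right.left RtB17_8.Ce.right.right.right.right.left.left.left RtB17_8.CTp RtB17_8.CEr 0x59 = true := by decide +kernel

theorem cB17_8_3_364 : chunkOkM (LB17_8.ctx true true 113 1 1 1 1 1 1 1 1) muQ true true 64 RtB17_8.Cx.right.right.left.left RtB17_8.CX RtB17_8.Ctp.right.right.right.left.left.right.right RtB17_8.Ce.right.right.right.right.left.left.left RtB17_8.CTp RtB17_8.CEr 0x69 = true := by decide +kernel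

theorem cB17_8_3_365 : chunkOkM (LB17_8.ctx true true 304 503 256 9 16 6461 10571 8 32) muQ true true 64 RtB17_8.Cx.right.right.left.right RtB17_8.CX RtB17_8.Ctp.right.right.right.left.left.right.right.left RtB17_8.Ce.right.right.right.right.left.left.left.left RtB17_8.CTp.left RtB17_8.CEr.left 0x591d5669eb53afd18207568c94d3bd6bb1e2ad73484ebf61e2a430b64fbf550d7592c9232bafd4bd6e0678c77721347ab2055f42b0b8bf6226e80ec87ebf550d55934597 = true := by decide +kernel

theorem cB17_8_3_366 : chunkOkM (LB17_8.ctx true true 304 503 256 9 16 3241 10593 8 64) muQ true true 64 RtB17_8.Cx.right.right.left.right RtB17_8.CX RtB17_8.Ctp.right.right.right.left.left.right.right.right RtB17_8.Ce.right.right.right.right.left.left.left.left RtB17_8.CTp.left.left RtB17_8.CEr.left 0x648a568862afd6891d0d78c10660b7effe7cf630d730fbc41d2afd37a17b078c90737887ab7fa52007f2abf612f9c0f03b7bf550d67bed71804dafd536745f78c7d4f2e6bb3ccbfd044b91cf640d74f2861aacaafd5ed670f78c81194a62336bf6153c8dafe68bf540d601337f000afd32de78c78ca5278647abef5d55470a7bf61393ea6cf37bf550d68725ba3548afd74f8ef678c10b51d51af3ccf630d44fcd8e31cafd12d798ed8ab313080abae31cf630d674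 = true := by decide +kernel

theorem cB17_8_3_367 : chunkOkM (LB17_8.ctx true true 291 251 128 9 16 3241 5291 8 32) muQ true true 64 RtB17_8.Cx.right.right.left.right RtB17_8.CX RtB17_8.Ctp.right.right.right.left.left.right.right.right RtB17_8.Ce.right.right.right.right.left.left.left.left RtB17_8.CTp.left.right RtB17_8.CEr.left 0x395b11b1f8afd1ba5bd178c46ed196bb48bbc10e4d6bf6165b957d332bf550d = true := by decide +kernel

theorem cB17_8_3_368 : chunkOkM (LB17_8.ctx true true 316 1007 512 9 16 6489 21219 8 64) muQ true true 64 RtB17_8.Cx.right.right.left.right RtB17_8.CX RtB17_8.Ctp.right.right.right.left.left.right.right RtB17_8.Ce.right.right.right.right.left.left.left.right RtB17_8.CTp.left RtB17_8.CEr.left 0x59594f9cddb715afd2ed6dc9187c1883bf800aa7cf630d65521c137aafd617eb99987c2fef5fd7ab1e4f0e94153ccf640d54d5aa080eafd2ba2d63a87caaccc787ab1a76d0e4e6c4cf640d6545975934597593 = true := by decide +kernel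

theorem cB17_8_3_369 : chunkOkM (LB17_8.ctx true true 280 251 128 9 16 1617 2651 4 32) muQ true true 64 RtB17_8.Cx.right.right.left.right RtB17_8.CX RtB17_8.Ctp.right.right.right.left.left.right.right RtB17_8.Ce.right.right.right.right.left.left.left RtB17_8.CTp.left RtB17_8.CEr.right 0x481a1845fcafd5a303e978c160ea1684c7bf6194027aebc1bf540d = true := by decide +kernel

theorem cB17_8_3_370 : chunkOkM (LB17_8.ctx true true 280 251 128 9 16 1617 2651 4 32) muQ true true 64 RtB17_8.Cx.right.right.left.right RtB17_8.CX RtB17_8.Ctp.right.right.right.left.left.right.right RtB17_8.Ce.right.right.right.right.left.left.left RtB17_8.CTp.right RtB17_8.CEr 0xde9baf0f49fd1d37a6d639f848babbc5303bf615da2ed5997bf540d6a6 = true := by decide +kernel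

theorem cB17_8_3_371 : chunkOkM (LB17_8.ctx true true 287 255 128 9 16 3213 5313 4 32) muQ true true 64 RtB17_8.Cx.right.right.right RtB17_8.CX RtB17_8.Ctp.right.right.right.left.left.right.left RtB17_8.Ce.right.right.right.right.left.left.left RtB17_8.CTp RtB17_8.CEr 0x10bd9739b3afdb03e925249f82c796f0c9e4bf6256977fe8c2bf540d7306f37eceafd4c19f3678c1007ad460e4bf622f61790edabf540d466eb05077afd31a605878c1fd92a8ee66bf623def2b4868bf540d65935976d0229d94eafd5894c5e78c16de90e8f8cbf621c01827859bf540d43eba67231afd2fbb9db78c7058766bb15c69855223bf6229928b1d97bf550d645 = true := by decide +kernel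

theorem cB17_8_3_372 : chunkOkM (LB17_8.ctx true true 297 255 128 9 16 3241 10593 8 64) muQ true true 64 RtB17_8.Cx.right.right.right RtB17_8.CX RtB17_8.Ctp.right.right.right.left.left.right.right RtB17_8.Ce.right.right.right.right.left.left.left.left RtB17_8.CTp.left RtB17_8.CEr.left 0x367db93659afd1ae65a578c9f51e56bb17a4f069bebbf612a9c79b4dbbf550d4c006726b6afd556068278c5ba043965cabf61941496200cbf540d3e495f2491afdfec8ab6bb377488f972ebf61761d472e9fbf540d62de4f541c5afd1ba8fcc78c35967a6bb1e124f4865fbf61f68fc7728bbf550d732cddc466afd492068078ca4c6cac7ab142295ff69abf62117b3af9adbf550d53fcfc98561afd50dbb3278c21bf92187cdbf620411210af8bf540d2fe13c6787afde2907a68c91f7816bb3008dc6b0d4bf61ac5a6efa80bf550d6437 = true := by decide +kernel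

theorem cB17_8_3_373 : chunkOkM (LB17_8.ctx true true 303 507 256 9 16 3241 10637 8 64) muQ true true 64 RtB17_8.Cx.right.right.right.left RtB17_8.CX RtB17_8.Ctp.right.right.right.left.left.right.right RtB17_8.Ce.right.right.right.right.left.left.left.right RtB17_8.CTp.left RtB17_8.CEr.left 0x233f327e2bafd9648d677555bf6cd7a5961b8af530d735257bd6cafd4a8325878c7a0db987abdb0103683eaf61f046886afebf550d731d98218dafd4ad87ef78c79152627ab13000752f5abf623982641bdcbf550d754f8da67eaaafd2c447fb78c6fa3835d3cebf61381cbced2ebf540d57801deeb7afd5c56fed78c3cd6136d53fbf61735ed7f937bf540d45145dd423afd1e2a1c078ccade2957ab3b4b6118f67bf6240612db800bf550d6546367f4bb66afd428c1f078c2a3e996bb53971cf5c9f62668f8d8aa3bf550d3 = true := by decide +kernel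

theorem cB17_8_3_374 : chunkOkM (LB17_8.ctx true true 290 255 128 9 16 3241 5313 4 64) muQ true true 64 RtB17_8.Cx.right.right.right.right RtB17_8.CX RtB17_8.Ctp.right.right.right.left.left.right.right RtB17_8.Ce.right.right.right.right.left.left.left.right RtB17_8.CTp.left RtB17_8.CEr.left 0x4604b009c2afd527acb278c1e9bbe167bbbf530d242c7c5544afdc64d8f6bb5d538580892bf621dc495e8d9bf540d660176e109eafd3ecfe9578c23bad66bb11cdaf3f973bf622450ee908ebf550d3 = true := by decide +kernel

end Vale.Agent.helper4.Q4
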