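import Vale.Agent.helper4.Q4TreeM
import Vale.Agent.helper4.Q4G.PB17_8

/-!
Checks for pairs of intervals of second moments.
-/

set_option maxRecDepth 100000
set_option linter.unusedVariables false

namespace Vale.Agent.helper4.Q4

theorem cB17_8_3_375 : chunkOkM (LB17_8.ctx true true 274 127 64 9 16 1617 2651 4 32) muQ true true 64 RtB17_8.Cx.right.right.right RtB17_8.CX RtB17_8.Ctp.right.right.right.left.left.right.right RtB17_8.Ce.right.right.right.right.left.left.left RtB17_8.CTp.left RtB17_8.CEr.right 0x5294fde524afd5b9841478c24f5490fe10bf6196553f6858bf540d = true := by decide +kernel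

theorem cB17_8_3_376 : chunkOkM (LB17_8.ctx true true 274 127 64 9 16 1617 2651 4 32) muQ true true 64 RtB17_8.Cx.right.right.right RtB17_8.CX RtB17_8.Ctp.right.right.right.left.left.right.right RtB17_8.Ce.right.right.right.right.left.left.left RtB17_8.CTp.right RtB17_8.CEr 0xd4e6f18fb9fd3e59e03a49f81b01b5aeaecbf617453a07c51bf540d6a6 = true := by decide +kernel

theorem cB17_8_3_377 : chunkOkM (LB17_8.ctx true true 113 1 1 1 1 1 1 1 1) muQ true true 64 RtB17_8.Cx.right.right.left RtB17_8.CX RtB17_8.Ctp.right.right.right.left.left.right RtB17_8.Ce.right.right.right.right.left.left.right RtB17_8.CTp RtB17_8.CEr 0x59 = true := by decide +kernel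

theorem cB17_8_3_378 : chunkOkM (LB17_8.ctx true true 113 1 1 1 1 1 1 1 1) muQ true true 64 RtB17_8.Cx.right.right.right RtB17_8.CX RtB17_8.Ctp.right.right.right.left.left.right.left RtB17_8.Ce.right.right.right.right.left.left.right RtB17_8.CTp RtB17_8.CEr 0x59 = true := by decide +kernel

theorem cB17_8_3_379 : chunkOkM (LB17_8.ctx true true 304 507 256 9 16 6489 10681 8 32) muQ true true 64 RtB17_8.Cx.right.right.right RtB17_8.CX RtB17_8.Ctp.right.right.right.left.left.right.right RtB17_8.Ce.right.right.right.right.left.left.right.left RtB17_8.CTp.left RtB17_8.CEr 0x6972f5a3c6afd525c44678cfeb0de76bcaf61ecff3790a1bf540d67b3271c0aafd42980b078c27bb416bbc47909a6d7af6229e82a625abf550d6880614708afd44bb0b678c36e7e56bbac4b4c9c17af6209d0808676bf550d456959e0b6cafd39349a578c21c91f6bb24fabb3a8c0bf540d3592054d5cffcafd6c615968c807c646bb188cf26a90cbf61ee1116e493bf550d630a5c8ddcafd42fa5c778c7cc41f07ab44a49bac91cbf61c71c201d34bf550d5593459759376 = true := by decide +kernel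

theorem cB17_8_3_380 : chunkOkM (LB17_8.ctx true true 300 511 256 9 16 6489 10703 4 32) muQ true true 64 RtB17_8.Cx.right.right.right RtB17_8.CX RtB17_8.Ctp.right.right.right.left.left.right.right RtB17_8.Ce.right.right.right.right.left.left.right.right RtB17_8.CTp.left RtB17_8.CEr 0x5957de34016dafd5cc6b8378c1af1f222e0eccf610456b94a72bf540d4ebcac246fafd34b51f978c48769387ab1d3b9c91502bf623e6a60d519bf550d65934597593597 = true := by decide +kernel

theorem cB17_8_3_381 : chunkOkM (LB17_8.ctx true true 271 127 64 9 16 1617 2673 4 16) muQ true true 64 RtB17_8.Cx.right.right.right RtB17_8.CX RtB17_8.Ctp.right.right.right.left.left.right.right RtB17_8.Ce.right.right.right.right.left.left.right RtB17_8.CTp.right RtB17_8.CEr 0x107b5a1b61afdc997b326c9f82c7fd531cdfbf61f96f94129ebf540d = true := by decide +kernel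

theorem cB17_8_3_382 : chunkOkM (LB17_8.ctx true true 113 1 1 1 1 1 1 1 1) muQ true true 64 RtB17_8.Cx.right RtB17_8.CX RtB17_8.Ctp.right.right.right.left.left RtB17_8.Ce.right.right.right.right.left.right RtB17_8.CTp RtB17_8.CEr 0x59 = true := by decide +kernel

theorem cB17_8_3_383 : chunkOkM (LB17_8.ctx true true 299 495 256 9 16 1645 10571 8 64) muQ true true 64 RtB17_8.Cx.right.left RtB17_8.CX RtB17_8.Ctp.right.right.right.left.right RtB17_8.Ce.right.right.right.right.left.left RtB17_8.CTp RtB17_8.CEr 0x21212101eb1b05f879fd13420668c18f47a2cb5e0cf630d6a66ff7c2bc04afd86eb41f78cc4167afc46fbf61933b929763bf240d2b2219c3b1afd188f4ad78cc1cef36bb142834ab503bcf619969059b2af250d95890e27aaafda74248b78c1fd2ea548a4ccf630d6a72af94c4afd2f3d2f978c151f21de8ab121281cee71ecf61631455793ebf250d65656933421742174217 = true := by decide +kernel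

theorem cB17_8_3_384 : chunkOkM (LB17_8.ctx true true 304 499 256 9 16 3269 10571 8 64) muQ true true 64 RtB17_8.Cx.right.right.left.left RtB17_8.CX RtB17_8.Ctp.right.right.right.left.right.left.left RtB17_8.Ce.right.right.right.right.left.left.left.left RtB17_8.CTp.left RtB17_8.CEr.left 0x5324280261afd3c78f7178c20adf76bb183e5bd18015cf640d44501fcf52afd709f1b178c19adf071beaccf630d3c027b8f4bafd9fba3068c164c6eb98ab12bcce42644bcf640d656921a0c2c370afdd2e7bf68ca763db6bb1d922893564dcf640d5d7607ce2dafd70ba89578c1b66f14f9d35cf630d9afe86d48eafd4e511dd78ce80767e7ab219550f6d9c9cf640d6546973 = true := by decide +kernel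

theorem cB17_8_3_385 : chunkOkM (LB17_8.ctx true true 290 251 128 9 16 1631 5291 8 64) muQ true true 64 RtB17_8.Cx.right.right.left.right RtB17_8.CX RtB17_8.Ctp.right.right.right.left.right.left.left RtB17_8.Ce.right.right.right.right.left.left.left.left RtB17_8.CTp.left RtB17_8.CEr.left 0x51790cf4a2afd35856a878ce826951fee5bf630d3f4cb7751eafd659557978c108f75d2710ccf630d44d7155fcbafd98950868c131f08b7bb123afa4b268bcf640d65 = true := by decide +kernel

theorem cB17_8_3_386 : chunkOkM (LB17_8.ctx true true 324 1999 1024 9 16 13097 42427 4 32) muQ true true 64 RtB17_8.Cx.right.right.left.left RtB17_8.CX RtB17_8.Ctp.right.right.right.left.right.left.left RtB17_8.Ce.right.right.right.right.left.left.left.right RtB17_8.CTp.left RtB17_8.CEr.left 0x69696975389efe79afd586f138b87c87ebf1b7ab74d4b15f781ccf640d469769346976934697593 = true := by decide +kernel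

theorem cB17_8_3_387 : chunkOkM (LB17_8.ctx true true 314 1007 512 9 16 6517 10637 8 64) muQ true true 64 RtB17_8.Cx.right.right.left.right RtB17_8.CX RtB17_8.Ctp.right.right.right.left.right.left.left.left RtB17_8.Ce.right.right.right.right.left.left.left.right RtB17_8.CTp.left RtB17_8.CEr.left 0x28c1429a8cafd1501f1cf87c5c120a77abf88710f710fbf640d2fc8b78acbafd444f80278c25596ee7753fcf630d1761e7dec4afd146b9c8387c6c7fb8f7ab1a1a65c60bb1cf640d6569769369765437fe131afd49415a278c1582228b72b2cf630d6a07e03c36afd68e69b678c16df71eb0284cf630d31bdf918ebafd1099bf68c11467e738ab19f965c26ffdcf640d67cff1fed16afd561322078c92d4086bb337899885746cf640d754 = true := by decide +kernel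

theorem cB17_8_3_388 : chunkOkM (LB17_8.ctx true true 294 251 128 9 16 3269 5313 8 64) muQ true true 64 RtB17_8.Cx.right.right.left.right RtB17_8.CX RtB17_8.Ctp.right.right.right.left.right.left.left.right RtB17_8.Ce.right.right.right.right.left.left.left.right RtB17_8.CTp.left RtB17_8.CEr.left 0x3b082a6932afd2594cac78c4ac06e6bb12dbcebc57eacf640d649add58deafd6c9ba5378cb833c5bbfc4cbd3388cbf640d457ca3b97eafd120570a78c12ac573e8ab15c057db3ab6cf640d65 = true := by decide +kernel

theorem cB17_8_3_389 : chunkOkM (LB17_8.ctx true true 284 125 64 9 16 1645 5291 8 64) muQ true true 64 RtB17_8.Cx.right.right.left RtB17_8.CX RtB17_8.Ctp.right.right.right.left.right.left.right RtB17_8.Ce.right.right.right.right.left.left.left.left RtB17_8.CTp.left RtB17_8.CEr.left 0x46eb954642afd2db82a978c822d246bbd11e8fe8498bf640d71f5f91164afd785bc7a78c9927596bbdeb114fc101bf640d474001195fafdfd17e068c179e9cd7bbb7504b83e10bf640d65 = true := by decide +kernel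

end Vale.Agent.helper4.Q4
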