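import Vale.Agent.helper4.Q4TreeM
import Vale.Agent.helper4.Q4G.PB17_8

/-!
Checks for pairs of intervals of second moments.
-/

set_option maxRecDepth 100000
set_option linter.unusedVariables false

namespace Vale.Agent.helper4.Q4

theorem cB17_8_3_390 : chunkOkM (LB17_8.ctx true true 294 251 128 9 16 3297 5313 8 64) muQ true true 64 RtB17_8.Cx.right.right.left RtB17_8.CX RtB17_8.Ctp.right.right.right.left.right.left.right RtB17_8.Ce.right.right.right.right.left.left.left.right RtB17_8.CTp.left RtB17_8.CEr.left 0x275a4dc42bafd1355c5678c9f431f6bbd9ad8558e04bf640d626700fa1bafd6b0a97978c91f8d66bb12950d09c41acf640d2de4ee4a71afd12bcdc68c1737eca7bb103e34660f2ecf640d654256e2f186afd4febcb578cfc212e74e24bf62652de0fd5af240d6a674c7833418afd7b2196678cc779dd6bbfc51f68363ebf640d5bf9b1cb8bafd228d58f78c1784ae3f8ab110f4ba66ad8cf6dde5d8f3d6af250d314677d1dbafd520d3768c183575108ab12fb646e4a71cf640d3657 = true := by decide +kernel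

theorem cB17_8_3_391 : chunkOkM (LB17_8.ctx true true 292 125 64 9 16 1645 2651 32 128) muQ true true 64 RtB17_8.Cx.right.right.left RtB17_8.CX RtB17_8.Ctp.right.right.right.left.right.left RtB17_8.Ce.right.right.right.right.left.left.left RtB17_8.CTp.left RtB17_8.CEr.right 0x5a5a5c5f7d6dfcabf06b6013939cf7afd6196a1778c45fa9971b83bf6c45ff099e8af540d365a55a565a5 = true := by decide +kernel

theorem cB17_8_3_392 : chunkOkM (LB17_8.ctx true true 290 255 128 9 16 1631 5313 8 64) muQ true true 64 RtB17_8.Cx.right.right.right RtB17_8.CX RtB17_8.Ctp.right.right.right.left.right.left RtB17_8.Ce.right.right.right.right.left.left.left RtB17_8.CTp.left RtB17_8.CEr 0x6953849542ccafd621c4fa78c3f393ef8781bf612d27a47b22bf540d682a39e461afd3bc1bee78ce4b4e36bb30d35015ceb91afd199fa5978c38124a6bb8b5136e08b4bf6a6daf91db1af550d43193e8232afd5f7830478ca599d4d4536bf61045fd1bfdfbf540d3018bb4a28afd463b5768c11c0e197bba341226925cbf6f3ad31ea0baf550d6576cd6701ef5afd4b0f55e78c4180746bb30d463 = true := by decide +kernel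

theorem cB17_8_3_393 : chunkOkM (LB17_8.ctx true true 277 127 64 9 16 1645 5313 4 32) muQ true true 64 RtB17_8.Cx.right.right RtB17_8.CX RtB17_8.Ctp.right.right.right.left.right.left RtB17_8.Ce.right.right.right.right.left.left.left RtB17_8.CTp.right RtB17_8.CEr 0x1293f91b65afdd264258c516c65981d9bf6ddfa0f0649af540d1245812079afd34f73f68c73c33dc91c6bf630d1169d7d3f5afd2ca2858c696338b2e14bf662cfc3e21daf540de9527421a9fd201818be09f8934c244aaefbf64947cedca8af540d4376a6 = true := by decide +kernel

theorem cB17_8_3_394 : chunkOkM (LB17_8.ctx true true 304 503 256 9 16 3269 10659 8 64) muQ true true 64 RtB17_8.Cx.right.right.left RtB17_8.CX RtB17_8.Ctp.right.right.right.left.right.left.left RtB17_8.Ce.right.right.right.right.left.left.right RtB17_8.CTp.left RtB17_8.CEr.left 0x5969478249b665afd3870db878c1d5d10299836cf630d47a3cd4770afd6e2ba5078caf066bea631bf630d798c1d503bafd3860f2e78cac3f45c7ab2312fd074a52cf640d6546976934597 = true := by decide +kernel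

theorem cB17_8_3_395 : chunkOkM (LB17_8.ctx true true 310 999 512 9 16 3297 10659 8 64) muQ true true 64 RtB17_8.Cx.right.right.left.left RtB17_8.CX RtB17_8.Ctp.right.right.right.left.right.left.right RtB17_8.Ce.right.right.right.right.left.left.right.left RtB17_8.CTp.left RtB17_8.CEr.left 0x212a49778cf1afd1cee5f2987cea0fa457ab16c930eb7a91cf6212581511baf250d4d7c67fbdbafd7d07df978c1c7cc29cff72cf630d8717463fccafd504ea6778c11ba861d8ab1fa58fed40c6cf640d652174217693 = true := by decide +kernel

theorem cB17_8_3_396 : chunkOkM (LB17_8.ctx true true 304 503 256 9 16 3297 10681 8 64) muQ true true 64 RtB17_8.Cx.right.right.left.right RtB17_8.CX RtB17_8.Ctp.right.right.right.left.right.left.right RtB17_8.Ce.right.right.right.right.left.left.right.left RtB17_8.CTp.left RtB17_8.CEr.left 0x5278b9b82cafd3736abb78c4a86996bb1029371d210acf640d52f7114db6afd7ba21ac78cc7adeb8c439bf630d29abf9a69bafd189daa37bb11acfe395d88cf630d652f13fb34cafd6fd230078c208827db27a5cf630d9790a046fcafd4f6abcb78cfbbce0e7ab22bb255e1dfdcf640d669776f3687b7bafd785f53c78c2b59b66bbf3ad1ad93e6bf640d34def28f9fafd72bca168c15c56a078ab15235ffed7d5cf640d6435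 = true := by decide +kernel

theorem cB17_8_3_397 : chunkOkM (LB17_8.ctx true true 318 1007 512 9 16 6573 21395 8 64) muQ true true 64 RtB17_8.Cx.right.right.left RtB17_8.CX RtB17_8.Ctp.right.right.right.left.right.left.right RtB17_8.Ce.right.right.right.right.left.left.right.right RtB17_8.CTp.left RtB17_8.CEr.left 0x347c3701cfafd1c1ae8f78cc0b5b96bb168266d47582cf640d7cc0b6ce0cafd5ba94cf78cd110366bb3926a009f4a8cf640d217472c05a478afd726080e78c1dd2f0a0ce50cf630d9bb4a911c2afd5426f5378c114374b28ab20155bdb7c75cf640d676713048aaafd5ec637278cd0bc046bb30b814905a22cf640d7456969751ba8c5a7afd584ff0c387c6e921527ab62211754dec3cf640d469769346973217 = true := by decide +kernel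

theorem cB17_8_3_398 : chunkOkM (LB17_8.ctx true true 292 125 64 9 16 1645 2673 32 128) muQ true true 64 RtB17_8.Cx.right.right.left RtB17_8.CX RtB17_8.Ctp.right.right.right.left.right.left RtB17_8.Ce.right.right.right.right.left.left.right RtB17_8.CTp.left RtB17_8.CEr.right 0x5a5a37a58739e8afd3497ffe78c35fd52d1570bf6a50dacd264af5526b4f89f5af250d1dba0bbde9fbf05b365a55a565a5 = true := by decide +kernel

end Vale.Agent.helper4.Q4
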