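import Vale.Agent.helper4.Q4TreeM
import Vale.Agent.helper4.Q4G.PB17_8

/-!
Checks for pairs of intervals of second moments.
-/

set_option maxRecDepth 100000
set_option linter.unusedVariables false

namespace Vale.Agent.helper4.Q4

theorem cB17_8_3_399 : chunkOkM (LB17_8.ctx true true 277 125 64 9 16 1645 5357 4 32) muQ true true 64 RtB17_8.Cx.right.right.left RtB17_8.CX RtB17_8.Ctp.right.right.right.left.right.left RtB17_8.Ce.right.right.right.right.left.left.right RtB17_8.CTp.right RtB17_8.CEr 0x12824169a7afd367a4468cb358655bca4bf630d1277d54877afd412a1668c966ea6013d1bf630d4124cf2ed5bafd1bbbfd68c2d0cc3cfdc1bf61265a681dfdbf540d36a6 = true := by decide +kernel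

theorem cB17_8_3_400 : chunkOkM (LB17_8.ctx true true 303 507 256 9 16 3255 10659 8 64) muQ true true 64 RtB17_8.Cx.right.right.right.left RtB17_8.CX RtB17_8.Ctp.right.right.right.left.right.left.left.left RtB17_8.Ce.right.right.right.right.left.left.right.left.left RtB17_8.CTp.left RtB17_8.CEr.left 0x398c6c1f50afd21a6fc078c4013bb6bbb3770d78868bf61a8c1332dc4bf550d51f396ffdfafd5b5ae4478c613889fd166bf61c5158ca3b0bf540d4ed34d6b36afd1f12fbd78cbc7e6c07abda54420695bbf61048a4b7bc8bf550d6777321301bafd6d4102678c129d869134abcf630d2f2c77a323afde7922287ab126944ab6d9fcf6a862f2a569af540d675 = true := by decide +kernel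

theorem cB17_8_3_401 : chunkOkM (LB17_8.ctx true true 303 507 256 9 16 3255 10681 8 64) muQ true true 64 RtB17_8.Cx.right.right.right.left RtB17_8.CX RtB17_8.Ctp.right.right.right.left.right.left.left.left RtB17_8.Ce.right.right.right.right.left.left.right.left.right RtB17_8.CTp.left RtB17_8.CEr.left 0x1ada982be5afd82efd58cbb2dca6bb728651bc9f9bf615e5cbe4286bf550d1ffec26cb0afd3ff82a878c150f322c30eecf630d2cb93adfd1afdffbfdff7ab15c4caa43b18cf630d65697 = true := by decide +kernel

theorem cB17_8_3_402 : chunkOkM (LB17_8.ctx true true 294 253 128 9 16 3269 5335 8 64) muQ true true 64 RtB17_8.Cx.right.right.right.left RtB17_8.CX RtB17_8.Ctp.right.right.right.left.right.left.left.right RtB17_8.Ce.right.right.right.right.left.left.right.left RtB17_8.CTp.left RtB17_8.CEr.left 0x46e8ca1b79afd2618e5b78cffded5bb8a93d34d4ccbf68fb30e74f3af550d41138e14ceafd5c53f0c78ccdb462e4f15bf630d3326266ebcafd1228fa67bbefc60f4367cbf67498512027af540d65 = true := by decide +kernel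

theorem cB17_8_3_403 : chunkOkM (LB17_8.ctx true true 286 255 128 9 16 1631 5335 4 64) muQ true true 64 RtB17_8.Cx.right.right.right.right RtB17_8.CX RtB17_8.Ctp.right.right.right.left.right.left.left RtB17_8.Ce.right.right.right.right.left.left.right.left RtB17_8.CTp.left RtB17_8.CEr.left 0x3f88b8d452afd4c1855a78c8532177f40dbf61694368c411bf540d28bca1b353afda8c25768ca945116bb40671d8c142bf6166801385e0bf550d6 = true := by decide +kernel

theorem cB17_8_3_404 : chunkOkM (LB17_8.ctx true true 323 2031 1024 9 16 13041 21395 4 64) muQ true true 64 RtB17_8.Cx.right.right.right.left RtB17_8.CX RtB17_8.Ctp.right.right.right.left.right.left.left.left RtB17_8.Ce.right.right.right.right.left.left.right.right RtB17_8.CTp.left RtB17_8.CEr.left 0x59593d3d647c51afd4ac4c67a87c5d09d628a4cbf61b0a5dce9f8bf540d27848039a0afd1be2b6877ceb73e077ab1d7abe71d4eccf640d669759345975934597 = true := by decide +kernel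

theorem cB17_8_3_405 : chunkOkM (LB17_8.ctx true true 314 1015 512 9 16 6545 10725 8 64) muQ true true 64 RtB17_8.Cx.right.right.right.left RtB17_8.CX RtB17_8.Ctp.right.right.right.left.right.left.left.right RtB17_8.Ce.right.right.right.right.left.left.right.right RtB17_8.CTp.left RtB17_8.CEr.left 0x1954a339d1afd39c82a82916ccf620d736d6086d8afd4d42a8678c80252577ab28db629f762ecf640d56976935972407ae12d9afd103476278c7e90a36bb1819fda7090bcf650ae70790faf550d637c7109d4afd60c3aa478c15e7d1ebc931cf630d30ae5590bcafd1306a268c10df8b108ab162441055c62cf6490a602787af550d6706d112013afd55ce05078c623c7f6bb4f0c5b9fb8aacf640d754 = true := by decide +kernel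

theorem cB17_8_3_406 : chunkOkM (LB17_8.ctx true true 321 1019 512 9 16 13041 21439 8 64) muQ true true 64 RtB17_8.Cx.right.right.right.right RtB17_8.CX RtB17_8.Ctp.right.right.right.left.right.left.left.left RtB17_8.Ce.right.right.right.right.left.left.right.right RtB17_8.CTp.left RtB17_8.CEr.left 0x1c26544feeafd9f075968c389e296bbfe9b8f267ddbf611ce7c8eda4bf550d6e384347ebafd49eb9cc78c73598007abbf4b2a6444af620a0352a875bf550d5594d6d4d4612afd50cf91d787c1c775e6ca44dcf630d376106b62dafde3be1eb77cc2ac6ac7ab43620e1a166bf61d332af21ffbf550d65934597593736e9a796c5afd1c4eb0778c31b09a6bb1e2e38428e4bf540d6f33a89c37afd48522b978c7fb49467ab2c71e41645abf61f18bab1a8bbf550d54 = true := by decide +kernel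

theorem cB17_8_3_407 : chunkOkM (LB17_8.ctx true true 294 255 128 9 16 3269 5357 8 64) muQ true true 64 RtB17_8.Cx.right.right.right.right RtB17_8.CX RtB17_8.Ctp.right.right.right.left.right.left.left.right RtB17_8.Ce.right.right.right.right.left.left.right.right RtB17_8.CTp.left RtB17_8.CEr.left 0x4067a43b1bafd270090078c2dcc4f6bb48752296366bf615ebb822515bf550d4118bf999fafd5e8ed5978c18e9de2defeccf630d389adeacf2afd10e2eee7bb6f794bf1452bf6104e7b558c1bf540d65 = true := by decide +kernel

theorem cB17_8_3_408 : chunkOkM (LB17_8.ctx true true 284 127 64 9 16 1645 5335 8 64) muQ true true 64 RtB17_8.Cx.right.right.right RtB17_8.CX RtB17_8.Ctp.right.right.right.left.right.left.right RtB17_8.Ce.right.right.right.right.left.left.right.left RtB17_8.CTp.left RtB17_8.CEr.left 0x47822010eeafd383104f78cd16d162e84cbf630d3c3f375d96afd5ebbbe178cd6f4fc17e65bf630d4c3baa53ceafd2256e3078ce9bf316bb11e8b26d0fbecf640d65 = true := by decide +kernel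

end Vale.Agent.helper4.Q4
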