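import Vale.Agent.helper4.Q4TreeM
import Vale.Agent.helper4.Q4G.PB17_8

/-!
Checks for pairs of intervals of second moments.
-/

set_option maxRecDepth 100000
set_option linter.unusedVariables false

namespace Vale.Agent.helper4.Q4

theorem cB17_8_3_409 : chunkOkM (LB17_8.ctx true true 304 507 256 9 16 3297 10725 8 64) muQ true true 64 RtB17_8.Cx.right.right.right.left RtB17_8.CX RtB17_8.Ctp.right.right.right.left.right.left.right RtB17_8.Ce.right.right.right.right.left.left.right.right RtB17_8.CTp.left.left RtB17_8.CEr.left 0x7103af32f8afd72871d878c4ca6626bbe5ddbcc0770bf640d358e1e8cadafda3747968c12c4cc37bb176f4590848dcf640d6655e62b0fcafd6672fc878c207ba347ab156568293ac2cf640d47f8db6ad3afd2c9b2a378cb6f261d7ab16a8f20e46e9cf640d6780c127eadafd5473aeb78ca76b626bb2e6229cdd18ccf640d753c3b8335fafd6acdc4478cef90866826cbf630d1cfe35061aafded280968ca9004137ab130e9fc15db9cf640d643 = true := by decide +kernel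

theorem cB17_8_3_410 : chunkOkM (LB17_8.ctx true true 287 253 128 9 16 1645 5357 8 32) muQ true true 64 RtB17_8.Cx.right.right.right.left RtB17_8.CX RtB17_8.Ctp.right.right.right.left.right.left.right RtB17_8.Ce.right.right.right.right.left.left.right.right RtB17_8.CTp.left.right RtB17_8.CEr.left 0x4c85a38755afd2f86dcb78c3be71d6bbe65b5e928d8bf640d = true := by decide +kernel

theorem cB17_8_3_411 : chunkOkM (LB17_8.ctx true true 287 255 128 9 16 1645 5357 8 32) muQ true true 64 RtB17_8.Cx.right.right.right.right RtB17_8.CX RtB17_8.Ctp.right.right.right.left.right.left.right RtB17_8.Ce.right.right.right.right.left.left.right.right RtB17_8.CTp.left RtB17_8.CEr.left 0x14f21263d6af06c742f98b96aafd4dde24778c9a8c206bb182b75a62825cf640d5 = true := by decide +kernel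

theorem cB17_8_3_412 : chunkOkM (LB17_8.ctx true true 270 127 64 9 16 819 2673 4 32) muQ true true 64 RtB17_8.Cx.right.right.right RtB17_8.CX RtB17_8.Ctp.right.right.right.left.right.left RtB17_8.Ce.right.right.right.right.left.left.right RtB17_8.CTp.left RtB17_8.CEr.right 0x6963900f1bafd77948fc78c34f1d8df39fbf6108f280f522bf540d = true := by decide +kernel

theorem cB17_8_3_413 : chunkOkM (LB17_8.ctx true true 270 127 64 9 16 819 2673 4 32) muQ true true 64 RtB17_8.Cx.right.right.right RtB17_8.CX RtB17_8.Ctp.right.right.right.left.right.left RtB17_8.Ce.right.right.right.right.left.left.right RtB17_8.CTp.right RtB17_8.CEr 0x1223a11971afd562dc668c270ab5aeac6bf611e8651ad78bf540d6a6 = true := by decide +kernel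

theorem cB17_8_3_414 : chunkOkM (LB17_8.ctx true true 264 63 32 9 16 833 2651 4 32) muQ true true 64 RtB17_8.Cx.right.right RtB17_8.CX RtB17_8.Ctp.right.right.right.left.right.right RtB17_8.Ce.right.right.right.right.left.left.left RtB17_8.CTp.left RtB17_8.CEr.left 0x73aa9a65ecafd907120978c11bfe74c0660cf1305084106b2dcf040d = true := by decide +kernel

theorem cB17_8_3_415 : chunkOkM (LB17_8.ctx true true 294 251 128 9 16 3311 5357 8 64) muQ true true 64 RtB17_8.Cx.right.right.left RtB17_8.CX RtB17_8.Ctp.right.right.right.left.right.right RtB17_8.Ce.right.right.right.right.left.left.right RtB17_8.CTp.left RtB17_8.CEr.left 0x01509236b74dafd35572b878c97c5436bbe5732eb6be5bf61a3714e98a5bf250d5632f04cc6afd6ed85e178c3ccef36bb8e9fa087772bf6103d4ca4a3dbf250d28c6849b53afd194e89f7bb994fc4e72e5bf6122b8e9b7c2bf240d65217255db16a46afdeafaa168cb5dbaf6bb17eba16d748bf6215a9712614bf250d1161852ac81bafd6fb021878c8286406bb35e7d3eb9c1bf61ccb5ceded9bf250d36bdb8d0ddafd1ef36b57bbc1ec278068abf61853513f538bf240d637e3428d08dafd657889d78c10146657bb786ce390de9bf62e792a80187bf250d7543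 = true := by decide +kernel

theorem cB17_8_3_416 : chunkOkM (LB17_8.ctx true true 275 127 64 9 16 833 2673 8 32) muQ true true 64 RtB17_8.Cx.right.right.right RtB17_8.CX RtB17_8.Ctp.right.right.right.left.right.right RtB17_8.Ce.right.right.right.right.left.left.right RtB17_8.CTp.left RtB17_8.CEr.left 0x3c9a6a173bafd2cf413c78c6dc7616bb1c80bc201d97cf640d7d9e0f9b1cafd5bb0a6578cccaded6bbe4b8bc8031dbf640d5 = true := by decide +kernel

theorem cB17_8_3_417 : chunkOkM (LB17_8.ctx true true 261 63 32 9 16 833 1331 4 32) muQ true true 64 RtB17_8.Cx.right.right RtB17_8.CX RtB17_8.Ctp.right.right.right.left.right.right RtB17_8.Ce.right.right.right.right.left.left RtB17_8.CTp.left RtB17_8.CEr.right 0x3e0e65448eafd6bc023b78ca27eed9a3faf61e526da0bb8bf240d = true := by decide +kernel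

theorem cB17_8_3_418 : chunkOkM (LB17_8.ctx true true 261 63 32 9 16 833 1331 4 32) muQ true true 64 RtB17_8.Cx.right.right RtB17_8.CX RtB17_8.Ctp.right.right.right.left.right.right RtB17_8.Ce.right.right.right.right.left.left RtB17_8.CTp.right RtB17_8.CEr 0x13009a8d30afd3d6ebf68c385a2f9b60af61c7326635e5bf240d6a6 = true := by decide +kernel

theorem cB17_8_3_419 : chunkOkM (LB17_8.ctx true true 113 1 1 1 1 1 1 1 1) muQ true true 64 RtB17_8.Cx.right.left RtB17_8.CX RtB17_8.Ctp.right.right.right.left.right RtB17_8.Ce.right.right.right.right.left.right RtB17_8.CTp RtB17_8.CEr 0x21 = true := by decide +kernel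

theorem cB17_8_3_420 : chunkOkM (LB17_8.ctx true true 113 1 1 1 1 1 1 1 1) muQ true true 64 RtB17_8.Cx.right.right.left RtB17_8.CX RtB17_8.Ctp.right.right.right.left.right.left RtB17_8.Ce.right.right.right.right.left.right RtB17_8.CTp RtB17_8.CEr 0x69 = true := by decide +kernel

theorem cB17_8_3_421 : chunkOkM (LB17_8.ctx true true 113 1 1 1 1 1 1 1 1) muQ true true 64 RtB17_8.Cx.right.right.right.left RtB17_8.CX RtB17_8.Ctp.right.right.right.left.right.left.left RtB17_8.Ce.right.right.right.right.left.right.left RtB17_8.CTp RtB17_8.CEr 0x69 = true := by decide +kernel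

theorem cB17_8_3_422 : chunkOkM (LB17_8.ctx true true 287 255 128 9 16 3255 5379 4 32) muQ true true 64 RtB17_8.Cx.right.right.right.right RtB17_8.CX RtB17_8.Ctp.right.right.right.left.right.left.left.left RtB17_8.Ce.right.right.right.right.left.right.left.left RtB17_8.CTp.left RtB17_8.CEr.left 0x625581269fafd42520e378c2344716bb26b4b88c467bf540d = true := by decide +kernel

theorem cB17_8_3_423 : chunkOkM (LB17_8.ctx true true 303 511 256 9 16 3269 10747 8 64) muQ true true 64 RtB17_8.Cx.right.right.right.right RtB17_8.CX RtB17_8.Ctp.right.right.right.left.right.left.left.right RtB17_8.Ce.right.right.right.right.left.right.left.left.left RtB17_8.CTp.left RtB17_8.CEr.left 0x4079d72f13afd29cfd7478c23c2f86bb6874f6456babf618aa760d409bf550d7e40cf3ca6afd6e5cad778c62380d3bef8bf61bfcb731c21bf540d4ff7809996afd28fc47378cb3d7d5b7ab7a84d6ec0c4bf61fb4a89df2cbf550d68847a0f745afd6fa971378c1107230236c2cf630d319bb4f886afd1225e84f8ab9faa6668c37bf6162b97d820bbf540d675 = true := by decide +kernel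

theorem cB17_8_3_424 : chunkOkM (LB17_8.ctx true true 304 511 256 9 16 3269 10769 8 64) muQ true true 64 RtB17_8.Cx.right.right.right.right RtB17_8.CX RtB17_8.Ctp.right.right.right.left.right.left.left.right RtB17_8.Ce.right.right.right.right.left.right.left.left.right RtB17_8.CTp.left RtB17_8.CEr.left 0x540cb52199afd39c7e6e78c3aa567d79f5bf61d043b7edeabf540d228c41e273afd38c3dcc78c1e8d70428c40cf630d3d2b888c5dafd127fb70a8ab7e7d4a3728dbf6177f3efc387bf540d65697 = true := by decide +kernel

theorem cB17_8_3_425 : chunkOkM (LB17_8.ctx true true 283 255 128 9 16 1631 5379 4 32) muQ true true 64 RtB17_8.Cx.right.right.right.right RtB17_8.CX RtB17_8.Ctp.right.right.right.left.right.left.left RtB17_8.Ce.right.right.right.right.left.right.left.left RtB17_8.CTp.left RtB17_8.CEr.right 0x47b410c1f1afd5991a8a78c2f3d4a495adbf615c6df51204bf540d = true := by decide +kernel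

theorem cB17_8_3_426 : chunkOkM (LB17_8.ctx true true 329 2047 1024 9 16 26201 43131 4 64) muQ true true 64 RtB17_8.Cx.right.right.right.right RtB17_8.CX RtB17_8.Ctp.right.right.right.left.right.left.left RtB17_8.Ce.right.right.right.right.left.right.left.right RtB17_8.CTp.left RtB17_8.CEr 0x59595987529aad2cafd614b01578c10ca89d12e10cf6ed35ac1038af540d4368e90042afd44f2788087c38af4c47ab977d5772b02bf61357040845dbf550d4dfcdd9a83afd2789646287c80332017ab71536d9cc5fbf61a1331a94febf550d66593459759345975934597593 = true := by decide +kernel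

theorem cB17_8_3_427 : chunkOkM (LB17_8.ctx true true 280 255 128 9 16 1631 2695 4 32) muQ true true 64 RtB17_8.Cx.right.right.right.right RtB17_8.CX RtB17_8.Ctp.right.right.right.left.right.left.left RtB17_8.Ce.right.right.right.right.left.right.left RtB17_8.CTp.right RtB17_8.CEr 0x159455160aafd94de6b68cb97329e470af61c148b1509dbf540d6a6 = true := by decide +kernel

end Vale.Agent.helper4.Q4
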