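import Vale.Agent.helper4.Q4TreeM
import Vale.Agent.helper4.Q4G.PB17_8

/-!
Checks for pairs of intervals of second moments.
-/

set_option maxRecDepth 100000
set_option linter.unusedVariables false

namespace Vale.Agent.helper4.Q4

theorem cB17_8_3_428 : chunkOkM (LB17_8.ctx true true 304 507 256 9 16 3297 10769 8 64) muQ true true 64 RtB17_8.Cx.right.right.right.left RtB17_8.CX RtB17_8.Ctp.right.right.right.left.right.left.right RtB17_8.Ce.right.right.right.right.left.right.left.left RtB17_8.CTp.left RtB17_8.CEr.left 0x3955a7799aafd24f36cb78c62b4c46bbf834d3af93dbf640d7683aeb76fafd53ffa6078cb5e4df87ab2007aaa0ec71cf640d697612bb68630afd5ecf4c078cf1e33f6bb2c241965a766cf640d69cde53b4eafd2f14acf78c12789b798ab21e5b4a963fecf640d645694639016be6afd3838dbf78c2645040a755ccf630d1bcdd8b650afd4d05d0d78c10496c0f03e7cf630d758cac52fcafd367eae378ca8b0c807ab209b7de81e39cf640d6546973 = true := by decide +kernel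

theorem cB17_8_3_429 : chunkOkM (LB17_8.ctx true true 304 511 256 9 16 3283 10769 8 64) muQ true true 64 RtB17_8.Cx.right.right.right.right RtB17_8.CX RtB17_8.Ctp.right.right.right.left.right.left.right.left RtB17_8.Ce.right.right.right.right.left.right.left.left RtB17_8.CTp.left.left RtB17_8.CEr.left 0x4b884899ebafd5ab259978c1b4ba01b108ecf630d3db6579ca2afd119caa348ab1330fb997229cf630d63e2946678c1ac1b958fe5ccf620d5f3a3be634afd206848978c9d013457abeddd273d40bbf640d674de814567fafd5e5723878c14febe6d1a13cf630d22ed70889eafdeb357e68c7400776bb1ac2c4bf768ecf640d64 = true := by decide +kernel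

theorem cB17_8_3_430 : chunkOkM (LB17_8.ctx true true 295 255 128 9 16 3297 5379 8 64) muQ true true 64 RtB17_8.Cx.right.right.right.right RtB17_8.CX RtB17_8.Ctp.right.right.right.left.right.left.right.right RtB17_8.Ce.right.right.right.right.left.right.left.left RtB17_8.CTp.left.left RtB17_8.CEr.left 0x533667d25dafd5dd9e0078c4824956bb14465829cc50cf640d696502b869afd313be5f78cd7baeb6bb19b1df4f6716cf640d6 = true := by decide +kernel

theorem cB17_8_3_431 : chunkOkM (LB17_8.ctx true true 287 255 128 9 16 1645 5379 8 32) muQ true true 64 RtB17_8.Cx.right.right.right.right RtB17_8.CX RtB17_8.Ctp.right.right.right.left.right.left.right RtB17_8.Ce.right.right.right.right.left.right.left.left RtB17_8.CTp.left.right RtB17_8.CEr.left 0x4eb7702bddafd31ccd0278c2e51db6bb9266c345ac7bf6d5bf439bf9af550d = true := by decide +kernel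

theorem cB17_8_3_432 : chunkOkM (LB17_8.ctx true true 286 253 128 9 16 1645 5401 4 32) muQ true true 64 RtB17_8.Cx.right.right.right.left RtB17_8.CX RtB17_8.Ctp.right.right.right.left.right.left.right RtB17_8.Ce.right.right.right.right.left.right.left.right RtB17_8.CTp.left RtB17_8.CEr.left 0x6d99504aa4afd53154ed78c79d83f6bb11317021517a4df640d = true := by decide +kernel

theorem cB17_8_3_433 : chunkOkM (LB17_8.ctx true true 318 1023 512 9 16 6573 21615 8 64) muQ true true 64 RtB17_8.Cx.right.right.right.right RtB17_8.CX RtB17_8.Ctp.right.right.right.left.right.left.right.left RtB17_8.Ce.right.right.right.right.left.right.left.right RtB17_8.CTp.left RtB17_8.CEr.left 0x691ee24c3b23afd7ce3fce77c75246355aca1cf630d5e5d8144f8afd468ab13c87c6e34ec27ab20fccd92bacdcf640d5469769359739bf77a1c6afd239e4da78c24374eee162acf630d42453d478c21c96e1edf49cf620d302f41f91bafd237e6d68c10cd34148ab13511857323bcf6a5fd8e518eaf550d6568d6c1c2f3afd4a2cee078c58380a6bb5dcdf6174183cf640d59374 = true := by decide +kernel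

theorem cB17_8_3_434 : chunkOkM (LB17_8.ctx true true 304 511 256 9 16 3297 10813 8 64) muQ true true 64 RtB17_8.Cx.right.right.right.right RtB17_8.CX RtB17_8.Ctp.right.right.right.left.right.left.right.right RtB17_8.Ce.right.right.right.right.left.right.left.right RtB17_8.CTp.left RtB17_8.CEr.left 0x3a09e1e47fafd23ffa0078c43a3fb6bb119e2d71d1eecf640d5dc09ead0bafd5ce19fe78c28199dc7ab16822ddb316bcf640d8c0a69ead2afd47cb4f378cc3240c87ab1acd6b0ed074cf640d670d2d2694bafd58b0ebf78c6d68a36bb2aa9060693d0cf640d74de0050bc6afd649785678ceaaf279e9cbbf630d290e720b31afd134abaa78ab17b3f3919605cf630d645 = true := by decide +kernel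

theorem cB17_8_3_435 : chunkOkM (LB17_8.ctx true true 274 127 64 9 16 1645 2695 4 32) muQ true true 64 RtB17_8.Cx.right.right.right RtB17_8.CX RtB17_8.Ctp.right.right.right.left.right.left.right RtB17_8.Ce.right.right.right.right.left.right.left RtB17_8.CTp.left RtB17_8.CEr.right 0x60d43bace8afd7084ed078c416175a1752bf6e176c3cc8eaf540d = true := by decide +kernel

theorem cB17_8_3_436 : chunkOkM (LB17_8.ctx true true 274 127 64 9 16 1645 2695 4 32) muQ true true 64 RtB17_8.Cx.right.right.right RtB17_8.CX RtB17_8.Ctp.right.right.right.left.right.left.right RtB17_8.Ce.right.right.right.right.left.right.left RtB17_8.CTp.right RtB17_8.CEr 0x115a9e40b7afd2c51cd68c3b88ed51668bf6dc2c5a9296af540d6a6 = true := by decide +kernel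

theorem cB17_8_3_437 : chunkOkM (LB17_8.ctx true true 301 511 256 9 16 3297 10835 8 32) muQ true true 64 RtB17_8.Cx.right.right.right RtB17_8.CX RtB17_8.Ctp.right.right.right.left.right.left RtB17_8.Ce.right.right.right.right.left.right.right RtB17_8.CTp RtB17_8.CEr 0x5969fe91bcc289fda7279c05b9f824e6b3963a20cf630d103ec966bbafd5a8ed7e78c1301a161b65fcf630d242d794af1afd13a8e2b78c80c7666bb234f6506a4ebcf640d6e0da0a71fafd4a7896478c9ccc3bd7ab262577fb0d24cf640d56546975934597593 = true := by decide +kernel

theorem cB17_8_3_438 : chunkOkM (LB17_8.ctx true true 306 1007 512 9 16 1659 10747 8 64) muQ true true 64 RtB17_8.Cx.right.right.left RtB17_8.CX RtB17_8.Ctp.right.right.right.left.right.right RtB17_8.Ce.right.right.right.right.left.right.left RtB17_8.CTp.left RtB17_8.CEr 0x2121016663fedba8afd7bd70d478cc249452ecd4bf61ee36a22500bf240d342dee6c40afd26eb94d78c85182fa7ab1115cda66b8ccf6127fcb11196bf250d3b61693b83afd748a26a78c152b2bbb8a4ecf630d73ff06160bafd3ac5f7378c13fa4d4b8ab19459a7ab611cf640d656321742174217 = true := by decide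 +kernel

end Vale.Agent.helper4.Q4
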