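import Vale.Agent.helper4.Q4TreeM
import Vale.Agent.helper4.Q4G.PB17_8

/-!
Checks for pairs of intervals of second moments.
-/

set_option maxRecDepth 100000
set_option linter.unusedVariables false

namespace Vale.Agent.helper4.Q4

theorem cB17_8_3_439 : chunkOkM (LB17_8.ctx true true 290 255 128 9 16 1659 5379 8 64) muQ true true 64 RtB17_8.Cx.right.right.right RtB17_8.CX RtB17_8.Ctp.right.right.right.left.right.right.left RtB17_8.Ce.right.right.right.right.left.right.left.left RtB17_8.CTp.left RtB17_8.CEr.left 0x4f8a009fcbafd362b96278c4d81376bbc8f0a510d6fbf640d1f83f04c28158ffa33afd692d69978cd96551e6fa9bf6759157afbaaf240d3d2a3d056eafdf68d6968c173376c7bbddf306a5d76bf61973534ea8af250d675 = true := by decide +kernel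

theorem cB17_8_3_440 : chunkOkM (LB17_8.ctx true true 304 507 256 9 16 3325 10813 8 64) muQ true true 64 RtB17_8.Cx.right.right.right.left RtB17_8.CX RtB17_8.Ctp.right.right.right.left.right.right.left RtB17_8.Ce.right.right.right.right.left.right.left.right RtB17_8.CTp.left RtB17_8.CEr.left 0x4e68bdaeb8afd348fa1978c6561036bbdc77977379abf63f32dcc6bcaf250d49050d67ccafd4e5919178cf0e17e6bb152651d34b38cf67975444982af250d6286369273afd2b3a4c278c154e39438ab13180e1d0f8fcf6c2e080a7cdaf250d6771bbaf848afd59a85db78cd953096bb344e9f2885a3cf640d217422515bf66afd6cfc08f78c1a63a06a7ff5cf630d945bdb7d80afd503bd6578c10db73448ab201c305a2864cf640d6725fd0e21bafd5bb0a5578cc4f89e6bb2fbecc19d219cf640d7435 = true := by decide +kernel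

theorem cB17_8_3_441 : chunkOkM (LB17_8.ctx true true 290 255 128 9 16 1659 5401 8 64) muQ true true 64 RtB17_8.Cx.right.right.right.right RtB17_8.CX RtB17_8.Ctp.right.right.right.left.right.right.left RtB17_8.Ce.right.right.right.right.left.right.left.right RtB17_8.CTp.left RtB17_8.CEr.left 0x2af21ac9a4afd13ecd9978c69754c6bba880606bf22bf640d63e09383faafd616c11178cc6ef636bb149c84c97ae1cf640d4346e3dd66afd263543478ccf3c706bb1028ba404124cf640d65 = true := by decide +kernel

theorem cB17_8_3_442 : chunkOkM (LB17_8.ctx true true 274 127 64 9 16 1673 2695 4 32) muQ true true 64 RtB17_8.Cx.right.right.right RtB17_8.CX RtB17_8.Ctp.right.right.right.left.right.right.right RtB17_8.Ce.right.right.right.right.left.right.left RtB17_8.CTp.left RtB17_8.CEr.left 0x713019d159afd8768da678c7914a8c28dcbf1154d77f61508cf040d = true := by decide +kernel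

theorem cB17_8_3_443 : chunkOkM (LB17_8.ctx true true 274 127 64 9 16 833 2695 8 32) muQ true true 64 RtB17_8.Cx.right.right.right RtB17_8.CX RtB17_8.Ctp.right.right.right.left.right.right RtB17_8.Ce.right.right.right.right.left.right.left RtB17_8.CTp.left RtB17_8.CEr.right 0x4cd4843041afd53a164478c675711d7e41bf61fb337f293af240d5a5 = true := by decide +kernel

theorem cB17_8_3_444 : chunkOkM (LB17_8.ctx true true 277 127 64 9 16 1673 5401 4 32) muQ true true 64 RtB17_8.Cx.right.right RtB17_8.CX RtB17_8.Ctp.right.right.right.left.right.right RtB17_8.Ce.right.right.right.right.left.right.left RtB17_8.CTp.right RtB17_8.CEr 0x1ffdb725fbafd2a8e8e378c78bcabcd2cabf1167cb5b30cebcf040d1068a54b91afd326d9f68ca49e477da0ebf630d1428293348afdbb06e09b8f8b4c6fbd814abf630d43119be61e32afd9e1396118f868901a1a53cbf61948e91eaccbf240d76a6 = true := by decide +kernel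

theorem cB17_8_3_445 : chunkOkM (LB17_8.ctx true true 113 1 1 1 1 1 1 1 1) muQ true true 64 RtB17_8.Cx.right.right.left RtB17_8.CX RtB17_8.Ctp.right.right.right.left.right.right RtB17_8.Ce.right.right.right.right.left.right.right RtB17_8.CTp RtB17_8.CEr 0x21 = true := by decide +kernel

theorem cB17_8_3_446 : chunkOkM (LB17_8.ctx true true 307 1015 512 9 16 3325 10835 8 32) muQ true true 64 RtB17_8.Cx.right.right.right.left RtB17_8.CX RtB17_8.Ctp.right.right.right.left.right.right.left RtB17_8.Ce.right.right.right.right.left.right.right.left RtB17_8.CTp.left RtB17_8.CEr.left 0x212a6174f6e8afd1fe2c40887cd0d86027ab2b624fb3ecb2cf646ca93fad2af250d7672e0e903afd583855078ce5fce6c7ab2069f5cf2d65cf6828daef74daf250d52174217693 = true := by decide +kernel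

theorem cB17_8_3_447 : chunkOkM (LB17_8.ctx true true 304 511 256 9 16 3325 10857 8 64) muQ true true 64 RtB17_8.Cx.right.right.right.right RtB17_8.CX RtB17_8.Ctp.right.right.right.left.right.right.left RtB17_8.Ce.right.right.right.right.left.right.right.left RtB17_8.CTp.left RtB17_8.CEr.left 0x36edfaa8f2afd2646b0078c71a4fa6bbe9f684ba41bbf640d4677934e02afd6f9a1a378cc454c4b4ccdbf630d2b049d2021afd1845b397bbf12cda8979fbf630d6530a91287a1afd1e0d7ff78c87025e6bb1ad017569a21cf640d6fd1330dbcafd4ecbd6778cb4b09da7ab1e67f72af163cf640d69770030eeb3eafd4f0f23478cb81ef577ab219413159fcccf640d711c974fa5afd5229d9078cc8418307ab32ef92ca9bc1cf640d7453 = true := by decide +kernel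

theorem cB17_8_3_448 : chunkOkM (LB17_8.ctx true true 303 511 256 9 16 3325 10901 8 32) muQ true true 64 RtB17_8.Cx.right.right.right RtB17_8.CX RtB17_8.Ctp.right.right.right.left.right.right.left RtB17_8.Ce.right.right.right.right.left.right.right.right RtB17_8.CTp.left RtB17_8.CEr.left 0x459b4a70c2afd328558378c568b8d6bb1414c5189150cf640d75f4335e3aafd577a9c178cd61cdf6bb3e1f84568bebcf640d70b0b8210cafd51f0db978cd3e22687ab20461f469e52cf640d4546918eb261afd3b4551578cd2381d6bbc98d381e29c6cf640d3697217 = true := by decide +kernel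

theorem cB17_8_3_449 : chunkOkM (LB17_8.ctx true true 295 255 128 9 16 3339 5445 8 64) muQ true true 64 RtB17_8.Cx.right.right.right RtB17_8.CX RtB17_8.Ctp.right.right.right.left.right.right.right RtB17_8.Ce.right.right.right.right.left.right.right RtB17_8.CTp.left RtB17_8.CEr.left 0x0130ef065c7eafd1b3e9b178cc6e04f6bb104aa6259d4fcf672e4c757ddaf250d42aafdc39bafd4879eb778cf1e97a6bb14c0db82cfb9cf6744a54a6eeaf250d3c4c0edc2fafdb6e82268c171518da8ab36d15c84c8bbf61b957dd25fbbf250d652342d0acc3afd11ea7bd78ca348c06bb155a2cd7af33cf61d39b1b2308bf250d6f5a6adc65afd59f57da78cc995c96bb426aa0aa21abf6218c1e9add7bf250d543017 = true := by decide +kernel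

theorem cB17_8_3_450 : chunkOkM (LB17_8.ctx true true 285 127 64 9 16 833 2717 32 64) muQ true true 64 RtB17_8.Cx.right.right.right RtB17_8.CX RtB17_8.Ctp.right.right.right.left.right.right RtB17_8.Ce.right.right.right.right.left.right.right RtB17_8.CTp.left RtB17_8.CEr.right 0x5a28cfa87b4aafd24e4bf778c2dbcefc863fbf6d2a1389da2af587cf48e7ffaf250d5a55a565a5 = true := by decide +kernel

end Vale.Agent.helper4.Q4
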