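import Vale.Agent.helper4.Q4TreeM
import Vale.Agent.helper4.Q4G.PB17_8

/-!
Checks for pairs of intervals of second moments.
-/

set_option maxRecDepth 100000
set_option linter.unusedVariables false

namespace Vale.Agent.helper4.Q4

theorem cB17_8_3_451 : chunkOkM (LB17_8.ctx true true 277 127 64 9 16 1673 5445 4 32) muQ true true 64 RtB17_8.Cx.right.right.right RtB17_8.CX RtB17_8.Ctp.right.right.right.left.right.right RtB17_8.Ce.right.right.right.right.left.right.right RtB17_8.CTp.right RtB17_8.CEr 0xf054a0c659fd321e6c68c2aab8de4607bf61889db4ca77bf240d11ecb11fdfafd31d3cb68ca51874a95f4bf630d11748ce82dafd46948068c99e895f38dbbf66926605de9f240d436a6 = true := by decide +kernel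

theorem cB17_8_3_452 : chunkOkM (LB17_8.ctx true true 311 1023 512 9 16 6685 21835 4 32) muQ true true 64 RtB17_8.Cx.right RtB17_8.CX RtB17_8.Ctp.right.right.right.left RtB17_8.Ce.right.right.right.right.right RtB17_8.CTp RtB17_8.CEr 0x2121212121011080975f2fafd6cb6c50ee9f851be8bdf58b9cf630d51f854e91cafd690bbc778cc4cdf31784bbf630d646c787597afd513cf0b987cb262d4d7ab43ae97beaed2cf6e77b7bbeeeaf250d65693342174217401769342175932174593 = true := by decide +kernel

theorem cB17_8_3_453 : chunkOkM (LB17_8.ctx true true 113 1 1 1 1 1 1 1 1) muQ true true 64 RtB17_8.Cx RtB17_8.CX RtB17_8.Ctp.right.right.right.right RtB17_8.Ce.right.right.right RtB17_8.CTp RtB17_8.CEr 0x01 = true := by decide +kernel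

theorem cB17_8_2_0 : chunkOkM (LB17_8.ctx false true 113 1 1 1 1 1 1 1 1) muQ false true 64 RtB17_8.Cx RtB17_8.CX RtB17_8.Ctn RtB17_8.Ce RtB17_8.CTp RtB17_8.CEr 0x49 = true := by decide +kernel

theorem cB17_8_1_0 : chunkOkM (LB17_8.ctx true false 113 1 1 1 1 1 1 1 1) muQ true false 64 RtB17_8.Cx RtB17_8.CX RtB17_8.Ctp.left RtB17_8.Ce RtB17_8.CTn RtB17_8.CEr 0x41 = true := by decide +kernel

theorem cB17_8_1_1 : chunkOkM (LB17_8.ctx true false 113 1 1 1 1 1 1 1 1) muQ true false 64 RtB17_8.Cx RtB17_8.CX RtB17_8.Ctp.right RtB17_8.Ce.left RtB17_8.CTn RtB17_8.CEr 0x69 = true := by decide +kernel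

theorem cB17_8_1_2 : chunkOkM (LB17_8.ctx true false 370 113 64 513 1024 665 77 16384 65536) muQ true false 64 RtB17_8.Cx RtB17_8.CX.left.left.left.left.left.left RtB17_8.Ctp.right.left RtB17_8.Ce.right RtB17_8.CTn.left.left.left.left.left.left.left.left.left.left.left.left RtB17_8.CEr.left.left.left.left.left.left.left.left.left.left.left.left 0x494949904d618df7af6327285598d9bf520d04777493493493413 = true := by decide +kernel

theorem cB17_8_1_3 : chunkOkM (LB17_8.ctx true false 113 1 1 1 1 1 1 1 1) muQ true false 64 RtB17_8.Cx RtB17_8.CX.left.left.left.left.left.left RtB17_8.Ctp.right.right RtB17_8.Ce.right.left RtB17_8.CTn.left.left.left.left.left.left.left.left.left.left.left.left RtB17_8.CEr.left.left.left.left.left.left.left.left.left.left.left.left 0x69 = true := by decide +kernel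

theorem cB17_8_1_4 : chunkOkM (LB17_8.ctx true false 357 15 8 513 1024 357 561 16384 65536) muQ true false 64 RtB17_8.Cx RtB17_8.CX.left.left.left.left.left.left RtB17_8.Ctp.right.right.left RtB17_8.Ce.right.right.left.left RtB17_8.CTn.left.left.left.left.left.left.left.left.left.left.left.left RtB17_8.CEr.left.left.left.left.left.left.left.left.left.left.left.left 0x01ed414db1cabf05bd5e3e6ba39f634212ae59b2bf5d1f7bc97a6af430d362c037a2a86fcf89424c8aec2af623a9bc14a50bf530d43 = true := by decide +kernel

theorem cB17_8_1_5 : chunkOkM (LB17_8.ctx true false 357 15 8 513 1024 357 605 16384 65536) muQ true false 64 RtB17_8.Cx RtB17_8.CX.left.left.left.left.left.left RtB17_8.Ctp.right.right.left.left RtB17_8.Ce.right.right.left.right RtB17_8.CTn.left.left.left.left.left.left.left.left.left.left.left.left RtB17_8.CEr.left.left.left.left.left.left.left.left.left.left.left.left 0xd70e1b50c1af649d6f8e7be8bf52050a0f52a4bf430d2c24b0a43f9bf05b7769df1d037bf6a8a72f87a34bf5790433240b2bf430d34 = true := by decide +kernel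

theorem cB17_8_1_6 : chunkOkM (LB17_8.ctx true false 376 57 32 513 1024 777 1177 16384 65536) muQ true false 64 RtB17_8.Cx RtB17_8.CX.left.left.left.left.left.left RtB17_8.Ctp.right.right.left.right RtB17_8.Ce.right.right.left.right.left RtB17_8.CTn.left.left.left.left.left.left.left.left.left.left.left.left RtB17_8.CEr.left.left.left.left.left.left.left.left.left.left.left.left 0x069042b1277e24a9cf82bd755c81c5bf6c877196652af530d37048862166252af61bbb4b4af8dbf520d37 = true := by decide +kernel

theorem cB17_8_1_7 : chunkOkM (LB17_8.ctx true false 363 29 16 513 1024 371 605 16384 65536) muQ true false 64 RtB17_8.Cx.left RtB17_8.CX.left.left.left.left.left.left RtB17_8.Ctp.right.right.left.right.left RtB17_8.Ce.right.right.left.right.right RtB17_8.CTn.left.left.left.left.left.left.left.left.left.left.left.left RtB17_8.CEr.left.left.left.left.left.left.left.left.left.left.left.left 0x27d760acbedbf05b = true := by decide +kernel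

theorem cB17_8_1_8 : chunkOkM (LB17_8.ctx true false 386 115 64 513 1024 777 2409 16384 65536) muQ true false 64 RtB17_8.Cx.left RtB17_8.CX.left.left.left.left.left.left RtB17_8.Ctp.right.right.left.right.right RtB17_8.Ce.right.right.left.right.right.left RtB17_8.CTn.left.left.left.left.left.left.left.left.left.left.left.left RtB17_8.CEr.left.left.left.left.left.left.left.left.left.left.left.left 0x14496f42bbfbf05b4bbbcf9e4e4bf06b5b4f9e98dc8bf06b74fda8651366bf06b42b3626555c0bf615f977cef7fbf520d164357b3024bf05b71899cfe80ebf06b7437 = true := by decide +kernel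

end Vale.Agent.helper4.Q4
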