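import Vale.Agent.helper4.Q4TreeM
import Vale.Agent.helper4.Q4G.PB17_8

/-!
Checks for pairs of intervals of second moments.
-/

set_option maxRecDepth 100000
set_option linter.unusedVariables false

namespace Vale.Agent.helper4.Q4

theorem cB17_8_1_9 : chunkOkM (LB17_8.ctx true false 390 115 64 513 1024 1561 2453 16384 65536) muQ true false 64 RtB17_8.Cx.left RtB17_8.CX.left.left.left.left.left.left RtB17_8.Ctp.right.right.left.right.right RtB17_8.Ce.right.right.left.right.right.right RtB17_8.CTn.left.left.left.left.left.left.left.left.left.left.left.left RtB17_8.CEr.left.left.left.left.left.left.left.left.left.left.left.left 0x397b4db25238c29544bf6fac5ed0b52af530d1eb5529dedcbf05b371780193fffbf06b21753372d8c651bf06b6c43aec7949bf06b35769b399237bf06b7422663dfa3c6bf05b37 = true := by decide +kernel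

theorem cB17_8_1_10 : chunkOkM (LB17_8.ctx true false 364 31 16 513 1024 385 605 16384 65536) muQ true false 64 RtB17_8.Cx.right RtB17_8.CX.left.left.left.left.left.left RtB17_8.Ctp.right.right.left.right RtB17_8.Ce.right.right.left.right.right RtB17_8.CTn.left.left.left.left.left.left.left.left.left.left.left.left RtB17_8.CEr.left.left.left.left.left.left.left.left.left.left.left.left 0x137961a9fdfbf05b27bd45df29fbf05b3 = true := by decide +kernel

theorem cB17_8_1_11 : chunkOkM (LB17_8.ctx true false 390 115 64 513 1024 1589 2453 16384 65536) muQ true false 64 RtB17_8.Cx RtB17_8.CX.left.left.left.left.left.left RtB17_8.Ctp.right.right.right RtB17_8.Ce.right.right.left RtB17_8.CTn.left.left.left.left.left.left.left.left.left.left.left.left RtB17_8.CEr.left.left.left.left.left.left.left.left.left.left.left.left 0x0111112ae17282ca3bf06b01197a5c688f2bf02b66e586f77dfbf06b341da2f9060bbf06b42b3125e40f5bf02b7371599e0133a3bf02b4731141143 = true := by decide +kernel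

theorem cB17_8_1_12 : chunkOkM (LB17_8.ctx true false 113 1 1 1 1 1 1 1 1) muQ true false 64 RtB17_8.Cx RtB17_8.CX.left.left.left.left.left.left RtB17_8.Ctp.right.right.left.left RtB17_8.Ce.right.right.right RtB17_8.CTn.left.left.left.left.left.left.left.left.left.left.left.left RtB17_8.CEr.left.left.left.left.left.left.left.left.left.left.left.left 0x59 = true := by decide +kernel

theorem cB17_8_1_13 : chunkOkM (LB17_8.ctx true false 386 119 64 513 1024 777 2497 16384 65536) muQ true false 64 RtB17_8.Cx RtB17_8.CX.left.left.left.left.left.left RtB17_8.Ctp.right.right.left.right RtB17_8.Ce.right.right.right.left.left RtB17_8.CTn.left.left.left.left.left.left.left.left.left.left.left.left RtB17_8.CEr.left.left.left.left.left.left.left.left.left.left.left.left 0x1d2d97734194cf81254b53362cbf625095b4e57ebf530d6cadced1efaf634f181f4fa5bf51218070e38fbf430d32a5b27ed2d9bf05b1f9d10f0667bf05b19a190f929cbf05b530a471853ebf6115549ab7b8bf520d74263ce4eaf1fbf05b345975937 = true := by decide +kernel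

theorem cB17_8_1_14 : chunkOkM (LB17_8.ctx true false 358 15 8 513 1024 385 649 16384 65536) muQ true false 64 RtB17_8.Cx RtB17_8.CX.left.left.left.left.left.left RtB17_8.Ctp.right.right.left.right RtB17_8.Ce.right.right.right.left.right RtB17_8.CTn.left.left.left.left.left.left.left.left.left.left.left.left RtB17_8.CEr.left.left.left.left.left.left.left.left.left.left.left.left 0xa8f24dbc001b1552faf62d634f33620bf530d593 = true := by decide +kernel

theorem cB17_8_1_15 : chunkOkM (LB17_8.ctx true false 113 1 1 1 1 1 1 1 1) muQ true false 64 RtB17_8.Cx RtB17_8.CX.left.left.left.left.left.left RtB17_8.Ctp.right.right.left.right RtB17_8.Ce.right.right.right.right RtB17_8.CTn.left.left.left.left.left.left.left.left.left.left.left.left RtB17_8.CEr.left.left.left.left.left.left.left.left.left.left.left.left 0x59 = true := by decide +kernel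

theorem cB17_8_1_16 : chunkOkM (LB17_8.ctx true false 395 231 128 513 1024 791 4939 16384 65536) muQ true false 64 RtB17_8.Cx.left.left RtB17_8.CX.left.left.left.left.left.left RtB17_8.Ctp.right.right.right.left.left RtB17_8.Ce.right.right.right.left.left.left RtB17_8.CTn.left.left.left.left.left.left.left.left.left.left.left.left RtB17_8.CEr.left.left.left.left.left.left.left.left.left.left.left.left 0x2121015a42b532257bf06b342174217 = true := by decide +kernel

end Vale.Agent.helper4.Q4
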