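import Vale.Agent.helper4.Q4TreeM
import Vale.Agent.helper4.Q4G.PB17_8

/-!
Checks for pairs of intervals of second moments.
-/

set_option maxRecDepth 100000
set_option linter.unusedVariables false

namespace Vale.Agent.helper4.Q4

theorem cB17_8_1_17 : chunkOkM (LB17_8.ctx true false 390 119 64 513 1024 1589 2497 16384 65536) muQ true false 64 RtB17_8.Cx.left.right RtB17_8.CX.left.left.left.left.left.left RtB17_8.Ctp.right.right.right.left.left RtB17_8.Ce.right.right.right.left.left.left RtB17_8.CTn.left.left.left.left.left.left.left.left.left.left.left.left RtB17_8.CEr.left.left.left.left.left.left.left.left.left.left.left.left 0x1abbeae0959bf02b57b065cb3d27e524a8fbf6a7c874d22aaf530d8162750b5dcbf06b701e11017c7bf06b3704a00ef18543bf06b66e3e9c3276bf06b3743 = true := by decide +kernel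

theorem cB17_8_1_18 : chunkOkM (LB17_8.ctx true false 113 1 1 1 1 1 1 1 1) muQ true false 64 RtB17_8.Cx.left.left RtB17_8.CX.left.left.left.left.left.left RtB17_8.Ctp.right.right.right.left.left RtB17_8.Ce.right.right.right.left.left.right RtB17_8.CTn.left.left.left.left.left.left.left.left.left.left.left.left RtB17_8.CEr.left.left.left.left.left.left.left.left.left.left.left.left 0x21 = true := by decide +kernel

theorem cB17_8_1_19 : chunkOkM (LB17_8.ctx true false 390 119 64 513 1024 1589 2541 16384 65536) muQ true false 64 RtB17_8.Cx.left.right RtB17_8.CX.left.left.left.left.left.left RtB17_8.Ctp.right.right.right.left.left.left RtB17_8.Ce.right.right.right.left.left.right RtB17_8.CTn.left.left.left.left.left.left.left.left.left.left.left.left RtB17_8.CEr.left.left.left.left.left.left.left.left.left.left.left.left 0x799207447a2bf6a70465984daf520d8a2691519f8bf06b42bd574443abf61622222723dbf520d34697 = true := by decide +kernel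

theorem cB17_8_1_20 : chunkOkM (LB17_8.ctx true false 393 119 64 513 1024 1617 5093 16384 65536) muQ true false 64 RtB17_8.Cx.left.right RtB17_8.CX.left.left.left.left.left.left RtB17_8.Ctp.right.right.right.left.left.right RtB17_8.Ce.right.right.right.left.left.right RtB17_8.CTn.left.left.left.left.left.left.left.left.left.left.left.left RtB17_8.CEr.left.left.left.left.left.left.left.left.left.left.left.left 0x1e1415305a3bf02b6bcf7c8b7e3bf06b64b31e64413bf06b43588d3068b50bf06b47a23bc5c9ed6581b3bf62acd54b5c6bbf230d7 = true := by decide +kernel

theorem cB17_8_1_21 : chunkOkM (LB17_8.ctx true false 390 119 64 513 1024 1617 2563 16384 65536) muQ true false 64 RtB17_8.Cx.left RtB17_8.CX.left.left.left.left.left.left RtB17_8.Ctp.right.right.right.left.left RtB17_8.Ce.right.right.right.left.right RtB17_8.CTn.left.left.left.left.left.left.left.left.left.left.left.left RtB17_8.CEr.left.left.left.left.left.left.left.left.left.left.left.left 0x21212f8a9ad71bafd10684aca56f85cb486096f5f85bf6e2bb0ef1bbaf250d69342175932174 = true := by decide +kernel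

theorem cB17_8_1_22 : chunkOkM (LB17_8.ctx true false 113 1 1 1 1 1 1 1 1) muQ true false 64 RtB17_8.Cx.left RtB17_8.CX.left.left.left.left.left.left RtB17_8.Ctp.right.right.right.left.right RtB17_8.Ce.right.right.right.left RtB17_8.CTn.left.left.left.left.left.left.left.left.left.left.left.left RtB17_8.CEr.left.left.left.left.left.left.left.left.left.left.left.left 0x01 = true := by decide +kernel

theorem cB17_8_1_23 : chunkOkM (LB17_8.ctx true false 377 61 32 513 1024 805 1265 16384 65536) muQ true false 64 RtB17_8.Cx.right RtB17_8.CX.left.left.left.left.left.left RtB17_8.Ctp.right.right.right.left RtB17_8.Ce.right.right.right.left.left RtB17_8.CTn.left.left.left.left.left.left.left.left.left.left.left.left RtB17_8.CEr.left.left.left.left.left.left.left.left.left.left.left.left 0x116953637b14a28bf06b20b634234f4bf6135245bb5b8bf520d37043 = true := by decide +kernel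

theorem cB17_8_1_24 : chunkOkM (LB17_8.ctx true false 377 61 32 513 1024 791 1287 16384 65536) muQ true false 64 RtB17_8.Cx.right.left RtB17_8.CX.left.left.left.left.left.left RtB17_8.Ctp.right.right.right.left.left.left RtB17_8.Ce.right.right.right.left.right.left RtB17_8.CTn.left.left.left.left.left.left.left.left.left.left.left.left RtB17_8.CEr.left.left.left.left.left.left.left.left.left.left.left.left 0x215e9d56636bf05b = true := by decide +kernel

theorem cB17_8_1_25 : chunkOkM (LB17_8.ctx true false 393 123 64 513 1024 1617 5137 16384 65536) muQ true false 64 RtB17_8.Cx.right.left RtB17_8.CX.left.left.left.left.left.left RtB17_8.Ctp.right.right.right.left.left.right RtB17_8.Ce.right.right.right.left.right.left.left RtB17_8.CTn.left.left.left.left.left.left.left.left.left.left.left.left RtB17_8.CEr.left.left.left.left.left.left.left.left.left.left.left.left 0x7648853960af05b68a5b39b2bbbf06b7f611ad978ebf06b6f404ce5fbdbf06b437 = true := by decide +kernel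

theorem cB17_8_1_26 : chunkOkM (LB17_8.ctx true false 394 123 64 513 1024 1617 5181 16384 65536) muQ true false 64 RtB17_8.Cx.right.left RtB17_8.CX.left.left.left.left.left.left RtB17_8.Ctp.right.right.right.left.left.right RtB17_8.Ce.right.right.right.left.right.left.right RtB17_8.CTn.left.left.left.left.left.left.left.left.left.left.left.left RtB17_8.CEr.left.left.left.left.left.left.left.left.left.left.left.left 0x2fc995cb352aa59f968bf6e3635cff12af530d78d507aa6b8bf06b759172182c8bf06b4a7077922fd8bf06b37 = true := by decide +kernel

theorem cB17_8_1_27 : chunkOkM (LB17_8.ctx true false 383 63 32 513 1024 399 1287 16384 65536) muQ true false 64 RtB17_8.Cx.right.right RtB17_8.CX.left.left.left.left.left.left RtB17_8.Ctp.right.right.right.left.left RtB17_8.Ce.right.right.right.left.right.left RtB17_8.CTn.left.left.left.left.left.left.left.left.left.left.left.left RtB17_8.CEr.left.left.left.left.left.left.left.left.left.left.left.left 0x303d27c499be8c8ffd162f11f7bcfbb6271ee8af61efe6f28b41bf540d = true := by decide +kernel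

end Vale.Agent.helper4.Q4
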