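import Vale.Agent.helper4.Q4TreeM
import Vale.Agent.helper4.Q4G.PB17_8

/-!
Checks for pairs of intervals of second moments.
-/

set_option maxRecDepth 100000
set_option linter.unusedVariables false

namespace Vale.Agent.helper4.Q4

theorem cB17_8_1_28 : chunkOkM (LB17_8.ctx true false 394 123 64 513 1024 1617 5225 16384 65536) muQ true false 64 RtB17_8.Cx.right RtB17_8.CX.left.left.left.left.left.left RtB17_8.Ctp.right.right.right.left.left RtB17_8.Ce.right.right.right.left.right.right RtB17_8.CTn.left.left.left.left.left.left.left.left.left.left.left.left RtB17_8.CEr.left.left.left.left.left.left.left.left.left.left.left.left 0x4333bc98627e8cad07cf812f9cbd056cbf61dc1e1863c6bf540d1ca4b881d5c6cfd7dbf0ecd0bcbf6c2914f1a6aaf530d9afe8b16e68bf06b850061b2956bf06b41fb4784e274bf05b346975937 = true := by decide +kernel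

theorem cB17_8_1_29 : chunkOkM (LB17_8.ctx true false 367 31 16 513 1024 413 1287 16384 65536) muQ true false 64 RtB17_8.Cx.right RtB17_8.CX.left.left.left.left.left.left RtB17_8.Ctp.right.right.right.left.right RtB17_8.Ce.right.right.right.left.right.left RtB17_8.CTn.left.left.left.left.left.left.left.left.left.left.left.left RtB17_8.CEr.left.left.left.left.left.left.left.left.left.left.left.left 0x1eb797d80f2bf02b = true := by decide +kernel

theorem cB17_8_1_30 : chunkOkM (LB17_8.ctx true false 394 123 64 513 1024 1645 5269 16384 65536) muQ true false 64 RtB17_8.Cx.right RtB17_8.CX.left.left.left.left.left.left RtB17_8.Ctp.right.right.right.left.right RtB17_8.Ce.right.right.right.left.right.right RtB17_8.CTn.left.left.left.left.left.left.left.left.left.left.left.left RtB17_8.CEr.left.left.left.left.left.left.left.left.left.left.left.left 0x4aae754de1abf678a3fa8997af520d012253b009571bf02b8a986bd3b58bf06b88c1aa38ed7bf06b4321737bc98fce5af00b803c05cd09bbf06b3a1d7c5cb5e07fbacc63bf61202d02de7fbf230d7437 = true := by decide +kernel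

theorem cB17_8_1_31 : chunkOkM (LB17_8.ctx true false 113 1 1 1 1 1 1 1 1) muQ true false 64 RtB17_8.Cx.left RtB17_8.CX.left.left.left.left.left.left RtB17_8.Ctp.right.right.right.left RtB17_8.Ce.right.right.right.right RtB17_8.CTn.left.left.left.left.left.left.left.left.left.left.left.left RtB17_8.CEr.left.left.left.left.left.left.left.left.left.left.left.left 0x21 = true := by decide +kernel

theorem cB17_8_1_32 : chunkOkM (LB17_8.ctx true false 364 31 16 513 1024 399 671 16384 65536) muQ true false 64 RtB17_8.Cx.right RtB17_8.CX.left.left.left.left.left.left RtB17_8.Ctp.right.right.right.left.left RtB17_8.Ce.right.right.right.right.left RtB17_8.CTn.left.left.left.left.left.left.left.left.left.left.left.left RtB17_8.CEr.left.left.left.left.left.left.left.left.left.left.left.left 0xa143399b98af625ebe8450c3bf520d = true := by decide +kernel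

theorem cB17_8_1_33 : chunkOkM (LB17_8.ctx true false 405 495 256 513 1024 819 10571 16384 65536) muQ true false 64 RtB17_8.Cx.right.left RtB17_8.CX.left.left.left.left.left.left RtB17_8.Ctp.right.right.right.left.right RtB17_8.Ce.right.right.right.right.left.left RtB17_8.CTn.left.left.left.left.left.left.left.left.left.left.left.left RtB17_8.CEr.left.left.left.left.left.left.left.left.left.left.left.left 0x212121018ef5d30fd3bbf06b3421742174217 = true := by decide +kernel

theorem cB17_8_1_34 : chunkOkM (LB17_8.ctx true false 394 127 64 513 1024 1645 5313 16384 65536) muQ true false 64 RtB17_8.Cx.right.right RtB17_8.CX.left.left.left.left.left.left RtB17_8.Ctp.right.right.right.left.right.left RtB17_8.Ce.right.right.right.right.left.left.left RtB17_8.CTn.left.left.left.left.left.left.left.left.left.left.left.left RtB17_8.CEr.left.left.left.left.left.left.left.left.left.left.left.left 0x112de705614bf05b8148d2967b0bf06b60d6b52532fbf06b4b92341092d7bf06ba8bc49d0f9abf06b437 = true := by decide +kernel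

theorem cB17_8_1_35 : chunkOkM (LB17_8.ctx true false 394 127 64 513 1024 1645 5357 16384 65536) muQ true false 64 RtB17_8.Cx.right.right RtB17_8.CX.left.left.left.left.left.left RtB17_8.Ctp.right.right.right.left.right.left RtB17_8.Ce.right.right.right.right.left.left.right RtB17_8.CTn.left.left.left.left.left.left.left.left.left.left.left.left RtB17_8.CEr.left.left.left.left.left.left.left.left.left.left.left.left 0x1cf043b2252bf615150d44f02bf520d9ead2496130bf06ba381af182c7bf06b418e6a51da34ccfd552bc1cfc1b9a266bf61b2658151f5bf540d37 = true := by decide +kernel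

theorem cB17_8_1_36 : chunkOkM (LB17_8.ctx true false 378 63 32 513 1024 833 1331 16384 65536) muQ true false 64 RtB17_8.Cx.right.right RtB17_8.CX.left.left.left.left.left.left RtB17_8.Ctp.right.right.right.left.right.right RtB17_8.Ce.right.right.right.right.left.left RtB17_8.CTn.left.left.left.left.left.left.left.left.left.left.left.left RtB17_8.CEr.left.left.left.left.left.left.left.left.left.left.left.left 0x228a5af8669bf02b = true := by decide +kernel

theorem cB17_8_1_37 : chunkOkM (LB17_8.ctx true false 113 1 1 1 1 1 1 1 1) muQ true false 64 RtB17_8.Cx.right.left RtB17_8.CX.left.left.left.left.left.left RtB17_8.Ctp.right.right.right.left.right RtB17_8.Ce.right.right.right.right.left.right RtB17_8.CTn.left.left.left.left.left.left.left.left.left.left.left.left RtB17_8.CEr.left.left.left.left.left.left.left.left.left.left.left.left 0x21 = true := by decide +kernel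

theorem cB17_8_1_38 : chunkOkM (LB17_8.ctx true false 394 127 64 513 1024 1645 5401 16384 65536) muQ true false 64 RtB17_8.Cx.right.right RtB17_8.CX.left.left.left.left.left.left RtB17_8.Ctp.right.right.right.left.right.left RtB17_8.Ce.right.right.right.right.left.right RtB17_8.CTn.left.left.left.left.left.left.left.left.left.left.left.left RtB17_8.CEr.left.left.left.left.left.left.left.left.left.left.left.left 0x234e920ffb5bf05b6fe34aca2205c55cdebf6b16fa1916baf530d7f5b4ac6c3f8c9677ebf610796ea5d24bf530d42250b7c8e3dbf05b34697 = true := by decide +kernel

end Vale.Agent.helper4.Q4
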