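import Vale.Agent.helper4.Q4TreeM
import Vale.Agent.helper4.Q4G.PB17_8

/-!
Checks for pairs of intervals of second moments.
-/

set_option maxRecDepth 100000
set_option linter.unusedVariables false

namespace Vale.Agent.helper4.Q4

theorem cB17_8_1_39 : chunkOkM (LB17_8.ctx true false 394 127 64 513 1024 1673 5445 16384 65536) muQ true false 64 RtB17_8.Cx.right.right RtB17_8.CX.left.left.left.left.left.left RtB17_8.Ctp.right.right.right.left.right.right RtB17_8.Ce.right.right.right.right.left.right RtB17_8.CTn.left.left.left.left.left.left.left.left.left.left.left.left RtB17_8.CEr.left.left.left.left.left.left.left.left.left.left.left.left 0x263e1c8d23abf02bb06a967e613bf06bb5484fcf565bf06b432176ea27cdf46af00b9775d894989bf06b6d5de30d3febf06b433a7afff111cbf02b74 = true := by decide +kernel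

theorem cB17_8_1_40 : chunkOkM (LB17_8.ctx true false 391 127 64 513 1024 1673 2739 16384 65536) muQ true false 64 RtB17_8.Cx.right RtB17_8.CX.left.left.left.left.left.left RtB17_8.Ctp.right.right.right.left RtB17_8.Ce.right.right.right.right.right RtB17_8.CTn.left.left.left.left.left.left.left.left.left.left.left.left RtB17_8.CEr.left.left.left.left.left.left.left.left.left.left.left.left 0x21213e821cf172bbf02b69342175932174593 = true := by decide +kernel

theorem cB17_8_1_41 : chunkOkM (LB17_8.ctx true false 113 1 1 1 1 1 1 1 1) muQ true false 64 RtB17_8.Cx RtB17_8.CX.left.left.left.left.left.left RtB17_8.Ctp.right.right.right.right RtB17_8.Ce.right.right.right RtB17_8.CTn.left.left.left.left.left.left.left.left.left.left.left.left RtB17_8.CEr.left.left.left.left.left.left.left.left.left.left.left.left 0x01 = true := by decide +kernel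

theorem cB17_8_1_42 : chunkOkM (LB17_8.ctx true false 113 1 1 1 1 1 1 1 1) muQ true false 64 RtB17_8.Cx RtB17_8.CX.left.left.left.left.left.right RtB17_8.Ctp.right RtB17_8.Ce.right RtB17_8.CTn.left.left.left.left.left.left.left.left.left.left.left.left RtB17_8.CEr.left.left.left.left.left.left.left.left.left.left.left.left 0x42 = true := by decide +kernel

theorem cB17_8_1_43 : chunkOkM (LB17_8.ctx true false 113 1 1 1 1 1 1 1 1) muQ true false 64 RtB17_8.Cx RtB17_8.CX.left.left.left.left.right RtB17_8.Ctp.right RtB17_8.Ce.right RtB17_8.CTn.left.left.left.left.left.left.left.left.left.left.left.left RtB17_8.CEr.left.left.left.left.left.left.left.left.left.left.left.left 0x42 = true := by decide +kernel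

theorem cB17_8_1_44 : chunkOkM (LB17_8.ctx true false 113 1 1 1 1 1 1 1 1) muQ true false 64 RtB17_8.Cx RtB17_8.CX.left.left.left.left RtB17_8.Ctp.right RtB17_8.Ce.right RtB17_8.CTn.left.left.left.left.left.left.left.left.left.left.left.left RtB17_8.CEr.left.left.left.left.left.left.left.left.left.left.left.right 0x5a = true := by decide +kernel

theorem cB17_8_1_45 : chunkOkM (LB17_8.ctx true false 113 1 1 1 1 1 1 1 1) muQ true false 64 RtB17_8.Cx RtB17_8.CX.left.left.left.left RtB17_8.Ctp.right RtB17_8.Ce.right RtB17_8.CTn.left.left.left.left.left.left.left.left.left.left.left.right RtB17_8.CEr.left.left.left.left.left.left.left.left.left.left.left 0x5a = true := by decide +kernel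

theorem cB17_8_1_46 : chunkOkM (LB17_8.ctx true false 113 1 1 1 1 1 1 1 1) muQ true false 64 RtB17_8.Cx RtB17_8.CX.left.left.left.left RtB17_8.Ctp.right RtB17_8.Ce.right RtB17_8.CTn.left.left.left.left.left.left.left.left.left.left.right RtB17_8.CEr.left.left.left.left.left.left.left.left.left.left.left 0x5a = true := by decide +kernel

theorem cB17_8_1_47 : chunkOkM (LB17_8.ctx true false 113 1 1 1 1 1 1 1 1) muQ true false 64 RtB17_8.Cx RtB17_8.CX.left.left.left.right RtB17_8.Ctp.right RtB17_8.Ce.right RtB17_8.CTn.left.left.left.left.left.left.left.left.left.left RtB17_8.CEr.left.left.left.left.left.left.left.left.left.left.left 0x42 = true := by decide +kernel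

theorem cB17_8_1_48 : chunkOkM (LB17_8.ctx true false 113 1 1 1 1 1 1 1 1) muQ true false 64 RtB17_8.Cx RtB17_8.CX.left.left.left RtB17_8.Ctp.right RtB17_8.Ce.right RtB17_8.CTn.left.left.left.left.left.left.left.left.left.left RtB17_8.CEr.left.left.left.left.left.left.left.left.left.left.right 0x5a = true := by decide +kernel

theorem cB17_8_1_49 : chunkOkM (LB17_8.ctx true false 113 1 1 1 1 1 1 1 1) muQ true false 64 RtB17_8.Cx RtB17_8.CX.left.left.left RtB17_8.Ctp.right RtB17_8.Ce.right RtB17_8.CTn.left.left.left.left.left.left.left.left.left.left RtB17_8.CEr.left.left.left.left.left.left.left.left.left.right 0x5a = true := by decide +kernel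

theorem cB17_8_1_50 : chunkOkM (LB17_8.ctx true false 113 1 1 1 1 1 1 1 1) muQ true false 64 RtB17_8.Cx RtB17_8.CX.left.left.left RtB17_8.Ctp.right RtB17_8.Ce.right RtB17_8.CTn.left.left.left.left.left.left.left.left.left.right RtB17_8.CEr.left.left.left.left.left.left.left.left.left 0x5a = true := by decide +kernel

theorem cB17_8_1_51 : chunkOkM (LB17_8.ctx true false 113 1 1 1 1 1 1 1 1) muQ true false 64 RtB17_8.Cx RtB17_8.CX.left.left.left RtB17_8.Ctp.right RtB17_8.Ce.right RtB17_8.CTn.left.left.left.left.left.left.left.left.right RtB17_8.CEr.left.left.left.left.left.left.left.left.left 0x5a = true := by decide +kernel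

theorem cB17_8_1_52 : chunkOkM (LB17_8.ctx true false 113 1 1 1 1 1 1 1 1) muQ true false 64 RtB17_8.Cx RtB17_8.CX.left.left.right RtB17_8.Ctp.right RtB17_8.Ce.right RtB17_8.CTn.left.left.left.left.left.left.left.left RtB17_8.CEr.left.left.left.left.left.left.left.left.left 0x42 = true := by decide +kernel

theorem cB17_8_1_53 : chunkOkM (LB17_8.ctx true false 113 1 1 1 1 1 1 1 1) muQ true false 64 RtB17_8.Cx RtB17_8.CX.left.left RtB17_8.Ctp.right RtB17_8.Ce.right RtB17_8.CTn.left.left.left.left.left.left.left.left RtB17_8.CEr.left.left.left.left.left.left.left.left.right 0x5a = true := by decide +kernel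

theorem cB17_8_1_54 : chunkOkM (LB17_8.ctx true false 113 1 1 1 1 1 1 1 1) muQ true false 64 RtB17_8.Cx RtB17_8.CX.left.left RtB17_8.Ctp.right RtB17_8.Ce.right RtB17_8.CTn.left.left.left.left.left.left.left.left RtB17_8.CEr.left.left.left.left.left.left.left.right 0x5a = true := by decide +kernel

theorem cB17_8_1_55 : chunkOkM (LB17_8.ctx true false 113 1 1 1 1 1 1 1 1) muQ true false 64 RtB17_8.Cx RtB17_8.CX.left.left RtB17_8.Ctp.right RtB17_8.Ce.right RtB17_8.CTn.left.left.left.left.left.left.left.right RtB17_8.CEr.left.left.left.left.left.left.left 0x5a = true := by decide +kernel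

theorem cB17_8_1_56 : chunkOkM (LB17_8.ctx true false 113 1 1 1 1 1 1 1 1) muQ true false 64 RtB17_8.Cx RtB17_8.CX.left.left RtB17_8.Ctp.right RtB17_8.Ce.right RtB17_8.CTn.left.left.left.left.left.left.right RtB17_8.CEr.left.left.left.left.left.left.left 0x5a = true := by decide +kernel

theorem cB17_8_1_57 : chunkOkM (LB17_8.ctx true false 113 1 1 1 1 1 1 1 1) muQ true false 64 RtB17_8.Cx RtB17_8.CX.left.right RtB17_8.Ctp.right RtB17_8.Ce.right RtB17_8.CTn.left.left.left.left.left.left RtB17_8.CEr.left.left.left.left.left.left.left 0x42 = true := by decide +kernel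

theorem cB17_8_1_58 : chunkOkM (LB17_8.ctx true false 113 1 1 1 1 1 1 1 1) muQ true false 64 RtB17_8.Cx RtB17_8.CX.left RtB17_8.Ctp.right RtB17_8.Ce.right RtB17_8.CTn.left.left.left.left.left.left RtB17_8.CEr.left.left.left.left.left.left.right 0x5a = true := by decide +kernel

theorem cB17_8_1_59 : chunkOkM (LB17_8.ctx true false 113 1 1 1 1 1 1 1 1) muQ true false 64 RtB17_8.Cx RtB17_8.CX.left RtB17_8.Ctp.right RtB17_8.Ce.right RtB17_8.CTn.left.left.left.left.left.left RtB17_8.CEr.left.left.left.left.left.right 0x5a = true := by decide +kernel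

theorem cB17_8_1_60 : chunkOkM (LB17_8.ctx true false 113 1 1 1 1 1 1 1 1) muQ true false 64 RtB17_8.Cx RtB17_8.CX.right RtB17_8.Ctp.right RtB17_8.Ce.right RtB17_8.CTn.left.left.left.left.left.left RtB17_8.CEr.left.left.left.left.left 0x42 = true := by decide +kernel

theorem cB17_8_1_61 : chunkOkM (LB17_8.ctx true false 113 1 1 1 1 1 1 1 1) muQ true false 64 RtB17_8.Cx RtB17_8.CX RtB17_8.Ctp.right RtB17_8.Ce.right RtB17_8.CTn.left.left.left.left.left.left RtB17_8.CEr.left.left.left.left.right 0x5a = true := by decide +kernel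

theorem cB17_8_1_62 : chunkOkM (LB17_8.ctx true false 113 1 1 1 1 1 1 1 1) muQ true false 64 RtB17_8.Cx RtB17_8.CX RtB17_8.Ctp.right RtB17_8.Ce.right RtB17_8.CTn.left.left.left.left.left.left RtB17_8.CEr.left.left.left.right 0x5a = true := by decide +kernel

theorem cB17_8_1_63 : chunkOkM (LB17_8.ctx true false 113 1 1 1 1 1 1 1 1) muQ true false 64 RtB17_8.Cx RtB17_8.CX RtB17_8.Ctp.right RtB17_8.Ce.right RtB17_8.CTn.left.left.left.left.left.left RtB17_8.CEr.left.left.right 0x5a = true := by decide +kernel

theorem cB17_8_1_64 : chunkOkM (LB17_8.ctx true false 113 1 1 1 1 1 1 1 1) muQ true false 64 RtB17_8.Cx RtB17_8.CX RtB17_8.Ctp.right RtB17_8.Ce.right RtB17_8.CTn.left.left.left.left.left.left RtB17_8.CEr.left.right 0x5a = true := by decide +kernel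

theorem cB17_8_1_65 : chunkOkM (LB17_8.ctx true false 113 1 1 1 1 1 1 1 1) muQ true false 64 RtB17_8.Cx RtB17_8.CX RtB17_8.Ctp.right RtB17_8.Ce.right RtB17_8.CTn.left.left.left.left.left.left RtB17_8.CEr.right 0x52 = true := by decide +kernel

theorem cB17_8_1_66 : chunkOkM (LB17_8.ctx true false 113 1 1 1 1 1 1 1 1) muQ true false 64 RtB17_8.Cx RtB17_8.CX RtB17_8.Ctp.right RtB17_8.Ce.right RtB17_8.CTn.left.left.left.left.left.right RtB17_8.CEr 0x42 = true := by decide +kernel

theorem cB17_8_1_67 : chunkOkM (LB17_8.ctx true false 113 1 1 1 1 1 1 1 1) muQ true false 64 RtB17_8.Cx RtB17_8.CX RtB17_8.Ctp.right RtB17_8.Ce.right RtB17_8.CTn.left.left.left.left.right RtB17_8.CEr 0x42 = true := by decide +kernel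

theorem cB17_8_1_68 : chunkOkM (LB17_8.ctx true false 113 1 1 1 1 1 1 1 1) muQ true false 64 RtB17_8.Cx RtB17_8.CX RtB17_8.Ctp.right RtB17_8.Ce.right RtB17_8.CTn.left.left.left.right RtB17_8.CEr 0x42 = true := by decide +kernel

theorem cB17_8_1_69 : chunkOkM (LB17_8.ctx true false 113 1 1 1 1 1 1 1 1) muQ true false 64 RtB17_8.Cx RtB17_8.CX RtB17_8.Ctp.right RtB17_8.Ce.right RtB17_8.CTn.left.left.right RtB17_8.CEr 0x42 = true := by decide +kernel

theorem cB17_8_1_70 : chunkOkM (LB17_8.ctx true false 113 1 1 1 1 1 1 1 1) muQ true false 64 RtB17_8.Cx RtB17_8.CX RtB17_8.Ctp.right RtB17_8.Ce.right RtB17_8.CTn.left.right RtB17_8.CEr 0x42 = true := by decide +kernel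

theorem cB17_8_1_71 : chunkOkM (LB17_8.ctx true false 113 1 1 1 1 1 1 1 1) muQ true false 64 RtB17_8.Cx RtB17_8.CX RtB17_8.Ctp.right RtB17_8.Ce.right RtB17_8.CTn.right RtB17_8.CEr 0x42 = true := by decide +kernel

theorem cB17_8_0_0 : chunkOkM (LB17_8.ctx false false 113 1 1 1 1 1 1 1 1) muQ false false 64 RtB17_8.Cx RtB17_8.CX RtB17_8.Ctn RtB17_8.Ce RtB17_8.CTn RtB17_8.CEr 0x49 = true := by decide +kernel

end Vale.Agent.helper4.Q4
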