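import Vale.Agent.helper4.Q4TreeM
import Vale.Agent.helper4.Q4G.PB17_8

/-!
Checks for pairs of intervals of second moments.
-/

set_option maxRecDepth 100000
set_option linter.unusedVariables false

namespace Vale.Agent.helper4.Q4

theorem cB17_8_3_59 : chunkOkM (LB17_8.ctx true true 289 231 128 9 16 1519 4785 8 64) muQ true true 64 RtB17_8.Cx.left.left.right RtB17_8.CX RtB17_8.Ctp.right.right.left.right.right.left.left RtB17_8.Ce.right.right.left.right.right.left.left RtB17_8.CTp.left RtB17_8.CEr.left 0x61eeeeb4f2afd3bde38378c2f30ff947e7bf6160c6b8c147bf540d63a29c3a9aafd811164478c8bbc144ad7af61c30eeab43ebf540d708808e25eafd3af199978c9bc6286bb2d6f733c94ebf61bdb736354abf550d6adc40bff61afda74555878c18bc10f7e7bbf615f033072febf540d61841ebd4fafdca245168c164a6b57bb619c6a52364bf6122eb739f4cbf550d67ceaaf2d3e2afdbc4ee6b78c2c2e7c0440cbf614b7d343273bf540d5264c83b98afd201b2168c19d5d0d7bb2265ca3b958bf61436950ebc7bf550d645 = true := by decide +kernel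

theorem cB17_8_3_60 : chunkOkM (LB17_8.ctx true true 293 231 128 9 16 3073 4785 8 64) muQ true true 64 RtB17_8.Cx.left.left.right RtB17_8.CX RtB17_8.Ctp.right.right.left.right.right.left.right RtB17_8.Ce.right.right.left.right.right.left.left RtB17_8.CTp.left RtB17_8.CEr.left 0x3ddb3a045fafd3e8b97f78c426ff3477efbf6dc2f309508af540d6a694bddab0efafdac2ea3b78c4475d6f46a7bf6ed4af0e6c5af540d48c0f85ac5afd15215ae7bbce267fb488af530d4c99d757ccafd1a749bb7bbf2fbda817a4bf630d3f8bcec67dafd17da8c3b8ab7928ef50fe8bf6bcff7f489aaf540d374133e8e1e4afd17708847bbc1bc2c414b8bf630d465 = true := by decide +kernel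

theorem cB17_8_3_61 : chunkOkM (LB17_8.ctx true true 113 1 1 1 1 1 1 1 1) muQ true true 64 RtB17_8.Cx.left.left.left RtB17_8.CX RtB17_8.Ctp.right.right.left.right.right.left RtB17_8.Ce.right.right.left.right.right.left.right RtB17_8.CTp.left RtB17_8.CEr.left 0x69 = true := by decide +kernel

theorem cB17_8_3_62 : chunkOkM (LB17_8.ctx true true 289 231 128 9 16 1519 4807 8 64) muQ true true 64 RtB17_8.Cx.left.left.right RtB17_8.CX RtB17_8.Ctp.right.right.left.right.right.left.left RtB17_8.Ce.right.right.left.right.right.left.right RtB17_8.CTp.left RtB17_8.CEr.left 0x59802e2e4e4bafd52cd3a878c7fcaf7a542af61d2ee3d7954bf540dacec0c4e69afda4198e578c4253522bd2fbf61ad7c8ddea7bf540d5879a2dff0afd170f39f7bbc64e47c951af61a00dfa0abcbf540d654597 = true := by decide +kernel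

theorem cB17_8_3_63 : chunkOkM (LB17_8.ctx true true 293 231 128 9 16 3073 4807 8 64) muQ true true 64 RtB17_8.Cx.left.left.right RtB17_8.CX RtB17_8.Ctp.right.right.left.right.right.left.right RtB17_8.Ce.right.right.left.right.right.left.right.left RtB17_8.CTp.left RtB17_8.CEr.left 0x486d5012e0afd4280b2278c414f9d8d033bf6f2cf5197f4af540d6a6b28673a1c4afdb31aa8978c41ce8d15880bf613b978f3a48bf540d49a6028f1fafd8f479d68c174cdaf7bb6659fd18133bf6f57f1588d9af550d6fb657a6148afdd69cc4078ca0b82ae8aaebf630d419c4e7210afd18c58a928ab12cc34e774eccf630d5b679b7a2aafd14468d578c14696c038ab5610ace9b3fbf612734222f1ebf550d3675 = true := by decide +kernel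

theorem cB17_8_3_64 : chunkOkM (LB17_8.ctx true true 315 919 512 9 16 6153 19283 8 64) muQ true true 64 RtB17_8.Cx.left.left.right RtB17_8.CX RtB17_8.Ctp.right.right.left.right.right.left.right RtB17_8.Ce.right.right.left.right.right.left.right.right RtB17_8.CTp.left RtB17_8.CEr.left 0x47d316d217afd3eb36d578c58c8e16a088bf6f719bad4c3af540d6a6791d091c52afd9143b2d78c1f73b76bb31e239cfa83bf615966ed3f16bf550d487689fe02afd375ef568c1746136c8ab5ac5e8449cabf6fa45d11d96af550d66969a7f98521cdafdaa8bca278cff2ca909bf6bf630d550264108bafdccad13c77c17a2179b8ab146f3b93fdd6cf640d64697693469759375 = true := by decide +kernel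

theorem cB17_8_3_65 : chunkOkM (LB17_8.ctx true true 289 227 128 9 16 1561 4763 8 64) muQ true true 64 RtB17_8.Cx.left.left.left RtB17_8.CX RtB17_8.Ctp.right.right.left.right.right.right RtB17_8.Ce.right.right.left.right.right.left.left.left RtB17_8.CTp.left.left RtB17_8.CEr.left.left 0x4c3c611f8eafdab463d68c24ee29d7bbc52729846d9bf640d4709ccd7d1afd7d592d68c1d2113e7bbc58b47df0d2bf640d60d0cf7f0bafd1616e1f78c1f9c707e8abb73e411e44abf640d73 = true := by decide +kernel

theorem cB17_8_3_66 : chunkOkM (LB17_8.ctx true true 293 227 128 9 16 1561 4785 16 64) muQ true true 64 RtB17_8.Cx.left.left.left RtB17_8.CX RtB17_8.Ctp.right.right.left.right.right.right RtB17_8.Ce.right.right.left.right.right.left.left.right RtB17_8.CTp.left.left RtB17_8.CEr.left.left 0x4a1977c1daafde5b40c68c20aaaf97bb1188cb6579f7cf640d33c30dfc70afd12a943a7bb706951c3b4fbf64e42d4b9acaf240d1ef19ece8abc2dfff70993bf63e0bb74979f230d5747841de222afd71acd968c1e81db068abafe6d9edd2fbf640d61c07f06d1afd1b132bb78c1f18b0d18abea20c049409bf640d73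 = true := by decide +kernel

theorem cB17_8_3_67 : chunkOkM (LB17_8.ctx true true 276 113 64 9 16 777 2387 8 64) muQ true true 64 RtB17_8.Cx.left.left.left RtB17_8.CX RtB17_8.Ctp.right.right.left.right.right.right RtB17_8.Ce.right.right.left.right.right.left.left RtB17_8.CTp.left.left RtB17_8.CEr.left.right 0xcd1c87a0f0afddd32a2e78c357f7a6bb642b191e082bf640d = true := by decide +kernel

theorem cB17_8_3_68 : chunkOkM (LB17_8.ctx true true 276 113 64 9 16 777 2387 8 64) muQ true true 64 RtB17_8.Cx.left.left.left RtB17_8.CX RtB17_8.Ctp.right.right.left.right.right.right RtB17_8.Ce.right.right.left.right.right.left.left RtB17_8.CTp.left.right RtB17_8.CEr.left 0x58194e4e65afd5c6829778c5b246749950bf630d6a6 = true := by decide +kernel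

theorem cB17_8_3_69 : chunkOkM (LB17_8.ctx true true 280 115 64 9 16 1547 2387 8 64) muQ true true 64 RtB17_8.Cx.left.left.right RtB17_8.CX RtB17_8.Ctp.right.right.left.right.right.right RtB17_8.Ce.right.right.left.right.right.left.left RtB17_8.CTp.left RtB17_8.CEr.left 0x541fd27ec1afd3f8932078c104581132da1cf630d6971e05cb066bdb371afd61b348578c103dfb07bbea079087cf7bf640d635 = true := by decide +kernel

end Vale.Agent.helper4.Q4
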