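import Vale.Agent.helper4.Q4TreeM
import Vale.Agent.helper4.Q4G.PB17_8

/-!
Checks for pairs of intervals of second moments.
-/

set_option maxRecDepth 100000
set_option linter.unusedVariables false

namespace Vale.Agent.helper4.Q4

theorem cB17_8_3_70 : chunkOkM (LB17_8.ctx true true 289 227 128 9 16 1547 4807 8 64) muQ true true 64 RtB17_8.Cx.left.left.left RtB17_8.CX RtB17_8.Ctp.right.right.left.right.right.right.left RtB17_8.Ce.right.right.left.right.right.left.right RtB17_8.CTp.left.left RtB17_8.CEr.left 0x69bdc351a1dcafdc2db35578cb10f524c0cfbf630d5d6601c7d5afd161adaf78c1cb621708abc50019c2a91bf640d64697 = true := by decide +kernel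

theorem cB17_8_3_71 : chunkOkM (LB17_8.ctx true true 302 451 256 9 16 3129 9625 8 64) muQ true true 64 RtB17_8.Cx.left.left.left RtB17_8.CX RtB17_8.Ctp.right.right.left.right.right.right.right RtB17_8.Ce.right.right.left.right.right.left.right RtB17_8.CTp.left.left RtB17_8.CEr.left 0xb9bc05cbcbafdd081d8a78c46ac8b6bb6e78067d0e7bf6499cc850c6af250d4a5f620878afdfd68e568c20638dcb8abe1a48375282bf640d5e57aedd03afd19c905678c1e9685088ab11d8996abdc2cf640d34a9563fe22afdea349d68c1f8adea7bbabdbec5fd21bf640d4694d7f848780afd12bc1cc78c213ef9588ab10c4ead7e772cf63f7de38e8eaf250d499eea13acafd105899578c21664ce78abec0d3f9ad65bf640d65880992e2afd22b328e78c202aaf2b8abeb8eb19cdf6bf64eac7fc790af250d74476 = true := by decide +kernel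

theorem cB17_8_3_72 : chunkOkM (LB17_8.ctx true true 280 113 64 9 16 1561 2409 8 64) muQ true true 64 RtB17_8.Cx.left.left.left RtB17_8.CX RtB17_8.Ctp.right.right.left.right.right.right RtB17_8.Ce.right.right.left.right.right.left.right RtB17_8.CTp.left.right RtB17_8.CEr.left 0x5bf52a87eaafd640a16878c6357302a94bbf626e95cb9daaf240d3b29122c58afd3ac11c778c7e70a02f5aebf630d36a6 = true := by decide +kernel

theorem cB17_8_3_73 : chunkOkM (LB17_8.ctx true true 289 231 128 9 16 1561 4829 8 64) muQ true true 64 RtB17_8.Cx.left.left.right RtB17_8.CX RtB17_8.Ctp.right.right.left.right.right.right RtB17_8.Ce.right.right.left.right.right.left.right RtB17_8.CTp.left RtB17_8.CEr.left 0x47df8de40cafd3eeeb5c78c60e0f2171c2bf630d6a6c41ffc5baaafdc1fcb7978c42b80d6bb73886a2bf61bf640d4576bea9baafd837f8368c1c8c9837bb74c86a41a56bf640d484bb1ec23afd18f5a8d7bbe2c335b5f3bbf630d596e09aa48afd11ffd8c78c1a0200a08abccb704b668abf640d74acce127c4afd68889368c18db2287bb95a89784fbdbf640d4365 = true := by decide +kernel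

theorem cB17_8_3_74 : chunkOkM (LB17_8.ctx true true 287 115 64 9 16 777 2409 32 128) muQ true true 64 RtB17_8.Cx.left.left RtB17_8.CX RtB17_8.Ctp.right.right.left.right.right RtB17_8.Ce.right.right.left.right.right.left RtB17_8.CTp.left RtB17_8.CEr.right 0x5a5a3abab26b98cbf06b3b7ac15cc09bf06b73553fb1c025bf06b41f4ce1043cafd14ece8778c346a10af817bf6e4d940528daf540d2c8e002777afd232b72678c28de75e72c6bf6dae9d4cc4caf540d4365a55a565a5 = true := by decide +kernel

theorem cB17_8_3_75 : chunkOkM (LB17_8.ctx true true 113 1 1 1 1 1 1 1 1) muQ true true 64 RtB17_8.Cx.left.left RtB17_8.CX RtB17_8.Ctp.right.right.left.right.right RtB17_8.Ce.right.right.left.right.right.left RtB17_8.CTp.right RtB17_8.CEr.left 0x6a = true := by decide +kernel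

theorem cB17_8_3_76 : chunkOkM (LB17_8.ctx true true 273 115 64 9 16 1533 2409 4 32) muQ true true 64 RtB17_8.Cx.left.left RtB17_8.CX RtB17_8.Ctp.right.right.left.right.right.left RtB17_8.Ce.right.right.left.right.right.left RtB17_8.CTp.right RtB17_8.CEr.right 0x140fd9ecefafd22e3ac9c89f8204c5cde5e3bf61156a29cc94bf540d69713905ed7e9afd2bb68d8df9f81e0e015d451bf6f2e7851eafaf540d14a5fb44e2afd1eb6fedc49f8690a42ad20fbf6f2e7f1f819f540d1427f8a518afd2241566629f82899f07ec4dbf614b9811a846bf540d374 = true := by decide +kernel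

theorem cB17_8_3_77 : chunkOkM (LB17_8.ctx true true 273 115 64 9 16 1561 2409 4 32) muQ true true 64 RtB17_8.Cx.left.left RtB17_8.CX RtB17_8.Ctp.right.right.left.right.right.right RtB17_8.Ce.right.right.left.right.right.left RtB17_8.CTp.right RtB17_8.CEr.right 0x143d1abd6bafd1ab5b42ee9f85033e67f510bf6311bc760baaf540d180688f62fafd55683f68c5dfd0d0b019bf61cbdc0d742af240d16a4c09cb2afd6eac73bd8f880d5bcb358bbf630d37116d64f72baf06c1a7f93b026afd4e450668c5654cbaa6c5bf630d15e89effc6afd4da483ed8f86968cb8f971bf630d374 = true := by decide +kernel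

theorem cB17_8_3_78 : chunkOkM (LB17_8.ctx true true 276 117 64 9 16 763 2387 8 64) muQ true true 64 RtB17_8.Cx.left.right RtB17_8.CX RtB17_8.Ctp.right.right.left.right.right.left RtB17_8.Ce.right.right.left.right.right.left.left RtB17_8.CTp.left RtB17_8.CEr.left 0x692ea9b5adafafda386a668c45c2bb31694bf6189a595a8e7bf540d51e05cf6ba9c3d38af05b657 = true := by decide +kernel

theorem cB17_8_3_79 : chunkOkM (LB17_8.ctx true true 283 117 64 9 16 1519 4829 8 64) muQ true true 64 RtB17_8.Cx.left.right.left RtB17_8.CX RtB17_8.Ctp.right.right.left.right.right.left.left RtB17_8.Ce.right.right.left.right.right.left.right RtB17_8.CTp.left RtB17_8.CEr.left 0x241bb9c5aaafd1eaa232319f822bf8054baaf620a651672b0bf540da8453111f3afd71012c578c8a016f6bb20a84b594b1bf540d53fbcadf9f3afd2a8ad3a78c208a3100f6fbf61b9dfae0635bf540dd4cdfc4dd7afdabe18d578ce4633b8831af61a88e79eb05bf540d196531ec369bf05b654 = true := by decide +kernel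

end Vale.Agent.helper4.Q4
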