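import Vale.Agent.helper4.Q4TreeM
import Vale.Agent.helper4.Q4G.PB17_8

/-!
Checks for pairs of intervals of second moments.
-/

set_option maxRecDepth 100000
set_option linter.unusedVariables false

namespace Vale.Agent.helper4.Q4

theorem cB17_8_3_93 : chunkOkM (LB17_8.ctx true true 286 235 128 9 16 1519 4851 8 32) muQ true true 64 RtB17_8.Cx.left.right.left RtB17_8.CX RtB17_8.Ctp.right.right.left.right.right.left.left RtB17_8.Ce.right.right.left.right.right.right.left RtB17_8.CTp.left RtB17_8.CEr.left 0x5948805d5f82afd3706c6d78c21782e0a5adbf530da76afe1033afd7e669ba78c26599a12847bf61ded1698bcfbf540d54597 = true := by decide +kernel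

theorem cB17_8_3_94 : chunkOkM (LB17_8.ctx true true 289 235 128 9 16 1533 4851 8 64) muQ true true 64 RtB17_8.Cx.left.right.left RtB17_8.CX RtB17_8.Ctp.right.right.left.right.right.left.right RtB17_8.Ce.right.right.left.right.right.right.left.left RtB17_8.CTp.left RtB17_8.CEr.left 0x6d9290f800afd464dee978c2300d8e2c22bf61852a1e7900bf540d8ec92abc8cafd8b6e80a78c220bd4f0ab5bf617fad87c6babf540d5f6956020cafd1aa6c797bb4744bfbf482bf617a1874895cbf540d6ae11312085afd9ca71ad78c208e938bcd0bf6169da383667bf540d4be2f9f13fafd187237f08ab269ea03cd10bf61527fd2a617bf540d675 = true := by decide +kernel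

theorem cB17_8_3_95 : chunkOkM (LB17_8.ctx true true 293 235 128 9 16 3073 4873 8 64) muQ true true 64 RtB17_8.Cx.left.right.left RtB17_8.CX RtB17_8.Ctp.right.right.left.right.right.left.right RtB17_8.Ce.right.right.left.right.right.right.left.right RtB17_8.CTp.left RtB17_8.CEr.left 0x3f876892edafd30ed67c78c1ab13eeffe1bf61c6df5ce5fbbf540dc1bb54e996afda1a035778c3052006bb28682b2b6e5bf61733ac05798bf550d72394c2816afd1d6b3dd7bb66c1b40ac0af61b8dd16e298bf540d654e76f70a85afd3217a3878c1e0c1dbce1bbf530d8846fdedc2afd8cc053678c16d92d6844cbf618af8394362bf540d5d691eca87afd1b7296278c11e220768ab74ced8206baf61e879528fbabf550d655937 = true := by decide +kernel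

theorem cB17_8_3_96 : chunkOkM (LB17_8.ctx true true 277 119 64 9 16 1533 2431 8 32) muQ true true 64 RtB17_8.Cx.left.right.right RtB17_8.CX RtB17_8.Ctp.right.right.left.right.right.left RtB17_8.Ce.right.right.left.right.right.right.left RtB17_8.CTp.left RtB17_8.CEr.left 0x2796630222afd3992458a14dbf61a4c89fdae0bf530da4bed79949afd76067c478c49eff66bb1844c2b300fbf61b37c3115acbf550d58ac83220e8afd64570ca78c52c3fe9e32af6210409b88a7bf540d3 = true := by decide +kernel

theorem cB17_8_3_97 : chunkOkM (LB17_8.ctx true true 263 59 32 9 16 763 2431 4 32) muQ true true 64 RtB17_8.Cx.left.right RtB17_8.CX RtB17_8.Ctp.right.right.left.right.right.left RtB17_8.Ce.right.right.left.right.right.right.left RtB17_8.CTp.left RtB17_8.CEr.right 0x3e592cd27aafd8159a5a78c62fdb6ac87af61ca75697140bf540d = true := by decide +kernel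

theorem cB17_8_3_98 : chunkOkM (LB17_8.ctx true true 293 235 128 9 16 3073 4895 8 64) muQ true true 64 RtB17_8.Cx.left.right.left RtB17_8.CX RtB17_8.Ctp.right.right.left.right.right.left RtB17_8.Ce.right.right.left.right.right.right.right RtB17_8.CTp.left RtB17_8.CEr 0x5925b9712883afd6ee57a778c59247af678abf6114bbd19ca0bf540d2d32958b0fafd179ba1778c2b1103b4719bf619181f01582bf540d9e79f1e04eafd8cbc81e78c3e834531ac1bf61500786f46ebf540d1e0b707d4aabf05b6565934597593 = true := by decide +kernel

theorem cB17_8_3_99 : chunkOkM (LB17_8.ctx true true 290 239 128 9 16 3073 4917 8 32) muQ true true 64 RtB17_8.Cx.left.right.right RtB17_8.CX RtB17_8.Ctp.right.right.left.right.right.left RtB17_8.Ce.right.right.left.right.right.right.right RtB17_8.CTp.left RtB17_8.CEr 0x3cbbacf397afd735b26978c1cbcc9f87cabf6210267ee267bf540d888639007aafd5fa4a6878c1490fd6bb207803b6ee9bf540d2ef8508eddafd179d99b78cdee555bbdbd7eda9edaf61f421e02e11bf550d9deaf09dd7afd69fdf3578c56dd516bb23cdd347ee2bf540d559373c9bd51c90afd249b5d678c1ef62da6bc3bf61cc5d0c1c41bf540da1b4f380c4afd720f97578c523fab6bb4c1d150c8faf61f71a280a61bf550d5457b49f4651afd484bc8a78c3984a12697dbf624b8c119345bf540d36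 = true := by decide +kernel

theorem cB17_8_3_100 : chunkOkM (LB17_8.ctx true true 260 59 32 9 16 763 1221 4 32) muQ true true 64 RtB17_8.Cx.left.right RtB17_8.CX RtB17_8.Ctp.right.right.left.right.right.left RtB17_8.Ce.right.right.left.right.right.right RtB17_8.CTp.right RtB17_8.CEr 0x10c6927176afd3e42e803c9f81bffcc5629bbf619af679edf5bf540d6a6 = true := by decide +kernel

theorem cB17_8_3_101 : chunkOkM (LB17_8.ctx true true 293 235 128 9 16 3101 4873 8 64) muQ true true 64 RtB17_8.Cx.left.right.left RtB17_8.CX RtB17_8.Ctp.right.right.left.right.right.right RtB17_8.Ce.right.right.left.right.right.right.left RtB17_8.CTp.left RtB17_8.CEr.left 0x487e5a19ecafd42c865078c524995f2254bf68de5bc8b07af540d6a6ac34fe9950afdac5a25f78c536720f4783bf6bb5267f353af540d5706631f2bafd13d309178c181f3e07bbdd56cd76752bf640d4a08387af5afd14d7d4c7bb5f1da56e373bf610d50344858bf540d40e7fb4c25afd37dd4e68c14a75337bba28e37c5ccebf640d3f366c720bafd15f32d318ab42b55a3600fbf61136df042a5bf540d374104ef15f9afd159bff77bb99707d1fa4abf67b9d09dc9aaf540d4365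 = true := by decide +kernel

theorem cB17_8_3_102 : chunkOkM (LB17_8.ctx true true 269 119 64 9 16 777 2431 4 32) muQ true true 64 RtB17_8.Cx.left.right.right RtB17_8.CX RtB17_8.Ctp.right.right.left.right.right.right RtB17_8.Ce.right.right.left.right.right.right.left RtB17_8.CTp.left RtB17_8.CEr.left 0x7df0d3df76afd5452dca78c107bddb7bb30d = true := by decide +kernel

theorem cB17_8_3_103 : chunkOkM (LB17_8.ctx true true 289 235 128 9 16 1547 4895 8 64) muQ true true 64 RtB17_8.Cx.left.right.left RtB17_8.CX RtB17_8.Ctp.right.right.left.right.right.right.left RtB17_8.Ce.right.right.left.right.right.right.right.left RtB17_8.CTp.left RtB17_8.CEr.left 0x5cacb64c53afd488fd7c78c58d5c3b6a71bf6be5fff8b7caf540d6a6980287b69aafd9827a7a78c463fe74e8e9bf613e63f156c7bf540d5682c60845afda26e5868c172bf3f7bb5d2fc386e6fbf6f7e047c0a6af550d6cebf34169aafdae1054578c9446105848abf630d48d6c8526dafd47cc4468c16e8b3b7bb7aae4318714bf6d59c5dd48daf550d675 = true := by decide +kernel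

end Vale.Agent.helper4.Q4
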