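import Vale.Agent.helper4.Q4TreeM
import Vale.Agent.helper4.Q4G.PB17_8

/-!
Checks for pairs of intervals of second moments.
-/

set_option maxRecDepth 100000
set_option linter.unusedVariables false

namespace Vale.Agent.helper4.Q4

theorem cB17_8_3_104 : chunkOkM (LB17_8.ctx true true 338 3743 2048 9 16 24857 39259 8 64) muQ true true 64 RtB17_8.Cx.left.right.left RtB17_8.CX RtB17_8.Ctp.right.right.left.right.right.right.left RtB17_8.Ce.right.right.left.right.right.right.right.right RtB17_8.CTp.left RtB17_8.CEr.left 0x5725355fffafd373755678c43b6a6519b6bf6152866be063bf540d8dec1fdddeafd8a52e6878c27167c01819bf61667d0c9bdebf540d492cdbb203afd5181a468c1509bbb7bb68251ff0a1bbf6108daa55d27bf550d6559696954884c4a79afd329b6beb87cefb2696ab1063ee0875b8cf640d61e05c426de4d01aafd1673ac138ab14e653fb6870cf630d656976934697693469759345975937 = true := by decide +kernel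

theorem cB17_8_3_105 : chunkOkM (LB17_8.ctx true true 289 235 128 9 16 1561 4917 8 64) muQ true true 64 RtB17_8.Cx.left.right.left RtB17_8.CX RtB17_8.Ctp.right.right.left.right.right.right.right RtB17_8.Ce.right.right.left.right.right.right.right RtB17_8.CTp.left.left RtB17_8.CEr.left 0x7bb149c9c5afd94cb3e478c10d0daa08c66cf630d41033eb385afd358b7e68c139fcaf7bb981da62ca70bf61594ba10d9f550d699c829048eafda665e7678c10e85621a9e6cf630d52d8f88c51afdec18c868c18042a0a8abedd2a7d58c8bf640d67a6766d915bafda5e6c7378c41b8586bbc3ad85bc663bf640d402f04c436a681ed7afd19b22427bbb7af1bf62afbf630d764 = true := by decide +kernel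

theorem cB17_8_3_106 : chunkOkM (LB17_8.ctx true true 280 117 64 9 16 1561 2453 8 64) muQ true true 64 RtB17_8.Cx.left.right.left RtB17_8.CX RtB17_8.Ctp.right.right.left.right.right.right.right RtB17_8.Ce.right.right.left.right.right.right.right RtB17_8.CTp.left.right RtB17_8.CEr.left 0x48184c7762afd41cf1b078c6a286912e52bf67ed589760aaf540d6a6 = true := by decide +kernel

theorem cB17_8_3_107 : chunkOkM (LB17_8.ctx true true 283 119 64 9 16 1561 4917 8 64) muQ true true 64 RtB17_8.Cx.left.right.right RtB17_8.CX RtB17_8.Ctp.right.right.left.right.right.right RtB17_8.Ce.right.right.left.right.right.right.right RtB17_8.CTp.left RtB17_8.CEr.left 0x185108b406af06c9d886a2960afd76c0cd578c5a94776bb30d53fef5ff434afd2bb382778c2471f3c649dbf618a7fdcf737bf540d6fb3d5fb18afd82cf1bf78c1816616bb4d973b93fd0bf61897f912e37bf550d4da4ec2e47afd4c715068c187267b7bb278e918f33ebf61945e7c4879bf550d641e05cbd75d3e327af05b6453 = true := by decide +kernel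

theorem cB17_8_3_108 : chunkOkM (LB17_8.ctx true true 271 59 32 9 16 777 1221 16 64) muQ true true 64 RtB17_8.Cx.left.right RtB17_8.CX RtB17_8.Ctp.right.right.left.right.right.right RtB17_8.Ce.right.right.left.right.right.right RtB17_8.CTp.left RtB17_8.CEr.right 0x5a2584acfc72afd2447c0678c207d3227aadbf6f49a3cab98af540d5a565a5 = true := by decide +kernel

theorem cB17_8_3_109 : chunkOkM (LB17_8.ctx true true 273 119 64 9 16 1561 2453 4 32) muQ true true 64 RtB17_8.Cx.left.right RtB17_8.CX RtB17_8.Ctp.right.right.left.right.right.right RtB17_8.Ce.right.right.left.right.right.right RtB17_8.CTp.right RtB17_8.CEr 0x119636ad60afd3600d16669f82186f6e0b23bf6144c875d4dcbf540d1338e905c9afd263c726229f8510f0a568e8bf6662df0eb9eaf540d13a720258bafd2bddab3ff9f82e108c41452bf6fd2e7b5c22af540d3713f703880bafd2166e6c559f820b5a098561bf6d98f6723e0af540d46a6 = true := by decide +kernel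

theorem cB17_8_3_110 : chunkOkM (LB17_8.ctx true true 260 61 32 9 16 735 2387 4 16) muQ true true 64 RtB17_8.Cx.right.left RtB17_8.CX RtB17_8.Ctp.right.right.left.right.left.left RtB17_8.Ce.right.right.left.right.right.left.left RtB17_8.CTp RtB17_8.CEr 0xa1c82b9209fd184577d0b8af8170800a616abf62b85d8d7e3dbf540d2044f05cb7afd2ac49e078c141a31df9c5bf630599cab53cbf540d5 = true := by decide +kernel

theorem cB17_8_3_111 : chunkOkM (LB17_8.ctx true true 276 245 128 9 16 1477 2409 4 16) muQ true true 64 RtB17_8.Cx.right.left RtB17_8.CX RtB17_8.Ctp.right.right.left.right.left.left RtB17_8.Ce.right.right.left.right.right.left.right RtB17_8.CTp RtB17_8.CEr 0x225f1b5029fd18ff91fd1caf83c6b9427741bf644dc3566103bf540d18f28b51c8afd1823e2c78c31e7ee54da2bf64021f0536abbf540d5494618b6fd69fd16920d22d6af838a4f92c9b2bf647e126d4174bf54f904ab613af450d1927431cc6afd100060f78c289435d4f7ebf640ab5405589bf5f2615b1421af450d57323a997d069fd13494179cbaf8355ab9028b9bf63f0ede55268bf540d250ff441f7afd2cb995078c3a62daaad0ebf6434af2f3139bf540d57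 = true := by decide +kernel

theorem cB17_8_3_112 : chunkOkM (LB17_8.ctx true true 113 1 1 1 1 1 1 1 1) muQ true true 64 RtB17_8.Cx.right.right RtB17_8.CX RtB17_8.Ctp.right.right.left.right.left.left RtB17_8.Ce.right.right.left.right.right.left RtB17_8.CTp RtB17_8.CEr 0x49 = true := by decide +kernel

theorem cB17_8_3_113 : chunkOkM (LB17_8.ctx true true 263 61 32 9 16 749 2409 4 32) muQ true true 64 RtB17_8.Cx.right RtB17_8.CX RtB17_8.Ctp.right.right.left.right.left.right RtB17_8.Ce.right.right.left.right.right.left RtB17_8.CTp RtB17_8.CEr 0x69ce82e32af9fdd585f8a759f832c2f05ef4fbf6320f2317592bf540d8995bc74cdafd645e11178c21b90a35e21bf62cbb4dabf99bf540d4e6d0abf5eafd247aaa978c3f14caf6597bf631d2c9d832cbf540d651bcf0967bdaf01c20ec2bdb01afd24c9ddb78c13310c2d92fbf530d547 = true := by decide +kernel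

end Vale.Agent.helper4.Q4
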