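import Vale.Agent.helper4.Q4TreeM
import Vale.Agent.helper4.Q4G.PB17_9

/-!
Checks for pairs of intervals of second moments.
-/

set_option maxRecDepth 100000
set_option linter.unusedVariables false

namespace Vale.Agent.helper4.Q4

theorem cB17_9_3_148 : chunkOkM (LB17_9.ctx true true 314 119 64 21 32 805 2541 1024 1024) muQ true true 64 RtB17_9.Cx.left RtB17_9.CX.left RtB17_9.Ctp.right.right.right.left.left RtB17_9.Ce.right.right.right.left.left.right RtB17_9.CTp.left.right.right.right.right RtB17_9.CEr.right.left.left.left.left 0x222fb8e7fdf6fead66c3c562269b38fad157c9f63782ca3f8f250d2ff00a8929f06b41f4644a76c676a9169b3f8731cff9f619ab399cd9f240d750884baf19f06b60f9e24f8fd694266f76c2feb4769b38912ea729f65fd555958f550d46973217 = true := by decide +kernel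

theorem cB17_9_3_149 : chunkOkM (LB17_9.ctx true true 104 1 1 1 1 1 1 1 1) muQ true true 64 RtB17_9.Cx.left RtB17_9.CX.left RtB17_9.Ctp.right.right.right.left.left RtB17_9.Ce.right.right.right.left.left RtB17_9.CTp.left.right.right.right.right RtB17_9.CEr.right.left.left.left.right 0x5a = true := by decide +kernel

theorem cB17_9_3_150 : chunkOkM (LB17_9.ctx true true 104 1 1 1 1 1 1 1 1) muQ true true 64 RtB17_9.Cx.left RtB17_9.CX.left RtB17_9.Ctp.right.right.right.left.left RtB17_9.Ce.right.right.right.left.left RtB17_9.CTp.left.right.right.right RtB17_9.CEr.right.left.left.right 0x5a = true := by decide +kernel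

theorem cB17_9_3_151 : chunkOkM (LB17_9.ctx true true 104 1 1 1 1 1 1 1 1) muQ true true 64 RtB17_9.Cx.left RtB17_9.CX.left RtB17_9.Ctp.right.right.right.left.left RtB17_9.Ce.right.right.right.left.left RtB17_9.CTp.left.right.right RtB17_9.CEr.right.left.right 0x5a = true := by decide +kernel

theorem cB17_9_3_152 : chunkOkM (LB17_9.ctx true true 104 1 1 1 1 1 1 1 1) muQ true true 64 RtB17_9.Cx.left RtB17_9.CX.left RtB17_9.Ctp.right.right.right.left.left RtB17_9.Ce.right.right.right.left.left RtB17_9.CTp.left.right.right RtB17_9.CEr.right.right 0x52 = true := by decide +kernel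

theorem cB17_9_3_153 : chunkOkM (LB17_9.ctx true true 104 1 1 1 1 1 1 1 1) muQ true true 64 RtB17_9.Cx.left RtB17_9.CX.right RtB17_9.Ctp.right.right.right.left.left RtB17_9.Ce.right.right.right.left.left RtB17_9.CTp.left.right.right RtB17_9.CEr 0x4a = true := by decide +kernel

theorem cB17_9_3_154 : chunkOkM (LB17_9.ctx true true 104 1 1 1 1 1 1 1 1) muQ true true 64 RtB17_9.Cx.left RtB17_9.CX RtB17_9.Ctp.right.right.right.left.left RtB17_9.Ce.right.right.right.left.left RtB17_9.CTp.right.left RtB17_9.CEr.left.left 0x12 = true := by decide +kernel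

theorem cB17_9_3_155 : chunkOkM (LB17_9.ctx true true 104 1 1 1 1 1 1 1 1) muQ true true 64 RtB17_9.Cx.left RtB17_9.CX RtB17_9.Ctp.right.right.right.left.left RtB17_9.Ce.right.right.right.left.left RtB17_9.CTp.right.left RtB17_9.CEr.left.right.left 0x12 = true := by decide +kernel

theorem cB17_9_3_156 : chunkOkM (LB17_9.ctx true true 104 1 1 1 1 1 1 1 1) muQ true true 64 RtB17_9.Cx.left RtB17_9.CX RtB17_9.Ctp.right.right.right.left.left RtB17_9.Ce.right.right.right.left.left RtB17_9.CTp.right.left.left RtB17_9.CEr.left.right.right.left 0x12 = true := by decide +kernel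

theorem cB17_9_3_157 : chunkOkM (LB17_9.ctx true true 104 1 1 1 1 1 1 1 1) muQ true true 64 RtB17_9.Cx.left RtB17_9.CX RtB17_9.Ctp.right.right.right.left.left RtB17_9.Ce.right.right.right.left.left RtB17_9.CTp.right.left.left.left RtB17_9.CEr.left.right.right.right.left 0x6a = true := by decide +kernel

theorem cB17_9_3_158 : chunkOkM (LB17_9.ctx true true 104 1 1 1 1 1 1 1 1) muQ true true 64 RtB17_9.Cx.left RtB17_9.CX RtB17_9.Ctp.right.right.right.left.left RtB17_9.Ce.right.right.right.left.left RtB17_9.CTp.right.left.left.left.left RtB17_9.CEr.left.right.right.right.right.left 0x6a = true := by decide +kernel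

theorem cB17_9_3_159 : chunkOkM (LB17_9.ctx true true 104 1 1 1 1 1 1 1 1) muQ true true 64 RtB17_9.Cx.left RtB17_9.CX RtB17_9.Ctp.right.right.right.left.left RtB17_9.Ce.right.right.right.left.left RtB17_9.CTp.right.left.left.left.left RtB17_9.CEr.left.right.right.right.right.right.left 0x6a = true := by decide +kernel

theorem cB17_9_3_160 : chunkOkM (LB17_9.ctx true true 334 119 64 41 64 805 2497 4096 4096) muQ true true 64 RtB17_9.Cx.left RtB17_9.CX.left.left RtB17_9.Ctp.right.right.right.left.left RtB17_9.Ce.right.right.right.left.left.left RtB17_9.CTp.right.left.left.left.left.left.left RtB17_9.CEr.left.right.right.right.right.right.right 0xe4e3017e8f02b3b6de2cdb9f06b36c0b40e19f06b7c9247ae7fd2c4a00ca89f647e5c6dc8f530d43213da873028fd2f2dad1ef9f666c927568f230d42177 = true := by decide +kernel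

theorem cB17_9_3_161 : chunkOkM (LB17_9.ctx true true 334 119 64 41 64 805 2541 4096 4096) muQ true true 64 RtB17_9.Cx.left RtB17_9.CX.left.left RtB17_9.Ctp.right.right.right.left.left RtB17_9.Ce.right.right.right.left.left.right RtB17_9.CTp.right.left.left.left.left.left.left RtB17_9.CEr.left.right.right.right.right.right.right 0xf02ae0d7fd3b7a4b2489f633a67a3f8f230d2172836453f09f06b189f276079f02b744ee3044589f06b37f2fae709f657b2339d8f520d46973217 = true := by decide +kernel

theorem cB17_9_3_162 : chunkOkM (LB17_9.ctx true true 104 1 1 1 1 1 1 1 1) muQ true true 64 RtB17_9.Cx.left RtB17_9.CX.left.right RtB17_9.Ctp.right.right.right.left.left RtB17_9.Ce.right.right.right.left.left RtB17_9.CTp.right.left.left.left.left.left.left RtB17_9.CEr.left.right.right.right.right.right.right 0x6a = true := by decide +kernel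

theorem cB17_9_3_163 : chunkOkM (LB17_9.ctx true true 104 1 1 1 1 1 1 1 1) muQ true true 64 RtB17_9.Cx.left RtB17_9.CX.right RtB17_9.Ctp.right.right.right.left.left RtB17_9.Ce.right.right.right.left.left RtB17_9.CTp.right.left.left.left.left.left.left RtB17_9.CEr.left.right.right.right.right.right.right 0x4a = true := by decide +kernel

theorem cB17_9_3_164 : chunkOkM (LB17_9.ctx true true 104 1 1 1 1 1 1 1 1) muQ true true 64 RtB17_9.Cx.left RtB17_9.CX RtB17_9.Ctp.right.right.right.left.left RtB17_9.Ce.right.right.right.left.left RtB17_9.CTp.right.left.left.left.left.left.right RtB17_9.CEr.left.right.right.right.right.right.right 0x6a = true := by decide +kernel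

theorem cB17_9_3_165 : chunkOkM (LB17_9.ctx true true 104 1 1 1 1 1 1 1 1) muQ true true 64 RtB17_9.Cx.left RtB17_9.CX RtB17_9.Ctp.right.right.right.left.left RtB17_9.Ce.right.right.right.left.left RtB17_9.CTp.right.left.left.left.left.right RtB17_9.CEr.left.right.right.right.right.right.right 0x6a = true := by decide +kernel

theorem cB17_9_3_166 : chunkOkM (LB17_9.ctx true true 104 1 1 1 1 1 1 1 1) muQ true true 64 RtB17_9.Cx.left RtB17_9.CX RtB17_9.Ctp.right.right.right.left.left RtB17_9.Ce.right.right.right.left.left RtB17_9.CTp.right.left.left.left.right RtB17_9.CEr.left.right.right.right.right 0x6a = true := by decide +kernel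

theorem cB17_9_3_167 : chunkOkM (LB17_9.ctx true true 104 1 1 1 1 1 1 1 1) muQ true true 64 RtB17_9.Cx.left RtB17_9.CX RtB17_9.Ctp.right.right.right.left.left RtB17_9.Ce.right.right.right.left.left RtB17_9.CTp.right.left.left.right RtB17_9.CEr.left.right.right.right 0x12 = true := by decide +kernel

theorem cB17_9_3_168 : chunkOkM (LB17_9.ctx true true 104 1 1 1 1 1 1 1 1) muQ true true 64 RtB17_9.Cx.left RtB17_9.CX RtB17_9.Ctp.right.right.right.left.left RtB17_9.Ce.right.right.right.left.left RtB17_9.CTp.right.left.right RtB17_9.CEr.left.right.right 0x12 = true := by decide +kernel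

theorem cB17_9_3_169 : chunkOkM (LB17_9.ctx true true 104 1 1 1 1 1 1 1 1) muQ true true 64 RtB17_9.Cx.left RtB17_9.CX RtB17_9.Ctp.right.right.right.left.left RtB17_9.Ce.right.right.right.left.left RtB17_9.CTp.right.right RtB17_9.CEr.left 0x12 = true := by decide +kernel

theorem cB17_9_3_170 : chunkOkM (LB17_9.ctx true true 301 231 128 11 16 1589 4939 128 128) muQ true true 64 RtB17_9.Cx.left.left RtB17_9.CX RtB17_9.Ctp.right.right.right.left.left RtB17_9.Ce.right.right.right.left.left.left RtB17_9.CTp.right RtB17_9.CEr.right 0x21210117deae2c8fd58a1a966c36a484bb99f62a90b2188f240d450878b18fd3b30e5176c2fa9956169f630d52ae336348fd3dad8166c34306bba29f61de87ade8f240d2817a9f78fd34a95e4785c42a169b939f6705a44cd8f240d1d8a4c638fd22257e476c2eb3cd9f0baf630d356342174217 = true := by decide +kernel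

theorem cB17_9_3_171 : chunkOkM (LB17_9.ctx true true 294 119 64 11 16 1589 4961 128 128) muQ true true 64 RtB17_9.Cx.left.right RtB17_9.CX RtB17_9.Ctp.right.right.right.left.left.left RtB17_9.Ce.right.right.right.left.left.left.left RtB17_9.CTp.right.left RtB17_9.CEr.right.left 0x1bb740c38fd1b03f7c76c7748a3be49f630d23697c388fd2e71ca176c52b2b25c19f630d202853318fd28febac76c7f158519f9f630d42031b26f8fd273b20676c6fee8e5809f630d1fa8d5828fd258522376c53a0645809f630d437 = true := by decide +kernel

theorem cB17_9_3_172 : chunkOkM (LB17_9.ctx true true 300 235 128 11 16 1589 5005 128 128) muQ true true 64 RtB17_9.Cx.left.right RtB17_9.CX RtB17_9.Ctp.right.right.right.left.left.left RtB17_9.Ce.right.right.right.left.left.left.right RtB17_9.CTp.right.left RtB17_9.CEr.right.left 0x1ca97c028fd220a51776c6cdad4df19f630d1cbb43988fd1e5c58676c4a7bdb1039f64fe443ad8f540d1e9d8c6d8fd21dbc9d76c601518d219f630d431cb3af648fd245ce20485c910b6edad9f630d2172412efb88fd26c43e776c7632bbb629f630d26566db88fd333135076c5803090059f63b185f418f240d741de3188b8fd22520fb76c6ec253f509f630d69737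 = true := by decide +kernel

theorem cB17_9_3_173 : chunkOkM (LB17_9.ctx true true 288 119 64 11 16 805 2497 128 128) muQ true true 64 RtB17_9.Cx.left.right RtB17_9.CX RtB17_9.Ctp.right.right.right.left.left.right RtB17_9.Ce.right.right.right.left.left.left RtB17_9.CTp.right.left RtB17_9.CEr.right.left 0x300875318fd260c4e576c2ff831c492af630d1fe5915d8fd2ab716676c1bdaac6259f6db7c98ad8f240d723df49028fd2f2e1a076c1244348901af12da75ede79af040d4 = true := by decide +kernel

end Vale.Agent.helper4.Q4
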