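import Vale.Agent.helper4.Q4TreeM
import Vale.Agent.helper4.Q4G.PB18_10

/-!
Checks for pairs of intervals of second moments.
-/

set_option maxRecDepth 100000
set_option linter.unusedVariables false

namespace Vale.Agent.helper4.Q4

theorem cB18_10_3_156 : chunkOkM (LB18_10.ctx true true 269 69 32 13 16 1687 5707 32 35) muQ true true 64 RtB18_10.Cx.right RtB18_10.CX RtB18_10.Ctp.right.right.right.right.left RtB18_10.Ce.right.right.left.right.right.left RtB18_10.CTp.right RtB18_10.CEr 0x11116921e25987fd332151075c85d93668b1a31f3ea8f628dc4acf8f550d1699fff7fd34899de75c5a3cb168b378aef498f62b4426818f550d63369469475f973b979b4ed7557e8f820d6 = true := by decide +kernel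

theorem cB18_10_3_157 : chunkOkM (LB18_10.ctx true true 259 69 32 13 16 847 2873 32 16) muQ true true 64 RtB18_10.Cx.right.left RtB18_10.CX RtB18_10.Ctp.right.right.right.right.left.left RtB18_10.Ce.right.right.left.right.right.right.left RtB18_10.CTp.right RtB18_10.CEr.left 0x12918b15198bc91481ee8f85a6eed6d8f530d = true := by decide +kernel

theorem cB18_10_3_158 : chunkOkM (LB18_10.ctx true true 285 275 128 13 16 3381 5759 32 35) muQ true true 64 RtB18_10.Cx.right.left.left RtB18_10.CX RtB18_10.Ctp.right.right.right.right.left.left.left RtB18_10.Ce.right.right.left.right.right.right.left RtB18_10.CTp.right RtB18_10.CEr.right 0x1744a1f38ed387ed7775c283c65ee8f62b6c4dc38f540d9ddac8c7ed135692375c12bbef478b33c80b6f8f633fa5b2c8f550d61ecedbcd8ed32a670775cbe5adeb58f62ee2d0cb8f540df00f31e7ed209562275cf5eaf068bf3837057f62dd233d88f550d65937187d65388ed3e2d0e675c2bafc4988f6290817818f540d168a777f8ed3219d7375c5131e868b5f904e138f62dcbd2048f550d64 = true := by decide +kernel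

theorem cB18_10_3_159 : chunkOkM (LB18_10.ctx true true 286 275 128 13 16 1701 5759 64 35) muQ true true 64 RtB18_10.Cx.right.left.left RtB18_10.CX RtB18_10.Ctp.right.right.right.right.left.left.right RtB18_10.Ce.right.right.left.right.right.right.left RtB18_10.CTp.right RtB18_10.CEr.right 0x8a87c76fd289570175c4569adab8f6231bd2438f540d3d47d217b95c103fefd8298b3cb5d68749f630d51b8607bd8ed272debe75cab364d68b21926c0e8f540d1dcf30448ed3b7b9bb75c6ba36968b462def328f62694ecec8f550d7168b05088ed36a3b3c75c4c857168bd94368ab8f61d9b30c28f550d46 = true := by decide +kernel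

theorem cB18_10_3_160 : chunkOkM (LB18_10.ctx true true 265 139 64 13 16 847 2873 32 16) muQ true true 64 RtB18_10.Cx.right.left.right RtB18_10.CX RtB18_10.Ctp.right.right.right.right.left.left RtB18_10.Ce.right.right.left.right.right.right.left RtB18_10.CTp.right RtB18_10.CEr.right 0x11bcc597fd3160d3a75c3c3327438f62d8562b48f540d = true := by decide +kernel

theorem cB18_10_3_161 : chunkOkM (LB18_10.ctx true true 259 69 32 13 16 847 2899 32 16) muQ true true 64 RtB18_10.Cx.right.left RtB18_10.CX RtB18_10.Ctp.right.right.right.right.left.left RtB18_10.Ce.right.right.left.right.right.right.right RtB18_10.CTp.right RtB18_10.CEr.left 0x1d32e77a88b2026a7148f89a91e8d88f62c5267468f540d = true := by decide +kernel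

theorem cB18_10_3_162 : chunkOkM (LB18_10.ctx true true 285 275 128 13 16 3381 5785 32 35) muQ true true 64 RtB18_10.Cx.right.left.left RtB18_10.CX RtB18_10.Ctp.right.right.right.right.left.left.left RtB18_10.Ce.right.right.left.right.right.right.right RtB18_10.CTp.right RtB18_10.CEr.right 0x5919cf4ab08ed34460aa75ca7d5a6b48f62e6151808f540d13a20e718ed1f9f82b75c64708c68b3be896a38f6286aec208f550d65935974 = true := by decide +kernel

theorem cB18_10_3_163 : chunkOkM (LB18_10.ctx true true 285 275 128 13 16 1701 5785 64 35) muQ true true 64 RtB18_10.Cx.right.left.left RtB18_10.CX RtB18_10.Ctp.right.right.right.right.left.left.right RtB18_10.Ce.right.right.left.right.right.right.right.left RtB18_10.CTp.right RtB18_10.CEr.right 0x173cc9a38ed40b0b1075c2df856b08f626299e4d8f540d1005ec8a8ed28ece0175c10edc1878b5cb02a8e8f62cc44aba8f550d6606e016fd2990eb275c41091bc48f6227b86928f540d5112fae7795c16dadff2098b3d08aac68f61c67a4718f540d5161fdda38ed377835875c6f1deb68b558a2b988f624b9a8888f550d67 = true := by decide +kernel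

theorem cB18_10_3_164 : chunkOkM (LB18_10.ctx true true 340 8767 4096 13 16 27321 92781 32 35) muQ true true 64 RtB18_10.Cx.right.left.left RtB18_10.CX RtB18_10.Ctp.right.right.right.right.left.left.right RtB18_10.Ce.right.right.left.right.right.right.right.right RtB18_10.CTp.right RtB18_10.CEr.right 0x1a2e9f558ed3d2b16575c4c525e238f6256f7e568f540d795e0767ed151ece075c13b50c778b3e3056928f62ad38a4a8f550d6595959591b1397a98ed3db36ba75c2c9700d449f630d13eb27008ed2ff57d675c827f4068b439aafb159f640d669745975934597593459759359745937 = true := by decide +kernel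

theorem cB18_10_3_165 : chunkOkM (LB18_10.ctx true true 275 139 64 13 16 1701 5811 32 35) muQ true true 64 RtB18_10.Cx.right.left.right RtB18_10.CX RtB18_10.Ctp.right.right.right.right.left.left RtB18_10.Ce.right.right.left.right.right.right.right RtB18_10.CTp.right RtB18_10.CEr.right 0x15d74fd78ed3b0445575c1b5d8ca48f62afb7bad8f540d179856e28ed36b3b1c75c261c9868b22bed0318f62bcc6a7d8f550d6119492d88ed34edea975c19443b68b406fb9088f62730cdc98f550d4f84da657ed31a4ce175c1412b468b2c9a4eab8f635cb5f1c8f550d11379b538ed32a531f75c32e6454e8f63230ab238f540d43 = true := by decide +kernel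

theorem cB18_10_3_166 : chunkOkM (LB18_10.ctx true true 256 69 32 13 16 861 1443 32 16) muQ true true 64 RtB18_10.Cx.right.left RtB18_10.CX RtB18_10.Ctp.right.right.right.right.left.right RtB18_10.Ce.right.right.left.right.right.right RtB18_10.CTp.right RtB18_10.CEr.left 0x4317dcfb88b360a75168f820d = true := by decide +kernel

theorem cB18_10_3_167 : chunkOkM (LB18_10.ctx true true 284 69 32 13 16 6839 23075 32 35) muQ true true 64 RtB18_10.Cx.right.left RtB18_10.CX RtB18_10.Ctp.right.right.right.right.left.right RtB18_10.Ce.right.right.left.right.right.right.left RtB18_10.CTp.right RtB18_10.CEr.right 0x1111691d3bba37fd407eabe75c1d7ccd68b3429444a19f640d14ada947fd327883175cdc5c0f68b3894b7b8b9f640d6694694114333 = true := by decide +kernel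

theorem cB18_10_3_168 : chunkOkM (LB18_10.ctx true true 285 275 128 13 16 1715 5785 64 32) muQ true true 64 RtB18_10.Cx.right.left.left RtB18_10.CX RtB18_10.Ctp.right.right.right.right.left.right.left RtB18_10.Ce.right.right.left.right.right.right.right.left RtB18_10.CTp.right RtB18_10.CEr.right.left 0x1c55fd778ed380815375c49730568b30d22df10608f05b184fa647fd3eab24575cf9faf068ba58899828f61a78d5428f550d57 = true := by decide +kernel

theorem cB18_10_3_169 : chunkOkM (LB18_10.ctx true true 289 275 128 13 16 3437 5811 64 32) muQ true true 64 RtB18_10.Cx.right.left.left RtB18_10.CX RtB18_10.Ctp.right.right.right.right.left.right.left RtB18_10.Ce.right.right.left.right.right.right.right.right RtB18_10.CTp.right RtB18_10.CEr.right.left 0x224cb5728f05bc02a9b6fd3194ab075c122a84878b8e1a25c68f625ddca6b8f550d5278023ed8f05b10728bd08ed343806875c139911578be318ecbd8f6dc574ec7f550d52add22048f05b14eb3867fd3764d8c75c1044b0b78bb40ab7928f61669e0298f550d537 = true := by decide +kernel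

theorem cB18_10_3_170 : chunkOkM (LB18_10.ctx true true 279 137 64 13 16 1729 5811 64 32) muQ true true 64 RtB18_10.Cx.right.left.left RtB18_10.CX RtB18_10.Ctp.right.right.right.right.left.right.right RtB18_10.Ce.right.right.left.right.right.right.right RtB18_10.CTp.right RtB18_10.CEr.right.left 0x2f1903738f02b126418b7fd39705be75c100869578b1063f87869f6f1f18517f250d5694 = true := by decide +kernel

theorem cB18_10_3_171 : chunkOkM (LB18_10.ctx true true 276 137 64 13 16 1729 2899 64 35) muQ true true 64 RtB18_10.Cx.right.left.left RtB18_10.CX RtB18_10.Ctp.right.right.right.right.left.right RtB18_10.Ce.right.right.left.right.right.right.right RtB18_10.CTp.right RtB18_10.CEr.right.right 0xac785d6fd2f7790675c79222d6e8f6136d1b568f240dfc1b076fd22f922175c4403416f926434d8f8f61f2760318f55e958d57f260d350b9dfa0495c172b6eac098bdb57d8e28f630d5 = true := by decide +kernel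

theorem cB18_10_3_172 : chunkOkM (LB18_10.ctx true true 268 139 64 13 16 861 2899 32 35) muQ true true 64 RtB18_10.Cx.right.left.right RtB18_10.CX RtB18_10.Ctp.right.right.right.right.left.right RtB18_10.Ce.right.right.left.right.right.right.right RtB18_10.CTp.right RtB18_10.CEr.right 0x137ada07fd3ebc48175c20d21e04c6 = true := by decide +kernel

theorem cB18_10_3_173 : chunkOkM (LB18_10.ctx true true 259 71 32 13 16 847 2899 32 16) muQ true true 64 RtB18_10.Cx.right.right RtB18_10.CX RtB18_10.Ctp.right.right.right.right.left RtB18_10.Ce.right.right.left.right.right.right RtB18_10.CTp.right RtB18_10.CEr 0x11b2d87e6fd2278bf175c8c3df58b351dd4b38f631b8006f8f550d480db8779b417597c08f820d66943 = true := by decide +kernel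

theorem cB18_10_3_174 : chunkOkM (LB18_10.ctx true true 101 1 1 1 1 1 1 1 1) muQ true true 64 RtB18_10.Cx.right RtB18_10.CX RtB18_10.Ctp.right.right.right.right.right RtB18_10.Ce.right.right.left.right.right RtB18_10.CTp.right RtB18_10.CEr 0x11 = true := by decide +kernel

theorem cB18_10_3_175 : chunkOkM (LB18_10.ctx true true 101 1 1 1 1 1 1 1 1) muQ true true 64 RtB18_10.Cx RtB18_10.CX RtB18_10.Ctp.right.right.left RtB18_10.Ce.right.right.right RtB18_10.CTp.right RtB18_10.CEr 0x59 = true := by decide +kernel

theorem cB18_10_3_176 : chunkOkM (LB18_10.ctx true true 101 1 1 1 1 1 1 1 1) muQ true true 64 RtB18_10.Cx.left RtB18_10.CX RtB18_10.Ctp.right.right.right RtB18_10.Ce.right.right.right.left RtB18_10.CTp.right RtB18_10.CEr 0x21 = true := by decide +kernel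

end Vale.Agent.helper4.Q4
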