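import Vale.Agent.helper4.Q4TreeM
import Vale.Agent.helper4.Q4G.PB18_5

/-!
Checks for pairs of intervals of second moments.
-/

set_option maxRecDepth 100000
set_option linter.unusedVariables false

namespace Vale.Agent.helper4.Q4

theorem cB18_5_3_0 : chunkOkM (LB18_5.ctx true true 97 1 1 1 1 1 1 1 1) muQ true true 64 RtB18_5.Cx RtB18_5.CX RtB18_5.Ctp.left RtB18_5.Ce RtB18_5.CTp RtB18_5.CEr 0x41 = true := by decide +kernel

theorem cB18_5_3_1 : chunkOkM (LB18_5.ctx true true 97 1 1 1 1 1 1 1 1) muQ true true 64 RtB18_5.Cx RtB18_5.CX RtB18_5.Ctp.right.left RtB18_5.Ce RtB18_5.CTp RtB18_5.CEr 0x41 = true := by decide +kernel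

theorem cB18_5_3_2 : chunkOkM (LB18_5.ctx true true 97 1 1 1 1 1 1 1 1) muQ true true 64 RtB18_5.Cx RtB18_5.CX RtB18_5.Ctp.right.right RtB18_5.Ce.left RtB18_5.CTp RtB18_5.CEr 0x11 = true := by decide +kernel

theorem cB18_5_3_3 : chunkOkM (LB18_5.ctx true true 217 17 8 7 32 49 65 16 64) muQ true true 64 RtB18_5.Cx RtB18_5.CX RtB18_5.Ctp.right.right RtB18_5.Ce.right.left RtB18_5.CTp RtB18_5.CEr 0x12754067fd3c35af5029f44cf2d08af9e130d = true := by decide +kernel

theorem cB18_5_3_4 : chunkOkM (LB18_5.ctx true true 252 65 32 7 32 385 1287 16 64) muQ true true 64 RtB18_5.Cx RtB18_5.CX RtB18_5.Ctp.right.right.left RtB18_5.Ce.right.right.left RtB18_5.CTp RtB18_5.CEr 0x4959493fbca96fd2dfc0ac7f684e619c7f533b36837f440d11a4c96fd146d246f8220930c7f670e00a07f53ce216a7f450d1295877a8f04b44747493493 = true := by decide +kernel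

theorem cB18_5_3_5 : chunkOkM (LB18_5.ctx true true 250 33 16 7 32 805 1339 16 64) muQ true true 64 RtB18_5.Cx RtB18_5.CX RtB18_5.Ctp.right.right.right RtB18_5.Ce.right.right.left.left RtB18_5.CTp RtB18_5.CEr 0x114073b787f05b495c9b6f17f05b487375fd1bf7b5f77e108b6f66da94b87f52613a6d7f450d32426116fd1983e96f81c083437f6672dd2a7f540d4736943 = true := by decide +kernel

theorem cB18_5_3_6 : chunkOkM (LB18_5.ctx true true 255 35 16 7 32 805 1391 16 64) muQ true true 64 RtB18_5.Cx RtB18_5.CX RtB18_5.Ctp.right.right.right.left RtB18_5.Ce.right.right.left.right.left RtB18_5.CTp RtB18_5.CEr 0x220930258e66cb03647f526eb58e7f430d108885f8aff98a6f6654fda37f530d152aa037f654396287f520d4749821bb5fdf261b5f84a9febf7f68cf36b67f58877af6f450dabf175fd3c5845f89767fa6f66bdf5f57f524482fd7f450d1bbc9f6fd4a22d5f86bb3a1358f65738ad43c9f511b4387d47af450d3473 = true := by decide +kernel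

theorem cB18_5_3_7 : chunkOkM (LB18_5.ctx true true 252 35 16 7 32 833 1443 16 64) muQ true true 64 RtB18_5.Cx RtB18_5.CX RtB18_5.Ctp.right.right.right.left RtB18_5.Ce.right.right.left.right.right RtB18_5.CTp RtB18_5.CEr 0x17297d6fdc4d14f915632557f6745db9c7f52794bb27f450d512805f94e071767f6436505188f5e005dcde8f440d360950057f05b23ebaa6fd7a93836f673e21907f52fc98017f440d341f4660e78e6722ee527f520d71bb9bd6f85ab5b88e8f5122a1d2089f430d3 = true := by decide +kernel

theorem cB18_5_3_8 : chunkOkM (LB18_5.ctx true true 247 35 16 7 32 427 1443 16 64) muQ true true 64 RtB18_5.Cx RtB18_5.CX RtB18_5.Ctp.right.right.right.right RtB18_5.Ce.right.right.left.right RtB18_5.CTp RtB18_5.CEr 0x2f15e5ab8e65b216637f520d013a3188298e64e5d44b7f5111dfd77f230d19d61f17f649ef6fd7f51566ed87f230d437ecdc5cd7e63a6251a7f5217b4347f230d4 = true := by decide +kernel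

theorem cB18_5_3_9 : chunkOkM (LB18_5.ctx true true 253 71 32 7 32 441 1495 16 64) muQ true true 64 RtB18_5.Cx RtB18_5.CX RtB18_5.Ctp.right.right RtB18_5.Ce.right.right.right RtB18_5.CTp RtB18_5.CEr 0x212617c717f65ed07cf7f513f31237f230d90ed3ff7f05b321714770e208e64d9641d7f51a90bb57f230d2d1535f9247919e7f67f4fdba7f530d31266857f66f8af797f520d4348bdc55fd1ed6c16f826b762d78e68e736b07f55dbc34a7f450d32174593 = true := by decide +kernel

theorem cB18_5_2_0 : chunkOkM (LB18_5.ctx false true 97 1 1 1 1 1 1 1 1) muQ false true 64 RtB18_5.Cx RtB18_5.CX RtB18_5.Ctn RtB18_5.Ce RtB18_5.CTp RtB18_5.CEr 0x49 = true := by decide +kernel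

theorem cB18_5_1_0 : chunkOkM (LB18_5.ctx true false 97 1 1 1 1 1 1 1 1) muQ true false 64 RtB18_5.Cx RtB18_5.CX RtB18_5.Ctp.left RtB18_5.Ce RtB18_5.CTn RtB18_5.CEr 0x41 = true := by decide +kernel

theorem cB18_5_1_1 : chunkOkM (LB18_5.ctx true false 97 1 1 1 1 1 1 1 1) muQ true false 64 RtB18_5.Cx RtB18_5.CX RtB18_5.Ctp.right.left RtB18_5.Ce RtB18_5.CTn RtB18_5.CEr 0x41 = true := by decide +kernel

theorem cB18_5_1_2 : chunkOkM (LB18_5.ctx true false 97 1 1 1 1 1 1 1 1) muQ true false 64 RtB18_5.Cx RtB18_5.CX RtB18_5.Ctp.right.right RtB18_5.Ce.left RtB18_5.CTn RtB18_5.CEr 0x11 = true := by decide +kernel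

theorem cB18_5_1_3 : chunkOkM (LB18_5.ctx true false 211 17 8 7 32 49 65 4 64) muQ true false 64 RtB18_5.Cx RtB18_5.CX RtB18_5.Ctp.right.right RtB18_5.Ce.right.left RtB18_5.CTn RtB18_5.CEr 0x4f13916fd6996a96f8e7a3d22e29f414a6af3ce3ae140d = true := by decide +kernel

theorem cB18_5_1_4 : chunkOkM (LB18_5.ctx true false 241 65 32 7 32 385 663 4 64) muQ true false 64 RtB18_5.Cx RtB18_5.CX RtB18_5.Ctp.right.right.left RtB18_5.Ce.right.right.left RtB18_5.CTn RtB18_5.CEr 0x495949eb6c916fd127db207f67e76b737f53e4cac97f440d484ca46fd1aa18497f67130d587f533caaa87f440d4747493493 = true := by decide +kernel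

theorem cB18_5_1_5 : chunkOkM (LB18_5.ctx true false 244 67 32 7 32 413 1339 4 64) muQ true false 64 RtB18_5.Cx RtB18_5.CX RtB18_5.Ctp.right.right.right RtB18_5.Ce.right.right.left.left RtB18_5.CTn RtB18_5.CEr 0x116127d06fd63e0cb65c6bc25b6f825c700cb8e6532de937f550d495121156fd3340eb77f66fed5167f533fbc877f440d3083136fd25ed9a67f675695577f530d75fa25b6fd1ff48637f66d2c8457f530d4736943 = true := by decide +kernel

theorem cB18_5_1_6 : chunkOkM (LB18_5.ctx true false 254 67 32 7 32 833 1391 4 64) muQ true false 64 RtB18_5.Cx.left RtB18_5.CX RtB18_5.Ctp.right.right.right.left RtB18_5.Ce.right.right.left.right.left RtB18_5.CTn RtB18_5.CEr 0x729055fd1401d165c30ad626f83f5bb067f66c353d97f550d41ed7f6fd643be865c70b4046f82f6aeb47f65cf3e7a7f57917156f260d73fd6cb67f670e54cf7f520d676bde6fd8dd6be65c5b69106f82a6a3617f64f0c7127f5e723406f260d3516ec6fd7dc6b55c8e85fd6f813c40747f6628856a7f550d37460ad4a07f6914baea7f5da3c6c6f430d7929e06fde735786f6751f8f27f530d80a5036f872dd059d8f65d11ada0b9f512e39e7d8baf440d343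 = true := by decide +kernel

theorem cB18_5_1_7 : chunkOkM (LB18_5.ctx true false 236 35 16 7 32 413 689 4 64) muQ true false 64 RtB18_5.Cx.right RtB18_5.CX RtB18_5.Ctp.right.right.right.left RtB18_5.Ce.right.right.left.right.left RtB18_5.CTn RtB18_5.CEr 0x6e4ccf6fd1dc9f26f81a43eafa8e673d0f887f540d493 = true := by decide +kernel

theorem cB18_5_1_8 : chunkOkM (LB18_5.ctx true false 244 35 16 7 32 833 1443 4 64) muQ true false 64 RtB18_5.Cx RtB18_5.CX RtB18_5.Ctp.right.right.right.left RtB18_5.Ce.right.right.left.right.right RtB18_5.CTn RtB18_5.CEr 0x7811526fd12663d47f678d46df7f517a364d7f440d5872d727f64802978b8f5eda958da8f430d3182e1647f673942ac7f520d5ebff96fd24cf596f8c28c896f679153137f52806f507f450d347a9d126fd2377dd65c73bc4f81f8cf1b38e6733dd927f550d71203cf6fd5763586f860a69ef68f51349aee9a9f440d3 = true := by decide +kernel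

theorem cB18_5_1_9 : chunkOkM (LB18_5.ctx true false 255 135 64 7 32 861 1443 4 64) muQ true false 64 RtB18_5.Cx RtB18_5.CX RtB18_5.Ctp.right.right.right.right RtB18_5.Ce.right.right.left.right RtB18_5.CTn RtB18_5.CEr 0x114771656fd5e422965c6b8c1e6f82d7398198e65fc1be87f550d3017a790f6fdae7d6465c22d3e46f84e1aa8c7f65a77e487f512828b57f260d2172177989bc77f02b4056e96fdaa8eca65c76b0ae6f828dd3597f652b06ee7f5c10f95f260d3a1b8886fd9af56465c67f8996f84e3cf297f6524ed797f5352ee797f260d743711013b5a896fd7a828b65c9aaa846f868d6a967f64be65137f550d6514f76fd9c836065c9984356f81f4a92d7f645ce0427f529916d67f260d734c7534e7f00b474 = true := by decide +kernel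

theorem cB18_5_1_10 : chunkOkM (LB18_5.ctx true false 97 1 1 1 1 1 1 1 1) muQ true false 64 RtB18_5.Cx RtB18_5.CX RtB18_5.Ctp.right.right.left RtB18_5.Ce.right.right.right RtB18_5.CTn RtB18_5.CEr 0x59 = true := by decide +kernel

theorem cB18_5_1_11 : chunkOkM (LB18_5.ctx true false 97 1 1 1 1 1 1 1 1) muQ true false 64 RtB18_5.Cx.left RtB18_5.CX RtB18_5.Ctp.right.right.right RtB18_5.Ce.right.right.right.left RtB18_5.CTn RtB18_5.CEr 0x21 = true := by decide +kernel

theorem cB18_5_1_12 : chunkOkM (LB18_5.ctx true false 229 35 16 7 32 203 377 4 64) muQ true false 64 RtB18_5.Cx.right RtB18_5.CX RtB18_5.Ctp.right.right.right.left RtB18_5.Ce.right.right.right.left RtB18_5.CTn RtB18_5.CEr 0xbf515f6fd422a486f81ed608d38e68f8c1947f55f871eb7f450d = true := by decide +kernel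

end Vale.Agent.helper4.Q4
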