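import Vale.Agent.helper4.Q4TreeM
import Vale.Agent.helper4.Q4G.PB18_8

/-!
Checks for pairs of intervals of second moments.
-/

set_option maxRecDepth 100000
set_option linter.unusedVariables false

namespace Vale.Agent.helper4.Q4

theorem cB18_8_3_133 : chunkOkM (LB18_8.ctx true true 274 279 128 9 16 3353 5759 2 16) muQ true true 64 RtB18_8.Cx.right.left.right RtB18_8.CX RtB18_8.Ctp.right.right.right.left.right.right RtB18_8.Ce.right.right.left.right.right.right.left RtB18_8.CTp RtB18_8.CEr 0xbc9ab177fd2240c6128f839b74c7fa9f530d821a4337fd1ebe75f08f8cc1fa767d9f66ccb68db99f540d3adae9fe7fd1dab59c88f8cbadee52c9f6614e7dac69f540d7afb3f787fd1e5070218f892e14e4899f657e59a0119f540d4714e3f57fd1fdb968d8f8f26ce1c0c9f67c5fff2909f5401c86dd8f450d7454ad27fd1e86d54c8f8ca9992a369f6729defaba9f5b6354b398f450d7052e097fd20731d858f8100dd12f29af6792eba25a9f540d743 = true := by decide +kernel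

theorem cB18_8_3_134 : chunkOkM (LB18_8.ctx true true 274 279 128 9 16 3353 5811 2 16) muQ true true 64 RtB18_8.Cx.right.left RtB18_8.CX RtB18_8.Ctp.right.right.right.left.right.right RtB18_8.Ce.right.right.left.right.right.right.right RtB18_8.CTp RtB18_8.CEr 0x728211e7fd1bf6fe248f81069e85059f672a46db6c9f540d9f5f7ea7fd1f6a1e558f8e0ea48efc9f6656674d0f9f540d73fff7f7fd1e7041648f810d609f0a7af680994d87b9f540d3c7a0ed07fd203ad02a8f86fa49bd7d9f65c4943bcd9f540d74593597 = true := by decide +kernel

theorem cB18_8_3_135 : chunkOkM (LB18_8.ctx true true 106 1 1 1 1 1 1 1 1) muQ true true 64 RtB18_8.Cx.right.right RtB18_8.CX RtB18_8.Ctp.right.right.right.left.right.left RtB18_8.Ce.right.right.left.right.right.right RtB18_8.CTp RtB18_8.CEr 0x49 = true := by decide +kernel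

theorem cB18_8_3_136 : chunkOkM (LB18_8.ctx true true 106 1 1 1 1 1 1 1 1) muQ true true 64 RtB18_8.Cx.right.right RtB18_8.CX RtB18_8.Ctp.right.right.right.left.right.right.left RtB18_8.Ce.right.right.left.right.right.right RtB18_8.CTp RtB18_8.CEr 0x49 = true := by decide +kernel

theorem cB18_8_3_137 : chunkOkM (LB18_8.ctx true true 255 71 32 9 16 1673 2873 2 16) muQ true true 64 RtB18_8.Cx.right.right RtB18_8.CX RtB18_8.Ctp.right.right.right.left.right.right.right RtB18_8.Ce.right.right.left.right.right.right.left RtB18_8.CTp RtB18_8.CEr 0x7f23d977fd1e3887f98f832e1fdd769f647b1d21ea9f5dfc1a27b8f450d = true := by decide +kernel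

theorem cB18_8_3_138 : chunkOkM (LB18_8.ctx true true 278 283 128 9 16 3353 5785 4 16) muQ true true 64 RtB18_8.Cx.right.right.left RtB18_8.CX RtB18_8.Ctp.right.right.right.left.right.right.right RtB18_8.Ce.right.right.left.right.right.right.right.left RtB18_8.CTp RtB18_8.CEr 0x17bab75794af04b8ea8e417fd21f0dde18f87dc904a1b9f6558b5d2eb9f540d10706a728fd1e00b8ce8f8dee85d5fb9f664c5e63fd9f54298945a69f450d54867e2519f05b537 = true := by decide +kernel

theorem cB18_8_3_139 : chunkOkM (LB18_8.ctx true true 283 283 128 9 16 6713 5811 4 16) muQ true true 64 RtB18_8.Cx.right.right.left RtB18_8.CX RtB18_8.Ctp.right.right.right.left.right.right.right RtB18_8.Ce.right.right.left.right.right.right.right.right RtB18_8.CTp RtB18_8.CEr 0x78ad9677fd1feecd798f819c753eea9f646ba8bc639f5e89987898f450d49349399d04007fd23dde27a8f8171842ebe6af675facac689f540d56228cfd99f05b5274ca35c8f8cdb5196379f6bec3ab6bd2af52c2d5dee3febf440d37 = true := by decide +kernel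

theorem cB18_8_3_140 : chunkOkM (LB18_8.ctx true true 106 1 1 1 1 1 1 1 1) muQ true true 64 RtB18_8.Cx.right.right.right RtB18_8.CX RtB18_8.Ctp.right.right.right.left.right.right.right RtB18_8.Ce.right.right.left.right.right.right.right RtB18_8.CTp RtB18_8.CEr 0x49 = true := by decide +kernel

theorem cB18_8_3_141 : chunkOkM (LB18_8.ctx true true 240 33 16 9 16 427 1365 2 16) muQ true true 64 RtB18_8.Cx.left RtB18_8.CX RtB18_8.Ctp.right.right.right.right.left RtB18_8.Ce.right.right.left.right.left.left RtB18_8.CTp RtB18_8.CEr 0x24702a288fd1da6b6376c1c32d4d119f64c9067be9cebf1ce8a1f827a3bf050d = true := by decide +kernel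

theorem cB18_8_3_142 : chunkOkM (LB18_8.ctx true true 296 1039 512 9 16 3367 11089 4 32) muQ true true 64 RtB18_8.Cx.left.left.left RtB18_8.CX RtB18_8.Ctp.right.right.right.right.left.left RtB18_8.Ce.right.right.left.right.left.right.left RtB18_8.CTp RtB18_8.CEr 0x0101219317ce8fd4579b587f856648d5a79f230d6a6216d9ab3e88fd9346d8f76c17352a5353af630d605c8cbb8fd5cfffc176cfd435969b4707037d24af63163810669f250d62174217c972dd17fd7a0d41476c620c5ac359f64517a77409f240d7e5503308fd5c0a3f876c14d993979b121770d985af63331e836a9f250d64533017 = true := by decide +kernel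

theorem cB18_8_3_143 : chunkOkM (LB18_8.ctx true true 284 263 128 9 16 3381 11115 4 32) muQ true true 64 RtB18_8.Cx.left.left.right RtB18_8.CX RtB18_8.Ctp.right.right.right.right.left.left RtB18_8.Ce.right.right.left.right.left.right.left RtB18_8.CTp RtB18_8.CEr 0x111eacb9fa8fd365682276c1af5ef918f8969b73f6c9f623cf9c89d9f250d6a66fb27e368fd834adb476c83bded1c49f614c31a3b99f240d74ab2a778fd8b94a3676c20d81481d3e8fd66ffe5f76c18eb8bb79b35dd2c18f9f6422585da39f250d78ef1c998fd588effd76c12ac3bc79b2eb8dbc1dbaf640d37a43869d8fd5a5c26776c146a25779b25c704707eaf6655219f98f250d4762450af98fd58da54376c111dedf79b4532bf27f3af640d4653 = true := by decide +kernel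

theorem cB18_8_3_144 : chunkOkM (LB18_8.ctx true true 106 1 1 1 1 1 1 1 1) muQ true true 64 RtB18_8.Cx.left.left.left RtB18_8.CX RtB18_8.Ctp.right.right.right.right.left.left RtB18_8.Ce.right.right.left.right.left.right.right RtB18_8.CTp RtB18_8.CEr 0x21 = true := by decide +kernel

theorem cB18_8_3_145 : chunkOkM (LB18_8.ctx true true 284 261 128 9 16 3381 11167 4 32) muQ true true 64 RtB18_8.Cx.left.left.right.left RtB18_8.CX RtB18_8.Ctp.right.right.right.right.left.left.left RtB18_8.Ce.right.right.left.right.left.right.right.left RtB18_8.CTp.left RtB18_8.CEr 0x63227f178fd737506776cd41ee14ee9f6f5843da08f240d5b798feb8fd4839a5d76c144f2f079bd2acc75ad9f648bec4cc49f250d683b2cd98fd4a4c18f76c18bfe3279b46b75545f3af640d7505a2d58fd5536fd876c130b6c779b345f05680caf640d436 = true := by decide +kernel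

theorem cB18_8_3_146 : chunkOkM (LB18_8.ctx true true 284 263 128 9 16 3381 11167 4 32) muQ true true 64 RtB18_8.Cx.left.left.right.right RtB18_8.CX RtB18_8.Ctp.right.right.right.right.left.left.left RtB18_8.Ce.right.right.left.right.left.right.right.left RtB18_8.CTp.left RtB18_8.CEr 0x46a123548fd7165cff76c149c627199af630d728599398fd5e1a09676c16bd3ee79b3edbe80d3aaf640d6493f7648fd4ec012176cc0b66269b2a7477b7eaaf640d378bb67ab8fd58f825476c13ec68679b1d2ec60da9af640d46 = true := by decide +kernel

theorem cB18_8_3_147 : chunkOkM (LB18_8.ctx true true 267 131 64 9 16 1701 5577 4 16) muQ true true 64 RtB18_8.Cx.left.left.right RtB18_8.CX RtB18_8.Ctp.right.right.right.right.left.left.right RtB18_8.Ce.right.right.left.right.left.right.right.left RtB18_8.CTp.left RtB18_8.CEr 0x33c7e7079b548c3e5239f11e56956adbaf030d = true := by decide +kernel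

end Vale.Agent.helper4.Q4
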