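import Vale.Agent.helper4.Q4TreeM
import Vale.Agent.helper4.Q4G.PB18_8

/-!
Checks for pairs of intervals of second moments.
-/

set_option maxRecDepth 100000
set_option linter.unusedVariables false

namespace Vale.Agent.helper4.Q4

theorem cB18_8_3_268 : chunkOkM (LB18_8.ctx true true 294 555 256 9 16 3465 23491 4 32) muQ true true 64 RtB18_8.Cx.right.left.right RtB18_8.CX RtB18_8.Ctp.right.right.right.right.left.right.right RtB18_8.Ce.right.right.right.left.left.left.left RtB18_8.CTp RtB18_8.CEr 0x1c9552f78fd492e41a7f811b6b597a9f62a12a98ab9f540d6a669e1e04c0129855138fd239ddcd76c5f34832888af630d13eac9308fd246a75776c4c9d76225eaf630d4731ba9c60b8fd2eb57d376c30630ac7d2af630d476945 = true := by decide +kernel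

theorem cB18_8_3_269 : chunkOkM (LB18_8.ctx true true 291 551 256 9 16 3465 11765 4 32) muQ true true 64 RtB18_8.Cx.right.left.left RtB18_8.CX RtB18_8.Ctp.right.right.right.right.left.right RtB18_8.Ce.right.right.right.left.left.left.right RtB18_8.CTp RtB18_8.CEr 0x212121cd13608fd181a80976c51e5debcf0af630d6a635f779c76c6fe6ccb5d0af620d3ff053db8fd2f85a2d76c1323d2a79b7ed2c407f83cc399f3ccaf650d6542176932174593 = true := by decide +kernel

theorem cB18_8_3_270 : chunkOkM (LB18_8.ctx true true 290 559 256 9 16 3437 11817 4 32) muQ true true 64 RtB18_8.Cx.right.left.right RtB18_8.CX RtB18_8.Ctp.right.right.right.right.left.right.left RtB18_8.Ce.right.right.right.left.left.left.right RtB18_8.CTp RtB18_8.CEr 0x591b11b6bf8fd1486732f8f88dc4546049f62ee0f11519f540d6a64ef7b54109f05b5597459359717bb22e58fd31844d376c1fc373688f85f785dbdd9f63717725be9f550d6a622fa9666c97133b3df9f644f41ebe09f530d559137a702a8fdb4f23b77f8da7b268e89f63d03fc2359f540d6a6390acce7fd109e900f80af635a2b7b7a9f530d5597459374 = true := by decide +kernel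

theorem cB18_8_3_271 : chunkOkM (LB18_8.ctx true true 295 555 256 9 16 6909 23543 4 16) muQ true true 64 RtB18_8.Cx.right.left.right.left RtB18_8.CX RtB18_8.Ctp.right.right.right.right.left.right.right.left RtB18_8.Ce.right.right.right.left.left.left.right.left RtB18_8.CTp.left RtB18_8.CEr 0x112c05558fd1db686e76c467d19afb0af630d52e1e79d6daf06b3697e4781027fd17650c876c4b62056e41af6e870af67f540da4478567fd15c941176c533f83ad3eaf630d4144e4a408fd282ccdc76c57d6884a53af630df22dff97fd1bab5c476c7c0d383c15af630d374 = true := by decide +kernel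

theorem cB18_8_3_272 : chunkOkM (LB18_8.ctx true true 291 555 256 9 16 3465 11791 4 32) muQ true true 64 RtB18_8.Cx.right.left.right.left RtB18_8.CX RtB18_8.Ctp.right.right.right.right.left.right.right.right RtB18_8.Ce.right.right.right.left.left.left.right.left RtB18_8.CTp.left RtB18_8.CEr 0x286370538fd39baf4976c1abc6aae67af630d45e9bf2e8fd295a4a876c1309c6c79bc95f066f8291db8bf92af650d63b8b90a76c3f79074e53af620d4917cf9e8fd335da6676c1671aa779b57c6360cecaf640d673a7a507154af06b10c1d13d8fd3195fb476c17c1aedffcaf630d52895f7f8fd3a48c6076c19cec9b79bdd4b97d7f82362085526af650d674 = true := by decide +kernel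

theorem cB18_8_3_273 : chunkOkM (LB18_8.ctx true true 281 279 128 9 16 3465 11791 4 16) muQ true true 64 RtB18_8.Cx.right.left.right.right RtB18_8.CX RtB18_8.Ctp.right.right.right.right.left.right.right RtB18_8.Ce.right.right.right.left.left.left.right.left RtB18_8.CTp.left RtB18_8.CEr 0x03d2a1b66c1eae4670a2af62fd9ca6479f530d304 = true := by decide +kernel

theorem cB18_8_3_274 : chunkOkM (LB18_8.ctx true true 271 139 64 9 16 1729 5889 4 32) muQ true true 64 RtB18_8.Cx.right.left.right RtB18_8.CX RtB18_8.Ctp.right.right.right.right.left.right.right RtB18_8.Ce.right.right.right.left.left.left.right.left RtB18_8.CTp.right RtB18_8.CEr 0x230acd538fd3f6b1ce76c1f9db0d48f83f47711279f62b51e2c609f550d6a6 = true := by decide +kernel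

theorem cB18_8_3_275 : chunkOkM (LB18_8.ctx true true 295 555 256 9 16 6937 11843 4 32) muQ true true 64 RtB18_8.Cx.right.left.right.left RtB18_8.CX RtB18_8.Ctp.right.right.right.right.left.right.right RtB18_8.Ce.right.right.right.left.left.left.right.right RtB18_8.CTp RtB18_8.CEr 0x2027b5988fd94d6b166c84a0b23a99f62648479b39f540d6a6167d80d78fd2f3050d76c6c9753c6d6af630d13452a858fd299fc0f76c4b99e37350af630d1532e2008fd28f38ae085c68312bba6eaf630d345697693 = true := by decide +kernel

end Vale.Agent.helper4.Q4
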