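import Vale.Agent.helper4.Q4TreeM
import Vale.Agent.helper4.Q4G.PB18_9

/-!
Checks for pairs of intervals of second moments.
-/

set_option maxRecDepth 100000
set_option linter.unusedVariables false

namespace Vale.Agent.helper4.Q4

theorem cB18_9_3_138 : chunkOkM (LB18_9.ctx true true 300 265 128 11 16 3353 11219 128 64) muQ true true 64 RtB18_9.Cx.left.right.left.left RtB18_9.CX RtB18_9.Ctp.right.right.right.left.right.right.right.right RtB18_9.Ce.right.right.left.right.left.right.right.right RtB18_9.CTp.right RtB18_9.CEr.right 0x3242d0b7fd357d95e75c17142fb269f6b09ea7968f540d6e581167fdcd1e24075c1421f11739f67f3736828f540d54b81d227fd397489b7f9123fa46219f6905439428f540d76429137fdd1713e775c18469c0209f67aa35ecb8f540d54 = true := by decide +kernel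

theorem cB18_9_3_139 : chunkOkM (LB18_9.ctx true true 297 267 128 11 16 3353 5603 128 64) muQ true true 64 RtB18_9.Cx.left.right.left.right RtB18_9.CX RtB18_9.Ctp.right.right.right.left.right.right.right RtB18_9.Ce.right.right.left.right.left.right.right.right RtB18_9.CTp.right RtB18_9.CEr.right 0x8cddffff8f05b5f59d8b7fdb94e49b75c2050431b39f68862eabf8f540d54cd9c1b7fd97ea35c75c9a7deee78f6af2ac2f78f540d3 = true := by decide +kernel

theorem cB18_9_3_140 : chunkOkM (LB18_9.ctx true true 283 135 64 11 16 1673 5603 64 64) muQ true true 64 RtB18_9.Cx.left.right.right RtB18_9.CX RtB18_9.Ctp.right.right.right.left.right.right RtB18_9.Ce.right.right.left.right.left.right.right RtB18_9.CTp.right RtB18_9.CEr 0x42ad05f7fd7d362566c98ca20968f530d16d707948f01c63efd51b7fd7eefac275cbf8602b18f6da1394f58f540d141953908fd16d13c1b85cd7bcb9c48f530d63ecfb577fd71d92c66cccac75208f6da4ee21e8f540d152279968fd1501c8d2e9f61069414729f530d643 = true := by decide +kernel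

theorem cB18_9_3_141 : chunkOkM (LB18_9.ctx true true 103 1 1 1 1 1 1 1 1) muQ true true 64 RtB18_9.Cx.right RtB18_9.CX RtB18_9.Ctp.right.right.right.left.left RtB18_9.Ce.right.right.left.right.left RtB18_9.CTp RtB18_9.CEr 0x49 = true := by decide +kernel

theorem cB18_9_3_142 : chunkOkM (LB18_9.ctx true true 103 1 1 1 1 1 1 1 1) muQ true true 64 RtB18_9.Cx.right RtB18_9.CX RtB18_9.Ctp.right.right.right.left.right RtB18_9.Ce.right.right.left.right.left.left RtB18_9.CTp RtB18_9.CEr 0x69 = true := by decide +kernel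

theorem cB18_9_3_143 : chunkOkM (LB18_9.ctx true true 290 139 64 21 32 1645 2795 256 32) muQ true true 64 RtB18_9.Cx.right RtB18_9.CX RtB18_9.Ctp.right.right.right.left.right.left RtB18_9.Ce.right.right.left.right.left.right RtB18_9.CTp.left RtB18_9.CEr 0x4a49204609fe99f04b35ead697fdba210969b3c06136f8bf98812c8f612ad008c69f550d34013487fdafeea369b13cd6007f8471049788f612fb688709f5229d81f78f460d373b421ab7fd8e197e69b21b8c847f818811419b9f615c357fbf9f5462337788f460d474a58425 = true := by decide +kernel

theorem cB18_9_3_144 : chunkOkM (LB18_9.ctx true true 283 137 64 11 16 1631 5551 64 64) muQ true true 64 RtB18_9.Cx.right.left RtB18_9.CX RtB18_9.Ctp.right.right.right.left.right.left RtB18_9.Ce.right.right.left.right.left.right.left RtB18_9.CTp.right RtB18_9.CEr 0x69491d102f07fd1fbb3666c1cee4998b9f615e4e736a9f54d3f06b58f450db22a50d7fd26496766c15b70a9e49f615f18fa359f5381ddbf58f450d676943 = true := by decide +kernel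

theorem cB18_9_3_145 : chunkOkM (LB18_9.ctx true true 303 545 256 11 16 3269 5577 128 64) muQ true true 64 RtB18_9.Cx.right.left.left RtB18_9.CX RtB18_9.Ctp.right.right.right.left.right.left.left RtB18_9.Ce.right.right.left.right.left.right.right.left RtB18_9.CTp.right RtB18_9.CEr 0xc6f6856fd26b56067f81ddec7c599f6155e4e2289f56d047fa48f450d45e992a609f04b2f2180e7fd29041ea75ccdd615ac8f612534b4c79f540d1469b8158fd791422eb8f612bf727289f530d649243ec8e7fd469c9f875c15291a7879f6132f1a8709f5e052a5ca8f450da870de17fd108d8ed75cb414bb548f613de094a69f540d67375 = true := by decide +kernel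

theorem cB18_9_3_146 : chunkOkM (LB18_9.ctx true true 305 275 128 11 16 13097 5603 128 64) muQ true true 64 RtB18_9.Cx.right.left.left RtB18_9.CX RtB18_9.Ctp.right.right.right.left.right.left.left RtB18_9.Ce.right.right.left.right.left.right.right.right RtB18_9.CTp.right RtB18_9.CEr 0x12874947fd9c34616f915a91637f7808f4fd68f612db383da9f55893c0088f460d2c1e1747fd2dcd80675ceb3d6e058f6122d5e0b39f5499803b08f450d8c599cb7f06c6493493493292130b7fd46e3dc075c282f32bb99f61a29df2349f599a51727f450dd1d6ac47fdbaf41d3e8f613d009a829f530d61fd31a67fd16432f2b8f89179657689f51cb5e9ed00af440d375 = true := by decide +kernel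

theorem cB18_9_3_147 : chunkOkM (LB18_9.ctx true true 103 1 1 1 1 1 1 1 1) muQ true true 64 RtB18_9.Cx.right.left.right RtB18_9.CX RtB18_9.Ctp.right.right.right.left.right.left.left RtB18_9.Ce.right.right.left.right.left.right.right RtB18_9.CTp.right RtB18_9.CEr 0x49 = true := by decide +kernel

theorem cB18_9_3_148 : chunkOkM (LB18_9.ctx true true 283 137 64 11 16 1645 5603 64 64) muQ true true 64 RtB18_9.Cx.right.left RtB18_9.CX RtB18_9.Ctp.right.right.right.left.right.left.right RtB18_9.Ce.right.right.left.right.left.right.right RtB18_9.CTp.right RtB18_9.CEr 0x6918aff1e7fd51761166cb2ee65488f61043bfef79f540d19340a608fdd44d27c28f612fc0e8d89f530d627301847f06c1615f24d8f01c647 = true := by decide +kernel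

theorem cB18_9_3_149 : chunkOkM (LB18_9.ctx true true 103 1 1 1 1 1 1 1 1) muQ true true 64 RtB18_9.Cx.right.right RtB18_9.CX RtB18_9.Ctp.right.right.right.left.right.left RtB18_9.Ce.right.right.left.right.left.right RtB18_9.CTp.right RtB18_9.CEr 0x49 = true := by decide +kernel

theorem cB18_9_3_150 : chunkOkM (LB18_9.ctx true true 103 1 1 1 1 1 1 1 1) muQ true true 64 RtB18_9.Cx.right RtB18_9.CX RtB18_9.Ctp.right.right.right.left.right.right RtB18_9.Ce.right.right.left.right.left.right RtB18_9.CTp RtB18_9.CEr 0x69 = true := by decide +kernel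

theorem cB18_9_3_151 : chunkOkM (LB18_9.ctx true true 242 17 8 11 16 399 715 32 32) muQ true true 64 RtB18_9.Cx RtB18_9.CX RtB18_9.Ctp.right.right.right.left.left RtB18_9.Ce.right.right.left.right.right RtB18_9.CTp RtB18_9.CEr 0x43ab17c79b15d9a123f9af5470d4cad25af430d = true := by decide +kernel

theorem cB18_9_3_152 : chunkOkM (LB18_9.ctx true true 103 1 1 1 1 1 1 1 1) muQ true true 64 RtB18_9.Cx.left.left RtB18_9.CX RtB18_9.Ctp.right.right.right.left.right RtB18_9.Ce.right.right.left.right.right.left RtB18_9.CTp RtB18_9.CEr 0x59 = true := by decide +kernel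

theorem cB18_9_3_153 : chunkOkM (LB18_9.ctx true true 103 1 1 1 1 1 1 1 1) muQ true true 64 RtB18_9.Cx.left.right RtB18_9.CX RtB18_9.Ctp.right.right.right.left.right RtB18_9.Ce.right.right.left.right.right.left RtB18_9.CTp.left.left RtB18_9.CEr 0x42 = true := by decide +kernel

theorem cB18_9_3_154 : chunkOkM (LB18_9.ctx true true 103 1 1 1 1 1 1 1 1) muQ true true 64 RtB18_9.Cx.left.right RtB18_9.CX RtB18_9.Ctp.right.right.right.left.right RtB18_9.Ce.right.right.left.right.right.left RtB18_9.CTp.left.right.left RtB18_9.CEr 0x4a = true := by decide +kernel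

theorem cB18_9_3_155 : chunkOkM (LB18_9.ctx true true 277 67 32 21 32 819 1417 256 32) muQ true true 64 RtB18_9.Cx.left.right RtB18_9.CX.left RtB18_9.Ctp.right.right.right.left.right.left RtB18_9.Ce.right.right.left.right.right.left RtB18_9.CTp.left.right.right RtB18_9.CEr 0x2ffe96f7fdced95669b331c706f811de12d459f6134aba64e9f550d = true := by decide +kernel

theorem cB18_9_3_156 : chunkOkM (LB18_9.ctx true true 296 135 64 21 32 1673 5655 256 64) muQ true true 64 RtB18_9.Cx.left.right RtB18_9.CX.left RtB18_9.Ctp.right.right.right.left.right.right RtB18_9.Ce.right.right.left.right.right.left.left RtB18_9.CTp.left.right.right RtB18_9.CEr 0x58b38a97fd67cc16475c5fe86369b65ebf1bb8f6d3fa172f8f550d6734aab7fd7ace4869bcd3eb2b18f6d12ea5038f540d613d4d4288fdb7e176475c1852a5ed59f6d0cef49b8f540d86aa9d47fdd17c2465c51ce6d69b159f5a29a9f6cac0241f8f550d6443ebef57fd32351a66c9eeccf69b7a616e558f6100f717069f550d3dc10dc17fdabcebf66c515b5a69b5799ccce8f6c2bea0a48f550d84c31717fd9396ca69bb256388a8f6c9a4ec6b8f540d65937 = true := by decide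 +kernel

theorem cB18_9_3_157 : chunkOkM (LB18_9.ctx true true 296 135 64 21 32 1673 5707 256 64) muQ true true 64 RtB18_9.Cx.left.right RtB18_9.CX.left RtB18_9.Ctp.right.right.right.left.right.right RtB18_9.Ce.right.right.left.right.right.left.right RtB18_9.CTp.left.right.right RtB18_9.CEr 0x36c1cf17fd39a0d266cd3540769bad4f9c608f6f58fe9388f550d94834bf7fde8e4e7375c6f3e5b7a8f6d4b218d48f540d61e0ccd7fd49bbe969b6d5ab4dc8f6e27510308f540d64593597 = true := by decide +kernel

theorem cB18_9_3_158 : chunkOkM (LB18_9.ctx true true 103 1 1 1 1 1 1 1 1) muQ true true 64 RtB18_9.Cx.left.right RtB18_9.CX.right RtB18_9.Ctp.right.right.right.left.right RtB18_9.Ce.right.right.left.right.right.left RtB18_9.CTp.left.right.right RtB18_9.CEr 0x4a = true := by decide +kernel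

theorem cB18_9_3_159 : chunkOkM (LB18_9.ctx true true 306 543 256 11 16 6601 11245 64 64) muQ true true 64 RtB18_9.Cx.left.right RtB18_9.CX RtB18_9.Ctp.right.right.right.left.right.left RtB18_9.Ce.right.right.left.right.right.left RtB18_9.CTp.right RtB18_9.CEr 0x5959592b52deb7fd4a1c20275c16fb829399f612b5095949f540d15f251f28fd7a6d6f3d8f610bbfaa0c9f530d6593597459359745935974 = true := by decide +kernel

theorem cB18_9_3_160 : chunkOkM (LB18_9.ctx true true 103 1 1 1 1 1 1 1 1) muQ true true 64 RtB18_9.Cx.left.right.left RtB18_9.CX RtB18_9.Ctp.right.right.right.left.right.right.left RtB18_9.Ce.right.right.left.right.right.left.left RtB18_9.CTp.right RtB18_9.CEr 0x59 = true := by decide +kernel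

theorem cB18_9_3_161 : chunkOkM (LB18_9.ctx true true 280 133 64 11 16 1673 2821 64 64) muQ true true 64 RtB18_9.Cx.left.right.left RtB18_9.CX RtB18_9.Ctp.right.right.right.left.right.right.right RtB18_9.Ce.right.right.left.right.right.left.left RtB18_9.CTp.right RtB18_9.CEr.left 0x16be038e8fd5a4b366c8f6d3c4b45d8f530d = true := by decide +kernel

end Vale.Agent.helper4.Q4
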