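import Vale.Agent.helper4.Q4TreeM
import Vale.Agent.helper4.Q4G.PB18_9

/-!
Checks for pairs of intervals of second moments.
-/

set_option maxRecDepth 100000
set_option linter.unusedVariables false

namespace Vale.Agent.helper4.Q4

theorem cB18_9_3_299 : chunkOkM (LB18_9.ctx true true 283 137 64 11 16 1715 5811 64 64) muQ true true 64 RtB18_9.Cx.right.left.left RtB18_9.CX RtB18_9.Ctp.right.right.right.right.left.right.left RtB18_9.Ce.right.right.left.right.right.right.right.right RtB18_9.CTp.right RtB18_9.CEr.left 0x3473b8e58fd101b759ec9f6b4c433938f530d = true := by decide +kernel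

theorem cB18_9_3_300 : chunkOkM (LB18_9.ctx true true 301 273 128 11 16 3437 11635 128 64) muQ true true 64 RtB18_9.Cx.right.left.left.left RtB18_9.CX RtB18_9.Ctp.right.right.right.right.left.right.left RtB18_9.Ce.right.right.left.right.right.right.right.right RtB18_9.CTp.right RtB18_9.CEr.right 0x3859ef77fd774186e75cead71f4d19f630d50ab9e47fdba1233e75c15c02f678b6b6112c599f640d5130135f7fd7aa80ab75c5f2096df19f630d52a87137fda7b6a0f75c230b8fd78b8caf04b299f640d543cc36607fdaad20b775c13005cead5af630d1cfba0a7fd76eb19375c17a770d9a9f699f4e0ae8f540d54516707fdb95a95275c60a92668b3361f88ac9f688aafce38f550d543 = true := by decide +kernel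

theorem cB18_9_3_301 : chunkOkM (LB18_9.ctx true true 301 275 128 11 16 3437 11635 128 64) muQ true true 64 RtB18_9.Cx.right.left.left.right RtB18_9.CX RtB18_9.Ctp.right.right.right.right.left.right.left RtB18_9.Ce.right.right.left.right.right.right.right.right RtB18_9.CTp.right RtB18_9.CEr.right 0x18d9e347fd68d94bd75cb0ad885069f630d3caaa147fdb27607b75c3b4f3a678b5dd058b349f63b18e0678f550d53a00ddd7fdad65f7d75c18d6a87fb9f69ada80a78f540d3dbe3e17fda6404d575c237c526689f68fb90fcd8f540d43 = true := by decide +kernel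

theorem cB18_9_3_302 : chunkOkM (LB18_9.ctx true true 294 273 128 11 16 1729 5811 128 64) muQ true true 64 RtB18_9.Cx.right.left.left RtB18_9.CX RtB18_9.Ctp.right.right.right.right.left.right.right RtB18_9.Ce.right.right.left.right.right.right.right RtB18_9.CTp.right RtB18_9.CEr 0x691b89d007fd6575e8575c6e3ba3dce9f630d54ad5d97fdaf7b11b75c1fea7cb78b43a81e13f9f66220da9c8f250d5769416e5b6c88fd3b756ff4c9f6898ec5698f230d6 = true := by decide +kernel

theorem cB18_9_3_303 : chunkOkM (LB18_9.ctx true true 276 139 64 11 16 861 2899 64 64) muQ true true 64 RtB18_9.Cx.right.left.right RtB18_9.CX RtB18_9.Ctp.right.right.right.right.left.right RtB18_9.Ce.right.right.left.right.right.right.right RtB18_9.CTp.right RtB18_9.CEr 0x3d1c1857fd8fed9866c26a62847f930d9c423037f01c6 = true := by decide +kernel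

theorem cB18_9_3_304 : chunkOkM (LB18_9.ctx true true 305 281 128 11 16 3381 11635 256 64) muQ true true 64 RtB18_9.Cx.right.right RtB18_9.CX RtB18_9.Ctp.right.right.right.right.left RtB18_9.Ce.right.right.left.right.right.right RtB18_9.CTp RtB18_9.CEr 0x11696926a8ab67fd25d7906f81ea411b8c9f6118fd9bab9f540d6922a625c7fdf5917965c1d52ad97f92b527eefa9f614441bf339f550dfe756537fd86a437e75c2d4970308f61179f5ed19f540d6d3288f6fd4b2ba2075c8cb8962c8f610ecc63de9f540df86085c7fd13a2f87c85c1ecd0fa8d9f6151b605d99f540d647376943694328ccc407fd3476c066cf37c5769b102d1ba559f6107e4c9c69f550d4a54255 = true := by decide +kernel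

theorem cB18_9_3_305 : chunkOkM (LB18_9.ctx true true 103 1 1 1 1 1 1 1 1) muQ true true 64 RtB18_9.Cx.right RtB18_9.CX RtB18_9.Ctp.right.right.right.right.right RtB18_9.Ce.right.right.left.right.right RtB18_9.CTp RtB18_9.CEr 0x11 = true := by decide +kernel

theorem cB18_9_3_306 : chunkOkM (LB18_9.ctx true true 103 1 1 1 1 1 1 1 1) muQ true true 64 RtB18_9.Cx RtB18_9.CX RtB18_9.Ctp.right.right.left RtB18_9.Ce.right.right.right RtB18_9.CTp RtB18_9.CEr 0x59 = true := by decide +kernel

theorem cB18_9_3_307 : chunkOkM (LB18_9.ctx true true 103 1 1 1 1 1 1 1 1) muQ true true 64 RtB18_9.Cx.left RtB18_9.CX RtB18_9.Ctp.right.right.right RtB18_9.Ce.right.right.right.left RtB18_9.CTp RtB18_9.CEr 0x21 = true := by decide +kernel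

theorem cB18_9_3_308 : chunkOkM (LB18_9.ctx true true 284 141 64 11 16 1673 2925 128 64) muQ true true 64 RtB18_9.Cx.right RtB18_9.CX RtB18_9.Ctp.right.right.right.left RtB18_9.Ce.right.right.right.left RtB18_9.CTp RtB18_9.CEr 0x59594959423f9166c12a3fb77f9a6873d7a8f61324873af9f568650ab48f450dbaf77197fd63c8d1475c370f1bbb8f6127f69c6d9f545d449b38f450d62b0208f7fd53ae8966c10bffb079bc22ad6718f61501b93059f548841adf8f460d42554749349359744934 = true := by decide +kernel

theorem cB18_9_3_309 : chunkOkM (LB18_9.ctx true true 103 1 1 1 1 1 1 1 1) muQ true true 64 RtB18_9.Cx.right.left RtB18_9.CX RtB18_9.Ctp.right.right.right.right.left RtB18_9.Ce.right.right.right.left.left.left RtB18_9.CTp.left.left RtB18_9.CEr 0x42 = true := by decide +kernel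

theorem cB18_9_3_310 : chunkOkM (LB18_9.ctx true true 103 1 1 1 1 1 1 1 1) muQ true true 64 RtB18_9.Cx.right.left RtB18_9.CX RtB18_9.Ctp.right.right.right.right.left RtB18_9.Ce.right.right.right.left.left.left RtB18_9.CTp.left.right.left RtB18_9.CEr 0x4a = true := by decide +kernel

theorem cB18_9_3_311 : chunkOkM (LB18_9.ctx true true 286 139 64 21 32 847 2925 256 32) muQ true true 64 RtB18_9.Cx.right.left RtB18_9.CX.left RtB18_9.Ctp.right.right.right.right.left.left RtB18_9.Ce.right.right.right.left.left.left RtB18_9.CTp.left.right.right RtB18_9.CEr 0x592d030d17fd4f0e4066cb2526c69b100761ae59f611314009c9f550d23702437fd4e904266c118a23e79b4e8db6af8f610b24d85f9f550d74 = true := by decide +kernel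

theorem cB18_9_3_312 : chunkOkM (LB18_9.ctx true true 322 1103 512 21 32 3437 11713 256 64) muQ true true 64 RtB18_9.Cx.right.left.left RtB18_9.CX.left RtB18_9.Ctp.right.right.right.right.left.right.left RtB18_9.Ce.right.right.right.left.left.left.left RtB18_9.CTp.left.right.right RtB18_9.CEr 0x591c93193c8fd23306b2b85cbac30469b9d6e225609f63938415d8f550d4df3bbb7fd3a2449575c8b9806f78bf90cb947b9f640d6697459759321757561ad7fdcbb765075c35b5be69b4caa39d18f6c789eb4d8f550d67e90647fd4b1319475c6cd32469b19542f5c29f6b8a26e7c8f550d64 = true := by decide +kernel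

theorem cB18_9_3_313 : chunkOkM (LB18_9.ctx true true 309 275 128 21 32 1729 5863 256 256) muQ true true 64 RtB18_9.Cx.right.left.left RtB18_9.CX.left RtB18_9.Ctp.right.right.right.right.left.right.right RtB18_9.Ce.right.right.right.left.left.left.left RtB18_9.CTp.left.right.right RtB18_9.CEr 0x2214958d8fd2a31571e85c3bcefb69b198d2bc9e9f689b6aafd8f5213bc1928f260d7cd58e07fd750a0a975c7dbd0469b1b299ef7d9f6931b35768f51fe14ee98f260d6217f86b1407fd166e2ee285c5c388269b10a98736e9f695188cd48f539d180e58f260d2354a3f7fd4224cf66c5bb9ab69b4ef32e5299f636dde6b58f550d91bcc747fde1bb5e66c57b5ff69b62f7143a99f66868cfe58f250d76a612664 = true := by decide +kernel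

theorem cB18_9_3_314 : chunkOkM (LB18_9.ctx true true 303 279 128 21 32 1729 5863 256 64) muQ true true 64 RtB18_9.Cx.right.left.right RtB18_9.CX.left RtB18_9.Ctp.right.right.right.right.left.right RtB18_9.Ce.right.right.right.left.left.left.left RtB18_9.CTp.left.right.right RtB18_9.CEr 0xffa79507fdfda6b066c52fff969b24b6c71379f68f7c679c8f550d71bee387fd615c3466c69f1b769b1953b48459f69ddff3538f550d62fce6477fd5ea1f7275ca53a9c69b1dabfd0b99f6e9a2f5a08f550d558e5a87fd10757d9885c110d2f75f9f6cb03232a8f540df99d9297fdfb01ef975c3beaaa69b8d80199f8f6d6024c6c8f550d67d7aaccc7fdbef8a6175c1a171b0769f6b55d92788f540d11665197fd9e90e569b15468557f824bd1fca69f6c254b8168f550d643 = true := by decide +kernel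

theorem cB18_9_3_315 : chunkOkM (LB18_9.ctx true true 317 551 256 21 32 3465 11765 256 64) muQ true true 64 RtB18_9.Cx.right.left.left RtB18_9.CX.left RtB18_9.Ctp.right.right.right.right.left.right RtB18_9.Ce.right.right.right.left.left.left.right RtB18_9.CTp.left.right.right RtB18_9.CEr 0x212137810647fdfd1784f75cf50611f499f680770d0e8f240dc8706ac7fddc2dd4075c6094e6378b1786e7c64daf640d642176932174593 = true := by decide +kernel

theorem cB18_9_3_316 : chunkOkM (LB18_9.ctx true true 313 555 256 21 32 3437 11765 256 32) muQ true true 64 RtB18_9.Cx.right.left.right RtB18_9.CX.left RtB18_9.Ctp.right.right.right.right.left.right.left RtB18_9.Ce.right.right.right.left.left.left.right RtB18_9.CTp.left.right.right RtB18_9.CEr 0x2cc6cae7fd59022366ca1d3be69bb120d1c88f610ab9581d9f550d2f5acdd7fd61bface75cc0fa7169bc9fd4c4b8f6e5e8e0408f550d5934829877fd63e6e8575c975ef669b2c2f498d49f6d96becec8f550d597459374 = true := by decide +kernel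

end Vale.Agent.helper4.Q4
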