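import Vale.Agent.helper4.Q4TreeM
import Vale.Agent.helper4.Q4G.PB19_10

/-!
Checks for pairs of intervals of second moments.
-/

set_option maxRecDepth 100000
set_option linter.unusedVariables false

namespace Vale.Agent.helper4.Q4

theorem cB19_10_3_172 : chunkOkM (LB19_10.ctx true true 285 305 128 13 16 910 6489 64 35) muQ true true 64 RtB19_10.Cx.right.left.left.left RtB19_10.CX RtB19_10.Ctp.right.right.right.left.left.left.right RtB19_10.Ce.right.right.right.left.left.right.right.right RtB19_10.CTp.right RtB19_10.CEr.right 0x192a88076c23b1acb7f930dc6d368f6da7c6ebc8f540d8aa5179c895c27fed381898b9adda6d849f630d512f5f26685c1bc1cd69bf75133098f6cd976bd08f540d41231040885cf04b3268b11b7f2f469f6eaa0215f8f540d12c3da1e85cf504ab68be3774f368f6e44f2e9c8f540d4312b651676c65d5f569b13c500dc79f6e1825c6b8f540d6 = true := by decide +kernel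

theorem cB19_10_3_173 : chunkOkM (LB19_10.ctx true true 285 307 128 13 16 906 6489 64 35) muQ true true 64 RtB19_10.Cx.right.left.left.right RtB19_10.CX RtB19_10.Ctp.right.right.right.left.left.left.right RtB19_10.Ce.right.right.right.left.left.right.right.right RtB19_10.CTp.right RtB19_10.CEr.right 0x6912f4a64185c12bd1769bb6f2586e8f6f362c5068f540d10b783c76c7720c769b16014b8e89f61033cf4a19f540d61528fe6fd18beee576cc81dbb4b8f530d1241de1185c5d7bd569b4033b51bd9f6129cd0f089f540d543 = true := by decide +kernel

theorem cB19_10_3_174 : chunkOkM (LB19_10.ctx true true 272 155 64 13 16 898 3227 32 16) muQ true true 64 RtB19_10.Cx.right.left.right RtB19_10.CX RtB19_10.Ctp.right.right.right.left.left.left.left RtB19_10.Ce.right.right.right.left.left.right.right.left RtB19_10.CTp.right RtB19_10.CEr.right 0x69ba652727fd1dacd4e0d6ebf6ba68f40694af430d3 = true := by decide +kernel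

theorem cB19_10_3_175 : chunkOkM (LB19_10.ctx true true 284 309 128 13 16 898 6489 64 35) muQ true true 64 RtB19_10.Cx.right.left.right RtB19_10.CX RtB19_10.Ctp.right.right.right.left.left.left.left.left RtB19_10.Ce.right.right.right.left.left.right.right.right RtB19_10.CTp.right RtB19_10.CEr.right 0x4911bd8e276c4007c827f91665bc2a89f61308d39bc9f5219476968f450dacd75473e95c307b4b2c698ba6d460a08f611a88964a9f51c5904d98f450d518d01f976c478820b7f91c581448b9f61114c66299f57cff6ed28f450de3189442195c3fcb5479c98b3f6bf12a8f610535c7a29f52b77620f8f450d5411282945d9f05b1e674ba7fd13bf39e76c4e8e8bf78b188e179ce9f61151225a09f550d567 = true := by decide +kernel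

theorem cB19_10_3_176 : chunkOkM (LB19_10.ctx true true 284 309 128 13 16 902 6489 64 35) muQ true true 64 RtB19_10.Cx.right.left.right RtB19_10.CX RtB19_10.Ctp.right.right.right.left.left.left.left.right RtB19_10.Ce.right.right.right.left.left.right.right.right RtB19_10.CTp.right RtB19_10.CEr.right 0x691ea8d9276c2f091bb7f918fb015fd9f6138052f869f540deefa86d1f95c431f6ed4d98b87e5aea7f6118e2b09f9f540d51037cb176c51888769bd2986f898f610bf6fc039f540d67694 = true := by decide +kernel

theorem cB19_10_3_177 : chunkOkM (LB19_10.ctx true true 103 1 1 1 1 1 1 1 1) muQ true true 64 RtB19_10.Cx.right.left.right RtB19_10.CX RtB19_10.Ctp.right.right.right.left.left.left.right RtB19_10.Ce.right.right.right.left.left.right.right RtB19_10.CTp.right RtB19_10.CEr.right 0x69 = true := by decide +kernel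

theorem cB19_10_3_178 : chunkOkM (LB19_10.ctx true true 103 1 1 1 1 1 1 1 1) muQ true true 64 RtB19_10.Cx.right.right RtB19_10.CX RtB19_10.Ctp.right.right.right.left.left.left RtB19_10.Ce.right.right.right.left.left.right RtB19_10.CTp.right RtB19_10.CEr 0x69 = true := by decide +kernel

theorem cB19_10_3_179 : chunkOkM (LB19_10.ctx true true 241 39 16 13 16 230 805 32 8) muQ true true 64 RtB19_10.Cx.right RtB19_10.CX RtB19_10.Ctp.right.right.right.left.left.right RtB19_10.Ce.right.right.right.left.left.right RtB19_10.CTp.right RtB19_10.CEr 0xe031e26fd55595969bb2b7383cdaaf12382b2f2fcabf040d = true := by decide +kernel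

theorem cB19_10_3_180 : chunkOkM (LB19_10.ctx true true 103 1 1 1 1 1 1 1 1) muQ true true 64 RtB19_10.Cx.right RtB19_10.CX RtB19_10.Ctp.right.right.right.left.right RtB19_10.Ce.right.right.right.left.left RtB19_10.CTp.right RtB19_10.CEr 0x11 = true := by decide +kernel

theorem cB19_10_3_181 : chunkOkM (LB19_10.ctx true true 103 1 1 1 1 1 1 1 1) muQ true true 64 RtB19_10.Cx.left RtB19_10.CX RtB19_10.Ctp.right.right.right.left RtB19_10.Ce.right.right.right.left.right RtB19_10.CTp.right RtB19_10.CEr 0x21 = true := by decide +kernel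

theorem cB19_10_3_182 : chunkOkM (LB19_10.ctx true true 238 39 16 13 16 114 819 32 16) muQ true true 64 RtB19_10.Cx.right RtB19_10.CX RtB19_10.Ctp.right.right.right.left.left RtB19_10.Ce.right.right.right.left.right.left RtB19_10.CTp.right RtB19_10.CEr.left 0x58e8eb1289b3df0574769f82523756739f625a49e9b29f540d = true := by decide +kernel

theorem cB19_10_3_183 : chunkOkM (LB19_10.ctx true true 295 615 256 13 16 1806 6503 64 35) muQ true true 64 RtB19_10.Cx.right.left.left RtB19_10.CX RtB19_10.Ctp.right.right.right.left.left.left.left RtB19_10.Ce.right.right.right.left.right.left.left RtB19_10.CTp.right RtB19_10.CEr.right 0x59591c5d06876c12ec2e77f91e76e03009f612538fd2b9f540d79b27624095c221c85cb998b11bd5e9149f530d5ad227166c32d37a69b31da331f89f611f5685aa9f540d659359745935974 = true := by decide +kernel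

theorem cB19_10_3_184 : chunkOkM (LB19_10.ctx true true 268 153 64 13 16 454 1631 64 32) muQ true true 64 RtB19_10.Cx.right.left.left RtB19_10.CX RtB19_10.Ctp.right.right.right.left.left.left.right RtB19_10.Ce.right.right.right.left.right.left.left RtB19_10.CTp.right RtB19_10.CEr.right.left 0xd25d9a37fdd907d666c873fd0478f6fd07d2058f540d122072d76c963c1669bcd78f3208f61015f289d9f540d5 = true := by decide +kernel

theorem cB19_10_3_185 : chunkOkM (LB19_10.ctx true true 285 307 128 13 16 910 6517 64 35) muQ true true 64 RtB19_10.Cx.right.left.left RtB19_10.CX RtB19_10.Ctp.right.right.right.left.left.left.right RtB19_10.Ce.right.right.right.left.right.left.left.left RtB19_10.CTp.right RtB19_10.CEr.right.right 0x12d3a0f385cdc0cb59ba2c217208f6de13c3e78f540d122dc9bb85c689d5d68b107a28e079f6fa2f96068f540d12445c2885c9ca18468bcb65a71b8f6f64c1b608f540d4328ec1d976c20eb66c4c9f6f8c3086c8f530dd02cc3a3695c3a86e9d4d98b174ed8c48f6db6a2d758f540d511e34d0285c174244678b1687b19759f6eed1f2178f540d37 = true := by decide +kernel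

theorem cB19_10_3_186 : chunkOkM (LB19_10.ctx true true 282 307 128 13 16 910 3269 64 35) muQ true true 64 RtB19_10.Cx.right.left.left RtB19_10.CX RtB19_10.Ctp.right.right.right.left.left.left.right RtB19_10.Ce.right.right.right.left.right.left.left.right RtB19_10.CTp.right RtB19_10.CEr.right.right 0xe46f2966c278a30f7f9c9f1d5268f6fbdaf0468f540dd4bc04c3995c3a1a1e24698b20d511e977fe85c20d45bddc9f61038a07079f530d3597 = true := by decide +kernel

theorem cB19_10_3_187 : chunkOkM (LB19_10.ctx true true 271 155 64 13 16 450 3255 64 32) muQ true true 64 RtB19_10.Cx.right.left.right RtB19_10.CX RtB19_10.Ctp.right.right.right.left.left.left.left RtB19_10.Ce.right.right.right.left.right.left.left.left RtB19_10.CTp.right RtB19_10.CEr.right.left 0x137e54b76c813415d08f6125dff7bf9f540641a7d8f440dde44de66c6fdc5069b861e01848f6131b4ca1f9f543b05aaf8f450d5 = true := by decide +kernel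

theorem cB19_10_3_188 : chunkOkM (LB19_10.ctx true true 284 309 128 13 16 898 6503 64 35) muQ true true 64 RtB19_10.Cx.right.left.right RtB19_10.CX RtB19_10.Ctp.right.right.right.left.left.left.left.left RtB19_10.Ce.right.right.right.left.right.left.left.left RtB19_10.CTp.right RtB19_10.CEr.right.right 0x4959138c62376c4746ea47f9754f01478f611fb95ff49f554f3bb228f450de6d35695895c40bc4db9898b2698e9d88f610e2ea7db9f53509ba048f450d547 = true := by decide +kernel

theorem cB19_10_3_189 : chunkOkM (LB19_10.ctx true true 285 311 128 13 16 902 6517 64 35) muQ true true 64 RtB19_10.Cx.right.left.right RtB19_10.CX RtB19_10.Ctp.right.right.right.left.left.left.left.right RtB19_10.Ce.right.right.right.left.right.left.left.left RtB19_10.CTp.right RtB19_10.CEr.right.right 0x18f2fb376c38a21197f94b32b71819f6115b58e809f5e7faceb88f450d100918ed94a5c4808de16b98b11a5be14d9f539c923608f440d53e75d9afa9f04b416f3dcc76c3ae82af7f94966fc7179f61646b9fc09f540db9cee46a795c342392cd698b19cccbe4a9f613418011a9f540d518f4fc776c2249a027f9fa8951908f61180446d99f540db889d270c95c33f45696698bdff342228f6106af8fb49f540d547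 = true := by decide +kernel

theorem cB19_10_3_190 : chunkOkM (LB19_10.ctx true true 298 619 256 13 16 1806 13055 64 35) muQ true true 64 RtB19_10.Cx.right.left.right RtB19_10.CX RtB19_10.Ctp.right.right.right.left.left.left.left RtB19_10.Ce.right.right.right.left.right.left.left.right RtB19_10.CTp.right RtB19_10.CEr.right 0x11cdafd76c4382d8c7f9806b41ea8f61286e53559f528014d668f450dcac061e1995c38d676fba98b992177118f612aa0e7b79f540d55959298252c76ce2082f2c29f6238db9c409f530d4d438c5a85c18c5629c88b1ad6bec839f530d545935974727f006476c79102be7f9558f7edcf9f51455dd7816af440d37914e6c7fdd6dba966c574a4a808f61243d2b3c9f54da33b218f450de7b98b66c7076ca69b948b70da8f61304ed7f19f580db42d58f450d56 = true := by decide +kernel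

end Vale.Agent.helper4.Q4
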