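import Vale.Agent.helper4.Q4TreeM
import Vale.Agent.helper4.Q4G.PB19_14

/-!
Checks for pairs of intervals of second moments.
-/

set_option maxRecDepth 100000
set_option linter.unusedVariables false

namespace Vale.Agent.helper4.Q4

theorem cB19_14_3_0 : chunkOkM (LB19_14.ctx true true 107 1 1 1 1 1 1 1 1) muQ true true 64 RtB19_14.Cx RtB19_14.CX RtB19_14.Ctp.left RtB19_14.Ce RtB19_14.CTp RtB19_14.CEr 0x41 = true := by decide +kernel

theorem cB19_14_3_1 : chunkOkM (LB19_14.ctx true true 107 1 1 1 1 1 1 1 1) muQ true true 64 RtB19_14.Cx RtB19_14.CX RtB19_14.Ctp.right RtB19_14.Ce.left RtB19_14.CTp RtB19_14.CEr 0x69 = true := by decide +kernel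

theorem cB19_14_3_2 : chunkOkM (LB19_14.ctx true true 107 1 1 1 1 1 1 1 1) muQ true true 64 RtB19_14.Cx RtB19_14.CX RtB19_14.Ctp.right.left RtB19_14.Ce.right RtB19_14.CTp RtB19_14.CEr 0x49 = true := by decide +kernel

theorem cB19_14_3_3 : chunkOkM (LB19_14.ctx true true 107 1 1 1 1 1 1 1 1) muQ true true 64 RtB19_14.Cx RtB19_14.CX RtB19_14.Ctp.right.right RtB19_14.Ce.right.left RtB19_14.CTp RtB19_14.CEr 0x69 = true := by decide +kernel

theorem cB19_14_3_4 : chunkOkM (LB19_14.ctx true true 107 1 1 1 1 1 1 1 1) muQ true true 64 RtB19_14.Cx RtB19_14.CX RtB19_14.Ctp.right.right RtB19_14.Ce.right.right RtB19_14.CTp.left RtB19_14.CEr 0x42 = true := by decide +kernel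

theorem cB19_14_3_5 : chunkOkM (LB19_14.ctx true true 107 1 1 1 1 1 1 1 1) muQ true true 64 RtB19_14.Cx RtB19_14.CX RtB19_14.Ctp.right.right RtB19_14.Ce.right.right RtB19_14.CTp.right.left RtB19_14.CEr 0x42 = true := by decide +kernel

theorem cB19_14_3_6 : chunkOkM (LB19_14.ctx true true 107 1 1 1 1 1 1 1 1) muQ true true 64 RtB19_14.Cx RtB19_14.CX RtB19_14.Ctp.right.right RtB19_14.Ce.right.right RtB19_14.CTp.right.right RtB19_14.CEr.left 0x12 = true := by decide +kernel

theorem cB19_14_3_7 : chunkOkM (LB19_14.ctx true true 107 1 1 1 1 1 1 1 1) muQ true true 64 RtB19_14.Cx RtB19_14.CX RtB19_14.Ctp.right.right.left.left RtB19_14.Ce.right.right.left RtB19_14.CTp.right.right RtB19_14.CEr.right 0x49 = true := by decide +kernel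

theorem cB19_14_3_8 : chunkOkM (LB19_14.ctx true true 107 1 1 1 1 1 1 1 1) muQ true true 64 RtB19_14.Cx RtB19_14.CX RtB19_14.Ctp.right.right.left.right RtB19_14.Ce.right.right.left.left RtB19_14.CTp.right.right RtB19_14.CEr.right 0x69 = true := by decide +kernel

theorem cB19_14_3_9 : chunkOkM (LB19_14.ctx true true 272 73 32 41 32 214 1505 171 26) muQ true true 64 RtB19_14.Cx RtB19_14.CX RtB19_14.Ctp.right.right.left.right RtB19_14.Ce.right.right.left.right.left RtB19_14.CTp.right.right RtB19_14.CEr.right 0x90566567cb3ab2c918f92375b8298f84e784bd1b9f6632b003a39f550d18439a377cbb64d86ab92890ec7f85f7cb8ecf9f677898a11f9f550d511491f04c6494902025f74d267cdd766e9f8f9a5cc0b9e89f6a65bb0b009f56dbc090129f450d1b864567cffb0ca658f913408e0afbaf6b733b00239f54e6d799219f450d4554a2243c343398fd1a2823e77cb132ef6ab34a3226549f699b5f4b079f5431fd9bb79f460d684a54a557769469724247bb2caf7d2cc2af820d64933 = true := by decide +kernel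

theorem cB19_14_3_10 : chunkOkM (LB19_14.ctx true true 265 73 32 41 32 214 763 81 26) muQ true true 64 RtB19_14.Cx RtB19_14.CX RtB19_14.Ctp.right.right.left.right.left RtB19_14.Ce.right.right.left.right.right RtB19_14.CTp.right.right RtB19_14.CEr.right 0x494959359e2a67cf8652b388f95c62d2cd69f6ad5c727d79f587ee90ba19f450d4a2287cccf17fd6c608967c8d59086ab65d3700df9f6b810421ea9f53640286989f460d64a5852dce24f68ab15402bf8e3af89953dfd3a5af63791f01b39f140d6477493 = true := by decide +kernel

theorem cB19_14_3_11 : chunkOkM (LB19_14.ctx true true 229 19 8 21 16 110 385 21 10) muQ true true 64 RtB19_14.Cx RtB19_14.CX RtB19_14.Ctp.right.right.left.right.right RtB19_14.Ce.right.right.left.right.right RtB19_14.CTp.right.right RtB19_14.CEr.right.left 0x592faa07bb239cbf4c51af820d = true := by decide +kernel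

theorem cB19_14_3_12 : chunkOkM (LB19_14.ctx true true 274 75 32 41 32 222 1533 171 30) muQ true true 64 RtB19_14.Cx.left RtB19_14.CX RtB19_14.Ctp.right.right.left.right.right RtB19_14.Ce.right.right.left.right.right.left RtB19_14.CTp.right.right RtB19_14.CEr.right.right 0xbaac8667c41945a6ab3fee8a77e9f6640d8545b9f540dab0cfd67c4b12a56ab4ac6761969f663340b3f49f540d65695551b8f9414afbcb2d5bf63cf95dec514bf430d02021a037cce8fdfd0cd967c28f6c26ab572ec71d29f69ce4174f59f550d8326d5e599f05b6beebb067c2bde97ba8f9b3daf586b9f6895b94d799f540d4554a22d5590367c1094ed07ab3a9e14cb69f67c2f5317f9f540d684a54a5573 = true := by decide +kernel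

theorem cB19_14_3_13 : chunkOkM (LB19_14.ctx true true 279 149 64 41 32 218 1561 171 30) muQ true true 64 RtB19_14.Cx.left RtB19_14.CX RtB19_14.Ctp.right.right.left.right.right.left RtB19_14.Ce.right.right.left.right.right.right RtB19_14.CTp.right.right RtB19_14.CEr.right.right 0x020249b5f18567c825011aa8f9d62cbdff09f6b4d588af59f558e7801049f450d29fec457fd17b81bc77c3de9896ab598df2b3a9f6a744eba609f5bf9562298f460d8ea71e40e9f05b647aea974418fd219c43f77cbb01166ab40813f4f89f6aa06eb8ac9f550d1e3e556e8fd17bdd0f77c9428edb9c9f6b582b9c919f540d67554a2214e4ec678fd102fd4d77c11f04407ab3910145379f69e449f9f19f52947e7a9d9f460d64a585 = true := by decide +kernel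

theorem cB19_14_3_14 : chunkOkM (LB19_14.ctx true true 270 75 32 41 32 222 777 171 30) muQ true true 64 RtB19_14.Cx.left RtB19_14.CX RtB19_14.Ctp.right.right.left.right.right.right RtB19_14.Ce.right.right.left.right.right.right RtB19_14.CTp.right.right RtB19_14.CEr.right.right 0x9640d967cc9458a848f91d37648f8f87511d595e9f685807a53a9f550d4a22f2ebb467c53e0edfe39f6875e36ada9f530d684a54a5502021d8fb2d77c2dc8a56ab555879d829f679860342e9f540d71a6abcd8fd1c4c382a89f96333a48a8f82a79f69119f67c42248b09f550d6554a221c5a4fd77cb1ec016ab471ad3ccf9f68c6f90ae49f540d64a5857 = true := by decide +kernel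

theorem cB19_14_3_15 : chunkOkM (LB19_14.ctx true true 237 39 16 21 16 110 385 21 14) muQ true true 64 RtB19_14.Cx.right RtB19_14.CX RtB19_14.Ctp.right.right.left.right.right RtB19_14.Ce.right.right.left.right.right RtB19_14.CTp.right.right RtB19_14.CEr.right.right 0x1a43c02949af04b = true := by decide +kernel

theorem cB19_14_3_16 : chunkOkM (LB19_14.ctx true true 237 19 8 21 16 114 777 21 30) muQ true true 64 RtB19_14.Cx RtB19_14.CX RtB19_14.Ctp.right.right.right RtB19_14.Ce.right.right.left RtB19_14.CTp.right.right RtB19_14.CEr.right 0x011112f06f277c4829ca6ab4879c4678f69e20e87cc9f040d88bc0011d9f00b61147e7837d839f00b611431143 = true := by decide +kernel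

theorem cB19_14_3_17 : chunkOkM (LB19_14.ctx true true 107 1 1 1 1 1 1 1 1) muQ true true 64 RtB19_14.Cx RtB19_14.CX RtB19_14.Ctp.right.right.left.left RtB19_14.Ce.right.right.right RtB19_14.CTp.right.right RtB19_14.CEr.right 0x49 = true := by decide +kernel

theorem cB19_14_3_18 : chunkOkM (LB19_14.ctx true true 227 19 8 21 16 106 399 21 6) muQ true true 64 RtB19_14.Cx RtB19_14.CX RtB19_14.Ctp.right.right.left.right.left RtB19_14.Ce.right.right.right.left.left RtB19_14.CTp.right.right RtB19_14.CEr.right 0x1adaf8b7ab2df733bf2daf513d0b235393bf430d = true := by decide +kernel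

theorem cB19_14_3_19 : chunkOkM (LB19_14.ctx true true 229 19 8 21 16 110 399 21 10) muQ true true 64 RtB19_14.Cx RtB19_14.CX RtB19_14.Ctp.right.right.left.right.right RtB19_14.Ce.right.right.right.left.left RtB19_14.CTp.right.right RtB19_14.CEr.right.left 0x9a6e0e77bb3d060e61e1af8d0536b4789f530d = true := by decide +kernel

theorem cB19_14_3_20 : chunkOkM (LB19_14.ctx true true 296 303 128 41 32 446 3199 171 54) muQ true true 64 RtB19_14.Cx.left RtB19_14.CX RtB19_14.Ctp.right.right.left.right.right RtB19_14.Ce.right.right.right.left.left RtB19_14.CTp.right.right RtB19_14.CEr.right.right 0x5959348d25177cda14d70b8f812919b5639af6b80652d8d9f540d4a22924cf74549f05b6855974597593421759302022011cdd77c1adf906ab9400e44e99f6b2a65e9d99f540d791ec09c8fd1491b9b889f926864f908f82789760be9f696f27282b9f550d6edccca67c7602aa978f997f36d1f09f689b677c739f540d78930ee368f93dc7cd165caf63b422f0def0bf5106694e2eb5ecf440d3554a229c9146c7fd1b15fdb77ca989f16ab21da93db39f69969be8739f550d19761a577c7499786ab73ce327b7a3bf51f44ba2f3827cf440d312664a54a5854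 = true := by decide +kernel

theorem cB19_14_3_21 : chunkOkM (LB19_14.ctx true true 280 153 64 41 32 446 805 171 30) muQ true true 64 RtB19_14.Cx.right RtB19_14.CX RtB19_14.Ctp.right.right.left.right.right RtB19_14.Ce.right.right.right.left.left RtB19_14.CTp.right.right RtB19_14.CEr.right.right 0x49490202257c1c177c3908706ab2a53a7b9e9f6a79dfce7e9f57545a93849f450da0721a1479f05b6554a22134e54977cf2482e6ab38f2baeed9f6a28312faa9f5de650c868f450d6857717e0a6377c7ceeb5e519f6a5f424ddd9f5551c5ad0f9f440d1db002d774af04b62719868eb97c285e341839ab11904287deaf511c533cdf4af440d2718e6477c242ea207ab750239b129f5850c293f59f440d654493493 = true := by decide +kernel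

theorem cB19_14_3_22 : chunkOkM (LB19_14.ctx true true 224 19 8 21 16 54 413 21 6) muQ true true 64 RtB19_14.Cx RtB19_14.CX RtB19_14.Ctp.right.right.left.right RtB19_14.Ce.right.right.right.left.right RtB19_14.CTp.right.right RtB19_14.CEr.right 0xe9231267bb1eefa3e2c9f8a7d883bf6daf72fce8ee0f0bbf5d822eea995cbf450d = true := by decide +kernel

theorem cB19_14_3_23 : chunkOkM (LB19_14.ctx true true 107 1 1 1 1 1 1 1 1) muQ true true 64 RtB19_14.Cx RtB19_14.CX RtB19_14.Ctp.right.right.left.right RtB19_14.Ce.right.right.right.right RtB19_14.CTp.right.right RtB19_14.CEr.right 0x59 = true := by decide +kernel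

theorem cB19_14_3_24 : chunkOkM (LB19_14.ctx true true 223 19 8 21 16 58 203 21 10) muQ true true 64 RtB19_14.Cx RtB19_14.CX RtB19_14.Ctp.right.right.right.left RtB19_14.Ce.right.right.right.left RtB19_14.CTp.right.right RtB19_14.CEr.right.left 0x5bb04957bb239bd1962baf825590393c9f665cd1e5c39f140d = true := by decide +kernel

theorem cB19_14_3_25 : chunkOkM (LB19_14.ctx true true 260 75 32 21 16 226 791 45 58) muQ true true 64 RtB19_14.Cx.left RtB19_14.CX RtB19_14.Ctp.right.right.right.left.left.left RtB19_14.Ce.right.right.right.left.left.left RtB19_14.CTp.right.right RtB19_14.CEr.right.right 0x221b8ab9c77c64d0bac48f951c2c00aa9f675abdfbfe9f540dca4a1df687cce4197f38ab13c7993099f6789351e6b9f52083da7c8f050d51068d0277c8b61136ab3d39c2b639f66585862509f537fa294349f250d76bf7073358fd16eccc8a79f9174a54188f82503eff679f65d739faec9f5477b2690b9f260d77faa367c9138116ab3416911ee9f65db7921119f5195b56c589f250d56 = true := by decide +kernel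

end Vale.Agent.helper4.Q4
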