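import Vale.Agent.helper4.Q4TreeM
import Vale.Agent.helper4.Q4G.PB19_14

/-!
Checks for pairs of intervals of second moments.
-/

set_option maxRecDepth 100000
set_option linter.unusedVariables false

namespace Vale.Agent.helper4.Q4

theorem cB19_14_3_26 : chunkOkM (LB19_14.ctx true true 260 75 32 21 16 226 805 45 58) muQ true true 64 RtB19_14.Cx.left RtB19_14.CX RtB19_14.Ctp.right.right.right.left.left.left RtB19_14.Ce.right.right.right.left.left.right RtB19_14.CTp.right.right RtB19_14.CEr.right.right 0x227892c7b98fd14831f977c35134a068f92fc26b3e09f694c5764999f550db5e3575687cb99a2f4d8ab16b3eefc39f68e8e0aeb09f540d561566dccb8fd13321167c12797a28e9f924be3c1f99f68c29606269f550d5759130a8fd5b1dfb67ce2f1a96ab344deb5689f67ebf5ee269f54b2207278f260d56217 = true := by decide +kernel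

theorem cB19_14_3_27 : chunkOkM (LB19_14.ctx true true 107 1 1 1 1 1 1 1 1) muQ true true 64 RtB19_14.Cx.left RtB19_14.CX RtB19_14.Ctp.right.right.right.left.left.right RtB19_14.Ce.right.right.right.left.left RtB19_14.CTp.right.right RtB19_14.CEr.right.right 0x01 = true := by decide +kernel

theorem cB19_14_3_28 : chunkOkM (LB19_14.ctx true true 265 39 16 41 32 230 805 171 30) muQ true true 64 RtB19_14.Cx.right RtB19_14.CX RtB19_14.Ctp.right.right.right.left.left RtB19_14.Ce.right.right.right.left.left RtB19_14.CTp.right.right RtB19_14.CEr.right.right 0xd1f15067c27bce56ab78e9f75ff7cbf11804d807a215cf040d02021680d9377c8c0bbf6ab57a1cf6c49f6938b61f3e9f540dbdb4a68c8fd17f5aae77c3ed5d23579f69606b3d469f540d6554a221ba820877c126b83b7ab2cc302aa39f68e7db80ce9f540d6853694 = true := by decide +kernel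

theorem cB19_14_3_29 : chunkOkM (LB19_14.ctx true true 231 19 8 21 16 118 399 21 14) muQ true true 64 RtB19_14.Cx RtB19_14.CX RtB19_14.Ctp.right.right.right.left.right RtB19_14.Ce.right.right.right.left.left RtB19_14.CTp.right.right RtB19_14.CEr.right.right 0x10fbb4bcf9af00b = true := by decide +kernel

theorem cB19_14_3_30 : chunkOkM (LB19_14.ctx true true 107 1 1 1 1 1 1 1 1) muQ true true 64 RtB19_14.Cx.left RtB19_14.CX RtB19_14.Ctp.right.right.right.left RtB19_14.Ce.right.right.right.left.right RtB19_14.CTp.right.right RtB19_14.CEr.right.right 0x21 = true := by decide +kernel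

theorem cB19_14_3_31 : chunkOkM (LB19_14.ctx true true 277 79 32 41 32 454 819 171 54) muQ true true 64 RtB19_14.Cx.right RtB19_14.CX RtB19_14.Ctp.right.right.right.left.left RtB19_14.Ce.right.right.right.left.right.left RtB19_14.CTp.right.right RtB19_14.CEr.right.right 0x0202227ab5777c156b876ab4b154eb679f693d9ec7049f540d2db18230c9f9943bf9338f84867dd89b9f67e95021ae9f540d666a499477c1d1ea8f3d9f8309dce4fc9f6a2e778fda9f51ce101a6d9f450d87c3a3b289f05b64931da4a6577c7e3f2d6ab6e1cb3c499f6b06e5c0099f5d13b66e78f450d9946a7088fd737f7867c4be7f32339f6ac3b7bb0d9f540d673554a2221f545a77c64fd0a6ab73a9a65c09f69339732699f540d1a4e17277ce05a396ab43f0e7f2b9f6a5339351d9f52c522c7e79f450d31264a54a5685 = true := by decide +kernel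

theorem cB19_14_3_32 : chunkOkM (LB19_14.ctx true true 286 157 64 41 32 454 1659 171 54) muQ true true 64 RtB19_14.Cx.right RtB19_14.CX RtB19_14.Ctp.right.right.right.left.left RtB19_14.Ce.right.right.right.left.right.right RtB19_14.CTp.right.right RtB19_14.CEr.right.right 0x020225eec6377c8604b36ab3533156599f6a2b37457d9f540d53f86867c161cd783d9f912c3f63c79f69d908c7f69f540d649592133124c86c7858086ab39eeda6cf9f69f1df67d29f558f5d00ce9f450da68ff6dac9f05b6474935973554a227d3bc1df8fd22edd5c77c3b07a06ab215f33c119f69c3e8ca7d9f550d2c068ec77c2485d5ab35b4385c19f6c51f6c7519f58d8c989f49f450d31264a54a5685 = true := by decide +kernel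

theorem cB19_14_3_33 : chunkOkM (LB19_14.ctx true true 238 39 16 21 16 118 413 21 14) muQ true true 64 RtB19_14.Cx.right RtB19_14.CX RtB19_14.Ctp.right.right.right.left.right RtB19_14.Ce.right.right.right.left.right RtB19_14.CTp.right.right RtB19_14.CEr.right.right 0x105d03e7abd9dbdcbc8f810c5562be0af61b3d86e91c7bf159d9b1b4abcbf050d = true := by decide +kernel

theorem cB19_14_3_34 : chunkOkM (LB19_14.ctx true true 278 79 32 41 32 466 847 171 58) muQ true true 64 RtB19_14.Cx RtB19_14.CX RtB19_14.Ctp.right.right.right.left RtB19_14.Ce.right.right.right.right RtB19_14.CTp.right.right RtB19_14.CEr.right 0x2121010122212b96b08fd22d729377c58ac166ab35a8a40399f6a54c1b7249f550d11a98bf908afd94192f7987c996c6dd68ab47b6485a69f6a43c124fb9f550d568b2c7a1f19f05b1c7b25577c1a56cd47ab250d5f5c89f683c05ba6e9f535b1355209f250d563302024e9d0f277cc0e2a86abdf85458e8f831e1c59429f6c0e4254509f51a77640769f460dc88cd4c48fd98a3f5f38f94201fdd989f6b093c075a9f5159b0110f9f450d6554a221124dad77c16a3c077ab604830af69f6ae53421fd9f540d685593362961977bb2c380fe4f2af81017467261af62f37babf49f540d621742174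 = true := by decide +kernel

theorem cB19_14_3_35 : chunkOkM (LB19_14.ctx true true 107 1 1 1 1 1 1 1 1) muQ true true 64 RtB19_14.Cx RtB19_14.CX RtB19_14.Ctp.right.right.right.right RtB19_14.Ce.right.right.right RtB19_14.CTp.right.right RtB19_14.CEr.right 0x01 = true := by decide +kernel

theorem cB19_14_2_0 : chunkOkM (LB19_14.ctx false true 107 1 1 1 1 1 1 1 1) muQ false true 64 RtB19_14.Cx RtB19_14.CX RtB19_14.Ctn RtB19_14.Ce RtB19_14.CTp RtB19_14.CEr 0x49 = true := by decide +kernel

theorem cB19_14_1_0 : chunkOkM (LB19_14.ctx true false 107 1 1 1 1 1 1 1 1) muQ true false 64 RtB19_14.Cx RtB19_14.CX RtB19_14.Ctp RtB19_14.Ce RtB19_14.CTn RtB19_14.CEr 0x4a = true := by decide +kernel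

theorem cB19_14_0_0 : chunkOkM (LB19_14.ctx false false 107 1 1 1 1 1 1 1 1) muQ false false 64 RtB19_14.Cx RtB19_14.CX RtB19_14.Ctn RtB19_14.Ce RtB19_14.CTn RtB19_14.CEr 0x49 = true := by decide +kernel

end Vale.Agent.helper4.Q4
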