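import Vale.Agent.helper4.Q4TreeM
import Vale.Agent.helper4.Q4G.PB19_6

/-!
Checks for pairs of intervals of second moments.
-/

set_option maxRecDepth 100000
set_option linter.unusedVariables false

namespace Vale.Agent.helper4.Q4

theorem cB19_6_3_0 : chunkOkM (LB19_6.ctx true true 107 1 1 1 1 1 1 1 1) muQ true true 64 RtB19_6.Cx RtB19_6.CX RtB19_6.Ctp.left RtB19_6.Ce RtB19_6.CTp RtB19_6.CEr 0x41 = true := by decide +kernel

theorem cB19_6_3_1 : chunkOkM (LB19_6.ctx true true 107 1 1 1 1 1 1 1 1) muQ true true 64 RtB19_6.Cx RtB19_6.CX RtB19_6.Ctp.right RtB19_6.Ce.left RtB19_6.CTp RtB19_6.CEr 0x69 = true := by decide +kernel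

theorem cB19_6_3_2 : chunkOkM (LB19_6.ctx true true 107 1 1 1 1 1 1 1 1) muQ true true 64 RtB19_6.Cx RtB19_6.CX RtB19_6.Ctp.right.left RtB19_6.Ce.right RtB19_6.CTp RtB19_6.CEr 0x49 = true := by decide +kernel

theorem cB19_6_3_3 : chunkOkM (LB19_6.ctx true true 107 1 1 1 1 1 1 1 1) muQ true true 64 RtB19_6.Cx RtB19_6.CX RtB19_6.Ctp.right.right RtB19_6.Ce.right.left RtB19_6.CTp RtB19_6.CEr 0x69 = true := by decide +kernel

theorem cB19_6_3_4 : chunkOkM (LB19_6.ctx true true 107 1 1 1 1 1 1 1 1) muQ true true 64 RtB19_6.Cx RtB19_6.CX RtB19_6.Ctp.right.right.left.left RtB19_6.Ce.right.right.left RtB19_6.CTp RtB19_6.CEr 0x49 = true := by decide +kernel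

theorem cB19_6_3_5 : chunkOkM (LB19_6.ctx true true 107 1 1 1 1 1 1 1 1) muQ true true 64 RtB19_6.Cx RtB19_6.CX RtB19_6.Ctp.right.right.left.right RtB19_6.Ce.right.right.left.left RtB19_6.CTp RtB19_6.CEr 0x69 = true := by decide +kernel

theorem cB19_6_3_6 : chunkOkM (LB19_6.ctx true true 245 37 16 5 16 214 749 8 64) muQ true true 64 RtB19_6.Cx RtB19_6.CX RtB19_6.Ctp.right.right.left.right RtB19_6.Ce.right.right.left.right.left RtB19_6.CTp RtB19_6.CEr 0x4c88840bb9f05b497773ab07fd29abac07f855feb7d509f6bc4b44d609f5777329f9c9f450d76944933 = true := by decide +kernel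

theorem cB19_6_3_7 : chunkOkM (LB19_6.ctx true true 251 75 32 5 16 222 777 8 64) muQ true true 64 RtB19_6.Cx RtB19_6.CX RtB19_6.Ctp.right.right.left.right RtB19_6.Ce.right.right.left.right.right RtB19_6.CTp RtB19_6.CEr 0x14796578e7af04b31a91bc18fd5110be67c358fd3ce69f6a6b02c7cf9f540d5e23d5fd4e77502be9f6c9b3e010a9f5759c775969f440d2ac01a2d8fd7d8dbf7d99f6ce3195b4e9f530d737722339489f05b168576398fd2872030039f6bba26662e9f530d34749232343838fd18c245898f84cacfae789f6d5ffc980a9f5bd9b93bfa9f450d74933 = true := by decide +kernel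

theorem cB19_6_3_8 : chunkOkM (LB19_6.ctx true true 218 19 8 5 16 30 91 8 64) muQ true true 64 RtB19_6.Cx RtB19_6.CX RtB19_6.Ctp.right.right.right RtB19_6.Ce.right.right.left RtB19_6.CTp RtB19_6.CEr 0xdb417bf679f00b = true := by decide +kernel

theorem cB19_6_3_9 : chunkOkM (LB19_6.ctx true true 259 75 32 5 16 446 805 8 64) muQ true true 64 RtB19_6.Cx RtB19_6.CX RtB19_6.Ctp.right.right.left RtB19_6.Ce.right.right.right RtB19_6.CTp RtB19_6.CEr 0x59295c6397fd1542d52605af6166475962dbbf568203275a79bf440d19c6c7c18fdd884c57c44d7622f19f6bd71590779f581b0463df9f450d4934934497f1e58fdf85b8c1ea9f6d6c5a32cd9f530d2303e9fd8fd61b05afed9f6cb0435b8b9f56a8cdead8f440dcdefd15119f05b7b6b36ea7fd40bf54cc1faf63feabeb3f7dbf511a202fcb1c7cf440d3471c4449b4d4af5afc60a366daf420d344493 = true := by decide +kernel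

theorem cB19_6_3_10 : chunkOkM (LB19_6.ctx true true 246 39 16 5 16 226 805 8 64) muQ true true 64 RtB19_6.Cx RtB19_6.CX RtB19_6.Ctp.right.right.right.left RtB19_6.Ce.right.right.right.left.left RtB19_6.CTp RtB19_6.CEr 0x5940bf57b9f00b33523f358fd16906567c60088411a9f6ad6ba863d9f540d0176dfeb658fdb9994b67c371803f4b9f6b0bee6e649f540d5db2e8e7fd580d157c1dc1e62489f6881ab0fbf9f53c247ae949f250d4373 = true := by decide +kernel

theorem cB19_6_3_11 : chunkOkM (LB19_6.ctx true true 252 79 32 5 16 230 833 8 64) muQ true true 64 RtB19_6.Cx RtB19_6.CX RtB19_6.Ctp.right.right.right.left RtB19_6.Ce.right.right.right.left.right RtB19_6.CTp RtB19_6.CEr 0xf8db2f9299f00b57f9fcab8fd3dd8d667c6b3cc13049f6bd0a763d49f540d5212c30a8fdc05cd367c3e757cd9d9f6bfaa022879f540d7357cae178fd49a3bf67c1ed480d6b9f6dea9079bc9f5bfdc6c79a9f450d340e808c28fd534e0b67c3877329d19f69ef0c14359f5197d601139f250d3f40401a8fd590efc67c693616dcf9f6d169a8c869f58f94951689f450d3a95ec6f8fd38115867c53e6bba6c9f6d91cbe8359f540d7343217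 = true := by decide +kernel

theorem cB19_6_3_12 : chunkOkM (LB19_6.ctx true true 252 79 32 5 16 230 847 8 64) muQ true true 64 RtB19_6.Cx RtB19_6.CX RtB19_6.Ctp.right.right.right.left RtB19_6.Ce.right.right.right.right RtB19_6.CTp RtB19_6.CEr 0x21215fafbd428fd9cb8bf67ca9153404d9f6af94a20d99f55491b333d9f250d53842bd98fd4b5d7367c4c487c6809f6d6f8813929f540d593321742174 = true := by decide +kernel

theorem cB19_6_3_13 : chunkOkM (LB19_6.ctx true true 107 1 1 1 1 1 1 1 1) muQ true true 64 RtB19_6.Cx RtB19_6.CX RtB19_6.Ctp.right.right.right.right RtB19_6.Ce.right.right.right RtB19_6.CTp RtB19_6.CEr 0x01 = true := by decide +kernel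

theorem cB19_6_2_0 : chunkOkM (LB19_6.ctx false true 107 1 1 1 1 1 1 1 1) muQ false true 64 RtB19_6.Cx RtB19_6.CX RtB19_6.Ctn RtB19_6.Ce RtB19_6.CTp RtB19_6.CEr 0x49 = true := by decide +kernel

theorem cB19_6_1_0 : chunkOkM (LB19_6.ctx true false 107 1 1 1 1 1 1 1 1) muQ true false 64 RtB19_6.Cx RtB19_6.CX RtB19_6.Ctp.left RtB19_6.Ce RtB19_6.CTn RtB19_6.CEr 0x41 = true := by decide +kernel

theorem cB19_6_1_1 : chunkOkM (LB19_6.ctx true false 107 1 1 1 1 1 1 1 1) muQ true false 64 RtB19_6.Cx RtB19_6.CX RtB19_6.Ctp.right RtB19_6.Ce.left RtB19_6.CTn RtB19_6.CEr 0x69 = true := by decide +kernel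

theorem cB19_6_1_2 : chunkOkM (LB19_6.ctx true false 107 1 1 1 1 1 1 1 1) muQ true false 64 RtB19_6.Cx RtB19_6.CX RtB19_6.Ctp.right.left RtB19_6.Ce.right RtB19_6.CTn RtB19_6.CEr 0x49 = true := by decide +kernel

theorem cB19_6_1_3 : chunkOkM (LB19_6.ctx true false 107 1 1 1 1 1 1 1 1) muQ true false 64 RtB19_6.Cx RtB19_6.CX RtB19_6.Ctp.right.right RtB19_6.Ce.right.left RtB19_6.CTn RtB19_6.CEr 0x69 = true := by decide +kernel

theorem cB19_6_1_4 : chunkOkM (LB19_6.ctx true false 107 1 1 1 1 1 1 1 1) muQ true false 64 RtB19_6.Cx RtB19_6.CX RtB19_6.Ctp.right.right.left.left RtB19_6.Ce.right.right.left RtB19_6.CTn RtB19_6.CEr.left 0x49 = true := by decide +kernel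

theorem cB19_6_1_5 : chunkOkM (LB19_6.ctx true false 107 1 1 1 1 1 1 1 1) muQ true false 64 RtB19_6.Cx RtB19_6.CX RtB19_6.Ctp.right.right.left.right RtB19_6.Ce.right.right.left.left RtB19_6.CTn RtB19_6.CEr.left 0x69 = true := by decide +kernel

theorem cB19_6_1_6 : chunkOkM (LB19_6.ctx true false 235 19 8 5 16 214 371 4 128) muQ true false 64 RtB19_6.Cx RtB19_6.CX RtB19_6.Ctp.right.right.left.right RtB19_6.Ce.right.right.left.right.left RtB19_6.CTn RtB19_6.CEr.left 0x33d4c4c4c9f05b115c7c67c5ad6fe07f829e0821f69f6bdfc785609f5634d55a699f450d4933 = true := by decide +kernel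

theorem cB19_6_1_7 : chunkOkM (LB19_6.ctx true false 235 19 8 5 16 214 385 4 128) muQ true false 64 RtB19_6.Cx RtB19_6.CX RtB19_6.Ctp.right.right.left.right.left RtB19_6.Ce.right.right.left.right.right RtB19_6.CTn RtB19_6.CEr.left 0x9180ddb28fdbfafc57c1d3d634289f6dd1945b7c9f5d197580269f450d493 = true := by decide +kernel

theorem cB19_6_1_8 : chunkOkM (LB19_6.ctx true false 250 75 32 5 16 222 777 4 128) muQ true false 64 RtB19_6.Cx RtB19_6.CX RtB19_6.Ctp.right.right.left.right.right RtB19_6.Ce.right.right.left.right.right RtB19_6.CTn RtB19_6.CEr.left 0x12fd04a8c8af04b4dd41f448fd3d62c267c5284df3d8f8662c84ba59f6bae1883289f550d185cae77e9fdef7b3867c3bfc2afb59f6ce8d19a649f58005537829f450d341e1b0668fd16756bf77c5f90324199f6b801ce1d39f540d34199b348fd299b9467c76f4e59ba9f6dea73da6c9f540d37170704b58fda79d1167c6a6698d28f8601d8d9e29f691f5781d69f550d3a55d9588fd38681667c23bfd087f824d3ee2fa9f6bf290ad019f550d347 = true := by decide +kernel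

theorem cB19_6_1_9 : chunkOkM (LB19_6.ctx true false 217 19 8 5 16 30 91 4 128) muQ true false 64 RtB19_6.Cx RtB19_6.CX RtB19_6.Ctp.right.right.right RtB19_6.Ce.right.right.left RtB19_6.CTn RtB19_6.CEr.left 0x1003877223af00b = true := by decide +kernel

theorem cB19_6_1_10 : chunkOkM (LB19_6.ctx true false 252 39 16 5 16 446 805 4 128) muQ true false 64 RtB19_6.Cx RtB19_6.CX RtB19_6.Ctp.right.right.left RtB19_6.Ce.right.right.right RtB19_6.CTn RtB19_6.CEr.left 0x5926789768c116e0710c9f82012da7066ebf58f8a15b5efebf440d153bf0d78fd7670bf67c3fbc0161a9f6c437da9d09f58fd64211d9f450d493493298ae3918fd847a9767c96acada4d9f6de767fe589f540d553ef5118fd92015c67c53888f5819f6d0c3d3bc79f540d495593aa8fd4d2a4167c50aa12b98f8445e811f43af642ee522f633bf51275a0139288cf460d3471d3013700caf5b1858c2475af420d344493 = true := by decide +kernel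

end Vale.Agent.helper4.Q4
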