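import Vale.Agent.helper4.Q4TreeM
import Vale.Agent.helper4.Q4G.PB19_8

/-!
Checks for pairs of intervals of second moments.
-/

set_option maxRecDepth 100000
set_option linter.unusedVariables false

namespace Vale.Agent.helper4.Q4

theorem cB19_8_1_11 : chunkOkM (LB19_8.ctx true false 370 75 32 513 1024 446 805 16384 65536) muQ true false 64 RtB19_8.Cx RtB19_8.CX.left.left.left.left.left.left RtB19_8.Ctp.right.right.left RtB19_8.Ce.right.right.right RtB19_8.CTn.left.left.left.left.left.left.left.left.left.left.left.left RtB19_8.CEr.left.left.left.left.left.left.left.left.left.left.left.left 0x5925825d78a5cbf5a81e255d88dbf420dbb03ac29dd417969f6dad9b43839f585a3496589f440d493493ac28784fb5afd7b13ac7a57cd5ab9f6f7bae1e489f540d6566fc5a19f6d77cfb3809f520ddf42973be9f05b75e03ac67fe4cba16585f37d6bf52b91d91ab70dcf440d34721a0c5b1e6af5c7c8b2efbaaf420d344493 = true := by decide +kernel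

theorem cB19_8_1_12 : chunkOkM (LB19_8.ctx true false 363 75 32 513 1024 230 805 16384 65536) muQ true false 64 RtB19_8.Cx RtB19_8.CX.left.left.left.left.left.left RtB19_8.Ctp.right.right.right.left RtB19_8.Ce.right.right.right.left.left RtB19_8.CTn.left.left.left.left.left.left.left.left.left.left.left.left RtB19_8.CEr.left.left.left.left.left.left.left.left.left.left.left.left 0x11016c84ac31804afce9f6d00e3b9ec9f530d36943010112c64ac601d602839f6b83e979279f5876f52f88f240d2171a7165bb27abfd145a759c34ea1f4679f69f19be85f9f51cca141619f250d21a8499f7c9bfd1399459c25515fc6b9f6925bcc28a9f55a9039b459f250d74337 = true := by decide +kernel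

theorem cB19_8_1_13 : chunkOkM (LB19_8.ctx true false 107 1 1 1 1 1 1 1 1) muQ true false 64 RtB19_8.Cx.left RtB19_8.CX.left.left.left.left.left.left RtB19_8.Ctp.right.right.right.left RtB19_8.Ce.right.right.right.left.right RtB19_8.CTn.left.left.left.left.left.left.left.left.left.left.left.left RtB19_8.CEr.left.left.left.left.left.left.left.left.left.left.left.left 0x21 = true := by decide +kernel

theorem cB19_8_1_14 : chunkOkM (LB19_8.ctx true false 363 79 32 513 1024 230 833 16384 65536) muQ true false 64 RtB19_8.Cx.right RtB19_8.CX.left.left.left.left.left.left RtB19_8.Ctp.right.right.right.left.left RtB19_8.Ce.right.right.right.left.right RtB19_8.CTn.left.left.left.left.left.left.left.left.left.left.left.left RtB19_8.CEr.left.left.left.left.left.left.left.left.left.left.left.left 0x19a54ac512091f289f6df9513dd99f530d13ed4ac180d4cb9a9f1891a9f6bcf0ecbca9f51bf7bc2479f250d7c673acd6d8124c8f61056c23dadaf5a854b38649f440d3013ce559c78d1306bb546c452939f6b416dcc569f52a69184f39f250d7ea13ac1811e5bb4fae4bc989f6e939b21899f545d70dd889f450d5f33ac3fa395bb5280274509f6f1a2296ac9f540d734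 = true := by decide +kernel

theorem cB19_8_1_15 : chunkOkM (LB19_8.ctx true false 350 39 16 513 1024 118 413 16384 65536) muQ true false 64 RtB19_8.Cx.right RtB19_8.CX.left.left.left.left.left.left RtB19_8.Ctp.right.right.right.left.right RtB19_8.Ce.right.right.right.left.right RtB19_8.CTn.left.left.left.left.left.left.left.left.left.left.left.left RtB19_8.CEr.left.left.left.left.left.left.left.left.left.left.left.left 0x1214345f2eaf00b = true := by decide +kernel

theorem cB19_8_1_16 : chunkOkM (LB19_8.ctx true false 361 79 32 513 1024 118 847 16384 65536) muQ true false 64 RtB19_8.Cx RtB19_8.CX.left.left.left.left.left.left RtB19_8.Ctp.right.right.right.left RtB19_8.Ce.right.right.right.right RtB19_8.CTn.left.left.left.left.left.left.left.left.left.left.left.left RtB19_8.CEr.left.left.left.left.left.left.left.left.left.left.left.left 0x212110430c9c4051cfdbce3ac8c9923c109f6aff80d2bb9f54d09cb9b89f250d27f5ab644d1bfd11e24aca3c9c7f3c9f610f56d76e6af540d321742174 = true := by decide +kernel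

theorem cB19_8_1_17 : chunkOkM (LB19_8.ctx true false 107 1 1 1 1 1 1 1 1) muQ true false 64 RtB19_8.Cx RtB19_8.CX.left.left.left.left.left.left RtB19_8.Ctp.right.right.right.right RtB19_8.Ce.right.right.right RtB19_8.CTn.left.left.left.left.left.left.left.left.left.left.left.left RtB19_8.CEr.left.left.left.left.left.left.left.left.left.left.left.left 0x01 = true := by decide +kernel

theorem cB19_8_1_18 : chunkOkM (LB19_8.ctx true false 107 1 1 1 1 1 1 1 1) muQ true false 64 RtB19_8.Cx RtB19_8.CX.left.left.left.left.left.right RtB19_8.Ctp.right.right RtB19_8.Ce.right.right RtB19_8.CTn.left.left.left.left.left.left.left.left.left.left.left.left RtB19_8.CEr.left.left.left.left.left.left.left.left.left.left.left.left 0x42 = true := by decide +kernel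

theorem cB19_8_1_19 : chunkOkM (LB19_8.ctx true false 107 1 1 1 1 1 1 1 1) muQ true false 64 RtB19_8.Cx RtB19_8.CX.left.left.left.left.right RtB19_8.Ctp.right.right RtB19_8.Ce.right.right RtB19_8.CTn.left.left.left.left.left.left.left.left.left.left.left.left RtB19_8.CEr.left.left.left.left.left.left.left.left.left.left.left.left 0x42 = true := by decide +kernel

theorem cB19_8_1_20 : chunkOkM (LB19_8.ctx true false 107 1 1 1 1 1 1 1 1) muQ true false 64 RtB19_8.Cx RtB19_8.CX.left.left.left.left RtB19_8.Ctp.right.right RtB19_8.Ce.right.right RtB19_8.CTn.left.left.left.left.left.left.left.left.left.left.left.left RtB19_8.CEr.left.left.left.left.left.left.left.left.left.left.left.right 0x5a = true := by decide +kernel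

theorem cB19_8_1_21 : chunkOkM (LB19_8.ctx true false 107 1 1 1 1 1 1 1 1) muQ true false 64 RtB19_8.Cx RtB19_8.CX.left.left.left.left RtB19_8.Ctp.right.right RtB19_8.Ce.right.right RtB19_8.CTn.left.left.left.left.left.left.left.left.left.left.left.right RtB19_8.CEr.left.left.left.left.left.left.left.left.left.left.left 0x5a = true := by decide +kernel

theorem cB19_8_1_22 : chunkOkM (LB19_8.ctx true false 107 1 1 1 1 1 1 1 1) muQ true false 64 RtB19_8.Cx RtB19_8.CX.left.left.left.left RtB19_8.Ctp.right.right RtB19_8.Ce.right.right RtB19_8.CTn.left.left.left.left.left.left.left.left.left.left.right RtB19_8.CEr.left.left.left.left.left.left.left.left.left.left.left 0x5a = true := by decide +kernel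

theorem cB19_8_1_23 : chunkOkM (LB19_8.ctx true false 107 1 1 1 1 1 1 1 1) muQ true false 64 RtB19_8.Cx RtB19_8.CX.left.left.left.right RtB19_8.Ctp.right.right RtB19_8.Ce.right.right RtB19_8.CTn.left.left.left.left.left.left.left.left.left.left RtB19_8.CEr.left.left.left.left.left.left.left.left.left.left.left 0x42 = true := by decide +kernel

theorem cB19_8_1_24 : chunkOkM (LB19_8.ctx true false 107 1 1 1 1 1 1 1 1) muQ true false 64 RtB19_8.Cx RtB19_8.CX.left.left.left RtB19_8.Ctp.right.right RtB19_8.Ce.right.right RtB19_8.CTn.left.left.left.left.left.left.left.left.left.left RtB19_8.CEr.left.left.left.left.left.left.left.left.left.left.right 0x5a = true := by decide +kernel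

theorem cB19_8_1_25 : chunkOkM (LB19_8.ctx true false 107 1 1 1 1 1 1 1 1) muQ true false 64 RtB19_8.Cx RtB19_8.CX.left.left.left RtB19_8.Ctp.right.right RtB19_8.Ce.right.right RtB19_8.CTn.left.left.left.left.left.left.left.left.left.left RtB19_8.CEr.left.left.left.left.left.left.left.left.left.right 0x5a = true := by decide +kernel

theorem cB19_8_1_26 : chunkOkM (LB19_8.ctx true false 107 1 1 1 1 1 1 1 1) muQ true false 64 RtB19_8.Cx RtB19_8.CX.left.left.left RtB19_8.Ctp.right.right RtB19_8.Ce.right.right RtB19_8.CTn.left.left.left.left.left.left.left.left.left.right RtB19_8.CEr.left.left.left.left.left.left.left.left.left 0x5a = true := by decide +kernel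

theorem cB19_8_1_27 : chunkOkM (LB19_8.ctx true false 107 1 1 1 1 1 1 1 1) muQ true false 64 RtB19_8.Cx RtB19_8.CX.left.left.left RtB19_8.Ctp.right.right RtB19_8.Ce.right.right RtB19_8.CTn.left.left.left.left.left.left.left.left.right RtB19_8.CEr.left.left.left.left.left.left.left.left.left 0x5a = true := by decide +kernel

theorem cB19_8_1_28 : chunkOkM (LB19_8.ctx true false 107 1 1 1 1 1 1 1 1) muQ true false 64 RtB19_8.Cx RtB19_8.CX.left.left.right RtB19_8.Ctp.right.right RtB19_8.Ce.right.right RtB19_8.CTn.left.left.left.left.left.left.left.left RtB19_8.CEr.left.left.left.left.left.left.left.left.left 0x42 = true := by decide +kernel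

theorem cB19_8_1_29 : chunkOkM (LB19_8.ctx true false 107 1 1 1 1 1 1 1 1) muQ true false 64 RtB19_8.Cx RtB19_8.CX.left.left RtB19_8.Ctp.right.right RtB19_8.Ce.right.right RtB19_8.CTn.left.left.left.left.left.left.left.left RtB19_8.CEr.left.left.left.left.left.left.left.left.right 0x5a = true := by decide +kernel

theorem cB19_8_1_30 : chunkOkM (LB19_8.ctx true false 107 1 1 1 1 1 1 1 1) muQ true false 64 RtB19_8.Cx RtB19_8.CX.left.left RtB19_8.Ctp.right.right RtB19_8.Ce.right.right RtB19_8.CTn.left.left.left.left.left.left.left.left RtB19_8.CEr.left.left.left.left.left.left.left.right 0x5a = true := by decide +kernel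

theorem cB19_8_1_31 : chunkOkM (LB19_8.ctx true false 107 1 1 1 1 1 1 1 1) muQ true false 64 RtB19_8.Cx RtB19_8.CX.left.left RtB19_8.Ctp.right.right RtB19_8.Ce.right.right RtB19_8.CTn.left.left.left.left.left.left.left.right RtB19_8.CEr.left.left.left.left.left.left.left 0x5a = true := by decide +kernel

theorem cB19_8_1_32 : chunkOkM (LB19_8.ctx true false 107 1 1 1 1 1 1 1 1) muQ true false 64 RtB19_8.Cx RtB19_8.CX.left.left RtB19_8.Ctp.right.right RtB19_8.Ce.right.right RtB19_8.CTn.left.left.left.left.left.left.right RtB19_8.CEr.left.left.left.left.left.left.left 0x5a = true := by decide +kernel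

theorem cB19_8_1_33 : chunkOkM (LB19_8.ctx true false 107 1 1 1 1 1 1 1 1) muQ true false 64 RtB19_8.Cx RtB19_8.CX.left.right RtB19_8.Ctp.right.right RtB19_8.Ce.right.right RtB19_8.CTn.left.left.left.left.left.left RtB19_8.CEr.left.left.left.left.left.left.left 0x42 = true := by decide +kernel

theorem cB19_8_1_34 : chunkOkM (LB19_8.ctx true false 107 1 1 1 1 1 1 1 1) muQ true false 64 RtB19_8.Cx RtB19_8.CX.left RtB19_8.Ctp.right.right RtB19_8.Ce.right.right RtB19_8.CTn.left.left.left.left.left.left RtB19_8.CEr.left.left.left.left.left.left.right 0x5a = true := by decide +kernel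

theorem cB19_8_1_35 : chunkOkM (LB19_8.ctx true false 107 1 1 1 1 1 1 1 1) muQ true false 64 RtB19_8.Cx RtB19_8.CX.left RtB19_8.Ctp.right.right RtB19_8.Ce.right.right RtB19_8.CTn.left.left.left.left.left.left RtB19_8.CEr.left.left.left.left.left.right 0x5a = true := by decide +kernel

theorem cB19_8_1_36 : chunkOkM (LB19_8.ctx true false 107 1 1 1 1 1 1 1 1) muQ true false 64 RtB19_8.Cx RtB19_8.CX.right RtB19_8.Ctp.right.right RtB19_8.Ce.right.right RtB19_8.CTn.left.left.left.left.left.left RtB19_8.CEr.left.left.left.left.left 0x42 = true := by decide +kernel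

theorem cB19_8_1_37 : chunkOkM (LB19_8.ctx true false 107 1 1 1 1 1 1 1 1) muQ true false 64 RtB19_8.Cx RtB19_8.CX RtB19_8.Ctp.right.right RtB19_8.Ce.right.right RtB19_8.CTn.left.left.left.left.left.left RtB19_8.CEr.left.left.left.left.right 0x5a = true := by decide +kernel

theorem cB19_8_1_38 : chunkOkM (LB19_8.ctx true false 107 1 1 1 1 1 1 1 1) muQ true false 64 RtB19_8.Cx RtB19_8.CX RtB19_8.Ctp.right.right RtB19_8.Ce.right.right RtB19_8.CTn.left.left.left.left.left.left RtB19_8.CEr.left.left.left.right 0x5a = true := by decide +kernel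

theorem cB19_8_1_39 : chunkOkM (LB19_8.ctx true false 107 1 1 1 1 1 1 1 1) muQ true false 64 RtB19_8.Cx RtB19_8.CX RtB19_8.Ctp.right.right RtB19_8.Ce.right.right RtB19_8.CTn.left.left.left.left.left.left RtB19_8.CEr.left.left.right 0x5a = true := by decide +kernel

theorem cB19_8_1_40 : chunkOkM (LB19_8.ctx true false 107 1 1 1 1 1 1 1 1) muQ true false 64 RtB19_8.Cx RtB19_8.CX RtB19_8.Ctp.right.right RtB19_8.Ce.right.right RtB19_8.CTn.left.left.left.left.left.left RtB19_8.CEr.left.right 0x5a = true := by decide +kernel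

theorem cB19_8_1_41 : chunkOkM (LB19_8.ctx true false 107 1 1 1 1 1 1 1 1) muQ true false 64 RtB19_8.Cx RtB19_8.CX RtB19_8.Ctp.right.right RtB19_8.Ce.right.right RtB19_8.CTn.left.left.left.left.left.left RtB19_8.CEr.right 0x52 = true := by decide +kernel

theorem cB19_8_1_42 : chunkOkM (LB19_8.ctx true false 107 1 1 1 1 1 1 1 1) muQ true false 64 RtB19_8.Cx RtB19_8.CX RtB19_8.Ctp.right.right RtB19_8.Ce.right.right RtB19_8.CTn.left.left.left.left.left.right RtB19_8.CEr 0x42 = true := by decide +kernel

theorem cB19_8_1_43 : chunkOkM (LB19_8.ctx true false 107 1 1 1 1 1 1 1 1) muQ true false 64 RtB19_8.Cx RtB19_8.CX RtB19_8.Ctp.right.right RtB19_8.Ce.right.right RtB19_8.CTn.left.left.left.left.right RtB19_8.CEr 0x42 = true := by decide +kernel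

theorem cB19_8_1_44 : chunkOkM (LB19_8.ctx true false 107 1 1 1 1 1 1 1 1) muQ true false 64 RtB19_8.Cx RtB19_8.CX RtB19_8.Ctp.right.right RtB19_8.Ce.right.right RtB19_8.CTn.left.left.left.right RtB19_8.CEr 0x42 = true := by decide +kernel

theorem cB19_8_1_45 : chunkOkM (LB19_8.ctx true false 107 1 1 1 1 1 1 1 1) muQ true false 64 RtB19_8.Cx RtB19_8.CX RtB19_8.Ctp.right.right RtB19_8.Ce.right.right RtB19_8.CTn.left.left.right RtB19_8.CEr 0x42 = true := by decide +kernel

theorem cB19_8_1_46 : chunkOkM (LB19_8.ctx true false 107 1 1 1 1 1 1 1 1) muQ true false 64 RtB19_8.Cx RtB19_8.CX RtB19_8.Ctp.right.right RtB19_8.Ce.right.right RtB19_8.CTn.left.right RtB19_8.CEr 0x42 = true := by decide +kernel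

theorem cB19_8_1_47 : chunkOkM (LB19_8.ctx true false 107 1 1 1 1 1 1 1 1) muQ true false 64 RtB19_8.Cx RtB19_8.CX RtB19_8.Ctp.right.right RtB19_8.Ce.right.right RtB19_8.CTn.right RtB19_8.CEr 0x42 = true := by decide +kernel

theorem cB19_8_0_0 : chunkOkM (LB19_8.ctx false false 107 1 1 1 1 1 1 1 1) muQ false false 64 RtB19_8.Cx RtB19_8.CX RtB19_8.Ctn RtB19_8.Ce RtB19_8.CTn RtB19_8.CEr 0x49 = true := by decide +kernel

end Vale.Agent.helper4.Q4
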