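import Vale.Agent.helper4.Q4TreeM
import Vale.Agent.helper4.Q4G.PB20_13

/-!
Checks for pairs of intervals of second moments.
-/

set_option maxRecDepth 100000
set_option linter.unusedVariables false

namespace Vale.Agent.helper4.Q4

theorem cB20_13_3_0 : chunkOkM (LB20_13.ctx true true 115 1 1 1 1 1 1 1 1) muQ true true 64 RtB20_13.Cx RtB20_13.CX RtB20_13.Ctp.left RtB20_13.Ce RtB20_13.CTp RtB20_13.CEr 0x41 = true := by decide +kernel

theorem cB20_13_3_1 : chunkOkM (LB20_13.ctx true true 115 1 1 1 1 1 1 1 1) muQ true true 64 RtB20_13.Cx RtB20_13.CX RtB20_13.Ctp.right RtB20_13.Ce RtB20_13.CTp.left RtB20_13.CEr 0x42 = true := by decide +kernel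

theorem cB20_13_3_2 : chunkOkM (LB20_13.ctx true true 115 1 1 1 1 1 1 1 1) muQ true true 64 RtB20_13.Cx RtB20_13.CX RtB20_13.Ctp.right RtB20_13.Ce RtB20_13.CTp.right RtB20_13.CEr.left 0x6a = true := by decide +kernel

theorem cB20_13_3_3 : chunkOkM (LB20_13.ctx true true 115 1 1 1 1 1 1 1 1) muQ true true 64 RtB20_13.Cx RtB20_13.CX RtB20_13.Ctp.right RtB20_13.Ce RtB20_13.CTp.right.left RtB20_13.CEr.right 0x42 = true := by decide +kernel

theorem cB20_13_3_4 : chunkOkM (LB20_13.ctx true true 115 1 1 1 1 1 1 1 1) muQ true true 64 RtB20_13.Cx RtB20_13.CX RtB20_13.Ctp.right.left RtB20_13.Ce RtB20_13.CTp.right.right RtB20_13.CEr.right 0x41 = true := by decide +kernel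

theorem cB20_13_3_5 : chunkOkM (LB20_13.ctx true true 115 1 1 1 1 1 1 1 1) muQ true true 64 RtB20_13.Cx RtB20_13.CX RtB20_13.Ctp.right.right RtB20_13.Ce.left RtB20_13.CTp.right.right RtB20_13.CEr.right 0x11 = true := by decide +kernel

theorem cB20_13_3_6 : chunkOkM (LB20_13.ctx true true 115 1 1 1 1 1 1 1 1) muQ true true 64 RtB20_13.Cx RtB20_13.CX RtB20_13.Ctp.right.right.left RtB20_13.Ce.right RtB20_13.CTp.right.right RtB20_13.CEr.right 0x49 = true := by decide +kernel

theorem cB20_13_3_7 : chunkOkM (LB20_13.ctx true true 115 1 1 1 1 1 1 1 1) muQ true true 64 RtB20_13.Cx RtB20_13.CX RtB20_13.Ctp.right.right.right RtB20_13.Ce.right.left RtB20_13.CTp.right.right RtB20_13.CEr.right 0x11 = true := by decide +kernel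

theorem cB20_13_3_8 : chunkOkM (LB20_13.ctx true true 239 21 8 19 16 30 52 77 35) muQ true true 64 RtB20_13.Cx RtB20_13.CX RtB20_13.Ctp.right.right.right RtB20_13.Ce.right.right.left RtB20_13.CTp.right.right RtB20_13.CEr.right.left 0x1faa26498dbf75f0c9939a4cf81a30f8533730cf66f83b95147d9cf540d = true := by decide +kernel

theorem cB20_13_3_9 : chunkOkM (LB20_13.ctx true true 243 21 8 19 16 30 100 77 49) muQ true true 64 RtB20_13.Cx RtB20_13.CX RtB20_13.Ctp.right.right.right RtB20_13.Ce.right.right.left.left RtB20_13.CTp.right.right RtB20_13.CEr.right.right 0x90ba156ac80b99c6dbdc4588d925101df4eab9869b7eaecf140d = true := by decide +kernel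

theorem cB20_13_3_10 : chunkOkM (LB20_13.ctx true true 115 1 1 1 1 1 1 1 1) muQ true true 64 RtB20_13.Cx RtB20_13.CX RtB20_13.Ctp.right.right.right.left.left.left RtB20_13.Ce.right.right.left.right.left RtB20_13.CTp.right.right RtB20_13.CEr.right.right 0x49 = true := by decide +kernel

theorem cB20_13_3_11 : chunkOkM (LB20_13.ctx true true 115 1 1 1 1 1 1 1 1) muQ true true 64 RtB20_13.Cx RtB20_13.CX RtB20_13.Ctp.right.right.right.left.left.right.left RtB20_13.Ce.right.right.left.right.left RtB20_13.CTp.right.right RtB20_13.CEr.right.right 0x49 = true := by decide +kernel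

theorem cB20_13_3_12 : chunkOkM (LB20_13.ctx true true 296 161 64 19 16 462 844 165 217) muQ true true 64 RtB20_13.Cx.left.left.left RtB20_13.CX RtB20_13.Ctp.right.right.right.left.left.right.right RtB20_13.Ce.right.right.left.right.left.left RtB20_13.CTp.right.right RtB20_13.CEr.right.right 0x5a3e22c79c17e5e9e46e1bf9b0e674199ffbf6f1d3fb53c13bf54f07cd27b2cbf450d37e01fe79cf379b42c2daf986c83348ad3bf6e43fa5ed6c6bf558d1f6b5682bf450d6694bc4bdaa589c928add218cb28febc3edc6bf6e2523f49daebf540d518baa2b79ce91a5a6b17af97dcbc1fde1fbf6ed4ac804aa6bf5627fd49bcc9bf450d303820179c20bee937cb5688a519075bf6ec9649e347fbf51a59d2e7d2cbf450d56 = true := by decide +kernel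

theorem cB20_13_3_13 : chunkOkM (LB20_13.ctx true true 297 161 64 19 16 462 852 165 217) muQ true true 64 RtB20_13.Cx.left.left.left RtB20_13.CX RtB20_13.Ctp.right.right.right.left.left.right.right RtB20_13.Ce.right.right.left.right.left.right RtB20_13.CTp.right.right RtB20_13.CEr.right.right 0x5978e205b79cf03a11ccb5af9e7962ea5ed1bf610b4133815cfcf52debc2a75dcbf450dc29e66331cafd4f457a879c8b3dd3e1c0af7bcc77d93c8bbf611d5b6e43bf2cf541af14be6dcbf460d6b4695f9f89c8d0e1ae78cb2883d44a892bcf64cdee5956bcfcf440d51e92f6379c119d61c9116bf952ab581da25bf6f8b20edeed1bf518751060fcebf450d2f14cf979c145436d7cbad35cbc1c34bf6fe655521a8bbf530cc02882f7bf450d564 = true := by decide +kernel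

theorem cB20_13_3_14 : chunkOkM (LB20_13.ctx true true 115 1 1 1 1 1 1 1 1) muQ true true 64 RtB20_13.Cx.left.left.right RtB20_13.CX RtB20_13.Ctp.right.right.right.left.left.right.right RtB20_13.Ce.right.right.left.right.left RtB20_13.CTp.right.right RtB20_13.CEr.right.right 0x49 = true := by decide +kernel

theorem cB20_13_3_15 : chunkOkM (LB20_13.ctx true true 115 1 1 1 1 1 1 1 1) muQ true true 64 RtB20_13.Cx.left.right RtB20_13.CX RtB20_13.Ctp.right.right.right.left.left.right.right RtB20_13.Ce.right.right.left.right.left RtB20_13.CTp.right.right RtB20_13.CEr.right.right 0x49 = true := by decide +kernel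

theorem cB20_13_3_16 : chunkOkM (LB20_13.ctx true true 115 1 1 1 1 1 1 1 1) muQ true true 64 RtB20_13.Cx.right RtB20_13.CX RtB20_13.Ctp.right.right.right.left.left.right.right RtB20_13.Ce.right.right.left.right.left RtB20_13.CTp.right.right RtB20_13.CEr.right.right 0x49 = true := by decide +kernel

theorem cB20_13_3_17 : chunkOkM (LB20_13.ctx true true 115 1 1 1 1 1 1 1 1) muQ true true 64 RtB20_13.Cx RtB20_13.CX RtB20_13.Ctp.right.right.right.left.right RtB20_13.Ce.right.right.left.right.left.left RtB20_13.CTp.right.right RtB20_13.CEr.right.right 0x69 = true := by decide +kernel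

theorem cB20_13_3_18 : chunkOkM (LB20_13.ctx true true 300 41 16 73 64 238 428 605 385) muQ true true 64 RtB20_13.Cx RtB20_13.CX RtB20_13.Ctp.right.right.right.left.right RtB20_13.Ce.right.right.left.right.left.right RtB20_13.CTp.right.right RtB20_13.CEr.right.right.left 0x116a023f26b6379cc591cc8d31af98d4c273a54bbf6d92b1aa0b28bf540d6a6126584a4a66d5abc6820bf00b646d4a6ac6491f055834bf6ea8be3f4bbebf530d36a6884a54a557 = true := by decide +kernel

theorem cB20_13_3_19 : chunkOkM (LB20_13.ctx true true 270 41 16 19 16 118 428 143 105) muQ true true 64 RtB20_13.Cx.left RtB20_13.CX RtB20_13.Ctp.right.right.right.left.right RtB20_13.Ce.right.right.left.right.left.right RtB20_13.CTp.right.right.left RtB20_13.CEr.right.right.right 0x101c9ae0f99ccb7aabf38cbd291d57892bbf5210be01b1fabf040d = true := by decide +kernel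

theorem cB20_13_3_20 : chunkOkM (LB20_13.ctx true true 297 163 64 19 16 470 860 165 217) muQ true true 64 RtB20_13.Cx.left.left RtB20_13.CX RtB20_13.Ctp.right.right.right.left.right.left RtB20_13.Ce.right.right.left.right.left.right RtB20_13.CTp.right.right.right RtB20_13.CEr.right.right.right 0x3fb16e779cfc331e7633af9a9c64a2f74cbf6eada13bf2e7bf540d30049aa79c10cf5fe437dbf9906f29b32fabf6d404060cf64bf5c462b2aeceaf250d7760ad7b79c1d62c0c2f36bf98ba73ce37c4bf6feadae02a84bf51bbc1409e2cbf450d2ff72c279c10ab7c80f2dbf9682f298223cbf6fc1899ca275bf523922bd8dafbf450d6336b18b479cf0301e8ef5af93fca0fb52ffbf614b0d9eabc07cf240d31b0af779c1c636d8787cbf92d45cd43de6bf6caff8d32f57bf540d3f3d3b579c4bc11bdd16af755dfdfdaa21bf6e029c676345bf540d634 = true := by decide +kernel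

theorem cB20_13_3_21 : chunkOkM (LB20_13.ctx true true 281 83 32 19 16 234 428 165 105) muQ true true 64 RtB20_13.Cx.left.right RtB20_13.CX RtB20_13.Ctp.right.right.right.left.right.left RtB20_13.Ce.right.right.left.right.left.right RtB20_13.CTp.right.right.right RtB20_13.CEr.right.right.right 0x36b550c3c268cf04b = true := by decide +kernel

theorem cB20_13_3_22 : chunkOkM (LB20_13.ctx true true 275 41 16 19 16 238 428 165 105) muQ true true 64 RtB20_13.Cx.left RtB20_13.CX RtB20_13.Ctp.right.right.right.left.right.right RtB20_13.Ce.right.right.left.right.left.right RtB20_13.CTp.right.right.right RtB20_13.CEr.right.right.right 0xb6ede1475b3bf00b = true := by decide +kernel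

theorem cB20_13_3_23 : chunkOkM (LB20_13.ctx true true 115 1 1 1 1 1 1 1 1) muQ true true 64 RtB20_13.Cx.right RtB20_13.CX RtB20_13.Ctp.right.right.right.left.right RtB20_13.Ce.right.right.left.right.left.right RtB20_13.CTp.right.right RtB20_13.CEr.right.right.right 0x11 = true := by decide +kernel

theorem cB20_13_3_24 : chunkOkM (LB20_13.ctx true true 254 21 8 19 16 114 220 77 49) muQ true true 64 RtB20_13.Cx RtB20_13.CX RtB20_13.Ctp.right.right.right.left.left RtB20_13.Ce.right.right.left.right.right RtB20_13.CTp.right.right RtB20_13.CEr.right.right 0x244ec66db52e55f8cd3b1cf6131996ff010f0df54ffc5be0ddd0edf440d = true := by decide +kernel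

theorem cB20_13_3_25 : chunkOkM (LB20_13.ctx true true 306 83 32 73 64 238 436 605 385) muQ true true 64 RtB20_13.Cx.left RtB20_13.CX RtB20_13.Ctp.right.right.right.left.right RtB20_13.Ce.right.right.left.right.right.left RtB20_13.CTp.right.right RtB20_13.CEr.right.right.left 0x6a022ce77bf79c69ddfef73aaf9856a4f53bddbf6de79f37be1dbf540d16950a058f8bfd278b89579c5a55f987ab9bf6fe3d6ad4859bf5892bf0c5e69bf450d33a27ca479cb276ca098baf9b0c2df95603bf6f846a4d8388bf52f5fc682b93bf250d76a6126584a4a507f51179c4c671c2455ebf6ca3fc02a326bf53cc3f67da9bbf240d4e90b9579c437235db772e55efc7dbf610b4bd57ea08cf53ceebc43c16bf450d36a6884a54a55 = true := by decide +kernel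

theorem cB20_13_3_26 : chunkOkM (LB20_13.ctx true true 306 83 32 73 64 238 444 605 385) muQ true true 64 RtB20_13.Cx.left RtB20_13.CX RtB20_13.Ctp.right.right.right.left.right RtB20_13.Ce.right.right.left.right.right.right RtB20_13.CTp.right.right RtB20_13.CEr.right.right.left 0x6a0268a95ca79c5367111fc99bf610523486b73ccf530d54cab0579cb30143e1c3af915210dbd1867cf52136f17b1e81cf440d36a6126584a4a54f249179c7299a36cb4e11025f533bf6108df4fc99a0cf540d51d0416ac25c6e8e0d67bf612e6cc9daff1cf514b8bd2c67d9cf440d36a6884a54a55217 = true := by decide +kernel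

theorem cB20_13_3_27 : chunkOkM (LB20_13.ctx true true 267 41 16 19 16 118 220 143 105) muQ true true 64 RtB20_13.Cx.left RtB20_13.CX RtB20_13.Ctp.right.right.right.left.right RtB20_13.Ce.right.right.left.right.right RtB20_13.CTp.right.right.left RtB20_13.CEr.right.right.right 0x1780b8fa299c127c483e19cb415174ec4f6bf643b2d6f37eabcf42614fbe4d326cf250d = true := by decide +kernel

end Vale.Agent.helper4.Q4
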