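import Vale.Agent.helper4.Q4TreeM
import Vale.Agent.helper4.Q4G.PB20_13

/-!
Checks for pairs of intervals of second moments.
-/

set_option maxRecDepth 100000
set_option linter.unusedVariables false

namespace Vale.Agent.helper4.Q4

theorem cB20_13_3_28 : chunkOkM (LB20_13.ctx true true 291 83 32 19 16 470 876 165 217) muQ true true 64 RtB20_13.Cx.left RtB20_13.CX RtB20_13.Ctp.right.right.right.left.right.left RtB20_13.Ce.right.right.left.right.right.left RtB20_13.CTp.right.right.right RtB20_13.CEr.right.right.right 0x764597179c1f896c7f1bbbf98caae58b479bf6f9af4c22216bf59970921cdfbbf450d539e8af79cc14afb9e7daf961db18dd13cbf610e9a2c2bc18cf549fb6fd5329bf450d66862f7579c17c6df655fabf9b7cb57df13dbf6f4db0a5508dbf54d231bd4d0cbf450d3f71f8979cc4cf2c5cb0af990b656f5696bf6f83c19fe4edbf54c0ad8d7d6bbf450d64493462e1f779c5e508b7c37af7ae1ba9845b9bf61009c02a93f6cf540d53b3fd279c1997a44e315bf9d3c72cc27f1bf610436c6ca62bcf540d430914f79c1298a37ed7abf967c56bc8d2fbf6fe9e4d4e120bf540d647 = true := by decide +kernel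

theorem cB20_13_3_29 : chunkOkM (LB20_13.ctx true true 303 327 128 19 16 478 876 165 217) muQ true true 64 RtB20_13.Cx.left RtB20_13.CX RtB20_13.Ctp.right.right.right.left.right.right RtB20_13.Ce.right.right.left.right.right.left RtB20_13.CTp.right.right.right RtB20_13.CEr.right.right.right 0xa98a38efafebf00b695c093c679c2c25c7fa276bf9d3732ad3d14bf61170cf97b4fccf540d547591879c7b123b6cc4af77f80ea9cf38bf6f8b9baa1a92bf540d673114367b26079ce98feee480af979b334579abbf6d2708c29849bf53484a987d8bbf250d37529e679ccbfdffb714af9af4ae90a48cbf6d34d2dcb91abf5d7ed75a78caf250d40170177 = true := by decide +kernel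

theorem cB20_13_3_30 : chunkOkM (LB20_13.ctx true true 115 1 1 1 1 1 1 1 1) muQ true true 64 RtB20_13.Cx.left.left RtB20_13.CX RtB20_13.Ctp.right.right.right.left.right RtB20_13.Ce.right.right.left.right.right.right RtB20_13.CTp.right.right.right RtB20_13.CEr.right.right.right 0x21 = true := by decide +kernel

theorem cB20_13_3_31 : chunkOkM (LB20_13.ctx true true 291 83 32 19 16 470 884 165 217) muQ true true 64 RtB20_13.Cx.left.right RtB20_13.CX RtB20_13.Ctp.right.right.right.left.right.left RtB20_13.Ce.right.right.left.right.right.right RtB20_13.CTp.right.right.right RtB20_13.CEr.right.right.right 0x597dd266c79c6c94b7deceaf9347cb0cf57cbf6124eaa397c61cf5cf518c9a356bf450d29d0db779c137bcdfa81bbf9435e82c25a8bf610997bc25886cf5c4c8d1b6a86bf450d64934 = true := by decide +kernel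

theorem cB20_13_3_32 : chunkOkM (LB20_13.ctx true true 297 167 64 19 16 478 892 165 217) muQ true true 64 RtB20_13.Cx.left.right RtB20_13.CX RtB20_13.Ctp.right.right.right.left.right.right RtB20_13.Ce.right.right.left.right.right.right RtB20_13.CTp.right.right.right RtB20_13.CEr.right.right.right 0x731c01f79cd0a67ecd43af9d0e12d01543bf6119304b766e5cf540d4bb4cd579c1496c6d9d70bf9c63246ee86ebf61227f0edd995cf540d621740d358479ce354106bb4af9a5ea41dbb51bf6e07daeb2dd4bf540d4598d5e79c2efea9d03daf93a62cc196faf78370bdc850abf624dc6fdccf02cf250d7b158cc679cc80eb64884af796ba7336612bf6109e52311707cf5a7e9e5c03daf450d470689d79c6467268744af7a416f7a3540bf6fbd33f330c0bf521467edf863bf450d634 = true := by decide +kernel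

theorem cB20_13_3_33 : chunkOkM (LB20_13.ctx true true 115 1 1 1 1 1 1 1 1) muQ true true 64 RtB20_13.Cx.right RtB20_13.CX RtB20_13.Ctp.right.right.right.left.right.left RtB20_13.Ce.right.right.left.right.right RtB20_13.CTp.right.right RtB20_13.CEr.right.right 0x49 = true := by decide +kernel

theorem cB20_13_3_34 : chunkOkM (LB20_13.ctx true true 274 43 16 19 16 238 444 165 91) muQ true true 64 RtB20_13.Cx.right RtB20_13.CX RtB20_13.Ctp.right.right.right.left.right.right RtB20_13.Ce.right.right.left.right.right RtB20_13.CTp.right.right RtB20_13.CEr.right.right.left 0x2f9a12b79c1f74bd43acaf972abc79dcc2bf6fb3a844b988bf5804bb390dbbbf450d46469f079c1e5e2827cbd489f3bad3fbf6f6b95b52962bf5ad03bff2a18bf450d5114 = true := by decide +kernel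

theorem cB20_13_3_35 : chunkOkM (LB20_13.ctx true true 303 85 32 19 16 1902 1788 165 217) muQ true true 64 RtB20_13.Cx.right RtB20_13.CX RtB20_13.Ctp.right.right.right.left.right.right RtB20_13.Ce.right.right.left.right.right RtB20_13.CTp.right.right RtB20_13.CEr.right.right.right 0x496d03d9779c15e5d5e049fbf9a737e2362bdbf6fc8b2cc1d84bf563ae7b90766bf450d37fb8c779c168d09b74a6bf925f8f2355466cf6b9d4bd70df3bf5ad1491abfe4bf450d66949580adf79c20937f4adc0bf99ab6904862bbf611f64ad68b2fcf5330127a6424bf450d317555779c1e6560b8667bf9895971e0fa1bf61004382c711dcf57efd3cbfcdfbf450d649349337d134b7579c2bf33ab736bbf918479092b666a2ef419f4e60aee454df140d413e6e936599cf6dd42748cbe709a68b0a9bf538c52cdea9af440d5114 = true := by decide +kernel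

theorem cB20_13_3_36 : chunkOkM (LB20_13.ctx true true 247 21 8 19 16 62 108 77 49) muQ true true 64 RtB20_13.Cx RtB20_13.CX RtB20_13.Ctp.right.right.right.right RtB20_13.Ce.right.right.left.right RtB20_13.CTp.right.right RtB20_13.CEr.right.right 0x5204176ac624fbe6db1b17a0722e771df1609a3644496a3df040d = true := by decide +kernel

theorem cB20_13_3_37 : chunkOkM (LB20_13.ctx true true 249 21 8 19 16 58 228 77 35) muQ true true 64 RtB20_13.Cx RtB20_13.CX RtB20_13.Ctp.right.right.right.left RtB20_13.Ce.right.right.right.left.left RtB20_13.CTp.right.right RtB20_13.CEr.right.left 0x1bbd3bb18dbd3a057344768cf858d46e1283cccf430d = true := by decide +kernel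

theorem cB20_13_3_38 : chunkOkM (LB20_13.ctx true true 254 21 8 19 16 114 228 77 49) muQ true true 64 RtB20_13.Cx RtB20_13.CX RtB20_13.Ctp.right.right.right.left.left RtB20_13.Ce.right.right.right.left.left RtB20_13.CTp.right.right RtB20_13.CEr.right.right 0x2235e43536997df4c21adaa92447cf220d = true := by decide +kernel

theorem cB20_13_3_39 : chunkOkM (LB20_13.ctx true true 291 85 32 19 16 238 908 297 217) muQ true true 64 RtB20_13.Cx RtB20_13.CX RtB20_13.Ctp.right.right.right.left.right RtB20_13.Ce.right.right.right.left.left RtB20_13.CTp.right.right RtB20_13.CEr.right.right 0x49596d2607679c16319a14f0dbf9554e30707afbf61205acbdfd90cf5e530f16b197bf450d44a21c079c56884f6a20af7640f289856bbf611726f670e31cf5d8bfdc69cecbf450d678adcaf79c1a28fd182c7bf9b9bbe5b913ebf610d70067605bcf59abf4a98ec4bf450d581342e79c69f7128efdaf7d15f66348b6bf610637484eb11cf59c7c28fa669bf450d64474932172aca1697599c20f3d04769cb68318c725adbf6222632de12c2cf240d549594f3393b79c47fe90c92bbbf61282904f7f4bcf5a6182e1be9cbf440d565d6d979c1236d407cb85ca37b67e5bf61176240676b3cf598bf2be41abbf450d4a55474932176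 = true := by decide +kernel

theorem cB20_13_3_40 : chunkOkM (LB20_13.ctx true true 115 1 1 1 1 1 1 1 1) muQ true true 64 RtB20_13.Cx RtB20_13.CX RtB20_13.Ctp.right.right.right.left RtB20_13.Ce.right.right.right.left.right RtB20_13.CTp.right.right RtB20_13.CEr.right 0x59 = true := by decide +kernel

theorem cB20_13_3_41 : chunkOkM (LB20_13.ctx true true 115 1 1 1 1 1 1 1 1) muQ true true 64 RtB20_13.Cx.left RtB20_13.CX RtB20_13.Ctp.right.right.right.right RtB20_13.Ce.right.right.right.left RtB20_13.CTp.right.right RtB20_13.CEr.right 0x01 = true := by decide +kernel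

theorem cB20_13_3_42 : chunkOkM (LB20_13.ctx true true 256 43 16 19 16 122 116 77 35) muQ true true 64 RtB20_13.Cx.right RtB20_13.CX RtB20_13.Ctp.right.right.right.right.left RtB20_13.Ce.right.right.right.left RtB20_13.CTp.right.right RtB20_13.CEr.right.left 0x231779b18dbdf354ebddfa2cf81d7ec3fec95bf67078747f268fcf45ca88c7cbb44cf250d = true := by decide +kernel

end Vale.Agent.helper4.Q4
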