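import Vale.Agent.helper4.Q4TreeM
import Vale.Agent.helper4.Q4G.PB20_13

/-!
Checks for pairs of intervals of second moments.
-/

set_option maxRecDepth 100000
set_option linter.unusedVariables false

namespace Vale.Agent.helper4.Q4

theorem cB20_13_3_43 : chunkOkM (LB20_13.ctx true true 312 171 64 73 64 242 916 605 189) muQ true true 64 RtB20_13.Cx.right RtB20_13.CX RtB20_13.Ctp.right.right.right.right.left RtB20_13.Ce.right.right.right.left.left RtB20_13.CTp.right.right RtB20_13.CEr.right.right.left 0x6a025b452d079cc251feb8fcabf610aa0f6b9ff3cf5490428941a8bf440d126584a4a6b98ce6ac115895dbc18d5b290a3bf610b70d302f26cf52e3b35eb5fdbf450d6a6884a54a5521013da491d79c4b50ff7d19af911c31c849e36cf6143882861177cf540d38f4f2979c21a5bfe7cbfe35d4a4062bf612546489bafdcf540d5321747114ce305879c687bb7454a7bf610444f483da8cf530d4d1472579c7f6fe5db5cc685f1b9bbf6f446b43ca09bf540d4a54a5534 = true := by decide +kernel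

theorem cB20_13_3_44 : chunkOkM (LB20_13.ctx true true 292 87 32 19 16 486 908 165 217) muQ true true 64 RtB20_13.Cx.right RtB20_13.CX RtB20_13.Ctp.right.right.right.right.left RtB20_13.Ce.right.right.right.left.left.left RtB20_13.CTp.right.right RtB20_13.CEr.right.right.right 0x112ad86e1acffbfd270ab96cb2402757553b5bcef4259262dbecddedf140d15d4b088c427cf00b4dcdb5479c1bab8ab5817bf997aa09edb03bf61012b87a743fcf540d46b7a8479c63e3191243af77e49c1e54abbf6fdad3b47f40bf55246b169d0af450d63116454dce79c166212d7a2ebf975f2d3901d0bf6cd89a428041bf540d48f300179c5dfbc11913af74440fbdbb1ebf6ea2ca1ca42abf540d6347313724b1af99ce31bbe248cb35f08c97ee7bf6ac345366962bf5181950e4cf84cf250d5 = true := by decide +kernel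

theorem cB20_13_3_45 : chunkOkM (LB20_13.ctx true true 270 43 16 19 16 122 460 143 105) muQ true true 64 RtB20_13.Cx.right RtB20_13.CX RtB20_13.Ctp.right.right.right.right.left RtB20_13.Ce.right.right.right.left.left.right RtB20_13.CTp.right.right.left RtB20_13.CEr.right.right.right 0xf56f661789cbed424778cb595c936f95abf6fe59f2f4bc9bf540d = true := by decide +kernel

theorem cB20_13_3_46 : chunkOkM (LB20_13.ctx true true 293 171 64 19 16 242 916 165 217) muQ true true 64 RtB20_13.Cx.right.left RtB20_13.CX RtB20_13.Ctp.right.right.right.right.left.left RtB20_13.Ce.right.right.right.left.left.right RtB20_13.CTp.right.right.right RtB20_13.CEr.right.right.right 0x2176398b879c1309b67681fbf9ca0b5bf6047bf612870217f7a0cf51d2c1a04505bf450d3501f06053afd5774bbe79c11416e99163bf9ff8ab3c4b9abf6125d0a813d20cf550d62174 = true := by decide +kernel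

theorem cB20_13_3_47 : chunkOkM (LB20_13.ctx true true 295 87 32 19 16 966 924 165 217) muQ true true 64 RtB20_13.Cx.right.right RtB20_13.CX RtB20_13.Ctp.right.right.right.right.left.left RtB20_13.Ce.right.right.right.left.left.right RtB20_13.CTp.right.right.right RtB20_13.CEr.right.right.right 0x8405f9d79c174519c5fa9bf9ac3f5f8ef65bf6119d29ad1810cf59e1940ec345bf450d5ba4f9a79c57af8e92f8af78c6cb751734bf610976f94db9acf565e3d7f6261bf450d1f70f56855dbfd40d12f179c41f26399d5af7e0265c103a9bf612317948cebacf5ce84936d274bf460d367b3537b79c6ba6044fb6af95671944b286bf6fd06da81a80bf540d46f524e79ca371ff9aa2af9939a8138ec5bf610d2aa995efccf540d6759a36079c7729fcb7bfaf7c0031001c48bf6fca12240298bf5f85e685a1edbf450d631bc3a79c53ca069cd1af783024a188e1bf6106163e8f0eacf58d2dbc8f96abf450d649334 = true := by decide +kernel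

theorem cB20_13_3_48 : chunkOkM (LB20_13.ctx true true 275 43 16 19 16 246 460 165 105) muQ true true 64 RtB20_13.Cx.right RtB20_13.CX RtB20_13.Ctp.right.right.right.right.left.right RtB20_13.Ce.right.right.right.left.left.right RtB20_13.CTp.right.right.right RtB20_13.CEr.right.right.right 0x394484e586ebf92905b3a0e3abf6bb45d15fec54cf12c15740363773df040d = true := by decide +kernel

theorem cB20_13_3_49 : chunkOkM (LB20_13.ctx true true 115 1 1 1 1 1 1 1 1) muQ true true 64 RtB20_13.Cx.right.left RtB20_13.CX RtB20_13.Ctp.right.right.right.right.left RtB20_13.Ce.right.right.right.left.right.left RtB20_13.CTp.right.right RtB20_13.CEr.right.right 0x21 = true := by decide +kernel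

theorem cB20_13_3_50 : chunkOkM (LB20_13.ctx true true 294 175 64 19 16 490 932 165 91) muQ true true 64 RtB20_13.Cx.right.right RtB20_13.CX RtB20_13.Ctp.right.right.right.right.left RtB20_13.Ce.right.right.right.left.right.left RtB20_13.CTp.right.right RtB20_13.CEr.right.right.left 0x014453bd479c731a3250ecfbf612bff8847b7dcf5130fe04563dbf440d34bc14979c278f7dd7cb82e232080c0bf61104194cbec9cf540d53017593624ca979c67b632ec1faf94f56602fa63bf6122111dd161ccf5b6fee237f8abf450d397401779c1d9a9fa7cbe97fe6aa977bf6124c4427ed25cf578ad3044a1bbf450d543 = true := by decide +kernel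

theorem cB20_13_3_51 : chunkOkM (LB20_13.ctx true true 307 351 128 19 16 490 1876 165 217) muQ true true 64 RtB20_13.Cx.right.right RtB20_13.CX RtB20_13.Ctp.right.right.right.right.left RtB20_13.Ce.right.right.right.left.right.left RtB20_13.CTp.right.right RtB20_13.CEr.right.right.right 0x01218b3105379c12297237938bf934d6c6ab8f8bf61348630ca840cf540d596cb1379c90b5556510af976abc62c226bf6117e943e4926cf540d621746d4141c79c17c26d6fbbfbf960ba930ee85bf6112a1622c91ecf540d5248f4779c49ec4a4813af774e3bcd1a92bf6103063df250dcf540d643017598b1765e79c122c6ba4ec7bf97e178b77e2dbf6130103eafc29cf5ad1db9649fdbf450d5cd6aa479c1330fbb021af95238ff188eaf7aef63863ba7bf611fbf156a2d2cf5b75d09f364bbf460d6431261b7b5799ce775c1398cb553d7ff62a6bf649dca91d68a8cf42aac4c14db06cf250d5 = true := by decide +kernel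

theorem cB20_13_3_52 : chunkOkM (LB20_13.ctx true true 115 1 1 1 1 1 1 1 1) muQ true true 64 RtB20_13.Cx.right RtB20_13.CX RtB20_13.Ctp.right.right.right.right.left RtB20_13.Ce.right.right.right.left.right.right RtB20_13.CTp.right.right RtB20_13.CEr.right.right 0x21 = true := by decide +kernel

theorem cB20_13_3_53 : chunkOkM (LB20_13.ctx true true 115 1 1 1 1 1 1 1 1) muQ true true 64 RtB20_13.Cx.right RtB20_13.CX RtB20_13.Ctp.right.right.right.right.right RtB20_13.Ce.right.right.right.left RtB20_13.CTp.right.right RtB20_13.CEr.right 0x01 = true := by decide +kernel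

theorem cB20_13_3_54 : chunkOkM (LB20_13.ctx true true 115 1 1 1 1 1 1 1 1) muQ true true 64 RtB20_13.Cx RtB20_13.CX RtB20_13.Ctp.right.right.right RtB20_13.Ce.right.right.right.right RtB20_13.CTp.right.right RtB20_13.CEr.right 0x21 = true := by decide +kernel

theorem cB20_13_2_0 : chunkOkM (LB20_13.ctx false true 115 1 1 1 1 1 1 1 1) muQ false true 64 RtB20_13.Cx RtB20_13.CX RtB20_13.Ctn RtB20_13.Ce RtB20_13.CTp RtB20_13.CEr 0x49 = true := by decide +kernel

theorem cB20_13_1_0 : chunkOkM (LB20_13.ctx true false 115 1 1 1 1 1 1 1 1) muQ true false 64 RtB20_13.Cx RtB20_13.CX RtB20_13.Ctp RtB20_13.Ce RtB20_13.CTn RtB20_13.CEr 0x4a = true := by decide +kernel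

theorem cB20_13_0_0 : chunkOkM (LB20_13.ctx false false 115 1 1 1 1 1 1 1 1) muQ false false 64 RtB20_13.Cx RtB20_13.CX RtB20_13.Ctn RtB20_13.Ce RtB20_13.CTn RtB20_13.CEr 0x49 = true := by decide +kernel

end Vale.Agent.helper4.Q4
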