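import Vale.Agent.helper4.Q4TreeM
import Vale.Agent.helper4.Q4G.PB20_14

/-!
Checks for pairs of intervals of second moments.
-/

set_option maxRecDepth 100000
set_option linter.unusedVariables false

namespace Vale.Agent.helper4.Q4

theorem cB20_14_3_0 : chunkOkM (LB20_14.ctx true true 120 1 1 1 1 1 1 1 1) muQ true true 64 RtB20_14.Cx RtB20_14.CX RtB20_14.Ctp.left RtB20_14.Ce RtB20_14.CTp RtB20_14.CEr 0x41 = true := by decide +kernel

theorem cB20_14_3_1 : chunkOkM (LB20_14.ctx true true 120 1 1 1 1 1 1 1 1) muQ true true 64 RtB20_14.Cx RtB20_14.CX RtB20_14.Ctp.right RtB20_14.Ce RtB20_14.CTp.left RtB20_14.CEr 0x42 = true := by decide +kernel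

theorem cB20_14_3_2 : chunkOkM (LB20_14.ctx true true 120 1 1 1 1 1 1 1 1) muQ true true 64 RtB20_14.Cx RtB20_14.CX RtB20_14.Ctp.right RtB20_14.Ce RtB20_14.CTp.right RtB20_14.CEr.left 0x6a = true := by decide +kernel

theorem cB20_14_3_3 : chunkOkM (LB20_14.ctx true true 120 1 1 1 1 1 1 1 1) muQ true true 64 RtB20_14.Cx RtB20_14.CX RtB20_14.Ctp.right RtB20_14.Ce RtB20_14.CTp.right.left RtB20_14.CEr.right 0x42 = true := by decide +kernel

theorem cB20_14_3_4 : chunkOkM (LB20_14.ctx true true 120 1 1 1 1 1 1 1 1) muQ true true 64 RtB20_14.Cx RtB20_14.CX RtB20_14.Ctp.right.left RtB20_14.Ce RtB20_14.CTp.right.right RtB20_14.CEr.right 0x41 = true := by decide +kernel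

theorem cB20_14_3_5 : chunkOkM (LB20_14.ctx true true 120 1 1 1 1 1 1 1 1) muQ true true 64 RtB20_14.Cx RtB20_14.CX RtB20_14.Ctp.right.right RtB20_14.Ce.left RtB20_14.CTp.right.right RtB20_14.CEr.right 0x11 = true := by decide +kernel

theorem cB20_14_3_6 : chunkOkM (LB20_14.ctx true true 120 1 1 1 1 1 1 1 1) muQ true true 64 RtB20_14.Cx RtB20_14.CX RtB20_14.Ctp.right.right.left RtB20_14.Ce.right RtB20_14.CTp.right.right RtB20_14.CEr.right 0x49 = true := by decide +kernel

theorem cB20_14_3_7 : chunkOkM (LB20_14.ctx true true 120 1 1 1 1 1 1 1 1) muQ true true 64 RtB20_14.Cx RtB20_14.CX RtB20_14.Ctp.right.right.right RtB20_14.Ce.right.left RtB20_14.CTp.right.right RtB20_14.CEr.right 0x11 = true := by decide +kernel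

theorem cB20_14_3_8 : chunkOkM (LB20_14.ctx true true 231 21 8 21 16 30 52 21 10) muQ true true 64 RtB20_14.Cx RtB20_14.CX RtB20_14.Ctp.right.right.right RtB20_14.Ce.right.right.left RtB20_14.CTp.right.right RtB20_14.CEr.right.left 0x13b59b8a8eb1387d7097bc9c2ef819594223dcc2ddf6539620778c24cf040d = true := by decide +kernel

theorem cB20_14_3_9 : chunkOkM (LB20_14.ctx true true 235 21 8 21 16 30 100 21 14) muQ true true 64 RtB20_14.Cx RtB20_14.CX RtB20_14.Ctp.right.right.right RtB20_14.Ce.right.right.left.left RtB20_14.CTp.right.right RtB20_14.CEr.right.right 0x39e2587a40a2adf92339165b58de2e2ff4255ab82afa6b4aef130d = true := by decide +kernel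

theorem cB20_14_3_10 : chunkOkM (LB20_14.ctx true true 286 41 16 41 32 230 428 171 110) muQ true true 64 RtB20_14.Cx RtB20_14.CX RtB20_14.Ctp.right.right.right.left RtB20_14.Ce.right.right.left.right.left RtB20_14.CTp.right.right RtB20_14.CEr.right.right.left 0x0202c7572b94eecbfd8ab0aa6bc144dbbc57e3bcf9739e81a6ef99cf613e6e260a767adf550d875f97a68be1cfdcb56fb6bc71700dee6836cf6172c9cbd24225df51917eaec404afdf450d4933551261264a118a51506bcbae08396419bcf61480b41127648df530d7694775a2ead05cbfd9ab7556bca2d3eb7e8e181790facf61596a305bbe80df51e98af53d7469df460d493312684a54a55 = true := by decide +kernel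

theorem cB20_14_3_11 : chunkOkM (LB20_14.ctx true true 249 21 8 21 16 114 220 21 26) muQ true true 64 RtB20_14.Cx RtB20_14.CX RtB20_14.Ctp.right.right.right.left.left RtB20_14.Ce.right.right.left.right.right RtB20_14.CTp.right.right RtB20_14.CEr.right.right.left 0x2f2e196eb35e86492c645edf63917b2aff00ce5ef5133b699c180822cff440d = true := by decide +kernel

theorem cB20_14_3_12 : chunkOkM (LB20_14.ctx true true 286 43 16 41 32 238 444 171 110) muQ true true 64 RtB20_14.Cx RtB20_14.CX RtB20_14.Ctp.right.right.right.left.right RtB20_14.Ce.right.right.left.right.right RtB20_14.CTp.right.right RtB20_14.CEr.right.right.left 0x02027cc1876bc1cab5873a31acf910be87b4ab01bdf617491ff52fcb1df51a1dc7ad48de8df450d1aa5fa8dd5c6cfd811e076bc2e6726201b26cf9e943777b831fcf61c20db4474064df550d3b431dd996f7cfd68a9f86bc2909a7c93572cf9c705070e96e0cf61702790ae786edf525cbd2ea82c7cf460d47551261264a9a781d6bc9cee55ebf6add3c3e04bcf613c6185c137aadf51f87c690ea09adf450da36c3c6bcca254eb1300ce131a967df61b1e608f929b8df57a85c6d234bbf450d4b5f4e4ae83ecfd8b6f826bc1a34d36eb594aec7e1118cf613d020c049be7df550da1b6d46bc279f45ebb378137adbe7cf618062fa28bc8adf5882c0f1eb8e2cf450d3471264a54a585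 = true := by decide +kernel

theorem cB20_14_3_13 : chunkOkM (LB20_14.ctx true true 277 41 16 21 16 230 428 171 58) muQ true true 64 RtB20_14.Cx RtB20_14.CX RtB20_14.Ctp.right.right.right.left RtB20_14.Ce.right.right.left.right.left RtB20_14.CTp.right.right RtB20_14.CEr.right.right.right.left 0x02021199c9366bc1c3c35eb83a72617f5a3cf61394c79edb1eadf540d7694182be47dad82cfda2738e6bcfd4fca0c655bf96dfc4e464fa9cf6163ca112a06bcdf520181480741c8df460d493355941fb6e0a9ac97855fad99dbb6e22facf629cf61006007d5733edf51ba9e97492ed6df450d5 = true := by decide +kernel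

theorem cB20_14_3_14 : chunkOkM (LB20_14.ctx true true 278 43 16 21 16 238 444 171 58) muQ true true 64 RtB20_14.Cx RtB20_14.CX RtB20_14.Ctp.right.right.right.left RtB20_14.Ce.right.right.left.right.right RtB20_14.CTp.right.right RtB20_14.CEr.right.right.right.left 0x0202bcf48a6bcdf28bbfc2838cf616dd275dbf92cdf51ba121aa976c7df440dc4662147ac2bfe75d28d6bf9131a253e49b29df61b50bb1160a7cdf530d3f9fe0e84cf450d8e1b12d7acb52bb3b4ffebf96e5e36bab508cf6136fdfc8bc8e3df540d90f8e667ac242b5177e640cf9b8a538e99003cf618252524d6453df5a5cc9fdda276cf450d347ac006f7d34e6cfde65c676bc10a8e86eb1080bb597735adf61344e2e189dc34ef562141ccb2506f8ef460d355a8ef8eca19acababcb8c39db5d3c5bd29b17cf61fcdb73755411df52ac244844adc6df450d5 = true := by decide +kernel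

theorem cB20_14_3_15 : chunkOkM (LB20_14.ctx true true 120 1 1 1 1 1 1 1 1) muQ true true 64 RtB20_14.Cx RtB20_14.CX RtB20_14.Ctp.right.right.right.left RtB20_14.Ce.right.right.left.right RtB20_14.CTp.right.right RtB20_14.CEr.right.right.right.right 0x22 = true := by decide +kernel

theorem cB20_14_3_16 : chunkOkM (LB20_14.ctx true true 240 21 8 21 16 62 108 21 14) muQ true true 64 RtB20_14.Cx RtB20_14.CX RtB20_14.Ctp.right.right.right.right RtB20_14.Ce.right.right.left.right RtB20_14.CTp.right.right RtB20_14.CEr.right.right 0x53480c6eb422c66ce2807feef1ea59028a72ed3fef030d = true := by decide +kernel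

theorem cB20_14_3_17 : chunkOkM (LB20_14.ctx true true 234 21 8 21 16 30 116 21 10) muQ true true 64 RtB20_14.Cx RtB20_14.CX RtB20_14.Ctp.right.right.right RtB20_14.Ce.right.right.right.left RtB20_14.CTp.right.right RtB20_14.CEr.right.left 0x41c1eb3a8eb1903c80bb4ed9def83407c89eb9d1edf030d = true := by decide +kernel

theorem cB20_14_3_18 : chunkOkM (LB20_14.ctx true true 290 85 32 41 32 238 460 171 58) muQ true true 64 RtB20_14.Cx RtB20_14.CX RtB20_14.Ctp.right.right.right.left RtB20_14.Ce.right.right.right.left RtB20_14.CTp.right.right RtB20_14.CEr.right.right 0x59220202192fcdf7bc57124eb2a5eb95f3832baef5eefbf04ae5fd27ef440dec432bb7ac81c205eb108d491b3ac70df61b6a16876ec40df51e0c09859bc5edf450d217427992c1d760a22ef4d8500175f3691df220d355120922f759bc12790d5e59eb629f36352b36cf61ed264ee4459adf52995bcd037246df450d5649597d67c7d9b804cf9f7dcf2dc823bf896039d0e6206cf619103fd066d38df512a80d0ed9063df450d4a9d3e4d77ac494e75eb831fcfbdaa8dcf61827199f831acdf513a096a7a9003df450d12684a54a5547493217381a69c63bef34ef4141957b080272aef220d364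 = true := by decide +kernel

theorem cB20_14_3_19 : chunkOkM (LB20_14.ctx true true 120 1 1 1 1 1 1 1 1) muQ true true 64 RtB20_14.Cx.left RtB20_14.CX RtB20_14.Ctp.right.right.right.right RtB20_14.Ce.right.right.right.left RtB20_14.CTp.right.right RtB20_14.CEr.right.right 0x01 = true := by decide +kernel

theorem cB20_14_3_20 : chunkOkM (LB20_14.ctx true true 287 43 16 41 32 246 460 171 110) muQ true true 64 RtB20_14.Cx.right RtB20_14.CX RtB20_14.Ctp.right.right.right.right.left RtB20_14.Ce.right.right.right.left.left RtB20_14.CTp.right.right RtB20_14.CEr.right.right.left 0x020227bb069023c1cfd5d25db6bc2e037e841940cf9c7d67d99c50fcf617547c9676b1ddf53698fbefacedcf460d2b414e510f7ccfd7153191446b6cf9976cb98b64abf7ab125d9e20d6cf6124f5d332053adf5252b610623d8cf260d4551261264a1f530ede0e35adf00bb1e13f6bcc5c485ebaa961fbd6e11cf618eac3729d95edf55d4e12c25860cf450d36971536bcf57285eb88e44b696ad4cf612ed535fd8affdf540d412684a54a55 = true := by decide +kernel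

theorem cB20_14_3_21 : chunkOkM (LB20_14.ctx true true 278 43 16 21 16 246 460 171 58) muQ true true 64 RtB20_14.Cx.right RtB20_14.CX RtB20_14.Ctp.right.right.right.right.left RtB20_14.Ce.right.right.right.left.left RtB20_14.CTp.right.right RtB20_14.CEr.right.right.right 0x2202021444f57c8ac13a001f44fc2cf77927ae550c82cf6c3e894e733df5df1300aac89d4103cef050df719c5b7ac8b3285eba064934a3bd8cf61a5c67ef25799df59f84a2a204edcf450d3fb78d56bcae6af5eb99760171f473cf617034ad75da1edf511154067fe42cf050d45566efb25ecd735dfd38c35df219ac3a43f0aeb9db723c4b8825d9cf618202ac86fce7df511187b3a5a4ccf060d56 = true := by decide +kernel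

end Vale.Agent.helper4.Q4
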