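import Vale.Agent.helper4.Q4TreeM
import Vale.Agent.helper4.Q4G.PB20_6

/-!
Checks for pairs of intervals of second moments.
-/

set_option maxRecDepth 100000
set_option linter.unusedVariables false

namespace Vale.Agent.helper4.Q4

theorem cB20_6_3_0 : chunkOkM (LB20_6.ctx true true 100 1 1 1 1 1 1 1 1) muQ true true 64 RtB20_6.Cx RtB20_6.CX RtB20_6.Ctp.left RtB20_6.Ce RtB20_6.CTp RtB20_6.CEr 0x41 = true := by decide +kernel

theorem cB20_6_3_1 : chunkOkM (LB20_6.ctx true true 100 1 1 1 1 1 1 1 1) muQ true true 64 RtB20_6.Cx RtB20_6.CX RtB20_6.Ctp.right.left RtB20_6.Ce RtB20_6.CTp RtB20_6.CEr 0x41 = true := by decide +kernel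

theorem cB20_6_3_2 : chunkOkM (LB20_6.ctx true true 100 1 1 1 1 1 1 1 1) muQ true true 64 RtB20_6.Cx RtB20_6.CX RtB20_6.Ctp.right.right RtB20_6.Ce.left RtB20_6.CTp RtB20_6.CEr 0x11 = true := by decide +kernel

theorem cB20_6_3_3 : chunkOkM (LB20_6.ctx true true 100 1 1 1 1 1 1 1 1) muQ true true 64 RtB20_6.Cx RtB20_6.CX RtB20_6.Ctp.right.right.left RtB20_6.Ce.right RtB20_6.CTp RtB20_6.CEr 0x49 = true := by decide +kernel

theorem cB20_6_3_4 : chunkOkM (LB20_6.ctx true true 100 1 1 1 1 1 1 1 1) muQ true true 64 RtB20_6.Cx RtB20_6.CX RtB20_6.Ctp.right.right.right RtB20_6.Ce.right.left RtB20_6.CTp RtB20_6.CEr 0x11 = true := by decide +kernel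

theorem cB20_6_3_5 : chunkOkM (LB20_6.ctx true true 209 21 8 5 16 30 100 8 64) muQ true true 64 RtB20_6.Cx RtB20_6.CX RtB20_6.Ctp.right.right.right RtB20_6.Ce.right.right.left.left RtB20_6.CTp RtB20_6.CEr 0x44e7626fdadce95f85b5745f7820fc1d579f489541ba48f150d = true := by decide +kernel

theorem cB20_6_3_6 : chunkOkM (LB20_6.ctx true true 251 161 64 5 16 462 860 8 64) muQ true true 64 RtB20_6.Cx RtB20_6.CX RtB20_6.Ctp.right.right.right.left RtB20_6.Ce.right.right.left.right.left RtB20_6.CTp RtB20_6.CEr 0x11e4a345a7f00b2151f7988f04b1a48236fd7883cc65cd0ed8e87f61ad911fd8f535d30437f450df283c5fde7bf2765cc9b64d47f6197082b28f540d4737694494949cb1995fd617b0765cced1f677f61c219da48f5e6f90a17f450d7771280b26fd7f26856c7b116477f618a9bf0d8f5f3007ec7f450d44934933 = true := by decide +kernel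

theorem cB20_6_3_7 : chunkOkM (LB20_6.ctx true true 220 21 8 5 16 114 220 8 64) muQ true true 64 RtB20_6.Cx RtB20_6.CX RtB20_6.Ctp.right.right.right.left.left RtB20_6.Ce.right.right.left.right.right RtB20_6.CTp RtB20_6.CEr 0x258e556fd2b74186f942f32ef68f610da2b8a99f541e7645fd9f450d = true := by decide +kernel

theorem cB20_6_3_8 : chunkOkM (LB20_6.ctx true true 246 83 32 5 16 470 892 8 64) muQ true true 64 RtB20_6.Cx.left RtB20_6.CX RtB20_6.Ctp.right.right.right.left.right RtB20_6.Ce.right.right.left.right.right RtB20_6.CTp RtB20_6.CEr 0x23eaa96fd803bc565c13614db08f61e487cdf8f5848e926f450d1999c46fd7778ae65c1ceec06f9ca4413d7f61b4180a38f529c238d7f460d42f70c46fd1617f5775c9a88f4d7f61f59d9a38f52419e36d8f450d321722b4d86fd101785c75c859c0127f6188e69798f5bf80216f250d572ef66fdc709f965cac07fd87f61cda03688f5c62c4aa7f450d1dace66fd6c595765cec5ef5f975dd53e7f61addbc748f55c7cfca7f460d449322de9eca8f05b3cdcdb6fd74ab3865c179edf028f61e29e26f8f540d4734 = true :=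 by decide +kernel

theorem cB20_6_3_9 : chunkOkM (LB20_6.ctx true true 246 85 32 5 16 478 892 8 64) muQ true true 64 RtB20_6.Cx.right RtB20_6.CX RtB20_6.Ctp.right.right.right.left.right RtB20_6.Ce.right.right.left.right.right RtB20_6.CTp RtB20_6.CEr 0x492965036fdcfeb5a65c4078c367f61afbd69d8f545701227f450d2ad645fd88f2b965cd2c5f4a7f61b9ba72e8f51a5907888f450d372308f58b8f04b4114493 = true := by decide +kernel

theorem cB20_6_3_10 : chunkOkM (LB20_6.ctx true true 213 21 8 5 16 62 108 8 64) muQ true true 64 RtB20_6.Cx RtB20_6.CX RtB20_6.Ctp.right.right.right.right RtB20_6.Ce.right.right.left.right RtB20_6.CTp RtB20_6.CEr 0x260ae7c98f00b = true := by decide +kernel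

theorem cB20_6_3_11 : chunkOkM (LB20_6.ctx true true 247 85 32 5 16 478 908 8 64) muQ true true 64 RtB20_6.Cx RtB20_6.CX RtB20_6.Ctp.right.right.right.left RtB20_6.Ce.right.right.right.left RtB20_6.CTp RtB20_6.CEr 0x594959be3525fd96e4d665c8a6e5677f61fc959b28f51fbd303e8f450d1c5b116fdadff2365caac01467f61d0527f88f5c94ad9f7f450df4d1556fd70f8a065ca8dc696f9f561f1f78f55334c6fce9f450d34474932172a0e786ec9f4e10825d88f220d34 = true := by decide +kernel

theorem cB20_6_3_12 : chunkOkM (LB20_6.ctx true true 100 1 1 1 1 1 1 1 1) muQ true true 64 RtB20_6.Cx.left RtB20_6.CX RtB20_6.Ctp.right.right.right.right RtB20_6.Ce.right.right.right.left RtB20_6.CTp RtB20_6.CEr 0x01 = true := by decide +kernel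

theorem cB20_6_3_13 : chunkOkM (LB20_6.ctx true true 246 87 32 5 16 486 924 8 64) muQ true true 64 RtB20_6.Cx.right RtB20_6.CX RtB20_6.Ctp.right.right.right.right.left RtB20_6.Ce.right.right.right.left.left RtB20_6.CTp RtB20_6.CEr 0x2e1c523c8f00b1a08cb6fde920f065ca51e75c7f61ce14bb18f5e36812f7f450d3a7b6b6fd5a195b65c7018a407f61f669a7c8f51e52968d8f450d31a3a666d8f05b6711056fddaa2a765cd110a227f61c4d89a98f514b9cdf68f450d3449dc4b6fdcbc44e65ccf817d17f61fae92708f540d731125d8a6898f04b4344806fd62df3d65c800a23d7f61b7373be8f540d734 = true := by decide +kernel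

theorem cB20_6_3_14 : chunkOkM (LB20_6.ctx true true 246 87 32 5 16 486 932 8 64) muQ true true 64 RtB20_6.Cx.right RtB20_6.CX RtB20_6.Ctp.right.right.right.right.left RtB20_6.Ce.right.right.right.left.right RtB20_6.CTp RtB20_6.CEr 0x21298eb56fd86edc165c423f296f99a7a9607f61de28d3a8f550d5923f8276fda96f2b65ceba529a7f61ee3b6a38f5f7993777f450d26f695e1b9f4c54338db8f220d3432174 = true := by decide +kernel

theorem cB20_6_3_15 : chunkOkM (LB20_6.ctx true true 100 1 1 1 1 1 1 1 1) muQ true true 64 RtB20_6.Cx.right RtB20_6.CX RtB20_6.Ctp.right.right.right.right.right RtB20_6.Ce.right.right.right.left RtB20_6.CTp RtB20_6.CEr 0x01 = true := by decide +kernel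

theorem cB20_6_3_16 : chunkOkM (LB20_6.ctx true true 100 1 1 1 1 1 1 1 1) muQ true true 64 RtB20_6.Cx RtB20_6.CX RtB20_6.Ctp.right.right.right RtB20_6.Ce.right.right.right.right RtB20_6.CTp RtB20_6.CEr 0x21 = true := by decide +kernel

theorem cB20_6_2_0 : chunkOkM (LB20_6.ctx false true 100 1 1 1 1 1 1 1 1) muQ false true 64 RtB20_6.Cx RtB20_6.CX RtB20_6.Ctn RtB20_6.Ce RtB20_6.CTp RtB20_6.CEr 0x49 = true := by decide +kernel

theorem cB20_6_1_0 : chunkOkM (LB20_6.ctx true false 100 1 1 1 1 1 1 1 1) muQ true false 64 RtB20_6.Cx RtB20_6.CX RtB20_6.Ctp.left RtB20_6.Ce RtB20_6.CTn RtB20_6.CEr 0x41 = true := by decide +kernel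

theorem cB20_6_1_1 : chunkOkM (LB20_6.ctx true false 100 1 1 1 1 1 1 1 1) muQ true false 64 RtB20_6.Cx RtB20_6.CX RtB20_6.Ctp.right.left RtB20_6.Ce RtB20_6.CTn RtB20_6.CEr 0x41 = true := by decide +kernel

theorem cB20_6_1_2 : chunkOkM (LB20_6.ctx true false 100 1 1 1 1 1 1 1 1) muQ true false 64 RtB20_6.Cx RtB20_6.CX RtB20_6.Ctp.right.right RtB20_6.Ce.left RtB20_6.CTn RtB20_6.CEr 0x11 = true := by decide +kernel

theorem cB20_6_1_3 : chunkOkM (LB20_6.ctx true false 100 1 1 1 1 1 1 1 1) muQ true false 64 RtB20_6.Cx RtB20_6.CX RtB20_6.Ctp.right.right.left RtB20_6.Ce.right RtB20_6.CTn RtB20_6.CEr 0x49 = true := by decide +kernel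

theorem cB20_6_1_4 : chunkOkM (LB20_6.ctx true false 100 1 1 1 1 1 1 1 1) muQ true false 64 RtB20_6.Cx RtB20_6.CX RtB20_6.Ctp.right.right.right RtB20_6.Ce.right.left RtB20_6.CTn RtB20_6.CEr 0x11 = true := by decide +kernel

theorem cB20_6_1_5 : chunkOkM (LB20_6.ctx true false 208 21 8 5 16 30 100 4 128) muQ true false 64 RtB20_6.Cx RtB20_6.CX RtB20_6.Ctp.right.right.right RtB20_6.Ce.right.right.left.left RtB20_6.CTn RtB20_6.CEr.left 0x1c0dd366c88af704ee9f490427a758f130d = true := by decide +kernel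

theorem cB20_6_1_6 : chunkOkM (LB20_6.ctx true false 241 83 32 5 16 462 428 4 128) muQ true false 64 RtB20_6.Cx RtB20_6.CX RtB20_6.Ctp.right.right.right.left RtB20_6.Ce.right.right.left.right.left RtB20_6.CTn RtB20_6.CEr.left 0x11133412bf8f00b295aebd48f04bbd6ae56fd19e172875ce3a43ca7f61ca16b178f540d737694498f9b1f6fd198c38a75cb6939bf7f61d9b5f208f516863bc88f450d7c4e6cf6fd1854b166c2cf0606f8183cc20e8f618a509838f517b0b5828f460d44934933 = true := by decide +kernel

theorem cB20_6_1_7 : chunkOkM (LB20_6.ctx true false 246 83 32 5 16 470 892 4 128) muQ true false 64 RtB20_6.Cx RtB20_6.CX RtB20_6.Ctp.right.right.right.left RtB20_6.Ce.right.right.left.right.right RtB20_6.CTn RtB20_6.CEr.left 0x4e82b76fd22c84566ce74df3d7f61b5c2e838f518c3a9138f450d49325c2aee75c1b8f2b2c8f620b1fe398f530156a07f440d15f891f7fd1998eaf75c181360d18f61e072e3f8f540d4180f9c6fd24f6aff75c81d8b1c7f62172c9d38f51aee35768f450d32178273346fd231ddb275c41c9ec6f86864a257f619848cd98f55b4e0787f260d91f0b66fd206d0d875c99d565b7f61dce87778f5a2984bb7f450d49382dc186fd1facc6b75cf2bdaa07f62047bfe98f540d734729c13e66c1af1afb7f812197b5f8f61612cfd819f56f69e60829f450d3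 = true := by decide +kernel

theorem cB20_6_1_8 : chunkOkM (LB20_6.ctx true false 212 21 8 5 16 62 108 4 128) muQ true false 64 RtB20_6.Cx RtB20_6.CX RtB20_6.Ctp.right.right.right.right RtB20_6.Ce.right.right.left.right RtB20_6.CTn RtB20_6.CEr.left 0x29dc1b998f00b = true := by decide +kernel

theorem cB20_6_1_9 : chunkOkM (LB20_6.ctx true false 241 85 32 5 16 238 908 4 128) muQ true false 64 RtB20_6.Cx RtB20_6.CX RtB20_6.Ctp.right.right.right.left RtB20_6.Ce.right.right.right.left RtB20_6.CTn RtB20_6.CEr.left 0x5949592a92006fd24a554475c150563798f61e939f9c8f5182755358f450d3cc9ff6fd213ff4b75c145f87208f61f603e1c8f512e99e228f450d4474932172ae15a1809f4e79876848f220d34 = true := by decide +kernel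

theorem cB20_6_1_10 : chunkOkM (LB20_6.ctx true false 241 87 32 5 16 246 924 4 128) muQ true false 64 RtB20_6.Cx RtB20_6.CX RtB20_6.Ctp.right.right.right.right RtB20_6.Ce.right.right.right.left RtB20_6.CTn RtB20_6.CEr.left 0x01213aa0f56fd2eeac3975c6721cc6f8b9324dc7f6202e27458f550d36f60ee75c135fabd08f6220452ba8f51a69f1238f440d321743215a6978f00b2ab0d96fd297f85275c14f1aa848f6202cb6a38f5128c552a8f450d289b58075c1ebf3a868f61cbb98cd8f5157f47fb8f440d427fdf7d75c17a8f0b28f621d0de838f530d731144ec956fd2a4fcec75cbee08a6f873662547f61d2bbba78f550d3443017 = true := by decide +kernel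

theorem cB20_6_1_11 : chunkOkM (LB20_6.ctx true false 100 1 1 1 1 1 1 1 1) muQ true false 64 RtB20_6.Cx RtB20_6.CX RtB20_6.Ctp.right.right.right RtB20_6.Ce.right.right.right.right RtB20_6.CTn RtB20_6.CEr.left 0x21 = true := by decide +kernel

theorem cB20_6_1_12 : chunkOkM (LB20_6.ctx true false 100 1 1 1 1 1 1 1 1) muQ true false 64 RtB20_6.Cx RtB20_6.CX RtB20_6.Ctp.right.right.right RtB20_6.Ce.right.right RtB20_6.CTn RtB20_6.CEr.right 0x5a = true := by decide +kernel

theorem cB20_6_0_0 : chunkOkM (LB20_6.ctx false false 100 1 1 1 1 1 1 1 1) muQ false false 64 RtB20_6.Cx RtB20_6.CX RtB20_6.Ctn RtB20_6.Ce RtB20_6.CTn RtB20_6.CEr 0x49 = true := by decide +kernel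

end Vale.Agent.helper4.Q4
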