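import Vale.Agent.helper4.Q4TreeM
import Vale.Agent.helper4.Q4G.PB21_15

/-!
Checks for pairs of intervals of second moments.
-/

set_option maxRecDepth 100000
set_option linter.unusedVariables false

namespace Vale.Agent.helper4.Q4

theorem cB21_15_3_30 : chunkOkM (LB21_15.ctx true true 357 48911 16384 24523 16384 8177 8143 177 2057) muQ true true 64 RtB21_15.Cx RtB21_15.CX RtB21_15.Ctp.right.right.right.right RtB21_15.Ce.right.right.right.left RtB21_15.CTp.right.right.right RtB21_15.CEr.right.right 0x01010101222210c6247586b10df4697e93782806e616279d5c8d53b25b26e450d4a5228622862286b8b59476b12572207e911e237e7e615ff08f7e518bf6e6f450dfb2dd6176b104a5577e9b22fd46e611a75c1019d51fd02ff58e4623812038d160d228104522f486b133699b68d9f21e216e616bff99c79d52b10e7328e48042d06a8d160d103bd95086b117128b88d917c6f46e615478de38d5ce93ef6e450d6150861b77b15dd54ea8d93627bcdc19d1da7884218e040d42f1fa695193c3bdb49c0e96b21159a6e6625238c7e440e65197e250d56561141141143312a7d35d673caf033667b5729d4e7d68bfcf2168d5fae0e947e42ce0462a8d160d5126114114630173017017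 = true := by decide +kernel

theorem cB21_15_3_31 : chunkOkM (LB21_15.ctx true true 364 98079 32768 24523 16384 8177 8211 177 4097) muQ true true 64 RtB21_15.Cx RtB21_15.CX RtB21_15.Ctp.right.right.right RtB21_15.Ce.right.right.right.right RtB21_15.CTp.right.right.right RtB21_15.CEr.right.right 0x21212101010101222222ec1e4cd76b111e7247e9b3350b6e61aacbcce8e451f8d037e2492dbea7e060d4a5228662286228343c18176bf7b5956e9261afbe7e620670dc98f44d7299f7e27fa5e2248e060d1110c18286b12e8454e8d9e88ab76e61638cf7239d5104ca58619e47c508fd98d136990e468e070d228184ca79886b160333328d9b3da62e7e438d4a3a3a9e3ea1e6f428e250dfcfa3a676b134b84a18d925561497e61d88e79dd9d515c6611889e4a7c71e1c8d148feab3a8e070def1cc5576b110356858d921d36387e619339d17e5d834f26e450d6428166ab8093c32f06fba396ba7648c6e66c5b24b7e445230ca7e250d56563331297fc1c873cc78c0e67b5bdabe6e62e0cce318e431a475f341e99807e29f6d0157e070d512663493217217217421744 = true := by decide +kernel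

theorem cB21_15_2_0 : chunkOkM (LB21_15.ctx false true 91 1 1 1 1 1 1 1 1) muQ false true 64 RtB21_15.Cx RtB21_15.CX RtB21_15.Ctn RtB21_15.Ce RtB21_15.CTp RtB21_15.CEr 0x49 = true := by decide +kernel

theorem cB21_15_1_0 : chunkOkM (LB21_15.ctx true false 91 1 1 1 1 1 1 1 1) muQ true false 64 RtB21_15.Cx RtB21_15.CX RtB21_15.Ctp RtB21_15.Ce RtB21_15.CTn RtB21_15.CEr 0x4a = true := by decide +kernel

theorem cB21_15_0_0 : chunkOkM (LB21_15.ctx false false 91 1 1 1 1 1 1 1 1) muQ false false 64 RtB21_15.Cx RtB21_15.CX RtB21_15.Ctn RtB21_15.Ce RtB21_15.CTn RtB21_15.CEr 0x49 = true := by decide +kernel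

end Vale.Agent.helper4.Q4
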