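import Vale.Agent.helper4.Q4TreeM
import Vale.Agent.helper4.Q4G.PB21_6

/-!
Checks for pairs of intervals of second moments.
-/

set_option maxRecDepth 100000
set_option linter.unusedVariables false

namespace Vale.Agent.helper4.Q4

theorem cB21_6_3_0 : chunkOkM (LB21_6.ctx true true 113 1 1 1 1 1 1 1 1) muQ true true 64 RtB21_6.Cx RtB21_6.CX RtB21_6.Ctp.left RtB21_6.Ce RtB21_6.CTp RtB21_6.CEr 0x41 = true := by decide +kernel

theorem cB21_6_3_1 : chunkOkM (LB21_6.ctx true true 113 1 1 1 1 1 1 1 1) muQ true true 64 RtB21_6.Cx RtB21_6.CX RtB21_6.Ctp.right RtB21_6.Ce.left RtB21_6.CTp RtB21_6.CEr 0x69 = true := by decide +kernel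

theorem cB21_6_3_2 : chunkOkM (LB21_6.ctx true true 113 1 1 1 1 1 1 1 1) muQ true true 64 RtB21_6.Cx RtB21_6.CX RtB21_6.Ctp.right.left RtB21_6.Ce.right RtB21_6.CTp RtB21_6.CEr 0x41 = true := by decide +kernel

theorem cB21_6_3_3 : chunkOkM (LB21_6.ctx true true 113 1 1 1 1 1 1 1 1) muQ true true 64 RtB21_6.Cx RtB21_6.CX RtB21_6.Ctp.right.right.left RtB21_6.Ce.right RtB21_6.CTp RtB21_6.CEr 0x49 = true := by decide +kernel

theorem cB21_6_3_4 : chunkOkM (LB21_6.ctx true true 113 1 1 1 1 1 1 1 1) muQ true true 64 RtB21_6.Cx RtB21_6.CX RtB21_6.Ctp.right.right.right RtB21_6.Ce.right.left RtB21_6.CTp RtB21_6.CEr 0x11 = true := by decide +kernel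

theorem cB21_6_3_5 : chunkOkM (LB21_6.ctx true true 330 22785 8192 5 16 3927 3791 8 64) muQ true true 64 RtB21_6.Cx RtB21_6.CX RtB21_6.Ctp.right.right.right RtB21_6.Ce.right.right.left RtB21_6.CTp RtB21_6.CEr 0x114aa323e105afd3540f069c4ac7ba17d2af64768d4959a4bf586772f0ec3af150d49494fb9a75575afd532f9c978c1a0e84125b4bf63f512d7ce30bf5366895194dcbf450d1bca2eb887afd6cdcb686fe8bf53d626a6f7e23cf430d33f374faaa7afd1b0181e78c11502f9dc03bf638d25d6bf3dbf512f863ba28ebf450d507b552599afd402d5df78c1af71096e8dbf639f9ce192ffbf546e9518d0c6bf450d34771267fbf8b18ecf04b449336943114 = true := by decide +kernel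

theorem cB21_6_3_6 : chunkOkM (LB21_6.ctx true true 311 5889 2048 5 16 969 969 8 64) muQ true true 64 RtB21_6.Cx RtB21_6.CX RtB21_6.Ctp.right.right.right.left.left RtB21_6.Ce.right.right.right.left.left RtB21_6.CTp RtB21_6.CEr 0x68756c9e26afd4be1be69c138b7c2021c21df6182b1165f2fc37ef5a43d78e51939ebef450d = true := by decide +kernel

theorem cB21_6_3_7 : chunkOkM (LB21_6.ctx true true 331 23299 8192 5 16 3995 3927 8 64) muQ true true 64 RtB21_6.Cx.left RtB21_6.CX RtB21_6.Ctp.right.right.right.left.right RtB21_6.Ce.right.right.right.left.left RtB21_6.CTp RtB21_6.CEr 0x0155ffd3b17fafd4a47c069c2d32e55574bbf6470b58f07bfbf530adb6d05a2bf450d46ec1c364dafdee8ba568c132534cbef6bf63c6155fbe94bf5f45d50393faf450d24386b2a7cafd1b072769c486696c576a9cf51e79f79d45c02df440d342174b94fde361afd37739569c11e13d0ea2dbf63c1487ed30dbf56f54de119eaf450d55a90655cdafd52e116978c1af4dda3888bf6418e5ead578bf53fc1e21bfdabf450d342ad5e3d52afd15ffca69c1cb80338c7ebf638922b644cabf51986fee72c7bf450d448a21ce2a3afd21f6ed69c16f3b856c63bf6429dc995e8fbf511c74c79d3af150d743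 = true := by decide +kernel

theorem cB21_6_3_8 : chunkOkM (LB21_6.ctx true true 317 12035 4096 5 16 2023 1955 8 64) muQ true true 64 RtB21_6.Cx.right RtB21_6.CX RtB21_6.Ctp.right.right.right.left.right RtB21_6.Ce.right.right.right.left.left RtB21_6.CTp RtB21_6.CEr 0x541272f6c9afd377a1269c10d4ecdc776bf63af808f411dbf510c56287cddbf450d5a669de522afd4fb6d269c17682c3b701bf640154c0cdb8bf561eb8618516bf450d3694 = true := by decide +kernel

theorem cB21_6_3_9 : chunkOkM (LB21_6.ctx true true 113 1 1 1 1 1 1 1 1) muQ true true 64 RtB21_6.Cx.left RtB21_6.CX RtB21_6.Ctp.right.right.right.left RtB21_6.Ce.right.right.right.left.right RtB21_6.CTp RtB21_6.CEr 0x21 = true := by decide +kernel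

theorem cB21_6_3_10 : chunkOkM (LB21_6.ctx true true 113 1 1 1 1 1 1 1 1) muQ true true 64 RtB21_6.Cx.right RtB21_6.CX RtB21_6.Ctp.right.right.right.left.left RtB21_6.Ce.right.right.right.left.right RtB21_6.CTp RtB21_6.CEr 0x49 = true := by decide +kernel

theorem cB21_6_3_11 : chunkOkM (LB21_6.ctx true true 338 47883 16384 5 16 4063 3995 8 64) muQ true true 64 RtB21_6.Cx.right RtB21_6.CX RtB21_6.Ctp.right.right.right.left.right RtB21_6.Ce.right.right.right.left.right.left RtB21_6.CTp RtB21_6.CEr 0x5f518d7e76afd44a0b869c3e82da17c46bf634d17589ea2bf56b73d51bee7bf450d601bb1d436afd3df4be878cdfaa6dce56af63fb952248bdbf5663a4c81fbaf450d5ee1ca60b2afd551abdd78c309d3f7a0a7bf646f5159fec1bf5499b6b245a0bf450d3217605e51263bbbf00b5c24418cdcafd44a45ee78c483fe8b6b13bf63afd9914b2bbf54607fb1126ebf450d4f3f42c055afd1d1738278c237d498554dbf640ace6ed7bebf5ee8fa3df93af450d7347629be769c50391789ebaf949251718c76acf5210dcf42cd03fdf440d3 = true := by decide +kernel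

theorem cB21_6_3_12 : chunkOkM (LB21_6.ctx true true 343 48911 16384 5 16 8143 8075 8 64) muQ true true 64 RtB21_6.Cx.right RtB21_6.CX RtB21_6.Ctp.right.right.right.left.right RtB21_6.Ce.right.right.right.left.right.right RtB21_6.CTp RtB21_6.CEr 0x6326b6e890afd4613cf678c29a0c00de58bf64537f42789fbf55317df11519bf450d61b4316c69afd43643969c3fea069c94dbf649cae0feab2bf5302c0e57386bf450d717b528d809a5cf04b5bb7ae0eb3afd3850d4678c1c90bdc615abf64479e288809bf521ae84ab12cbf450d6004f7cd6cafd455328378c3ba71b264d8bf6497a7d4cc87bf5486c7e1015bbf450d355f3a36548afd20ca0db78c2a9480880fcbf64114bf948dfbf51ddcdf5580fbf450d474493493217 = true := by decide +kernel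

theorem cB21_6_3_13 : chunkOkM (LB21_6.ctx true true 316 48911 16384 5 16 527 493 8 64) muQ true true 64 RtB21_6.Cx RtB21_6.CX RtB21_6.Ctp.right.right.right.right RtB21_6.Ce.right.right.right.left RtB21_6.CTp RtB21_6.CEr 0x592b03c779afd1393ca69ccc6b1db06daf6189142414818cf52cdf52fb0418cf47c61c5c16d5bf1860cf7ccb7af070d017017017 = true := by decide +kernel

theorem cB21_6_3_14 : chunkOkM (LB21_6.ctx true true 344 98079 32768 5 16 4097 4097 8 64) muQ true true 64 RtB21_6.Cx RtB21_6.CX RtB21_6.Ctp.right.right.right RtB21_6.Ce.right.right.right.right RtB21_6.CTp RtB21_6.CEr 0x21212101010165cbf9d86aafd3edd4e378c26f634f0911bf62f8c4ab6ea4ccf51b4ea573846cedf410304e945782cf156edb122ece1cf070d333493217217217421744 = true := by decide +kernel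

theorem cB21_6_2_0 : chunkOkM (LB21_6.ctx false true 113 1 1 1 1 1 1 1 1) muQ false true 64 RtB21_6.Cx RtB21_6.CX RtB21_6.Ctn RtB21_6.Ce RtB21_6.CTp RtB21_6.CEr 0x49 = true := by decide +kernel

theorem cB21_6_1_0 : chunkOkM (LB21_6.ctx true false 113 1 1 1 1 1 1 1 1) muQ true false 64 RtB21_6.Cx RtB21_6.CX RtB21_6.Ctp.left RtB21_6.Ce RtB21_6.CTn RtB21_6.CEr 0x41 = true := by decide +kernel

theorem cB21_6_1_1 : chunkOkM (LB21_6.ctx true false 113 1 1 1 1 1 1 1 1) muQ true false 64 RtB21_6.Cx RtB21_6.CX RtB21_6.Ctp.right RtB21_6.Ce.left RtB21_6.CTn RtB21_6.CEr 0x69 = true := by decide +kernel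

theorem cB21_6_1_2 : chunkOkM (LB21_6.ctx true false 113 1 1 1 1 1 1 1 1) muQ true false 64 RtB21_6.Cx RtB21_6.CX RtB21_6.Ctp.right.left RtB21_6.Ce.right RtB21_6.CTn RtB21_6.CEr 0x41 = true := by decide +kernel

theorem cB21_6_1_3 : chunkOkM (LB21_6.ctx true false 113 1 1 1 1 1 1 1 1) muQ true false 64 RtB21_6.Cx RtB21_6.CX RtB21_6.Ctp.right.right.left RtB21_6.Ce.right RtB21_6.CTn RtB21_6.CEr 0x49 = true := by decide +kernel

theorem cB21_6_1_4 : chunkOkM (LB21_6.ctx true false 113 1 1 1 1 1 1 1 1) muQ true false 64 RtB21_6.Cx RtB21_6.CX RtB21_6.Ctp.right.right.right RtB21_6.Ce.right.left RtB21_6.CTn RtB21_6.CEr 0x11 = true := by decide +kernel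

theorem cB21_6_1_5 : chunkOkM (LB21_6.ctx true false 310 5889 2048 5 16 1955 1887 4 128) muQ true false 64 RtB21_6.Cx RtB21_6.CX RtB21_6.Ctp.right.right.right RtB21_6.Ce.right.right.left RtB21_6.CTn RtB21_6.CEr.left 0x116b877369cf9421044b9f87f7ff8aa93af646c60467336bf56707d8f9e5af150d6f521669c1554ad2c12dbf63efc4633bbabf54b08c41e532bf440dc6d2f867d9cbf04b449336943114 = true := by decide +kernel

end Vale.Agent.helper4.Q4
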