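import Vale.Agent.helper4.Q4TreeM
import Vale.Agent.helper4.Q4G.PA23_18_0
import Vale.Agent.helper4.Q4G.PA23_18_1

/-!
Checks for pairs of intervals of second moments.
-/

set_option maxRecDepth 100000
set_option linter.unusedVariables false

namespace Vale.Agent.helper4.Q4

theorem covA23_18 : LA23_18.Full muQ.val RtA23_18 := ⟨(LitT.Cov.split_t (LitT.cov_of_chunkM cA23_18_3_0) (LitT.Cov.split_e (LitT.cov_of_chunkM cA23_18_3_1) (LitT.Cov.split_T (LitT.cov_of_chunkM cA23_18_3_2) (LitT.Cov.split_E (LitT.cov_of_chunkM cA23_18_3_3) (LitT.Cov.split_t (LitT.cov_of_chunkM cA23_18_3_4) (LitT.Cov.split_t (LitT.cov_of_chunkM cA23_18_3_5) (LitT.Cov.split_e (LitT.cov_of_chunkM cA23_18_3_6) (LitT.Cov.split_T (LitT.cov_of_chunkM cA23_18_3_7) (LitT.Cov.split_T (LitT.cov_of_chunkM cA23_18_3_8) (LitT.Cov.split_E (LitT.cov_of_chunkM cA23_18_3_9) (LitT.Cov.split_e (LitT.Cov.split_t (LitT.Cov.split_e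 (LitT.cov_of_chunkM cA23_18_3_10) (LitT.Cov.split_e (LitT.cov_of_chunkM cA23_18_3_11) (LitT.Cov.split_E (LitT.cov_of_chunkM cA23_18_3_12) (LitT.Cov.split_E (LitT.Cov.split_T (LitT.Cov.split_t (LitT.Cov.split_x (LitT.Cov.split_x (LitT.Cov.split_t (LitT.cov_of_chunkM cA23_18_3_13) (LitT.Cov.split_E (LitT.Cov.split_T (LitT.cov_of_chunkM cA23_18_3_14) (LitT.Cov.split_e (LitT.cov_of_chunkM cA23_18_3_15) (LitT.Cov.split_t (LitT.cov_of_chunkM cA23_18_3_16) (LitT.Cov.split_E (LitT.cov_of_chunkM cA23_18_3_17) (LitT.cov_of_chunkM cA23_18_3_18))))) (LitT.Cov.split_X (LitT.cov_of_chunkM cA23_18_3_19) (LitT.Cov.split_T (LitT.cov_of_chunkM cA23_18_3_20) (LitT.Cov.split_T (LitT.cov_of_chunkM cA23_18_3_21) (LitT.Cov.split_E (LitT.cov_of_chunkM cA23_18_3_22) (LitT.cov_of_chunkM cA23_18_3_23))))))) (LitT.cov_of_chunkM cA23_18_3_24)) (LitT.cov_of_chunkM cA23_18_3_25)) (LitT.cov_of_chunkM cA23_18_3_26))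 (LitT.cov_of_chunkM cA23_18_3_27)) (LitT.cov_of_chunkM cA23_18_3_28))))) (LitT.cov_of_chunkM cA23_18_3_29)) (LitT.Cov.split_E (LitT.Cov.split_E (LitT.cov_of_chunkM cA23_18_3_30) (LitT.Cov.split_T (LitT.Cov.split_t (LitT.Cov.split_e (LitT.Cov.split_t (LitT.cov_of_chunkM cA23_18_3_31) (LitT.Cov.split_e (LitT.cov_of_chunkM cA23_18_3_32) (LitT.cov_of_chunkM cA23_18_3_33))) (LitT.cov_of_chunkM cA23_18_3_34)) (LitT.cov_of_chunkM cA23_18_3_35)) (LitT.cov_of_chunkM cA23_18_3_36))) (LitT.Cov.split_e (LitT.Cov.split_t (LitT.Cov.split_E (LitT.Cov.split_T (LitT.Cov.split_e (LitT.Cov.split_t (LitT.cov_of_chunkM cA23_18_3_37) (LitT.Cov.split_x (LitT.Cov.split_t (LitT.Cov.split_E (LitT.Cov.split_T (LitT.cov_of_chunkM cA23_18_3_38) (LitT.Cov.split_e (LitT.cov_of_chunkM cA23_18_3_39) (LitT.cov_of_chunkM cA23_18_3_40))) (LitT.Cov.split_X (LitT.cov_of_chunkM cA23_18_3_41) (LitT.Cov.split_T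 (LitT.cov_of_chunkM cA23_18_3_42) (LitT.Cov.split_T (LitT.cov_of_chunkM cA23_18_3_43) (LitT.Cov.split_x (LitT.cov_of_chunkM cA23_18_3_44) (LitT.cov_of_chunkM cA23_18_3_45)))))) (LitT.cov_of_chunkM cA23_18_3_46)) (LitT.cov_of_chunkM cA23_18_3_47))) (LitT.Cov.split_x (LitT.cov_of_chunkM cA23_18_3_48) (LitT.Cov.split_t (LitT.cov_of_chunkM cA23_18_3_49) (LitT.Cov.split_E (LitT.cov_of_chunkM cA23_18_3_50) (LitT.cov_of_chunkM cA23_18_3_51))))) (LitT.cov_of_chunkM cA23_18_3_52)) (LitT.cov_of_chunkM cA23_18_3_53)) (LitT.cov_of_chunkM cA23_18_3_54)) (LitT.cov_of_chunkM cA23_18_3_55)))))))))))))), (LitT.cov_of_chunkM cA23_18_1_0), (LitT.cov_of_chunkM cA23_18_2_0), (LitT.cov_of_chunkM cA23_18_0_0)⟩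

end Vale.Agent.helper4.Q4
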