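import Vale.Agent.helper4.Q4TreeM
import Vale.Agent.helper4.Q4G.PB16_6_0
import Vale.Agent.helper4.Q4G.PB16_6_1
import Vale.Agent.helper4.Q4G.PB16_6_2
import Vale.Agent.helper4.Q4G.PB16_6_3
import Vale.Agent.helper4.Q4G.PB16_6_4

/-!
Checks for pairs of intervals of second moments.
-/

set_option maxRecDepth 100000
set_option linter.unusedVariables false

namespace Vale.Agent.helper4.Q4

theorem covB16_6 : LB16_6.Full muQ.val RtB16_6 := ⟨(LitT.Cov.split_t (LitT.cov_of_chunkM cB16_6_3_0) (LitT.Cov.split_e (LitT.cov_of_chunkM cB16_6_3_1) (LitT.Cov.split_e (LitT.Cov.split_t (LitT.Cov.split_e (LitT.cov_of_chunkM cB16_6_3_2) (LitT.Cov.split_t (LitT.cov_of_chunkM cB16_6_3_3) (LitT.Cov.split_e (LitT.cov_of_chunkM cB16_6_3_4) (LitT.Cov.split_t (LitT.cov_of_chunkM cB16_6_3_5) (LitT.cov_of_chunkM cB16_6_3_6))))) (LitT.cov_of_chunkM cB16_6_3_7)) (LitT.Cov.split_t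 (LitT.cov_of_chunkM cB16_6_3_8) (LitT.Cov.split_e (LitT.Cov.split_t (LitT.Cov.split_e (LitT.Cov.split_t (LitT.Cov.split_e (LitT.cov_of_chunkM cB16_6_3_9) (LitT.cov_of_chunkM cB16_6_3_10)) (LitT.Cov.split_e (LitT.cov_of_chunkM cB16_6_3_11) (LitT.Cov.split_x (LitT.Cov.split_t (LitT.Cov.split_e (LitT.cov_of_chunkM cB16_6_3_12) (LitT.cov_of_chunkM cB16_6_3_13)) (LitT.cov_of_chunkM cB16_6_3_14)) (LitT.cov_of_chunkM cB16_6_3_15)))) (LitT.Cov.split_t (LitT.cov_of_chunkM cB16_6_3_16) (LitT.Cov.split_e (LitT.Cov.split_x (LitT.Cov.split_t (LitT.cov_of_chunkM cB16_6_3_17) (LitT.Cov.split_e (LitT.cov_of_chunkM cB16_6_3_18) (LitT.cov_of_chunkM cB16_6_3_19))) (LitT.cov_of_chunkM cB16_6_3_20)) (LitT.cov_of_chunkM cB16_6_3_21)))) (LitT.Cov.split_t (LitT.Cov.split_e (LitT.cov_of_chunkM cB16_6_3_22) (LitT.Cov.split_e (LitT.cov_of_chunkM cB16_6_3_23) (LitT.Cov.split_x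 (LitT.cov_of_chunkM cB16_6_3_24) (LitT.Cov.split_t (LitT.cov_of_chunkM cB16_6_3_25) (LitT.cov_of_chunkM cB16_6_3_26))))) (LitT.cov_of_chunkM cB16_6_3_27))) (LitT.Cov.split_e (LitT.Cov.split_x (LitT.cov_of_chunkM cB16_6_3_28) (LitT.Cov.split_t (LitT.cov_of_chunkM cB16_6_3_29) (LitT.Cov.split_t (LitT.Cov.split_e (LitT.Cov.split_t (LitT.Cov.split_e (LitT.cov_of_chunkM cB16_6_3_30) (LitT.cov_of_chunkM cB16_6_3_31)) (LitT.Cov.split_e (LitT.cov_of_chunkM cB16_6_3_32) (LitT.cov_of_chunkM cB16_6_3_33))) (LitT.Cov.split_x (LitT.cov_of_chunkM cB16_6_3_34) (LitT.Cov.split_t (LitT.cov_of_chunkM cB16_6_3_35) (LitT.Cov.split_e (LitT.cov_of_chunkM cB16_6_3_36) (LitT.cov_of_chunkM cB16_6_3_37))))) (LitT.cov_of_chunkM cB16_6_3_38)))) (LitT.cov_of_chunkM cB16_6_3_39))))))), (LitT.Cov.split_t (LitT.cov_of_chunkM cB16_6_1_0) (LitT.Cov.split_E (LitT.Cov.split_e (LitT.cov_of_chunkM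 cB16_6_1_1) (LitT.Cov.split_e (LitT.Cov.split_t (LitT.Cov.split_e (LitT.cov_of_chunkM cB16_6_1_2) (LitT.Cov.split_t (LitT.cov_of_chunkM cB16_6_1_3) (LitT.cov_of_chunkM cB16_6_1_4))) (LitT.cov_of_chunkM cB16_6_1_5)) (LitT.Cov.split_t (LitT.cov_of_chunkM cB16_6_1_6) (LitT.Cov.split_e (LitT.Cov.split_t (LitT.Cov.split_e (LitT.Cov.split_t (LitT.cov_of_chunkM cB16_6_1_7) (LitT.Cov.split_e (LitT.cov_of_chunkM cB16_6_1_8) (LitT.Cov.split_x (LitT.Cov.split_t (LitT.Cov.split_e (LitT.cov_of_chunkM cB16_6_1_9) (LitT.cov_of_chunkM cB16_6_1_10)) (LitT.cov_of_chunkM cB16_6_1_11)) (LitT.cov_of_chunkM cB16_6_1_12)))) (LitT.Cov.split_t (LitT.cov_of_chunkM cB16_6_1_13) (LitT.Cov.split_e (LitT.Cov.split_x (LitT.Cov.split_t (LitT.cov_of_chunkM cB16_6_1_14) (LitT.Cov.split_x (LitT.cov_of_chunkM cB16_6_1_15) (LitT.Cov.split_e (LitT.cov_of_chunkM cB16_6_1_16) (LitT.cov_of_chunkM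 cB16_6_1_17)))) (LitT.cov_of_chunkM cB16_6_1_18)) (LitT.cov_of_chunkM cB16_6_1_19)))) (LitT.Cov.split_e (LitT.cov_of_chunkM cB16_6_1_20) (LitT.Cov.split_x (LitT.Cov.split_t (LitT.Cov.split_t (LitT.Cov.split_e (LitT.cov_of_chunkM cB16_6_1_21) (LitT.cov_of_chunkM cB16_6_1_22)) (LitT.cov_of_chunkM cB16_6_1_23)) (LitT.cov_of_chunkM cB16_6_1_24)) (LitT.Cov.split_t (LitT.Cov.split_e (LitT.cov_of_chunkM cB16_6_1_25) (LitT.Cov.split_t (LitT.cov_of_chunkM cB16_6_1_26) (LitT.cov_of_chunkM cB16_6_1_27))) (LitT.cov_of_chunkM cB16_6_1_28))))) (LitT.Cov.split_e (LitT.Cov.split_x (LitT.cov_of_chunkM cB16_6_1_29) (LitT.Cov.split_t (LitT.cov_of_chunkM cB16_6_1_30) (LitT.Cov.split_t (LitT.Cov.split_e (LitT.Cov.split_t (LitT.Cov.split_e (LitT.cov_of_chunkM cB16_6_1_31) (LitT.cov_of_chunkM cB16_6_1_32)) (LitT.cov_of_chunkM cB16_6_1_33)) (LitT.Cov.split_x (LitT.cov_of_chunkM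 cB16_6_1_34) (LitT.Cov.split_t (LitT.cov_of_chunkM cB16_6_1_35) (LitT.cov_of_chunkM cB16_6_1_36)))) (LitT.cov_of_chunkM cB16_6_1_37)))) (LitT.cov_of_chunkM cB16_6_1_38)))))) (LitT.cov_of_chunkM cB16_6_1_39))), (LitT.cov_of_chunkM cB16_6_2_0), (LitT.cov_of_chunkM cB16_6_0_0)⟩

end Vale.Agent.helper4.Q4
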