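import Vale.Agent.helper4.Q4TreeM
import Vale.Agent.helper4.Q4G.PB17_11_0
import Vale.Agent.helper4.Q4G.PB17_11_1
import Vale.Agent.helper4.Q4G.PB17_11_2
import Vale.Agent.helper4.Q4G.PB17_11_3
import Vale.Agent.helper4.Q4G.PB17_11_4
import Vale.Agent.helper4.Q4G.PB17_11_5
import Vale.Agent.helper4.Q4G.PB17_11_6
import Vale.Agent.helper4.Q4G.PB17_11_7
import Vale.Agent.helper4.Q4G.PB17_11_8
import Vale.Agent.helper4.Q4G.PB17_11_9
import Vale.Agent.helper4.Q4G.PB17_11_10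
import Vale.Agent.helper4.Q4G.PB17_11_11

/-!
Checks for pairs of intervals of second moments.
-/

set_option maxRecDepth 100000
set_option linter.unusedVariables false

namespace Vale.Agent.helper4.Q4

theorem covB17_11 : LB17_11.Full muQ.val RtB17_11 := ⟨(LitT.Cov.split_t (LitT.cov_of_chunkM cB17_11_3_0) (LitT.Cov.split_e (LitT.cov_of_chunkM cB17_11_3_1) (LitT.Cov.split_T (LitT.cov_of_chunkM cB17_11_3_2) (LitT.Cov.split_E (LitT.cov_of_chunkM cB17_11_3_3) (LitT.Cov.split_t (LitT.cov_of_chunkM cB17_11_3_4) (LitT.Cov.split_e (LitT.cov_of_chunkM cB17_11_3_5) (LitT.Cov.split_t (LitT.Cov.split_e (LitT.Cov.split_e (LitT.Cov.split_t (LitT.Cov.split_e (LitT.cov_of_chunkM cB17_11_3_6) (LitT.Cov.split_t (LitT.cov_of_chunkM cB17_11_3_7) (LitT.cov_of_chunkM cB17_11_3_8))) (LitT.cov_of_chunkM cB17_11_3_9)) (LitT.Cov.split_t (LitT.Cov.split_e (LitT.Cov.split_t (LitT.cov_of_chunkM cB17_11_3_10)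 (LitT.Cov.split_x (LitT.Cov.split_e (LitT.cov_of_chunkM cB17_11_3_11) (LitT.cov_of_chunkM cB17_11_3_12)) (LitT.cov_of_chunkM cB17_11_3_13))) (LitT.cov_of_chunkM cB17_11_3_14)) (LitT.Cov.split_e (LitT.Cov.split_x (LitT.Cov.split_T (LitT.cov_of_chunkM cB17_11_3_15) (LitT.Cov.split_E (LitT.cov_of_chunkM cB17_11_3_16) (LitT.Cov.split_t (LitT.Cov.split_e (LitT.cov_of_chunkM cB17_11_3_17) (LitT.cov_of_chunkM cB17_11_3_18)) (LitT.Cov.split_e (LitT.cov_of_chunkM cB17_11_3_19) (LitT.Cov.split_x (LitT.Cov.split_E (LitT.cov_of_chunkM cB17_11_3_20) (LitT.cov_of_chunkM cB17_11_3_21)) (LitT.cov_of_chunkM cB17_11_3_22)))))) (LitT.cov_of_chunkM cB17_11_3_23)) (LitT.Cov.split_x (LitT.Cov.split_t (LitT.Cov.split_e (LitT.cov_of_chunkM cB17_11_3_24) (LitT.cov_of_chunkM cB17_11_3_25)) (LitT.Cov.split_e (LitT.Cov.split_T (LitT.Cov.split_T (LitT.cov_of_chunkM cB17_11_3_26) (LitT.Cov.split_T (LitT.cov_of_chunkM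 cB17_11_3_27) (LitT.Cov.split_T (LitT.cov_of_chunkM cB17_11_3_28) (LitT.Cov.split_X (LitT.Cov.split_X (LitT.Cov.split_x (LitT.cov_of_chunkM cB17_11_3_29) (LitT.cov_of_chunkM cB17_11_3_30)) (LitT.cov_of_chunkM cB17_11_3_31)) (LitT.cov_of_chunkM cB17_11_3_32))))) (LitT.Cov.split_E (LitT.cov_of_chunkM cB17_11_3_33) (LitT.Cov.split_x (LitT.Cov.split_t (LitT.cov_of_chunkM cB17_11_3_34) (LitT.Cov.split_e (LitT.cov_of_chunkM cB17_11_3_35) (LitT.cov_of_chunkM cB17_11_3_36))) (LitT.cov_of_chunkM cB17_11_3_37)))) (LitT.Cov.split_x (LitT.Cov.split_T (LitT.cov_of_chunkM cB17_11_3_38) (LitT.cov_of_chunkM cB17_11_3_39)) (LitT.Cov.split_E (LitT.cov_of_chunkM cB17_11_3_40) (LitT.Cov.split_T (LitT.cov_of_chunkM cB17_11_3_41) (LitT.Cov.split_t (LitT.cov_of_chunkM cB17_11_3_42) (LitT.cov_of_chunkM cB17_11_3_43))))))) (LitT.Cov.split_t (LitT.Cov.split_e (LitT.cov_of_chunkM cB17_11_3_44) (LitT.Cov.split_t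 (LitT.cov_of_chunkM cB17_11_3_45) (LitT.cov_of_chunkM cB17_11_3_46))) (LitT.cov_of_chunkM cB17_11_3_47)))))) (LitT.Cov.split_t (LitT.cov_of_chunkM cB17_11_3_48) (LitT.Cov.split_e (LitT.Cov.split_e (LitT.Cov.split_t (LitT.Cov.split_x (LitT.cov_of_chunkM cB17_11_3_49) (LitT.Cov.split_e (LitT.Cov.split_t (LitT.cov_of_chunkM cB17_11_3_50) (LitT.Cov.split_x (LitT.cov_of_chunkM cB17_11_3_51) (LitT.cov_of_chunkM cB17_11_3_52))) (LitT.cov_of_chunkM cB17_11_3_53))) (LitT.Cov.split_x (LitT.Cov.split_x (LitT.cov_of_chunkM cB17_11_3_54) (LitT.Cov.split_e (LitT.Cov.split_t (LitT.cov_of_chunkM cB17_11_3_55) (LitT.cov_of_chunkM cB17_11_3_56)) (LitT.cov_of_chunkM cB17_11_3_57))) (LitT.Cov.split_e (LitT.Cov.split_x (LitT.Cov.split_t (LitT.cov_of_chunkM cB17_11_3_58) (LitT.cov_of_chunkM cB17_11_3_59)) (LitT.cov_of_chunkM cB17_11_3_60)) (LitT.Cov.split_x (LitT.Cov.split_t (LitT.cov_of_chunkM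 cB17_11_3_61) (LitT.Cov.split_e (LitT.cov_of_chunkM cB17_11_3_62) (LitT.cov_of_chunkM cB17_11_3_63))) (LitT.Cov.split_t (LitT.Cov.split_e (LitT.cov_of_chunkM cB17_11_3_64) (LitT.cov_of_chunkM cB17_11_3_65)) (LitT.cov_of_chunkM cB17_11_3_66)))))) (LitT.Cov.split_t (LitT.cov_of_chunkM cB17_11_3_67) (LitT.Cov.split_x (LitT.cov_of_chunkM cB17_11_3_68) (LitT.Cov.split_e (LitT.Cov.split_t (LitT.cov_of_chunkM cB17_11_3_69) (LitT.Cov.split_x (LitT.cov_of_chunkM cB17_11_3_70) (LitT.Cov.split_e (LitT.cov_of_chunkM cB17_11_3_71) (LitT.cov_of_chunkM cB17_11_3_72)))) (LitT.cov_of_chunkM cB17_11_3_73))))) (LitT.cov_of_chunkM cB17_11_3_74)))) (LitT.Cov.split_t (LitT.Cov.split_e (LitT.Cov.split_e (LitT.cov_of_chunkM cB17_11_3_75) (LitT.Cov.split_t (LitT.Cov.split_e (LitT.cov_of_chunkM cB17_11_3_76) (LitT.Cov.split_x (LitT.Cov.split_T (LitT.Cov.split_T (LitT.cov_of_chunkM cB17_11_3_77)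 (LitT.Cov.split_T (LitT.cov_of_chunkM cB17_11_3_78) (LitT.Cov.split_T (LitT.cov_of_chunkM cB17_11_3_79) (LitT.Cov.split_X (LitT.Cov.split_X (LitT.Cov.split_E (LitT.cov_of_chunkM cB17_11_3_80) (LitT.cov_of_chunkM cB17_11_3_81)) (LitT.cov_of_chunkM cB17_11_3_82)) (LitT.cov_of_chunkM cB17_11_3_83))))) (LitT.Cov.split_E (LitT.cov_of_chunkM cB17_11_3_84) (LitT.Cov.split_x (LitT.Cov.split_t (LitT.Cov.split_e (LitT.cov_of_chunkM cB17_11_3_85) (LitT.Cov.split_x (LitT.cov_of_chunkM cB17_11_3_86) (LitT.Cov.split_E (LitT.cov_of_chunkM cB17_11_3_87) (LitT.cov_of_chunkM cB17_11_3_88)))) (LitT.cov_of_chunkM cB17_11_3_89)) (LitT.cov_of_chunkM cB17_11_3_90)))) (LitT.cov_of_chunkM cB17_11_3_91))) (LitT.cov_of_chunkM cB17_11_3_92))) (LitT.Cov.split_e (LitT.Cov.split_x (LitT.Cov.split_t (LitT.Cov.split_e (LitT.Cov.split_T (LitT.Cov.split_T (LitT.cov_of_chunkM cB17_11_3_93) (LitT.Cov.split_T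 (LitT.cov_of_chunkM cB17_11_3_94) (LitT.Cov.split_T (LitT.cov_of_chunkM cB17_11_3_95) (LitT.Cov.split_X (LitT.Cov.split_X (LitT.Cov.split_e (LitT.Cov.split_x (LitT.cov_of_chunkM cB17_11_3_96) (LitT.Cov.split_E (LitT.cov_of_chunkM cB17_11_3_97) (LitT.cov_of_chunkM cB17_11_3_98))) (LitT.Cov.split_x (LitT.cov_of_chunkM cB17_11_3_99) (LitT.Cov.split_E (LitT.cov_of_chunkM cB17_11_3_100) (LitT.cov_of_chunkM cB17_11_3_101)))) (LitT.cov_of_chunkM cB17_11_3_102)) (LitT.cov_of_chunkM cB17_11_3_103))))) (LitT.Cov.split_E (LitT.cov_of_chunkM cB17_11_3_104) (LitT.Cov.split_e (LitT.Cov.split_x (LitT.cov_of_chunkM cB17_11_3_105) (LitT.Cov.split_t (LitT.Cov.split_e (LitT.cov_of_chunkM cB17_11_3_106) (LitT.Cov.split_x (LitT.cov_of_chunkM cB17_11_3_107) (LitT.cov_of_chunkM cB17_11_3_108))) (LitT.cov_of_chunkM cB17_11_3_109))) (LitT.Cov.split_x (LitT.cov_of_chunkM cB17_11_3_110) (LitT.Cov.split_t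 (LitT.cov_of_chunkM cB17_11_3_111) (LitT.Cov.split_x (LitT.cov_of_chunkM cB17_11_3_112) (LitT.Cov.split_e (LitT.cov_of_chunkM cB17_11_3_113) (LitT.cov_of_chunkM cB17_11_3_114)))))))) (LitT.cov_of_chunkM cB17_11_3_115)) (LitT.cov_of_chunkM cB17_11_3_116)) (LitT.Cov.split_e (LitT.Cov.split_t (LitT.Cov.split_x (LitT.Cov.split_T (LitT.cov_of_chunkM cB17_11_3_117) (LitT.Cov.split_E (LitT.cov_of_chunkM cB17_11_3_118) (LitT.Cov.split_e (LitT.cov_of_chunkM cB17_11_3_119) (LitT.Cov.split_t (LitT.cov_of_chunkM cB17_11_3_120) (LitT.cov_of_chunkM cB17_11_3_121))))) (LitT.cov_of_chunkM cB17_11_3_122)) (LitT.cov_of_chunkM cB17_11_3_123)) (LitT.Cov.split_t (LitT.Cov.split_e (LitT.Cov.split_x (LitT.Cov.split_t (LitT.Cov.split_e (LitT.cov_of_chunkM cB17_11_3_124) (LitT.cov_of_chunkM cB17_11_3_125)) (LitT.Cov.split_T (LitT.Cov.split_T (LitT.cov_of_chunkM cB17_11_3_126) (LitT.Cov.split_T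 (LitT.cov_of_chunkM cB17_11_3_127) (LitT.Cov.split_T (LitT.cov_of_chunkM cB17_11_3_128) (LitT.Cov.split_X (LitT.Cov.split_X (LitT.Cov.split_E (LitT.cov_of_chunkM cB17_11_3_129) (LitT.cov_of_chunkM cB17_11_3_130)) (LitT.cov_of_chunkM cB17_11_3_131)) (LitT.cov_of_chunkM cB17_11_3_132))))) (LitT.Cov.split_E (LitT.cov_of_chunkM cB17_11_3_133) (LitT.Cov.split_e (LitT.Cov.split_x (LitT.Cov.split_E (LitT.cov_of_chunkM cB17_11_3_134) (LitT.cov_of_chunkM cB17_11_3_135)) (LitT.cov_of_chunkM cB17_11_3_136)) (LitT.Cov.split_x (LitT.cov_of_chunkM cB17_11_3_137) (LitT.cov_of_chunkM cB17_11_3_138)))))) (LitT.cov_of_chunkM cB17_11_3_139)) (LitT.Cov.split_x (LitT.Cov.split_t (LitT.cov_of_chunkM cB17_11_3_140) (LitT.Cov.split_x (LitT.cov_of_chunkM cB17_11_3_141) (LitT.Cov.split_e (LitT.Cov.split_E (LitT.cov_of_chunkM cB17_11_3_142) (LitT.Cov.split_T (LitT.cov_of_chunkM cB17_11_3_143) (LitT.cov_of_chunkM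 cB17_11_3_144))) (LitT.cov_of_chunkM cB17_11_3_145)))) (LitT.Cov.split_t (LitT.Cov.split_e (LitT.cov_of_chunkM cB17_11_3_146) (LitT.cov_of_chunkM cB17_11_3_147)) (LitT.cov_of_chunkM cB17_11_3_148)))) (LitT.Cov.split_T (LitT.Cov.split_T (LitT.cov_of_chunkM cB17_11_3_149) (LitT.Cov.split_T (LitT.cov_of_chunkM cB17_11_3_150) (LitT.Cov.split_T (LitT.cov_of_chunkM cB17_11_3_151) (LitT.Cov.split_X (LitT.Cov.split_X (LitT.Cov.split_x (LitT.Cov.split_t (LitT.Cov.split_e (LitT.cov_of_chunkM cB17_11_3_152) (LitT.Cov.split_E (LitT.cov_of_chunkM cB17_11_3_153) (LitT.cov_of_chunkM cB17_11_3_154))) (LitT.cov_of_chunkM cB17_11_3_155)) (LitT.cov_of_chunkM cB17_11_3_156)) (LitT.cov_of_chunkM cB17_11_3_157)) (LitT.cov_of_chunkM cB17_11_3_158))))) (LitT.Cov.split_E (LitT.cov_of_chunkM cB17_11_3_159) (LitT.Cov.split_e (LitT.cov_of_chunkM cB17_11_3_160) (LitT.Cov.split_x (LitT.Cov.split_t (LitT.Cov.split_e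 (LitT.cov_of_chunkM cB17_11_3_161) (LitT.cov_of_chunkM cB17_11_3_162)) (LitT.cov_of_chunkM cB17_11_3_163)) (LitT.cov_of_chunkM cB17_11_3_164)))))))) (LitT.Cov.split_x (LitT.cov_of_chunkM cB17_11_3_165) (LitT.Cov.split_e (LitT.Cov.split_t (LitT.cov_of_chunkM cB17_11_3_166) (LitT.Cov.split_e (LitT.Cov.split_x (LitT.cov_of_chunkM cB17_11_3_167) (LitT.Cov.split_T (LitT.Cov.split_T (LitT.cov_of_chunkM cB17_11_3_168) (LitT.Cov.split_T (LitT.cov_of_chunkM cB17_11_3_169) (LitT.Cov.split_T (LitT.cov_of_chunkM cB17_11_3_170) (LitT.Cov.split_X (LitT.Cov.split_X (LitT.Cov.split_t (LitT.Cov.split_e (LitT.Cov.split_x (LitT.cov_of_chunkM cB17_11_3_171) (LitT.cov_of_chunkM cB17_11_3_172)) (LitT.cov_of_chunkM cB17_11_3_173)) (LitT.cov_of_chunkM cB17_11_3_174)) (LitT.cov_of_chunkM cB17_11_3_175)) (LitT.cov_of_chunkM cB17_11_3_176))))) (LitT.Cov.split_E (LitT.cov_of_chunkM cB17_11_3_177)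 (LitT.Cov.split_t (LitT.Cov.split_e (LitT.Cov.split_x (LitT.Cov.split_t (LitT.cov_of_chunkM cB17_11_3_178) (LitT.cov_of_chunkM cB17_11_3_179)) (LitT.cov_of_chunkM cB17_11_3_180)) (LitT.Cov.split_x (LitT.cov_of_chunkM cB17_11_3_181) (LitT.cov_of_chunkM cB17_11_3_182))) (LitT.cov_of_chunkM cB17_11_3_183))))) (LitT.Cov.split_x (LitT.cov_of_chunkM cB17_11_3_184) (LitT.Cov.split_t (LitT.Cov.split_x (LitT.cov_of_chunkM cB17_11_3_185) (LitT.Cov.split_e (LitT.Cov.split_T (LitT.cov_of_chunkM cB17_11_3_186) (LitT.Cov.split_E (LitT.cov_of_chunkM cB17_11_3_187) (LitT.Cov.split_t (LitT.cov_of_chunkM cB17_11_3_188) (LitT.cov_of_chunkM cB17_11_3_189)))) (LitT.cov_of_chunkM cB17_11_3_190))) (LitT.Cov.split_T (LitT.Cov.split_T (LitT.cov_of_chunkM cB17_11_3_191) (LitT.Cov.split_T (LitT.cov_of_chunkM cB17_11_3_192) (LitT.Cov.split_T (LitT.cov_of_chunkM cB17_11_3_193) (LitT.Cov.split_X (LitT.Cov.split_X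 (LitT.Cov.split_e (LitT.cov_of_chunkM cB17_11_3_194) (LitT.cov_of_chunkM cB17_11_3_195)) (LitT.cov_of_chunkM cB17_11_3_196)) (LitT.cov_of_chunkM cB17_11_3_197))))) (LitT.Cov.split_E (LitT.cov_of_chunkM cB17_11_3_198) (LitT.Cov.split_e (LitT.Cov.split_x (LitT.cov_of_chunkM cB17_11_3_199) (LitT.cov_of_chunkM cB17_11_3_200)) (LitT.cov_of_chunkM cB17_11_3_201)))))))) (LitT.cov_of_chunkM cB17_11_3_202))))) (LitT.cov_of_chunkM cB17_11_3_203))))))))), (LitT.cov_of_chunkM cB17_11_1_0), (LitT.cov_of_chunkM cB17_11_2_0), (LitT.cov_of_chunkM cB17_11_0_0)⟩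

end Vale.Agent.helper4.Q4
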