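import Vale.Agent.helper4.Q4TreeM
import Vale.Agent.helper4.Q4G.PB17_13_0
import Vale.Agent.helper4.Q4G.PB17_13_1
import Vale.Agent.helper4.Q4G.PB17_13_2
import Vale.Agent.helper4.Q4G.PB17_13_3
import Vale.Agent.helper4.Q4G.PB17_13_4
import Vale.Agent.helper4.Q4G.PB17_13_5
import Vale.Agent.helper4.Q4G.PB17_13_6

/-!
Checks for pairs of intervals of second moments.
-/

set_option maxRecDepth 100000
set_option linter.unusedVariables false

namespace Vale.Agent.helper4.Q4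

theorem covB17_13 : LB17_13.Full muQ.val RtB17_13 := ⟨(LitT.Cov.split_t (LitT.cov_of_chunkM cB17_13_3_0) (LitT.Cov.split_e (LitT.cov_of_chunkM cB17_13_3_1) (LitT.Cov.split_T (LitT.cov_of_chunkM cB17_13_3_2) (LitT.Cov.split_E (LitT.cov_of_chunkM cB17_13_3_3) (LitT.Cov.split_T (LitT.cov_of_chunkM cB17_13_3_4) (LitT.Cov.split_t (LitT.cov_of_chunkM cB17_13_3_5) (LitT.Cov.split_e (LitT.cov_of_chunkM cB17_13_3_6) (LitT.Cov.split_t (LitT.Cov.split_e (LitT.Cov.split_e (LitT.Cov.split_E (LitT.cov_of_chunkM cB17_13_3_7) (LitT.Cov.split_t (LitT.Cov.split_e (LitT.cov_of_chunkM cB17_13_3_8) (LitT.Cov.split_t (LitT.cov_of_chunkM cB17_13_3_9) (LitT.cov_of_chunkM cB17_13_3_10))) (LitT.cov_of_chunkM cB17_13_3_11))) (LitT.Cov.split_t (LitT.Cov.split_E (LitT.cov_of_chunkM cB17_13_3_12) (LitT.Cov.split_e (LitT.Cov.split_t (LitT.cov_of_chunkM cB17_13_3_13) (LitT.Cov.split_x (LitT.cov_of_chunkM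 cB17_13_3_14) (LitT.cov_of_chunkM cB17_13_3_15))) (LitT.cov_of_chunkM cB17_13_3_16))) (LitT.Cov.split_E (LitT.cov_of_chunkM cB17_13_3_17) (LitT.Cov.split_e (LitT.Cov.split_t (LitT.Cov.split_x (LitT.Cov.split_e (LitT.cov_of_chunkM cB17_13_3_18) (LitT.cov_of_chunkM cB17_13_3_19)) (LitT.cov_of_chunkM cB17_13_3_20)) (LitT.cov_of_chunkM cB17_13_3_21)) (LitT.Cov.split_x (LitT.Cov.split_t (LitT.cov_of_chunkM cB17_13_3_22) (LitT.Cov.split_e (LitT.Cov.split_x (LitT.cov_of_chunkM cB17_13_3_23) (LitT.cov_of_chunkM cB17_13_3_24)) (LitT.Cov.split_E (LitT.cov_of_chunkM cB17_13_3_25) (LitT.Cov.split_x (LitT.cov_of_chunkM cB17_13_3_26) (LitT.cov_of_chunkM cB17_13_3_27))))) (LitT.Cov.split_t (LitT.Cov.split_E (LitT.cov_of_chunkM cB17_13_3_28) (LitT.Cov.split_e (LitT.cov_of_chunkM cB17_13_3_29) (LitT.cov_of_chunkM cB17_13_3_30))) (LitT.cov_of_chunkM cB17_13_3_31))))))) (LitT.Cov.split_t (LitT.cov_of_chunkM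 cB17_13_3_32) (LitT.Cov.split_e (LitT.Cov.split_E (LitT.cov_of_chunkM cB17_13_3_33) (LitT.Cov.split_e (LitT.Cov.split_t (LitT.cov_of_chunkM cB17_13_3_34) (LitT.Cov.split_x (LitT.cov_of_chunkM cB17_13_3_35) (LitT.Cov.split_e (LitT.Cov.split_E (LitT.cov_of_chunkM cB17_13_3_36) (LitT.cov_of_chunkM cB17_13_3_37)) (LitT.Cov.split_E (LitT.cov_of_chunkM cB17_13_3_38) (LitT.cov_of_chunkM cB17_13_3_39))))) (LitT.cov_of_chunkM cB17_13_3_40))) (LitT.cov_of_chunkM cB17_13_3_41)))) (LitT.Cov.split_t (LitT.Cov.split_e (LitT.cov_of_chunkM cB17_13_3_42) (LitT.Cov.split_e (LitT.Cov.split_E (LitT.cov_of_chunkM cB17_13_3_43) (LitT.Cov.split_e (LitT.Cov.split_T (LitT.cov_of_chunkM cB17_13_3_44) (LitT.Cov.split_E (LitT.cov_of_chunkM cB17_13_3_45) (LitT.Cov.split_t (LitT.Cov.split_x (LitT.Cov.split_e (LitT.cov_of_chunkM cB17_13_3_46) (LitT.cov_of_chunkM cB17_13_3_47)) (LitT.cov_of_chunkM cB17_13_3_48))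 (LitT.cov_of_chunkM cB17_13_3_49)))) (LitT.Cov.split_x (LitT.cov_of_chunkM cB17_13_3_50) (LitT.Cov.split_t (LitT.Cov.split_e (LitT.Cov.split_E (LitT.cov_of_chunkM cB17_13_3_51) (LitT.Cov.split_x (LitT.cov_of_chunkM cB17_13_3_52) (LitT.cov_of_chunkM cB17_13_3_53))) (LitT.Cov.split_E (LitT.cov_of_chunkM cB17_13_3_54) (LitT.Cov.split_x (LitT.cov_of_chunkM cB17_13_3_55) (LitT.cov_of_chunkM cB17_13_3_56)))) (LitT.Cov.split_T (LitT.cov_of_chunkM cB17_13_3_57) (LitT.cov_of_chunkM cB17_13_3_58)))))) (LitT.Cov.split_x (LitT.cov_of_chunkM cB17_13_3_59) (LitT.Cov.split_E (LitT.cov_of_chunkM cB17_13_3_60) (LitT.Cov.split_e (LitT.Cov.split_t (LitT.cov_of_chunkM cB17_13_3_61) (LitT.Cov.split_T (LitT.cov_of_chunkM cB17_13_3_62) (LitT.Cov.split_E (LitT.cov_of_chunkM cB17_13_3_63) (LitT.Cov.split_e (LitT.Cov.split_x (LitT.cov_of_chunkM cB17_13_3_64) (LitT.Cov.split_t (LitT.cov_of_chunkM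 cB17_13_3_65) (LitT.cov_of_chunkM cB17_13_3_66))) (LitT.Cov.split_x (LitT.cov_of_chunkM cB17_13_3_67) (LitT.Cov.split_t (LitT.cov_of_chunkM cB17_13_3_68) (LitT.cov_of_chunkM cB17_13_3_69))))))) (LitT.cov_of_chunkM cB17_13_3_70)))))) (LitT.cov_of_chunkM cB17_13_3_71)))))))))), (LitT.cov_of_chunkM cB17_13_1_0), (LitT.cov_of_chunkM cB17_13_2_0), (LitT.cov_of_chunkM cB17_13_0_0)⟩

end Vale.Agent.helper4.Q4
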