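import Vale.Agent.helper4.Q4TreeM
import Vale.Agent.helper4.Q4G.PB17_8_0
import Vale.Agent.helper4.Q4G.PB17_8_1
import Vale.Agent.helper4.Q4G.PB17_8_2
import Vale.Agent.helper4.Q4G.PB17_8_3
import Vale.Agent.helper4.Q4G.PB17_8_4
import Vale.Agent.helper4.Q4G.PB17_8_5
import Vale.Agent.helper4.Q4G.PB17_8_6
import Vale.Agent.helper4.Q4G.PB17_8_7_0
import Vale.Agent.helper4.Q4G.PB17_8_7_1
import Vale.Agent.helper4.Q4G.PB17_8_7_2
import Vale.Agent.helper4.Q4G.PB17_8_7_3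
import Vale.Agent.helper4.Q4G.PB17_8_8
import Vale.Agent.helper4.Q4G.PB17_8_9
import Vale.Agent.helper4.Q4G.PB17_8_10
import Vale.Agent.helper4.Q4G.PB17_8_11
import Vale.Agent.helper4.Q4G.PB17_8_12
import Vale.Agent.helper4.Q4G.PB17_8_13
import Vale.Agent.helper4.Q4G.PB17_8_14
import Vale.Agent.helper4.Q4G.PB17_8_15
import Vale.Agent.helper4.Q4G.PB17_8_16
import Vale.Agent.helper4.Q4G.PB17_8_17
import Vale.Agent.helper4.Q4G.PB17_8_18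
import Vale.Agent.helper4.Q4G.PB17_8_19
import Vale.Agent.helper4.Q4G.PB17_8_20
import Vale.Agent.helper4.Q4G.PB17_8_21
import Vale.Agent.helper4.Q4G.PB17_8_22
import Vale.Agent.helper4.Q4G.PB17_8_23
import Vale.Agent.helper4.Q4G.PB17_8_24
import Vale.Agent.helper4.Q4G.PB17_8_25
import Vale.Agent.helper4.Q4G.PB17_8_26
import Vale.Agent.helper4.Q4G.PB17_8_27
import Vale.Agent.helper4.Q4G.PB17_8_28
import Vale.Agent.helper4.Q4G.PB17_8_29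
import Vale.Agent.helper4.Q4G.PB17_8_30
import Vale.Agent.helper4.Q4G.PB17_8_31
import Vale.Agent.helper4.Q4G.PB17_8_32
import Vale.Agent.helper4.Q4G.PB17_8_33
import Vale.Agent.helper4.Q4G.PB17_8_34
import Vale.Agent.helper4.Q4G.PB17_8_35
import Vale.Agent.helper4.Q4G.PB17_8_36
import Vale.Agent.helper4.Q4G.PB17_8_37
import Vale.Agent.helper4.Q4G.PB17_8_38
import Vale.Agent.helper4.Q4G.PB17_8_39
import Vale.Agent.helper4.Q4G.PB17_8_40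
import Vale.Agent.helper4.Q4G.PB17_8_41
import Vale.Agent.helper4.Q4G.PB17_8_42

/-!
Checks for pairs of intervals of second moments.
-/

set_option maxRecDepth 100000
set_option linter.unusedVariables false

namespace Vale.Agent.helper4.Q4

theorem covB17_8 : LB17_8.Full muQ.val RtB17_8 := ⟨(LitT.Cov.split_t (LitT.cov_of_chunkM cB17_8_3_0) (LitT.Cov.split_e (LitT.cov_of_chunkM cB17_8_3_1) (LitT.Cov.split_t (LitT.cov_of_chunkM cB17_8_3_2) (LitT.Cov.split_e (LitT.cov_of_chunkM cB17_8_3_3) (LitT.Cov.split_e (LitT.Cov.split_t (LitT.Cov.split_e (LitT.Cov.split_t (LitT.Cov.split_e (LitT.Cov.split_t (LitT.cov_of_chunkM cB17_8_3_4) (LitT.cov_of_chunkM cB17_8_3_5)) (LitT.Cov.split_t (LitT.Cov.split_x (LitT.Cov.split_e (LitT.cov_of_chunkM cB17_8_3_6) (LitT.cov_of_chunkM cB17_8_3_7)) (LitT.cov_of_chunkM cB17_8_3_8)) (LitT.Cov.split_x (LitT.Cov.split_e (LitT.cov_of_chunkM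 cB17_8_3_9) (LitT.Cov.split_x (LitT.cov_of_chunkM cB17_8_3_10) (LitT.cov_of_chunkM cB17_8_3_11))) (LitT.cov_of_chunkM cB17_8_3_12)))) (LitT.cov_of_chunkM cB17_8_3_13)) (LitT.Cov.split_t (LitT.Cov.split_e (LitT.Cov.split_t (LitT.cov_of_chunkM cB17_8_3_14) (LitT.Cov.split_x (LitT.Cov.split_e (LitT.Cov.split_x (LitT.cov_of_chunkM cB17_8_3_15) (LitT.Cov.split_t (LitT.cov_of_chunkM cB17_8_3_16) (LitT.cov_of_chunkM cB17_8_3_17))) (LitT.cov_of_chunkM cB17_8_3_18)) (LitT.cov_of_chunkM cB17_8_3_19))) (LitT.cov_of_chunkM cB17_8_3_20)) (LitT.Cov.split_e (LitT.Cov.split_x (LitT.Cov.split_t (LitT.Cov.split_e (LitT.Cov.split_x (LitT.Cov.split_T (LitT.Cov.split_E (LitT.Cov.split_t (LitT.Cov.split_e (LitT.cov_of_chunkM cB17_8_3_21) (LitT.cov_of_chunkM cB17_8_3_22)) (LitT.cov_of_chunkM cB17_8_3_23)) (LitT.cov_of_chunkM cB17_8_3_24)) (LitT.cov_of_chunkM cB17_8_3_25)) (LitT.cov_of_chunkM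 cB17_8_3_26)) (LitT.Cov.split_x (LitT.Cov.split_t (LitT.cov_of_chunkM cB17_8_3_27) (LitT.Cov.split_T (LitT.Cov.split_E (LitT.Cov.split_e (LitT.Cov.split_x (LitT.Cov.split_t (LitT.cov_of_chunkM cB17_8_3_28) (LitT.cov_of_chunkM cB17_8_3_29)) (LitT.cov_of_chunkM cB17_8_3_30)) (LitT.Cov.split_x (LitT.Cov.split_t (LitT.cov_of_chunkM cB17_8_3_31) (LitT.Cov.split_e (LitT.cov_of_chunkM cB17_8_3_32) (LitT.cov_of_chunkM cB17_8_3_33))) (LitT.cov_of_chunkM cB17_8_3_34))) (LitT.cov_of_chunkM cB17_8_3_35)) (LitT.cov_of_chunkM cB17_8_3_36))) (LitT.Cov.split_t (LitT.Cov.split_e (LitT.cov_of_chunkM cB17_8_3_37) (LitT.cov_of_chunkM cB17_8_3_38)) (LitT.cov_of_chunkM cB17_8_3_39)))) (LitT.Cov.split_T (LitT.Cov.split_x (LitT.Cov.split_E (LitT.Cov.split_e (LitT.cov_of_chunkM cB17_8_3_40) (LitT.Cov.split_t (LitT.Cov.split_e (LitT.cov_of_chunkM cB17_8_3_41) (LitT.Cov.split_x (LitT.Cov.split_T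 (LitT.Cov.split_E (LitT.Cov.split_t (LitT.cov_of_chunkM cB17_8_3_42) (LitT.cov_of_chunkM cB17_8_3_43)) (LitT.cov_of_chunkM cB17_8_3_44)) (LitT.cov_of_chunkM cB17_8_3_45)) (LitT.cov_of_chunkM cB17_8_3_46))) (LitT.cov_of_chunkM cB17_8_3_47))) (LitT.cov_of_chunkM cB17_8_3_48)) (LitT.cov_of_chunkM cB17_8_3_49)) (LitT.cov_of_chunkM cB17_8_3_50))) (LitT.cov_of_chunkM cB17_8_3_51)) (LitT.Cov.split_x (LitT.Cov.split_t (LitT.Cov.split_e (LitT.Cov.split_x (LitT.cov_of_chunkM cB17_8_3_52) (LitT.Cov.split_t (LitT.cov_of_chunkM cB17_8_3_53) (LitT.Cov.split_e (LitT.cov_of_chunkM cB17_8_3_54) (LitT.cov_of_chunkM cB17_8_3_55)))) (LitT.cov_of_chunkM cB17_8_3_56)) (LitT.Cov.split_e (LitT.Cov.split_x (LitT.Cov.split_T (LitT.Cov.split_E (LitT.Cov.split_t (LitT.Cov.split_e (LitT.Cov.split_x (LitT.Cov.split_t (LitT.cov_of_chunkM cB17_8_3_57) (LitT.cov_of_chunkM cB17_8_3_58))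 (LitT.Cov.split_t (LitT.cov_of_chunkM cB17_8_3_59) (LitT.cov_of_chunkM cB17_8_3_60))) (LitT.Cov.split_x (LitT.cov_of_chunkM cB17_8_3_61) (LitT.Cov.split_t (LitT.cov_of_chunkM cB17_8_3_62) (LitT.Cov.split_e (LitT.cov_of_chunkM cB17_8_3_63) (LitT.cov_of_chunkM cB17_8_3_64))))) (LitT.Cov.split_e (LitT.Cov.split_x (LitT.Cov.split_T (LitT.Cov.split_E (LitT.Cov.split_e (LitT.cov_of_chunkM cB17_8_3_65) (LitT.cov_of_chunkM cB17_8_3_66)) (LitT.cov_of_chunkM cB17_8_3_67)) (LitT.cov_of_chunkM cB17_8_3_68)) (LitT.cov_of_chunkM cB17_8_3_69)) (LitT.Cov.split_x (LitT.Cov.split_T (LitT.Cov.split_t (LitT.cov_of_chunkM cB17_8_3_70) (LitT.cov_of_chunkM cB17_8_3_71)) (LitT.cov_of_chunkM cB17_8_3_72)) (LitT.cov_of_chunkM cB17_8_3_73)))) (LitT.cov_of_chunkM cB17_8_3_74)) (LitT.Cov.split_E (LitT.cov_of_chunkM cB17_8_3_75) (LitT.Cov.split_t (LitT.cov_of_chunkM cB17_8_3_76) (LitT.cov_of_chunkM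 cB17_8_3_77)))) (LitT.Cov.split_T (LitT.Cov.split_E (LitT.Cov.split_t (LitT.Cov.split_e (LitT.cov_of_chunkM cB17_8_3_78) (LitT.Cov.split_x (LitT.Cov.split_t (LitT.cov_of_chunkM cB17_8_3_79) (LitT.cov_of_chunkM cB17_8_3_80)) (LitT.cov_of_chunkM cB17_8_3_81))) (LitT.cov_of_chunkM cB17_8_3_82)) (LitT.cov_of_chunkM cB17_8_3_83)) (LitT.cov_of_chunkM cB17_8_3_84))) (LitT.Cov.split_x (LitT.Cov.split_T (LitT.Cov.split_E (LitT.Cov.split_t (LitT.cov_of_chunkM cB17_8_3_85) (LitT.Cov.split_e (LitT.Cov.split_x (LitT.cov_of_chunkM cB17_8_3_86) (LitT.Cov.split_t (LitT.Cov.split_e (LitT.cov_of_chunkM cB17_8_3_87) (LitT.cov_of_chunkM cB17_8_3_88)) (LitT.cov_of_chunkM cB17_8_3_89))) (LitT.cov_of_chunkM cB17_8_3_90))) (LitT.cov_of_chunkM cB17_8_3_91)) (LitT.cov_of_chunkM cB17_8_3_92)) (LitT.Cov.split_t (LitT.Cov.split_T (LitT.Cov.split_e (LitT.Cov.split_E (LitT.Cov.split_x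 (LitT.Cov.split_t (LitT.cov_of_chunkM cB17_8_3_93) (LitT.Cov.split_e (LitT.cov_of_chunkM cB17_8_3_94) (LitT.cov_of_chunkM cB17_8_3_95))) (LitT.cov_of_chunkM cB17_8_3_96)) (LitT.cov_of_chunkM cB17_8_3_97)) (LitT.Cov.split_x (LitT.cov_of_chunkM cB17_8_3_98) (LitT.cov_of_chunkM cB17_8_3_99))) (LitT.cov_of_chunkM cB17_8_3_100)) (LitT.Cov.split_T (LitT.Cov.split_E (LitT.Cov.split_e (LitT.Cov.split_x (LitT.cov_of_chunkM cB17_8_3_101) (LitT.cov_of_chunkM cB17_8_3_102)) (LitT.Cov.split_x (LitT.Cov.split_t (LitT.Cov.split_e (LitT.cov_of_chunkM cB17_8_3_103) (LitT.cov_of_chunkM cB17_8_3_104)) (LitT.Cov.split_T (LitT.cov_of_chunkM cB17_8_3_105) (LitT.cov_of_chunkM cB17_8_3_106))) (LitT.cov_of_chunkM cB17_8_3_107))) (LitT.cov_of_chunkM cB17_8_3_108)) (LitT.cov_of_chunkM cB17_8_3_109)))))) (LitT.Cov.split_t (LitT.Cov.split_e (LitT.Cov.split_t (LitT.Cov.split_x (LitT.Cov.split_e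 (LitT.cov_of_chunkM cB17_8_3_110) (LitT.cov_of_chunkM cB17_8_3_111)) (LitT.cov_of_chunkM cB17_8_3_112)) (LitT.cov_of_chunkM cB17_8_3_113)) (LitT.Cov.split_x (LitT.Cov.split_t (LitT.cov_of_chunkM cB17_8_3_114) (LitT.Cov.split_e (LitT.cov_of_chunkM cB17_8_3_115) (LitT.cov_of_chunkM cB17_8_3_116))) (LitT.cov_of_chunkM cB17_8_3_117))) (LitT.cov_of_chunkM cB17_8_3_118)))))) (LitT.Cov.split_t (LitT.Cov.split_e (LitT.cov_of_chunkM cB17_8_3_119) (LitT.Cov.split_t (LitT.Cov.split_e (LitT.cov_of_chunkM cB17_8_3_120) (LitT.Cov.split_x (LitT.Cov.split_T (LitT.Cov.split_x (LitT.Cov.split_t (LitT.Cov.split_e (LitT.cov_of_chunkM cB17_8_3_121) (LitT.Cov.split_E (LitT.Cov.split_x (LitT.cov_of_chunkM cB17_8_3_122) (LitT.Cov.split_e (LitT.cov_of_chunkM cB17_8_3_123) (LitT.Cov.split_T (LitT.Cov.split_E (LitT.Cov.split_e (LitT.cov_of_chunkM cB17_8_3_124) (LitT.cov_of_chunkM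 cB17_8_3_125)) (LitT.cov_of_chunkM cB17_8_3_126)) (LitT.cov_of_chunkM cB17_8_3_127)))) (LitT.cov_of_chunkM cB17_8_3_128))) (LitT.cov_of_chunkM cB17_8_3_129)) (LitT.cov_of_chunkM cB17_8_3_130)) (LitT.cov_of_chunkM cB17_8_3_131)) (LitT.cov_of_chunkM cB17_8_3_132))) (LitT.cov_of_chunkM cB17_8_3_133))) (LitT.cov_of_chunkM cB17_8_3_134))) (LitT.Cov.split_t (LitT.Cov.split_t (LitT.cov_of_chunkM cB17_8_3_135) (LitT.Cov.split_e (LitT.Cov.split_e (LitT.Cov.split_x (LitT.Cov.split_t (LitT.cov_of_chunkM cB17_8_3_136) (LitT.Cov.split_x (LitT.cov_of_chunkM cB17_8_3_137) (LitT.Cov.split_e (LitT.Cov.split_t (LitT.cov_of_chunkM cB17_8_3_138) (LitT.Cov.split_T (LitT.Cov.split_e (LitT.Cov.split_E (LitT.Cov.split_x (LitT.Cov.split_t (LitT.cov_of_chunkM cB17_8_3_139) (LitT.Cov.split_e (LitT.cov_of_chunkM cB17_8_3_140) (LitT.cov_of_chunkM cB17_8_3_141))) (LitT.Cov.split_t (LitT.Cov.split_e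 (LitT.cov_of_chunkM cB17_8_3_142) (LitT.cov_of_chunkM cB17_8_3_143)) (LitT.Cov.split_e (LitT.cov_of_chunkM cB17_8_3_144) (LitT.cov_of_chunkM cB17_8_3_145)))) (LitT.cov_of_chunkM cB17_8_3_146)) (LitT.Cov.split_x (LitT.cov_of_chunkM cB17_8_3_147) (LitT.Cov.split_E (LitT.Cov.split_t (LitT.cov_of_chunkM cB17_8_3_148) (LitT.Cov.split_e (LitT.Cov.split_x (LitT.cov_of_chunkM cB17_8_3_149) (LitT.cov_of_chunkM cB17_8_3_150)) (LitT.cov_of_chunkM cB17_8_3_151))) (LitT.cov_of_chunkM cB17_8_3_152)))) (LitT.cov_of_chunkM cB17_8_3_153))) (LitT.cov_of_chunkM cB17_8_3_154)))) (LitT.Cov.split_t (LitT.Cov.split_e (LitT.Cov.split_t (LitT.cov_of_chunkM cB17_8_3_155) (LitT.Cov.split_x (LitT.cov_of_chunkM cB17_8_3_156) (LitT.Cov.split_e (LitT.cov_of_chunkM cB17_8_3_157) (LitT.cov_of_chunkM cB17_8_3_158)))) (LitT.cov_of_chunkM cB17_8_3_159)) (LitT.Cov.split_e (LitT.Cov.split_x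 (LitT.Cov.split_t (LitT.Cov.split_e (LitT.cov_of_chunkM cB17_8_3_160) (LitT.Cov.split_x (LitT.cov_of_chunkM cB17_8_3_161) (LitT.cov_of_chunkM cB17_8_3_162))) (LitT.Cov.split_T (LitT.Cov.split_E (LitT.Cov.split_e (LitT.cov_of_chunkM cB17_8_3_163) (LitT.Cov.split_x (LitT.Cov.split_t (LitT.cov_of_chunkM cB17_8_3_164) (LitT.cov_of_chunkM cB17_8_3_165)) (LitT.cov_of_chunkM cB17_8_3_166))) (LitT.cov_of_chunkM cB17_8_3_167)) (LitT.cov_of_chunkM cB17_8_3_168))) (LitT.cov_of_chunkM cB17_8_3_169)) (LitT.Cov.split_x (LitT.Cov.split_t (LitT.cov_of_chunkM cB17_8_3_170) (LitT.Cov.split_e (LitT.Cov.split_x (LitT.Cov.split_T (LitT.Cov.split_E (LitT.Cov.split_t (LitT.cov_of_chunkM cB17_8_3_171) (LitT.Cov.split_e (LitT.cov_of_chunkM cB17_8_3_172) (LitT.cov_of_chunkM cB17_8_3_173))) (LitT.cov_of_chunkM cB17_8_3_174)) (LitT.cov_of_chunkM cB17_8_3_175)) (LitT.cov_of_chunkM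 cB17_8_3_176)) (LitT.cov_of_chunkM cB17_8_3_177))) (LitT.Cov.split_t (LitT.Cov.split_e (LitT.Cov.split_x (LitT.cov_of_chunkM cB17_8_3_178) (LitT.cov_of_chunkM cB17_8_3_179)) (LitT.cov_of_chunkM cB17_8_3_180)) (LitT.Cov.split_e (LitT.cov_of_chunkM cB17_8_3_181) (LitT.cov_of_chunkM cB17_8_3_182))))))) (LitT.Cov.split_t (LitT.cov_of_chunkM cB17_8_3_183) (LitT.Cov.split_x (LitT.cov_of_chunkM cB17_8_3_184) (LitT.Cov.split_e (LitT.Cov.split_x (LitT.cov_of_chunkM cB17_8_3_185) (LitT.Cov.split_t (LitT.cov_of_chunkM cB17_8_3_186) (LitT.Cov.split_e (LitT.Cov.split_x (LitT.cov_of_chunkM cB17_8_3_187) (LitT.cov_of_chunkM cB17_8_3_188)) (LitT.cov_of_chunkM cB17_8_3_189)))) (LitT.cov_of_chunkM cB17_8_3_190))))) (LitT.cov_of_chunkM cB17_8_3_191))) (LitT.Cov.split_t (LitT.Cov.split_e (LitT.Cov.split_x (LitT.Cov.split_t (LitT.Cov.split_e (LitT.Cov.split_e (LitT.Cov.split_x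 (LitT.Cov.split_x (LitT.cov_of_chunkM cB17_8_3_192) (LitT.Cov.split_e (LitT.Cov.split_x (LitT.cov_of_chunkM cB17_8_3_193) (LitT.Cov.split_e (LitT.Cov.split_t (LitT.Cov.split_T (LitT.cov_of_chunkM cB17_8_3_194) (LitT.cov_of_chunkM cB17_8_3_195)) (LitT.cov_of_chunkM cB17_8_3_196)) (LitT.cov_of_chunkM cB17_8_3_197))) (LitT.cov_of_chunkM cB17_8_3_198))) (LitT.Cov.split_T (LitT.Cov.split_E (LitT.Cov.split_t (LitT.Cov.split_e (LitT.Cov.split_x (LitT.Cov.split_T (LitT.Cov.split_E (LitT.Cov.split_t (LitT.cov_of_chunkM cB17_8_3_199) (LitT.cov_of_chunkM cB17_8_3_200)) (LitT.cov_of_chunkM cB17_8_3_201)) (LitT.cov_of_chunkM cB17_8_3_202)) (LitT.cov_of_chunkM cB17_8_3_203)) (LitT.Cov.split_x (LitT.Cov.split_t (LitT.cov_of_chunkM cB17_8_3_204) (LitT.Cov.split_T (LitT.cov_of_chunkM cB17_8_3_205) (LitT.cov_of_chunkM cB17_8_3_206))) (LitT.Cov.split_t (LitT.Cov.split_e (LitT.cov_of_chunkM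 cB17_8_3_207) (LitT.cov_of_chunkM cB17_8_3_208)) (LitT.cov_of_chunkM cB17_8_3_209)))) (LitT.Cov.split_x (LitT.cov_of_chunkM cB17_8_3_210) (LitT.cov_of_chunkM cB17_8_3_211))) (LitT.cov_of_chunkM cB17_8_3_212)) (LitT.Cov.split_E (LitT.cov_of_chunkM cB17_8_3_213) (LitT.Cov.split_t (LitT.Cov.split_e (LitT.cov_of_chunkM cB17_8_3_214) (LitT.cov_of_chunkM cB17_8_3_215)) (LitT.cov_of_chunkM cB17_8_3_216))))) (LitT.Cov.split_x (LitT.cov_of_chunkM cB17_8_3_217) (LitT.Cov.split_T (LitT.Cov.split_E (LitT.Cov.split_t (LitT.Cov.split_x (LitT.cov_of_chunkM cB17_8_3_218) (LitT.Cov.split_e (LitT.Cov.split_t (LitT.Cov.split_e (LitT.cov_of_chunkM cB17_8_3_219) (LitT.cov_of_chunkM cB17_8_3_220)) (LitT.Cov.split_e (LitT.cov_of_chunkM cB17_8_3_221) (LitT.cov_of_chunkM cB17_8_3_222))) (LitT.cov_of_chunkM cB17_8_3_223))) (LitT.Cov.split_x (LitT.cov_of_chunkM cB17_8_3_224) (LitT.Cov.split_e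 (LitT.cov_of_chunkM cB17_8_3_225) (LitT.Cov.split_t (LitT.Cov.split_e (LitT.cov_of_chunkM cB17_8_3_226) (LitT.cov_of_chunkM cB17_8_3_227)) (LitT.cov_of_chunkM cB17_8_3_228))))) (LitT.cov_of_chunkM cB17_8_3_229)) (LitT.Cov.split_E (LitT.cov_of_chunkM cB17_8_3_230) (LitT.Cov.split_t (LitT.cov_of_chunkM cB17_8_3_231) (LitT.cov_of_chunkM cB17_8_3_232)))))) (LitT.cov_of_chunkM cB17_8_3_233)) (LitT.cov_of_chunkM cB17_8_3_234)) (LitT.Cov.split_e (LitT.Cov.split_t (LitT.Cov.split_e (LitT.cov_of_chunkM cB17_8_3_235) (LitT.Cov.split_x (LitT.Cov.split_T (LitT.Cov.split_E (LitT.Cov.split_t (LitT.Cov.split_e (LitT.Cov.split_x (LitT.Cov.split_t (LitT.Cov.split_e (LitT.cov_of_chunkM cB17_8_3_236) (LitT.Cov.split_x (LitT.cov_of_chunkM cB17_8_3_237) (LitT.cov_of_chunkM cB17_8_3_238))) (LitT.cov_of_chunkM cB17_8_3_239)) (LitT.cov_of_chunkM cB17_8_3_240)) (LitT.Cov.split_x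 (LitT.Cov.split_t (LitT.Cov.split_e (LitT.Cov.split_x (LitT.cov_of_chunkM cB17_8_3_241) (LitT.cov_of_chunkM cB17_8_3_242)) (LitT.cov_of_chunkM cB17_8_3_243)) (LitT.Cov.split_e (LitT.cov_of_chunkM cB17_8_3_244) (LitT.Cov.split_x (LitT.cov_of_chunkM cB17_8_3_245) (LitT.cov_of_chunkM cB17_8_3_246)))) (LitT.Cov.split_t (LitT.cov_of_chunkM cB17_8_3_247) (LitT.cov_of_chunkM cB17_8_3_248)))) (LitT.cov_of_chunkM cB17_8_3_249)) (LitT.cov_of_chunkM cB17_8_3_250)) (LitT.cov_of_chunkM cB17_8_3_251)) (LitT.cov_of_chunkM cB17_8_3_252))) (LitT.cov_of_chunkM cB17_8_3_253)) (LitT.Cov.split_t (LitT.Cov.split_e (LitT.Cov.split_x (LitT.Cov.split_t (LitT.Cov.split_e (LitT.Cov.split_x (LitT.Cov.split_t (LitT.cov_of_chunkM cB17_8_3_254) (LitT.Cov.split_T (LitT.Cov.split_E (LitT.Cov.split_e (LitT.Cov.split_x (LitT.cov_of_chunkM cB17_8_3_255) (LitT.cov_of_chunkM cB17_8_3_256))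 (LitT.cov_of_chunkM cB17_8_3_257)) (LitT.cov_of_chunkM cB17_8_3_258)) (LitT.cov_of_chunkM cB17_8_3_259))) (LitT.Cov.split_T (LitT.Cov.split_E (LitT.Cov.split_t (LitT.cov_of_chunkM cB17_8_3_260) (LitT.Cov.split_e (LitT.cov_of_chunkM cB17_8_3_261) (LitT.Cov.split_x (LitT.cov_of_chunkM cB17_8_3_262) (LitT.cov_of_chunkM cB17_8_3_263)))) (LitT.cov_of_chunkM cB17_8_3_264)) (LitT.cov_of_chunkM cB17_8_3_265))) (LitT.Cov.split_x (LitT.cov_of_chunkM cB17_8_3_266) (LitT.Cov.split_t (LitT.cov_of_chunkM cB17_8_3_267) (LitT.Cov.split_T (LitT.Cov.split_E (LitT.Cov.split_e (LitT.Cov.split_x (LitT.cov_of_chunkM cB17_8_3_268) (LitT.cov_of_chunkM cB17_8_3_269)) (LitT.cov_of_chunkM cB17_8_3_270)) (LitT.cov_of_chunkM cB17_8_3_271)) (LitT.cov_of_chunkM cB17_8_3_272))))) (LitT.Cov.split_T (LitT.Cov.split_E (LitT.Cov.split_e (LitT.Cov.split_x (LitT.Cov.split_t (LitT.Cov.split_e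 (LitT.cov_of_chunkM cB17_8_3_273) (LitT.cov_of_chunkM cB17_8_3_274)) (LitT.Cov.split_T (LitT.cov_of_chunkM cB17_8_3_275) (LitT.cov_of_chunkM cB17_8_3_276))) (LitT.cov_of_chunkM cB17_8_3_277)) (LitT.Cov.split_x (LitT.Cov.split_t (LitT.cov_of_chunkM cB17_8_3_278) (LitT.Cov.split_e (LitT.cov_of_chunkM cB17_8_3_279) (LitT.cov_of_chunkM cB17_8_3_280))) (LitT.Cov.split_t (LitT.Cov.split_e (LitT.cov_of_chunkM cB17_8_3_281) (LitT.Cov.split_x (LitT.Cov.split_t (LitT.cov_of_chunkM cB17_8_3_282) (LitT.cov_of_chunkM cB17_8_3_283)) (LitT.cov_of_chunkM cB17_8_3_284))) (LitT.cov_of_chunkM cB17_8_3_285)))) (LitT.cov_of_chunkM cB17_8_3_286)) (LitT.Cov.split_E (LitT.cov_of_chunkM cB17_8_3_287) (LitT.Cov.split_e (LitT.cov_of_chunkM cB17_8_3_288) (LitT.cov_of_chunkM cB17_8_3_289))))) (LitT.Cov.split_t (LitT.Cov.split_e (LitT.cov_of_chunkM cB17_8_3_290) (LitT.Cov.split_x (LitT.Cov.split_T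 (LitT.Cov.split_t (LitT.cov_of_chunkM cB17_8_3_291) (LitT.Cov.split_E (LitT.cov_of_chunkM cB17_8_3_292) (LitT.cov_of_chunkM cB17_8_3_293))) (LitT.cov_of_chunkM cB17_8_3_294)) (LitT.cov_of_chunkM cB17_8_3_295))) (LitT.cov_of_chunkM cB17_8_3_296))) (LitT.Cov.split_x (LitT.Cov.split_t (LitT.cov_of_chunkM cB17_8_3_297) (LitT.Cov.split_x (LitT.cov_of_chunkM cB17_8_3_298) (LitT.Cov.split_e (LitT.Cov.split_T (LitT.Cov.split_E (LitT.Cov.split_t (LitT.Cov.split_x (LitT.cov_of_chunkM cB17_8_3_299) (LitT.Cov.split_e (LitT.Cov.split_t (LitT.cov_of_chunkM cB17_8_3_300) (LitT.cov_of_chunkM cB17_8_3_301)) (LitT.cov_of_chunkM cB17_8_3_302))) (LitT.Cov.split_e (LitT.Cov.split_x (LitT.cov_of_chunkM cB17_8_3_303) (LitT.cov_of_chunkM cB17_8_3_304)) (LitT.Cov.split_x (LitT.cov_of_chunkM cB17_8_3_305) (LitT.cov_of_chunkM cB17_8_3_306)))) (LitT.cov_of_chunkM cB17_8_3_307)) (LitT.cov_of_chunkM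 cB17_8_3_308)) (LitT.cov_of_chunkM cB17_8_3_309)))) (LitT.Cov.split_t (LitT.Cov.split_e (LitT.Cov.split_x (LitT.cov_of_chunkM cB17_8_3_310) (LitT.cov_of_chunkM cB17_8_3_311)) (LitT.cov_of_chunkM cB17_8_3_312)) (LitT.Cov.split_e (LitT.Cov.split_T (LitT.Cov.split_E (LitT.Cov.split_x (LitT.Cov.split_t (LitT.Cov.split_e (LitT.Cov.split_x (LitT.cov_of_chunkM cB17_8_3_313) (LitT.cov_of_chunkM cB17_8_3_314)) (LitT.Cov.split_x (LitT.Cov.split_t (LitT.cov_of_chunkM cB17_8_3_315) (LitT.cov_of_chunkM cB17_8_3_316)) (LitT.cov_of_chunkM cB17_8_3_317))) (LitT.cov_of_chunkM cB17_8_3_318)) (LitT.cov_of_chunkM cB17_8_3_319)) (LitT.cov_of_chunkM cB17_8_3_320)) (LitT.cov_of_chunkM cB17_8_3_321)) (LitT.Cov.split_x (LitT.Cov.split_T (LitT.Cov.split_t (LitT.Cov.split_E (LitT.cov_of_chunkM cB17_8_3_322) (LitT.cov_of_chunkM cB17_8_3_323)) (LitT.Cov.split_E (LitT.Cov.split_e (LitT.Cov.split_x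 (LitT.Cov.split_t (LitT.cov_of_chunkM cB17_8_3_324) (LitT.cov_of_chunkM cB17_8_3_325)) (LitT.cov_of_chunkM cB17_8_3_326)) (LitT.Cov.split_x (LitT.Cov.split_t (LitT.cov_of_chunkM cB17_8_3_327) (LitT.cov_of_chunkM cB17_8_3_328)) (LitT.Cov.split_t (LitT.cov_of_chunkM cB17_8_3_329) (LitT.cov_of_chunkM cB17_8_3_330)))) (LitT.cov_of_chunkM cB17_8_3_331))) (LitT.cov_of_chunkM cB17_8_3_332)) (LitT.cov_of_chunkM cB17_8_3_333)))))) (LitT.Cov.split_x (LitT.Cov.split_t (LitT.Cov.split_e (LitT.Cov.split_T (LitT.Cov.split_E (LitT.Cov.split_e (LitT.cov_of_chunkM cB17_8_3_334) (LitT.Cov.split_x (LitT.cov_of_chunkM cB17_8_3_335) (LitT.cov_of_chunkM cB17_8_3_336))) (LitT.cov_of_chunkM cB17_8_3_337)) (LitT.cov_of_chunkM cB17_8_3_338)) (LitT.Cov.split_T (LitT.Cov.split_E (LitT.Cov.split_e (LitT.Cov.split_x (LitT.cov_of_chunkM cB17_8_3_339) (LitT.Cov.split_T (LitT.Cov.split_e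 (LitT.cov_of_chunkM cB17_8_3_340) (LitT.cov_of_chunkM cB17_8_3_341)) (LitT.cov_of_chunkM cB17_8_3_342))) (LitT.Cov.split_x (LitT.cov_of_chunkM cB17_8_3_343) (LitT.Cov.split_t (LitT.Cov.split_e (LitT.cov_of_chunkM cB17_8_3_344) (LitT.cov_of_chunkM cB17_8_3_345)) (LitT.Cov.split_e (LitT.cov_of_chunkM cB17_8_3_346) (LitT.cov_of_chunkM cB17_8_3_347))))) (LitT.cov_of_chunkM cB17_8_3_348)) (LitT.cov_of_chunkM cB17_8_3_349))) (LitT.cov_of_chunkM cB17_8_3_350)) (LitT.Cov.split_t (LitT.Cov.split_e (LitT.cov_of_chunkM cB17_8_3_351) (LitT.Cov.split_e (LitT.cov_of_chunkM cB17_8_3_352) (LitT.Cov.split_T (LitT.Cov.split_E (LitT.Cov.split_x (LitT.Cov.split_t (LitT.Cov.split_e (LitT.cov_of_chunkM cB17_8_3_353) (LitT.cov_of_chunkM cB17_8_3_354)) (LitT.cov_of_chunkM cB17_8_3_355)) (LitT.cov_of_chunkM cB17_8_3_356)) (LitT.cov_of_chunkM cB17_8_3_357)) (LitT.cov_of_chunkM cB17_8_3_358))))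 (LitT.cov_of_chunkM cB17_8_3_359)))))) (LitT.Cov.split_x (LitT.cov_of_chunkM cB17_8_3_360) (LitT.Cov.split_e (LitT.Cov.split_t (LitT.Cov.split_e (LitT.Cov.split_x (LitT.cov_of_chunkM cB17_8_3_361) (LitT.Cov.split_t (LitT.cov_of_chunkM cB17_8_3_362) (LitT.Cov.split_e (LitT.Cov.split_x (LitT.Cov.split_t (LitT.cov_of_chunkM cB17_8_3_363) (LitT.Cov.split_x (LitT.cov_of_chunkM cB17_8_3_364) (LitT.Cov.split_T (LitT.Cov.split_E (LitT.Cov.split_e (LitT.Cov.split_t (LitT.cov_of_chunkM cB17_8_3_365) (LitT.Cov.split_T (LitT.cov_of_chunkM cB17_8_3_366) (LitT.cov_of_chunkM cB17_8_3_367))) (LitT.cov_of_chunkM cB17_8_3_368)) (LitT.cov_of_chunkM cB17_8_3_369)) (LitT.cov_of_chunkM cB17_8_3_370)))) (LitT.Cov.split_t (LitT.cov_of_chunkM cB17_8_3_371) (LitT.Cov.split_T (LitT.Cov.split_E (LitT.Cov.split_e (LitT.cov_of_chunkM cB17_8_3_372) (LitT.Cov.split_x (LitT.cov_of_chunkM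 cB17_8_3_373) (LitT.cov_of_chunkM cB17_8_3_374))) (LitT.cov_of_chunkM cB17_8_3_375)) (LitT.cov_of_chunkM cB17_8_3_376)))) (LitT.Cov.split_x (LitT.cov_of_chunkM cB17_8_3_377) (LitT.Cov.split_t (LitT.cov_of_chunkM cB17_8_3_378) (LitT.Cov.split_T (LitT.Cov.split_e (LitT.cov_of_chunkM cB17_8_3_379) (LitT.cov_of_chunkM cB17_8_3_380)) (LitT.cov_of_chunkM cB17_8_3_381))))))) (LitT.cov_of_chunkM cB17_8_3_382)) (LitT.Cov.split_e (LitT.Cov.split_x (LitT.cov_of_chunkM cB17_8_3_383) (LitT.Cov.split_t (LitT.Cov.split_e (LitT.Cov.split_T (LitT.Cov.split_x (LitT.Cov.split_E (LitT.Cov.split_t (LitT.Cov.split_e (LitT.Cov.split_x (LitT.cov_of_chunkM cB17_8_3_384) (LitT.cov_of_chunkM cB17_8_3_385)) (LitT.Cov.split_x (LitT.cov_of_chunkM cB17_8_3_386) (LitT.Cov.split_t (LitT.cov_of_chunkM cB17_8_3_387) (LitT.cov_of_chunkM cB17_8_3_388)))) (LitT.Cov.split_e (LitT.cov_of_chunkM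 cB17_8_3_389) (LitT.cov_of_chunkM cB17_8_3_390))) (LitT.cov_of_chunkM cB17_8_3_391)) (LitT.cov_of_chunkM cB17_8_3_392)) (LitT.cov_of_chunkM cB17_8_3_393)) (LitT.Cov.split_x (LitT.Cov.split_T (LitT.Cov.split_E (LitT.Cov.split_t (LitT.cov_of_chunkM cB17_8_3_394) (LitT.Cov.split_e (LitT.Cov.split_x (LitT.cov_of_chunkM cB17_8_3_395) (LitT.cov_of_chunkM cB17_8_3_396)) (LitT.cov_of_chunkM cB17_8_3_397))) (LitT.cov_of_chunkM cB17_8_3_398)) (LitT.cov_of_chunkM cB17_8_3_399)) (LitT.Cov.split_T (LitT.Cov.split_E (LitT.Cov.split_t (LitT.Cov.split_e (LitT.Cov.split_x (LitT.Cov.split_t (LitT.Cov.split_e (LitT.cov_of_chunkM cB17_8_3_400) (LitT.cov_of_chunkM cB17_8_3_401)) (LitT.cov_of_chunkM cB17_8_3_402)) (LitT.cov_of_chunkM cB17_8_3_403)) (LitT.Cov.split_x (LitT.Cov.split_t (LitT.cov_of_chunkM cB17_8_3_404) (LitT.cov_of_chunkM cB17_8_3_405)) (LitT.Cov.split_t (LitT.cov_of_chunkM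 cB17_8_3_406) (LitT.cov_of_chunkM cB17_8_3_407)))) (LitT.Cov.split_e (LitT.cov_of_chunkM cB17_8_3_408) (LitT.Cov.split_x (LitT.Cov.split_T (LitT.cov_of_chunkM cB17_8_3_409) (LitT.cov_of_chunkM cB17_8_3_410)) (LitT.cov_of_chunkM cB17_8_3_411)))) (LitT.cov_of_chunkM cB17_8_3_412)) (LitT.cov_of_chunkM cB17_8_3_413)))) (LitT.Cov.split_T (LitT.Cov.split_E (LitT.Cov.split_e (LitT.cov_of_chunkM cB17_8_3_414) (LitT.Cov.split_x (LitT.cov_of_chunkM cB17_8_3_415) (LitT.cov_of_chunkM cB17_8_3_416))) (LitT.cov_of_chunkM cB17_8_3_417)) (LitT.cov_of_chunkM cB17_8_3_418)))) (LitT.Cov.split_x (LitT.cov_of_chunkM cB17_8_3_419) (LitT.Cov.split_t (LitT.Cov.split_x (LitT.cov_of_chunkM cB17_8_3_420) (LitT.Cov.split_e (LitT.Cov.split_t (LitT.Cov.split_x (LitT.cov_of_chunkM cB17_8_3_421) (LitT.Cov.split_T (LitT.Cov.split_e (LitT.Cov.split_E (LitT.Cov.split_t (LitT.cov_of_chunkM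 cB17_8_3_422) (LitT.Cov.split_e (LitT.cov_of_chunkM cB17_8_3_423) (LitT.cov_of_chunkM cB17_8_3_424))) (LitT.cov_of_chunkM cB17_8_3_425)) (LitT.cov_of_chunkM cB17_8_3_426)) (LitT.cov_of_chunkM cB17_8_3_427))) (LitT.Cov.split_T (LitT.Cov.split_E (LitT.Cov.split_e (LitT.Cov.split_x (LitT.cov_of_chunkM cB17_8_3_428) (LitT.Cov.split_T (LitT.Cov.split_t (LitT.cov_of_chunkM cB17_8_3_429) (LitT.cov_of_chunkM cB17_8_3_430)) (LitT.cov_of_chunkM cB17_8_3_431))) (LitT.Cov.split_x (LitT.cov_of_chunkM cB17_8_3_432) (LitT.Cov.split_t (LitT.cov_of_chunkM cB17_8_3_433) (LitT.cov_of_chunkM cB17_8_3_434)))) (LitT.cov_of_chunkM cB17_8_3_435)) (LitT.cov_of_chunkM cB17_8_3_436))) (LitT.cov_of_chunkM cB17_8_3_437))) (LitT.Cov.split_e (LitT.Cov.split_T (LitT.Cov.split_x (LitT.cov_of_chunkM cB17_8_3_438) (LitT.Cov.split_E (LitT.Cov.split_t (LitT.Cov.split_e (LitT.cov_of_chunkM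 cB17_8_3_439) (LitT.Cov.split_x (LitT.cov_of_chunkM cB17_8_3_440) (LitT.cov_of_chunkM cB17_8_3_441))) (LitT.cov_of_chunkM cB17_8_3_442)) (LitT.cov_of_chunkM cB17_8_3_443))) (LitT.cov_of_chunkM cB17_8_3_444)) (LitT.Cov.split_x (LitT.cov_of_chunkM cB17_8_3_445) (LitT.Cov.split_T (LitT.Cov.split_E (LitT.Cov.split_t (LitT.Cov.split_e (LitT.Cov.split_x (LitT.cov_of_chunkM cB17_8_3_446) (LitT.cov_of_chunkM cB17_8_3_447)) (LitT.cov_of_chunkM cB17_8_3_448)) (LitT.cov_of_chunkM cB17_8_3_449)) (LitT.cov_of_chunkM cB17_8_3_450)) (LitT.cov_of_chunkM cB17_8_3_451)))))))) (LitT.cov_of_chunkM cB17_8_3_452)))) (LitT.cov_of_chunkM cB17_8_3_453)))))))), (LitT.Cov.split_t (LitT.cov_of_chunkM cB17_8_1_0) (LitT.Cov.split_e (LitT.cov_of_chunkM cB17_8_1_1) (LitT.Cov.split_T (LitT.Cov.split_T (LitT.Cov.split_T (LitT.Cov.split_T (LitT.Cov.split_T (LitT.Cov.split_T (LitT.Cov.split_E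 (LitT.Cov.split_E (LitT.Cov.split_E (LitT.Cov.split_E (LitT.Cov.split_E (LitT.Cov.split_X (LitT.Cov.split_E (LitT.Cov.split_E (LitT.Cov.split_X (LitT.Cov.split_T (LitT.Cov.split_T (LitT.Cov.split_E (LitT.Cov.split_E (LitT.Cov.split_X (LitT.Cov.split_T (LitT.Cov.split_T (LitT.Cov.split_E (LitT.Cov.split_E (LitT.Cov.split_X (LitT.Cov.split_T (LitT.Cov.split_T (LitT.Cov.split_E (LitT.Cov.split_X (LitT.Cov.split_X (LitT.Cov.split_t (LitT.cov_of_chunkM cB17_8_1_2) (LitT.Cov.split_e (LitT.cov_of_chunkM cB17_8_1_3) (LitT.Cov.split_e (LitT.Cov.split_t (LitT.Cov.split_e (LitT.cov_of_chunkM cB17_8_1_4) (LitT.Cov.split_t (LitT.cov_of_chunkM cB17_8_1_5) (LitT.Cov.split_e (LitT.cov_of_chunkM cB17_8_1_6) (LitT.Cov.split_x (LitT.Cov.split_t (LitT.cov_of_chunkM cB17_8_1_7) (LitT.Cov.split_e (LitT.cov_of_chunkM cB17_8_1_8) (LitT.cov_of_chunkM cB17_8_1_9))) (LitT.cov_of_chunkM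 cB17_8_1_10))))) (LitT.cov_of_chunkM cB17_8_1_11)) (LitT.Cov.split_t (LitT.Cov.split_t (LitT.cov_of_chunkM cB17_8_1_12) (LitT.Cov.split_e (LitT.Cov.split_e (LitT.cov_of_chunkM cB17_8_1_13) (LitT.cov_of_chunkM cB17_8_1_14)) (LitT.cov_of_chunkM cB17_8_1_15))) (LitT.Cov.split_t (LitT.Cov.split_e (LitT.Cov.split_x (LitT.Cov.split_t (LitT.Cov.split_e (LitT.Cov.split_e (LitT.Cov.split_x (LitT.cov_of_chunkM cB17_8_1_16) (LitT.cov_of_chunkM cB17_8_1_17)) (LitT.Cov.split_x (LitT.cov_of_chunkM cB17_8_1_18) (LitT.Cov.split_t (LitT.cov_of_chunkM cB17_8_1_19) (LitT.cov_of_chunkM cB17_8_1_20)))) (LitT.cov_of_chunkM cB17_8_1_21)) (LitT.cov_of_chunkM cB17_8_1_22)) (LitT.Cov.split_e (LitT.cov_of_chunkM cB17_8_1_23) (LitT.Cov.split_t (LitT.Cov.split_e (LitT.Cov.split_x (LitT.Cov.split_t (LitT.cov_of_chunkM cB17_8_1_24) (LitT.Cov.split_e (LitT.cov_of_chunkM cB17_8_1_25) (LitT.cov_of_chunkM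 cB17_8_1_26))) (LitT.cov_of_chunkM cB17_8_1_27)) (LitT.cov_of_chunkM cB17_8_1_28)) (LitT.Cov.split_e (LitT.cov_of_chunkM cB17_8_1_29) (LitT.cov_of_chunkM cB17_8_1_30))))) (LitT.Cov.split_x (LitT.cov_of_chunkM cB17_8_1_31) (LitT.Cov.split_e (LitT.Cov.split_t (LitT.cov_of_chunkM cB17_8_1_32) (LitT.Cov.split_e (LitT.Cov.split_x (LitT.cov_of_chunkM cB17_8_1_33) (LitT.Cov.split_t (LitT.Cov.split_e (LitT.cov_of_chunkM cB17_8_1_34) (LitT.cov_of_chunkM cB17_8_1_35)) (LitT.cov_of_chunkM cB17_8_1_36))) (LitT.Cov.split_x (LitT.cov_of_chunkM cB17_8_1_37) (LitT.Cov.split_t (LitT.cov_of_chunkM cB17_8_1_38) (LitT.cov_of_chunkM cB17_8_1_39))))) (LitT.cov_of_chunkM cB17_8_1_40)))) (LitT.cov_of_chunkM cB17_8_1_41)))))) (LitT.cov_of_chunkM cB17_8_1_42)) (LitT.cov_of_chunkM cB17_8_1_43)) (LitT.cov_of_chunkM cB17_8_1_44)) (LitT.cov_of_chunkM cB17_8_1_45)) (LitT.cov_of_chunkM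 cB17_8_1_46)) (LitT.cov_of_chunkM cB17_8_1_47)) (LitT.cov_of_chunkM cB17_8_1_48)) (LitT.cov_of_chunkM cB17_8_1_49)) (LitT.cov_of_chunkM cB17_8_1_50)) (LitT.cov_of_chunkM cB17_8_1_51)) (LitT.cov_of_chunkM cB17_8_1_52)) (LitT.cov_of_chunkM cB17_8_1_53)) (LitT.cov_of_chunkM cB17_8_1_54)) (LitT.cov_of_chunkM cB17_8_1_55)) (LitT.cov_of_chunkM cB17_8_1_56)) (LitT.cov_of_chunkM cB17_8_1_57)) (LitT.cov_of_chunkM cB17_8_1_58)) (LitT.cov_of_chunkM cB17_8_1_59)) (LitT.cov_of_chunkM cB17_8_1_60)) (LitT.cov_of_chunkM cB17_8_1_61)) (LitT.cov_of_chunkM cB17_8_1_62)) (LitT.cov_of_chunkM cB17_8_1_63)) (LitT.cov_of_chunkM cB17_8_1_64)) (LitT.cov_of_chunkM cB17_8_1_65)) (LitT.cov_of_chunkM cB17_8_1_66)) (LitT.cov_of_chunkM cB17_8_1_67)) (LitT.cov_of_chunkM cB17_8_1_68)) (LitT.cov_of_chunkM cB17_8_1_69)) (LitT.cov_of_chunkM cB17_8_1_70)) (LitT.cov_of_chunkM cB17_8_1_71)))),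 (LitT.cov_of_chunkM cB17_8_2_0), (LitT.cov_of_chunkM cB17_8_0_0)⟩

end Vale.Agent.helper4.Q4
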