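import Vale.Agent.helper4.Q4TreeM
import Vale.Agent.helper4.Q4G.PB20_13_0
import Vale.Agent.helper4.Q4G.PB20_13_1
import Vale.Agent.helper4.Q4G.PB20_13_2

/-!
Checks for pairs of intervals of second moments.
-/

set_option maxRecDepth 100000
set_option linter.unusedVariables false

namespace Vale.Agent.helper4.Q4

theorem covB20_13 : LB20_13.Full muQ.val RtB20_13 := ⟨(LitT.Cov.split_t (LitT.cov_of_chunkM cB20_13_3_0) (LitT.Cov.split_T (LitT.cov_of_chunkM cB20_13_3_1) (LitT.Cov.split_E (LitT.cov_of_chunkM cB20_13_3_2) (LitT.Cov.split_T (LitT.cov_of_chunkM cB20_13_3_3) (LitT.Cov.split_t (LitT.cov_of_chunkM cB20_13_3_4) (LitT.Cov.split_e (LitT.cov_of_chunkM cB20_13_3_5) (LitT.Cov.split_t (LitT.cov_of_chunkM cB20_13_3_6) (LitT.Cov.split_e (LitT.cov_of_chunkM cB20_13_3_7) (LitT.Cov.split_e (LitT.Cov.split_E (LitT.cov_of_chunkM cB20_13_3_8) (LitT.Cov.split_e (LitT.cov_of_chunkM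 cB20_13_3_9) (LitT.Cov.split_t (LitT.Cov.split_e (LitT.Cov.split_t (LitT.Cov.split_t (LitT.cov_of_chunkM cB20_13_3_10) (LitT.Cov.split_t (LitT.cov_of_chunkM cB20_13_3_11) (LitT.Cov.split_x (LitT.Cov.split_x (LitT.Cov.split_x (LitT.Cov.split_e (LitT.cov_of_chunkM cB20_13_3_12) (LitT.cov_of_chunkM cB20_13_3_13)) (LitT.cov_of_chunkM cB20_13_3_14)) (LitT.cov_of_chunkM cB20_13_3_15)) (LitT.cov_of_chunkM cB20_13_3_16)))) (LitT.Cov.split_e (LitT.cov_of_chunkM cB20_13_3_17) (LitT.Cov.split_E (LitT.cov_of_chunkM cB20_13_3_18) (LitT.Cov.split_x (LitT.Cov.split_T (LitT.cov_of_chunkM cB20_13_3_19) (LitT.Cov.split_t (LitT.Cov.split_x (LitT.cov_of_chunkM cB20_13_3_20) (LitT.cov_of_chunkM cB20_13_3_21)) (LitT.cov_of_chunkM cB20_13_3_22))) (LitT.cov_of_chunkM cB20_13_3_23))))) (LitT.Cov.split_t (LitT.cov_of_chunkM cB20_13_3_24) (LitT.Cov.split_x (LitT.Cov.split_E (LitT.Cov.split_e (LitT.cov_of_chunkM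 cB20_13_3_25) (LitT.cov_of_chunkM cB20_13_3_26)) (LitT.Cov.split_T (LitT.cov_of_chunkM cB20_13_3_27) (LitT.Cov.split_e (LitT.Cov.split_t (LitT.cov_of_chunkM cB20_13_3_28) (LitT.cov_of_chunkM cB20_13_3_29)) (LitT.Cov.split_x (LitT.cov_of_chunkM cB20_13_3_30) (LitT.Cov.split_t (LitT.cov_of_chunkM cB20_13_3_31) (LitT.cov_of_chunkM cB20_13_3_32)))))) (LitT.Cov.split_t (LitT.cov_of_chunkM cB20_13_3_33) (LitT.Cov.split_E (LitT.cov_of_chunkM cB20_13_3_34) (LitT.cov_of_chunkM cB20_13_3_35)))))) (LitT.cov_of_chunkM cB20_13_3_36)))) (LitT.Cov.split_e (LitT.Cov.split_t (LitT.Cov.split_e (LitT.Cov.split_E (LitT.cov_of_chunkM cB20_13_3_37) (LitT.Cov.split_t (LitT.cov_of_chunkM cB20_13_3_38) (LitT.cov_of_chunkM cB20_13_3_39))) (LitT.cov_of_chunkM cB20_13_3_40)) (LitT.Cov.split_x (LitT.cov_of_chunkM cB20_13_3_41) (LitT.Cov.split_t (LitT.Cov.split_E (LitT.cov_of_chunkM cB20_13_3_42) (LitT.Cov.split_e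 (LitT.Cov.split_E (LitT.cov_of_chunkM cB20_13_3_43) (LitT.Cov.split_e (LitT.cov_of_chunkM cB20_13_3_44) (LitT.Cov.split_T (LitT.cov_of_chunkM cB20_13_3_45) (LitT.Cov.split_t (LitT.Cov.split_x (LitT.cov_of_chunkM cB20_13_3_46) (LitT.cov_of_chunkM cB20_13_3_47)) (LitT.cov_of_chunkM cB20_13_3_48))))) (LitT.Cov.split_e (LitT.Cov.split_x (LitT.cov_of_chunkM cB20_13_3_49) (LitT.Cov.split_E (LitT.cov_of_chunkM cB20_13_3_50) (LitT.cov_of_chunkM cB20_13_3_51))) (LitT.cov_of_chunkM cB20_13_3_52)))) (LitT.cov_of_chunkM cB20_13_3_53)))) (LitT.cov_of_chunkM cB20_13_3_54))))))))))), (LitT.cov_of_chunkM cB20_13_1_0), (LitT.cov_of_chunkM cB20_13_2_0), (LitT.cov_of_chunkM cB20_13_0_0)⟩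

end Vale.Agent.helper4.Q4
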